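import Vale.Agent.P160.Half.AStmt

/-! # P160, rate 1/2, part (A): the exchange count (StmtA4) -/

set_option linter.unusedSectionVars false

namespace Vale.Agent.P160.Half.A4

open Finset Matrix Vale.Agent.P160.Half Vale.Agent.P160.Half.A

section lin

variable {n : ℕ} {β : Type*} [Fintype β] [DecidableEq β]

theorem cob_mulVec (R : β → Fin n) (g : β → Fin n → ℚ) (x : Fin n → ℚ) (j : Fin n) :
    (cob R g *ᵥ x) j = (∑ i, x (R i) * g i j) + if j ∈ univ.image R then 0 else x j := by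
  simp only [mulVec, dotProduct, cob, add_mul, Finset.sum_add_distrib]
  congr 1
  · simp_rw [Finset.sum_mul]
    rw [Finset.sum_comm]
    refine Finset.sum_congr rfl fun i _ => ?_
    simp [mul_comm]
  · rw [Finset.sum_eq_single j]
    · by_cases h : j ∈ univ.image R <;> simp [h]
    · intro k _ hk
      by_cases h : k ∈ univ.image R
      · simp [h]
      · rw [if_neg h, if_neg (Ne.symm hk), zero_mul]
    · simp

theorem cobT_not (R : β → Fin n) (g : β → Fin n → ℚ) (y : Fin n → ℚ) {k : Fin n}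
    (hk : k ∉ univ.image R) : ((cob R g)ᵀ *ᵥ y) k = y k := by
  simp only [mulVec, dotProduct, transpose_apply, cob]
  have h1 : ∀ i, R i ≠ k := fun i h => hk (by rw [← h]; exact mem_image_of_mem R (mem_univ i))
  simp [h1]

theorem cobT_R {R : β → Fin n} (hR : Function.Injective R) (g : β → Fin n → ℚ) (y : Fin n → ℚ)
    (i : β) : ((cob R g)ᵀ *ᵥ y) (R i) = g i ⬝ᵥ y := by
  simp only [mulVec, dotProduct, transpose_apply, cob]
  refine Finset.sum_congr rfl fun j _ => ?_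
  rw [if_pos (mem_image_of_mem R (mem_univ i)), add_zero]
  simp [hR.eq_iff]

theorem cob_single_not (R : β → Fin n) (g : β → Fin n → ℚ) {k : Fin n}
    (hk : k ∉ univ.image R) : cob R g *ᵥ Pi.single k 1 = Pi.single k 1 := by
  funext j
  rw [cob_mulVec]
  have h1 : ∀ i, (Pi.single k (1 : ℚ) : Fin n → ℚ) (R i) = 0 := fun i => by
    rw [Pi.single_apply, if_neg]
    intro h
    exact hk (by rw [← h]; exact mem_image_of_mem R (mem_univ i))
  simp only [h1, zero_mul, Finset.sum_const_zero, zero_add]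
  by_cases h : j ∈ univ.image R
  · rw [if_pos h, Pi.single_apply, if_neg]
    rintro rfl
    exact hk h
  · rw [if_neg h]

theorem cob_single_R {R : β → Fin n} (hR : Function.Injective R) (g : β → Fin n → ℚ) (i : β) :
    cob R g *ᵥ Pi.single (R i) 1 = g i := by
  funext j
  rw [cob_mulVec]
  have h1 : ∀ i', (Pi.single (R i) (1 : ℚ) : Fin n → ℚ) (R i') = if i' = i then 1 else 0 :=
    fun i' => by rw [Pi.single_apply]; simp [hR.eq_iff]
  simp only [h1, ite_mul, one_mul, zero_mul, Finset.sum_ite_eq', Finset.mem_univ, if_true]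
  by_cases h : j ∈ univ.image R
  · simp [h]
  · rw [if_neg h, Pi.single_apply, if_neg, add_zero]
    rintro rfl
    exact h (mem_image_of_mem R (mem_univ i))

theorem vecMul_eq (R : β → Fin n) (g : β → Fin n → ℚ) (x : Fin n → ℚ) (k : β) :
    ((fun i => x (R i)) ᵥ* (Matrix.of fun i k : β => g i (R k))) k = (cob R g *ᵥ x) (R k) := by
  rw [cob_mulVec, if_pos (mem_image_of_mem R (mem_univ k)), add_zero]
  rfl

theorem det_cob_ne (R : β → Fin n) (g : β → Fin n → ℚ) (h : minor R g ≠ 0) :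
    (cob R g).det ≠ 0 := by
  intro h0
  obtain ⟨v, hv, hv0⟩ := exists_mulVec_eq_zero_iff.2 h0
  have h1 : (fun i => v (R i)) = 0 := by
    refine eq_zero_of_vecMul_eq_zero h ?_
    funext k
    rw [vecMul_eq, hv0]
    rfl
  refine hv (funext fun j => ?_)
  by_cases hj : j ∈ univ.image R
  · obtain ⟨i, _, rfl⟩ := mem_image.1 hj
    exact congrFun h1 i
  · have h2 := congrFun hv0 j
    rw [cob_mulVec, if_neg hj] at h2
    have h3 : ∀ i, v (R i) = 0 := fun i => congrFun h1 i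
    simpa [h3] using h2

theorem det_bd {κ : Type*} [Fintype κ] [DecidableEq κ] (A : Matrix κ κ ℚ) {X : ℝ}
    (h : ∀ i j, |((A i j : ℚ) : ℝ)| ≤ X) :
    |((A.det : ℚ) : ℝ)| ≤ (Fintype.card κ).factorial * X ^ Fintype.card κ := by
  have h1 := Matrix.det_le (A := A)
    (abv := (AbsoluteValue.abs.comp (f := algebraMap ℚ ℝ) (algebraMap ℚ ℝ).injective)) (x := X) h
  rw [nsmul_eq_mul] at h1
  exact h1

/-- coordinates (new basis) of `e_(R i)` -/
noncomputable def xv (R : β → Fin n) (g : β → Fin n → ℚ) (i : β) : Fin n → ℚ :=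
  (cob R g)⁻¹ *ᵥ Pi.single (R i) 1

theorem cob_xv (R : β → Fin n) (g : β → Fin n → ℚ) (h : minor R g ≠ 0) (i : β) :
    cob R g *ᵥ xv R g i = Pi.single (R i) 1 := by
  rw [xv, mulVec_mulVec, mul_nonsing_inv _ (isUnit_iff_ne_zero.2 (det_cob_ne R g h)), one_mulVec]

theorem xv_R {R : β → Fin n} (hR : Function.Injective R) (g : β → Fin n → ℚ)
    (h : minor R g ≠ 0) (i k : β) :
    xv R g i (R k) = (Matrix.of fun i k : β => g i (R k))⁻¹ i k := by
  set A : Matrix β β ℚ := Matrix.of fun i k : β => g i (R k) with hA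
  have hu : IsUnit A.det := isUnit_iff_ne_zero.2 h
  have h1 : (fun i' => xv R g i (R i')) ᵥ* A = Pi.single i 1 := by
    funext k'
    rw [hA, vecMul_eq, cob_xv R g h, Pi.single_apply, Pi.single_apply]
    simp [hR.eq_iff]
  have h2 : (fun i' => xv R g i (R i')) = (Pi.single i 1) ᵥ* A⁻¹ := by
    rw [← h1, vecMul_vecMul, mul_nonsing_inv _ hu, vecMul_one]
  have h3 := congrFun h2 k
  rw [h3]
  simp

theorem xv_R_bd {R : β → Fin n} (hR : Function.Injective R) (g : β → Fin n → ℚ) {X δ : ℝ}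
    (hX : 1 ≤ X) (hδ : 0 < δ) (hg : ∀ i, BdQ X (g i)) (h : δ ≤ |((minor R g : ℚ) : ℝ)|)
    (i k : β) : |((xv R g i (R k) : ℚ) : ℝ)| ≤
      (Fintype.card β).factorial * X ^ Fintype.card β / δ := by
  have hm : minor R g ≠ 0 := by
    intro h0
    rw [h0] at h
    simp at h
    linarith
  rw [xv_R hR g hm]
  set A : Matrix β β ℚ := Matrix.of fun i k : β => g i (R k) with hA
  have hdet : A.det = minor R g := rfl
  rw [Matrix.inv_def, Matrix.smul_apply, smul_eq_mul, Ring.inverse_eq_inv', hdet]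
  push_cast
  rw [abs_mul, abs_inv, adjugate_apply]
  have h1 : |(((A.updateRow k (Pi.single i 1)).det : ℚ) : ℝ)| ≤
      (Fintype.card β).factorial * X ^ Fintype.card β := by
    refine det_bd _ fun i' j' => ?_
    rw [updateRow_apply]
    split_ifs with h2
    · rw [Pi.single_apply]
      split_ifs
      · simpa using hX
      · simp; linarith
    · exact hg i' (R j')
  rw [div_eq_inv_mul]
  refine mul_le_mul ?_ h1 (abs_nonneg _) (by positivity)
  exact inv_anti₀ hδ h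

theorem xv_bd {R : β → Fin n} (hR : Function.Injective R) (g : β → Fin n → ℚ) {X δ : ℝ}
    (hX : 1 ≤ X) (hδ : 0 < δ) (hg : ∀ i, BdQ X (g i))
    (h : δ ≤ |((minor R g : ℚ) : ℝ)|) (i : β) (j : Fin n) : |((xv R g i j : ℚ) : ℝ)| ≤
      (1 + Fintype.card β * X) * ((Fintype.card β).factorial * X ^ Fintype.card β / δ) := by
  have hm : minor R g ≠ 0 := by
    intro h0
    rw [h0] at h
    simp at h
    linarith
  set Y : ℝ := (Fintype.card β).factorial * X ^ Fintype.card β / δ with hY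
  have hY0 : 0 ≤ Y := by positivity
  have hX0 : 0 ≤ X := by linarith
  by_cases hj : j ∈ univ.image R
  · obtain ⟨k, _, rfl⟩ := mem_image.1 hj
    refine (xv_R_bd hR g hX hδ hg h i k).trans ?_
    rw [← hY]
    have : 0 ≤ (Fintype.card β : ℝ) * X * Y := by positivity
    nlinarith
  · have h1 := congrFun (cob_xv R g hm i) j
    rw [cob_mulVec, if_neg hj, Pi.single_apply, if_neg] at h1
    · have h2 : xv R g i j = -∑ k, xv R g i (R k) * g k j := by linarith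
      rw [h2]
      push_cast
      rw [abs_neg]
      refine (Finset.abs_sum_le_sum_abs _ _).trans ?_
      refine (Finset.sum_le_sum (g := fun _ => Y * X) fun k _ => ?_).trans ?_
      · rw [abs_mul]
        exact mul_le_mul (xv_R_bd hR g hX hδ hg h i k) (hg k j) (abs_nonneg _) hY0
      · rw [Finset.sum_const, Finset.card_univ, nsmul_eq_mul]
        nlinarith
    · rintro rfl
      exact hj (mem_image_of_mem R (mem_univ i))

theorem tv_bd {R : β → Fin n} {g₀ : β → Fin n → ℚ} {x : Fin n → ℚ} {X Y : ℝ}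
    (hY : 0 ≤ Y) (hg : ∀ i, BdQ X (g₀ i)) (hx : ∀ j, |((x j : ℚ) : ℝ)| ≤ Y)
    (j : Fin n) : |(((cob R g₀ *ᵥ x) j : ℚ) : ℝ)| ≤ (1 + Fintype.card β * X) * Y := by
  rw [cob_mulVec]
  push_cast
  refine (abs_add_le _ _).trans ?_
  have h1 : |∑ i, ((x (R i) : ℚ) : ℝ) * ((g₀ i j : ℚ) : ℝ)| ≤ Fintype.card β * (Y * X) := by
    refine (Finset.abs_sum_le_sum_abs _ _).trans ?_
    refine (Finset.sum_le_sum (g := fun _ => Y * X) fun k _ => ?_).trans ?_
    · rw [abs_mul]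
      exact mul_le_mul (hx _) (hg k j) (abs_nonneg _) hY
    · rw [Finset.sum_const, Finset.card_univ, nsmul_eq_mul]
  have h2 : |(((if j ∈ univ.image R then 0 else x j : ℚ)) : ℝ)| ≤ Y := by
    split_ifs
    · simpa using hY
    · exact hx j
  have h3 := add_le_add h1 h2
  refine le_trans ?_ (h3.trans (by nlinarith))
  simp

theorem newP_eq {R : β → Fin n} (hR : Function.Injective R) {g g' : β → Fin n → ℚ}
    {P P' : Matrix (Fin n) (Fin n) ℤ} (hP : P.IsSymm) (hP' : P'.IsSymm)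
    (h1 : ∀ j ∉ univ.image R, ∀ k ∉ univ.image R, P j k = P' j k)
    (h2 : ∀ j ∉ univ.image R, ∀ i, (PQ P *ᵥ g i) j = (PQ P' *ᵥ g' i) j)
    (h3 : ∀ i k, g i ⬝ᵥ (PQ P *ᵥ g k) = g' i ⬝ᵥ (PQ P' *ᵥ g' k)) :
    newP P R g = newP P' R g' := by
  have key : ∀ (Q : Matrix (Fin n) (Fin n) ℤ) (γ : β → Fin n → ℚ) (j k : Fin n),
      newP Q R γ j k = ((cob R γ)ᵀ *ᵥ (PQ Q *ᵥ (cob R γ *ᵥ Pi.single k 1))) j := by
    intro Q γ j k
    rw [mulVec_mulVec, mulVec_mulVec, mulVec_single_one]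
    rfl
  have hsy : ∀ (Q : Matrix (Fin n) (Fin n) ℤ), Q.IsSymm → ∀ (y : Fin n → ℚ) (k : Fin n),
      y ⬝ᵥ (PQ Q *ᵥ Pi.single k 1) = (PQ Q *ᵥ y) k := by
    intro Q hQ y k
    rw [mulVec_single_one, mulVec, dotProduct_comm]
    unfold dotProduct
    refine Finset.sum_congr rfl fun j _ => ?_
    have : Q j k = Q k j := hQ.apply _ _
    simp only [col_apply, PQ, map_apply, this]
  ext j k
  rw [key, key]
  by_cases hk : k ∈ univ.image R
  · obtain ⟨i, _, rfl⟩ := mem_image.1 hk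
    rw [cob_single_R hR, cob_single_R hR]
    by_cases hj : j ∈ univ.image R
    · obtain ⟨i', _, rfl⟩ := mem_image.1 hj
      rw [cobT_R hR, cobT_R hR]
      exact h3 i' i
    · rw [cobT_not R g _ hj, cobT_not R g' _ hj]
      exact h2 j hj i
  · rw [cob_single_not R g hk, cob_single_not R g' hk]
    by_cases hj : j ∈ univ.image R
    · obtain ⟨i', _, rfl⟩ := mem_image.1 hj
      rw [cobT_R hR, cobT_R hR, hsy P hP, hsy P' hP']
      exact h2 k hk i'
    · rw [cobT_not R g _ hj, cobT_not R g' _ hj, mulVec_single_one, mulVec_single_one]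
      simp only [col_apply, PQ, map_apply, h1 j hj k hk]

theorem newP_xv {R : β → Fin n} (g : β → Fin n → ℚ) (P : Matrix (Fin n) (Fin n) ℤ)
    (h : minor R g ≠ 0) (i : β) :
    newP P R g *ᵥ xv R g i = (cob R g)ᵀ *ᵥ (PQ P *ᵥ Pi.single (R i) 1) := by
  rw [newP, ← mulVec_mulVec, ← mulVec_mulVec, cob_xv R g h]

/-- everything can be recovered -/
theorem recover {R : β → Fin n} (hR : Function.Injective R) {g g' : β → Fin n → ℚ}
    {P P' : Matrix (Fin n) (Fin n) ℤ} (hP : P.IsSymm) (hP' : P'.IsSymm)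
    (hm : minor R g ≠ 0) (hm' : minor R g' ≠ 0)
    (h1 : ∀ j ∉ univ.image R, ∀ k ∉ univ.image R, P j k = P' j k)
    (hN : newP P R g = newP P' R g') (hx : ∀ i, xv R g i = xv R g' i) :
    P = P' ∧ ∀ i k, (PQ P *ᵥ g i) (R k) = (PQ P' *ᵥ g' i) (R k) := by
  have hsy : ∀ (Q : Matrix (Fin n) (Fin n) ℤ), Q.IsSymm → ∀ (y : Fin n → ℚ) (k : Fin n),
      y ⬝ᵥ (PQ Q *ᵥ Pi.single k 1) = (PQ Q *ᵥ y) k := by
    intro Q hQ y k
    rw [mulVec_single_one, mulVec, dotProduct_comm]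
    unfold dotProduct
    refine Finset.sum_congr rfl fun j _ => ?_
    have : Q j k = Q k j := hQ.apply _ _
    simp only [col_apply, PQ, map_apply, this]
  have hv : ∀ i, (cob R g)ᵀ *ᵥ (PQ P *ᵥ Pi.single (R i) 1) =
      (cob R g')ᵀ *ᵥ (PQ P' *ᵥ Pi.single (R i) 1) := by
    intro i
    rw [← newP_xv g P hm, ← newP_xv g' P' hm', hN, hx]
  have hcol : ∀ j ∉ univ.image R, ∀ i, P j (R i) = P' j (R i) := by
    intro j hj i
    have h := congrFun (hv i) j
    rw [cobT_not R g _ hj, cobT_not R g' _ hj, mulVec_single_one, mulVec_single_one] at h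
    simp only [col_apply, PQ, map_apply] at h
    exact_mod_cast h
  have hRR : ∀ i k, P (R i) (R k) = P' (R i) (R k) := by
    have hq : ∀ (Q : Matrix (Fin n) (Fin n) ℤ) (γ : β → Fin n → ℚ), minor R γ ≠ 0 → ∀ i k,
        (Q (R i) (R k) : ℚ) = xv R γ i ⬝ᵥ (newP Q R γ *ᵥ xv R γ k) := by
      intro Q γ hγ i k
      rw [newP_xv γ Q hγ, mulVec_transpose, ← dotProduct_comm, ← dotProduct_mulVec, cob_xv R γ hγ,
        dotProduct_single, mul_one, mulVec_single_one]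
      simp [PQ]
    intro i k
    have := (hq P g hm i k).trans ((by rw [hN, hx, hx] : _ = _).trans (hq P' g' hm' i k).symm)
    exact_mod_cast this
  constructor
  · ext j k
    by_cases hj : j ∈ univ.image R
    · obtain ⟨i, _, rfl⟩ := mem_image.1 hj
      by_cases hk : k ∈ univ.image R
      · obtain ⟨i', _, rfl⟩ := mem_image.1 hk
        exact hRR i i'
      · rw [← hP.apply, ← hP'.apply]
        exact hcol k hk i
    · by_cases hk : k ∈ univ.image R
      · obtain ⟨i', _, rfl⟩ := mem_image.1 hk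
        exact hcol j hj i'
      · exact h1 j hj k hk
  · intro i k
    have h := congrFun (hv k) (R i)
    rw [cobT_R hR, cobT_R hR, hsy P hP, hsy P' hP'] at h
    exact h

/-- the pairings of the transported vector outside `R` -/
theorem pair_out {R : β → Fin n} {g g₀ : β → Fin n → ℚ}
    {P P₀ : Matrix (Fin n) (Fin n) ℤ} (hm : minor R g ≠ 0)
    (hN : newP P R g = newP P₀ R g₀) (i : β) {j : Fin n} (hj : j ∉ univ.image R) :
    (PQ P₀ *ᵥ (cob R g₀ *ᵥ xv R g i)) j = (P j (R i) : ℚ) := by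
  have h0 := cobT_not R g₀ (PQ P₀ *ᵥ (cob R g₀ *ᵥ xv R g i)) hj
  have h1 : (cob R g₀)ᵀ *ᵥ (PQ P₀ *ᵥ (cob R g₀ *ᵥ xv R g i)) = newP P₀ R g₀ *ᵥ xv R g i := by
    rw [newP, ← mulVec_mulVec, ← mulVec_mulVec]
  rw [← h0, h1, ← hN, newP_xv g P hm, cobT_not R g _ hj, mulVec_single_one]
  simp [PQ]

theorem sum01 (z : β → ℚ) (hz : ∀ i, z i = 0 ∨ z i = 1) (c : β → Bool) :
    ∃ m : ℤ, 0 ≤ m ∧ m ≤ Fintype.card β ∧ ∑ i, (if c i then z i else 0) = m := by
  refine ⟨((univ.filter fun i => c i = true ∧ z i = 1).card : ℤ), by positivity, ?_, ?_⟩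
  · exact_mod_cast Finset.card_le_univ _
  · rw [Finset.card_filter]
    push_cast
    refine Finset.sum_congr rfl fun i _ => ?_
    rcases hz i with h | h <;> by_cases hc : c i = true <;> simp [h, hc]

theorem newH_val {R : β → Fin n} (hR : Function.Injective R) (g : β → Fin n → ℚ)
    {P : Matrix (Fin n) (Fin n) ℤ} (hP : P.IsSymm) (h01 : ∀ i j, P i j = 0 ∨ P i j = 1)
    (hg : ∀ i k, (PQ P *ᵥ g i) (R k) = 0 ∨ (PQ P *ᵥ g i) (R k) = 1) (c : β → Bool) (j : Fin n) :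
    ∃ m : ℤ, 0 ≤ m ∧ m ≤ Fintype.card β ∧ newH P R g c j = m := by
  have hpair : ∀ y : Fin n → ℚ, y ⬝ᵥ (fun j => ∑ i, if c i then (if R i = j then (1 : ℚ) else 0)
      else 0) = ∑ i, (if c i then y (R i) else 0) := by
    intro y
    unfold dotProduct
    simp_rw [Finset.mul_sum]
    rw [Finset.sum_comm]
    refine Finset.sum_congr rfl fun i _ => ?_
    by_cases hc : c i = true <;> simp [hc]
  have hdot : ∀ y : Fin n → ℚ, ∀ v : Fin n → ℚ, y ⬝ᵥ (PQ P *ᵥ v) = (PQ P *ᵥ y) ⬝ᵥ v := by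
    intro y v
    have h1 : (PQ P)ᵀ = PQ P := by
      ext i k
      have : P k i = P i k := hP.apply _ _
      simp only [transpose_apply, PQ, map_apply, this]
    rw [dotProduct_mulVec, ← mulVec_transpose, h1]
  rw [newH]
  by_cases hj : j ∈ univ.image R
  · obtain ⟨i, _, rfl⟩ := mem_image.1 hj
    rw [cobT_R hR, hdot, hpair]
    exact sum01 _ (fun k => hg i k) c
  · rw [cobT_not R g _ hj]
    have h2 : (PQ P *ᵥ fun j => ∑ i, if c i then (if R i = j then (1 : ℚ) else 0) else 0) j =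
        ∑ i, (if c i then (P j (R i) : ℚ) else 0) := hpair (fun k => PQ P j k)
    rw [h2]
    refine sum01 _ (fun k => ?_) c
    rcases h01 j (R k) with h | h <;> simp [h]

theorem PQ_det (P : Matrix (Fin n) (Fin n) ℤ) : (PQ P).det = (P.det : ℚ) :=
  ((Int.castRingHom ℚ).map_det P).symm

theorem PQ_dual {P : Matrix (Fin n) (Fin n) ℤ} (hP : P.det ≠ 0) (y : Fin n → ℤ) :
    PQ P *ᵥ dual P y = fun i => (y i : ℚ) := by
  have h : IsUnit (PQ P).det := by
    rw [PQ_det]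
    exact isUnit_iff_ne_zero.2 (by exact_mod_cast hP)
  rw [dual, mulVec_mulVec, mul_nonsing_inv _ h, one_mulVec]

theorem dual_eq {P : Matrix (Fin n) (Fin n) ℤ} (hP : P.det ≠ 0) (y : Fin n → ℤ) (x : Fin n → ℚ)
    (h : (fun i => (y i : ℚ)) = PQ P *ᵥ x) : dual P y = x := by
  have h1 : IsUnit (PQ P).det := by
    rw [PQ_det]
    exact isUnit_iff_ne_zero.2 (by exact_mod_cast hP)
  rw [dual, h, mulVec_mulVec, nonsing_inv_mul _ h1, one_mulVec]

theorem mem_newL {L : Submodule ℤ (Fin n → ℚ)} {R : β → Fin n} {g : β → Fin n → ℚ}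
    {x : Fin n → ℚ} : x ∈ newL L R g ↔ cob R g *ᵥ x ∈ L := Iff.rfl

theorem cls_finite (P : Matrix (Fin n) (Fin n) ℤ) (L : Submodule ℤ (Fin n → ℚ)) (s : ℕ) (X : ℝ) :
    (cls P L s X).Finite := by
  refine Set.Finite.subset (Finset.finite_toSet
    (Fintype.piFinset fun _ : Fin n => Finset.Icc (-⌈X⌉) ⌈X⌉)) ?_
  intro y hy
  rw [Finset.mem_coe, Fintype.mem_piFinset]
  intro j
  have h := abs_le.1 (hy.2.1 j)
  have h1 : X ≤ (⌈X⌉ : ℝ) := Int.le_ceil X
  rw [Finset.mem_Icc]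
  constructor
  · have : (-(⌈X⌉ : ℤ) : ℝ) ≤ (y j : ℝ) := by linarith [h.1]
    exact_mod_cast this
  · have : (y j : ℝ) ≤ ((⌈X⌉ : ℤ) : ℝ) := by linarith [h.2]
    exact_mod_cast this

end lin

section idx

/-- index in a finset -/
noncomputable def ix {γ : Type*} (s : Finset γ) (x : γ) : ℕ := by
  classical exact if h : x ∈ s then ((s.equivFin ⟨x, h⟩ : Fin s.card) : ℕ) else 0

theorem ix_lt {γ : Type*} {s : Finset γ} {x : γ} (h : x ∈ s) : ix s x < s.card := by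
  unfold ix
  rw [dif_pos h]
  exact Fin.isLt _

theorem ix_inj {γ : Type*} {s : Finset γ} {x y : γ} (hx : x ∈ s) (hy : y ∈ s)
    (h : ix s x = ix s y) : x = y := by
  unfold ix at h
  rw [dif_pos hx, dif_pos hy] at h
  have h1 := s.equivFin.injective (Fin.ext h)
  exact congrArg Subtype.val h1

end idx

section main

variable {n l M : ℕ}

theorem ent01 {E : Finset (Fin n)} {a : Fin n → ℤ} {F : Fin n → Co l M → Bool} {q : Co l M}
    {j : Fin n} (hj : j ∉ E) : ent E a F q j = 0 ∨ ent E a F q j = 1 := by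
  unfold ent
  rw [if_neg hj]
  by_cases h : F j q = true <;> simp [h]

theorem ent_abs {E : Finset (Fin n)} {a : Fin n → ℤ} {F : Fin n → Co l M → Bool} {q : Co l M}
    {X : ℝ} (hX : 1 ≤ X) (ha : ∀ j, |(a j : ℝ)| ≤ X) (j : Fin n) :
    |((ent E a F q j : ℤ) : ℝ)| ≤ X := by
  by_cases hj : j ∈ E
  · unfold ent
    rw [if_pos hj]
    exact ha j
  · rcases ent01 (a := a) (F := F) (q := q) hj with h | h
    · rw [h]; simp; linarith
    · rw [h]; simpa using hX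

/-- the rows of the array -/
noncomputable def Drow (τ : Ty n l M) (E : Finset (Fin n)) (b : Bits n) (j : Fin n) :
    Finset (Co l M → Bool) := by
  classical exact if j ∈ E then {fun _ => false} else
    univ.filter fun x => bq x - τ.v (fun i => b s(j, i)) ∈ τ.W

/-- the data which is kept -/
noncomputable def key {s₁ : ℕ} (τ : Ty n l M) (E : Finset (Fin n)) (a : Fin n → ℤ)
    (R : τ.I → Fin n) (c : Fin s₁ → τ.I → Bool)
    (lab : Matrix (Fin n) (Fin n) ℚ → (Fin s₁ → Fin n → ℚ) → Finset (Submodule ℤ (Fin n → ℚ)))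
    (Lf : Bits n × (Fin n → Co l M → Bool) → Submodule ℤ (Fin n → ℚ)) (bF : Bits n × (Fin n → Co l M → Bool)) :
    (Sym2 {j // j ∉ univ.image R} → Bool) × ({j // j ∉ univ.image R} → ℕ) ×
      (τ.I × τ.I → ℤ) × (Fin s₁ → Fin n → ℤ) × ℕ :=
  (fun e => bF.1 (e.map Subtype.val), fun j => ix (Drow τ E bF.1 j) (bF.2 j),
    fun p => ⌊gs (matZ bF.1) E a bF.2 τ.I p.1 ⬝ᵥ
      (PQ (matZ bF.1) *ᵥ gs (matZ bF.1) E a bF.2 τ.I p.2)⌋,
    fun t j => ⌊newH (matZ bF.1) R (gs (matZ bF.1) E a bF.2 τ.I) (c t) j⌋,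
    ix (lab (newP (matZ bF.1) R (gs (matZ bF.1) E a bF.2 τ.I))
      (fun t => newH (matZ bF.1) R (gs (matZ bF.1) E a bF.2 τ.I) (c t)))
      (newL (Lf bF) R (gs (matZ bF.1) E a bF.2 τ.I)))

/-- the range of the keys -/
noncomputable def keys (τ : Ty n l M) (R : τ.I → Fin n) (s₁ : ℕ) (X w lb : ℝ) :
    Finset ((Sym2 {j // j ∉ univ.image R} → Bool) × ({j // j ∉ univ.image R} → ℕ) ×
      (τ.I × τ.I → ℤ) × (Fin s₁ → Fin n → ℤ) × ℕ) :=
  univ ×ˢ (Fintype.piFinset fun _ => range ⌊w⌋₊) ×ˢ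
    (Fintype.piFinset fun _ => Icc (-⌊n * X ^ 2⌋) ⌊n * X ^ 2⌋) ×ˢ
    (Fintype.piFinset fun _ => Fintype.piFinset fun _ => Icc 0 (2 * (τ.I.card : ℤ))) ×ˢ
    range ⌊lb⌋₊

theorem card_keys (τ : Ty n l M) {R : τ.I → Fin n} (hR : Function.Injective R) (s₁ : ℕ)
    {X w lb : ℝ} (hw : 1 ≤ w) (hlb : 0 ≤ lb) :
    ((keys τ R s₁ X w lb).card : ℝ) ≤ (2 * (n * X ^ 2) + 1) ^ (τ.I.card ^ 2) *
      2 ^ (Fintype.card (Sym2 (Fin (n - τ.I.card)))) * w ^ (n - τ.I.card) *
      ((2 * (τ.I.card : ℝ) + 1) ^ n) ^ s₁ * lb := by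
  have hc : Fintype.card {j // j ∉ univ.image R} = n - τ.I.card := by
    rw [Fintype.card_of_subtype ((univ.image R)ᶜ) (fun x => mem_compl), card_compl,
      card_image_of_injective _ hR, card_univ, Fintype.card_coe, Fintype.card_fin]
  have hs : Fintype.card (Sym2 {j // j ∉ univ.image R}) =
      Fintype.card (Sym2 (Fin (n - τ.I.card))) := by
    rw [Sym2.card, Sym2.card, hc, Fintype.card_fin]
  have hq0 : 0 ≤ (n : ℝ) * X ^ 2 := by positivity
  have hf0 : 0 ≤ ⌊(n : ℝ) * X ^ 2⌋ := Int.floor_nonneg.2 hq0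
  unfold keys
  simp only [card_product, Fintype.card_piFinset, Finset.prod_const, card_univ, card_range,
    Int.card_Icc, Fintype.card_fin, Fintype.card_fun, Fintype.card_bool, hc, hs, Fintype.card_prod,
    Fintype.card_coe]
  have h1 : ((⌊(n : ℝ) * X ^ 2⌋ + 1 - -⌊(n : ℝ) * X ^ 2⌋).toNat : ℝ) ≤ 2 * (n * X ^ 2) + 1 := by
    have h2 : ((⌊(n : ℝ) * X ^ 2⌋ + 1 - -⌊(n : ℝ) * X ^ 2⌋).toNat : ℤ) =
        2 * ⌊(n : ℝ) * X ^ 2⌋ + 1 := by omega
    have h3 : ((⌊(n : ℝ) * X ^ 2⌋ + 1 - -⌊(n : ℝ) * X ^ 2⌋).toNat : ℝ) =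
        2 * (⌊(n : ℝ) * X ^ 2⌋ : ℝ) + 1 := by exact_mod_cast h2
    rw [h3]
    linarith [Int.floor_le ((n : ℝ) * X ^ 2)]
  have h4 : ((2 * (τ.I.card : ℤ) + 1 - 0).toNat : ℝ) = 2 * (τ.I.card : ℝ) + 1 := by
    have : (2 * (τ.I.card : ℤ) + 1 - 0).toNat = 2 * τ.I.card + 1 := by omega
    rw [this]
    push_cast
    rfl
  have h5 : ((⌊w⌋₊ : ℕ) : ℝ) ≤ w := Nat.floor_le (by linarith)
  have h6 : ((⌊lb⌋₊ : ℕ) : ℝ) ≤ lb := Nat.floor_le hlb
  push_cast
  rw [h4]
  have h7 : ((⌊w⌋₊ : ℕ) : ℝ) ^ (n - τ.I.card) ≤ w ^ (n - τ.I.card) :=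
    pow_le_pow_left₀ (Nat.cast_nonneg _) h5 _
  have h8 : ((⌊(n : ℝ) * X ^ 2⌋ + 1 - -⌊(n : ℝ) * X ^ 2⌋).toNat : ℝ) ^ (τ.I.card * τ.I.card) ≤
      (2 * (n * X ^ 2) + 1) ^ (τ.I.card ^ 2) := by
    rw [sq (τ.I.card)]
    exact pow_le_pow_left₀ (Nat.cast_nonneg _) h1 _
  calc (2 : ℝ) ^ Fintype.card (Sym2 (Fin (n - τ.I.card))) * ((⌊w⌋₊ : ℝ) ^ (n - τ.I.card) *
      (((⌊(n : ℝ) * X ^ 2⌋ + 1 - -⌊(n : ℝ) * X ^ 2⌋).toNat : ℝ) ^ (τ.I.card * τ.I.card) *
      (((2 * (τ.I.card : ℝ) + 1) ^ n) ^ s₁ * (⌊lb⌋₊ : ℝ))))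
      ≤ (2 : ℝ) ^ Fintype.card (Sym2 (Fin (n - τ.I.card))) * (w ^ (n - τ.I.card) *
      ((2 * (n * X ^ 2) + 1) ^ (τ.I.card ^ 2) *
      (((2 * (τ.I.card : ℝ) + 1) ^ n) ^ s₁ * lb))) := by gcongr
    _ = _ := by ring

/-- what is known about the elements of `T` -/
structure Ok {s₁ : ℕ} (τ : Ty n l M) (E : Finset (Fin n)) (a : Fin n → ℤ)
    (R : τ.I → Fin n) (c : Fin s₁ → τ.I → Bool) (X δ X' N : ℝ)
    (lab : Matrix (Fin n) (Fin n) ℚ → (Fin s₁ → Fin n → ℚ) → Finset (Submodule ℤ (Fin n → ℚ)))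
    (Lf : Bits n × (Fin n → Co l M → Bool) → Submodule ℤ (Fin n → ℚ)) (bF : Bits n × (Fin n → Co l M → Bool)) : Prop where
  det : (matZ bF.1).det ≠ 0
  ov : Over (matZ bF.1) (Lf bF)
  nc : ((cls (matZ bF.1) (Lf bF) τ.I.card X').ncard : ℝ) ≤ N
  rowE : ∀ j ∈ E, ∀ q, bF.2 j q = false
  fits : τ.Fits E bF.1 bF.2
  dl : ∀ q ∈ τ.I, dual (matZ bF.1) (ent E a bF.2 q) ∈ Lf bF ∧
    BdQ X (dual (matZ bF.1) (ent E a bF.2 q))
  mn : δ ≤ |((minor R (gs (matZ bF.1) E a bF.2 τ.I) : ℚ) : ℝ)|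
  lb : newL (Lf bF) R (gs (matZ bF.1) E a bF.2 τ.I) ∈
    lab (newP (matZ bF.1) R (gs (matZ bF.1) E a bF.2 τ.I))
      (fun t => newH (matZ bF.1) R (gs (matZ bF.1) E a bF.2 τ.I) (c t))

theorem matZ01 (b : Bits n) (i j : Fin n) : matZ b i j = 0 ∨ matZ b i j = 1 := by
  unfold matZ
  split_ifs <;> simp

theorem matZ_isSymm (b : Bits n) : (matZ b).IsSymm := by
  ext i j
  exact matZ_symm b j i

theorem matZ_inj {b b' : Bits n} (h : matZ b = matZ b') : b = b' := by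
  funext e
  induction e using Sym2.ind with
  | _ i j =>
    have h1 := congrFun (congrFun h i) j
    unfold matZ at h1
    by_cases h2 : b s(i, j) = true <;> by_cases h3 : b' s(i, j) = true <;> simp_all

section

variable {s₁ : ℕ} {τ : Ty n l M} {E : Finset (Fin n)} {a : Fin n → ℤ}
    {R : τ.I → Fin n} {c : Fin s₁ → τ.I → Bool} {X δ X' N : ℝ}
    {lab : Matrix (Fin n) (Fin n) ℚ → (Fin s₁ → Fin n → ℚ) → Finset (Submodule ℤ (Fin n → ℚ))}
    {Lf : Bits n × (Fin n → Co l M → Bool) → Submodule ℤ (Fin n → ℚ)} {bF bF' : Bits n × (Fin n → Co l M → Bool)}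

theorem Ok.gs_eq (h : Ok τ E a R c X δ X' N lab Lf bF) (q : τ.I) :
    PQ (matZ bF.1) *ᵥ gs (matZ bF.1) E a bF.2 τ.I q = fun j => (ent E a bF.2 (q : Co l M) j : ℚ) :=
  PQ_dual h.det _

theorem Ok.minor_ne (h : Ok τ E a R c X δ X' N lab Lf bF) (hδ : 0 < δ) :
    minor R (gs (matZ bF.1) E a bF.2 τ.I) ≠ 0 := by
  intro h0
  have := h.mn
  rw [h0] at this
  simp at this
  linarith

theorem Ok.drow (h : Ok τ E a R c X δ X' N lab Lf bF) (j : Fin n) :
    bF.2 j ∈ Drow τ E bF.1 j := by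
  classical
  unfold Drow
  split_ifs with hj
  · rw [mem_singleton]
    funext q
    exact h.rowE j hj q
  · rw [mem_filter]
    exact ⟨mem_univ _, h.fits j hj⟩

theorem drow_card {w : ℝ} (hw : 1 ≤ w)
    (hW : ∀ v : Co l M → ℚ, ∀ S : Finset (Co l M → Bool), (∀ x ∈ S, bq x - v ∈ τ.W) →
      (S.card : ℝ) ≤ w) (b : Bits n) (j : Fin n) : ((Drow τ E b j).card : ℝ) ≤ w := by
  classical
  unfold Drow
  split_ifs with hj
  · simpa using hw
  · refine hW (τ.v fun i => b s(j, i)) _ fun x hx => ?_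
    exact (mem_filter.1 hx).2

/-- integrality of the block -/
theorem Ok.int (h : Ok τ E a R c X δ X' N lab Lf bF) (p : τ.I × τ.I) :
    ∃ k : ℤ, gs (matZ bF.1) E a bF.2 τ.I p.1 ⬝ᵥ
      (PQ (matZ bF.1) *ᵥ gs (matZ bF.1) E a bF.2 τ.I p.2) = k :=
  h.ov.int _ (h.dl _ p.1.2).1 _ (h.dl _ p.2.2).1

theorem Ok.newH (h : Ok τ E a R c X δ X' N lab Lf bF) (hR : Function.Injective R)
    (hRE : ∀ i, R i ∉ E) (t : Fin s₁) (j : Fin n) :
    ∃ m : ℤ, 0 ≤ m ∧ m ≤ (τ.I.card : ℤ) ∧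
      A.newH (matZ bF.1) R (gs (matZ bF.1) E a bF.2 τ.I) (c t) j = m := by
  have h1 := newH_val hR (gs (matZ bF.1) E a bF.2 τ.I) (matZ_isSymm bF.1) (matZ01 bF.1)
    (fun i k => ?_) (c t) j
  · rwa [Fintype.card_coe] at h1
  · rw [h.gs_eq i]
    rcases ent01 (a := a) (F := bF.2) (q := (i : Co l M)) (hRE k) with h2 | h2
    · left; simp [h2]
    · right; simp [h2]

theorem Ok.mem_keys (h : Ok τ E a R c X δ X' N lab Lf bF) (hR : Function.Injective R)
    (hRE : ∀ i, R i ∉ E) (hX : 1 ≤ X) (ha : ∀ j, |(a j : ℝ)| ≤ X) {w lb : ℝ} (hw : 1 ≤ w)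
    (hW : ∀ v : Co l M → ℚ, ∀ S : Finset (Co l M → Bool), (∀ x ∈ S, bq x - v ∈ τ.W) →
      (S.card : ℝ) ≤ w)
    (hlab : ∀ M' h, ((lab M' h).card : ℝ) ≤ lb) :
    key τ E a R c lab Lf bF ∈ keys τ R s₁ X w lb := by
  unfold key keys
  simp only [mem_product, Fintype.mem_piFinset, mem_univ, true_and, Finset.mem_range, mem_Icc]
  refine ⟨fun j => ?_, fun p => ?_, fun t j => ?_, ?_⟩
  · refine (ix_lt (h.drow j)).trans_le ?_
    exact Nat.le_floor (drow_card hw hW _ _)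
  · obtain ⟨k, hk⟩ := h.int p
    have hX0 : 0 ≤ X := by linarith
    have hb : |((gs (matZ bF.1) E a bF.2 τ.I p.1 ⬝ᵥ
        (PQ (matZ bF.1) *ᵥ gs (matZ bF.1) E a bF.2 τ.I p.2) : ℚ) : ℝ)| ≤ n * X ^ 2 := by
      rw [h.gs_eq p.2, dotProduct]
      push_cast
      refine (Finset.abs_sum_le_sum_abs _ _).trans ?_
      refine (Finset.sum_le_sum (g := fun _ => X ^ 2) fun k _ => ?_).trans ?_
      · rw [abs_mul, sq]
        exact mul_le_mul ((h.dl _ p.1.2).2 k) (ent_abs hX ha k) (abs_nonneg _) hX0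
      · rw [Finset.sum_const, Finset.card_univ, nsmul_eq_mul, Fintype.card_fin]
    rw [hk] at hb ⊢
    rw [Int.floor_intCast]
    push_cast at hb
    have hb' := abs_le.1 hb
    constructor
    · have h3 : -k ≤ ⌊(n : ℝ) * X ^ 2⌋ := Int.le_floor.2 (by push_cast; linarith [hb'.1])
      linarith
    · exact Int.le_floor.2 hb'.2
  · obtain ⟨m, hm0, hm1, hm⟩ := h.newH hR hRE t j
    rw [hm, Int.floor_intCast]
    constructor
    · exact hm0
    · linarith
  · refine (ix_lt h.lb).trans_le ?_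
    exact Nat.le_floor (hlab _ _)

theorem Ok.same (hτ : τ.Ok) (hR : Function.Injective R) (hRS : ∀ i, R i ∉ τ.S)
    (hRE : ∀ i, R i ∉ E) (h : Ok τ E a R c X δ X' N lab Lf bF)
    (h' : Ok τ E a R c X δ X' N lab Lf bF')
    (hk : key τ E a R c lab Lf bF = key τ E a R c lab Lf bF') :
    (∀ j ∉ univ.image R, ∀ k ∉ univ.image R, matZ bF.1 j k = matZ bF'.1 j k) ∧
    (∀ j ∉ univ.image R, bF.2 j = bF'.2 j) ∧
    newP (matZ bF.1) R (gs (matZ bF.1) E a bF.2 τ.I) =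
      newP (matZ bF'.1) R (gs (matZ bF'.1) E a bF'.2 τ.I) ∧
    newL (Lf bF) R (gs (matZ bF.1) E a bF.2 τ.I) =
      newL (Lf bF') R (gs (matZ bF'.1) E a bF'.2 τ.I) := by
  unfold key at hk
  simp only [Prod.mk.injEq] at hk
  obtain ⟨e1, e2, e3, e4, e5⟩ := hk
  have k1 : ∀ j ∉ univ.image R, ∀ k ∉ univ.image R, bF.1 s(j, k) = bF'.1 s(j, k) := by
    intro j hj k hk
    exact congrFun e1 s(⟨j, hj⟩, ⟨k, hk⟩)
  have k1' : ∀ j ∉ univ.image R, ∀ k ∉ univ.image R, matZ bF.1 j k = matZ bF'.1 j k := by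
    intro j hj k hk
    unfold matZ
    rw [k1 j hj k hk]
  have k2 : ∀ j ∉ univ.image R, bF.2 j = bF'.2 j := by
    intro j hj
    have hD : Drow τ E bF.1 j = Drow τ E bF'.1 j := by
      have hv : τ.v (fun i => bF.1 s(j, i)) = τ.v (fun i => bF'.1 s(j, i)) := by
        refine hτ.dep _ _ fun i hi => k1 j hj i ?_
        intro hi'
        obtain ⟨i', _, rfl⟩ := mem_image.1 hi'
        exact hRS i' hi
      unfold Drow
      rw [hv]
    have h1 := congrFun e2 ⟨j, hj⟩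
    refine ix_inj (h.drow j) (hD ▸ h'.drow j) ?_
    rw [h1, hD]
  have k3 : ∀ i k, gs (matZ bF.1) E a bF.2 τ.I i ⬝ᵥ
      (PQ (matZ bF.1) *ᵥ gs (matZ bF.1) E a bF.2 τ.I k) =
      gs (matZ bF'.1) E a bF'.2 τ.I i ⬝ᵥ
      (PQ (matZ bF'.1) *ᵥ gs (matZ bF'.1) E a bF'.2 τ.I k) := by
    intro i k
    have h1 := congrFun e3 (i, k)
    obtain ⟨m, hm⟩ := h.int (i, k)
    obtain ⟨m', hm'⟩ := h'.int (i, k)
    simp only at h1 hm hm'
    rw [hm, hm', Int.floor_intCast, Int.floor_intCast] at h1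
    rw [hm, hm', h1]
  have k4 : (fun t => A.newH (matZ bF.1) R (gs (matZ bF.1) E a bF.2 τ.I) (c t)) =
      fun t => A.newH (matZ bF'.1) R (gs (matZ bF'.1) E a bF'.2 τ.I) (c t) := by
    funext t j
    have h1 := congrFun (congrFun e4 t) j
    obtain ⟨m, _, _, hm⟩ := h.newH hR hRE t j
    obtain ⟨m', _, _, hm'⟩ := h'.newH hR hRE t j
    rw [hm, hm', Int.floor_intCast, Int.floor_intCast] at h1
    rw [hm, hm', h1]
  have k5 : newP (matZ bF.1) R (gs (matZ bF.1) E a bF.2 τ.I) =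
      newP (matZ bF'.1) R (gs (matZ bF'.1) E a bF'.2 τ.I) := by
    refine newP_eq hR (matZ_isSymm _) (matZ_isSymm _) k1' (fun j hj i => ?_) k3
    rw [h.gs_eq i, h'.gs_eq i]
    show ((ent E a bF.2 (i : Co l M) j : ℤ) : ℚ) = ((ent E a bF'.2 (i : Co l M) j : ℤ) : ℚ)
    unfold ent
    rw [k2 j hj]
  refine ⟨k1', k2, k5, ?_⟩
  rw [← k4, ← k5] at e5
  refine ix_inj h.lb ?_ e5
  have h2 := h'.lb
  rwa [← k4, ← k5] at h2

theorem Ok.inj (hτ : τ.Ok) (hR : Function.Injective R) (hRS : ∀ i, R i ∉ τ.S)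
    (hRE : ∀ i, R i ∉ E) (hδ : 0 < δ) (h : Ok τ E a R c X δ X' N lab Lf bF)
    (h' : Ok τ E a R c X δ X' N lab Lf bF')
    (hk : key τ E a R c lab Lf bF = key τ E a R c lab Lf bF')
    (hx : ∀ i, xv R (gs (matZ bF.1) E a bF.2 τ.I) i = xv R (gs (matZ bF'.1) E a bF'.2 τ.I) i) :
    bF = bF' := by
  obtain ⟨k1, k2, k5, _⟩ := h.same hτ hR hRS hRE h' hk
  obtain ⟨hP, hg⟩ := recover hR (matZ_isSymm _) (matZ_isSymm _) (h.minor_ne hδ) (h'.minor_ne hδ)
    k1 k5 hx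
  have hb : bF.1 = bF'.1 := matZ_inj hP
  refine Prod.ext hb (funext fun j => ?_)
  by_cases hj : j ∈ univ.image R
  · obtain ⟨i, _, rfl⟩ := mem_image.1 hj
    have hv : τ.v (fun k => bF.1 s(R i, k)) = τ.v (fun k => bF'.1 s(R i, k)) := by rw [hb]
    have h1 := h.fits (R i) (hRE i)
    have h2 := h'.fits (R i) (hRE i)
    have h3 : bq (bF.2 (R i)) - bq (bF'.2 (R i)) ∈ τ.W := by
      have h4 := τ.W.sub_mem h1 h2
      rw [hv] at h4
      convert h4 using 1
      abel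
    have h5 : bq (bF.2 (R i)) - bq (bF'.2 (R i)) = 0 := by
      refine hτ.info _ h3 fun q hq => ?_
      have h6 := hg ⟨q, hq⟩ i
      rw [h.gs_eq, h'.gs_eq] at h6
      simp only at h6
      unfold ent at h6
      rw [if_neg (hRE i), if_neg (hRE i)] at h6
      rw [Pi.sub_apply]
      unfold bq
      by_cases h7 : bF.2 (R i) q = true <;> by_cases h8 : bF'.2 (R i) q = true <;>
        simp_all
    exact bq_injective (sub_eq_zero.1 h5)
  · exact k2 j hj

/-- the transported vectors are counted by the class of `P₀` -/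
theorem Ok.trans (hτ : τ.Ok) (hR : Function.Injective R) (hRS : ∀ i, R i ∉ τ.S)
    (hRE : ∀ i, R i ∉ E) (hδ : 0 < δ) (hX : 1 ≤ X) (hn : 0 < n)
    (hX' : n * (1 + τ.I.card * X) ^ 2 * (τ.I.card).factorial * X ^ τ.I.card / δ ≤ X')
    (h : Ok τ E a R c X δ X' N lab Lf bF)
    (h' : Ok τ E a R c X δ X' N lab Lf bF')
    (hk : key τ E a R c lab Lf bF = key τ E a R c lab Lf bF') (i : τ.I) :
    ∃ y ∈ cls (matZ bF'.1) (Lf bF') τ.I.card X',
      dual (matZ bF'.1) y = cob R (gs (matZ bF'.1) E a bF'.2 τ.I) *ᵥ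
        xv R (gs (matZ bF.1) E a bF.2 τ.I) i := by
  obtain ⟨k1, k2, k5, k6⟩ := h.same hτ hR hRS hRE h' hk
  set g := gs (matZ bF.1) E a bF.2 τ.I with hgdef
  set g' := gs (matZ bF'.1) E a bF'.2 τ.I with hg'def
  have hm := h.minor_ne hδ
  have hX0 : 0 ≤ X := by linarith
  have hstd : ∀ j : Fin n, (Pi.single j 1 : Fin n → ℚ) ∈ Lf bF := by
    intro j
    have := h.ov.std (Pi.single j 1)
    convert this using 1
    funext k
    rw [Pi.single_apply, Pi.single_apply]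
    split_ifs <;> simp
  have hstd' : ∀ j : Fin n, (Pi.single j 1 : Fin n → ℚ) ∈ Lf bF' := by
    intro j
    have := h'.ov.std (Pi.single j 1)
    convert this using 1
    funext k
    rw [Pi.single_apply, Pi.single_apply]
    split_ifs <;> simp
  have hmem : cob R g' *ᵥ xv R g i ∈ Lf bF' := by
    rw [← mem_newL, ← k6, mem_newL, cob_xv R g hm]
    exact hstd _
  have hint : ∀ j, ∃ k : ℤ, (PQ (matZ bF'.1) *ᵥ (cob R g' *ᵥ xv R g i)) j = k := by
    intro j
    obtain ⟨k, hk⟩ := h'.ov.int _ (hstd' j) _ hmem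
    refine ⟨k, ?_⟩
    rw [← hk, single_dotProduct, one_mul]
  choose y hy using hint
  have hyq : (fun j => (y j : ℚ)) = PQ (matZ bF'.1) *ᵥ (cob R g' *ᵥ xv R g i) :=
    funext fun j => (hy j).symm
  have hd : dual (matZ bF'.1) y = cob R g' *ᵥ xv R g i := dual_eq h'.det y _ hyq
  refine ⟨y, ?_, hd⟩
  set Y : ℝ := (1 + τ.I.card * X) * ((τ.I.card).factorial * X ^ τ.I.card / δ) with hY
  have hY0 : 0 ≤ Y := by positivity
  have hxv : ∀ j, |((xv R g i j : ℚ) : ℝ)| ≤ Y := by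
    intro j
    have := xv_bd hR g hX hδ (fun q => (h.dl _ q.2).2) h.mn i j
    rwa [Fintype.card_coe] at this
  have htv : ∀ j, |(((cob R g' *ᵥ xv R g i) j : ℚ) : ℝ)| ≤ (1 + τ.I.card * X) * Y := by
    intro j
    have := tv_bd (R := R) hY0 (fun q => (h'.dl _ q.2).2) hxv j
    rwa [Fintype.card_coe] at this
  have hn1 : (1 : ℝ) ≤ n := by exact_mod_cast hn
  have hYX : (n : ℝ) * ((1 + τ.I.card * X) * Y) ≤ X' := by
    refine le_trans (le_of_eq ?_) hX'
    rw [hY]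
    ring
  have hZ0 : 0 ≤ (1 + τ.I.card * X) * Y := by positivity
  have hYX1 : (1 + τ.I.card * X) * Y ≤ X' := by
    refine le_trans ?_ hYX
    nlinarith
  refine ⟨⟨univ.image R, ?_, ?_⟩, ?_, ?_, ?_⟩
  · refine card_image_le.trans ?_
    rw [card_univ, Fintype.card_coe]
  · intro j hj
    have h1 := pair_out (P := matZ bF.1) (P₀ := matZ bF'.1) hm k5 i hj
    rw [hy j] at h1
    have h2 : y j = matZ bF.1 j (R i) := by exact_mod_cast h1
    rw [h2]
    exact matZ01 _ _ _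
  · intro j
    have h1 : ((y j : ℤ) : ℝ) = (((PQ (matZ bF'.1) *ᵥ (cob R g' *ᵥ xv R g i)) j : ℚ) : ℝ) := by
      rw [hy j]
      push_cast
      rfl
    rw [h1, mulVec, dotProduct]
    push_cast
    refine (Finset.abs_sum_le_sum_abs _ _).trans ?_
    refine (Finset.sum_le_sum (g := fun _ => (1 + τ.I.card * X) * Y) fun k _ => ?_).trans ?_
    · rw [abs_mul]
      have h2 : |((PQ (matZ bF'.1) j k : ℚ) : ℝ)| ≤ 1 := by
        rcases matZ01 bF'.1 j k with h3 | h3 <;> simp [PQ, h3]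
      calc |((PQ (matZ bF'.1) j k : ℚ) : ℝ)| * |(((cob R g' *ᵥ xv R g i) k : ℚ) : ℝ)|
          ≤ 1 * ((1 + τ.I.card * X) * Y) := mul_le_mul h2 (htv k) (abs_nonneg _) zero_le_one
        _ = (1 + τ.I.card * X) * Y := one_mul _
    · rw [Finset.sum_const, Finset.card_univ, nsmul_eq_mul, Fintype.card_fin]
      exact hYX
  · rw [hd]
    exact hmem
  · rw [hd]
    intro j
    exact (htv j).trans hYX1

theorem count {w lb : ℝ} (hτ : τ.Ok) (hR : Function.Injective R) (hRS : ∀ i, R i ∉ τ.S)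
    (hRE : ∀ i, R i ∉ E) (hδ : 0 < δ) (hX : 1 ≤ X) (hn : 0 < n) (hN : 0 ≤ N)
    (hX' : n * (1 + τ.I.card * X) ^ 2 * (τ.I.card).factorial * X ^ τ.I.card / δ ≤ X')
    (ha : ∀ j, |(a j : ℝ)| ≤ X) (hw : 1 ≤ w) (hlb : 0 ≤ lb)
    (hW : ∀ v : Co l M → ℚ, ∀ S : Finset (Co l M → Bool), (∀ x ∈ S, bq x - v ∈ τ.W) →
      (S.card : ℝ) ≤ w)
    (hlab : ∀ M' h, ((lab M' h).card : ℝ) ≤ lb)
    (T : Finset (Bits n × (Fin n → Co l M → Bool)))
    (hT : ∀ bF ∈ T, Ok τ E a R c X δ X' N lab Lf bF) :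
    (T.card : ℝ) ≤ (2 * (n * X ^ 2) + 1) ^ (τ.I.card ^ 2) *
      2 ^ (Fintype.card (Sym2 (Fin (n - τ.I.card)))) * w ^ (n - τ.I.card) *
      ((2 * (τ.I.card : ℝ) + 1) ^ n) ^ s₁ * lb * N ^ τ.I.card := by
  classical
  have hmap : Set.MapsTo (key τ E a R c lab Lf) (T : Set _) (keys τ R s₁ X w lb : Set _) :=
    fun bF hbF => (hT bF hbF).mem_keys hR hRE hX ha hw hW hlab
  have hfib : ∀ κ ∈ keys τ R s₁ X w lb,
      (((T.filter fun bF => key τ E a R c lab Lf bF = κ).card : ℕ) : ℝ) ≤ N ^ τ.I.card := by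
    intro κ _
    rcases (T.filter fun bF => key τ E a R c lab Lf bF = κ).eq_empty_or_nonempty with h0 | h0
    · rw [h0]
      simpa using pow_nonneg hN _
    · obtain ⟨bF₀, hb₀⟩ := h0
      rw [mem_filter] at hb₀
      have h₀ := hT _ hb₀.1
      have hex : ∀ bF ∈ T.filter (fun bF => key τ E a R c lab Lf bF = κ), ∀ i,
          ∃ y ∈ cls (matZ bF₀.1) (Lf bF₀) τ.I.card X',
            dual (matZ bF₀.1) y = cob R (gs (matZ bF₀.1) E a bF₀.2 τ.I) *ᵥ
              xv R (gs (matZ bF.1) E a bF.2 τ.I) i := by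
        intro bF hbF i
        rw [mem_filter] at hbF
        exact (hT _ hbF.1).trans hτ hR hRS hRE hδ hX hn hX' h₀ (hbF.2.trans hb₀.2.symm) i
      choose! y hy1 hy2 using hex
      set A := (cls_finite (matZ bF₀.1) (Lf bF₀) τ.I.card X').toFinset with hA
      have hAc : (A.card : ℝ) ≤ N := by
        have h1 := h₀.nc
        rwa [Set.ncard_eq_toFinset_card _
          (cls_finite (matZ bF₀.1) (Lf bF₀) τ.I.card X')] at h1
      have hle : (T.filter fun bF => key τ E a R c lab Lf bF = κ).card ≤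
          (Fintype.piFinset fun _ : τ.I => A).card := by
        refine Finset.card_le_card_of_injOn y ?_ ?_
        · intro bF hbF
          rw [Finset.mem_coe, Fintype.mem_piFinset]
          intro i
          rw [hA, Set.Finite.mem_toFinset]
          exact hy1 bF hbF i
        · intro bF hbF bF' hbF' he
          have hx : ∀ i, xv R (gs (matZ bF.1) E a bF.2 τ.I) i =
              xv R (gs (matZ bF'.1) E a bF'.2 τ.I) i := by
            intro i
            have h1 := hy2 bF hbF i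
            rw [he, hy2 bF' hbF' i] at h1
            have h2 := congrArg
              (fun v => (cob R (gs (matZ bF₀.1) E a bF₀.2 τ.I))⁻¹ *ᵥ v) h1
            have h3 := isUnit_iff_ne_zero.2
              (det_cob_ne R (gs (matZ bF₀.1) E a bF₀.2 τ.I) (h₀.minor_ne hδ))
            simp only [mulVec_mulVec, nonsing_inv_mul _ h3, one_mulVec] at h2
            exact h2.symm
          rw [Finset.mem_coe, mem_filter] at hbF hbF'
          exact (hT _ hbF.1).inj hτ hR hRS hRE hδ (hT _ hbF'.1) (hbF.2.trans hbF'.2.symm) hx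
      calc (((T.filter fun bF => key τ E a R c lab Lf bF = κ).card : ℕ) : ℝ)
          ≤ (((Fintype.piFinset fun _ : τ.I => A).card : ℕ) : ℝ) := by exact_mod_cast hle
        _ = (A.card : ℝ) ^ τ.I.card := by
            rw [Fintype.card_piFinset, Finset.prod_const, Finset.card_univ, Fintype.card_coe]
            push_cast
            rfl
        _ ≤ N ^ τ.I.card := pow_le_pow_left₀ (Nat.cast_nonneg _) hAc _
  have hsum : (T.card : ℝ) = ∑ κ ∈ keys τ R s₁ X w lb,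
      (((T.filter fun bF => key τ E a R c lab Lf bF = κ).card : ℕ) : ℝ) := by
    rw [Finset.card_eq_sum_card_fiberwise hmap]
    push_cast
    rfl
  rw [hsum]
  refine (Finset.sum_le_sum hfib).trans ?_
  rw [Finset.sum_const, nsmul_eq_mul]
  exact mul_le_mul_of_nonneg_right (card_keys τ hR s₁ hw hlb) (pow_nonneg hN _)

end

end main

theorem stmtA4 : StmtA4 := by
  classical
  intro n l M s₁ τ E a R c X δ X' N w lb lab Lf T hn hX hδ _ hN hw hlb hτ hR hRS ha hX' hW hlab hT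
  refine count (c := c) (Lf := Lf) hτ hR (fun i => (hRS i).1) (fun i => (hRS i).2) hδ hX hn hN hX' ha hw hlb ?_ hlab T
    fun bF hbF => ?_
  · intro v S hS
    refine le_trans ?_ (hW v)
    exact_mod_cast Finset.card_le_card fun x hx => Finset.mem_filter.2 ⟨mem_univ _, hS x hx⟩
  · obtain ⟨h1, h2, h3, h4, h5, h6, h7, h8⟩ := hT bF hbF
    exact ⟨h1, h2, h3, h4, h5, h6, h7, h8⟩

end Vale.Agent.P160.Half.A4
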