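import Vale.Agent.P160.Half.A5c

/-! # P160, part (A): the two exceptional sets (spectrum, kernel modulo `p`) (helper150). -/

set_option linter.unusedVariables false
set_option linter.unusedSectionVars false

namespace Vale.Agent.P160.Half.A.E150

open Finset Matrix Filter Vale.Agent.P160.Half Vale.Agent.P160.Half.A

theorem toRM_matZ {n : ℕ} (b : Bits n) : Step1.toRM (matZ b) = Spec.mat b := by
  ext i j
  unfold Step1.toRM Spec.mat
  rw [Matrix.map_apply]
  unfold matZ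
  cases h : b s(i, j) <;> simp [Spec.bit]

theorem ev_k (ε₂ : ℝ) (hε : 0 < ε₂) : ∀ᶠ n : ℕ in atTop, ε₂ * n / Real.log n + 1 ≤ n := by
  have h1 : Tendsto (fun n : ℕ => Real.log (n : ℝ)) atTop atTop :=
    Real.tendsto_log_atTop.comp tendsto_natCast_atTop_atTop
  filter_upwards [h1.eventually (eventually_ge_atTop (2 * ε₂ + 1)), eventually_ge_atTop 2] with n h2 h3
  have hn : (2 : ℝ) ≤ n := by exact_mod_cast h3
  have hl : 0 < Real.log n := by linarith
  have h4 : ε₂ * n / Real.log n ≤ n / 2 := by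
    rw [div_le_div_iff₀ hl (by norm_num)]
    nlinarith
  linarith

open Classical in
theorem bad_spec (Λ ε₂ B : ℝ) (hΛ : 0 < Λ) (hε : 0 < ε₂) : ∀ᶠ n : ℕ in atTop, ∃ k : ℕ,
    (k : ℝ) ≤ ε₂ * n / Real.log n + 1 ∧ k ≤ n ∧
    (((univ : Finset (Bits n)).filter fun b => ¬ Step1.SmallSpec (Step1.toRM (matZ b)) Λ k).card : ℝ) ≤
      2 ^ Fintype.card (Sym2 (Fin n)) * (2 : ℝ) ^ (-(B * n)) := by
  obtain ⟨m0, hm0⟩ := Spec.count_small_eventually Λ ε₂ B hΛ.le hε
  filter_upwards [ev_k ε₂ hε, eventually_ge_atTop m0, eventually_ge_atTop 2] with n h1 h2 h3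
  have hn : (2 : ℝ) ≤ n := by exact_mod_cast h3
  have hl : 0 < Real.log n := Real.log_pos (by linarith)
  have h0 : 0 ≤ ε₂ * n / Real.log n := by positivity
  have hk1 : ((⌈ε₂ * n / Real.log n⌉₊ : ℕ) : ℝ) ≤ ε₂ * n / Real.log n + 1 := (Nat.ceil_lt_add_one h0).le
  refine ⟨⌈ε₂ * n / Real.log n⌉₊, hk1, ?_, ?_⟩
  · have := hk1.trans h1
    exact_mod_cast this
  · refine le_trans ?_ (hm0 n h2 ⌈ε₂ * n / Real.log n⌉₊ (Nat.le_ceil _))
    have hsub : ((univ : Finset (Bits n)).filter fun b =>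
        ¬ Step1.SmallSpec (Step1.toRM (matZ b)) Λ ⌈ε₂ * n / Real.log n⌉₊) ⊆
        Spec.bad Λ n ⌈ε₂ * n / Real.log n⌉₊ := by
      intro b hb
      rw [mem_filter] at hb
      unfold Spec.bad
      rw [mem_filter]
      refine ⟨mem_univ _, ?_⟩
      by_contra hcon
      apply hb.2
      rw [toRM_matZ]
      exact Step1.smallSpec_of_sm (Spec.mat_herm b) hΛ (not_le.1 hcon).le
    exact_mod_cast card_le_card hsub

open Classical in
theorem bad_ker (B : ℝ) (p : ℕ) [Fact p.Prime] : ∃ C : ℕ, ∀ᶠ n : ℕ in atTop,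
    (((univ : Finset (Bits n)).filter fun b =>
      ¬ (Step1.kerCard (matZ b) p ≤ p ^ (Nat.sqrt (C * n) + 1))).card : ℝ) ≤
      2 ^ Fintype.card (Sym2 (Fin n)) * (2 : ℝ) ^ (-(B * n)) := by
  refine ⟨2 * (⌈B⌉₊ + 12), ?_⟩
  filter_upwards [eventually_ge_atTop 1] with n hn
  set k : ℕ := Nat.sqrt (2 * (⌈B⌉₊ + 12) * n) + 1 with hk
  have hk2 : 2 * (⌈B⌉₊ + 12) * Fintype.card (Fin n) ≤ k ^ 2 := by
    rw [Fintype.card_fin]
    exact (Nat.lt_succ_sqrt' _).le
  have h1 := card_corank_le_exp (α := Fin n) ⌈B⌉₊ k (by simpa using hn) hk2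
  rw [Fintype.card_fin] at h1
  set G := (univ.filter fun b : Sym2 (Fin n) → Bool => ∃ (p : ℕ) (_ : Fact p.Prime) (T : Finset (Fin n)),
    (prin ((matZ b).map (Int.cast : ℤ → ZMod p)) T).rank + k ≤ T.card) with hG
  have hsub : ((univ : Finset (Bits n)).filter fun b =>
      ¬ (Step1.kerCard (matZ b) p ≤ p ^ k)) ⊆ G := by
    intro b hb
    rw [mem_filter] at hb
    rw [hG, mem_filter]
    refine ⟨mem_univ _, p, inferInstance, univ, ?_⟩
    have h2 := hb.2
    rw [Step1.kerCard_eq, not_le] at h2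
    have h3 : k < n - ((matZ b).map (Int.cast : ℤ → ZMod p)).rank :=
      (Nat.pow_lt_pow_iff_right (Fact.out : p.Prime).one_lt).1 h2
    have h4 : (prin ((matZ b).map (Int.cast : ℤ → ZMod p)) univ).rank =
        ((matZ b).map (Int.cast : ℤ → ZMod p)).rank := by
      unfold prin
      exact Matrix.rank_submatrix _ (Equiv.subtypeUnivEquiv (fun x => mem_univ x))
        (Equiv.subtypeUnivEquiv (fun x => mem_univ x))
    rw [h4, card_univ, Fintype.card_fin]
    omega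
  have h5 : ((((univ : Finset (Bits n)).filter fun b =>
      ¬ (Step1.kerCard (matZ b) p ≤ p ^ k)).card : ℕ) : ℝ) ≤ (G.card : ℝ) := by
    exact_mod_cast card_le_card hsub
  refine h5.trans ?_
  have h6 : (G.card : ℝ) * 2 ^ (⌈B⌉₊ * n) ≤ 2 ^ Fintype.card (Sym2 (Fin n)) := by exact_mod_cast h1
  have h7 : (2 : ℝ) ^ (B * n) ≤ 2 ^ (⌈B⌉₊ * n) := by
    rw [← Real.rpow_natCast]
    refine Real.rpow_le_rpow_of_exponent_le (by norm_num) ?_
    push_cast
    exact mul_le_mul_of_nonneg_right (Nat.le_ceil B) (Nat.cast_nonneg n)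
  have h8 : 0 < (2 : ℝ) ^ (B * n) := two_rpow_pos _
  rw [Real.rpow_neg (by norm_num), ← div_eq_mul_inv, le_div_iff₀ h8]
  exact (mul_le_mul_of_nonneg_left h7 (Nat.cast_nonneg _)).trans h6

end Vale.Agent.P160.Half.A.E150
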