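import Mathlib

/-! # P160, part (A), A5: the pigeonhole over the scales. -/

namespace Vale.Agent.P160.Half.A

open Finset Matrix Filter

open Classical in
theorem pigeon (ε₁ n : ℝ) (hε : 0 < ε₁) (hn : 0 < n) (N : ℕ → ℝ) (h1 : ∀ t, 1 ≤ N t) (K U : ℕ)
    (hK : 1 / ε₁ < K) (hU : 2 / ε₁ ≤ U) (h2 : ∀ t ≤ K, N t ≤ (2 : ℝ) ^ (2 * n)) :
    ∃ t < K, ∃ u ≤ U, (2 : ℝ) ^ (ε₁ * n * u) ≤ N t ∧ N t < (2 : ℝ) ^ (ε₁ * n * (u + 1)) ∧
      N (t + 1) ≤ (2 : ℝ) ^ (ε₁ * n * (u + 3)) := by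
  have he : 0 < ε₁ * n := mul_pos hε hn
  have h12 : (1 : ℝ) < 2 := by norm_num
  set f : ℕ → ℝ := fun t => Real.logb 2 (N t) with hf
  have hN : ∀ t, N t = (2 : ℝ) ^ f t := fun t =>
    (Real.rpow_logb (by norm_num) (by norm_num) (lt_of_lt_of_le one_pos (h1 t))).symm
  have hf0 : ∀ t, 0 ≤ f t := fun t => Real.logb_nonneg h12 (h1 t)
  have hf2 : ∀ t ≤ K, f t ≤ 2 * n := by
    intro t ht
    have h := h2 t ht
    rw [hN t] at h
    exact (Real.rpow_le_rpow_left_iff h12).1 h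
  have hK1 : 1 < ε₁ * K := by
    rw [div_lt_iff₀ hε] at hK
    linarith
  by_contra hcon
  push Not at hcon
  have hstep : ∀ t < K, f t + 2 * (ε₁ * n) ≤ f (t + 1) := by
    intro t ht
    have hq0 : 0 ≤ f t / (ε₁ * n) := div_nonneg (hf0 t) he.le
    have ha : (⌊f t / (ε₁ * n)⌋₊ : ℝ) ≤ f t / (ε₁ * n) := Nat.floor_le hq0
    have hb : f t / (ε₁ * n) < (⌊f t / (ε₁ * n)⌋₊ : ℝ) + 1 := Nat.lt_floor_add_one _
    rw [le_div_iff₀ he] at ha
    rw [div_lt_iff₀ he] at hb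
    have hu : ⌊f t / (ε₁ * n)⌋₊ ≤ U := by
      have h3 : (⌊f t / (ε₁ * n)⌋₊ : ℝ) ≤ 2 / ε₁ := by
        rw [le_div_iff₀ hε]
        have h4 := hf2 t ht.le
        have h5 : (⌊f t / (ε₁ * n)⌋₊ : ℝ) * ε₁ * n ≤ 2 * n := by nlinarith
        exact le_of_mul_le_mul_right h5 hn
      exact_mod_cast h3.trans hU
    have hc := hcon t ht _ hu (by
      rw [hN t]
      exact Real.rpow_le_rpow_of_exponent_le h12.le (by nlinarith)) (by
      rw [hN t]
      exact Real.rpow_lt_rpow_of_exponent_lt h12 (by nlinarith))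
    rw [hN (t + 1)] at hc
    have hc' := (Real.rpow_lt_rpow_left_iff h12).1 hc
    nlinarith
  have hind : ∀ t ≤ K, 2 * (ε₁ * n) * t ≤ f t := by
    intro t
    induction t with
    | zero => intro _; simpa using hf0 0
    | succ t ih =>
      intro ht
      have h3 := ih (by omega)
      have h4 := hstep t (by omega)
      push_cast
      linarith
  have h3 := hind K le_rfl
  have h4 := hf2 K le_rfl
  nlinarith

end Vale.Agent.P160.Half.A
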