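import Vale.Agent.P160.Half.A5c

/-! # P160, part (A): polynomial factors. -/

set_option linter.unusedVariables false

namespace Vale.Agent.P160.Half.A

open Finset Matrix Filter Vale.Agent.P160.Half

theorem ev_small (J s₁ : ℕ) (A η : ℝ) (hη : 0 < η) (hA : 0 ≤ A) : ∀ᶠ n : ℕ in atTop,
    (∀ ρ ≤ J, (n : ℝ) ^ ρ * 2 ^ (s₁ * ρ) ≤ (2 : ℝ) ^ (η * n)) ∧
    (∀ ρ ≤ J, (2 * (n * ((n : ℝ) ^ A) ^ 2) + 1) ^ (ρ ^ 2) ≤ (2 : ℝ) ^ (η * n)) ∧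
    (∀ ρ ≤ J, (2 : ℝ) ^ (ρ ^ 2) ≤ (2 : ℝ) ^ (η * n)) ∧
    (2 * ((n : ℝ) * (2 * (⌈(n : ℝ) ^ A⌉₊ : ℝ) + 1)) ^ J) ^ J ≤ (2 : ℝ) ^ (η * n) := by
  filter_upwards [ev_poly (2 ^ (s₁ * J)) J η hη, ev_poly (3 ^ (J ^ 2)) ((1 + 2 * A) * (J ^ 2 : ℕ)) η hη,
    ev_poly (2 ^ (J ^ 2)) 0 η hη, ev_poly ((2 * 5 ^ J) ^ J) ((1 + A) * (J * J : ℕ)) η hη,
    eventually_ge_atTop 1] with n h1 h2 h3 h4 hn
  have hn1 : (1 : ℝ) ≤ n := by exact_mod_cast hn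
  have hn0 : (0 : ℝ) < n := by linarith
  have hA1 : 1 ≤ (n : ℝ) ^ A := Real.one_le_rpow hn1 hA
  refine ⟨fun ρ hρ => ?_, fun ρ hρ => ?_, fun ρ hρ => ?_, ?_⟩
  · refine le_trans ?_ h1
    rw [mul_comm, Real.rpow_natCast]
    gcongr
    · norm_num
  · refine le_trans ?_ h2
    have e1 : 2 * (n * ((n : ℝ) ^ A) ^ 2) + 1 ≤ 3 * (n : ℝ) ^ (1 + 2 * A) := by
      have e2 : (n : ℝ) ^ (1 + 2 * A) = n * ((n : ℝ) ^ A) ^ 2 := by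
        rw [Real.rpow_add hn0, Real.rpow_one, mul_comm 2 A, Real.rpow_mul hn0.le]
        norm_num
      rw [e2]
      have e3 : 1 ≤ n * ((n : ℝ) ^ A) ^ 2 := by
        have := one_le_pow₀ hA1 (n := 2)
        nlinarith
      linarith
    have e4 : (1 : ℝ) ≤ 3 * (n : ℝ) ^ (1 + 2 * A) := by
      have := Real.one_le_rpow hn1 (show 0 ≤ 1 + 2 * A by linarith)
      linarith
    calc (2 * (n * ((n : ℝ) ^ A) ^ 2) + 1) ^ (ρ ^ 2) ≤ (3 * (n : ℝ) ^ (1 + 2 * A)) ^ (ρ ^ 2) :=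
          pow_le_pow_left₀ (by positivity) e1 _
      _ ≤ (3 * (n : ℝ) ^ (1 + 2 * A)) ^ (J ^ 2) := pow_le_pow_right₀ e4 (Nat.pow_le_pow_left hρ 2)
      _ = 3 ^ (J ^ 2) * (n : ℝ) ^ ((1 + 2 * A) * (J ^ 2 : ℕ)) := by
          rw [mul_pow, Real.rpow_mul hn0.le, Real.rpow_natCast]
  · refine le_trans ?_ h3
    rw [Real.rpow_zero, mul_one]
    exact pow_le_pow_right₀ (by norm_num) (Nat.pow_le_pow_left hρ 2)
  · refine le_trans ?_ h4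
    have e1 : (n : ℝ) * (2 * (⌈(n : ℝ) ^ A⌉₊ : ℝ) + 1) ≤ 5 * (n : ℝ) ^ (1 + A) := by
      have e2 : (⌈(n : ℝ) ^ A⌉₊ : ℝ) ≤ (n : ℝ) ^ A + 1 := (Nat.ceil_lt_add_one (by linarith)).le
      have e3 : (n : ℝ) ^ (1 + A) = n * (n : ℝ) ^ A := by
        rw [Real.rpow_add hn0, Real.rpow_one]
      rw [e3]
      have e4 : 2 * (⌈(n : ℝ) ^ A⌉₊ : ℝ) + 1 ≤ 5 * (n : ℝ) ^ A := by linarith
      have := mul_le_mul_of_nonneg_left e4 hn0.le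
      linarith
    calc (2 * ((n : ℝ) * (2 * (⌈(n : ℝ) ^ A⌉₊ : ℝ) + 1)) ^ J) ^ J
        ≤ (2 * (5 * (n : ℝ) ^ (1 + A)) ^ J) ^ J := by gcongr
      _ = (2 * 5 ^ J) ^ J * (n : ℝ) ^ ((1 + A) * (J * J : ℕ)) := by
          rw [Real.rpow_mul hn0.le, Real.rpow_natCast, mul_pow, mul_pow, mul_pow, pow_mul]
          ring

theorem ev_X (J : ℕ) (a D : ℝ) (ha : 0 ≤ a) (hD : 0 ≤ D) : ∀ᶠ n : ℕ in atTop, ∀ ρ ≤ J,
    n * (1 + ρ * (n : ℝ) ^ a) ^ 2 * ρ.factorial * ((n : ℝ) ^ a) ^ ρ / (n : ℝ) ^ (-D) ≤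
      (n : ℝ) ^ (2 + a * (2 + J) + D) := by
  filter_upwards [eventually_ge_atTop (max 1 ((1 + J) ^ 2 * J.factorial))] with n hn ρ hρ
  have hn1 : (1 : ℝ) ≤ n := by exact_mod_cast (le_max_left _ _).trans hn
  have hnJ : ((1 : ℝ) + J) ^ 2 * J.factorial ≤ n := by exact_mod_cast (le_max_right _ _).trans hn
  have hn0 : (0 : ℝ) < n := by linarith
  set x : ℝ := (n : ℝ) ^ a with hx
  have hx1 : 1 ≤ x := Real.one_le_rpow hn1 ha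
  have hD0 : 0 < (n : ℝ) ^ D := Real.rpow_pos_of_pos hn0 _
  rw [Real.rpow_neg hn0.le, div_inv_eq_mul]
  have hρR : (ρ : ℝ) ≤ J := by exact_mod_cast hρ
  have e1 : (1 + ρ * x) ^ 2 ≤ ((1 + J) * x) ^ 2 := by
    refine pow_le_pow_left₀ (by positivity) ?_ 2
    have := mul_le_mul_of_nonneg_right hρR (by linarith : 0 ≤ x)
    linarith
  have e2 : (ρ.factorial : ℝ) ≤ J.factorial := by exact_mod_cast Nat.factorial_le hρ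
  have e3 : x ^ ρ ≤ x ^ J := pow_le_pow_right₀ hx1 hρ
  have e4 : (n : ℝ) ^ (2 + a * (2 + J) + D) = (n * n) * (x ^ 2 * x ^ J) * (n : ℝ) ^ D := by
    rw [Real.rpow_add hn0, Real.rpow_add hn0, Real.rpow_mul hn0.le]
    congr 2
    · norm_num
      ring
    · rw [← pow_add, ← Real.rpow_natCast x (2 + J)]
      push_cast
      rfl
  rw [e4]
  refine mul_le_mul_of_nonneg_right ?_ hD0.le
  calc n * (1 + ρ * x) ^ 2 * ρ.factorial * x ^ ρ ≤ n * ((1 + J) * x) ^ 2 * J.factorial * x ^ J := by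
        gcongr
    _ = (n * ((1 + J) ^ 2 * J.factorial)) * (x ^ 2 * x ^ J) := by ring
    _ ≤ (n * n) * (x ^ 2 * x ^ J) := by gcongr

end Vale.Agent.P160.Half.A
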