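import Vale.Agent.P160.Half.AStmt

/-! # P160, part (A): classes with exceptional coordinates, arrays of class vectors. -/

set_option linter.unusedVariables false
set_option linter.unusedSectionVars false

namespace Vale.Agent.P160.Half.A

open Finset Matrix Vale.Agent.P160.Half

variable {n : ℕ}

theorem cls_mono {P : Matrix (Fin n) (Fin n) ℤ} {L : Submodule ℤ (Fin n → ℚ)} {s s' : ℕ} {X X' : ℝ}
    (hs : s ≤ s') (hX : X ≤ X') : cls P L s X ⊆ cls P L s' X' := by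
  rintro y ⟨⟨S, h1, h2⟩, h3, h4, h5⟩
  exact ⟨⟨S, h1.trans hs, h2⟩, fun i => (h3 i).trans hX, h4, fun i => (h5 i).trans hX⟩

theorem bdd_finite (X : ℝ) : {y : Fin n → ℤ | ∀ i, |(y i : ℝ)| ≤ X}.Finite := by
  refine Set.Finite.subset (Fintype.piFinset fun _ : Fin n => Finset.Icc (-⌈X⌉) ⌈X⌉).finite_toSet ?_
  intro y hy
  rw [Finset.mem_coe, Fintype.mem_piFinset]
  intro i
  rw [Finset.mem_Icc]
  have h := abs_le.1 (hy i)
  constructor
  · have h1 : (-(⌈X⌉ : ℝ)) ≤ y i := by have := Int.le_ceil X; linarith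
    exact_mod_cast h1
  · have h1 : (y i : ℝ) ≤ ⌈X⌉ := h.2.trans (Int.le_ceil X)
    exact_mod_cast h1

theorem cls_finite (P : Matrix (Fin n) (Fin n) ℤ) (L : Submodule ℤ (Fin n → ℚ)) (s : ℕ) (X : ℝ) :
    (cls P L s X).Finite := (bdd_finite X).subset fun _ hy => hy.2.1

/-- exceptional data: positions and values -/
abbrev Dat (n s : ℕ) (K : ℕ) := (Fin s → Fin n) × (Fin s → Fin (2 * K + 1))

/-- exceptional set -/
def Dat.E {s K : ℕ} (δ : Dat n s K) : Finset (Fin n) := univ.image δ.1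

/-- value `k ↦ k - K` -/
def valZ {K : ℕ} (k : Fin (2 * K + 1)) : ℤ := (k : ℤ) - K

open Classical in
/-- exceptional values -/
noncomputable def Dat.a {s K : ℕ} (δ : Dat n s K) (j : Fin n) : ℤ :=
  if h : ∃ i, δ.1 i = j then valZ (δ.2 h.choose) else 0

theorem Dat.card_E {s K : ℕ} (δ : Dat n s K) : δ.E.card ≤ s := by
  unfold Dat.E
  exact card_image_le.trans (by simp)

theorem valZ_abs {K : ℕ} (k : Fin (2 * K + 1)) : |(valZ k : ℝ)| ≤ K := by
  unfold valZ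
  have h1 : (k : ℕ) ≤ 2 * K := by have := k.2; omega
  have h2 : ((k : ℕ) : ℝ) ≤ 2 * K := by exact_mod_cast h1
  have h3 : (0 : ℝ) ≤ ((k : ℕ) : ℝ) := Nat.cast_nonneg _
  push_cast
  rw [abs_le]
  constructor <;> linarith

theorem Dat.abs_a {s K : ℕ} (δ : Dat n s K) (j : Fin n) : |(δ.a j : ℝ)| ≤ K := by
  unfold Dat.a
  split_ifs with h
  · exact valZ_abs _
  · simp

/-- the class vectors with exceptional data `δ` -/
def Ycl (P : Matrix (Fin n) (Fin n) ℤ) (L : Submodule ℤ (Fin n → ℚ)) (X : ℝ) (E : Finset (Fin n))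
    (a : Fin n → ℤ) : Set (Fin n → ℤ) :=
  {y | (∀ j ∈ E, y j = a j) ∧ (∀ j ∉ E, y j = 0 ∨ y j = 1) ∧ (∀ i, |(y i : ℝ)| ≤ X) ∧ dual P y ∈ L ∧
    BdQ X (dual P y)}

theorem Ycl_finite (P : Matrix (Fin n) (Fin n) ℤ) (L : Submodule ℤ (Fin n → ℚ)) (X : ℝ)
    (E : Finset (Fin n)) (a : Fin n → ℤ) : (Ycl P L X E a).Finite :=
  (bdd_finite X).subset fun _ hy => hy.2.2.1

/-- the classes `Ycl` cover `cls` -/
theorem cls_cover (hn : 0 < n) (P : Matrix (Fin n) (Fin n) ℤ) (L : Submodule ℤ (Fin n → ℚ)) (s : ℕ) (X : ℝ)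
    (K : ℕ) (hK : X ≤ K) (y : Fin n → ℤ) (hy : y ∈ cls P L s X) :
    ∃ δ : Dat n s K, y ∈ Ycl P L X δ.E δ.a := by
  classical
  obtain ⟨⟨S, h1, h2⟩, h3, h4, h5⟩ := hy
  -- a map whose image contains `S`
  obtain ⟨e, he⟩ : ∃ e : Fin s → Fin n, S ⊆ univ.image e := by
    have : Nonempty (Fin n) := ⟨⟨0, hn⟩⟩
    let f := S.equivFin
    refine ⟨fun i => if h : (i : ℕ) < S.card then (f.symm ⟨i, h⟩ : Fin n) else ⟨0, hn⟩, ?_⟩
    intro j hj
    rw [mem_image]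
    have hlt : ((f ⟨j, hj⟩ : Fin S.card) : ℕ) < s := lt_of_lt_of_le (f ⟨j, hj⟩).2 h1
    refine ⟨⟨(f ⟨j, hj⟩ : Fin S.card), hlt⟩, mem_univ _, ?_⟩
    have h6 : ((f ⟨j, hj⟩ : Fin S.card) : ℕ) < S.card := (f ⟨j, hj⟩).2
    simp only [h6, dif_pos]
    have : (⟨((f ⟨j, hj⟩ : Fin S.card) : ℕ), h6⟩ : Fin S.card) = f ⟨j, hj⟩ := Fin.ext rfl
    rw [this, Equiv.symm_apply_apply]
  have hval : ∀ i : Fin s, ∃ k : Fin (2 * K + 1), valZ k = y (e i) := by
    intro i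
    have h6 := abs_le.1 ((h3 (e i)).trans hK)
    have h7 : -(K : ℤ) ≤ y (e i) := by
      have : ((-(K : ℤ) : ℤ) : ℝ) ≤ y (e i) := by push_cast; exact h6.1
      exact_mod_cast this
    have h8 : y (e i) ≤ K := by exact_mod_cast h6.2
    refine ⟨⟨(y (e i) + K).toNat, by omega⟩, ?_⟩
    unfold valZ
    simp only
    rw [Int.toNat_of_nonneg (by omega)]
    ring
  choose v hv using hval
  refine ⟨(e, v), ?_, ?_, h3, h4, h5⟩
  · intro j hj
    have hj' : ∃ i, e i = j := by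
      simpa [Dat.E] using hj
    unfold Dat.a
    simp only
    rw [dif_pos hj', hv, hj'.choose_spec]
  · intro j hj
    refine h2 j fun hS => hj ?_
    exact he hS

theorem ncard_cls_le (hn : 0 < n) (P : Matrix (Fin n) (Fin n) ℤ) (L : Submodule ℤ (Fin n → ℚ)) (s : ℕ)
    (X : ℝ) (K : ℕ) (hK : X ≤ K) (B : ℝ) (hB : ∀ δ : Dat n s K, ((Ycl P L X δ.E δ.a).ncard : ℝ) ≤ B) :
    ((cls P L s X).ncard : ℝ) ≤ ((n : ℝ) * (2 * K + 1)) ^ s * B := by
  classical
  have h1 : cls P L s X ⊆ ⋃ δ : Dat n s K, Ycl P L X δ.E δ.a := by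
    intro y hy
    obtain ⟨δ, hδ⟩ := cls_cover hn P L s X K hK y hy
    exact Set.mem_iUnion.2 ⟨δ, hδ⟩
  have hfin : (⋃ δ : Dat n s K, Ycl P L X δ.E δ.a).Finite :=
    Set.finite_iUnion fun δ => Ycl_finite P L X _ _
  have h2 : (cls P L s X).ncard ≤ ∑ δ : Dat n s K, (Ycl P L X δ.E δ.a).ncard := by
    refine (Set.ncard_le_ncard h1 hfin).trans ?_
    have h3 := Finset.set_ncard_biUnion_le (univ : Finset (Dat n s K)) fun δ => Ycl P L X δ.E δ.a
    simpa using h3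
  have h3 : ((cls P L s X).ncard : ℝ) ≤ ∑ δ : Dat n s K, ((Ycl P L X δ.E δ.a).ncard : ℝ) := by
    exact_mod_cast h2
  refine h3.trans ((sum_le_sum fun δ _ => hB δ).trans ?_)
  rw [sum_const, nsmul_eq_mul, card_univ, Fintype.card_prod, Fintype.card_fun, Fintype.card_fun,
    Fintype.card_fin, Fintype.card_fin, Fintype.card_fin]
  refine le_of_eq ?_
  push_cast
  rw [mul_pow]

theorem ncard_Ycl_le (P : Matrix (Fin n) (Fin n) ℤ) (L : Submodule ℤ (Fin n → ℚ)) (X : ℝ)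
    (E : Finset (Fin n)) (a : Fin n → ℤ) : (Ycl P L X E a).ncard ≤ 2 ^ n := by
  classical
  have h : (Ycl P L X E a).ncard ≤ ((univ : Finset (Fin n → Bool)) : Set (Fin n → Bool)).ncard := by
    refine Set.ncard_le_ncard_of_injOn (fun y j => decide (y j = 1)) (fun _ _ => by simp) ?_ (Set.toFinite _)
    intro y hy y' hy' h
    funext j
    by_cases hj : j ∈ E
    · rw [hy.1 j hj, hy'.1 j hj]
    · have h1 := congrFun h j
      simp only [decide_eq_decide] at h1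
      rcases hy.2.1 j hj with h2 | h2 <;> rcases hy'.2.1 j hj with h3 | h3 <;> simp_all
  refine h.trans ?_
  rw [Set.ncard_coe_finset, card_univ, Fintype.card_fun, Fintype.card_bool, Fintype.card_fin]

end Vale.Agent.P160.Half.A
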