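import Vale.Agent.P160.Half.A5a

/-! # P160, part (A): the inequality at a fixed size. -/

set_option linter.unusedVariables false
set_option linter.unusedSectionVars false

namespace Vale.Agent.P160.Half.A

open Finset Matrix Vale.Agent.P160.Half

variable {n l M : ℕ}

theorem LF_std {n l M : ℕ} (P : Matrix (Fin n) (Fin n) ℤ) (E : Finset (Fin n)) (a : Fin n → ℤ)
    (F : Fin n → Co l M → Bool) (I : Finset (Co l M)) (z : Fin n → ℤ) :
    (fun i => (z i : ℚ)) ∈ LF P E a F I :=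
  Submodule.subset_span (Or.inl ⟨z, rfl⟩)

theorem LF_mem {n l M : ℕ} (P : Matrix (Fin n) (Fin n) ℤ) (E : Finset (Fin n)) (a : Fin n → ℤ)
    (F : Fin n → Co l M → Bool) {I : Finset (Co l M)} {q : Co l M} (hq : q ∈ I) :
    dual P (ent E a F q) ∈ LF P E a F I :=
  Submodule.subset_span (Or.inr ⟨⟨q, hq⟩, rfl⟩)

theorem LF_le {n l M : ℕ} {P : Matrix (Fin n) (Fin n) ℤ} {E : Finset (Fin n)} {a : Fin n → ℤ}
    {F : Fin n → Co l M → Bool} {I : Finset (Co l M)} {L : Submodule ℤ (Fin n → ℚ)} (hL : Over P L)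
    (h : ∀ q, dual P (ent E a F q) ∈ L) : LF P E a F I ≤ L := by
  unfold LF
  rw [Submodule.span_le]
  rintro x (⟨z, rfl⟩ | ⟨q, rfl⟩)
  · exact hL.std z
  · exact h q

theorem over_of_le {n : ℕ} {P : Matrix (Fin n) (Fin n) ℤ} {L L' : Submodule ℤ (Fin n → ℚ)} (hL : Over P L)
    (h : L' ≤ L) (hs : ∀ z : Fin n → ℤ, (fun i => (z i : ℚ)) ∈ L') : Over P L' :=
  ⟨hs, fun v hv w hw => hL.int v (h hv) w (h hw)⟩

theorem cls_le_of_le {n : ℕ} {P : Matrix (Fin n) (Fin n) ℤ} {L L' : Submodule ℤ (Fin n → ℚ)} (h : L' ≤ L)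
    {s : ℕ} {X : ℝ} : cls P L' s X ⊆ cls P L s X := by
  rintro y ⟨h1, h2, h3, h4⟩
  exact ⟨h1, h2, h h3, h4⟩

/-- the constant of Step 1 -/
noncomputable def KK (n l M p k d : ℕ) (X kc : ℝ) : ℝ :=
  ((2 * (n : ℝ) ^ 2 * (((M * (2 ^ l - 1) : ℕ) : ℝ) + 1) * (((M * (2 ^ l - 1) : ℕ) : ℝ) * X) + 2) ^ k) ^ 2 *
      ((Nat.choose (n + d) d : ℝ) * (((((M * (2 ^ l - 1)) / p + 1) ^ n : ℕ) : ℝ) ^ 2 * (p : ℝ) ^ n * kc))

theorem KK_nonneg {n l M p k d : ℕ} {X kc : ℝ} (hX : 0 ≤ X) (hkc : 0 ≤ kc) : 0 ≤ KK n l M p k d X kc := by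
  unfold KK
  positivity

/-- the bound of the exchange count -/
noncomputable def Gb (n s₁ ρ : ℕ) (X w lb N : ℝ) : ℝ :=
  (2 * (n * X ^ 2) + 1) ^ (ρ ^ 2) * 2 ^ (Fintype.card (Sym2 (Fin (n - ρ)))) * w ^ (n - ρ) *
    ((2 * (ρ : ℝ) + 1) ^ n) ^ s₁ * lb * N ^ ρ

theorem Gb_nonneg {n s₁ ρ : ℕ} {X w lb N : ℝ} (hw : 0 ≤ w) (hlb : 0 ≤ lb) (hN : 0 ≤ N) :
    0 ≤ Gb n s₁ ρ X w lb N := by
  unfold Gb
  positivity

/-- admissible arrays -/
def Adm (Lf : Bits n → Submodule ℤ (Fin n → ℚ)) (X : ℝ) (E : Finset (Fin n)) (a : Fin n → ℤ)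
    (b : Bits n) (F : Fin n → Co l M → Bool) : Prop :=
  (∀ j ∈ E, ∀ q, F j q = false) ∧ Rel E F ∧
    ∀ q, dual (matZ b) (ent E a F q) ∈ Lf b ∧ BdQ X (dual (matZ b) (ent E a F q))

open Classical in
/-- from tuples of class vectors to arrays -/
theorem card_tuples_le (Lf : Bits n → Submodule ℤ (Fin n → ℚ)) (X : ℝ) (E : Finset (Fin n))
    (a : Fin n → ℤ) (b : Bits n) (Y : Finset (Fin n → ℤ))
    (hY : ∀ y ∈ Y, (∀ j ∈ E, y j = a j) ∧ (∀ j ∉ E, y j = 0 ∨ y j = 1) ∧ dual (matZ b) y ∈ Lf b ∧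
      BdQ X (dual (matZ b) y)) :
    ((Fintype.piFinset fun _ : Co l M => Y).filter fun f => ∑ q, cf q • f q = 0).card ≤
      ((univ : Finset (Fin n → Co l M → Bool)).filter fun F => Adm Lf X E a b F).card := by
  have hent : ∀ f ∈ (Fintype.piFinset fun _ : Co l M => Y), ∀ q,
      ent E a (fun j q => decide (j ∉ E ∧ f q j = 1)) q = f q := by
    intro f hf q
    funext j
    have h := hY (f q) (Fintype.mem_piFinset.1 hf q)
    unfold ent
    by_cases hj : j ∈ E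
    · rw [if_pos hj, h.1 j hj]
    · rw [if_neg hj]
      rcases h.2.1 j hj with h1 | h1 <;> simp [hj, h1]
  refine card_le_card_of_injOn (fun f j q => decide (j ∉ E ∧ f q j = 1)) ?_ ?_
  · intro f hf
    rw [mem_coe, mem_filter] at hf
    rw [mem_coe, mem_filter]
    refine ⟨mem_univ _, ?_, ?_, ?_⟩
    · intro j hj q
      simp [hj]
    · intro j hj
      have h1 := congrFun hf.2 j
      rw [Finset.sum_apply, Pi.zero_apply] at h1
      refine Eq.trans (sum_congr rfl fun q _ => ?_) h1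
      have h2 := congrFun (hent f hf.1 q) j
      rw [Pi.smul_apply, smul_eq_mul]
      rw [← h2]
      unfold ent
      rw [if_neg hj]
    · intro q
      have h2 := hY (f q) (Fintype.mem_piFinset.1 hf.1 q)
      rw [hent f hf.1 q]
      exact h2.2.2
  · intro f hf f' hf' h
    rw [mem_coe, mem_filter] at hf hf'
    funext q
    rw [← hent f hf.1 q, ← hent f' hf'.1 q]
    simp only at h
    rw [h]

open Classical in
/-- **the inequality at a fixed size** -/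
theorem step_fixed (hA2 : StmtA2) (hA4 : StmtA4) (n l M s₁ : ℕ) (hn : 0 < n) (hM : 0 < M)
    (p : ℕ) [Fact p.Prime] (Λ X X' δ Ylo N kc lb : ℝ) (k d : ℕ) (hΛ : 0 < Λ) (hX : 1 ≤ X) (hk : k ≤ n)
    (hd : 2 * (1 + ((M * (2 ^ l - 1) : ℕ) : ℝ) ^ 2 * n / Λ) ≤ d) (hδ : 0 < δ) (hδ1 : δ ≤ 1)
    (hN : 0 ≤ N) (hkc : 0 ≤ kc) (hlb : 0 ≤ lb) (hYlo : 0 ≤ Ylo)
    (E : Finset (Fin n)) (a : Fin n → ℤ) (ha : ∀ j, |(a j : ℝ)| ≤ X)
    (Ω : Finset (Bits n)) (Lf : Bits n → Submodule ℤ (Fin n → ℚ))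
    (hΩ : ∀ b ∈ Ω, (matZ b).det ≠ 0 ∧ Over (matZ b) (Lf b) ∧ Step1.SmallSpec (Step1.toRM (matZ b)) Λ k ∧
      (Step1.kerCard (matZ b) p : ℝ) ≤ kc ∧ Ylo ≤ ((Ycl (matZ b) (Lf b) X E a).ncard : ℝ) ∧
      ((cls (matZ b) (Lf b) (2 * l * M) X').ncard : ℝ) ≤ N)
    (T : Finset (Ty n l M)) (hT : ∀ τ ∈ T, τ.Ok) (w : ℕ → ℝ) (hw1 : ∀ ρ, 1 ≤ w ρ)
    (hw : ∀ τ ∈ T, ∀ v : Co l M → ℚ, (((univ : Finset (Co l M → Bool)).filter fun x =>
      bq x - v ∈ τ.W).card : ℝ) ≤ w τ.I.card)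
    (hX' : ∀ ρ ≤ 2 * l * M, n * (1 + ρ * X) ^ 2 * ρ.factorial * X ^ ρ / δ ≤ X')
    (B₁ : Finset (Bits n × (Fin n → Co l M → Bool)))
    (lab : (τ : Ty n l M) → (τ.I → Fin n) → Matrix (Fin n) (Fin n) ℚ → (Fin s₁ → Fin n → ℚ) →
      Finset (Submodule ℤ (Fin n → ℚ)))
    (hlab : ∀ τ R M' h, ((lab τ R M' h).card : ℝ) ≤ lb)
    (hG : ∀ b ∈ Ω, ∀ F : Fin n → Co l M → Bool, (b, F) ∉ B₁ → Rel E F →
      (∀ q, dual (matZ b) (ent E a F q) ∈ Lf b ∧ BdQ X (dual (matZ b) (ent E a F q))) →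
      ∃ τ ∈ T, τ.Fits E b F ∧ ∃ R : τ.I → Fin n, Function.Injective R ∧ (∀ i, R i ∉ τ.S ∧ R i ∉ E) ∧
        δ ≤ |((minor R (gs (matZ b) E a F τ.I) : ℚ) : ℝ)| ∧
        ∃ c : Fin s₁ → τ.I → Bool,
          newL (LF (matZ b) E a F τ.I) R (gs (matZ b) E a F τ.I) ∈
            lab τ R (newP (matZ b) R (gs (matZ b) E a F τ.I))
            (fun t => newH (matZ b) R (gs (matZ b) E a F τ.I) (c t))) :
    (Ω.card : ℝ) * Ylo ^ (2 * l * M) ≤ Real.sqrt (KK n l M p k d X kc) *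
      ((B₁.card : ℝ) + ∑ τ ∈ T, (n : ℝ) ^ τ.I.card * 2 ^ (s₁ * τ.I.card) *
        Gb n s₁ τ.I.card X (w τ.I.card) lb N) := by
  classical
  have hX0 : 0 ≤ X := by linarith
  set QQ : Finset (Bits n × (Fin n → Co l M → Bool)) :=
    (Ω ×ˢ univ).filter fun bF => Adm Lf X E a bF.1 bF.2 with hQQ
  have hKK := KK_nonneg (n := n) (l := l) (M := M) (p := p) (k := k) (d := d) hX0 hkc
  -- lower bound
  have h1 : (Ω.card : ℝ) * Ylo ^ (2 * l * M) ≤ Real.sqrt (KK n l M p k d X kc) * (QQ.card : ℝ) := by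
    have h2 : ∀ b ∈ Ω, Ylo ^ (2 * l * M) ≤ Real.sqrt (KK n l M p k d X kc) *
        (((univ : Finset (Fin n → Co l M → Bool)).filter fun F => Adm Lf X E a b F).card : ℝ) := by
      intro b hb
      obtain ⟨g1, g2, g3, g4, g5, g6⟩ := hΩ b hb
      set Y : Finset (Fin n → ℤ) := (Ycl_finite (matZ b) (Lf b) X E a).toFinset with hYdef
      have hYc : (Y.card : ℝ) = ((Ycl (matZ b) (Lf b) X E a).ncard : ℝ) := by
        rw [Set.ncard_eq_toFinset_card _ (Ycl_finite (matZ b) (Lf b) X E a)]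
      have hYm : ∀ y ∈ Y, (∀ j ∈ E, y j = a j) ∧ (∀ j ∉ E, y j = 0 ∨ y j = 1) ∧
          dual (matZ b) y ∈ Lf b ∧ BdQ X (dual (matZ b) y) := by
        intro y hy
        have hy' := (Set.Finite.mem_toFinset _).1 hy
        exact ⟨hy'.1, hy'.2.1, hy'.2.2.2.1, hy'.2.2.2.2⟩
      have h3 := hA2 n l M (matZ b) (Lf b) hn hM (by ext i j; exact matZ_symm b j i) g1 g2 p Λ X k d hΛ hX0
        hk g3 hd E a Y hYm
      have h4 := card_tuples_le (l := l) (M := M) Lf X E a b Y hYm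
      set Tc := ((Fintype.piFinset fun _ : Co l M => Y).filter fun f => ∑ q, cf q • f q = 0).card with hTc
      have h5 : ((Y.card : ℝ) ^ (2 * l * M)) ^ 2 ≤ KK n l M p k d X kc * (Tc : ℝ) ^ 2 := by
        refine h3.trans (mul_le_mul_of_nonneg_right ?_ (sq_nonneg _))
        unfold KK
        refine mul_le_mul_of_nonneg_left ?_ (by positivity)
        refine mul_le_mul_of_nonneg_left ?_ (by positivity)
        exact mul_le_mul_of_nonneg_left g4 (by positivity)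
      have h6 : (Y.card : ℝ) ^ (2 * l * M) ≤ Real.sqrt (KK n l M p k d X kc) * Tc := by
        refine abs_le_of_sq_le_sq' ?_ (by positivity) |>.2
        rw [mul_pow, Real.sq_sqrt hKK]
        exact h5
      have h7 : Ylo ^ (2 * l * M) ≤ (Y.card : ℝ) ^ (2 * l * M) :=
        pow_le_pow_left₀ hYlo (by rw [hYc]; exact g5) _
      refine h7.trans (h6.trans (mul_le_mul_of_nonneg_left ?_ (Real.sqrt_nonneg _)))
      exact_mod_cast h4
    calc (Ω.card : ℝ) * Ylo ^ (2 * l * M) = ∑ b ∈ Ω, Ylo ^ (2 * l * M) := by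
          rw [sum_const, nsmul_eq_mul]
      _ ≤ ∑ b ∈ Ω, Real.sqrt (KK n l M p k d X kc) *
          (((univ : Finset (Fin n → Co l M → Bool)).filter fun F => Adm Lf X E a b F).card : ℝ) :=
          sum_le_sum h2
      _ = Real.sqrt (KK n l M p k d X kc) * (QQ.card : ℝ) := by
          rw [← mul_sum]
          congr 1
          rw [hQQ, card_filter, sum_product]
          push_cast
          refine sum_congr rfl fun b _ => ?_
          rw [card_filter]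
          push_cast
          rfl
  refine h1.trans (mul_le_mul_of_nonneg_left ?_ (Real.sqrt_nonneg _))
  -- decomposition of the pairs
  set piece : (τ : Ty n l M) → (τ.I → Fin n) → (Fin s₁ → τ.I → Bool) →
      Finset (Bits n × (Fin n → Co l M → Bool)) := fun τ R c =>
    QQ.filter fun bF => τ.Fits E bF.1 bF.2 ∧ Function.Injective R ∧ (∀ i, R i ∉ τ.S ∧ R i ∉ E) ∧
        δ ≤ |((minor R (gs (matZ bF.1) E a bF.2 τ.I) : ℚ) : ℝ)| ∧
          newL (LF (matZ bF.1) E a bF.2 τ.I) R (gs (matZ bF.1) E a bF.2 τ.I) ∈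
            lab τ R (newP (matZ bF.1) R (gs (matZ bF.1) E a bF.2 τ.I))
            (fun t => newH (matZ bF.1) R (gs (matZ bF.1) E a bF.2 τ.I) (c t)) with hpiece
  have hcov : QQ ⊆ B₁ ∪ T.biUnion fun τ => (univ : Finset (τ.I → Fin n)).biUnion fun R =>
      (univ : Finset (Fin s₁ → τ.I → Bool)).biUnion fun c => piece τ R c := by
    intro bF hbF
    by_cases hB : bF ∈ B₁
    · exact mem_union_left _ hB
    · apply mem_union_right
      have h2 := mem_filter.1 hbF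
      have hb := (mem_product.1 h2.1).1
      obtain ⟨τ, hτ, f1, R, f2, f3, f4, c, f5⟩ := hG bF.1 hb bF.2 hB h2.2.2.1 h2.2.2.2
      rw [mem_biUnion]
      refine ⟨τ, hτ, ?_⟩
      rw [mem_biUnion]
      refine ⟨R, mem_univ _, ?_⟩
      rw [mem_biUnion]
      refine ⟨c, mem_univ _, ?_⟩
      rw [hpiece]
      exact mem_filter.2 ⟨hbF, f1, f2, f3, f4, f5⟩
  have hIcard : ∀ τ : Ty n l M, τ.I.card ≤ 2 * l * M := by
    intro τ
    refine (card_le_univ _).trans (le_of_eq ?_)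
    simp only [Fintype.card_prod, Fintype.card_fin, Fintype.card_bool]
    ring
  have hpc : ∀ τ ∈ T, ∀ R c, ((piece τ R c).card : ℝ) ≤ Gb n s₁ τ.I.card X (w τ.I.card) lb N := by
    intro τ hτ R c
    by_cases hR : Function.Injective R ∧ (∀ i, R i ∉ τ.S ∧ R i ∉ E)
    · have h2 := hA4 n l M s₁ τ E a R c X δ X' N (w τ.I.card) lb (lab τ R)
        (fun bF => LF (matZ bF.1) E a bF.2 τ.I) (piece τ R c) hn hX hδ hδ1 hN
        (hw1 _) hlb (hT τ hτ) hR.1 hR.2 ha (hX' _ (hIcard τ)) (hw τ hτ) (hlab τ R) ?_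
      · exact h2
      · intro bF hbF
        have h3 := mem_filter.1 hbF
        have h4 := mem_filter.1 h3.1
        have hb := (mem_product.1 h4.1).1
        obtain ⟨g1, g2, g3, g4, g5, g6⟩ := hΩ bF.1 hb
        have hle : LF (matZ bF.1) E a bF.2 τ.I ≤ Lf bF.1 :=
          LF_le g2 fun q => (h4.2.2.2 q).1
        refine ⟨g1, over_of_le g2 hle (LF_std _ _ _ _ _), ?_, h4.2.1, h3.2.1, fun q hq =>
          ⟨LF_mem _ _ _ _ hq, (h4.2.2.2 q).2⟩, h3.2.2.2.2.1, h3.2.2.2.2.2⟩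
        refine le_trans ?_ g6
        exact_mod_cast Set.ncard_le_ncard ((cls_le_of_le hle).trans (cls_mono (hIcard τ) le_rfl))
          (cls_finite _ _ _ _)
    · have h2 : piece τ R c = ∅ := by
        rw [hpiece]
        refine filter_eq_empty_iff.2 fun bF _ h3 => hR ⟨h3.2.1, h3.2.2.1⟩
      rw [h2, card_empty, Nat.cast_zero]
      exact Gb_nonneg (by linarith [hw1 τ.I.card]) hlb hN
  have h2 : (QQ.card : ℝ) ≤ (B₁.card : ℝ) + ∑ τ ∈ T, ∑ R : τ.I → Fin n, ∑ c : Fin s₁ → τ.I → Bool,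
      ((piece τ R c).card : ℝ) := by
    have h3 : QQ.card ≤ B₁.card + ∑ τ ∈ T, ∑ R : τ.I → Fin n, ∑ c : Fin s₁ → τ.I → Bool,
        (piece τ R c).card := by
      refine (card_le_card hcov).trans ((card_union_le _ _).trans (Nat.add_le_add_left ?_ _))
      refine card_biUnion_le.trans (sum_le_sum fun τ _ => ?_)
      refine card_biUnion_le.trans (sum_le_sum fun R _ => ?_)
      exact card_biUnion_le
    exact_mod_cast h3
  refine h2.trans (add_le_add le_rfl (sum_le_sum fun τ hτ => ?_))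
  calc (∑ R : τ.I → Fin n, ∑ c : Fin s₁ → τ.I → Bool, ((piece τ R c).card : ℝ))
      ≤ ∑ _R : τ.I → Fin n, ∑ _c : Fin s₁ → τ.I → Bool, Gb n s₁ τ.I.card X (w τ.I.card) lb N :=
        sum_le_sum fun R _ => sum_le_sum fun c _ => hpc τ hτ R c
    _ = (n : ℝ) ^ τ.I.card * 2 ^ (s₁ * τ.I.card) * Gb n s₁ τ.I.card X (w τ.I.card) lb N := by
        simp only [sum_const, card_univ, nsmul_eq_mul, Fintype.card_fun, Fintype.card_fin,
          Fintype.card_bool, Fintype.card_coe]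
        push_cast
        rw [pow_mul', ← mul_assoc]

end Vale.Agent.P160.Half.A
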