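import Vale.Agent.P160.Half.A5b

/-! # P160, part (A): asymptotics. -/

set_option linter.unusedVariables false
set_option linter.unusedSectionVars false

namespace Vale.Agent.P160.Half.A

open Finset Matrix Filter Vale.Agent.P160.Half
open scoped Topology

theorem two_rpow_pos (x : ℝ) : 0 < (2 : ℝ) ^ x := Real.rpow_pos_of_pos (by norm_num) x

theorem ev_log (c ε : ℝ) (hε : 0 < ε) : ∀ᶠ n : ℕ in atTop, c * Real.log n ≤ ε * n := by
  have h1 : Tendsto (fun x : ℝ => Real.log x / x) atTop (𝓝 0) := by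
    have := Real.isLittleO_log_id_atTop
    exact this.tendsto_div_nhds_zero
  have h2 : Tendsto (fun n : ℕ => Real.log (n : ℝ) / (n : ℝ)) atTop (𝓝 0) :=
    h1.comp tendsto_natCast_atTop_atTop
  have h3 : 0 < ε / (|c| + 1) := by positivity
  filter_upwards [h2.eventually (gt_mem_nhds h3), eventually_ge_atTop 1] with n hn hn1
  have hn0 : (0 : ℝ) < n := by exact_mod_cast hn1
  have hl : 0 ≤ Real.log n := Real.log_natCast_nonneg n
  rw [div_lt_div_iff₀ hn0 (by positivity)] at hn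
  have h4 : c * Real.log n ≤ |c| * Real.log n := mul_le_mul_of_nonneg_right (le_abs_self c) hl
  nlinarith [abs_nonneg c]

theorem ev_poly (K a ε : ℝ) (hε : 0 < ε) : ∀ᶠ n : ℕ in atTop, K * (n : ℝ) ^ a ≤ (2 : ℝ) ^ (ε * n) := by
  have hl2 : 0 < Real.log 2 := Real.log_pos (by norm_num)
  filter_upwards [ev_log a (ε * Real.log 2 / 2) (by positivity), ev_log 1 (ε * Real.log 2 / 2) (by positivity),
    eventually_ge_atTop (max 1 ⌈|K|⌉₊)] with n h1 h2 h3
  have hn1 : 1 ≤ n := (le_max_left _ _).trans h3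
  have hn0 : (0 : ℝ) < n := by exact_mod_cast hn1
  have hK : K ≤ n := by
    refine (le_abs_self K).trans ((Nat.le_ceil _).trans ?_)
    exact_mod_cast (le_max_right _ _).trans h3
  have h4 : K * (n : ℝ) ^ a ≤ (n : ℝ) * (n : ℝ) ^ a :=
    mul_le_mul_of_nonneg_right hK (Real.rpow_nonneg hn0.le _)
  refine h4.trans ?_
  rw [Real.rpow_def_of_pos hn0, Real.rpow_def_of_pos (by norm_num : (0 : ℝ) < 2)]
  nth_rw 1 [← Real.exp_log hn0]
  rw [← Real.exp_add]
  apply Real.exp_le_exp.2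
  nlinarith

/-- cells -/
theorem ev_cells (K a η : ℝ) (hη : 0 < η) (ha : 0 ≤ a) : ∃ ε₂ > 0, ∀ᶠ n : ℕ in atTop, ∀ k : ℕ,
    (k : ℝ) ≤ ε₂ * n / Real.log n + 1 → ∀ x : ℝ, 0 ≤ x → x ≤ K * (n : ℝ) ^ a → x ^ k ≤ (2 : ℝ) ^ (η * n) := by
  have hl2 : 0 < Real.log 2 := Real.log_pos (by norm_num)
  refine ⟨η * Real.log 2 / (2 * (a + 1)), by positivity, ?_⟩
  filter_upwards [ev_log (a + 1) (η * Real.log 2 / 2) (by positivity),
    eventually_ge_atTop (max 3 ⌈|K|⌉₊)] with n h1 h3 k hk x hx hxK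
  have hn3 : 3 ≤ n := (le_max_left _ _).trans h3
  have hn0 : (0 : ℝ) < n := by
    have : 0 < n := by omega
    exact_mod_cast this
  have hn1 : (1 : ℝ) < n := by
    have : 1 < n := by omega
    exact_mod_cast this
  have hlog : 0 < Real.log n := Real.log_pos hn1
  have hK : K ≤ n := by
    refine (le_abs_self K).trans ((Nat.le_ceil _).trans ?_)
    exact_mod_cast (le_max_right _ _).trans h3
  have h4 : x ≤ (n : ℝ) ^ (a + 1) := by
    refine hxK.trans ((mul_le_mul_of_nonneg_right hK (Real.rpow_nonneg hn0.le _)).trans ?_)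
    rw [Real.rpow_add hn0, Real.rpow_one, mul_comm]
  refine (pow_le_pow_left₀ hx h4 k).trans ?_
  rw [← Real.rpow_natCast, ← Real.rpow_mul hn0.le, Real.rpow_def_of_pos hn0,
    Real.rpow_def_of_pos (by norm_num : (0 : ℝ) < 2)]
  apply Real.exp_le_exp.2
  have h5 : (a + 1) * k ≤ (a + 1) * (η * Real.log 2 / (2 * (a + 1)) * n / Real.log n + 1) :=
    mul_le_mul_of_nonneg_left hk (by positivity)
  have h6 : Real.log n * ((a + 1) * k) ≤
      Real.log n * ((a + 1) * (η * Real.log 2 / (2 * (a + 1)) * n / Real.log n + 1)) :=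
    mul_le_mul_of_nonneg_left h5 hlog.le
  refine h6.trans ?_
  have h7 : Real.log n * ((a + 1) * (η * Real.log 2 / (2 * (a + 1)) * n / Real.log n + 1)) =
      η * Real.log 2 / 2 * n + (a + 1) * Real.log n := by
    have : a + 1 ≠ 0 := by positivity
    field_simp
  rw [h7]
  nlinarith

/-- binomials -/
theorem ev_choose (η : ℝ) (hη : 0 < η) : ∃ θ > 0, ∀ᶠ n : ℕ in atTop, ∀ d : ℕ, (d : ℝ) ≤ θ * n + 4 →
    ((n + d).choose d : ℝ) ≤ (2 : ℝ) ^ (η * n) := by
  have hl2 : 0 < Real.log 2 := Real.log_pos (by norm_num)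
  have hl21 : Real.log 2 < 1 := by have := Real.log_two_lt_d9; linarith
  set x : ℝ := min 1 (η * Real.log 2 / 4) with hx
  have hx0 : 0 < x := lt_min one_pos (by positivity)
  have hx1 : x ≤ 1 := min_le_left _ _
  have hx2 : x ≤ η * Real.log 2 / 4 := min_le_right _ _
  set c : ℝ := -Real.log x with hc
  have hc0 : 0 ≤ c := by
    rw [hc]
    have := Real.log_nonpos hx0.le hx1
    linarith
  refine ⟨min (1 / 2) (η * Real.log 2 / (4 * (c + 1))), lt_min (by norm_num) (by positivity), ?_⟩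
  set θ := min (1 / 2) (η * Real.log 2 / (4 * (c + 1))) with hθ
  have hθ1 : θ ≤ 1 / 2 := min_le_left _ _
  have hθ2 : θ ≤ η * Real.log 2 / (4 * (c + 1)) := min_le_right _ _
  filter_upwards [eventually_ge_atTop (max 8 ⌈16 * c / (η * Real.log 2)⌉₊)] with n hn d hd
  have hn8 : (8 : ℝ) ≤ n := by exact_mod_cast (le_max_left _ _).trans hn
  have hnc : 16 * c / (η * Real.log 2) ≤ n :=
    (Nat.le_ceil _).trans (by exact_mod_cast (le_max_right _ _).trans hn)
  rw [div_le_iff₀ (by positivity)] at hnc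
  have hdn : (d : ℝ) ≤ n := by nlinarith
  have h1 : ((n + d).choose d : ℝ) * x ^ d ≤ (1 + x) ^ (n + d) := by
    rw [add_comm 1 x, add_pow]
    have h2 := Finset.single_le_sum (f := fun m => x ^ m * 1 ^ (n + d - m) * ((n + d).choose m : ℝ))
      (fun i _ => by positivity) (Finset.mem_range.2 (show d < n + d + 1 by omega))
    simp only [one_pow, mul_one] at h2 ⊢
    linarith
  have h2 : ((n + d).choose d : ℝ) ≤ (1 + x) ^ (n + d) / x ^ d := by
    rw [le_div_iff₀ (by positivity)]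
    exact h1
  refine h2.trans ?_
  have h3 : (1 + x) ^ (n + d) ≤ Real.exp (x * (n + d)) := by
    have h4 : 1 + x ≤ Real.exp x := by have := Real.add_one_le_exp x; linarith
    refine (pow_le_pow_left₀ (by positivity) h4 _).trans ?_
    rw [← Real.exp_nat_mul]
    push_cast
    rw [mul_comm]
  have h4 : x ^ d = Real.exp (-(c * d)) := by
    rw [hc, ← Real.rpow_natCast, Real.rpow_def_of_pos hx0]
    congr 1
    ring
  rw [h4, Real.rpow_def_of_pos (by norm_num : (0 : ℝ) < 2)]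
  rw [div_le_iff₀ (Real.exp_pos _), ← Real.exp_add]
  refine h3.trans (Real.exp_le_exp.2 ?_)
  have h5 : x * (n + d) ≤ η * Real.log 2 / 4 * (2 * n) := by
    have : x * (n + d) ≤ x * (2 * n) := mul_le_mul_of_nonneg_left (by linarith) hx0.le
    refine this.trans (mul_le_mul_of_nonneg_right hx2 (by positivity))
  have h6 : c * d ≤ η * Real.log 2 / 4 * n + 4 * c := by
    have h7 : c * d ≤ c * (θ * n + 4) := mul_le_mul_of_nonneg_left hd hc0
    have h8 : c * θ ≤ η * Real.log 2 / 4 := by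
      have h9 : c * θ ≤ c * (η * Real.log 2 / (4 * (c + 1))) := mul_le_mul_of_nonneg_left hθ2 hc0
      refine h9.trans ?_
      rw [mul_div_assoc', div_le_div_iff₀ (by positivity) (by norm_num)]
      have : 0 < η * Real.log 2 := by positivity
      nlinarith
    have h10 : c * (θ * n) ≤ η * Real.log 2 / 4 * n := by
      rw [← mul_assoc]
      exact mul_le_mul_of_nonneg_right h8 (by positivity)
    nlinarith
  nlinarith

/-- powers `c^(√n)` -/
theorem ev_sqrt (c : ℝ) (hc : 1 ≤ c) (C : ℕ) (η : ℝ) (hη : 0 < η) :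
    ∀ᶠ n : ℕ in atTop, c ^ (Nat.sqrt (C * n) + 1) ≤ (2 : ℝ) ^ (η * n) := by
  have hl2 : 0 < Real.log 2 := Real.log_pos (by norm_num)
  have hlc : 0 ≤ Real.log c := Real.log_nonneg hc
  set D : ℝ := Real.log c * (C + 2) / (η * Real.log 2) with hD
  have hD0 : 0 ≤ D := by positivity
  filter_upwards [eventually_ge_atTop (max 1 ⌈D ^ 2⌉₊)] with n hn
  have hn1 : 1 ≤ n := (le_max_left _ _).trans hn
  have hn1' : (1 : ℝ) ≤ n := by exact_mod_cast hn1
  have hnD : D ^ 2 ≤ n := (Nat.le_ceil _).trans (by exact_mod_cast (le_max_right _ _).trans hn)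
  have hDs : D ≤ Real.sqrt n := Real.le_sqrt_of_sq_le hnD
  have hs1 : 1 ≤ Real.sqrt n := Real.one_le_sqrt.2 hn1'
  have hss : Real.sqrt n * Real.sqrt n = n := Real.mul_self_sqrt (by linarith)
  have h1 : ((Nat.sqrt (C * n) : ℕ) : ℝ) ≤ (C + 1) * Real.sqrt n := by
    have h2 : (Nat.sqrt (C * n)) * (Nat.sqrt (C * n)) ≤ C * n := Nat.sqrt_le _
    have h3 : ((Nat.sqrt (C * n) : ℕ) : ℝ) ^ 2 ≤ C * n := by
      rw [sq]; exact_mod_cast h2
    have h4 : ((Nat.sqrt (C * n) : ℕ) : ℝ) ^ 2 ≤ ((C + 1) * Real.sqrt n) ^ 2 := by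
      refine h3.trans ?_
      rw [mul_pow, Real.sq_sqrt (by linarith)]
      refine mul_le_mul_of_nonneg_right ?_ (by linarith)
      have : (0 : ℝ) ≤ C := Nat.cast_nonneg C
      nlinarith
    exact (abs_le_of_sq_le_sq' h4 (by positivity)).2
  rw [← Real.rpow_natCast, Real.rpow_def_of_pos (by linarith), Real.rpow_def_of_pos (by norm_num : (0 : ℝ) < 2)]
  apply Real.exp_le_exp.2
  push_cast
  have h5 : ((Nat.sqrt (C * n) : ℕ) : ℝ) + 1 ≤ (C + 2) * Real.sqrt n := by nlinarith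
  have h6 : Real.log c * (((Nat.sqrt (C * n) : ℕ) : ℝ) + 1) ≤ Real.log c * ((C + 2) * Real.sqrt n) :=
    mul_le_mul_of_nonneg_left h5 hlc
  have h7 : Real.log c * (C + 2) ≤ Real.sqrt n * (η * Real.log 2) := by
    rw [hD, div_le_iff₀ (by positivity)] at hDs
    exact hDs
  have h8 : Real.log c * (C + 2) * Real.sqrt n ≤ Real.sqrt n * (η * Real.log 2) * Real.sqrt n :=
    mul_le_mul_of_nonneg_right h7 (by positivity)
  calc Real.log c * (((Nat.sqrt (C * n) : ℕ) : ℝ) + 1) ≤ Real.log c * ((C + 2) * Real.sqrt n) := h6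
    _ = Real.log c * (C + 2) * Real.sqrt n := by ring
    _ ≤ Real.sqrt n * (η * Real.log 2) * Real.sqrt n := h8
    _ = (Real.sqrt n * Real.sqrt n) * (η * Real.log 2) := by ring
    _ = Real.log 2 * (η * n) := by rw [hss]; ring

theorem card_sym2_sub (n ρ : ℕ) (h : ρ ≤ n) :
    Fintype.card (Sym2 (Fin (n - ρ))) + ρ * n ≤ Fintype.card (Sym2 (Fin n)) + ρ ^ 2 := by
  rw [Sym2.card, Sym2.card, Fintype.card_fin, Fintype.card_fin]
  obtain ⟨m, rfl⟩ := Nat.exists_eq_add_of_le h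
  rw [Nat.add_sub_cancel_left]
  rw [Nat.choose_two_right, Nat.choose_two_right]
  simp only [Nat.add_sub_cancel]
  have h1 : 2 ∣ (m + 1) * m := by
    rw [mul_comm]; exact (Nat.even_mul_succ_self m).two_dvd
  have h2 : 2 ∣ (ρ + m + 1) * (ρ + m) := by
    rw [mul_comm]; exact (Nat.even_mul_succ_self (ρ + m)).two_dvd
  obtain ⟨u, hu⟩ := h1
  obtain ⟨v, hv⟩ := h2
  rw [hu, hv, Nat.mul_div_cancel_left _ (by norm_num), Nat.mul_div_cancel_left _ (by norm_num)]
  nlinarith

end Vale.Agent.P160.Half.A
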