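import Vale.Agent.P160.Half.A5c

/-! # P160, part (A): numbers for one piece. -/

set_option linter.unusedVariables false
set_option linter.unusedSectionVars false

namespace Vale.Agent.P160.Half.A

open Finset Matrix Filter Vale.Agent.P160.Half
open scoped Topology

/-- the exponent of the number of points -/
noncomputable def ew (α' : ℝ) (l M ρ : ℕ) : ℝ :=
  2 * (l : ℝ) * M - l - (1 - α') * (2 * (l : ℝ) * M - ρ)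

theorem rp_mul (x y : ℝ) : (2 : ℝ) ^ x * 2 ^ y = 2 ^ (x + y) := (Real.rpow_add (by norm_num) x y).symm

theorem rp_pow (x : ℝ) (k : ℕ) : ((2 : ℝ) ^ x) ^ k = 2 ^ (x * k) := by
  rw [← Real.rpow_natCast, ← Real.rpow_mul (by norm_num)]

theorem rp_mono {x y : ℝ} (h : x ≤ y) : (2 : ℝ) ^ x ≤ 2 ^ y :=
  Real.rpow_le_rpow_of_exponent_le (by norm_num) h

theorem term_le {n l M s₁ ρ : ℕ} {X C₂ η α' ε₁ u : ℝ} (hn : 1 ≤ n) (hρn : ρ ≤ n) (hM : 1 ≤ M)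
    (hρ : ρ ≤ 2 * l * M) (hC₂ : 0 ≤ C₂) (hη : 0 ≤ η) (hε : 0 ≤ ε₁) (hu : 0 ≤ u) (hX : 0 ≤ X)
    (hα' : α' ≤ 1) (hαM : 0 ≤ ew α' l M 0)
    (hs : (s₁ : ℝ) * Real.logb 2 (4 * l * M + 1) ≤ l / 16)
    (h1 : (n : ℝ) ^ ρ * 2 ^ (s₁ * ρ) ≤ (2 : ℝ) ^ (η * n))
    (h2 : (2 * (n * X ^ 2) + 1) ^ (ρ ^ 2) ≤ (2 : ℝ) ^ (η * n))
    (h3 : (2 : ℝ) ^ (ρ ^ 2) ≤ (2 : ℝ) ^ (η * n)) :
    (n : ℝ) ^ ρ * 2 ^ (s₁ * ρ) * Gb n s₁ ρ X ((2 : ℝ) ^ ew α' l M ρ) ((2 : ℝ) ^ (C₂ * n))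
      ((2 : ℝ) ^ (ε₁ * n * (u + 3))) ≤ 2 ^ Fintype.card (Sym2 (Fin n)) *
      (2 : ℝ) ^ ((-ρ + ew α' l M ρ + l / 16 + C₂ + ε₁ * (u + 3) * ρ + 3 * η) * n) := by
  have hn0 : (0 : ℝ) < n := by exact_mod_cast hn
  have hew : 0 ≤ ew α' l M ρ := by
    have h5 : ew α' l M 0 ≤ ew α' l M ρ := by
      unfold ew
      have : (0 : ℝ) ≤ ρ := Nat.cast_nonneg ρ
      push_cast
      nlinarith
    linarith
  -- the factor of the symmetric matrices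
  have f1 : (2 : ℝ) ^ (Fintype.card (Sym2 (Fin (n - ρ)))) ≤
      2 ^ Fintype.card (Sym2 (Fin n)) * (2 : ℝ) ^ (η * n) * (2 : ℝ) ^ (-(ρ * n) : ℝ) := by
    have g1 := card_sym2_sub n ρ hρn
    have g2 : (2 : ℝ) ^ (Fintype.card (Sym2 (Fin (n - ρ)))) * 2 ^ (ρ * n) ≤
        2 ^ Fintype.card (Sym2 (Fin n)) * 2 ^ (ρ ^ 2) := by
      rw [← pow_add, ← pow_add]
      exact pow_le_pow_right₀ (by norm_num) g1
    have g3 : (2 : ℝ) ^ (-(ρ * n) : ℝ) = ((2 : ℝ) ^ (ρ * n))⁻¹ := by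
      rw [Real.rpow_neg (by norm_num)]
      congr 1
      rw [← Real.rpow_natCast]
      push_cast
      rfl
    rw [g3, ← div_eq_mul_inv, le_div_iff₀ (by positivity)]
    refine g2.trans (mul_le_mul_of_nonneg_left h3 (by positivity))
  have f2 : ((2 : ℝ) ^ ew α' l M ρ) ^ (n - ρ) ≤ (2 : ℝ) ^ (ew α' l M ρ * n) := by
    rw [rp_pow]
    refine rp_mono (mul_le_mul_of_nonneg_left ?_ hew)
    exact_mod_cast Nat.sub_le n ρ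
  have f3 : ((2 * (ρ : ℝ) + 1) ^ n) ^ s₁ ≤ (2 : ℝ) ^ ((l : ℝ) / 16 * n) := by
    have g1 : (2 * (ρ : ℝ) + 1) ≤ 4 * l * M + 1 := by
      have : (ρ : ℝ) ≤ 2 * l * M := by exact_mod_cast hρ
      linarith
    have g2 : (0 : ℝ) < 4 * l * M + 1 := by positivity
    have g3 : ((2 * (ρ : ℝ) + 1) ^ n) ^ s₁ ≤ ((4 * l * M + 1 : ℝ) ^ n) ^ s₁ :=
      pow_le_pow_left₀ (by positivity) (pow_le_pow_left₀ (by positivity) g1 _) _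
    refine g3.trans ?_
    have g4 : (4 * l * M + 1 : ℝ) = (2 : ℝ) ^ (Real.logb 2 (4 * l * M + 1)) := by
      rw [Real.rpow_logb (by norm_num) (by norm_num) g2]
    rw [← pow_mul]
    rw [g4, rp_pow]
    refine rp_mono ?_
    push_cast
    calc Real.logb 2 (4 * l * M + 1) * (n * s₁) = (s₁ * Real.logb 2 (4 * l * M + 1)) * n := by ring
      _ ≤ l / 16 * n := mul_le_mul_of_nonneg_right hs hn0.le
  have f4 : ((2 : ℝ) ^ (ε₁ * n * (u + 3))) ^ ρ = (2 : ℝ) ^ (ε₁ * n * (u + 3) * ρ) := rp_pow _ _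
  unfold Gb
  rw [f4]
  have e0 : (0 : ℝ) ≤ 2 * (n * X ^ 2) + 1 := by positivity
  calc (n : ℝ) ^ ρ * 2 ^ (s₁ * ρ) * ((2 * (n * X ^ 2) + 1) ^ (ρ ^ 2) *
        2 ^ (Fintype.card (Sym2 (Fin (n - ρ)))) * ((2 : ℝ) ^ ew α' l M ρ) ^ (n - ρ) *
        ((2 * (ρ : ℝ) + 1) ^ n) ^ s₁ * (2 : ℝ) ^ (C₂ * n) * (2 : ℝ) ^ (ε₁ * n * (u + 3) * ρ))
      ≤ (2 : ℝ) ^ (η * n) * ((2 : ℝ) ^ (η * n) *
        (2 ^ Fintype.card (Sym2 (Fin n)) * (2 : ℝ) ^ (η * n) * (2 : ℝ) ^ (-(ρ * n) : ℝ)) *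
        (2 : ℝ) ^ (ew α' l M ρ * n) * (2 : ℝ) ^ ((l : ℝ) / 16 * n) * (2 : ℝ) ^ (C₂ * n) *
        (2 : ℝ) ^ (ε₁ * n * (u + 3) * ρ)) := by
        gcongr
    _ = 2 ^ Fintype.card (Sym2 (Fin n)) * ((2 : ℝ) ^ (η * n) * (2 : ℝ) ^ (η * n) * (2 : ℝ) ^ (η * n) *
        (2 : ℝ) ^ (-(ρ * n) : ℝ) * (2 : ℝ) ^ (ew α' l M ρ * n) * (2 : ℝ) ^ ((l : ℝ) / 16 * n) *
        (2 : ℝ) ^ (C₂ * n) * (2 : ℝ) ^ (ε₁ * n * (u + 3) * ρ)) := by ring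
    _ = _ := by
        rw [rp_mul, rp_mul, rp_mul, rp_mul, rp_mul, rp_mul, rp_mul]
        congr 2
        ring

theorem KK_le {n l M p k d : ℕ} {X kc η : ℝ} (hM : 1 ≤ M) (hp1 : 2 ^ l < p) (hp2 : p ≤ 2 * 2 ^ l)
    (hX : 0 ≤ X) (hkc0 : 0 ≤ kc) (hn : 1 ≤ n)
    (h1 : (2 * (n : ℝ) ^ 2 * (((M * (2 ^ l - 1) : ℕ) : ℝ) + 1) * (((M * (2 ^ l - 1) : ℕ) : ℝ) * X) + 2) ^ k ≤
      (2 : ℝ) ^ (η * n))
    (h2 : ((n + d).choose d : ℝ) ≤ (2 : ℝ) ^ (η * n)) (h3 : kc ≤ (2 : ℝ) ^ (η * n)) :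
    Real.sqrt (KK n l M p k d X kc) ≤ (2 : ℝ) ^ ((2 * η + Real.logb 2 M + (l + 1) / 2) * n) := by
  have hM0 : (0 : ℝ) < M := by exact_mod_cast hM
  have hn0 : (0 : ℝ) < n := by exact_mod_cast hn
  have g1 : M * (2 ^ l - 1) / p + 1 ≤ M := by
    have hp0 : 0 < p := lt_of_le_of_lt (Nat.zero_le _) hp1
    have : M * (2 ^ l - 1) / p < M := by
      rw [Nat.div_lt_iff_lt_mul hp0]
      exact Nat.mul_lt_mul_of_pos_left (by omega) hM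
    omega
  have g2 : (((M * (2 ^ l - 1) / p + 1) ^ n : ℕ) : ℝ) ≤ (2 : ℝ) ^ (Real.logb 2 M * n) := by
    have : (((M * (2 ^ l - 1) / p + 1) ^ n : ℕ) : ℝ) ≤ (M : ℝ) ^ n := by
      exact_mod_cast Nat.pow_le_pow_left g1 n
    refine this.trans (le_of_eq ?_)
    rw [Real.rpow_mul (by norm_num), Real.rpow_logb (by norm_num) (by norm_num) hM0, Real.rpow_natCast]
  have g3 : (p : ℝ) ^ n ≤ (2 : ℝ) ^ ((l + 1 : ℝ) * n) := by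
    have : (p : ℝ) ≤ (2 : ℝ) ^ (l + 1 : ℝ) := by
      rw [Real.rpow_add (by norm_num), Real.rpow_one, Real.rpow_natCast, mul_comm]
      exact_mod_cast hp2
    calc (p : ℝ) ^ n ≤ ((2 : ℝ) ^ (l + 1 : ℝ)) ^ n := pow_le_pow_left₀ (Nat.cast_nonneg p) this n
      _ = _ := rp_pow _ _
  refine Real.sqrt_le_iff.2 ⟨(two_rpow_pos _).le, ?_⟩
  unfold KK
  calc ((2 * (n : ℝ) ^ 2 * (((M * (2 ^ l - 1) : ℕ) : ℝ) + 1) * (((M * (2 ^ l - 1) : ℕ) : ℝ) * X) + 2) ^ k) ^ 2 *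
      ((Nat.choose (n + d) d : ℝ) * (((((M * (2 ^ l - 1)) / p + 1) ^ n : ℕ) : ℝ) ^ 2 * (p : ℝ) ^ n * kc))
      ≤ ((2 : ℝ) ^ (η * n)) ^ 2 * ((2 : ℝ) ^ (η * n) * (((2 : ℝ) ^ (Real.logb 2 M * n)) ^ 2 *
        (2 : ℝ) ^ ((l + 1 : ℝ) * n) * (2 : ℝ) ^ (η * n))) := by
        gcongr
    _ = _ := by
        rw [rp_pow, rp_pow, rp_pow, rp_mul, rp_mul, rp_mul, rp_mul]
        congr 1
        push_cast
        ring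

theorem gen1 {S n e a e3 e4 f : ℝ} (hS : 0 ≤ S) (hn : 0 ≤ n) (h : e - a + e3 + e4 ≤ -f) :
    (2 : ℝ) ^ (e * n) * (2 : ℝ) ^ (-(a * n)) * ((2 : ℝ) ^ (e3 * n) * (S * (2 : ℝ) ^ (e4 * n))) ≤
      S * (2 : ℝ) ^ (-(f * n)) := by
  have h0 : (2 : ℝ) ^ (e * n) * (2 : ℝ) ^ (-(a * n)) * ((2 : ℝ) ^ (e3 * n) * (S * (2 : ℝ) ^ (e4 * n))) =
      S * ((2 : ℝ) ^ (e * n) * (2 : ℝ) ^ (-(a * n)) * (2 : ℝ) ^ (e3 * n) * (2 : ℝ) ^ (e4 * n)) := by ring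
  rw [h0, rp_mul, rp_mul, rp_mul]
  refine mul_le_mul_of_nonneg_left (rp_mono ?_) hS
  have := mul_le_mul_of_nonneg_right h hn
  linarith

theorem gen2 {S n e a e3 e4 e5 f : ℝ} (hS : 0 ≤ S) (hn : 0 ≤ n) (h : e - a + e3 + e4 + e5 ≤ -f) :
    (2 : ℝ) ^ (e * n) * (2 : ℝ) ^ (-(a * n)) * ((2 : ℝ) ^ (e3 * n) *
      ((2 : ℝ) ^ (e4 * n) * (S * (2 : ℝ) ^ (e5 * n)))) ≤ S * (2 : ℝ) ^ (-(f * n)) := by
  have h0 : (2 : ℝ) ^ (e * n) * (2 : ℝ) ^ (-(a * n)) * ((2 : ℝ) ^ (e3 * n) *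
      ((2 : ℝ) ^ (e4 * n) * (S * (2 : ℝ) ^ (e5 * n)))) =
      S * ((2 : ℝ) ^ (e * n) * (2 : ℝ) ^ (-(a * n)) * (2 : ℝ) ^ (e3 * n) * (2 : ℝ) ^ (e4 * n) *
        (2 : ℝ) ^ (e5 * n)) := by ring
  rw [h0, rp_mul, rp_mul, rp_mul, rp_mul]
  refine mul_le_mul_of_nonneg_left (rp_mono ?_) hS
  have := mul_le_mul_of_nonneg_right h hn
  linarith

theorem gen3 {S n B : ℝ} (hS : 0 ≤ S) (hn : 1 ≤ n) :
    S * (2 : ℝ) ^ (-((B + 4) * n)) + S * (2 : ℝ) ^ (-((B + 4) * n)) ≤ S * (2 : ℝ) ^ (-((B + 3) * n)) := by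
  have h : (2 : ℝ) ^ (-((B + 4) * n)) * 2 ≤ (2 : ℝ) ^ (-((B + 3) * n)) := by
    calc (2 : ℝ) ^ (-((B + 4) * n)) * 2 = (2 : ℝ) ^ (-((B + 4) * n)) * 2 ^ (1 : ℝ) := by
          rw [Real.rpow_one]
      _ = (2 : ℝ) ^ (-((B + 4) * n) + 1) := rp_mul _ _
      _ ≤ _ := rp_mono (by nlinarith)
  calc _ = S * ((2 : ℝ) ^ (-((B + 4) * n)) * 2) := by ring
    _ ≤ _ := mul_le_mul_of_nonneg_left h hS

theorem gen4 {Oc D Z s n a e m : ℝ} (hD : 0 < D) (hZ : 0 ≤ Z) (hDe : D ≤ (2 : ℝ) ^ (e * n))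
    (hs0 : 0 ≤ s) (hs : s ≤ (2 : ℝ) ^ (m * n))
    (h : Oc * ((2 : ℝ) ^ (a * n) / D) ≤ s * Z) :
    Oc ≤ (2 : ℝ) ^ (e * n) * (2 : ℝ) ^ (-(a * n)) * ((2 : ℝ) ^ (m * n) * Z) := by
  have e1 : Oc * (2 : ℝ) ^ (a * n) ≤ D * (s * Z) := by
    rw [mul_div_assoc', div_le_iff₀ hD] at h
    linarith
  have e2 : Oc = (Oc * (2 : ℝ) ^ (a * n)) * (2 : ℝ) ^ (-(a * n)) := by
    rw [mul_assoc, rp_mul, add_neg_cancel, Real.rpow_zero, mul_one]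
  rw [e2]
  have e3 : D * (s * Z) ≤ (2 : ℝ) ^ (e * n) * ((2 : ℝ) ^ (m * n) * Z) := by
    gcongr
  calc _ ≤ ((2 : ℝ) ^ (e * n) * ((2 : ℝ) ^ (m * n) * Z)) * (2 : ℝ) ^ (-(a * n)) :=
        mul_le_mul_of_nonneg_right (e1.trans e3) (two_rpow_pos _).le
    _ = _ := by ring

theorem gen5 {J ρ ew' α' ε₁ u l C₂ η : ℝ} (hρ0 : 0 ≤ ρ) (hρ : ρ ≤ J) (hε : 0 ≤ ε₁) (h : α' ≤ ε₁ * u)
    (hew : ew' = J - l - (1 - α') * (J - ρ)) :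
    -ρ + ew' + l / 16 + C₂ + ε₁ * (u + 3) * ρ + 3 * η ≤
      ε₁ * u * J - l + l / 16 + C₂ + 3 * ε₁ * J + 3 * η := by
  have g3 : 0 ≤ (J - ρ) * (ε₁ * u - α') := mul_nonneg (by linarith) (by linarith)
  have g4 : ε₁ * ρ ≤ ε₁ * J := mul_le_mul_of_nonneg_left hρ hε
  subst hew
  nlinarith

/-- **one piece** -/
theorem piece_le {n l M s₁ p k d : ℕ} {X kc C₂ η α' ε₁ B Pi Oc Bc : ℝ} {u : ℕ} (hn : 1 ≤ n)
    (hnJ : 2 * l * M ≤ n) (hM : 1 ≤ M) (hl : 1 ≤ l) (hC₂ : 0 ≤ C₂) (hη : η = 1 / 16) (hε : 0 ≤ ε₁)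
    (hX : 0 ≤ X) (hα' : α' ≤ 1) (hαM : 0 ≤ ew α' l M 0) (hαu : α' ≤ ε₁ * u) (hεM : 96 * M * ε₁ ≤ 1)
    (hB : 0 ≤ B) (hlB : B + 8 + Real.logb 2 M + C₂ ≤ 3 / 8 * l)
    (hs : (s₁ : ℝ) * Real.logb 2 (4 * l * M + 1) ≤ l / 16)
    (hKK : Real.sqrt (KK n l M p k d X kc) ≤ (2 : ℝ) ^ ((2 * η + Real.logb 2 M + (l + 1) / 2) * n))
    (hPi0 : 0 < Pi) (hPi : (2 * Pi) ^ (2 * l * M) ≤ (2 : ℝ) ^ (η * n))
    (h1 : ∀ ρ ≤ 2 * l * M, (n : ℝ) ^ ρ * 2 ^ (s₁ * ρ) ≤ (2 : ℝ) ^ (η * n))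
    (h2 : ∀ ρ ≤ 2 * l * M, (2 * (n * X ^ 2) + 1) ^ (ρ ^ 2) ≤ (2 : ℝ) ^ (η * n))
    (h3 : ∀ ρ ≤ 2 * l * M, (2 : ℝ) ^ (ρ ^ 2) ≤ (2 : ℝ) ^ (η * n))
    (T : Finset (Ty n l M)) (hT : (T.card : ℝ) ≤ (2 : ℝ) ^ (η * n))
    (hBc0 : 0 ≤ Bc) (hBc : Bc ≤ (2 : ℝ) ^ (-(5 * l * M * n) : ℝ) * 2 ^ (Fintype.card (Sym2 (Fin n)) + 2 * l * M * n))
    (hmain : Oc * ((2 : ℝ) ^ (ε₁ * n * u) / (2 * Pi)) ^ (2 * l * M) ≤ Real.sqrt (KK n l M p k d X kc) *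
      (Bc + ∑ τ ∈ T, (n : ℝ) ^ τ.I.card * 2 ^ (s₁ * τ.I.card) *
        Gb n s₁ τ.I.card X ((2 : ℝ) ^ ew α' l M τ.I.card) ((2 : ℝ) ^ (C₂ * n))
          ((2 : ℝ) ^ (ε₁ * n * ((u : ℝ) + 3))))) :
    Oc ≤ 2 ^ Fintype.card (Sym2 (Fin n)) * (2 : ℝ) ^ (-((B + 3) * n)) := by
  have hn0 : (0 : ℝ) < n := by exact_mod_cast hn
  have hn1 : (1 : ℝ) ≤ n := by exact_mod_cast hn
  have hl1 : (1 : ℝ) ≤ l := by exact_mod_cast hl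
  have hM1 : (1 : ℝ) ≤ M := by exact_mod_cast hM
  have hlogM : 0 ≤ Real.logb 2 M := Real.logb_nonneg (by norm_num) hM1
  have hu0 : (0 : ℝ) ≤ u := Nat.cast_nonneg u
  set S : ℝ := 2 ^ Fintype.card (Sym2 (Fin n)) with hS
  have hS0 : 0 < S := by positivity
  have hIcard : ∀ τ : Ty n l M, τ.I.card ≤ 2 * l * M := by
    intro τ
    refine (card_le_univ _).trans (le_of_eq ?_)
    simp only [Fintype.card_prod, Fintype.card_fin, Fintype.card_bool]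
    ring
  -- the denominators
  have hden : ((2 : ℝ) ^ (ε₁ * n * u) / (2 * Pi)) ^ (2 * l * M) =
      (2 : ℝ) ^ (ε₁ * u * (2 * l * M) * n) / (2 * Pi) ^ (2 * l * M) := by
    rw [div_pow, rp_pow]
    congr 2
    push_cast
    ring
  have hden0 : 0 < (2 * Pi) ^ (2 * l * M) := by positivity
  rw [hden] at hmain
  have hZ0 : 0 ≤ (Bc + ∑ τ ∈ T, (n : ℝ) ^ τ.I.card * 2 ^ (s₁ * τ.I.card) *
        Gb n s₁ τ.I.card X ((2 : ℝ) ^ ew α' l M τ.I.card) ((2 : ℝ) ^ (C₂ * n))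
          ((2 : ℝ) ^ (ε₁ * n * ((u : ℝ) + 3)))) := by
    refine add_nonneg hBc0 (sum_nonneg fun τ _ => ?_)
    exact mul_nonneg (by positivity) (Gb_nonneg (two_rpow_pos _).le (two_rpow_pos _).le (two_rpow_pos _).le)
  have hO := gen4 hden0 hZ0 hPi (Real.sqrt_nonneg _) hKK hmain
  refine hO.trans ?_
  -- the sum over the types
  have hsum : (∑ τ ∈ T, (n : ℝ) ^ τ.I.card * 2 ^ (s₁ * τ.I.card) *
        Gb n s₁ τ.I.card X ((2 : ℝ) ^ ew α' l M τ.I.card) ((2 : ℝ) ^ (C₂ * n))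
          ((2 : ℝ) ^ (ε₁ * n * ((u : ℝ) + 3)))) ≤ (2 : ℝ) ^ (η * n) * (S *
      (2 : ℝ) ^ ((ε₁ * u * (2 * l * M) - l + l / 16 + C₂ + 3 * ε₁ * (2 * l * M) + 3 * η) * n)) := by
    calc _ ≤ ∑ _τ ∈ T, (S *
          (2 : ℝ) ^ ((ε₁ * u * (2 * l * M) - l + l / 16 + C₂ + 3 * ε₁ * (2 * l * M) + 3 * η) * n)) := by
          refine sum_le_sum fun τ _ => ?_
          have hρ := hIcard τ
          have g1 := term_le (n := n) (l := l) (M := M) (s₁ := s₁) (ρ := τ.I.card) (X := X) (C₂ := C₂)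
            (η := η) (α' := α') (ε₁ := ε₁) (u := u) hn (hρ.trans hnJ) hM hρ hC₂ (by rw [hη]; norm_num) hε hu0
            hX hα' hαM hs (h1 _ hρ) (h2 _ hρ) (h3 _ hρ)
          refine g1.trans (mul_le_mul_of_nonneg_left (rp_mono ?_) hS0.le)
          refine mul_le_mul_of_nonneg_right ?_ hn0.le
          exact gen5 (Nat.cast_nonneg _) (by exact_mod_cast hρ) hε hαu rfl
      _ = (T.card : ℝ) * (S *
          (2 : ℝ) ^ ((ε₁ * u * (2 * l * M) - l + l / 16 + C₂ + 3 * ε₁ * (2 * l * M) + 3 * η) * n)) := by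
          rw [sum_const, nsmul_eq_mul]
      _ ≤ _ := mul_le_mul_of_nonneg_right hT (mul_nonneg hS0.le (two_rpow_pos _).le)
  have hBc' : Bc ≤ S * (2 : ℝ) ^ (-(3 * l * M) * n : ℝ) := by
    refine hBc.trans (le_of_eq ?_)
    rw [pow_add, mul_left_comm, ← hS, ← Real.rpow_natCast 2 (2 * l * M * n), rp_mul]
    congr 2
    push_cast
    ring
  have hlM : (l : ℝ) ≤ l * M := le_mul_of_one_le_right (by linarith) hM1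
  have hεM' : ε₁ * (2 * l * M) ≤ l / 48 := by
    have : l * (96 * M * ε₁) ≤ l * 1 := mul_le_mul_of_nonneg_left hεM (by linarith)
    linarith
  have hεu : 0 ≤ ε₁ * u * (2 * l * M) := by positivity
  -- first summand
  have t1 : (2 : ℝ) ^ (η * n) * (2 : ℝ) ^ (-(ε₁ * u * (2 * l * M) * n)) *
      ((2 : ℝ) ^ ((2 * η + Real.logb 2 M + (l + 1) / 2) * n) * (S * (2 : ℝ) ^ (-(3 * l * M) * n : ℝ))) ≤
      S * (2 : ℝ) ^ (-((B + 4) * n)) :=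
    gen1 hS0.le hn0.le (by rw [hη]; linarith)
  have t2 : (2 : ℝ) ^ (η * n) * (2 : ℝ) ^ (-(ε₁ * u * (2 * l * M) * n)) *
      ((2 : ℝ) ^ ((2 * η + Real.logb 2 M + (l + 1) / 2) * n) * ((2 : ℝ) ^ (η * n) * (S *
      (2 : ℝ) ^ ((ε₁ * u * (2 * l * M) - l + l / 16 + C₂ + 3 * ε₁ * (2 * l * M) + 3 * η) * n)))) ≤
      S * (2 : ℝ) ^ (-((B + 4) * n)) :=
    gen2 hS0.le hn0.le (by rw [hη]; linarith)
  calc _ ≤ (2 : ℝ) ^ (η * n) * (2 : ℝ) ^ (-(ε₁ * u * (2 * l * M) * n)) *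
      ((2 : ℝ) ^ ((2 * η + Real.logb 2 M + (l + 1) / 2) * n) * (S * (2 : ℝ) ^ (-(3 * l * M) * n : ℝ) +
      (2 : ℝ) ^ (η * n) * (S *
      (2 : ℝ) ^ ((ε₁ * u * (2 * l * M) - l + l / 16 + C₂ + 3 * ε₁ * (2 * l * M) + 3 * η) * n)))) :=
        mul_le_mul_of_nonneg_left (mul_le_mul_of_nonneg_left (add_le_add hBc' hsum) (two_rpow_pos _).le)
          (mul_nonneg (two_rpow_pos _).le (two_rpow_pos _).le)
    _ = _ + _ := by rw [mul_add, mul_add]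
    _ ≤ S * (2 : ℝ) ^ (-((B + 4) * n)) + S * (2 : ℝ) ^ (-((B + 4) * n)) := add_le_add t1 t2
    _ ≤ _ := gen3 hS0.le hn1

end Vale.Agent.P160.Half.A
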