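import Vale.Agent.P160.Half.A5f
import Vale.Agent.P160.Half.A5E1_150
import Vale.Agent.P160.Half.A5E2
import Vale.Agent.P160.Half.A5E3

/-! # P160, part (A): main. -/

set_option linter.unusedVariables false
set_option linter.unusedSectionVars false

namespace Vale.Agent.P160.Half.A

open Finset Matrix Filter Vale.Agent.P160.Half
open scoped Topology

/-- gap (G) at fixed parameters and exponent -/
def GAt (l M s₁ : ℕ) (C₂ A ε D : ℝ) (n : ℕ) : Prop :=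
  ∃ (T : Finset (Ty n l M)) (B₀ : Finset (Bits n)),
    (T.card : ℝ) ≤ (2 : ℝ) ^ (ε * n) ∧ (∀ τ ∈ T, τ.Ok) ∧
    (B₀.card : ℝ) ≤ (2 : ℝ) ^ (-(5 * l * M * n) : ℝ) * 2 ^ Fintype.card (Sym2 (Fin n)) ∧
  ∀ (E : Finset (Fin n)) (a : Fin n → ℤ), E.card ≤ 2 * l * M → (∀ j, |(a j : ℝ)| ≤ (n : ℝ) ^ A) →
  ∃ (B₁ : Finset (Bits n × (Fin n → Co l M → Bool)))
    (lab : (τ : Ty n l M) → (τ.I → Fin n) → Matrix (Fin n) (Fin n) ℚ → (Fin s₁ → Fin n → ℚ) →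
      Finset (Submodule ℤ (Fin n → ℚ))),
    (B₁.card : ℝ) ≤ (2 : ℝ) ^ (-(5 * l * M * n) : ℝ) *
      2 ^ (Fintype.card (Sym2 (Fin n)) + 2 * l * M * n) ∧
    (∀ τ R M' h, ((lab τ R M' h).card : ℝ) ≤ (2 : ℝ) ^ (C₂ * n)) ∧
  ∀ b ∉ B₀, (matZ b).det ≠ 0 → ∀ F : Fin n → Co l M → Bool, (b, F) ∉ B₁ → Rel E F →
  ∀ L : Submodule ℤ (Fin n → ℚ), Over (matZ b) L →
    (∀ q, dual (matZ b) (ent E a F q) ∈ L ∧ BdQ ((n : ℝ) ^ A) (dual (matZ b) (ent E a F q))) →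
  ∃ τ ∈ T, τ.Fits E b F ∧ ∃ R : τ.I → Fin n, Function.Injective R ∧ (∀ i, R i ∉ τ.S ∧ R i ∉ E) ∧
    (n : ℝ) ^ (-D) ≤ |((minor R (gs (matZ b) E a F τ.I) : ℚ) : ℝ)| ∧
    ∃ c : Fin s₁ → τ.I → Bool,
      newL (LF (matZ b) E a F τ.I) R (gs (matZ b) E a F τ.I) ∈
        lab τ R (newP (matZ b) R (gs (matZ b) E a F τ.I))
        (fun t => newH (matZ b) R (gs (matZ b) E a F τ.I) (c t))

/-- the condition of one stage -/
def Stg (l M : ℕ) (α' ε₁ : ℝ) (U : ℕ) (X X' : ℝ) {n : ℕ} (b : Bits n) : Prop :=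
  (matZ b).det ≠ 0 ∧ ∃ L : Submodule ℤ (Fin n → ℚ), Over (matZ b) L ∧ ∃ u ≤ U, α' ≤ ε₁ * u ∧
    (2 : ℝ) ^ (ε₁ * n * u) ≤ ((cls (matZ b) L (2 * l * M) X).ncard : ℝ) ∧
    ((cls (matZ b) L (2 * l * M) X').ncard : ℝ) ≤ (2 : ℝ) ^ (ε₁ * n * ((u : ℝ) + 3))

theorem Ycl_mono {n : ℕ} {P : Matrix (Fin n) (Fin n) ℤ} {L : Submodule ℤ (Fin n → ℚ)} {X X' : ℝ}
    (hX : X ≤ X') (E : Finset (Fin n)) (a : Fin n → ℤ) : Ycl P L X E a ⊆ Ycl P L X' E a :=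
  fun y hy => ⟨hy.1, hy.2.1, fun i => (hy.2.2.1 i).trans hX, hy.2.2.2.1, fun i => (hy.2.2.2.2 i).trans hX⟩

set_option maxHeartbeats 2000000 in
open Classical in
/-- **one stage** -/
theorem stage_ev (hA2 : StmtA2) (hA3 : StmtA3) (hA4 : StmtA4) {l M s₁ p : ℕ} [Fact p.Prime]
    {C₂ α' ε₁ B a D : ℝ} {U : ℕ} (hM : 1 ≤ M) (hl : 1 ≤ l) (hC₂ : 0 ≤ C₂) (hε : 0 ≤ ε₁)
    (hp1 : 2 ^ l < p) (hp2 : p ≤ 2 * 2 ^ l)
    (hα0 : 0 < α') (hα8 : 8 ≤ α' * (2 * M : ℕ)) (hα' : α' ≤ 1)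
    (hεM : 96 * M * ε₁ ≤ 1) (hB : 0 ≤ B) (hlB : B + 8 + Real.logb 2 M + C₂ ≤ 3 / 8 * l)
    (hs : (s₁ : ℝ) * Real.logb 2 (4 * l * M + 1) ≤ l / 16) (ha : 1 ≤ a) (hD : 0 ≤ D)
    (hG : ∀ᶠ n : ℕ in atTop, GAt l M s₁ C₂ (a + 1) (1 / 16) D n) :
    ∀ᶠ n : ℕ in atTop, (((univ : Finset (Bits n)).filter fun b =>
      Stg l M α' ε₁ U ((n : ℝ) ^ a) ((n : ℝ) ^ (2 + (a + 1) * (2 + (2 * l * M : ℕ)) + D)) b).card : ℝ) ≤
      2 ^ Fintype.card (Sym2 (Fin n)) * (2 : ℝ) ^ (-((B + 1) * n)) := by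
  set J : ℕ := 2 * l * M with hJ
  have hJ1 : 1 ≤ J := by
    have : 0 < l * M := Nat.mul_pos (by omega) (by omega)
    have h2 : J = 2 * (l * M) := by rw [hJ, mul_assoc]
    omega
  obtain ⟨θ, hθ, hch⟩ := ev_choose (1 / 16) (by norm_num)
  set N : ℕ := M * (2 ^ l - 1) with hN
  set Λ : ℝ := 2 * (N : ℝ) ^ 2 / θ + 1 with hΛdef
  have hΛ : 0 < Λ := by positivity
  obtain ⟨ε₂, hε₂, hcells⟩ := ev_cells (2 * ((N : ℝ) + 1) * N + 2) (3 + a) (1 / 16) (by norm_num) (by linarith)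
  obtain ⟨C, hker⟩ := E150.bad_ker (B + 3) p
  have hp1' : (1 : ℝ) ≤ p := by
    have := (Fact.out : p.Prime).one_lt
    exact_mod_cast this.le
  have hev2 : ∀ᶠ n : ℕ in atTop, (3 + (U + 1) * (2 : ℝ) ^ ((1 / 16 : ℝ) * n)) ≤ (2 : ℝ) ^ (2 * (n : ℝ)) := by
    filter_upwards [ev_poly (4 + U) 0 1 one_pos, eventually_ge_atTop 1] with n h1 h2
    rw [Real.rpow_zero, mul_one, one_mul] at h1
    have hn1 : (1 : ℝ) ≤ n := by exact_mod_cast h2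
    have h3 : (1 : ℝ) ≤ (2 : ℝ) ^ ((1 / 16 : ℝ) * n) := Real.one_le_rpow (by norm_num) (by linarith)
    calc (3 + (U + 1) * (2 : ℝ) ^ ((1 / 16 : ℝ) * n)) ≤ (4 + U) * (2 : ℝ) ^ ((1 / 16 : ℝ) * n) := by
          linarith only [h3]
      _ ≤ (2 : ℝ) ^ (n : ℝ) * (2 : ℝ) ^ ((1 / 16 : ℝ) * n) := mul_le_mul_of_nonneg_right h1 (by linarith)
      _ = (2 : ℝ) ^ ((n : ℝ) + (1 / 16 : ℝ) * n) := rp_mul _ _
      _ ≤ _ := rp_mono (by linarith)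
  filter_upwards [hG, hch, hcells, hker, E150.bad_spec Λ ε₂ (B + 3) hΛ hε₂, ev_sqrt p hp1' C (1 / 16) (by norm_num),
    ev_small J s₁ a (1 / 16) (by norm_num) (by linarith),
    ev_small J s₁ (a + 1) (1 / 16) (by norm_num) (by linarith),
    ev_X J (a + 1) D (by linarith) hD, eventually_ge_atTop (max 2 J), hev2] with n hGn hchn hcn hkn hsn hsqn
      hsm1 hsm2 hXn hnJ hn2
  obtain ⟨T, B₀, hT, hTok, hB₀, hE⟩ := hGn
  obtain ⟨k, hk1, hk2, hbs⟩ := hsn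
  have hn1 : 1 ≤ n := by have := (le_max_left 2 J).trans hnJ; omega
  have hn2' : 2 ≤ n := (le_max_left 2 J).trans hnJ
  have hn2R : (2 : ℝ) ≤ n := by exact_mod_cast hn2'
  have hn1R : (1 : ℝ) ≤ n := by linarith
  have hn0 : (0 : ℝ) < n := by linarith
  have hJn : J ≤ n := (le_max_right 2 J).trans hnJ
  set S : ℝ := 2 ^ Fintype.card (Sym2 (Fin n)) with hS
  have hS0 : 0 < S := by positivity
  set X : ℝ := (n : ℝ) ^ (a + 1) with hXdef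
  set X₀ : ℝ := (n : ℝ) ^ a with hX₀
  set X' : ℝ := (n : ℝ) ^ (2 + (a + 1) * (2 + (J : ℝ)) + D) with hX'def
  have hX₀1 : 1 ≤ X₀ := Real.one_le_rpow hn1R (by linarith)
  have hXX₀ : X = X₀ * n := by rw [hXdef, Real.rpow_add hn0, Real.rpow_one]
  have hX1 : 1 ≤ X := Real.one_le_rpow hn1R (by linarith)
  have hX₀X : X₀ + 1 ≤ X := by
    rw [hXX₀]
    have := mul_le_mul_of_nonneg_left hn2R (by linarith only [hX₀1] : 0 ≤ X₀)
    linarith only [this, hX₀1]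
  set K : ℕ := ⌈X₀⌉₊ with hK
  have hKX : (K : ℝ) ≤ X := (Nat.ceil_lt_add_one (by linarith)).le.trans hX₀X
  set Pi : ℝ := ((n : ℝ) * (2 * (K : ℝ) + 1)) ^ J with hPi
  have hPi1 : 1 ≤ Pi := by
    refine one_le_pow₀ ?_
    have e1 : (0 : ℝ) ≤ K := Nat.cast_nonneg _
    exact one_le_mul_of_one_le_of_one_le hn1R (by linarith only [e1])
  have hPi0 : 0 < Pi := by linarith only [hPi1]
  set kc : ℝ := (p : ℝ) ^ (Nat.sqrt (C * n) + 1) with hkc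
  set d : ℕ := ⌈2 * (1 + ((N : ℕ) : ℝ) ^ 2 * n / Λ)⌉₊ with hd
  have hdle : (d : ℝ) ≤ θ * n + 4 := by
    have h1 : (d : ℝ) ≤ 2 * (1 + ((N : ℕ) : ℝ) ^ 2 * n / Λ) + 1 := (Nat.ceil_lt_add_one (by positivity)).le
    have h2 : 2 * ((N : ℕ) : ℝ) ^ 2 / Λ ≤ θ := by
      rw [div_le_iff₀ hΛ, hΛdef]
      have : θ * (2 * (N : ℝ) ^ 2 / θ + 1) = 2 * (N : ℝ) ^ 2 + θ := by field_simp
      rw [this]
      linarith
    have h3 : 2 * (((N : ℕ) : ℝ) ^ 2 * n / Λ) = 2 * ((N : ℕ) : ℝ) ^ 2 / Λ * n := by ring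
    have h4 := mul_le_mul_of_nonneg_right h2 hn0.le
    linarith
  have hKK : Real.sqrt (KK n l M p k d X kc) ≤
      (2 : ℝ) ^ ((2 * (1 / 16 : ℝ) + Real.logb 2 M + (l + 1) / 2) * n) := by
    refine KK_le hM hp1 hp2 (by linarith) (by positivity) hn1 ?_ (hchn d hdle) hsqn
    refine hcn k hk1 _ (by positivity) ?_
    have e1 : (n : ℝ) ^ (3 + a) = (n : ℝ) ^ 2 * X := by
      rw [hXdef, show (3 : ℝ) + a = 2 + (a + 1) by ring, Real.rpow_add hn0]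
      norm_num
    rw [e1]
    have e2 : (1 : ℝ) ≤ (n : ℝ) ^ 2 * X := one_le_mul_of_one_le_of_one_le (one_le_pow₀ hn1R) hX1
    linarith only [e2]
  -- the pieces
  set Ωp : ℕ → Dat n J K → Finset (Bits n) := fun u δ => univ.filter fun b =>
    α' ≤ ε₁ * u ∧ b ∉ B₀ ∧ (matZ b).det ≠ 0 ∧ Step1.SmallSpec (Step1.toRM (matZ b)) Λ k ∧
      Step1.kerCard (matZ b) p ≤ p ^ (Nat.sqrt (C * n) + 1) ∧ ∃ L : Submodule ℤ (Fin n → ℚ),
      Over (matZ b) L ∧ (2 : ℝ) ^ (ε₁ * n * u) / (2 * Pi) ≤ ((Ycl (matZ b) L X δ.E δ.a).ncard : ℝ) ∧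
      ((cls (matZ b) L J X').ncard : ℝ) ≤ (2 : ℝ) ^ (ε₁ * n * ((u : ℝ) + 3)) with hΩp
  have hpiece : ∀ u δ, ((Ωp u δ).card : ℝ) ≤ S * (2 : ℝ) ^ (-((B + 3) * n)) := by
    intro u δ
    by_cases hαu : α' ≤ ε₁ * u
    · have hab : ∀ j, |(δ.a j : ℝ)| ≤ X := fun j => (Dat.abs_a δ j).trans hKX
      obtain ⟨B₁, lab, hB₁, hlab, hGG⟩ := hE δ.E δ.a (Dat.card_E δ) hab
      have hex : ∀ b : Bits n, ∃ L : Submodule ℤ (Fin n → ℚ), b ∈ Ωp u δ → 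
          (Over (matZ b) L ∧ (2 : ℝ) ^ (ε₁ * n * u) / (2 * Pi) ≤ ((Ycl (matZ b) L X δ.E δ.a).ncard : ℝ) ∧
          ((cls (matZ b) L J X').ncard : ℝ) ≤ (2 : ℝ) ^ (ε₁ * n * ((u : ℝ) + 3))) := by
        intro b
        by_cases hb : b ∈ Ωp u δ
        · obtain ⟨L, hL⟩ := (mem_filter.1 hb).2.2.2.2.2.2
          exact ⟨L, fun _ => hL⟩
        · exact ⟨⊤, fun h => absurd h hb⟩
      choose Lf hLf using hex
      refine stage_n hA2 hA3 hA4 (n := n) (l := l) (M := M) (s₁ := s₁) (p := p) (k := k) (d := d)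
        (X := X) (X' := X') (δ := (n : ℝ) ^ (-D)) (kc := kc) (C₂ := C₂) (η := 1 / 16) (α' := α') (ε₁ := ε₁)
        (B := B) (Pi := Pi) (Λ := Λ) (u := u) hn1 hJn hM hl hC₂ rfl hε hX1 hα0 hα8 hα' hαu hεM hB hlB hs hKK
        hPi0 hsm1.2.2.2 hsm2.1 hsm2.2.1 hsm2.2.2.1 T hT hTok hΛ hk2 (Nat.le_ceil _)
        (Real.rpow_pos_of_pos hn0 _) (Real.rpow_le_one_of_one_le_of_nonpos hn1R (by linarith))
        (by positivity) hXn δ.E δ.a hab (Ωp u δ) Lf ?_ B₁ hB₁ lab hlab ?_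
      · intro b hb
        have h1 := (mem_filter.1 hb).2
        have h2 := hLf b hb
        refine ⟨h1.2.2.1, h2.1, h1.2.2.2.1, ?_, h2.2.1, h2.2.2⟩
        rw [hkc]
        exact_mod_cast h1.2.2.2.2.1
      · intro b hb F hF hrel hq
        have h1 := (mem_filter.1 hb).2
        have h2 := hLf b hb
        exact hGG b h1.2.1 h1.2.2.1 F hF hrel (Lf b) h2.1 hq
    · have : Ωp u δ = ∅ := by
        rw [hΩp]
        exact filter_eq_empty_iff.2 fun b _ h => hαu h.1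
      rw [this, card_empty, Nat.cast_zero]
      exact mul_nonneg hS0.le (two_rpow_pos _).le
  -- the cover
  have hcov : ((univ : Finset (Bits n)).filter fun b => Stg l M α' ε₁ U X₀ X' b) ⊆
      (B₀ ∪ ((univ : Finset (Bits n)).filter fun b => ¬ Step1.SmallSpec (Step1.toRM (matZ b)) Λ k) ∪
        ((univ : Finset (Bits n)).filter fun b =>
          ¬ (Step1.kerCard (matZ b) p ≤ p ^ (Nat.sqrt (C * n) + 1)))) ∪
        (range (U + 1)).biUnion fun u => (univ : Finset (Dat n J K)).biUnion fun δ => Ωp u δ := by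
    intro b hb
    obtain ⟨hdet, L, hL, u, hu, hαu, hlow, hup⟩ := (mem_filter.1 hb).2
    by_cases h1 : b ∈ B₀
    · simp [h1]
    by_cases h2 : Step1.SmallSpec (Step1.toRM (matZ b)) Λ k
    swap
    · simp [h2]
    by_cases h3 : Step1.kerCard (matZ b) p ≤ p ^ (Nat.sqrt (C * n) + 1)
    swap
    · refine mem_union_left _ (mem_union_right _ (mem_filter.2 ⟨mem_univ _, h3⟩))
    refine mem_union_right _ (mem_biUnion.2 ⟨u, mem_range.2 (by omega), ?_⟩)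
    -- pigeonhole over the exceptional data
    have hex : ∃ δ : Dat n J K, (2 : ℝ) ^ (ε₁ * n * u) / (2 * Pi) ≤ ((Ycl (matZ b) L X₀ δ.E δ.a).ncard : ℝ) := by
      by_contra hcon
      push Not at hcon
      have h4 := ncard_cls_le (by omega : 0 < n) (matZ b) L J X₀ K (Nat.le_ceil _)
        ((2 : ℝ) ^ (ε₁ * n * u) / (2 * Pi)) (fun δ => (hcon δ).le)
      have h5 : ((n : ℝ) * (2 * K + 1)) ^ J * ((2 : ℝ) ^ (ε₁ * n * u) / (2 * Pi)) =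
          (2 : ℝ) ^ (ε₁ * n * u) / 2 := by
        rw [← hPi]
        field_simp
      rw [h5] at h4
      have h6 := two_rpow_pos (ε₁ * n * u)
      linarith
    obtain ⟨δ, hδ⟩ := hex
    refine mem_biUnion.2 ⟨δ, mem_univ _, mem_filter.2 ⟨mem_univ _, hαu, h1, hdet, h2, h3, L, hL, ?_, hup⟩⟩
    refine hδ.trans ?_
    exact_mod_cast Set.ncard_le_ncard (Ycl_mono (by linarith) _ _) (Ycl_finite _ _ _ _ _)
  have hcard : ((((univ : Finset (Bits n)).filter fun b => Stg l M α' ε₁ U X₀ X' b).card : ℕ) : ℝ) ≤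
      ((B₀.card : ℝ) + (((univ : Finset (Bits n)).filter fun b =>
        ¬ Step1.SmallSpec (Step1.toRM (matZ b)) Λ k).card : ℝ) +
        (((univ : Finset (Bits n)).filter fun b =>
          ¬ (Step1.kerCard (matZ b) p ≤ p ^ (Nat.sqrt (C * n) + 1))).card : ℝ)) +
        ∑ u ∈ range (U + 1), ∑ δ : Dat n J K, ((Ωp u δ).card : ℝ) := by
    have h1 := (card_le_card hcov).trans ((card_union_le _ _).trans (Nat.add_le_add
      ((card_union_le _ _).trans (Nat.add_le_add_right (card_union_le _ _) _))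
      (card_biUnion_le.trans (sum_le_sum fun u _ => card_biUnion_le))))
    exact_mod_cast h1
  have hB0' : (B₀.card : ℝ) ≤ S * (2 : ℝ) ^ (-((B + 3) * n)) := by
    refine hB₀.trans ?_
    rw [mul_comm]
    refine mul_le_mul_of_nonneg_left (rp_mono ?_) hS0.le
    have e1 : (1 : ℝ) ≤ M := by exact_mod_cast hM
    have e2 : (1 : ℝ) ≤ l := by exact_mod_cast hl
    have e3 : 0 ≤ Real.logb 2 M := Real.logb_nonneg (by norm_num) e1
    have e4 : (l : ℝ) ≤ l * M := le_mul_of_one_le_right (by linarith) e1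
    have e5 : B + 3 ≤ 5 * l * M := by linarith
    have := mul_le_mul_of_nonneg_right e5 hn0.le
    linarith
  have hDat : (Fintype.card (Dat n J K) : ℝ) ≤ (2 : ℝ) ^ ((1 / 16 : ℝ) * n) := by
    have e1 : (Fintype.card (Dat n J K) : ℝ) = Pi := by
      rw [Fintype.card_prod, Fintype.card_fun, Fintype.card_fun, Fintype.card_fin, Fintype.card_fin,
        Fintype.card_fin, hPi, mul_pow]
      push_cast
      ring
    rw [e1]
    refine le_trans ?_ hsm1.2.2.2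
    have e2 : (1 : ℝ) ≤ 2 * Pi := by linarith
    calc Pi ≤ 2 * Pi := by linarith
      _ = (2 * Pi) ^ 1 := (pow_one _).symm
      _ ≤ (2 * Pi) ^ J := pow_le_pow_right₀ e2 hJ1
  set Q : ℝ := S * (2 : ℝ) ^ (-((B + 3) * n)) with hQ
  have hQ0 : 0 ≤ Q := mul_nonneg hS0.le (two_rpow_pos _).le
  have hsum : ∑ u ∈ range (U + 1), ∑ δ : Dat n J K, ((Ωp u δ).card : ℝ) ≤
      (U + 1) * (2 : ℝ) ^ ((1 / 16 : ℝ) * n) * Q := by
    calc ∑ u ∈ range (U + 1), ∑ δ : Dat n J K, ((Ωp u δ).card : ℝ)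
        ≤ ∑ u ∈ range (U + 1), ∑ δ : Dat n J K, Q := sum_le_sum fun u _ => sum_le_sum fun δ _ => hpiece u δ
      _ = (U + 1) * (Fintype.card (Dat n J K) : ℝ) * Q := by
          rw [sum_const, sum_const, card_range, card_univ, nsmul_eq_mul, nsmul_eq_mul]
          push_cast
          ring
      _ ≤ _ := by
          refine mul_le_mul_of_nonneg_right (mul_le_mul_of_nonneg_left hDat (by positivity)) hQ0
  have hfin : (3 + (U + 1) * (2 : ℝ) ^ ((1 / 16 : ℝ) * n)) * Q ≤ S * (2 : ℝ) ^ (-((B + 1) * n)) := by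
    calc (3 + (U + 1) * (2 : ℝ) ^ ((1 / 16 : ℝ) * n)) * Q ≤ (2 : ℝ) ^ (2 * (n : ℝ)) * Q :=
          mul_le_mul_of_nonneg_right hn2 hQ0
      _ = S * ((2 : ℝ) ^ (2 * (n : ℝ)) * (2 : ℝ) ^ (-((B + 3) * n))) := by rw [hQ]; ring
      _ = _ := by
          rw [rp_mul]
          congr 2
          ring
  refine hcard.trans (le_trans ?_ hfin)
  linarith [hB0', hbs, hkn, hsum]

end Vale.Agent.P160.Half.A
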