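import Vale.Agent.P160.Half.A5d

/-! # P160, part (A): one stage. -/

set_option linter.unusedVariables false
set_option linter.unusedSectionVars false

namespace Vale.Agent.P160.Half.A

open Finset Matrix Filter Vale.Agent.P160.Half
open scoped Topology

theorem ew_nonneg {α' : ℝ} {l M ρ : ℕ} (hα' : α' ≤ 1) (h8 : 8 ≤ α' * (2 * M : ℕ)) : 0 ≤ ew α' l M ρ := by
  unfold ew
  have h1 : (0 : ℝ) ≤ ρ := Nat.cast_nonneg ρ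
  have h2 : (0 : ℝ) ≤ l := Nat.cast_nonneg l
  push_cast at h8
  have h3 : 0 ≤ (1 - α') * ρ := mul_nonneg (by linarith) h1
  have h4 : 0 ≤ l * (α' * (2 * M) - 8) := mul_nonneg h2 (by linarith)
  nlinarith

open Classical in
/-- **one piece of a stage** -/
theorem stage_n (hA2 : StmtA2) (hA3 : StmtA3) (hA4 : StmtA4) {n l M s₁ p k d : ℕ} [Fact p.Prime]
    {X X' δ kc C₂ η α' ε₁ B Pi Λ : ℝ} {u : ℕ} (hn : 1 ≤ n)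
    (hnJ : 2 * l * M ≤ n) (hM : 1 ≤ M) (hl : 1 ≤ l) (hC₂ : 0 ≤ C₂) (hη : η = 1 / 16) (hε : 0 ≤ ε₁)
    (hX : 1 ≤ X) (hα0 : 0 < α') (hα8 : 8 ≤ α' * (2 * M : ℕ)) (hα' : α' ≤ 1) (hαu : α' ≤ ε₁ * u)
    (hεM : 96 * M * ε₁ ≤ 1) (hB : 0 ≤ B) (hlB : B + 8 + Real.logb 2 M + C₂ ≤ 3 / 8 * l)
    (hs : (s₁ : ℝ) * Real.logb 2 (4 * l * M + 1) ≤ l / 16)
    (hKK : Real.sqrt (KK n l M p k d X kc) ≤ (2 : ℝ) ^ ((2 * η + Real.logb 2 M + (l + 1) / 2) * n))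
    (hPi0 : 0 < Pi) (hPi : (2 * Pi) ^ (2 * l * M) ≤ (2 : ℝ) ^ (η * n))
    (h1 : ∀ ρ ≤ 2 * l * M, (n : ℝ) ^ ρ * 2 ^ (s₁ * ρ) ≤ (2 : ℝ) ^ (η * n))
    (h2 : ∀ ρ ≤ 2 * l * M, (2 * (n * X ^ 2) + 1) ^ (ρ ^ 2) ≤ (2 : ℝ) ^ (η * n))
    (h3 : ∀ ρ ≤ 2 * l * M, (2 : ℝ) ^ (ρ ^ 2) ≤ (2 : ℝ) ^ (η * n))
    (T : Finset (Ty n l M)) (hT : (T.card : ℝ) ≤ (2 : ℝ) ^ (η * n)) (hTok : ∀ τ ∈ T, τ.Ok)
    (hΛ : 0 < Λ) (hk : k ≤ n) (hd : 2 * (1 + ((M * (2 ^ l - 1) : ℕ) : ℝ) ^ 2 * n / Λ) ≤ d)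
    (hδ : 0 < δ) (hδ1 : δ ≤ 1) (hkc : 0 ≤ kc)
    (hX' : ∀ ρ ≤ 2 * l * M, n * (1 + ρ * X) ^ 2 * ρ.factorial * X ^ ρ / δ ≤ X')
    (E : Finset (Fin n)) (a : Fin n → ℤ) (ha : ∀ j, |(a j : ℝ)| ≤ X)
    (Ω : Finset (Bits n)) (Lf : Bits n → Submodule ℤ (Fin n → ℚ))
    (hΩ : ∀ b ∈ Ω, (matZ b).det ≠ 0 ∧ Over (matZ b) (Lf b) ∧ Step1.SmallSpec (Step1.toRM (matZ b)) Λ k ∧
      (Step1.kerCard (matZ b) p : ℝ) ≤ kc ∧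
      (2 : ℝ) ^ (ε₁ * n * u) / (2 * Pi) ≤ ((Ycl (matZ b) (Lf b) X E a).ncard : ℝ) ∧
      ((cls (matZ b) (Lf b) (2 * l * M) X').ncard : ℝ) ≤ (2 : ℝ) ^ (ε₁ * n * ((u : ℝ) + 3)))
    (B₁ : Finset (Bits n × (Fin n → Co l M → Bool)))
    (hB₁ : (B₁.card : ℝ) ≤ (2 : ℝ) ^ (-(5 * l * M * n) : ℝ) *
      2 ^ (Fintype.card (Sym2 (Fin n)) + 2 * l * M * n))
    (lab : (τ : Ty n l M) → (τ.I → Fin n) → Matrix (Fin n) (Fin n) ℚ → (Fin s₁ → Fin n → ℚ) →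
      Finset (Submodule ℤ (Fin n → ℚ)))
    (hlab : ∀ τ R M' h, ((lab τ R M' h).card : ℝ) ≤ (2 : ℝ) ^ (C₂ * n))
    (hG : ∀ b ∈ Ω, ∀ F : Fin n → Co l M → Bool, (b, F) ∉ B₁ → Rel E F →
      (∀ q, dual (matZ b) (ent E a F q) ∈ Lf b ∧ BdQ X (dual (matZ b) (ent E a F q))) →
      ∃ τ ∈ T, τ.Fits E b F ∧ ∃ R : τ.I → Fin n, Function.Injective R ∧ (∀ i, R i ∉ τ.S ∧ R i ∉ E) ∧
        δ ≤ |((minor R (gs (matZ b) E a F τ.I) : ℚ) : ℝ)| ∧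
        ∃ c : Fin s₁ → τ.I → Bool,
          newL (LF (matZ b) E a F τ.I) R (gs (matZ b) E a F τ.I) ∈
            lab τ R (newP (matZ b) R (gs (matZ b) E a F τ.I))
            (fun t => newH (matZ b) R (gs (matZ b) E a F τ.I) (c t))) :
    (Ω.card : ℝ) ≤ 2 ^ Fintype.card (Sym2 (Fin n)) * (2 : ℝ) ^ (-((B + 3) * n)) := by
  have hY0 : (0 : ℝ) ≤ (2 : ℝ) ^ (ε₁ * n * u) / (2 * Pi) :=
    div_nonneg (two_rpow_pos _).le (by linarith)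
  have hmain := step_fixed hA2 hA4 n l M s₁ (by omega) (by omega) p Λ X X' δ
    ((2 : ℝ) ^ (ε₁ * n * u) / (2 * Pi)) ((2 : ℝ) ^ (ε₁ * n * ((u : ℝ) + 3))) kc ((2 : ℝ) ^ (C₂ * n)) k d
    hΛ hX hk hd hδ hδ1 (two_rpow_pos _).le hkc (two_rpow_pos _).le hY0 E a ha Ω Lf hΩ T hTok
    (fun ρ => (2 : ℝ) ^ ew α' l M ρ)
    (fun ρ => Real.one_le_rpow (by norm_num) (ew_nonneg hα' hα8))
    (fun τ hτ v => by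
      have g1 := hA3 α' l M hα0 hα8 τ.W (hTok τ hτ).rel v
      have g2 := (hTok τ hτ).card
      unfold ew
      rw [g2]
      exact g1) hX' B₁ lab hlab hG
  exact piece_le (n := n) (l := l) (M := M) (s₁ := s₁) (p := p) (k := k) (d := d) (X := X) (kc := kc)
    (C₂ := C₂) (η := η) (α' := α') (ε₁ := ε₁) (B := B) (Pi := Pi) (Oc := Ω.card) (Bc := B₁.card) (u := u)
    hn hnJ hM hl hC₂ hη hε (by linarith) hα' (ew_nonneg hα' hα8) hαu hεM hB hlB hs hKK hPi0 hPi h1 h2 h3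
    T hT (Nat.cast_nonneg _) hB₁ hmain

end Vale.Agent.P160.Half.A
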