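import Vale.Agent.P160.Half.A5e

/-! # P160, part (A): main theorem. -/

set_option linter.unusedVariables false
set_option linter.unusedSectionVars false

namespace Vale.Agent.P160.Half.A

open Finset Matrix Filter Vale.Agent.P160.Half
open scoped Topology

/-- **Part (A): the theorem on rich classes from gap (G).** -/
theorem richSmall (hG : StmtG) (hA2 : StmtA2) (hA3 : StmtA3) (hA4 : StmtA4) : RichSmall := by
  classical
  intro α B A hα
  obtain ⟨C₂, hG⟩ := hG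
  set α₀ : ℝ := min α (1 / 2) with hα₀
  have hα₀0 : 0 < α₀ := lt_min hα (by norm_num)
  have hα₀α : α₀ ≤ α := min_le_left _ _
  have hα₀1 : α₀ ≤ 1 / 2 := min_le_right _ _
  set α' : ℝ := α₀ / 2 with hα'
  set M : ℕ := ⌈16 / α₀⌉₊ with hMdef
  have hMle : 16 / α₀ ≤ M := Nat.le_ceil _
  have hM1 : 1 ≤ M := by
    have : (0 : ℝ) < M := lt_of_lt_of_le (by positivity) hMle
    have : 0 < M := by exact_mod_cast this
    omega
  have hM1R : (1 : ℝ) ≤ M := by exact_mod_cast hM1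
  have hα8 : 8 ≤ α' * (2 * M : ℕ) := by
    rw [div_le_iff₀ hα₀0] at hMle
    rw [hα']
    push_cast
    linarith
  obtain ⟨l₀, hG⟩ := hG M hM1
  set B' : ℝ := max B 0 with hB'
  set C₂' : ℝ := max C₂ 0 with hC₂'
  set l : ℕ := max (max l₀ 1) ⌈8 / 3 * (B' + 8 + Real.logb 2 M + C₂')⌉₊ with hl
  have hll₀ : l₀ ≤ l := (le_max_left _ _).trans (le_max_left _ _)
  have hl1 : 1 ≤ l := (le_max_right _ _).trans (le_max_left _ _)
  have hlB : B' + 8 + Real.logb 2 M + C₂' ≤ 3 / 8 * l := by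
    have h1 : 8 / 3 * (B' + 8 + Real.logb 2 M + C₂') ≤ l :=
      (Nat.le_ceil _).trans (by exact_mod_cast le_max_right _ _)
    linarith
  obtain ⟨s₁, hs, hG⟩ := hG l hll₀
  obtain ⟨p, hp, hp1, hp2⟩ := Nat.exists_prime_lt_and_le_two_mul (2 ^ l) (by positivity)
  have : Fact p.Prime := ⟨hp⟩
  set ε₁ : ℝ := min (α₀ / 2) (1 / (96 * M)) with hε₁
  have hε₁0 : 0 < ε₁ := lt_min (by positivity) (by positivity)
  have hε₁α : ε₁ ≤ α₀ / 2 := min_le_left _ _
  have hεM : 96 * M * ε₁ ≤ 1 := by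
    have h1 : ε₁ ≤ 1 / (96 * M) := min_le_right _ _
    rw [le_div_iff₀ (by positivity)] at h1
    linarith
  have hG1 : ∀ A : ℝ, ∃ D : ℝ, ∀ᶠ n : ℕ in atTop, GAt l M s₁ C₂ A (1 / 16) D n := by
    intro A
    obtain ⟨D, n₀, h⟩ := hG A (1 / 16) (by norm_num)
    exact ⟨D, eventually_atTop.2 ⟨n₀, h⟩⟩
  choose D hD using hG1
  have hGAt : ∀ A : ℝ, ∀ᶠ n : ℕ in atTop, GAt l M s₁ C₂' A (1 / 16) (max (D A) 0) n := by
    intro A
    filter_upwards [hD A, eventually_ge_atTop 1] with n h hn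
    have hn1 : (1 : ℝ) ≤ n := by exact_mod_cast hn
    obtain ⟨T, B₀, h1, h2, h3, h4⟩ := h
    refine ⟨T, B₀, h1, h2, h3, fun E a hE ha => ?_⟩
    obtain ⟨B₁, lab, h5, h6, h7⟩ := h4 E a hE ha
    refine ⟨B₁, lab, h5, fun τ R M' h => (h6 τ R M' h).trans (rp_mono
      (mul_le_mul_of_nonneg_right (le_max_left _ _) (by linarith))), ?_⟩
    intro b hb hdet F hF hrel L hL hq
    obtain ⟨τ, hτ, g1, R, g2, g3, g4, g5⟩ := h7 b hb hdet F hF hrel L hL hq
    exact ⟨τ, hτ, g1, R, g2, g3, le_trans (Real.rpow_le_rpow_of_exponent_le hn1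
      (neg_le_neg (le_max_left _ _))) g4, g5⟩
  -- the exponents of the stages
  set As : ℕ → ℝ := fun t => Nat.rec (max A 1)
    (fun _ a => 2 + (a + 1) * (2 + (2 * l * M : ℕ)) + max (D (a + 1)) 0) t with hAs
  have hAs0 : As 0 = max A 1 := rfl
  have hAsS : ∀ t, As (t + 1) = 2 + (As t + 1) * (2 + (2 * l * M : ℕ)) + max (D (As t + 1)) 0 := fun t => rfl
  have hAs1 : ∀ t, 1 ≤ As t ∧ As t ≤ As (t + 1) := by
    have h1 : ∀ t, 1 ≤ As t → As t ≤ As (t + 1) := by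
      intro t h
      rw [hAsS]
      have h2 : (0 : ℝ) ≤ (2 * l * M : ℕ) := Nat.cast_nonneg _
      have h3 : (0 : ℝ) ≤ max (D (As t + 1)) 0 := le_max_right _ _
      have h4 := mul_nonneg (by linarith only [h] : (0 : ℝ) ≤ As t + 1) h2
      linarith only [h4, h, h3]
    intro t
    induction t with
    | zero => exact ⟨le_max_right _ _, h1 0 (le_max_right _ _)⟩
    | succ t ih =>
      have h2 : 1 ≤ As (t + 1) := ih.1.trans ih.2
      exact ⟨h2, h1 (t + 1) h2⟩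
  have hAsm : Monotone As := monotone_nat_of_le_succ fun t => (hAs1 t).2
  set K : ℕ := ⌈1 / ε₁⌉₊ + 1 with hK
  set U : ℕ := ⌈2 / ε₁⌉₊ with hU
  have hK1 : 1 / ε₁ < K := by
    have := Nat.le_ceil (1 / ε₁)
    rw [hK]
    push_cast
    linarith
  have hα'1 : α' ≤ 1 := by rw [hα']; linarith
  have hα'0 : 0 < α' := by rw [hα']; linarith
  -- all stages
  have hst : ∀ᶠ n : ℕ in atTop, ∀ t ∈ range K, (((univ : Finset (Bits n)).filter fun b =>
      Stg l M α' ε₁ U ((n : ℝ) ^ As t) ((n : ℝ) ^ As (t + 1)) b).card : ℝ) ≤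
      2 ^ Fintype.card (Sym2 (Fin n)) * (2 : ℝ) ^ (-((B' + 1) * n)) := by
    rw [Filter.eventually_all_finset]
    intro t _
    have := stage_ev hA2 hA3 hA4 (l := l) (M := M) (s₁ := s₁) (p := p) (C₂ := C₂') (α' := α') (ε₁ := ε₁)
      (B := B') (a := As t) (D := max (D (As t + 1)) 0) (U := U) hM1 hl1 (le_max_right _ _) hε₁0.le hp1 hp2
      hα'0 hα8 hα'1 hεM (le_max_right _ _) hlB hs (hAs1 t).1 (le_max_right _ _) (hGAt _)
    filter_upwards [this] with n hn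
    rw [hAsS]
    exact hn
  have hsz : ∀ᶠ n : ℕ in atTop, ∀ t ∈ range (K + 1),
      (2 * ((n : ℝ) * (2 * (⌈(n : ℝ) ^ As t⌉₊ : ℝ) + 1)) ^ (2 * l * M)) ^ (2 * l * M) ≤
        (2 : ℝ) ^ ((1 / 16 : ℝ) * n) := by
    rw [Filter.eventually_all_finset]
    intro t _
    filter_upwards [ev_small (2 * l * M) 0 (As t) (1 / 16) (by norm_num) (by linarith [(hAs1 t).1])] with n hn
    exact hn.2.2.2
  obtain ⟨n₀, hn₀⟩ := eventually_atTop.1 (hst.and (hsz.and ((ev_poly K 0 1 one_pos).and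
    (eventually_ge_atTop 1))))
  refine ⟨n₀, fun n hn => ?_⟩
  obtain ⟨hst, hsz, hKn, hn1⟩ := hn₀ n hn
  have hn1R : (1 : ℝ) ≤ n := by exact_mod_cast hn1
  have hn0 : (0 : ℝ) < n := by linarith
  rw [Real.rpow_zero, mul_one, one_mul] at hKn
  have hJ1 : 1 ≤ 2 * l * M := by
    have : 0 < l * M := Nat.mul_pos (by omega) (by omega)
    have h2 : 2 * l * M = 2 * (l * M) := by rw [mul_assoc]
    omega
  have hcov : ((univ : Finset (Bits n)).filter fun b => (matZ b).det ≠ 0 ∧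
      ∃ L : Submodule ℤ (Fin n → ℚ), Over (matZ b) L ∧
        (2 : ℝ) ^ (α * n) < ((cls (matZ b) L 0 ((n : ℝ) ^ A)).ncard : ℝ)) ⊆
      (range K).biUnion fun t => (univ : Finset (Bits n)).filter fun b =>
        Stg l M α' ε₁ U ((n : ℝ) ^ As t) ((n : ℝ) ^ As (t + 1)) b := by
    intro b hb
    obtain ⟨hdet, L, hL, hbig⟩ := (mem_filter.1 hb).2
    set N : ℕ → ℝ := fun t => ((cls (matZ b) L (2 * l * M) ((n : ℝ) ^ As t)).ncard : ℝ) with hN
    have hNge : ∀ t, (2 : ℝ) ^ (α * n) < N t := by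
      intro t
      refine lt_of_lt_of_le hbig ?_
      have h1 : (n : ℝ) ^ A ≤ (n : ℝ) ^ As t := by
        refine Real.rpow_le_rpow_of_exponent_le hn1R ?_
        exact (le_max_left A 1).trans (hAsm (Nat.zero_le t))
      have h2 := Set.ncard_le_ncard (cls_mono (P := matZ b) (L := L) (Nat.zero_le (2 * l * M)) h1)
        (cls_finite _ _ _ _)
      exact Nat.cast_le.2 h2
    have hone : (1 : ℝ) ≤ (2 : ℝ) ^ (α * n) := Real.one_le_rpow (by norm_num) (by positivity)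
    have hNle : ∀ t ≤ K, N t ≤ (2 : ℝ) ^ (2 * (n : ℝ)) := by
      intro t ht
      have h1 := ncard_cls_le (by omega : 0 < n) (matZ b) L (2 * l * M) ((n : ℝ) ^ As t)
        ⌈(n : ℝ) ^ As t⌉₊ (Nat.le_ceil _) ((2 : ℝ) ^ n) (fun δ => by exact_mod_cast ncard_Ycl_le _ _ _ _ _)
      have h2 := hsz t (mem_range.2 (by omega))
      set Pi : ℝ := ((n : ℝ) * (2 * (⌈(n : ℝ) ^ As t⌉₊ : ℝ) + 1)) ^ (2 * l * M) with hPi
      have hPi1 : 1 ≤ Pi := by
        refine one_le_pow₀ ?_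
        have h3 : (0 : ℝ) ≤ (⌈(n : ℝ) ^ As t⌉₊ : ℝ) := Nat.cast_nonneg _
        exact one_le_mul_of_one_le_of_one_le hn1R (by linarith only [h3])
      have h3 : Pi ≤ (2 : ℝ) ^ ((1 / 16 : ℝ) * n) := by
        refine le_trans ?_ h2
        have e2 : (1 : ℝ) ≤ 2 * Pi := by linarith
        calc Pi ≤ 2 * Pi := by linarith
          _ = (2 * Pi) ^ 1 := (pow_one _).symm
          _ ≤ (2 * Pi) ^ (2 * l * M) := pow_le_pow_right₀ e2 hJ1
      calc N t ≤ Pi * 2 ^ n := h1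
        _ ≤ (2 : ℝ) ^ ((1 / 16 : ℝ) * n) * 2 ^ n := mul_le_mul_of_nonneg_right h3 (by positivity)
        _ = (2 : ℝ) ^ ((1 / 16 : ℝ) * n + n) := by rw [← Real.rpow_natCast 2 n, rp_mul]
        _ ≤ _ := rp_mono (by linarith)
    obtain ⟨t, ht, u, hu, h1, h2, h3⟩ := pigeon ε₁ n hε₁0 hn0 N (fun t => hone.trans (hNge t).le) K U hK1
      (Nat.le_ceil _) hNle
    refine mem_biUnion.2 ⟨t, mem_range.2 ht, mem_filter.2 ⟨mem_univ _, hdet, L, hL, u, hu, ?_, h1, h3⟩⟩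
    have h4 : (2 : ℝ) ^ (α * n) < (2 : ℝ) ^ (ε₁ * n * (u + 1)) := (hNge t).trans h2
    rw [Real.rpow_lt_rpow_left_iff (by norm_num)] at h4
    have h5 : α * n < ε₁ * (u + 1) * n := by linarith
    have h6 : α < ε₁ * (u + 1) := lt_of_mul_lt_mul_right h5 hn0.le
    rw [hα']
    linarith
  have hcard : ((((univ : Finset (Bits n)).filter fun b => (matZ b).det ≠ 0 ∧
      ∃ L : Submodule ℤ (Fin n → ℚ), Over (matZ b) L ∧
        (2 : ℝ) ^ (α * n) < ((cls (matZ b) L 0 ((n : ℝ) ^ A)).ncard : ℝ)).card : ℕ) : ℝ) ≤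
      ∑ t ∈ range K, (((univ : Finset (Bits n)).filter fun b =>
        Stg l M α' ε₁ U ((n : ℝ) ^ As t) ((n : ℝ) ^ As (t + 1)) b).card : ℝ) := by
    exact_mod_cast (card_le_card hcov).trans card_biUnion_le
  have hS0 : (0 : ℝ) < 2 ^ Fintype.card (Sym2 (Fin n)) := by positivity
  refine (le_of_eq ?_).trans (hcard.trans ?_)
  · norm_cast
  calc ∑ t ∈ range K, (((univ : Finset (Bits n)).filter fun b =>
        Stg l M α' ε₁ U ((n : ℝ) ^ As t) ((n : ℝ) ^ As (t + 1)) b).card : ℝ)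
      ≤ ∑ _t ∈ range K, 2 ^ Fintype.card (Sym2 (Fin n)) * (2 : ℝ) ^ (-((B' + 1) * n)) :=
        sum_le_sum hst
    _ = K * (2 ^ Fintype.card (Sym2 (Fin n)) * (2 : ℝ) ^ (-((B' + 1) * n))) := by
        rw [sum_const, card_range, nsmul_eq_mul]
    _ ≤ (2 : ℝ) ^ (n : ℝ) * (2 ^ Fintype.card (Sym2 (Fin n)) * (2 : ℝ) ^ (-((B' + 1) * n))) :=
        mul_le_mul_of_nonneg_right hKn (mul_nonneg hS0.le (two_rpow_pos _).le)
    _ = ((2 : ℝ) ^ (n : ℝ) * (2 : ℝ) ^ (-((B' + 1) * n))) * 2 ^ Fintype.card (Sym2 (Fin n)) := by ring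
    _ ≤ (2 : ℝ) ^ (-(B * n)) * 2 ^ Fintype.card (Sym2 (Fin n)) := by
        refine mul_le_mul_of_nonneg_right ?_ hS0.le
        rw [rp_mul]
        refine rp_mono ?_
        have : B * n ≤ B' * n := mul_le_mul_of_nonneg_right (le_max_left _ _) hn0.le
        linarith

/-- **A5** -/
theorem stmtA5 : StmtA5 := richSmall

end Vale.Agent.P160.Half.A
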