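import Mathlib

/-! # P160, half rate: coranks of all principal submatrices modulo all primes at once

(3) of the note 10294: a uniform symmetric 0/1 matrix has, outside a set of density
`2 ^ (O(n)) * 2 ^ (- k (k + 1) / 2)`, no principal submatrix of corank `≥ k` modulo any prime. -/

set_option linter.unusedSectionVars false

namespace Vale.Agent.P160.Half

open Finset Matrix

section base

variable {F : Type*} [Field F] {α : Type*} [Fintype α] [DecidableEq α]

/-- the principal submatrix on `A` -/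
def prin {R : Type*} (M : Matrix α α R) (A : Finset α) : Matrix A A R :=
  M.submatrix (fun a => (a : α)) (fun a => (a : α))

/-- `M_iA adj(M_AA) M_Aj` -/
def schur {R : Type*} [CommRing R] (M : Matrix α α R) (A : Finset α) (i j : α) : R :=
  (fun a : A => M i a) ⬝ᵥ ((prin M A).adjugate *ᵥ (fun a : A => M a j))

/-- A symmetric matrix has a nonsingular principal minor of the size of its rank, and the rows of
this minor determine everything. -/
theorem exists_base (M : Matrix α α F) (hM : ∀ i j, M i j = M j i) (T : Finset α) :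
    ∃ A ⊆ T, A.card = (prin M T).rank ∧ (prin M A).det ≠ 0 ∧
      ∀ i ∈ T, ∀ j ∈ T, (prin M A).det * M i j = schur M A i j := by
  classical
  obtain ⟨κ, a, ha, hspan, hli⟩ := exists_linearIndependent' F (prin M T).row
  have : Finite κ := Finite.of_injective a ha
  have : Fintype κ := Fintype.ofFinite κ
  set A : Finset α := univ.image (fun k : κ => ((a k : T) : α)) with hA
  have hinj : Function.Injective (fun k : κ => ((a k : T) : α)) :=
    Subtype.val_injective.comp ha
  have hAT : A ⊆ T := by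
    intro x hx
    obtain ⟨k, -, rfl⟩ := mem_image.1 hx
    exact (a k).2
  -- the bijection
  let e : κ ≃ A := Equiv.ofBijective (fun k => ⟨((a k : T) : α), mem_image_of_mem _ (mem_univ k)⟩)
    ⟨fun k k' h => hinj (congrArg (fun x : A => (x : α)) h), fun x => by
      obtain ⟨k, -, hk⟩ := mem_image.1 x.2
      exact ⟨k, Subtype.ext hk⟩⟩
  have he : ∀ k, ((e k : A) : α) = ((a k : T) : α) := fun k => rfl
  have hcard : A.card = (prin M T).rank := by
    rw [Matrix.rank_eq_finrank_span_row, ← hspan, finrank_span_eq_card hli, hA,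
      card_image_of_injective _ hinj, card_univ]
  -- coefficients
  have hc : ∀ i : T, ∃ c : A → F, ∀ j : T, M i j = ∑ x : A, c x * M x j := by
    intro i
    have h1 : (prin M T).row i ∈ Submodule.span F (Set.range ((prin M T).row ∘ a)) := by
      rw [hspan]; exact Submodule.subset_span ⟨i, rfl⟩
    obtain ⟨c, hc⟩ := (Submodule.mem_span_range_iff_exists_fun F).1 h1
    refine ⟨fun x => c (e.symm x), fun j => ?_⟩
    have h2 := congrFun hc j
    rw [Finset.sum_apply] at h2
    rw [← Equiv.sum_comp e]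
    simp only [Equiv.symm_apply_apply, he]
    rw [show M i j = (prin M T).row i j from rfl, ← h2]
    rfl
  choose c hc using hc
  have hindep : ∀ v : A → F, (∀ j : T, ∑ x : A, v x * M x j = 0) → v = 0 := by
    intro v hv
    have h1 := Fintype.linearIndependent_iff.1 hli (fun k => v (e k)) (by
      funext j
      rw [Finset.sum_apply]
      have h2 := hv j
      rw [← Equiv.sum_comp e] at h2
      exact h2)
    funext x
    obtain ⟨k, rfl⟩ := e.surjective x
    exact h1 k
  set N := prin M A with hN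
  have hNap : ∀ x y : A, N x y = M x y := fun _ _ => rfl
  have hT : ∀ x : A, (x : α) ∈ T := fun x => hAT x.2
  -- M x j = sum N x y c_j y
  have hcol : ∀ (x : A) (j : T), M x j = (N *ᵥ c j) x := by
    intro x j
    rw [hM x j, hc j ⟨x, hT x⟩, mulVec, dotProduct]
    refine sum_congr rfl fun y _ => ?_
    rw [hNap, hM x y, mul_comm]
  have hrow : ∀ (i : T) (x : A), M i x = (c i ᵥ* N) x := by
    intro i x
    rw [hc i ⟨x, hT x⟩, vecMul, dotProduct]
    rfl
  have hdet : N.det ≠ 0 := by
    intro h0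
    obtain ⟨v, hv0, hv⟩ := Matrix.exists_vecMul_eq_zero_iff.2 h0
    refine hv0 (hindep v fun j => ?_)
    have : ∑ x : A, v x * M x j = v ⬝ᵥ (N *ᵥ c j) := by
      rw [dotProduct]
      exact sum_congr rfl fun x _ => by rw [hcol x j]
    rw [this, dotProduct_mulVec, hv, zero_dotProduct]
  refine ⟨A, hAT, hcard, hdet, fun i hi j hj => ?_⟩
  have h1 : (fun x : A => M i x) = c ⟨i, hi⟩ ᵥ* N := funext fun x => hrow ⟨i, hi⟩ x
  have h2 : (fun x : A => M x j) = N *ᵥ c ⟨j, hj⟩ := funext fun x => hcol x ⟨j, hj⟩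
  have h3 : M i j = (c ⟨i, hi⟩ ᵥ* N) ⬝ᵥ c ⟨j, hj⟩ := by
    rw [← dotProduct_mulVec, ← h2]
    exact hc ⟨i, hi⟩ ⟨j, hj⟩
  unfold schur
  rw [h1, h2, mulVec_mulVec, ← hN, adjugate_mul, smul_mulVec, one_mulVec, dotProduct_smul, h3,
    smul_eq_mul]

end base

section count

variable {α : Type*} [Fintype α] [DecidableEq α]

/-- the symmetric 0/1 matrix of a bit array, over the integers -/
def matZ (b : Sym2 α → Bool) : Matrix α α ℤ := fun i j => if b s(i, j) then 1 else 0

theorem matZ_symm (b : Sym2 α → Bool) (i j : α) : matZ b i j = matZ b j i := by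
  unfold matZ; rw [Sym2.eq_swap]

theorem matZ_abs (b : Sym2 α → Bool) (i j : α) : |matZ b i j| ≤ 1 := by
  unfold matZ; split_ifs <;> simp

theorem card_primeFactors_le (m E : ℕ) (hm : m ≠ 0) (h : m ≤ 2 ^ E) : m.primeFactors.card ≤ E := by
  have h1 : 2 ^ m.primeFactors.card ≤ ∏ p ∈ m.primeFactors, p :=
    Finset.pow_card_le_prod _ _ _ fun p hp => (Nat.prime_of_mem_primeFactors hp).two_le
  have h2 := Nat.le_of_dvd (Nat.pos_of_ne_zero hm) (Nat.prod_primeFactors_dvd m)
  exact (Nat.pow_le_pow_iff_right (by norm_num : 1 < 2)).1 (h1.trans (h2.trans h))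

theorem size_bound (n : ℕ) : (1 + n ^ 2) * n.factorial ≤ 2 ^ (n + 2) ^ 2 := by
  have h1 : n.factorial ≤ 2 ^ (n * n) := by
    calc n.factorial ≤ n ^ n := Nat.factorial_le_pow n
      _ ≤ (2 ^ n) ^ n := Nat.pow_le_pow_left Nat.lt_two_pow_self.le n
      _ = 2 ^ (n * n) := by rw [← pow_mul]
  have h2 : 1 + n ^ 2 ≤ 2 ^ (2 * n + 1) := by
    have h3 : n ^ 2 ≤ (2 ^ n) ^ 2 := Nat.pow_le_pow_left Nat.lt_two_pow_self.le 2
    have h4 : 1 ≤ 2 ^ (2 * n) := Nat.one_le_two_pow
    calc 1 + n ^ 2 ≤ 2 ^ (2 * n) + 2 ^ (2 * n) := by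
          rw [show (2 ^ n) ^ 2 = 2 ^ (2 * n) by rw [← pow_mul, mul_comm]] at h3
          omega
      _ = 2 ^ (2 * n + 1) := by ring
  calc (1 + n ^ 2) * n.factorial ≤ 2 ^ (2 * n + 1) * 2 ^ (n * n) := Nat.mul_le_mul h2 h1
    _ = 2 ^ (2 * n + 1 + n * n) := by rw [← pow_add]
    _ ≤ 2 ^ (n + 2) ^ 2 := Nat.pow_le_pow_right (by norm_num) (by nlinarith)

theorem abs_det_le (b : Sym2 α → Bool) (A : Finset α) : |(prin (matZ b) A).det| ≤ (Fintype.card α).factorial := by
  have h := Matrix.det_le (A := prin (matZ b) A) (abv := AbsoluteValue.abs) (x := 1)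
    (fun i j => by
      have := matZ_abs b (i : α) (j : α)
      exact this)
  simp only [Fintype.card_coe, one_pow, mul_one, nsmul_eq_mul] at h
  refine le_trans (by simpa using h) ?_
  exact_mod_cast Nat.factorial_le (card_le_univ A)

theorem abs_schur_le (b : Sym2 α → Bool) (A : Finset α) (i j : α) :
    |schur (matZ b) A i j| ≤ (Fintype.card α : ℤ) ^ 2 * (Fintype.card α).factorial := by
  have hadj : ∀ x y : A, |(prin (matZ b) A).adjugate x y| ≤ (Fintype.card α).factorial := by
    intro x y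
    rw [adjugate_apply]
    have h := Matrix.det_le (A := (prin (matZ b) A).updateRow y (Pi.single x 1))
      (abv := AbsoluteValue.abs) (x := 1) (fun i j => by
        rw [updateRow_apply]
        split_ifs
        · rw [Pi.single_apply]; split_ifs <;> simp
        · exact matZ_abs b _ _)
    simp only [Fintype.card_coe, one_pow, mul_one, nsmul_eq_mul] at h
    refine le_trans (by simpa using h) ?_
    exact_mod_cast Nat.factorial_le (card_le_univ A)
  have hcA : (Fintype.card A : ℤ) ≤ Fintype.card α := by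
    rw [Fintype.card_coe]; exact_mod_cast card_le_univ A
  unfold schur
  rw [dotProduct]
  refine le_trans (abs_sum_le_sum_abs _ _) ?_
  have h1 : ∀ x : A, |matZ b i x * ((prin (matZ b) A).adjugate *ᵥ fun a : A => matZ b a j) x| ≤
      (Fintype.card α : ℤ) * (Fintype.card α).factorial := by
    intro x
    rw [abs_mul, mulVec, dotProduct]
    have h2 : |∑ y : A, (prin (matZ b) A).adjugate x y * matZ b y j| ≤
        (Fintype.card α : ℤ) * (Fintype.card α).factorial := by
      refine le_trans (abs_sum_le_sum_abs _ _) ?_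
      refine le_trans (sum_le_sum (g := fun _ => ((Fintype.card α).factorial : ℤ)) fun y _ => ?_) ?_
      · rw [abs_mul]
        calc _ ≤ ((Fintype.card α).factorial : ℤ) * 1 :=
              mul_le_mul (hadj x y) (matZ_abs b _ _) (abs_nonneg _) (by positivity)
          _ = _ := mul_one _
      · rw [sum_const, card_univ, nsmul_eq_mul]
        exact mul_le_mul_of_nonneg_right hcA (by positivity)
    calc _ ≤ 1 * ((Fintype.card α : ℤ) * (Fintype.card α).factorial) :=
          mul_le_mul (matZ_abs b _ _) h2 (abs_nonneg _) (by norm_num)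
      _ = _ := one_mul _
  refine le_trans (sum_le_sum fun x _ => h1 x) ?_
  rw [sum_const, card_univ, nsmul_eq_mul]
  calc (Fintype.card A : ℤ) * ((Fintype.card α : ℤ) * (Fintype.card α).factorial) ≤
        (Fintype.card α : ℤ) * ((Fintype.card α : ℤ) * (Fintype.card α).factorial) :=
        mul_le_mul_of_nonneg_right hcA (by positivity)
    _ = _ := by ring

/-- the primes dividing one of the numbers `D β - w` -/
noncomputable def badPrimes (D : ℤ) (w : α → α → ℤ) : Finset ℕ :=
  (univ : Finset (α × α × Bool)).biUnion fun x =>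
    (D * (if x.2.2 then 1 else 0) - w x.1 x.2.1).natAbs.primeFactors

theorem card_badPrimes (D : ℤ) (w : α → α → ℤ) (hD : |D| ≤ (Fintype.card α).factorial)
    (hw : ∀ i j, |w i j| ≤ (Fintype.card α : ℤ) ^ 2 * (Fintype.card α).factorial) :
    (badPrimes D w).card ≤ 2 * (Fintype.card α) ^ 2 * (Fintype.card α + 2) ^ 2 := by
  refine le_trans card_biUnion_le ?_
  refine le_trans (sum_le_sum (g := fun _ => (Fintype.card α + 2) ^ 2) fun x _ => ?_) ?_
  · by_cases h0 : (D * (if x.2.2 then 1 else 0) - w x.1 x.2.1).natAbs = 0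
    · rw [h0]; simp
    refine card_primeFactors_le _ _ h0 ?_
    have h1 : |D * (if x.2.2 then 1 else 0) - w x.1 x.2.1| ≤
        (1 + (Fintype.card α : ℤ) ^ 2) * (Fintype.card α).factorial := by
      have h2 : |D * (if x.2.2 then 1 else 0)| ≤ (Fintype.card α).factorial := by
        split_ifs
        · rwa [mul_one]
        · rw [mul_zero, abs_zero]; positivity
      calc _ ≤ |D * (if x.2.2 then 1 else 0)| + |w x.1 x.2.1| := abs_sub _ _
        _ ≤ (Fintype.card α).factorial + (Fintype.card α : ℤ) ^ 2 * (Fintype.card α).factorial := add_le_add h2 (hw _ _)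
        _ = _ := by ring
    have h3 := size_bound (Fintype.card α)
    have h4 : ((D * (if x.2.2 then 1 else 0) - w x.1 x.2.1).natAbs : ℤ) ≤
        (((1 + (Fintype.card α) ^ 2) * (Fintype.card α).factorial : ℕ) : ℤ) := by
      rw [Int.natCast_natAbs]; push_cast; exact h1
    exact (Int.ofNat_le.1 h4).trans h3
  · rw [sum_const, card_univ, Fintype.card_prod, Fintype.card_prod, Fintype.card_bool, smul_eq_mul]
    exact le_of_eq (by ring)

theorem prin_congr {A B : Finset α} (hAB : Disjoint A B) {b b0 : Sym2 α → Bool}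
    (h : ∀ e, e ∉ B.sym2 → b e = b0 e) : prin (matZ b) A = prin (matZ b0) A := by
  ext x y
  have hx : (x : α) ∉ B := fun hx => (Finset.disjoint_left.1 hAB x.2 hx)
  change matZ b x y = matZ b0 x y
  unfold matZ
  rw [h s((x : α), (y : α)) (fun hm => hx (Finset.mk_mem_sym2_iff.1 hm).1)]

theorem matZ_congr {A B : Finset α} (hAB : Disjoint A B) {b b0 : Sym2 α → Bool}
    (h : ∀ e, e ∉ B.sym2 → b e = b0 e) {x : α} (hx : x ∈ A) (i : α) :
    matZ b x i = matZ b0 x i := by
  unfold matZ
  rw [h s(x, i) (fun hm => Finset.disjoint_left.1 hAB hx (Finset.mk_mem_sym2_iff.1 hm).1)]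

theorem schur_congr {A B : Finset α} (hAB : Disjoint A B) {b b0 : Sym2 α → Bool}
    (h : ∀ e, e ∉ B.sym2 → b e = b0 e) (i j : α) :
    schur (matZ b) A i j = schur (matZ b0) A i j := by
  unfold schur
  rw [prin_congr hAB h]
  have h1 : (fun a : A => matZ b i a) = fun a : A => matZ b0 i a := by
    funext a
    rw [matZ_symm b, matZ_symm b0, matZ_congr hAB h a.2]
  have h2 : (fun a : A => matZ b a j) = fun a : A => matZ b0 a j := by
    funext a
    rw [matZ_congr hAB h a.2]
  rw [h1, h2]

/-- the event for one pair `(A, B)` -/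
def Ev (A B : Finset α) (b : Sym2 α → Bool) : Prop :=
  ∃ p : ℕ, p.Prime ∧ ¬ (p : ℤ) ∣ (prin (matZ b) A).det ∧
    ∀ i ∈ B, ∀ j ∈ B, (p : ℤ) ∣ (prin (matZ b) A).det * matZ b i j - schur (matZ b) A i j

theorem card_Ev (A B : Finset α) (hAB : Disjoint A B) [DecidablePred (Ev A B)] :
    (univ.filter (Ev A B)).card * 2 ^ B.sym2.card ≤
      (1 + 2 * (Fintype.card α) ^ 2 * (Fintype.card α + 2) ^ 2) * 2 ^ Fintype.card (Sym2 α) := by
  classical
  set f : (Sym2 α → Bool) → ({e // e ∉ B.sym2} → Bool) := fun b e => b e with hf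
  set K : ℕ := 1 + 2 * (Fintype.card α) ^ 2 * (Fintype.card α + 2) ^ 2 with hK
  have hfib : ∀ g ∈ (univ.filter (Ev A B)).image f,
      ((univ.filter (Ev A B)).filter (fun b => f b = g)).card ≤ K := by
    intro g hg
    obtain ⟨b0, -, hb0⟩ := mem_image.1 hg
    set D := (prin (matZ b0) A).det with hD
    set w : α → α → ℤ := fun i j => schur (matZ b0) A i j with hw
    have hout : ∀ b ∈ (univ.filter (Ev A B)).filter (fun b => f b = g),
        ∀ e, e ∉ B.sym2 → b e = b0 e := by
      intro b hb e he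
      have h1 := (mem_filter.1 hb).2
      rw [← hb0] at h1
      exact congrFun h1 ⟨e, he⟩
    have hkey : ∀ b ∈ (univ.filter (Ev A B)).filter (fun b => f b = g),
        ∃ q ∈ insert 0 (badPrimes D w), ¬ (q : ℤ) ∣ D ∧
          ∀ i ∈ B, ∀ j ∈ B, (q : ℤ) ∣ D * matZ b i j - w i j := by
      intro b hb
      have ho := hout b hb
      obtain ⟨p, hp, hpD, hpB⟩ := (mem_filter.1 (mem_filter.1 hb).1).2
      rw [prin_congr hAB ho] at hpD hpB
      have hpB' : ∀ i ∈ B, ∀ j ∈ B, (p : ℤ) ∣ D * matZ b i j - w i j := by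
        intro i hi j hj
        have := hpB i hi j hj
        rwa [schur_congr hAB ho] at this
      by_cases hex : ∀ i ∈ B, ∀ j ∈ B, D * matZ b i j - w i j = 0
      · refine ⟨0, mem_insert_self _ _, ?_, fun i hi j hj => ?_⟩
        · intro h0
          have : D = 0 := by simpa using h0
          exact hpD (by rw [← hD, this]; exact dvd_zero _)
        · rw [hex i hi j hj]; exact dvd_zero _
      · push Not at hex
        obtain ⟨i, hi, j, hj, hne⟩ := hex
        refine ⟨p, mem_insert_of_mem ?_, hpD, hpB'⟩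
        unfold badPrimes
        refine mem_biUnion.2 ⟨(i, j, b s(i, j)), mem_univ _, ?_⟩
        refine Nat.mem_primeFactors.2 ⟨hp, ?_, ?_⟩
        · exact Int.natCast_dvd.1 (hpB' i hi j hj)
        · exact fun h => hne (Int.natAbs_eq_zero.1 h)
    choose! q hq1 hq2 hq3 using hkey
    have hDb : |D| ≤ (Fintype.card α).factorial := abs_det_le b0 A
    have hwb : ∀ i j, |w i j| ≤ (Fintype.card α : ℤ) ^ 2 * (Fintype.card α).factorial :=
      fun i j => abs_schur_le b0 A i j
    have hle : ((univ.filter (Ev A B)).filter (fun b => f b = g)).card ≤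
        (insert 0 (badPrimes D w)).card := by
      refine Finset.card_le_card_of_injOn q (fun b hb => hq1 b hb) ?_
      intro b hb b' hb' hqq
      funext e
      by_cases he : e ∈ B.sym2
      · induction e using Sym2.ind with
        | _ i j =>
          obtain ⟨hi, hj⟩ := Finset.mk_mem_sym2_iff.1 he
          have h1 := hq3 b hb i hi j hj
          have h2 := hq3 b' hb' i hi j hj
          rw [← hqq] at h2
          have h3 : (q b : ℤ) ∣ D * (matZ b i j - matZ b' i j) := by
            have := dvd_sub h1 h2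
            have h4 : D * matZ b i j - w i j - (D * matZ b' i j - w i j) =
              D * (matZ b i j - matZ b' i j) := by ring
            rwa [h4] at this
          have h5 := hq2 b hb
          unfold matZ at h3
          cases hbb : b s(i, j) <;> cases hbb' : b' s(i, j)
          · rfl
          · exact absurd (by simpa [hbb, hbb'] using h3) h5
          · exact absurd (by simpa [hbb, hbb'] using h3) h5
          · rfl
      · rw [hout b hb e he, hout b' hb' e he]
    refine hle.trans ((card_insert_le _ _).trans ?_)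
    have := card_badPrimes D w hDb hwb
    omega
  have h1 := Finset.card_le_mul_card_image (f := f) (univ.filter (Ev A B)) K hfib
  have h2 : ((univ.filter (Ev A B)).image f).card ≤ 2 ^ Fintype.card {e // e ∉ B.sym2} := by
    refine (card_le_univ _).trans ?_
    rw [Fintype.card_fun, Fintype.card_bool]
  have h3 : Fintype.card {e // e ∉ B.sym2} + B.sym2.card = Fintype.card (Sym2 α) := by
    have h4 := Fintype.card_subtype_compl (fun e : Sym2 α => e ∈ B.sym2)
    have h5 : Fintype.card {e // e ∈ B.sym2} = B.sym2.card := Fintype.card_coe _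
    have h6 : B.sym2.card ≤ Fintype.card (Sym2 α) := card_le_univ _
    omega
  calc (univ.filter (Ev A B)).card * 2 ^ B.sym2.card
      ≤ (K * 2 ^ Fintype.card {e // e ∉ B.sym2}) * 2 ^ B.sym2.card :=
        Nat.mul_le_mul_right _ (h1.trans (Nat.mul_le_mul_left _ h2))
    _ = K * 2 ^ Fintype.card (Sym2 α) := by rw [← h3, pow_add]; ring

theorem schur_map {R S : Type*} [CommRing R] [CommRing S] (φ : R →+* S) (M : Matrix α α R)
    (A : Finset α) (i j : α) : schur (M.map φ) A i j = φ (schur M A i j) := by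
  unfold schur
  rw [RingHom.map_dotProduct]
  congr 1
  funext x
  have h1 : prin (M.map φ) A = φ.mapMatrix (prin M A) := rfl
  rw [h1, ← RingHom.map_adjugate, Function.comp_apply, RingHom.map_mulVec]
  rfl

/-- **Coranks.** The number of bit arrays for which some principal submatrix has corank at least
`k` modulo some prime. -/
theorem card_corank_le (k : ℕ)
    [DecidablePred fun b : Sym2 α → Bool => ∃ (p : ℕ) (_ : Fact p.Prime) (T : Finset α),
      (prin ((matZ b).map (Int.cast : ℤ → ZMod p)) T).rank + k ≤ T.card] :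
    (univ.filter fun b : Sym2 α → Bool => ∃ (p : ℕ) (_ : Fact p.Prime) (T : Finset α),
      (prin ((matZ b).map (Int.cast : ℤ → ZMod p)) T).rank + k ≤ T.card).card *
        2 ^ ((k + 1).choose 2) ≤
      4 ^ Fintype.card α * (3 * (Fintype.card α + 2) ^ 4) * 2 ^ Fintype.card (Sym2 α) := by
  classical
  set n := Fintype.card α with hn
  set K : ℕ := 1 + 2 * n ^ 2 * (n + 2) ^ 2 with hK
  set I : Finset (Finset α × Finset α) :=
    univ.filter fun x => Disjoint x.1 x.2 ∧ k ≤ x.2.card with hI
  have hsub : (univ.filter fun b : Sym2 α → Bool => ∃ (p : ℕ) (_ : Fact p.Prime) (T : Finset α),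
      (prin ((matZ b).map (Int.cast : ℤ → ZMod p)) T).rank + k ≤ T.card) ⊆
      I.biUnion fun x => univ.filter (Ev x.1 x.2) := by
    intro b hb
    obtain ⟨p, hp, T, hT⟩ := (mem_filter.1 hb).2
    have hp' : p.Prime := hp.out
    obtain ⟨A, hAT, hAc, hdet, hA⟩ := exists_base ((matZ b).map (Int.cast : ℤ → ZMod p))
      (fun i j => by rw [map_apply, map_apply, matZ_symm]) T
    have hm1 : (prin ((matZ b).map (Int.cast : ℤ → ZMod p)) A).det =
        ((prin (matZ b) A).det : ZMod p) := by
      have h1 : prin ((matZ b).map (Int.cast : ℤ → ZMod p)) A =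
        (Int.castRingHom (ZMod p)).mapMatrix (prin (matZ b) A) := rfl
      rw [h1, ← RingHom.map_det]
      rfl
    have hm2 : ∀ i j, schur ((matZ b).map (Int.cast : ℤ → ZMod p)) A i j =
        ((schur (matZ b) A i j : ℤ) : ZMod p) := fun i j =>
      schur_map (Int.castRingHom (ZMod p)) (matZ b) A i j
    refine mem_biUnion.2 ⟨(A, T \ A), ?_, ?_⟩
    · refine mem_filter.2 ⟨mem_univ _, disjoint_sdiff, ?_⟩
      rw [card_sdiff_of_subset hAT]
      omega
    · refine mem_filter.2 ⟨mem_univ _, p, hp', ?_, ?_⟩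
      · intro h
        rw [hm1] at hdet
        exact hdet ((ZMod.intCast_zmod_eq_zero_iff_dvd _ _).2 h)
      · intro i hi j hj
        have h2 := hA i (mem_sdiff.1 hi).1 j (mem_sdiff.1 hj).1
        rw [hm1, hm2, map_apply] at h2
        rw [← ZMod.intCast_zmod_eq_zero_iff_dvd, Int.cast_sub, Int.cast_mul, h2, sub_self]
  have hcard : ∀ x ∈ I, (univ.filter (Ev x.1 x.2)).card * 2 ^ ((k + 1).choose 2) ≤
      K * 2 ^ Fintype.card (Sym2 α) := by
    intro x hx
    obtain ⟨-, hd, hk⟩ := mem_filter.1 hx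
    refine le_trans (Nat.mul_le_mul_left _ ?_) (card_Ev x.1 x.2 hd)
    refine Nat.pow_le_pow_right (by norm_num) ?_
    rw [Finset.card_sym2]
    exact Nat.choose_le_choose 2 (by omega)
  have hIc : I.card ≤ 4 ^ n := by
    refine (card_le_univ _).trans ?_
    rw [Fintype.card_prod, Fintype.card_finset, ← hn, ← mul_pow]
    norm_num
  have hK3 : K ≤ 3 * (n + 2) ^ 4 := by
    rw [hK]
    have h1 : n ^ 2 ≤ (n + 2) ^ 2 := Nat.pow_le_pow_left (by omega) 2
    have h2 : 1 ≤ (n + 2) ^ 4 := Nat.one_le_pow _ _ (by omega)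
    have h3 : 2 * n ^ 2 * (n + 2) ^ 2 ≤ 2 * (n + 2) ^ 2 * (n + 2) ^ 2 :=
      Nat.mul_le_mul_right _ (Nat.mul_le_mul_left _ h1)
    have h4 : 2 * (n + 2) ^ 2 * (n + 2) ^ 2 = 2 * (n + 2) ^ 4 := by ring
    omega
  calc _ ≤ (∑ x ∈ I, (univ.filter (Ev x.1 x.2)).card) * 2 ^ ((k + 1).choose 2) :=
        Nat.mul_le_mul_right _ ((card_le_card hsub).trans card_biUnion_le)
    _ = ∑ x ∈ I, (univ.filter (Ev x.1 x.2)).card * 2 ^ ((k + 1).choose 2) := by
        rw [sum_mul]
    _ ≤ ∑ x ∈ I, K * 2 ^ Fintype.card (Sym2 α) := sum_le_sum hcard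
    _ = I.card * (K * 2 ^ Fintype.card (Sym2 α)) := by rw [sum_const, smul_eq_mul]
    _ ≤ 4 ^ n * (3 * (n + 2) ^ 4 * 2 ^ Fintype.card (Sym2 α)) :=
        Nat.mul_le_mul hIc (Nat.mul_le_mul_right _ hK3)
    _ = _ := by ring

theorem three_mul_le (n : ℕ) : 3 * (n + 2) ^ 4 ≤ 2 ^ (4 * n + 6) := by
  have h1 : n + 1 ≤ 2 ^ n := Nat.lt_two_pow_self
  have h2 : n + 2 ≤ 2 * 2 ^ n := by omega
  calc 3 * (n + 2) ^ 4 ≤ 3 * (2 * 2 ^ n) ^ 4 := Nat.mul_le_mul_left _ (Nat.pow_le_pow_left h2 4)
    _ = 48 * 2 ^ (4 * n) := by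
        rw [mul_pow, ← pow_mul, mul_comm n 4]; ring
    _ ≤ 64 * 2 ^ (4 * n) := Nat.mul_le_mul_right _ (by norm_num)
    _ = 2 ^ (4 * n + 6) := by rw [pow_add]; ring

/-- **Coranks, exponential form**: corank `≥ k` for some principal submatrix and some prime has
density `≤ 2 ^ (- C n)` as soon as `k² ≥ 2 (C + 12) n`. -/
theorem card_corank_le_exp (C k : ℕ) (hn : 1 ≤ Fintype.card α)
    (hk : 2 * (C + 12) * Fintype.card α ≤ k ^ 2)
    [DecidablePred fun b : Sym2 α → Bool => ∃ (p : ℕ) (_ : Fact p.Prime) (T : Finset α),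
      (prin ((matZ b).map (Int.cast : ℤ → ZMod p)) T).rank + k ≤ T.card] :
    (univ.filter fun b : Sym2 α → Bool => ∃ (p : ℕ) (_ : Fact p.Prime) (T : Finset α),
      (prin ((matZ b).map (Int.cast : ℤ → ZMod p)) T).rank + k ≤ T.card).card *
        2 ^ (C * Fintype.card α) ≤ 2 ^ Fintype.card (Sym2 α) := by
  set n := Fintype.card α with hn'
  have h1 := card_corank_le (α := α) k
  set N := (univ.filter fun b : Sym2 α → Bool => ∃ (p : ℕ) (_ : Fact p.Prime) (T : Finset α),
      (prin ((matZ b).map (Int.cast : ℤ → ZMod p)) T).rank + k ≤ T.card).card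
  have h2 : 4 ^ n * (3 * (n + 2) ^ 4) ≤ 2 ^ (12 * n) := by
    calc 4 ^ n * (3 * (n + 2) ^ 4) ≤ 2 ^ (2 * n) * 2 ^ (4 * n + 6) := by
          refine Nat.mul_le_mul (le_of_eq ?_) (three_mul_le n)
          rw [pow_mul]; norm_num
      _ = 2 ^ (2 * n + (4 * n + 6)) := by rw [← pow_add]
      _ ≤ 2 ^ (12 * n) := Nat.pow_le_pow_right (by norm_num) (by omega)
  have h3 : C * n + 12 * n ≤ (k + 1).choose 2 := by
    rw [Nat.choose_two_right, Nat.le_div_iff_mul_le (by norm_num), Nat.add_sub_cancel]
    nlinarith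
  have h4 : N * 2 ^ (C * n) * 2 ^ (12 * n) ≤ 2 ^ Fintype.card (Sym2 α) * 2 ^ (12 * n) := by
    calc N * 2 ^ (C * n) * 2 ^ (12 * n) = N * 2 ^ (C * n + 12 * n) := by rw [mul_assoc, ← pow_add]
      _ ≤ N * 2 ^ ((k + 1).choose 2) :=
          Nat.mul_le_mul_left _ (Nat.pow_le_pow_right (by norm_num) h3)
      _ ≤ 4 ^ n * (3 * (n + 2) ^ 4) * 2 ^ Fintype.card (Sym2 α) := h1
      _ ≤ 2 ^ (12 * n) * 2 ^ Fintype.card (Sym2 α) := Nat.mul_le_mul_right _ h2
      _ = _ := mul_comm _ _
  exact Nat.le_of_mul_le_mul_right h4 (by positivity)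

end count

end Vale.Agent.P160.Half
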