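import Mathlib

/-!
# P160, rate 1/2: the number of 0/1 vectors in a rational subspace of a dyadic relation

`wcount`: if `W` is a rational subspace of `(Q^kappa)^l` on which
`sum_i 2^i sum_k s_{ik} w_{ik}` vanishes (`s_{ik}` odd) and `8 <= alpha * |kappa|`, then every
translate of `W` contains at most `2^(l|kappa| - l - (1-alpha) codim W)` points of the cube.
-/

open Finset Module

namespace Vale.Agent.P160.Half

/-- the rational 0/1 vector of a Boolean vector -/
def bq {ι : Type*} (x : ι → Bool) : ι → ℚ := fun i => if x i then 1 else 0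

theorem bq_injective {ι : Type*} : Function.Injective (bq (ι := ι)) := by
  intro x y h
  funext i
  have := congrFun h i
  unfold bq at this
  cases hx : x i <;> cases hy : y i <;> simp_all

section info

variable {κ : Type*} [Fintype κ] [DecidableEq κ]

/-- information set of a subspace -/
theorem exists_info (U : Submodule ℚ (κ → ℚ)) :
    ∃ I : Finset κ, I.card = finrank ℚ U ∧ (∀ u ∈ U, (∀ i ∈ I, u i = 0) → u = 0) ∧
      (∀ t : κ → ℚ, ∃ u ∈ U, ∀ i ∈ I, u i = t i) := by
  classical
  let P : Finset κ → Prop := fun I => ∀ t : κ → ℚ, ∃ u ∈ U, ∀ i ∈ I, u i = t i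
  have hP0 : P ∅ := fun t => ⟨0, U.zero_mem, by simp⟩
  obtain ⟨I, hI, hmax⟩ := Finset.exists_max_image (Finset.univ.filter P) Finset.card
    ⟨∅, by simpa using hP0⟩
  have hPI : P I := (Finset.mem_filter.1 hI).2
  have hinj : ∀ u ∈ U, (∀ i ∈ I, u i = 0) → u = 0 := by
    intro u hu h0
    by_contra hne
    obtain ⟨k, hk⟩ : ∃ k, u k ≠ 0 := by
      by_contra h
      push Not at h
      exact hne (funext h)
    have hkI : k ∉ I := fun h => hk (h0 k h)
    have hP' : P (insert k I) := by
      intro t
      obtain ⟨u', hu', h'⟩ := hPI t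
      refine ⟨u' + ((t k - u' k) / u k) • u, U.add_mem hu' (U.smul_mem _ hu), ?_⟩
      intro i hi
      rcases Finset.mem_insert.1 hi with rfl | hi
      · simp [div_mul_cancel₀ _ hk]
      · simp [h0 i hi, h' i hi]
    have := hmax (insert k I) (Finset.mem_filter.2 ⟨Finset.mem_univ _, hP'⟩)
    rw [Finset.card_insert_of_notMem hkI] at this
    omega
  refine ⟨I, ?_, hinj, hPI⟩
  let r : U →ₗ[ℚ] (I → ℚ) :=
    { toFun := fun u i => (u : κ → ℚ) i
      map_add' := by intro a b; rfl
      map_smul' := by intro a b; rfl }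
  have hr1 : Function.Injective r := by
    rw [← LinearMap.ker_eq_bot, LinearMap.ker_eq_bot']
    intro u hu
    apply Subtype.ext
    apply hinj u.1 u.2
    intro i hi
    exact congrFun hu ⟨i, hi⟩
  have hr2 : Function.Surjective r := by
    intro t
    obtain ⟨u, hu, h⟩ := hPI (fun i => if h : i ∈ I then t ⟨i, h⟩ else 0)
    refine ⟨⟨u, hu⟩, ?_⟩
    funext i
    have := h i i.2
    simpa [r] using this
  have e := LinearEquiv.ofBijective r ⟨hr1, hr2⟩
  rw [e.finrank_eq]
  simp

/-- the cube points of a translate of `U` -/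
noncomputable def pts (U : Submodule ℚ (κ → ℚ)) (v : κ → ℚ) : Finset (κ → Bool) := by
  classical exact Finset.univ.filter fun x => bq x - v ∈ U

theorem mem_pts {U : Submodule ℚ (κ → ℚ)} {v : κ → ℚ} {x : κ → Bool} :
    x ∈ pts U v ↔ bq x - v ∈ U := by
  simp [pts]

theorem pts_eq_of_agree {U : Submodule ℚ (κ → ℚ)} {v : κ → ℚ} {I : Finset κ}
    (hI : ∀ u ∈ U, (∀ i ∈ I, u i = 0) → u = 0) {x y : κ → Bool} (hx : x ∈ pts U v)
    (hy : y ∈ pts U v) (h : ∀ i ∈ I, x i = y i) : x = y := by
  have h1 : bq x - bq y ∈ U := by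
    have := U.sub_mem (mem_pts.1 hx) (mem_pts.1 hy)
    simpa using this
  have h2 := hI _ h1 (by intro i hi; simp [bq, h i hi])
  exact bq_injective (sub_eq_zero.1 h2)

/-- Odlyzko -/
theorem card_pts_le (U : Submodule ℚ (κ → ℚ)) (v : κ → ℚ) :
    (pts U v).card ≤ 2 ^ finrank ℚ U := by
  classical
  obtain ⟨I, hcard, hinj, -⟩ := exists_info U
  rw [← hcard]
  have : (pts U v).card ≤ (Finset.univ : Finset (I → Bool)).card := by
    apply Finset.card_le_card_of_injOn (fun x (i : I) => x i) (by intro x _; exact Finset.mem_univ _)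
    intro x hx y hy hxy
    exact pts_eq_of_agree hinj hx hy (fun i hi => congrFun hxy ⟨i, hi⟩)
  simpa using this

/-- the number of ones of a Boolean vector -/
def ones (x : κ → Bool) : ℕ := (Finset.univ.filter fun k => x k = true).card

/-- cube points of a translate with given parity -/
noncomputable def ptsPar (U : Submodule ℚ (κ → ℚ)) (v : κ → ℚ) (c : ℕ) : Finset (κ → Bool) :=
  (pts U v).filter fun x => ones x % 2 = c % 2

theorem ones_flip (x : κ → Bool) (k : κ) :
    ones (Function.update x k (!x k)) % 2 ≠ ones x % 2 := by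
  classical
  unfold ones
  cases hx : x k
  · have : (Finset.univ.filter fun j => Function.update x k (!x k) j = true) =
        insert k (Finset.univ.filter fun j => x j = true) := by
      ext j
      by_cases hj : j = k
      · subst hj; simp [hx]
      · simp [hj]
    rw [hx] at this
    rw [this, Finset.card_insert_of_notMem (by simp [hx])]
    omega
  · have : (Finset.univ.filter fun j => x j = true) =
        insert k (Finset.univ.filter fun j => Function.update x k (!x k) j = true) := by
      ext j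
      by_cases hj : j = k
      · subst hj; simp [hx]
      · simp [hj]
    rw [hx] at this
    rw [this, Finset.card_insert_of_notMem (by simp)]
    omega

omit [Fintype κ] in
theorem bq_flip (x : κ → Bool) (k : κ) :
    bq (Function.update x k (!x k)) - bq x = (if x k then (-1 : ℚ) else 1) • Pi.single k (1 : ℚ) := by
  funext j
  by_cases hj : j = k
  · subst hj
    cases hx : x j <;> simp [bq, hx]
  · simp [bq, Function.update_of_ne hj, Pi.single_eq_of_ne hj]

/-- case 1 of the block lemma -/
theorem two_mul_card_ptsPar_le (U : Submodule ℚ (κ → ℚ)) (v : κ → ℚ) (c : ℕ) (k : κ)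
    (hk : Pi.single k (1 : ℚ) ∈ U) : 2 * (ptsPar U v c).card ≤ 2 ^ finrank ℚ U := by
  classical
  let φ : (κ → Bool) → (κ → Bool) := fun x => Function.update x k (!x k)
  have hφ : Function.Injective φ := by
    intro x y h
    funext j
    have hj := congrFun h j
    by_cases hjk : j = k
    · subst hjk
      simpa [φ] using hj
    · simpa [φ, Function.update_of_ne hjk] using hj
  have hsub : (ptsPar U v c).image φ ⊆ pts U v := by
    intro y hy
    obtain ⟨x, hx, rfl⟩ := Finset.mem_image.1 hy
    have hx' := mem_pts.1 (Finset.mem_filter.1 hx).1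
    rw [mem_pts]
    have : bq (φ x) - v = (bq (φ x) - bq x) + (bq x - v) := by abel
    rw [this, bq_flip]
    exact U.add_mem (U.smul_mem _ hk) hx'
  have hdisj : Disjoint ((ptsPar U v c).image φ) (ptsPar U v c) := by
    rw [Finset.disjoint_left]
    intro y hy hy'
    obtain ⟨x, hx, rfl⟩ := Finset.mem_image.1 hy
    have h1 := (Finset.mem_filter.1 hx).2
    have h2 := (Finset.mem_filter.1 hy').2
    exact ones_flip x k (h2.trans h1.symm)
  have h3 : ((ptsPar U v c).image φ ∪ ptsPar U v c).card ≤ (pts U v).card :=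
    Finset.card_le_card (Finset.union_subset hsub (Finset.filter_subset _ _))
  rw [Finset.card_union_of_disjoint hdisj, Finset.card_image_of_injective _ hφ] at h3
  have := card_pts_le U v
  omega

end info

section LO

theorem card_sum_eq_le_pos {α : Type*} [Fintype α] [DecidableEq α] (w : α → ℚ)
    (hw : ∀ a, 0 < w a) (C : ℚ) (𝒜 : Finset (Finset α)) (h𝒜 : ∀ t ∈ 𝒜, ∑ a ∈ t, w a = C) :
    𝒜.card ≤ (Fintype.card α).choose (Fintype.card α / 2) := by
  refine IsAntichain.sperner (𝒜 := 𝒜) ?_
  intro s hs t ht hst hsub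
  have hs' := h𝒜 s (Finset.mem_coe.1 hs)
  have ht' := h𝒜 t (Finset.mem_coe.1 ht)
  have hss : s ⊂ t := lt_of_le_of_ne hsub hst
  have := Finset.sum_lt_sum_of_subset (f := w) hsub
    (Finset.exists_of_ssubset hss).choose_spec.1 (Finset.exists_of_ssubset hss).choose_spec.2
    (hw _) (fun a _ _ => (hw a).le)
  rw [hs', ht'] at this
  exact lt_irrefl _ this

theorem card_sum_eq_le {α : Type*} [Fintype α] [DecidableEq α] (w : α → ℚ)
    (hw : ∀ a, w a ≠ 0) (C : ℚ) (𝒜 : Finset (Finset α)) (h𝒜 : ∀ t ∈ 𝒜, ∑ a ∈ t, w a = C) :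
    𝒜.card ≤ (Fintype.card α).choose (Fintype.card α / 2) := by
  let N : Finset α := Finset.univ.filter fun a => w a < 0
  have hinj : Function.Injective (fun t : Finset α => symmDiff t N) := by
    intro s t h
    have := congrArg (fun u => symmDiff u N) h
    simpa [symmDiff_assoc] using this
  rw [← Finset.card_image_of_injective 𝒜 hinj]
  refine card_sum_eq_le_pos (fun a => |w a|) (fun a => abs_pos.2 (hw a)) (C - ∑ a ∈ N, w a) _ ?_
  intro u hu
  obtain ⟨t, ht, rfl⟩ := Finset.mem_image.1 hu
  have h1 : ∑ a ∈ symmDiff t N, |w a| = ∑ a, (if a ∈ symmDiff t N then |w a| else 0) := by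
    simp only [Finset.sum_ite_mem, Finset.univ_inter]
  have h2 : ∑ a ∈ t, w a = ∑ a, (if a ∈ t then w a else 0) := by
    simp only [Finset.sum_ite_mem, Finset.univ_inter]
  have h3 : ∑ a ∈ N, w a = ∑ a, (if a ∈ N then w a else 0) := by simp
  rw [h1, ← h𝒜 t ht, h2, h3, ← Finset.sum_sub_distrib]
  refine Finset.sum_congr rfl fun a _ => ?_
  have hN : a ∈ N ↔ w a < 0 := by simp only [Finset.mem_filter, Finset.mem_univ, true_and, N]
  by_cases ha : w a < 0
  · have haN := hN.2 ha
    by_cases hat : a ∈ t
    · have : a ∉ symmDiff t N := by simp [Finset.mem_symmDiff, hat, haN]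
      simp [this, hat, haN]
    · have : a ∈ symmDiff t N := by simp [Finset.mem_symmDiff, hat, haN]
      simp [this, hat, haN, abs_of_neg ha]
  · have haN : a ∉ N := fun h => ha (hN.1 h)
    have hpos : 0 ≤ w a := not_lt.1 ha
    by_cases hat : a ∈ t
    · have : a ∈ symmDiff t N := by simp [Finset.mem_symmDiff, hat, haN]
      simp [this, hat, haN, abs_of_nonneg hpos]
    · have : a ∉ symmDiff t N := by simp [Finset.mem_symmDiff, hat, haN]
      simp [this, hat, haN]

/-- `C(2n,n)^2 (2n+1) <= 16^n` -/
theorem centralBinom_sq_le (n : ℕ) : n.centralBinom ^ 2 * (2 * n + 1) ≤ 16 ^ n := by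
  induction n with
  | zero => simp
  | succ n ih =>
    have h := Nat.succ_mul_centralBinom_succ n
    have h2 : ((n + 1) * (n + 1).centralBinom) ^ 2 = (2 * (2 * n + 1) * n.centralBinom) ^ 2 := by
      rw [h]
    have h3 : (n + 1) ^ 2 * ((n + 1).centralBinom ^ 2 * (2 * (n + 1) + 1)) ≤
        (n + 1) ^ 2 * 16 ^ (n + 1) := by
      have : (n + 1) ^ 2 * ((n + 1).centralBinom ^ 2 * (2 * (n + 1) + 1)) =
          4 * (2 * n + 1) * (2 * n + 3) * (n.centralBinom ^ 2 * (2 * n + 1)) := by
        calc _ = ((n + 1) * (n + 1).centralBinom) ^ 2 * (2 * n + 3) := by ring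
          _ = (2 * (2 * n + 1) * n.centralBinom) ^ 2 * (2 * n + 3) := by rw [h2]
          _ = _ := by ring
      rw [this]
      calc 4 * (2 * n + 1) * (2 * n + 3) * (n.centralBinom ^ 2 * (2 * n + 1))
          ≤ 4 * (2 * n + 1) * (2 * n + 3) * 16 ^ n := Nat.mul_le_mul_left _ ih
        _ ≤ 16 * (n + 1) ^ 2 * 16 ^ n := by
            apply Nat.mul_le_mul_right
            nlinarith
        _ = _ := by ring
    exact Nat.le_of_mul_le_mul_left h3 (by positivity)

/-- `C(s, s/2)^2 s <= 4^s` -/
theorem choose_half_sq_le (s : ℕ) : (s.choose (s / 2)) ^ 2 * s ≤ 4 ^ s := by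
  rcases Nat.even_or_odd' s with ⟨n, rfl | rfl⟩
  · have h := centralBinom_sq_le n
    rw [Nat.centralBinom_eq_two_mul_choose] at h
    rw [Nat.mul_div_cancel_left n (by norm_num)]
    calc (2 * n).choose n ^ 2 * (2 * n) ≤ (2 * n).choose n ^ 2 * (2 * n + 1) := by
          apply Nat.mul_le_mul_left; omega
      _ ≤ 16 ^ n := h
      _ = 4 ^ (2 * n) := by rw [pow_mul]; norm_num
  · have h := centralBinom_sq_le (n + 1)
    rw [Nat.centralBinom_eq_two_mul_choose] at h
    have h1 : (2 * (n + 1)).choose (n + 1) = 2 * (2 * n + 1).choose n := by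
      have e : 2 * (n + 1) = (2 * n + 1) + 1 := by ring
      rw [e, Nat.choose_succ_succ]
      have : (2 * n + 1).choose (n + 1) = (2 * n + 1).choose n := by
        have := Nat.choose_symm_half n
        simpa using this
      rw [Nat.succ_eq_add_one, this]
      ring
    rw [h1] at h
    have h2 : (2 * n + 1) / 2 = n := by omega
    rw [h2]
    have h3 : 4 * ((2 * n + 1).choose n ^ 2 * (2 * n + 1)) ≤ 4 * 4 ^ (2 * n + 1) := by
      calc 4 * ((2 * n + 1).choose n ^ 2 * (2 * n + 1))
          = (2 * (2 * n + 1).choose n) ^ 2 * (2 * n + 1) := by ring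
        _ ≤ (2 * (2 * n + 1).choose n) ^ 2 * (2 * (n + 1) + 1) := by
            apply Nat.mul_le_mul_left; omega
        _ ≤ 16 ^ (n + 1) := h
        _ = 4 * 4 ^ (2 * n + 1) := by
            rw [show (16 : ℕ) = 4 ^ 2 by norm_num, ← pow_mul]; ring
    omega

end LO

section block

variable {κ : Type*} [Fintype κ] [DecidableEq κ]

/-- case 2 of the block lemma -/
theorem card_pts_sq_le (U : Submodule ℚ (κ → ℚ)) (v : κ → ℚ)
    (hU : ∀ k, Pi.single k (1 : ℚ) ∉ U) :
    (pts U v).card ^ 2 * Fintype.card κ ≤ (Fintype.card κ - finrank ℚ U) * 4 ^ (finrank ℚ U + 1) := by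
  classical
  obtain ⟨I, hcard, hinj, hsurj⟩ := exists_info U
  choose b hbU hb using fun i : κ => hsurj (Pi.single i (1 : ℚ))
  -- expansion
  have hexp : ∀ u ∈ U, ∀ k, u k = ∑ i ∈ I, u i * b i k := by
    intro u hu k
    have h0 : u - ∑ i ∈ I, u i • b i = 0 := by
      apply hinj
      · exact U.sub_mem hu (U.sum_mem fun i _ => U.smul_mem _ (hbU i))
      · intro j hj
        have : ∀ i ∈ I, (u i • b i) j = if i = j then u j else 0 := by
          intro i _
          rw [Pi.smul_apply, hb i j hj]
          by_cases hij : i = j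
          · subst hij; simp
          · simp [hij]
        rw [Pi.sub_apply, Finset.sum_apply, Finset.sum_congr rfl this]
        simp [hj]
    have := congrFun (sub_eq_zero.1 h0) k
    rw [this, Finset.sum_apply]
    rfl
  let S : κ → Finset κ := fun p => I.filter fun i => b i p ≠ 0
  have hcov : ∀ i ∈ I, ∃ p ∈ (Finset.univ \ I : Finset κ), i ∈ S p := by
    intro i hi
    by_contra hcon
    push Not at hcon
    apply hU i
    have : b i = Pi.single i (1 : ℚ) := by
      funext p
      by_cases hp : p ∈ I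
      · exact hb i p hp
      · have h1 := hcon p (by simp [hp])
        have h2 : b i p = 0 := by
          by_contra h3
          exact h1 (Finset.mem_filter.2 ⟨hi, h3⟩)
        rw [h2, Pi.single_eq_of_ne (by rintro rfl; exact hp hi)]
    rw [← this]
    exact hbU i
  have hIcard : I.card ≤ ∑ p ∈ (Finset.univ \ I : Finset κ), (S p).card := by
    calc I.card ≤ ((Finset.univ \ I : Finset κ).biUnion S).card := by
          apply Finset.card_le_card
          intro i hi
          obtain ⟨p, hp, hip⟩ := hcov i hi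
          exact Finset.mem_biUnion.2 ⟨p, hp, hip⟩
      _ ≤ _ := Finset.card_biUnion_le
  have hPi : (Finset.univ \ I : Finset κ).card = Fintype.card κ - I.card := by
    rw [Finset.card_sdiff_of_subset (Finset.subset_univ _), Finset.card_univ]
  have hIle : I.card ≤ Fintype.card κ := Finset.card_le_univ I
  set f := Fintype.card κ - I.card with hf
  -- a good coordinate
  have hgood : Fintype.card κ = 0 ∨ ∃ p ∈ (Finset.univ \ I : Finset κ),
      Fintype.card κ ≤ f * ((S p).card + 1) := by
    by_contra hcon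
    push Not at hcon
    obtain ⟨hK, hcon⟩ := hcon
    have h1 : ∑ p ∈ (Finset.univ \ I : Finset κ), f * ((S p).card + 1) ≤
        ∑ p ∈ (Finset.univ \ I : Finset κ), (Fintype.card κ - 1) :=
      Finset.sum_le_sum fun p hp => by have := hcon p hp; omega
    rw [← Finset.mul_sum, Finset.sum_add_distrib, Finset.sum_const, Finset.sum_const, hPi] at h1
    simp only [smul_eq_mul, mul_one] at h1
    have hne : f ≠ 0 := by
      intro h0
      have hIe : I = Finset.univ := by
        apply Finset.eq_univ_of_card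
        omega
      obtain ⟨k⟩ : Nonempty κ := Fintype.card_pos_iff.1 (Nat.pos_of_ne_zero hK)
      obtain ⟨p, hp, -⟩ := hcov k (by rw [hIe]; exact Finset.mem_univ _)
      rw [hIe] at hp
      simp at hp
    have h2 : f * Fintype.card κ ≤ f * (∑ p ∈ (Finset.univ \ I : Finset κ), (S p).card + f) := by
      apply Nat.mul_le_mul_left
      omega
    have h3 : f * (Fintype.card κ - 1) < f * Fintype.card κ := by
      apply Nat.mul_lt_mul_of_pos_left
      · omega
      · omega
    omega
  rcases hgood with hK | ⟨p, hp, hKp⟩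
  · rw [hK]; simp
  have hpI : p ∉ I := by simpa using hp
  let T : Finset κ := insert p (S p)
  have hpS : p ∉ S p := fun h => hpI (Finset.mem_filter.1 h).1
  have hTcard : T.card = (S p).card + 1 := Finset.card_insert_of_notMem hpS
  let w : κ → ℚ := fun a => if a = p then 1 else - b a p
  have hw : ∀ a : T, w a ≠ 0 := by
    rintro ⟨a, ha⟩
    rcases Finset.mem_insert.1 ha with rfl | ha
    · simp [w]
    · have : a ≠ p := fun h => hpS (h ▸ ha)
      simp only [w, this, if_false]
      exact neg_ne_zero.2 (Finset.mem_filter.1 ha).2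
  let C : ℚ := v p - ∑ i ∈ I, v i * b i p
  let 𝒜 : Finset (Finset T) := Finset.univ.filter fun A => ∑ a ∈ A, w a = C
  have h𝒜 : 𝒜.card ≤ T.card.choose (T.card / 2) := by
    have := card_sum_eq_le (α := T) (fun a => w a) hw C 𝒜
      (fun t ht => (Finset.mem_filter.1 ht).2)
    simpa using this
  -- the equation
  have heq : ∀ x ∈ pts U v, ∑ a ∈ (Finset.univ.filter fun a : T => x a = true), w a = C := by
    intro x hx
    have h1 := hexp _ (mem_pts.1 hx) p
    have h2 : bq x p - ∑ i ∈ I, bq x i * b i p = C := by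
      simp only [Pi.sub_apply] at h1
      have h3 : ∑ i ∈ I, (bq x i - v i) * b i p =
          ∑ i ∈ I, bq x i * b i p - ∑ i ∈ I, v i * b i p := by
        rw [← Finset.sum_sub_distrib]
        exact Finset.sum_congr rfl fun i _ => by ring
      rw [h3] at h1
      simp only [C]
      linarith
    rw [← h2]
    have h4 : ∑ i ∈ I, bq x i * b i p = ∑ i ∈ S p, bq x i * b i p := by
      symm
      apply Finset.sum_subset (Finset.filter_subset _ _)
      intro i hi hi'
      have : b i p = 0 := by
        by_contra h5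
        exact hi' (Finset.mem_filter.2 ⟨hi, h5⟩)
      rw [this, mul_zero]
    have h5 : ∑ a ∈ (Finset.univ.filter fun a : T => x a = true), w a = ∑ a ∈ T, bq x a * w a := by
      rw [← Finset.sum_coe_sort T (fun a => bq x a * w a), Finset.sum_filter]
      apply Finset.sum_congr rfl
      intro a _
      simp only [bq]
      by_cases h6 : x a = true <;> simp [h6]
    rw [h5, Finset.sum_insert hpS, h4]
    have h7 : ∑ a ∈ S p, bq x a * w a = - ∑ i ∈ S p, bq x i * b i p := by
      rw [← Finset.sum_neg_distrib]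
      apply Finset.sum_congr rfl
      intro a ha
      have : a ≠ p := fun h => hpS (h ▸ ha)
      simp only [w, this, if_false]
      ring
    rw [h7]
    simp [w]
    ring
  -- the injection
  have hinj2 : (pts U v).card ≤
      ((Finset.univ : Finset ((I \ S p : Finset κ) → Bool)) ×ˢ 𝒜).card := by
    apply Finset.card_le_card_of_injOn
      (fun x => ((fun i : (I \ S p : Finset κ) => x i),
        (Finset.univ.filter fun a : T => x a = true)))
    · intro x hx
      rw [Finset.mem_coe, Finset.mem_product]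
      exact ⟨Finset.mem_univ _, Finset.mem_filter.2 ⟨Finset.mem_univ _, heq x hx⟩⟩
    · intro x hx y hy hxy
      simp only [Prod.mk.injEq] at hxy
      apply pts_eq_of_agree hinj hx hy
      intro i hi
      by_cases hiS : i ∈ S p
      · have h1 := Finset.ext_iff.1 hxy.2 ⟨i, Finset.mem_insert_of_mem hiS⟩
        simp only [Finset.mem_filter, Finset.mem_univ, true_and] at h1
        exact Bool.eq_iff_iff.2 h1
      · exact congrFun hxy.1 ⟨i, by simp [hi, hiS]⟩
  rw [Finset.card_product] at hinj2
  have hSI : S p ⊆ I := Finset.filter_subset _ _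
  have hSle : (S p).card ≤ I.card := Finset.card_le_card hSI
  have hcard3 : (Finset.univ : Finset ((I \ S p : Finset κ) → Bool)).card =
      2 ^ (I.card - (S p).card) := by
    rw [Finset.card_univ, Fintype.card_fun, Fintype.card_bool, Fintype.card_coe,
      Finset.card_sdiff_of_subset hSI]
  rw [hcard3] at hinj2
  set s := T.card with hs
  have h1 : (pts U v).card ≤ 2 ^ (I.card - (S p).card) * s.choose (s / 2) :=
    hinj2.trans (Nat.mul_le_mul_left _ h𝒜)
  have h2 : (pts U v).card ^ 2 * s ≤ 4 ^ (I.card + 1) := by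
    calc (pts U v).card ^ 2 * s ≤ (2 ^ (I.card - (S p).card) * s.choose (s / 2)) ^ 2 * s :=
          Nat.mul_le_mul_right _ (Nat.pow_le_pow_left h1 2)
      _ = 4 ^ (I.card - (S p).card) * ((s.choose (s / 2)) ^ 2 * s) := by
          rw [mul_pow, ← pow_mul, mul_comm (I.card - (S p).card) 2, pow_mul]
          norm_num [mul_assoc]
      _ ≤ 4 ^ (I.card - (S p).card) * 4 ^ s := Nat.mul_le_mul_left _ (choose_half_sq_le s)
      _ = 4 ^ (I.card + 1) := by
          rw [← pow_add]
          congr 1
          omega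
  rw [← hcard, ← hf]
  calc (pts U v).card ^ 2 * Fintype.card κ ≤ (pts U v).card ^ 2 * (f * s) := by
        apply Nat.mul_le_mul_left
        rw [hTcard]
        exact hKp
    _ = f * ((pts U v).card ^ 2 * s) := by ring
    _ ≤ f * 4 ^ (I.card + 1) := Nat.mul_le_mul_left _ h2

/-- block lemma -/
theorem card_ptsPar_le {α : ℝ} (hα : 0 < α) (hK : 8 ≤ α * Fintype.card κ)
    (U : Submodule ℚ (κ → ℚ)) (v : κ → ℚ) (c : ℕ) :
    ((ptsPar U v c).card : ℝ) ≤
      (2 : ℝ) ^ ((Fintype.card κ : ℝ) - 1 - (1 - α) * (Fintype.card κ - finrank ℚ U)) := by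
  classical
  set K := Fintype.card κ with hKdef
  set d := finrank ℚ U with hd
  have hdK : d ≤ K := by
    have := Submodule.finrank_le U
    simpa [hKdef, hd] using this
  have hdKr : (d : ℝ) ≤ K := by exact_mod_cast hdK
  by_cases hU : ∃ k, Pi.single k (1 : ℚ) ∈ U
  · obtain ⟨k, hk⟩ := hU
    have h1 := two_mul_card_ptsPar_le U v c k hk
    have h2 : (2 : ℝ) * (ptsPar U v c).card ≤ 2 ^ (d : ℝ) := by
      rw [Real.rpow_natCast]
      exact_mod_cast h1
    have h3 : ((ptsPar U v c).card : ℝ) ≤ 2 ^ ((d : ℝ) - 1) := by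
      rw [Real.rpow_sub (by norm_num), Real.rpow_one]
      linarith
    refine h3.trans (Real.rpow_le_rpow_of_exponent_le (by norm_num) ?_)
    nlinarith
  · push Not at hU
    have h1 := card_pts_sq_le U v hU
    have h2 : (ptsPar U v c).card ≤ (pts U v).card := Finset.card_le_card (Finset.filter_subset _ _)
    have h3 : ((ptsPar U v c).card : ℝ) ^ 2 * K ≤ (K - d) * 4 ^ (d + 1) := by
      have h4 : (ptsPar U v c).card ^ 2 * K ≤ (K - d) * 4 ^ (d + 1) :=
        (Nat.mul_le_mul_right _ (Nat.pow_le_pow_left h2 2)).trans h1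
      have h5 : (((ptsPar U v c).card ^ 2 * K : ℕ) : ℝ) ≤ (((K - d) * 4 ^ (d + 1) : ℕ) : ℝ) := by
        exact_mod_cast h4
      push_cast [Nat.cast_sub hdK] at h5
      exact h5
    have hKpos : (0 : ℝ) < K := by
      by_contra h
      have : (K : ℝ) ≤ 0 := not_lt.1 h
      nlinarith
    set f : ℝ := (K : ℝ) - d with hf
    have hf0 : 0 ≤ f := by simp only [hf]; linarith
    have hkey : 16 * f ≤ K * 2 ^ (2 * α * f) := by
      have h6 : 2 * α * f ≤ (2 : ℝ) ^ (2 * α * f) := by
        set y := 2 * α * f with hy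
        have hy0 : 0 ≤ y := by positivity
        by_cases hy1 : y ≤ 1
        · calc y ≤ 1 := hy1
            _ = (2 : ℝ) ^ (0 : ℝ) := by simp
            _ ≤ 2 ^ y := Real.rpow_le_rpow_of_exponent_le (by norm_num) hy0
        · have := one_add_mul_self_le_rpow_one_add (s := 1) (by norm_num) (p := y) (by linarith)
          norm_num at this
          linarith
      calc 16 * f = 8 * (2 * f) := by ring
        _ ≤ (α * K) * (2 * f) := by
            apply mul_le_mul_of_nonneg_right hK (by positivity)
        _ = K * (2 * α * f) := by ring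
        _ ≤ _ := mul_le_mul_of_nonneg_left h6 hKpos.le
    have hE : (K : ℝ) - 1 - (1 - α) * f = d - 1 + α * f := by simp only [hf]; ring
    rw [hE]
    have hpos : (0 : ℝ) < 2 ^ ((d : ℝ) - 1 + α * f) := by positivity
    have hsq : ((ptsPar U v c).card : ℝ) ^ 2 ≤ (2 ^ ((d : ℝ) - 1 + α * f)) ^ 2 := by
      have h7 : ((2 : ℝ) ^ ((d : ℝ) - 1 + α * f)) ^ 2 = 4 ^ (d + 1) * 2 ^ (2 * α * f) / 16 := by
        rw [← Real.rpow_natCast, ← Real.rpow_mul (by norm_num)]
        have : ((d : ℝ) - 1 + α * f) * ((2 : ℕ) : ℝ) = (2 * (d + 1 : ℕ) : ℕ) + 2 * α * f - (4 : ℕ) := by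
          push_cast; ring
        rw [this, Real.rpow_sub (by norm_num), Real.rpow_add (by norm_num), Real.rpow_natCast,
          Real.rpow_natCast, pow_mul]
        norm_num
      rw [h7]
      have h8 : ((ptsPar U v c).card : ℝ) ^ 2 * K ≤ (4 ^ (d + 1) * 2 ^ (2 * α * f) / 16) * K := by
        refine h3.trans ?_
        have h9 : (0 : ℝ) < 4 ^ (d + 1) := by positivity
        nlinarith
      exact le_of_mul_le_mul_right h8 hKpos
    exact (sq_le_sq₀ (by positivity) hpos.le).1 hsq

end block

section main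

variable {κ : Type*} [Fintype κ] [DecidableEq κ]

/-- rational 0/1 array of a Boolean array -/
def bq2 {l : ℕ} (x : Fin l → κ → Bool) : Fin l → κ → ℚ := fun i => bq (x i)

omit [Fintype κ] [DecidableEq κ] in
theorem bq2_injective {l : ℕ} : Function.Injective (bq2 (κ := κ) (l := l)) := by
  intro x y h
  funext i
  exact bq_injective (congrFun h i)

/-- the cube points of a translate of `W` -/
noncomputable def pts2 {l : ℕ} (W : Submodule ℚ (Fin l → κ → ℚ)) (v : Fin l → κ → ℚ) :
    Finset (Fin l → κ → Bool) := by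
  classical exact Finset.univ.filter fun x => bq2 x - v ∈ W

theorem mem_pts2 {l : ℕ} {W : Submodule ℚ (Fin l → κ → ℚ)} {v : Fin l → κ → ℚ}
    {x : Fin l → κ → Bool} : x ∈ pts2 W v ↔ bq2 x - v ∈ W := by
  simp [pts2]

/-- put `0` in front -/
def consL (l : ℕ) : (Fin l → κ → ℚ) →ₗ[ℚ] (Fin (l + 1) → κ → ℚ) where
  toFun x := Fin.cons 0 x
  map_add' x y := by
    funext i
    refine Fin.cases ?_ (fun j => ?_) i <;> simp
  map_smul' c x := by
    funext i
    refine Fin.cases ?_ (fun j => ?_) i <;> simp

omit [Fintype κ] [DecidableEq κ] in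
theorem consL_injective (l : ℕ) : Function.Injective (consL (κ := κ) l) := by
  intro x y h
  funext i
  have := congrFun h i.succ
  simpa [consL] using this

omit [DecidableEq κ] in
/-- rank-nullity for the first block -/
theorem finrank_split {l : ℕ} (W : Submodule ℚ (Fin (l + 1) → κ → ℚ)) :
    finrank ℚ (W.map (LinearMap.proj 0 : (Fin (l + 1) → κ → ℚ) →ₗ[ℚ] (κ → ℚ))) +
      finrank ℚ (W.comap (consL l)) = finrank ℚ W := by
  let g : W →ₗ[ℚ] (κ → ℚ) :=
    (LinearMap.proj 0 : (Fin (l + 1) → κ → ℚ) →ₗ[ℚ] (κ → ℚ)).comp W.subtype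
  have h1 : LinearMap.range g = W.map (LinearMap.proj 0) := by
    rw [LinearMap.range_comp, Submodule.range_subtype]
  have h2 := LinearMap.finrank_range_add_finrank_ker g
  rw [h1] at h2
  rw [← h2]
  congr 1
  -- kernel
  let φ : (W.comap (consL l)) →ₗ[ℚ] (LinearMap.ker g) :=
    { toFun := fun x => ⟨⟨consL l x.1, x.2⟩, by
        rw [LinearMap.mem_ker]; rfl⟩
      map_add' := by
        intro a b
        apply Subtype.ext; apply Subtype.ext
        exact (consL l).map_add _ _
      map_smul' := by
        intro a b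
        apply Subtype.ext; apply Subtype.ext
        exact (consL l).map_smul _ _ }
  have hφ1 : Function.Injective φ := by
    intro x y h
    have h3 : consL l x.1 = consL l y.1 := by
      have h4 := congrArg Subtype.val (congrArg Subtype.val h)
      exact h4
    exact Subtype.ext (consL_injective l h3)
  have hφ2 : Function.Surjective φ := by
    rintro ⟨⟨w, hw⟩, hk⟩
    have hk0 : w 0 = 0 := hk
    have hc : consL l (fun i => w i.succ) = w := by
      funext i
      refine Fin.cases ?_ (fun j => ?_) i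
      · simp [consL, hk0]
      · simp [consL]
    refine ⟨⟨fun i => w i.succ, ?_⟩, ?_⟩
    · rw [Submodule.mem_comap, hc]; exact hw
    · apply Subtype.ext; apply Subtype.ext
      exact hc
  exact (LinearEquiv.ofBijective φ ⟨hφ1, hφ2⟩).finrank_eq

omit [DecidableEq κ] in
theorem sum_odd_mod_two (s : κ → ℤ) (hs : ∀ k, Odd (s k)) (x : κ → Bool) :
    (∑ k, s k * (if x k then 1 else 0)) ≡ (ones x : ℤ) [ZMOD 2] := by
  have h1 : (ones x : ℤ) = ∑ k, (if x k then (1 : ℤ) else 0) := by
    unfold ones
    rw [Finset.card_filter]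
    push_cast
    rfl
  rw [h1]
  apply Int.ModEq.sum
  intro k _
  by_cases hx : x k = true
  · simp only [hx, if_true, mul_one]
    obtain ⟨r, hr⟩ := hs k
    rw [hr]
    exact (Int.modEq_iff_dvd.2 ⟨-r, by ring⟩)
  · simp [hx]

/-- **W-count** -/
theorem wcount {α : ℝ} (hα : 0 < α) (hK : 8 ≤ α * Fintype.card κ) :
    ∀ (l : ℕ) (s : Fin l → κ → ℤ) (_ : ∀ i k, Odd (s i k)) (W : Submodule ℚ (Fin l → κ → ℚ))
      (_ : ∀ w ∈ W, ∑ i : Fin l, (2 : ℚ) ^ (i : ℕ) * ∑ k, (s i k : ℚ) * w i k = 0)
      (v : Fin l → κ → ℚ),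
      ((pts2 W v).card : ℝ) ≤ (2 : ℝ) ^ ((l : ℝ) * Fintype.card κ - l -
        (1 - α) * ((l : ℝ) * Fintype.card κ - finrank ℚ W)) := by
  classical
  intro l
  induction l with
  | zero =>
    intro s _ W _ v
    have h1 : (pts2 W v).card ≤ 1 := by
      rw [Finset.card_le_one]
      intro a _ b _
      funext i
      exact i.elim0
    have h2 : finrank ℚ W = 0 := by
      exact Module.finrank_zero_of_subsingleton
    rw [h2]
    simp only [Nat.cast_zero, zero_mul, sub_zero, mul_zero, Real.rpow_zero]
    exact_mod_cast h1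
  | succ l ih =>
    intro s hs W hW v
    set K := Fintype.card κ with hKdef
    rcases (pts2 W v).eq_empty_or_nonempty with h0 | ⟨x₀, hx₀⟩
    · rw [h0]; simp; positivity
    let W0 : Submodule ℚ (κ → ℚ) := W.map (LinearMap.proj 0)
    let W1 : Submodule ℚ (Fin l → κ → ℚ) := W.comap (consL l)
    have hsplit : finrank ℚ W0 + finrank ℚ W1 = finrank ℚ W := finrank_split W
    -- induction hypothesis for `W1`
    have hW1 : ∀ w ∈ W1, ∑ i : Fin l, (2 : ℚ) ^ (i : ℕ) * ∑ k, (s i.succ k : ℚ) * w i k = 0 := by
      intro w hw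
      have h1 := hW _ hw
      rw [Fin.sum_univ_succ] at h1
      have h2 : ∑ i : Fin l, (2 : ℚ) ^ ((i.succ : Fin (l+1)) : ℕ) *
          ∑ k, (s i.succ k : ℚ) * (consL l w) i.succ k =
          2 * ∑ i : Fin l, (2 : ℚ) ^ (i : ℕ) * ∑ k, (s i.succ k : ℚ) * w i k := by
        rw [Finset.mul_sum]
        apply Finset.sum_congr rfl
        intro i _
        simp only [consL, LinearMap.coe_mk, AddHom.coe_mk, Fin.cons_succ, Fin.val_succ, pow_succ]
        ring
      rw [h2] at h1
      simp only [consL, LinearMap.coe_mk, AddHom.coe_mk, Fin.cons_zero, Pi.zero_apply, mul_zero,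
        Finset.sum_const_zero, zero_add] at h1
      linarith
    have hB := fun v' => ih (fun i => s i.succ) (fun i k => hs _ _) W1 hW1 v'
    set B : ℝ := (2 : ℝ) ^ ((l : ℝ) * K - l - (1 - α) * ((l : ℝ) * K - finrank ℚ W1)) with hBdef
    -- parity of the first block
    have hpar : ∀ x ∈ pts2 W v, x 0 ∈ ptsPar W0 (v 0) (ones (x₀ 0)) := by
      intro x hx
      refine Finset.mem_filter.2 ⟨?_, ?_⟩
      · rw [mem_pts]
        exact ⟨_, mem_pts2.1 hx, rfl⟩
      · have h1 : bq2 x - bq2 x₀ ∈ W := by
          have := W.sub_mem (mem_pts2.1 hx) (mem_pts2.1 hx₀)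
          simpa using this
        have h2 := hW _ h1
        have h3 : ∑ i : Fin (l+1), (2 : ℤ) ^ (i : ℕ) * ∑ k, s i k *
            ((if x i k then 1 else 0) - (if x₀ i k then 1 else 0)) = 0 := by
          have h4 : ((∑ i : Fin (l+1), (2 : ℤ) ^ (i : ℕ) * ∑ k, s i k *
            ((if x i k then 1 else 0) - (if x₀ i k then 1 else 0)) : ℤ) : ℚ) = 0 := by
            rw [← h2]
            push_cast
            apply Finset.sum_congr rfl
            intro i _
            congr 1
          exact_mod_cast h4
        rw [Fin.sum_univ_succ] at h3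
        have h5 : (∑ k, s 0 k * ((if x 0 k then 1 else 0) - (if x₀ 0 k then 1 else 0))) ≡ 0
            [ZMOD 2] := by
          rw [Int.modEq_zero_iff_dvd]
          have h6 : (2 : ℤ) ∣ ∑ i : Fin l, (2 : ℤ) ^ ((i.succ : Fin (l+1)) : ℕ) * ∑ k, s i.succ k *
            ((if x i.succ k then 1 else 0) - (if x₀ i.succ k then 1 else 0)) := by
            apply Finset.dvd_sum
            intro i _
            rw [Fin.val_succ, pow_succ]
            exact Dvd.dvd.mul_right (Dvd.intro_left _ rfl) _
          have h7 : (2 : ℤ) ^ ((0 : Fin (l+1)) : ℕ) = 1 := by simp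
          rw [h7, one_mul] at h3
          have h8 := eq_neg_of_add_eq_zero_left h3
          rw [h8]
          exact (dvd_neg).2 h6
        have h9 : (∑ k, s 0 k * (if x 0 k then 1 else 0)) ≡
            (∑ k, s 0 k * (if x₀ 0 k then 1 else 0)) [ZMOD 2] := by
          have : (∑ k, s 0 k * ((if x 0 k then (1:ℤ) else 0) - (if x₀ 0 k then 1 else 0))) =
            (∑ k, s 0 k * (if x 0 k then 1 else 0)) - (∑ k, s 0 k * (if x₀ 0 k then 1 else 0)) := by
            rw [← Finset.sum_sub_distrib]
            exact Finset.sum_congr rfl fun k _ => by ring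
          rw [this] at h5
          have h10 := h5.add_right (∑ k, s 0 k * (if x₀ 0 k then 1 else 0))
          simpa using h10
        have h11 : (ones (x 0) : ℤ) ≡ (ones (x₀ 0) : ℤ) [ZMOD 2] :=
          ((sum_odd_mod_two (s 0) (hs 0) (x 0)).symm.trans h9).trans
            (sum_odd_mod_two (s 0) (hs 0) (x₀ 0))
        have : (ones (x 0)) ≡ (ones (x₀ 0)) [MOD 2] := (Int.natCast_modEq_iff).1 h11
        exact this
    -- fibres
    have hfib : ∀ b ∈ ptsPar W0 (v 0) (ones (x₀ 0)),
        (((pts2 W v).filter fun x => x 0 = b).card : ℝ) ≤ B := by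
      intro b _
      rcases ((pts2 W v).filter fun x => x 0 = b).eq_empty_or_nonempty with h1 | ⟨x₁, hx₁⟩
      · rw [h1]; simp; positivity
      · obtain ⟨hx₁a, hx₁b⟩ := Finset.mem_filter.1 hx₁
        have h2 : ((pts2 W v).filter fun x => x 0 = b).card ≤
            (pts2 W1 (bq2 fun i : Fin l => x₁ i.succ)).card := by
          apply Finset.card_le_card_of_injOn (fun x (i : Fin l) => x i.succ)
          · intro x hx
            obtain ⟨hxa, hxb⟩ := Finset.mem_filter.1 (Finset.mem_coe.1 hx)
            rw [Finset.mem_coe, mem_pts2]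
            have h3 : bq2 x - bq2 x₁ ∈ W := by
              have := W.sub_mem (mem_pts2.1 hxa) (mem_pts2.1 hx₁a)
              simpa using this
            change consL l _ ∈ W
            have h4 : consL l (bq2 (fun i : Fin l => x i.succ) - bq2 fun i : Fin l => x₁ i.succ) =
                bq2 x - bq2 x₁ := by
              funext i
              refine Fin.cases ?_ (fun j => ?_) i
              · simp [consL, bq2, hxb, hx₁b]
              · simp [consL, bq2]
            rw [h4]
            exact h3
          · intro x hx y hy hxy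
            obtain ⟨_, hxb⟩ := Finset.mem_filter.1 (Finset.mem_coe.1 hx)
            obtain ⟨_, hyb⟩ := Finset.mem_filter.1 (Finset.mem_coe.1 hy)
            funext i
            refine Fin.cases ?_ (fun j => ?_) i
            · rw [hxb, hyb]
            · exact congrFun hxy j
        exact (Nat.cast_le.2 h2).trans (hB _)
    have hcard : ((pts2 W v).card : ℝ) ≤ (ptsPar W0 (v 0) (ones (x₀ 0))).card * B := by
      rw [Finset.card_eq_sum_card_fiberwise (f := fun x : Fin (l+1) → κ → Bool => x 0)
        (t := ptsPar W0 (v 0) (ones (x₀ 0))) (by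
          intro x hx
          exact Finset.mem_coe.2 (hpar x (Finset.mem_coe.1 hx)))]
      push_cast
      calc _ ≤ ∑ _b ∈ ptsPar W0 (v 0) (ones (x₀ 0)), B := Finset.sum_le_sum hfib
        _ = _ := by rw [Finset.sum_const, nsmul_eq_mul]
    refine hcard.trans ?_
    have h0 := card_ptsPar_le hα hK W0 (v 0) (ones (x₀ 0))
    have hBpos : 0 < B := by positivity
    refine (mul_le_mul_of_nonneg_right h0 hBpos.le).trans ?_
    rw [hBdef, ← Real.rpow_add (by norm_num)]
    apply Real.rpow_le_rpow_of_exponent_le (by norm_num)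
    have hsplit' : (finrank ℚ W0 : ℝ) + finrank ℚ W1 = finrank ℚ W := by exact_mod_cast hsplit
    rw [← hsplit']
    push_cast
    apply le_of_eq
    ring

end main

end Vale.Agent.P160.Half
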