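import Vale.Agent.P160.Half.Step1
import Vale.Agent.P160.Half.WCount
import Vale.Agent.P160.Half.Corank

/-! # P160, rate 1/2, part (A): rich classes. Definitions and interface statements.

`RichSmall` : few symmetric 0/1 matrices have an integral overlattice with more than `2^(α n)`
tame 0/1 vectors.  Paper: notes 8989, 9934 (Step 1, CS, W), 10294 (gap G). -/

set_option linter.unusedVariables false

namespace Vale.Agent.P160.Half.A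

open Finset Matrix Vale.Agent.P160.Half

/-- bit arrays of symmetric matrices -/
abbrev Bits (n : ℕ) := Sym2 (Fin n) → Bool

/-- the rational matrix of an integer matrix -/
def PQ {n : ℕ} (P : Matrix (Fin n) (Fin n) ℤ) : Matrix (Fin n) (Fin n) ℚ := P.map (Int.cast : ℤ → ℚ)

/-- `P⁻¹ y` -/
noncomputable def dual {n : ℕ} (P : Matrix (Fin n) (Fin n) ℤ) (y : Fin n → ℤ) : Fin n → ℚ :=
  (PQ P)⁻¹ *ᵥ (fun i => (y i : ℚ))

/-- `L` is an integral overlattice of `(ℤ^n, P)` -/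
structure Over {n : ℕ} (P : Matrix (Fin n) (Fin n) ℤ) (L : Submodule ℤ (Fin n → ℚ)) : Prop where
  std : ∀ z : Fin n → ℤ, (fun i => (z i : ℚ)) ∈ L
  int : ∀ v ∈ L, ∀ w ∈ L, ∃ k : ℤ, v ⬝ᵥ (PQ P *ᵥ w) = k

/-- all coordinates are bounded by `X` -/
def BdQ {n : ℕ} (X : ℝ) (v : Fin n → ℚ) : Prop := ∀ i, |((v i : ℚ) : ℝ)| ≤ X

/-- the integer vectors `y`, 0/1 outside `s` coordinates, bounded by `X`, with `P⁻¹ y ∈ L` bounded by `X` -/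
def cls {n : ℕ} (P : Matrix (Fin n) (Fin n) ℤ) (L : Submodule ℤ (Fin n → ℚ)) (s : ℕ) (X : ℝ) :
    Set (Fin n → ℤ) :=
  {y | (∃ S : Finset (Fin n), S.card ≤ s ∧ ∀ i ∉ S, y i = 0 ∨ y i = 1) ∧ (∀ i, |(y i : ℝ)| ≤ X) ∧
    dual P y ∈ L ∧ BdQ X (dual P y)}

open Classical in
/-- **The theorem on rich classes (target of part (A)).** -/
def RichSmall : Prop := ∀ α B A : ℝ, 0 < α → ∃ n₀ : ℕ, ∀ n ≥ n₀,
  (((univ : Finset (Bits n)).filter fun b => (matZ b).det ≠ 0 ∧ ∃ L : Submodule ℤ (Fin n → ℚ),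
    Over (matZ b) L ∧ (2 : ℝ) ^ (α * n) < ((cls (matZ b) L 0 ((n : ℝ) ^ A)).ncard : ℝ)).card : ℝ) ≤
    (2 : ℝ) ^ (-(B * n)) * 2 ^ Fintype.card (Sym2 (Fin n))

/-! ## Arrays of class vectors -/

/-- index set of the columns: `l` levels, `2 M` columns with signs in each level -/
abbrev Co (l M : ℕ) := Fin l × (Fin M × Bool)

/-- coefficients `± 2^i` -/
def cf {l M : ℕ} (q : Co l M) : ℤ := if q.2.2 then 2 ^ (q.1 : ℕ) else -2 ^ (q.1 : ℕ)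

/-- column `q` of the array: `a` on the exceptional set `E`, 0/1 outside -/
def ent {n l M : ℕ} (E : Finset (Fin n)) (a : Fin n → ℤ) (F : Fin n → Co l M → Bool) (q : Co l M)
    (j : Fin n) : ℤ := if j ∈ E then a j else if F j q then 1 else 0

/-- the relation between the columns -/
def Rel {n l M : ℕ} (E : Finset (Fin n)) (F : Fin n → Co l M → Bool) : Prop :=
  ∀ j, j ∉ E → ∑ q : Co l M, cf q * (if F j q then 1 else 0) = 0

/-! ## Types -/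

/-- a type: rational subspace `W`, information set `I`, set `S` of special rows of `P`, and translates -/
structure Ty (n l M : ℕ) where
  W : Submodule ℚ (Co l M → ℚ)
  I : Finset (Co l M)
  S : Finset (Fin n)
  v : (Fin n → Bool) → (Co l M → ℚ)

structure Ty.Ok {n l M : ℕ} (τ : Ty n l M) : Prop where
  rel : ∀ w ∈ τ.W, ∑ q, (cf q : ℚ) * w q = 0
  card : τ.I.card = Module.finrank ℚ τ.W
  info : ∀ w ∈ τ.W, (∀ q ∈ τ.I, w q = 0) → w = 0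
  dep : ∀ x x', (∀ i ∈ τ.S, x i = x' i) → τ.v x = τ.v x'

/-- the row `j` of `F` lies in the translate of `W` given by the row `j` of `P` -/
def Ty.Fits {n l M : ℕ} (τ : Ty n l M) (E : Finset (Fin n)) (b : Bits n)
    (F : Fin n → Co l M → Bool) : Prop :=
  ∀ j ∉ E, (bq (F j) - τ.v (fun i => b s(j, i))) ∈ τ.W

/-! ## Exchange: the basis vectors `e_(R i)` are replaced by `g_i` -/

/-- change of basis: column `R i` is `g i`, the other columns are unit vectors -/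
def cob {n : ℕ} {β : Type*} [Fintype β] [DecidableEq β] (R : β → Fin n) (g : β → Fin n → ℚ) :
    Matrix (Fin n) (Fin n) ℚ := fun j k =>
  (∑ i, if R i = k then g i j else 0) + if k ∈ univ.image R then 0 else if j = k then 1 else 0

/-- the Gram matrix in the new basis -/
def newP {n : ℕ} {β : Type*} [Fintype β] [DecidableEq β] (P : Matrix (Fin n) (Fin n) ℤ)
    (R : β → Fin n) (g : β → Fin n → ℚ) : Matrix (Fin n) (Fin n) ℚ :=
  (cob R g)ᵀ * PQ P * cob R g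

/-- the lattice in the new coordinates -/
def newL {n : ℕ} {β : Type*} [Fintype β] [DecidableEq β] (L : Submodule ℤ (Fin n → ℚ))
    (R : β → Fin n) (g : β → Fin n → ℚ) : Submodule ℤ (Fin n → ℚ) :=
  L.comap ((cob R g).mulVecLin.restrictScalars ℤ)

/-- pairing vector (new basis) of `∑ c_i e_(R i)` -/
def newH {n : ℕ} {β : Type*} [Fintype β] [DecidableEq β] (P : Matrix (Fin n) (Fin n) ℤ)
    (R : β → Fin n) (g : β → Fin n → ℚ) (c : β → Bool) : Fin n → ℚ :=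
  (cob R g)ᵀ *ᵥ (PQ P *ᵥ fun j => ∑ i, if c i then (if R i = j then (1 : ℚ) else 0) else 0)

/-- the minor of `g` on the rows `R` -/
def minor {n : ℕ} {β : Type*} [Fintype β] [DecidableEq β] (R : β → Fin n) (g : β → Fin n → ℚ) : ℚ :=
  (Matrix.of fun i k : β => g i (R k)).det

/-- the dual vectors of the columns in `I` -/
noncomputable def gs {n l M : ℕ} (P : Matrix (Fin n) (Fin n) ℤ) (E : Finset (Fin n)) (a : Fin n → ℤ)
    (F : Fin n → Co l M → Bool) (I : Finset (Co l M)) (q : I) : Fin n → ℚ := dual P (ent E a F q)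

/-- the lattice generated by the standard lattice and the dual vectors of the columns in `I` -/
noncomputable def LF {n l M : ℕ} (P : Matrix (Fin n) (Fin n) ℤ) (E : Finset (Fin n)) (a : Fin n → ℤ)
    (F : Fin n → Co l M → Bool) (I : Finset (Co l M)) : Submodule ℤ (Fin n → ℚ) :=
  Submodule.span ℤ (Set.range (fun z : Fin n → ℤ => fun i => (z i : ℚ)) ∪ Set.range (gs P E a F I))

/-- **gap (G)** (target of 667's part, note 10294): outside few `(P, F)` there is a type, good rows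
`R` and a 0/1 matrix `c` such that the lattice is one of few lattices given by the exchanged matrix
and the revealed vectors. -/
def StmtG : Prop := ∃ C₂ : ℝ, ∀ M : ℕ, 1 ≤ M → ∃ l₀ : ℕ, ∀ l ≥ l₀, ∃ s₁ : ℕ,
  (s₁ : ℝ) * Real.logb 2 (4 * l * M + 1) ≤ l / 16 ∧
  ∀ A ε : ℝ, 0 < ε → ∃ (D : ℝ) (n₀ : ℕ), ∀ n ≥ n₀,
  ∃ (T : Finset (Ty n l M)) (B₀ : Finset (Bits n)),
    (T.card : ℝ) ≤ (2 : ℝ) ^ (ε * n) ∧ (∀ τ ∈ T, τ.Ok) ∧
    (B₀.card : ℝ) ≤ (2 : ℝ) ^ (-(5 * l * M * n) : ℝ) * 2 ^ Fintype.card (Sym2 (Fin n)) ∧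
  ∀ (E : Finset (Fin n)) (a : Fin n → ℤ), E.card ≤ 2 * l * M → (∀ j, |(a j : ℝ)| ≤ (n : ℝ) ^ A) →
  ∃ (B₁ : Finset (Bits n × (Fin n → Co l M → Bool)))
    (lab : (τ : Ty n l M) → (τ.I → Fin n) → Matrix (Fin n) (Fin n) ℚ → (Fin s₁ → Fin n → ℚ) →
      Finset (Submodule ℤ (Fin n → ℚ))),
    (B₁.card : ℝ) ≤ (2 : ℝ) ^ (-(5 * l * M * n) : ℝ) *
      2 ^ (Fintype.card (Sym2 (Fin n)) + 2 * l * M * n) ∧
    (∀ τ R M' h, ((lab τ R M' h).card : ℝ) ≤ (2 : ℝ) ^ (C₂ * n)) ∧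
  ∀ b ∉ B₀, (matZ b).det ≠ 0 → ∀ F : Fin n → Co l M → Bool, (b, F) ∉ B₁ → Rel E F →
  ∀ L : Submodule ℤ (Fin n → ℚ), Over (matZ b) L →
    (∀ q, dual (matZ b) (ent E a F q) ∈ L ∧ BdQ ((n : ℝ) ^ A) (dual (matZ b) (ent E a F q))) →
  ∃ τ ∈ T, τ.Fits E b F ∧ ∃ R : τ.I → Fin n, Function.Injective R ∧ (∀ i, R i ∉ τ.S ∧ R i ∉ E) ∧
    (n : ℝ) ^ (-D) ≤ |((minor R (gs (matZ b) E a F τ.I) : ℚ) : ℝ)| ∧
    ∃ c : Fin s₁ → τ.I → Bool,
      newL (LF (matZ b) E a F τ.I) R (gs (matZ b) E a F τ.I) ∈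
        lab τ R (newP (matZ b) R (gs (matZ b) E a F τ.I))
        (fun t => newH (matZ b) R (gs (matZ b) E a F τ.I) (c t))

/-! ## Leaves of part (A) -/

/-- A1: an integral overlattice as `P = Vᵀ Q V` -/
def StmtA1 : Prop := ∀ (n : ℕ) (P : Matrix (Fin n) (Fin n) ℤ) (L : Submodule ℤ (Fin n → ℚ)),
  P.IsSymm → P.det ≠ 0 → Over P L → ∃ Q V : Matrix (Fin n) (Fin n) ℤ, Q.IsSymm ∧ P = Vᵀ * Q * V ∧
    ∀ y : Fin n → ℤ, dual P y ∈ L ↔ ∃ z : Fin n → ℤ, y = Vᵀ *ᵥ (Q *ᵥ z)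

/-- A2: Cauchy-Schwarz and Step 1 -/
def StmtA2 : Prop := ∀ (n l M : ℕ) (P : Matrix (Fin n) (Fin n) ℤ) (L : Submodule ℤ (Fin n → ℚ)),
  0 < n → 0 < M → P.IsSymm → P.det ≠ 0 → Over P L →
  ∀ (p : ℕ) [Fact p.Prime] (Λ X : ℝ) (k d : ℕ), 0 < Λ → 0 ≤ X → k ≤ n →
  Step1.SmallSpec (Step1.toRM P) Λ k → 2 * (1 + ((M * (2 ^ l - 1) : ℕ) : ℝ) ^ 2 * n / Λ) ≤ d →
  ∀ (E : Finset (Fin n)) (a : Fin n → ℤ) (Y : Finset (Fin n → ℤ)),
    (∀ y ∈ Y, (∀ j ∈ E, y j = a j) ∧ (∀ j ∉ E, y j = 0 ∨ y j = 1) ∧ dual P y ∈ L ∧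
      BdQ X (dual P y)) →
  ((Y.card : ℝ) ^ (2 * l * M)) ^ 2 ≤
    (((2 * (n : ℝ) ^ 2 * (((M * (2 ^ l - 1) : ℕ) : ℝ) + 1) * (((M * (2 ^ l - 1) : ℕ) : ℝ) * X) + 2) ^ k) ^ 2 *
      ((Nat.choose (n + d) d : ℝ) * (((((M * (2 ^ l - 1)) / p + 1) ^ n : ℕ) : ℝ) ^ 2 * (p : ℝ) ^ n *
        (Step1.kerCard P p : ℝ)))) *
    (((Fintype.piFinset fun _ : Co l M => Y).filter fun f => ∑ q, cf q • f q = 0).card : ℝ) ^ 2

open Classical in
/-- A3: points of the cube in a translate of `W` -/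
def StmtA3 : Prop := ∀ (α : ℝ) (l M : ℕ), 0 < α → 8 ≤ α * (2 * M : ℕ) →
  ∀ W : Submodule ℚ (Co l M → ℚ), (∀ w ∈ W, ∑ q, (cf q : ℚ) * w q = 0) → ∀ v : Co l M → ℚ,
    (((univ : Finset (Co l M → Bool)).filter fun x => bq x - v ∈ W).card : ℝ) ≤
      (2 : ℝ) ^ (2 * (l : ℝ) * M - l - (1 - α) * (2 * (l : ℝ) * M - Module.finrank ℚ W))

open Classical in
/-- A4 (EXC): the exchange count -/
def StmtA4 : Prop := ∀ (n l M s₁ : ℕ) (τ : Ty n l M) (E : Finset (Fin n)) (a : Fin n → ℤ)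
  (R : τ.I → Fin n) (c : Fin s₁ → τ.I → Bool) (X δ X' N w lb : ℝ)
  (lab : Matrix (Fin n) (Fin n) ℚ → (Fin s₁ → Fin n → ℚ) → Finset (Submodule ℤ (Fin n → ℚ)))
  (Lf : Bits n × (Fin n → Co l M → Bool) → Submodule ℤ (Fin n → ℚ))
  (T : Finset (Bits n × (Fin n → Co l M → Bool))),
  0 < n → 1 ≤ X → 0 < δ → δ ≤ 1 → 0 ≤ N → 1 ≤ w → 0 ≤ lb → τ.Ok → Function.Injective R →
  (∀ i, R i ∉ τ.S ∧ R i ∉ E) → (∀ j, |(a j : ℝ)| ≤ X) →
  n * (1 + τ.I.card * X) ^ 2 * (τ.I.card).factorial * X ^ τ.I.card / δ ≤ X' →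
  (∀ v : Co l M → ℚ, (((univ : Finset (Co l M → Bool)).filter fun x => bq x - v ∈ τ.W).card : ℝ) ≤ w) →
  (∀ M' h, ((lab M' h).card : ℝ) ≤ lb) →
  (∀ bF ∈ T, (matZ bF.1).det ≠ 0 ∧ Over (matZ bF.1) (Lf bF) ∧
    ((cls (matZ bF.1) (Lf bF) τ.I.card X').ncard : ℝ) ≤ N ∧
    (∀ j ∈ E, ∀ q, bF.2 j q = false) ∧ τ.Fits E bF.1 bF.2 ∧
    (∀ q ∈ τ.I, dual (matZ bF.1) (ent E a bF.2 q) ∈ Lf bF ∧
      BdQ X (dual (matZ bF.1) (ent E a bF.2 q))) ∧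
    δ ≤ |((minor R (gs (matZ bF.1) E a bF.2 τ.I) : ℚ) : ℝ)| ∧
    newL (Lf bF) R (gs (matZ bF.1) E a bF.2 τ.I) ∈ lab (newP (matZ bF.1) R (gs (matZ bF.1) E a bF.2 τ.I))
      (fun t => newH (matZ bF.1) R (gs (matZ bF.1) E a bF.2 τ.I) (c t))) →
  (T.card : ℝ) ≤ (2 * (n * X ^ 2) + 1) ^ (τ.I.card ^ 2) *
    2 ^ (Fintype.card (Sym2 (Fin (n - τ.I.card)))) * w ^ (n - τ.I.card) *
    ((2 * (τ.I.card : ℝ) + 1) ^ n) ^ s₁ * lb * N ^ τ.I.card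

/-- A5: main of part (A) -/
def StmtA5 : Prop := StmtG → StmtA2 → StmtA3 → StmtA4 → RichSmall

end Vale.Agent.P160.Half.A
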