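import Vale.Agent.P160.Half.GoodPer

/-! # P160, half rate, block (M): the additivity lemma (note 11334 (3))

`w` is orthogonal to the first `j` columns, `z` to all `k` columns; the excess of the space of the
tuples `w`, the number of the `z` and the structure of `w` multiply. -/

namespace Vale.Agent.P160.Half.Add87

open Finset GoodPer

set_option linter.unusedSectionVars false

variable {Ω ι Γ₁ Γ₂ : Type*} [Fintype Ω] [Fintype ι] [DecidableEq ι]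
  [AddCommGroup Γ₁] [Fintype Γ₁] [AddCommGroup Γ₂] [Fintype Γ₂]

/-- the pair of two tuples as one tuple -/
def pr (w : ι → Γ₁) (z : ι → Γ₂) : ι → Γ₁ × Γ₂ := fun i => (w i, z i)

/-- the first `j` columns -/
def pre {k : ℕ} (j : ℕ) (hj : j ≤ k) (Y : Fin k → ι → Ω) : Fin j → ι → Ω :=
  fun l => Y (Fin.castLE hj l)

theorem pr_orth (e : Ω → ℤ) (w : ι → Γ₁) (z : ι → Γ₂) (y : ι → Ω) :
    ∑ i, e (y i) • pr w z i = 0 ↔ ∑ i, e (y i) • w i = 0 ∧ ∑ i, e (y i) • z i = 0 := by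
  have h1 : ∑ i, e (y i) • pr w z i = (∑ i, e (y i) • w i, ∑ i, e (y i) • z i) := by
    have : ∀ i, e (y i) • pr w z i = (e (y i) • w i, e (y i) • z i) := fun i => rfl
    rw [sum_congr rfl fun i _ => this i]
    exact Prod.ext (by simp [Prod.fst_sum]) (by simp [Prod.snd_sum])
  rw [h1, Prod.mk_eq_zero]

/-- the number of arrays for which the first `j` columns are orthogonal to `w` and all the columns
to `z` -/
theorem card_pair (e : Ω → ℤ) (w : ι → Γ₁) (z : ι → Γ₂) {k j : ℕ} (hj : j ≤ k) :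
    Nat.card {Y : Fin k → ι → Ω // w ∈ KK Γ₁ e (pre j hj Y) ∧ z ∈ KK Γ₂ e Y} =
      orth e (pr w z) ^ j * orth e z ^ (k - j) := by
  classical
  have h1 : Nat.card {Y : Fin k → ι → Ω // w ∈ KK Γ₁ e (pre j hj Y) ∧ z ∈ KK Γ₂ e Y} =
      Nat.card {Y : Fin k → ι → Ω // ∀ l : Fin k, ((l : ℕ) < j → ∑ i, e (Y l i) • w i = 0) ∧
        ∑ i, e (Y l i) • z i = 0} := by
    refine Nat.card_congr (Equiv.subtypeEquivRight fun Y => ?_)
    constructor
    · rintro ⟨h, h'⟩ l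
      refine ⟨fun hl => ?_, h' l⟩
      exact h ⟨l, hl⟩
    · intro h
      exact ⟨fun l => (h (Fin.castLE hj l)).1 (by simp), fun l => (h l).2⟩
  rw [h1, Nat.card_congr (Equiv.subtypePiEquivPi (p := fun (l : Fin k) (y : ι → Ω) =>
    ((l : ℕ) < j → ∑ i, e (y i) • w i = 0) ∧ ∑ i, e (y i) • z i = 0)), Nat.card_pi]
  have h2 : ∀ l : Fin k, Nat.card {y : ι → Ω // ((l : ℕ) < j → ∑ i, e (y i) • w i = 0) ∧
      ∑ i, e (y i) • z i = 0} = if (l : ℕ) < j then orth e (pr w z) else orth e z := by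
    intro l
    split_ifs with hl
    · refine Nat.card_congr (Equiv.subtypeEquivRight fun y => ?_)
      rw [pr_orth]
      exact ⟨fun h => ⟨h.1 hl, h.2⟩, fun h => ⟨fun _ => h.1, h.2⟩⟩
    · refine Nat.card_congr (Equiv.subtypeEquivRight fun y => ?_)
      exact ⟨fun h => h.2, fun h => ⟨fun h' => absurd h' hl, h⟩⟩
  rw [prod_congr rfl fun l _ => h2 l,
    Fin.prod_univ_eq_prod_range (fun l => if l < j then orth e (pr w z) else orth e z) k]
  have h3 : k = j + (k - j) := (Nat.add_sub_cancel' hj).symm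
  conv_lhs => rw [h3]
  rw [prod_range_add, prod_congr rfl (g := fun _ => orth e (pr w z)) (fun l hl => by
    rw [if_pos (mem_range.1 hl)]), prod_congr rfl (g := fun _ => orth e z) (s₂ := range (k - j))
      (fun l _ => by rw [if_neg (by omega)])]
  simp

theorem rho_pair (f : Ω → ℤ) (w : ι → Γ₁) (z : ι → Γ₂) :
    rho (dif f) z ≤ (Fintype.card Γ₁ : ℝ) * rho (dif f) (pr w z) := by
  have h := rho_proj f (pr w z) (AddMonoidHom.snd Γ₁ Γ₂) Prod.snd_surjective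
  have h0 : (0 : ℝ) < Fintype.card Γ₂ := by exact_mod_cast Fintype.card_pos
  have h1 : (fun i => (AddMonoidHom.snd Γ₁ Γ₂) (pr w z i)) = z := rfl
  rw [h1, Fintype.card_prod] at h
  push_cast at h
  have h2 : (Fintype.card Γ₂ : ℝ) * rho (dif f) z ≤
      Fintype.card Γ₂ * (Fintype.card Γ₁ * rho (dif f) (pr w z)) := by
    refine h.trans (le_of_eq (by ring))
  exact le_of_mul_le_mul_left h2 h0

open Classical in
/-- **First moment of pairs.** -/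
theorem add_markov (f : Ω → ℤ) [Nonempty Ω] {k j : ℕ} (hj : j ≤ k)
    (N : Finset ((ι → Γ₁) × (ι → Γ₂))) (L : ℝ)
    (T : Finset (Fin k → ι → Ω × Ω))
    (hT : ∀ Y ∈ T, L ≤ ((N.filter fun x => x.1 ∈ KK Γ₁ (dif f) (pre j hj Y) ∧
      x.2 ∈ KK Γ₂ (dif f) Y).card : ℝ)) :
    (T.card : ℝ) * L ≤ (Fintype.card Γ₁ : ℝ) ^ (k - j) *
      (∑ x ∈ N, rho (dif f) (pr x.1 x.2) ^ k) *
        ((Fintype.card (Ω × Ω) : ℝ) ^ Fintype.card ι) ^ k := by
  set G : ℝ := (Fintype.card Γ₁ : ℝ) with hG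
  set D : ℝ := (Fintype.card (Ω × Ω) : ℝ) ^ Fintype.card ι with hD
  have hΩ : (0 : ℝ) < Fintype.card (Ω × Ω) := by exact_mod_cast Fintype.card_pos
  have hDpos : 0 < D := by positivity
  have hG0 : 0 ≤ G := by positivity
  have h1 : (T.card : ℝ) * L ≤ ∑ Y ∈ T, ((N.filter fun x =>
      x.1 ∈ KK Γ₁ (dif f) (pre j hj Y) ∧ x.2 ∈ KK Γ₂ (dif f) Y).card : ℝ) := by
    rw [← nsmul_eq_mul]
    exact card_nsmul_le_sum _ _ _ hT
  have h2 : ∑ Y ∈ T, ((N.filter fun x =>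
      x.1 ∈ KK Γ₁ (dif f) (pre j hj Y) ∧ x.2 ∈ KK Γ₂ (dif f) Y).card : ℝ) ≤
      ∑ Y : Fin k → ι → Ω × Ω, ((N.filter fun x =>
      x.1 ∈ KK Γ₁ (dif f) (pre j hj Y) ∧ x.2 ∈ KK Γ₂ (dif f) Y).card : ℝ) :=
    sum_le_sum_of_subset_of_nonneg (subset_univ _) fun _ _ _ => by positivity
  have h3 : ∑ Y : Fin k → ι → Ω × Ω, ((N.filter fun x =>
      x.1 ∈ KK Γ₁ (dif f) (pre j hj Y) ∧ x.2 ∈ KK Γ₂ (dif f) Y).card : ℝ) =
      ∑ x ∈ N, (orth (dif f) (pr x.1 x.2) : ℝ) ^ j * (orth (dif f) x.2 : ℝ) ^ (k - j) := by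
    have h4 : ∀ Y : Fin k → ι → Ω × Ω, ((N.filter fun x =>
        x.1 ∈ KK Γ₁ (dif f) (pre j hj Y) ∧ x.2 ∈ KK Γ₂ (dif f) Y).card : ℝ) =
        ∑ x ∈ N, if x.1 ∈ KK Γ₁ (dif f) (pre j hj Y) ∧ x.2 ∈ KK Γ₂ (dif f) Y
          then (1 : ℝ) else 0 := fun Y => by rw [sum_boole]
    rw [sum_congr rfl fun Y _ => h4 Y, sum_comm]
    refine sum_congr rfl fun x _ => ?_
    rw [sum_boole, ← Fintype.card_subtype, ← Nat.card_eq_fintype_card, card_pair]
    push_cast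
    rfl
  refine h1.trans (h2.trans (h3.le.trans ?_))
  have h5 : ∀ x : (ι → Γ₁) × (ι → Γ₂),
      (orth (dif f) (pr x.1 x.2) : ℝ) ^ j * (orth (dif f) x.2 : ℝ) ^ (k - j) ≤
        G ^ (k - j) * rho (dif f) (pr x.1 x.2) ^ k * D ^ k := by
    intro x
    have e1 : (orth (dif f) (pr x.1 x.2) : ℝ) = rho (dif f) (pr x.1 x.2) * D := by
      unfold rho
      rw [div_mul_cancel₀ _ (ne_of_gt hDpos)]
    have e2 : (orth (dif f) x.2 : ℝ) = rho (dif f) x.2 * D := by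
      unfold rho
      rw [div_mul_cancel₀ _ (ne_of_gt hDpos)]
    have hr := rho_nonneg (dif f) (pr x.1 x.2)
    have hr2 := rho_nonneg (dif f) x.2
    rw [e1, e2]
    have e3 : (rho (dif f) x.2 * D) ^ (k - j) ≤ (G * rho (dif f) (pr x.1 x.2) * D) ^ (k - j) :=
      pow_le_pow_left₀ (by positivity)
        (mul_le_mul_of_nonneg_right (rho_pair f x.1 x.2) hDpos.le) _
    have e4 : k = j + (k - j) := (Nat.add_sub_cancel' hj).symm
    calc (rho (dif f) (pr x.1 x.2) * D) ^ j * (rho (dif f) x.2 * D) ^ (k - j) ≤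
        (rho (dif f) (pr x.1 x.2) * D) ^ j * (G * rho (dif f) (pr x.1 x.2) * D) ^ (k - j) :=
          mul_le_mul_of_nonneg_left e3 (by positivity)
      _ = G ^ (k - j) * (rho (dif f) (pr x.1 x.2) ^ (j + (k - j))) * D ^ (j + (k - j)) := by
          rw [mul_pow, mul_pow, mul_pow, pow_add, pow_add]; ring
      _ = _ := by rw [← e4]
  refine (sum_le_sum fun x _ => h5 x).trans (le_of_eq ?_)
  rw [← sum_mul, ← mul_sum]

open Classical in
/-- **Additivity lemma** (note 11334 (3)).  Arrays `Y` of `k = card ι` columns such that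
* the space of the tuples over `Γ₁` orthogonal to the first `j` columns has at least
  `E₁ |Γ₁| ^ (k - j)` elements, half of them in `N₁`,
* at least `E₂` elements of `N₂` are orthogonal to all the columns,

have density at most `2 / (E₁ E₂) ∑_{N₁ × N₂} ρ ^ k`. -/
theorem additivity (f : Ω → ℤ) [Nonempty Ω] {k j : ℕ} (hj : j ≤ k)
    (N₁ : Finset (ι → Γ₁)) (N₂ : Finset (ι → Γ₂)) (E₁ E₂ : ℝ) (hE₁ : 0 < E₁) (hE₂ : 0 < E₂) :
    (Nat.card {Y : Fin k → ι → Ω × Ω //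
      E₁ * (Fintype.card Γ₁ : ℝ) ^ (k - j) ≤ (Nat.card (KK Γ₁ (dif f) (pre j hj Y)) : ℝ) ∧
      Nat.card (KK Γ₁ (dif f) (pre j hj Y)) ≤
        2 * (N₁.filter fun w => w ∈ KK Γ₁ (dif f) (pre j hj Y)).card ∧
      E₂ ≤ ((N₂.filter fun z => z ∈ KK Γ₂ (dif f) Y).card : ℝ)} : ℝ) ≤
      2 / (E₁ * E₂) * (∑ x ∈ N₁ ×ˢ N₂, rho (dif f) (pr x.1 x.2) ^ k) *
        ((Fintype.card (Ω × Ω) : ℝ) ^ Fintype.card ι) ^ k := by
  have hG : (0 : ℝ) < Fintype.card Γ₁ := by exact_mod_cast Fintype.card_pos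
  set G : ℝ := (Fintype.card Γ₁ : ℝ) with hGd
  set T : Finset (Fin k → ι → Ω × Ω) := univ.filter fun Y =>
      E₁ * G ^ (k - j) ≤ (Nat.card (KK Γ₁ (dif f) (pre j hj Y)) : ℝ) ∧
      Nat.card (KK Γ₁ (dif f) (pre j hj Y)) ≤
        2 * (N₁.filter fun w => w ∈ KK Γ₁ (dif f) (pre j hj Y)).card ∧
      E₂ ≤ ((N₂.filter fun z => z ∈ KK Γ₂ (dif f) Y).card : ℝ) with hTd
  have h0 := add_markov (Γ₁ := Γ₁) (Γ₂ := Γ₂) f hj (N₁ ×ˢ N₂) (E₁ * G ^ (k - j) / 2 * E₂) T ?_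
  · have h1 : (Nat.card {Y : Fin k → ι → Ω × Ω //
      E₁ * G ^ (k - j) ≤ (Nat.card (KK Γ₁ (dif f) (pre j hj Y)) : ℝ) ∧
      Nat.card (KK Γ₁ (dif f) (pre j hj Y)) ≤
        2 * (N₁.filter fun w => w ∈ KK Γ₁ (dif f) (pre j hj Y)).card ∧
      E₂ ≤ ((N₂.filter fun z => z ∈ KK Γ₂ (dif f) Y).card : ℝ)} : ℝ) = (T.card : ℝ) := by
      rw [Nat.card_eq_fintype_card, Fintype.card_subtype]
    rw [h1]
    have h2 : (0 : ℝ) < G ^ (k - j) := by positivity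
    have h3 : (T.card : ℝ) * (E₁ * G ^ (k - j) / 2 * E₂) =
        G ^ (k - j) * ((T.card : ℝ) * (E₁ * E₂ / 2)) := by ring
    rw [h3, mul_assoc] at h0
    have h4 := le_of_mul_le_mul_left h0 h2
    have h5 : (0 : ℝ) < E₁ * E₂ / 2 := by positivity
    have h6 : (T.card : ℝ) ≤ ((∑ x ∈ N₁ ×ˢ N₂, rho (dif f) (pr x.1 x.2) ^ k) *
        ((Fintype.card (Ω × Ω) : ℝ) ^ Fintype.card ι) ^ k) / (E₁ * E₂ / 2) := by
      rw [le_div_iff₀ h5]; exact h4
    refine h6.trans (le_of_eq ?_)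
    field_simp
  · intro Y hY
    rw [hTd, mem_filter] at hY
    obtain ⟨-, hY1, hY2, hY3⟩ := hY
    have h1 : ((N₁ ×ˢ N₂).filter fun x => x.1 ∈ KK Γ₁ (dif f) (pre j hj Y) ∧
        x.2 ∈ KK Γ₂ (dif f) Y) = (N₁.filter fun w => w ∈ KK Γ₁ (dif f) (pre j hj Y)) ×ˢ
          (N₂.filter fun z => z ∈ KK Γ₂ (dif f) Y) := by
      ext x
      simp only [mem_filter, mem_product]
      tauto
    rw [h1, card_product]
    push_cast
    have h2 : (Nat.card (KK Γ₁ (dif f) (pre j hj Y)) : ℝ) ≤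
        2 * ((N₁.filter fun w => w ∈ KK Γ₁ (dif f) (pre j hj Y)).card : ℝ) := by
      exact_mod_cast hY2
    have h3 : E₁ * G ^ (k - j) / 2 ≤
        ((N₁.filter fun w => w ∈ KK Γ₁ (dif f) (pre j hj Y)).card : ℝ) := by linarith
    exact mul_le_mul h3 hY3 hE₂.le (by positivity)

end Vale.Agent.P160.Half.Add87
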