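import Vale.Agent.P160.Half.LOMin

/-!
# P160: the Hadamard weight bound ((H) of note 11096)

For an integer matrix `Y` with entries bounded by `K` and a finite set `B` of primes, the product
of the `p ^ (rank_ℚ Y - rank_p Y)` divides a nonzero minor of size `r = rank_ℚ Y`; so its square
is at most `(K ^ 2 * r) ^ r`.
-/

namespace Vale.Agent.P160.Half.HadW136

open Finset Matrix Vale.Agent.P160.Half.LOMin

section Main

variable {ι κ : Type*} [Fintype ι] [Fintype κ] [DecidableEq ι] [DecidableEq κ]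

/-- the rank modulo a prime is at most the rational rank -/
theorem rank_le_rank_rat (Y : Matrix ι κ ℤ) {p : ℕ} (hp : p.Prime) :
    (Y.map (Int.cast : ℤ → ZMod p)).rank ≤ (Y.map (Int.cast : ℤ → ℚ)).rank := by
  classical
  have := Fact.mk hp
  obtain ⟨r, a, b, hr, hdet⟩ := exists_minor (Y.map (Int.cast : ℤ → ZMod p))
  rw [← hr]
  have h1 : ((Y.submatrix a b).map (Int.cast : ℤ → ℚ)).det ≠ 0 := by
    intro h0
    apply hdet
    have h2 := (Int.castRingHom ℚ).map_det (Y.submatrix a b)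
    have h3 : ((Y.submatrix a b).det : ℚ) = 0 := by
      rw [← h0]; exact h2
    have h4 : (Y.submatrix a b).det = 0 := by exact_mod_cast h3
    have h5 := (Int.castRingHom (ZMod p)).map_det (Y.submatrix a b)
    rw [h4, map_zero] at h5
    exact h5.symm
  have h6 : ((Y.submatrix a b).map (Int.cast : ℤ → ℚ)).rank = r := by
    rw [Matrix.rank_of_isUnit _ ((isUnit_iff_isUnit_det _).2 (isUnit_iff_ne_zero.2 h1)),
      Fintype.card_fin]
  rw [← h6]
  exact rank_submatrix_le (Y.map (Int.cast : ℤ → ℚ)) a b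

/-- **Hadamard weight**: excess form. -/
theorem hadW (Y : Matrix ι κ ℤ) (K : ℕ) (hY : ∀ i l, |Y i l| ≤ (K : ℤ)) (B : Finset ℕ)
    (hB : ∀ p ∈ B, p.Prime) (e : ℕ → ℕ)
    (he : ∀ p ∈ B, (Y.map (Int.cast : ℤ → ZMod p)).rank + e p ≤
      (Y.map (Int.cast : ℤ → ℚ)).rank) :
    (∏ p ∈ B, p ^ e p) ^ 2 ≤
      (K ^ 2 * (Y.map (Int.cast : ℤ → ℚ)).rank) ^ (Y.map (Int.cast : ℤ → ℚ)).rank := by
  classical
  obtain ⟨r, a, b, hr, hdet⟩ := exists_minor (Y.map (Int.cast : ℤ → ℚ))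
  rw [← hr]
  have hdet' : (Y.submatrix a b).det ≠ 0 := by
    intro h0
    apply hdet
    have h1 := (Int.castRingHom ℚ).map_det (Y.submatrix a b)
    rw [h0, map_zero] at h1
    exact h1.symm
  have hdvd : ((∏ p ∈ B, p ^ e p : ℕ) : ℤ) ∣ (Y.submatrix a b).det := by
    rw [Nat.cast_prod]
    refine Finset.prod_dvd_of_coprime ?_ ?_
    · intro p hp q hq hpq
      show IsCoprime ((p ^ e p : ℕ) : ℤ) ((q ^ e q : ℕ) : ℤ)
      rw [Nat.isCoprime_iff_coprime]
      exact Nat.Coprime.pow _ _ ((Nat.coprime_primes (hB p hp) (hB q hq)).2 hpq)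
    · intro p hp
      have h1 := pow_dvd_det (hB p hp) (Y.submatrix a b)
      rw [Nat.cast_pow]
      refine (pow_dvd_pow _ ?_).trans h1
      rw [Fintype.card_fin]
      have h2 : ((Y.submatrix a b).map (Int.cast : ℤ → ZMod p)).rank ≤
          (Y.map (Int.cast : ℤ → ZMod p)).rank := by
        have := Fact.mk (hB p hp)
        exact rank_submatrix_le (Y.map (Int.cast : ℤ → ZMod p)) a b
      have h3 := he p hp
      omega
  have hle : ((∏ p ∈ B, p ^ e p : ℕ) : ℤ) ^ 2 ≤ (Y.submatrix a b).det ^ 2 :=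
    Int.le_of_dvd (by positivity : (0 : ℤ) < (Y.submatrix a b).det ^ 2)
      (pow_dvd_pow_of_dvd hdvd 2)
  have hhad := hadamard (Y.submatrix a b) K (fun i j => hY _ _)
  exact_mod_cast hle.trans hhad

/-- **Hadamard weight**: the number of kernel vectors modulo the product of the primes of `B`,
of a square matrix of size `k` with entries bounded by `K`, satisfies
`(∏ p ^ corank_p) ^ 2 ≤ (∏ p) ^ (2 corank_ℚ) * (K ^ 2 * k) ^ k`. -/
theorem hadW_sq (Y : Matrix ι κ ℤ) (K : ℕ) (hK : 1 ≤ K) (hY : ∀ i l, |Y i l| ≤ (K : ℤ))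
    (B : Finset ℕ) (hB : ∀ p ∈ B, p.Prime) :
    (∏ p ∈ B, p ^ (Fintype.card ι - (Y.map (Int.cast : ℤ → ZMod p)).rank)) ^ 2 ≤
      (∏ p ∈ B, p) ^ (2 * (Fintype.card ι - (Y.map (Int.cast : ℤ → ℚ)).rank)) *
        (K ^ 2 * Fintype.card ι) ^ Fintype.card ι := by
  classical
  have hrk : (Y.map (Int.cast : ℤ → ℚ)).rank ≤ Fintype.card ι :=
    Matrix.rank_le_card_height _
  have h1 := hadW Y K hY B hB
    (fun p => (Y.map (Int.cast : ℤ → ℚ)).rank - (Y.map (Int.cast : ℤ → ZMod p)).rank)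
    (fun p hp => by
      have := rank_le_rank_rat Y (hB p hp)
      omega)
  have h2 : (∏ p ∈ B, p ^ (Fintype.card ι - (Y.map (Int.cast : ℤ → ZMod p)).rank)) =
      (∏ p ∈ B, p) ^ (Fintype.card ι - (Y.map (Int.cast : ℤ → ℚ)).rank) *
      ∏ p ∈ B, p ^ ((Y.map (Int.cast : ℤ → ℚ)).rank - (Y.map (Int.cast : ℤ → ZMod p)).rank) := by
    rw [← Finset.prod_pow, ← Finset.prod_mul_distrib]
    refine Finset.prod_congr rfl fun p hp => ?_
    rw [← pow_add]
    congr 1
    have := rank_le_rank_rat Y (hB p hp)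
    omega
  rw [h2, mul_pow, ← pow_mul, mul_comm (Fintype.card ι - _) 2]
  refine Nat.mul_le_mul_left _ (h1.trans ?_)
  rcases Nat.eq_zero_or_pos (Fintype.card ι) with h0 | hpos
  · have : (Y.map (Int.cast : ℤ → ℚ)).rank = 0 := by omega
    rw [this, h0]
  · have hb : 1 ≤ K ^ 2 * Fintype.card ι := Nat.one_le_iff_ne_zero.2 (by positivity)
    calc (K ^ 2 * (Y.map (Int.cast : ℤ → ℚ)).rank) ^ (Y.map (Int.cast : ℤ → ℚ)).rank
        ≤ (K ^ 2 * Fintype.card ι) ^ (Y.map (Int.cast : ℤ → ℚ)).rank := by gcongr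
      _ ≤ (K ^ 2 * Fintype.card ι) ^ Fintype.card ι := Nat.pow_le_pow_right hb hrk

end Main

end Vale.Agent.P160.Half.HadW136
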