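import Vale.Agent.P160.Half.Add87
import Vale.Agent.P160.Half.HadW136

/-! # P160, half rate, block (M): the additivity lemma in terms of ranks (note 11334 (3)) -/

namespace Vale.Agent.P160.Half.Add87

open Finset GoodPer Matrix

set_option linter.unusedSectionVars false

variable {Ω ι : Type*} [Fintype Ω] [Fintype ι] [DecidableEq ι]

/-- the integer matrix with the columns `Y` -/
def mx (e : Ω → ℤ) {j : ℕ} (Y : Fin j → ι → Ω) : Matrix ι (Fin j) ℤ :=
  Matrix.of fun i l => e (Y l i)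

theorem mem_KK_zmod (e : Ω → ℤ) {j : ℕ} (Y : Fin j → ι → Ω) (p : ℕ) (w : ι → ZMod p) :
    w ∈ KK (ZMod p) e Y ↔ w ∈ LOMin.lker (mx e Y) p := by
  have h : ∀ l, (w ᵥ* (mx e Y).map (Int.cast : ℤ → ZMod p)) l = ∑ i, e (Y l i) • w i := by
    intro l
    simp only [vecMul, dotProduct, map_apply, mx, Matrix.of_apply, zsmul_eq_mul]
    exact sum_congr rfl fun i _ => mul_comm _ _
  constructor
  · intro hw
    show w ᵥ* (mx e Y).map (Int.cast : ℤ → ZMod p) = 0
    funext l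
    rw [h l]
    exact hw l
  · intro hw l
    rw [← h l]
    exact congrFun hw l

/-- the number of vectors modulo `p` orthogonal to the columns -/
theorem card_KK_prime (e : Ω → ℤ) {j : ℕ} (Y : Fin j → ι → Ω) {p : ℕ} [Fact p.Prime] :
    Nat.card (KK (ZMod p) e Y) =
      p ^ (Fintype.card ι - LOMin.rk (mx e Y) (ZMod p)) := by
  have h1 : Nat.card (KK (ZMod p) e Y) =
      Nat.card (LinearMap.ker ((mx e Y).map (Int.cast : ℤ → ZMod p)).vecMulLinear) := by
    refine Nat.card_congr (Equiv.subtypeEquivRight fun w => ?_)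
    rw [mem_KK_zmod]
    rfl
  have h2 := LOMin.finrank_lker ((mx e Y).map (Int.cast : ℤ → ZMod p))
  rw [h1, Module.natCard_eq_pow_finrank (K := ZMod p), Nat.card_zmod]
  congr 1
  unfold LOMin.rk
  omega

/-- tuples over a product group -/
theorem card_KK_pi {I : Type*} [Fintype I] {G : I → Type*} [∀ i, AddCommGroup (G i)]
    (e : Ω → ℤ) {j : ℕ} (Y : Fin j → ι → Ω) :
    Nat.card (KK (∀ i, G i) e Y) = ∏ i, Nat.card (KK (G i) e Y) := by
  rw [← Nat.card_pi]
  refine Nat.card_congr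
    { toFun := fun w i => ⟨fun a => w.1 a i, ?_⟩
      invFun := fun w => ⟨fun a i => (w i).1 a, ?_⟩
      left_inv := fun _ => rfl
      right_inv := fun _ => rfl }
  · intro l
    have h := congrFun (w.2 l) i
    simpa [Finset.sum_apply] using h
  · intro l
    funext i
    have h := (w i).2 l
    simpa [Finset.sum_apply] using h

/-- tuples of tuples -/
theorem card_KK_gam {I : Type*} [Fintype I] (p r : I → ℕ) [∀ i, Fact (p i).Prime]
    (e : Ω → ℤ) {j : ℕ} (Y : Fin j → ι → Ω) :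
    Nat.card (KK (∀ i, Fin (r i) → ZMod (p i)) e Y) =
      ∏ i, (p i ^ (Fintype.card ι - LOMin.rk (mx e Y) (ZMod (p i)))) ^ r i := by
  rw [card_KK_pi]
  refine prod_congr rfl fun i _ => ?_
  rw [card_KK_pi (G := fun _ : Fin (r i) => ZMod (p i)), prod_const, card_KK_prime,
    Finset.card_univ, Fintype.card_fin]

/-- lower bound in terms of the excesses `ex i` -/
theorem card_KK_gam_ge {I : Type*} [Fintype I] [DecidableEq I] (p r : I → ℕ) [∀ i, Fact (p i).Prime]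
    (e : Ω → ℤ) {k j : ℕ} (hk : Fintype.card ι = k) (hj : j ≤ k) (Y : Fin j → ι → Ω)
    (ex : I → ℕ) (hex : ∀ i, LOMin.rk (mx e Y) (ZMod (p i)) + ex i ≤ j) :
    (∏ i, p i ^ (r i * ex i)) * (Fintype.card (∀ i, Fin (r i) → ZMod (p i))) ^ (k - j) ≤
      Nat.card (KK (∀ i, Fin (r i) → ZMod (p i)) e Y) := by
  rw [card_KK_gam]
  have h1 : Fintype.card (∀ i, Fin (r i) → ZMod (p i)) = ∏ i, p i ^ r i := by
    rw [Fintype.card_pi]
    refine prod_congr rfl fun i _ => ?_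
    rw [Fintype.card_fun, ZMod.card, Fintype.card_fin]
  rw [h1, ← prod_pow, ← prod_mul_distrib]
  refine prod_le_prod' fun i _ => ?_
  have hp : 1 ≤ p i := (Fact.out : (p i).Prime).one_lt.le
  have h2 := hex i
  rw [← pow_mul, ← pow_add, ← pow_mul]
  refine Nat.pow_le_pow_right hp ?_
  rw [hk]
  have h3 : ex i + (k - j) ≤ k - LOMin.rk (mx e Y) (ZMod (p i)) := by omega
  calc r i * ex i + r i * (k - j) = (ex i + (k - j)) * r i := by ring
    _ ≤ _ := Nat.mul_le_mul_right _ h3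

/-- number of the vectors modulo `∏ q` with nonzero components orthogonal to all the columns -/
theorem card_full {J : Type*} [Fintype J] (q : J → ℕ) [∀ i, Fact (q i).Prime]
    (e : Ω → ℤ) {k : ℕ} (Y : Fin k → ι → Ω) :
    Nat.card {z : ι → ∀ i, ZMod (q i) // z ∈ KK (∀ i, ZMod (q i)) e Y ∧
      ∀ i, (fun a => z a i) ≠ 0} =
      ∏ i, (q i ^ (Fintype.card ι - LOMin.rk (mx e Y) (ZMod (q i))) - 1) := by
  classical
  have h1 : Nat.card {z : ι → ∀ i, ZMod (q i) // z ∈ KK (∀ i, ZMod (q i)) e Y ∧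
      ∀ i, (fun a => z a i) ≠ 0} =
      Nat.card (∀ i, {u : ι → ZMod (q i) // u ∈ KK (ZMod (q i)) e Y ∧ u ≠ 0}) := by
    refine Nat.card_congr
      { toFun := fun w i => ⟨fun a => w.1 a i, ?_, w.2.2 i⟩
        invFun := fun w => ⟨fun a i => (w i).1 a, ?_, fun i => (w i).2.2⟩
        left_inv := fun _ => rfl
        right_inv := fun _ => rfl }
    · intro l
      have h := congrFun (w.2.1 l) i
      simpa [Finset.sum_apply] using h
    · intro l
      funext i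
      have h := (w i).2.1 l
      simpa [Finset.sum_apply] using h
  rw [h1, Nat.card_pi]
  refine prod_congr rfl fun i _ => ?_
  rw [← card_KK_prime e Y]
  have h2 : (0 : ι → ZMod (q i)) ∈ KK (ZMod (q i)) e Y := by
    intro l; simp
  have h3 : Nat.card {u : ι → ZMod (q i) // u ∈ KK (ZMod (q i)) e Y ∧ u ≠ 0} =
      (KK (ZMod (q i)) e Y \ {0}).ncard := by
    rw [← Nat.card_coe_set_eq]
    rfl
  rw [h3, Set.ncard_sdiff_singleton_of_mem h2, ← Nat.card_coe_set_eq]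

theorem one_sub_sum_le {J : Type*} (s : Finset J) (f : J → ℝ) (h0 : ∀ i ∈ s, 0 ≤ f i)
    (h1 : ∀ i ∈ s, f i ≤ 1) : 1 - ∑ i ∈ s, f i ≤ ∏ i ∈ s, (1 - f i) := by
  classical
  induction s using Finset.induction_on with
  | empty => simp
  | insert a s ha ih =>
      rw [sum_insert ha, prod_insert ha]
      have h2 := ih (fun i hi => h0 i (mem_insert_of_mem hi)) fun i hi => h1 i (mem_insert_of_mem hi)
      have h3 := h0 a (mem_insert_self a s)
      have h4 := h1 a (mem_insert_self a s)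
      have h5 : 0 ≤ ∑ i ∈ s, f i := sum_nonneg fun i hi => h0 i (mem_insert_of_mem hi)
      have h6 : (1 - f a) * (1 - ∑ i ∈ s, f i) ≤ (1 - f a) * ∏ i ∈ s, (1 - f i) :=
        mul_le_mul_of_nonneg_left h2 (by linarith)
      nlinarith [mul_nonneg h3 h5]

/-- lower bound for the number of the rational kernel vectors modulo `∏ q` -/
theorem card_full_ge {J : Type*} [Fintype J] (q : J → ℕ) [∀ i, Fact (q i).Prime]
    (e : Ω → ℤ) {k : ℕ} (hk : Fintype.card ι = k) (Y : Fin k → ι → Ω) (r : ℕ) (hr : 1 ≤ r)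
    (hrk : LOMin.rk (mx e Y) ℚ + r ≤ k) (hq : ∑ i, (1 : ℝ) / q i ≤ 1 / 2) :
    (∏ i, (q i : ℝ)) ^ r / 2 ≤ (Nat.card {z : ι → ∀ i, ZMod (q i) //
      z ∈ KK (∀ i, ZMod (q i)) e Y ∧ ∀ i, (fun a => z a i) ≠ 0} : ℝ) := by
  rw [card_full]
  have hone : ∀ i, 1 < q i := fun i => (Fact.out : (q i).Prime).one_lt
  have h1 : ∀ i, (q i : ℝ) ^ r * (1 - 1 / q i) ≤
      ((q i ^ (Fintype.card ι - LOMin.rk (mx e Y) (ZMod (q i))) - 1 : ℕ) : ℝ) := by
    intro i
    have h2 : LOMin.rk (mx e Y) (ZMod (q i)) ≤ LOMin.rk (mx e Y) ℚ :=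
      HadW136.rank_le_rank_rat (mx e Y) (Fact.out : (q i).Prime)
    have h3 : r ≤ Fintype.card ι - LOMin.rk (mx e Y) (ZMod (q i)) := by omega
    set c := Fintype.card ι - LOMin.rk (mx e Y) (ZMod (q i)) with hc
    have hq0 : (0 : ℝ) < q i := by exact_mod_cast (hone i).le.trans_lt' Nat.zero_lt_one |>.trans_le le_rfl
    have hq1 : (1 : ℝ) ≤ q i := by exact_mod_cast (hone i).le
    have h4 : (1 : ℕ) ≤ q i ^ c := Nat.one_le_pow _ _ (by have := hone i; omega)
    rw [Nat.cast_sub h4]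
    push_cast
    have h5 : (q i : ℝ) ^ r ≤ (q i : ℝ) ^ c := pow_le_pow_right₀ hq1 h3
    have h6 : (1 : ℝ) ≤ (q i : ℝ) ^ r / q i := by
      rw [le_div_iff₀ hq0, one_mul]
      calc (q i : ℝ) = (q i : ℝ) ^ 1 := (pow_one _).symm
        _ ≤ _ := pow_le_pow_right₀ hq1 hr
    have h7 : (q i : ℝ) ^ r * (1 - 1 / q i) = (q i : ℝ) ^ r - (q i : ℝ) ^ r / q i := by
      field_simp
    rw [h7]
    linarith
  push_cast
  have h8 : ∏ i, ((q i : ℝ) ^ r * (1 - 1 / q i)) ≤ ∏ i,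
      ((q i ^ (Fintype.card ι - LOMin.rk (mx e Y) (ZMod (q i))) - 1 : ℕ) : ℝ) := by
    refine prod_le_prod (fun i _ => ?_) fun i _ => h1 i
    have hq1 : (1 : ℝ) ≤ q i := by exact_mod_cast (hone i).le
    have : (1 : ℝ) / q i ≤ 1 := by
      rw [div_le_one (by linarith)]; exact hq1
    exact mul_nonneg (by positivity) (by linarith)
  refine le_trans ?_ h8
  rw [prod_mul_distrib, prod_pow]
  have h9 : (1 : ℝ) / 2 ≤ ∏ i, (1 - 1 / (q i : ℝ)) := by
    have h10 : 1 - ∑ i, (1 : ℝ) / q i ≤ ∏ i, (1 - 1 / (q i : ℝ)) := by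
      refine one_sub_sum_le univ (fun i => (1 : ℝ) / q i) (fun i _ => by positivity) ?_
      · intro i _
        have hq1 : (1 : ℝ) ≤ q i := by exact_mod_cast (hone i).le
        rw [div_le_one (by linarith)]; exact hq1
    linarith
  have h11 : (0 : ℝ) ≤ (∏ i, (q i : ℝ)) ^ r := by positivity
  calc (∏ i, (q i : ℝ)) ^ r / 2 = (∏ i, (q i : ℝ)) ^ r * (1 / 2) := by ring
    _ ≤ _ := mul_le_mul_of_nonneg_left h9 h11

open Classical in
/-- **Additivity lemma, in terms of ranks** (note 11334 (3)).  `p i` the primes of the tuples, `ex i`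
their excesses (or lower bounds for them) after the first `j` columns, `c ≥ 1` a lower bound for
the rational corank, `q i` other primes.  On the event at least half of the tuples orthogonal
to the first `j` columns are in `N₁` (structured) and all the vectors modulo `∏ q` with nonzero
components orthogonal to all the columns are in `N₂` (nonsparse). -/
theorem bad_profile {I J : Type*} [Fintype I] [DecidableEq I] [Fintype J] [DecidableEq J]
    (p r : I → ℕ) [∀ i, Fact (p i).Prime] (q : J → ℕ) [∀ i, Fact (q i).Prime]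
    (f : Ω → ℤ) [Nonempty Ω] {k j : ℕ} (hk : Fintype.card ι = k) (hj : j ≤ k) (ex : I → ℕ)
    (c : ℕ) (hc : 1 ≤ c) (hq : ∑ i, (1 : ℝ) / q i ≤ 1 / 2)
    (N₁ : Finset (ι → ∀ i, Fin (r i) → ZMod (p i))) (N₂ : Finset (ι → ∀ i, ZMod (q i))) :
    (Nat.card {Y : Fin k → ι → Ω × Ω //
      (∀ i, LOMin.rk (mx (dif f) (pre j hj Y)) (ZMod (p i)) + ex i ≤ j) ∧
      LOMin.rk (mx (dif f) Y) ℚ + c ≤ k ∧
      Nat.card (KK (∀ i, Fin (r i) → ZMod (p i)) (dif f) (pre j hj Y)) ≤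
        2 * (N₁.filter fun w => w ∈ KK _ (dif f) (pre j hj Y)).card ∧
      ∀ z ∈ KK (∀ i, ZMod (q i)) (dif f) Y, (∀ i, (fun a => z a i) ≠ 0) → z ∈ N₂} : ℝ) ≤
      4 / ((∏ i, (p i : ℝ) ^ (r i * ex i)) * (∏ i, (q i : ℝ)) ^ c) *
        (∑ x ∈ N₁ ×ˢ N₂, rho (dif f) (pr x.1 x.2) ^ k) *
        ((Fintype.card (Ω × Ω) : ℝ) ^ Fintype.card ι) ^ k := by
  have hp0 : ∀ i, (0 : ℝ) < p i := fun i => by
    exact_mod_cast (Fact.out : (p i).Prime).pos
  have hq0 : ∀ i, (0 : ℝ) < q i := fun i => by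
    exact_mod_cast (Fact.out : (q i).Prime).pos
  have hE₁ : (0 : ℝ) < ∏ i, (p i : ℝ) ^ (r i * ex i) :=
    prod_pos fun i _ => pow_pos (hp0 i) _
  have hQ : (0 : ℝ) < ∏ i, (q i : ℝ) := prod_pos fun i _ => hq0 i
  have hE₂ : (0 : ℝ) < (∏ i, (q i : ℝ)) ^ c / 2 := by positivity
  have h := additivity (Γ₁ := ∀ i, Fin (r i) → ZMod (p i)) (Γ₂ := ∀ i, ZMod (q i)) f hj N₁ N₂
    (∏ i, (p i : ℝ) ^ (r i * ex i)) ((∏ i, (q i : ℝ)) ^ c / 2) hE₁ hE₂
  have h0 : 4 / ((∏ i, (p i : ℝ) ^ (r i * ex i)) * (∏ i, (q i : ℝ)) ^ c) =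
      2 / ((∏ i, (p i : ℝ) ^ (r i * ex i)) * ((∏ i, (q i : ℝ)) ^ c / 2)) := by
    have h1 := hE₁.ne'
    have h2 := hQ.ne'
    field_simp
    norm_num
  rw [h0]
  refine le_trans ?_ h
  rw [Nat.card_eq_fintype_card, Nat.card_eq_fintype_card]
  refine Nat.cast_le.2 (Fintype.card_le_of_injective (fun Y => ⟨Y.1, ?_, Y.2.2.2.1, ?_⟩) ?_)
  · have h1 := card_KK_gam_ge p r (dif f) hk hj (pre j hj Y.1) ex Y.2.1
    exact_mod_cast h1
  · have h1 := card_full_ge q (dif f) hk Y.1 c hc Y.2.2.1 hq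
    refine h1.trans ?_
    rw [Nat.card_eq_fintype_card, Fintype.card_subtype]
    refine Nat.cast_le.2 (card_le_card fun z hz => ?_)
    rw [mem_filter] at hz ⊢
    exact ⟨Y.2.2.2.2 z hz.2.1 hz.2.2, hz.2.1⟩
  · intro Y Y' hYY
    exact Subtype.ext (congrArg (fun z => z.1) hYY)

end Vale.Agent.P160.Half.Add87
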