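import Vale.Agent.P160.Half.Corank

/-! # P160, half rate: the adjugate of an integral symmetric matrix of corank one, and the selection of the deleted index

(S5) `adj_struct`: `adj A = c v vᵀ` with `v` primitive, hence `det P_j = c v_j ^ 2` for the principal submatrix `P_j`
(row and column `j` deleted); a prime `p ∣ v_j` gives a nonzero kernel vector of `P_j` modulo `p` with exactly one zero fewer
than `v` has modulo `p` (`minor_word`).
(S6) `selection`: the averaging lemma for the bits. -/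

namespace Vale.Agent.P160.Half.Adj

open Finset Matrix

variable {n : ℕ}

/-- integral kernel vectors of a matrix of rational corank one are proportional -/
theorem ker_prop (A : Matrix (Fin (n + 1)) (Fin (n + 1)) ℤ) (hr : (A.map (Int.cast : ℤ → ℚ)).rank = n)
    {v w : Fin (n + 1) → ℤ} (hv : A *ᵥ v = 0) (hv0 : v ≠ 0) (hw : A *ᵥ w = 0) :
    ∃ q : ℚ, ∀ i, (w i : ℚ) = q * v i := by
  set M : Matrix (Fin (n + 1)) (Fin (n + 1)) ℚ := A.map (Int.cast : ℤ → ℚ) with hM
  have hcast : ∀ x : Fin (n + 1) → ℤ, A *ᵥ x = 0 → M *ᵥ (fun i => (x i : ℚ)) = 0 := by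
    intro x hx
    funext i
    have h1 := congrFun hx i
    rw [mulVec, dotProduct] at h1 ⊢
    have h2 := congrArg (Int.cast : ℤ → ℚ) h1
    push_cast at h2
    simpa [hM] using h2
  have hk : Module.finrank ℚ (LinearMap.ker M.mulVecLin) = 1 := by
    have h1 := LinearMap.finrank_range_add_finrank_ker M.mulVecLin
    have h2 : Module.finrank ℚ (LinearMap.range M.mulVecLin) = n := hr
    rw [h2, Module.finrank_fin_fun] at h1
    omega
  let v' : LinearMap.ker M.mulVecLin := ⟨fun i => (v i : ℚ), by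
    rw [LinearMap.mem_ker, Matrix.mulVecLin_apply]; exact hcast v hv⟩
  let w' : LinearMap.ker M.mulVecLin := ⟨fun i => (w i : ℚ), by
    rw [LinearMap.mem_ker, Matrix.mulVecLin_apply]; exact hcast w hw⟩
  have hv' : v' ≠ 0 := by
    intro h
    apply hv0
    funext i
    have h1 := congrFun (congrArg Subtype.val h) i
    have h2 : (v i : ℚ) = 0 := h1
    exact_mod_cast h2
  obtain ⟨q, hq⟩ := (finrank_eq_one_iff_of_nonzero' v' hv').1 hk w'
  refine ⟨q, fun i => ?_⟩
  have h1 := congrFun (congrArg Subtype.val hq) i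
  exact h1.symm

theorem det_eq_zero (A : Matrix (Fin (n + 1)) (Fin (n + 1)) ℤ)
    (hr : (A.map (Int.cast : ℤ → ℚ)).rank = n) : A.det = 0 := by
  by_contra h
  have h1 : (A.map (Int.cast : ℤ → ℚ)).det ≠ 0 := by
    have h2 : (A.map (Int.cast : ℤ → ℚ)).det = ((A.det : ℤ) : ℚ) :=
      (RingHom.map_det (Int.castRingHom ℚ) A).symm
    rw [h2]
    exact_mod_cast h
  have h3 := Matrix.rank_of_isUnit _ ((Matrix.isUnit_iff_isUnit_det _).2 (isUnit_iff_ne_zero.2 h1))
  rw [hr, Fintype.card_fin] at h3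
  omega

/-- a nonzero integral vector is a multiple of a primitive one -/
theorem exists_primitive {m : ℕ} (u : Fin m → ℤ) (hu : u ≠ 0) :
    ∃ (v : Fin m → ℤ) (d : ℤ) (a : Fin m → ℤ), d ≠ 0 ∧ (∀ i, u i = d * v i) ∧ ∑ i, a i * v i = 1 := by
  have hne : (univ : Finset (Fin m)).Nonempty := by
    by_contra h
    rw [not_nonempty_iff_eq_empty] at h
    apply hu
    funext i
    have : i ∈ (univ : Finset (Fin m)) := mem_univ i
    rw [h] at this
    simp at this
  obtain ⟨g, hg, hg1⟩ := Finset.extract_gcd u hne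
  have hd : univ.gcd u ≠ 0 := by
    intro h
    apply hu
    funext i
    exact (Finset.gcd_eq_zero_iff.1 h) i (mem_univ i)
  have hI : (1 : ℤ) ∈ Ideal.span (Set.range g) := by
    have hp : (Ideal.span (Set.range g)).IsPrincipal := inferInstance
    obtain ⟨e, he⟩ := hp.principal
    have h1 : ∀ i, e ∣ g i := by
      intro i
      have : g i ∈ Ideal.span (Set.range g) := Ideal.subset_span ⟨i, rfl⟩
      rw [he] at this
      exact Ideal.mem_span_singleton.1 this
    have h2 : e ∣ 1 := by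
      rw [← hg1]
      exact Finset.dvd_gcd fun i _ => h1 i
    rw [he]
    exact Ideal.mem_span_singleton.2 h2
  obtain ⟨a, ha⟩ := Ideal.mem_span_range_iff_exists_fun.1 hI
  exact ⟨g, univ.gcd u, a, hd, fun i => hg i (mem_univ i), ha⟩

/-- the adjugate of a symmetric matrix of corank one is not zero -/
theorem adj_ne_zero (A : Matrix (Fin (n + 1)) (Fin (n + 1)) ℤ) (hs : ∀ i j, A i j = A j i)
    (hr : (A.map (Int.cast : ℤ → ℚ)).rank = n) :
    ∃ j : Fin (n + 1), (A.submatrix j.succAbove j.succAbove).det ≠ 0 := by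
  classical
  set M : Matrix (Fin (n + 1)) (Fin (n + 1)) ℚ := A.map (Int.cast : ℤ → ℚ) with hM
  obtain ⟨B, -, hB, hdet, -⟩ := exists_base M (fun i j => by simp [hM, hs i j]) univ
  have hrk : (prin M univ).rank = n := by
    refine Eq.trans ?_ hr
    have h1 : prin M univ = M.submatrix (Equiv.subtypeUnivEquiv (fun x => mem_univ x))
        (Equiv.subtypeUnivEquiv (fun x => mem_univ x)) := by
      ext i j; rfl
    rw [h1]
    exact Matrix.rank_submatrix M _ _
  rw [hrk] at hB
  have hc : Bᶜ.card = 1 := by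
    rw [card_compl, hB, Fintype.card_fin]; omega
  obtain ⟨j, hj⟩ := card_eq_one.1 hc
  refine ⟨j, fun h0 => hdet ?_⟩
  have hmem : ∀ i, i ∈ B ↔ i ≠ j := by
    intro i
    have h1 : i ∈ Bᶜ ↔ i = j := by rw [hj]; simp
    rw [mem_compl] at h1
    tauto
  let e : Fin n ≃ B := (finSuccAboveEquiv j).trans (Equiv.subtypeEquivRight fun i => (hmem i).symm)
  have he : ∀ i, ((e i : B) : Fin (n + 1)) = j.succAbove i := fun i => rfl
  have h1 : (prin M B).det = ((prin M B).submatrix e e).det := (Matrix.det_submatrix_equiv_self e _).symm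
  have h2 : (prin M B).submatrix e e = (A.submatrix j.succAbove j.succAbove).map (Int.cast : ℤ → ℚ) := by
    ext i k
    simp [prin, he, hM]
  have h3 : ((A.submatrix j.succAbove j.succAbove).map (Int.cast : ℤ → ℚ)).det =
      (((A.submatrix j.succAbove j.succAbove).det : ℤ) : ℚ) :=
    (RingHom.map_det (Int.castRingHom ℚ) (A.submatrix j.succAbove j.succAbove)).symm
  rw [h1, h2, h3, h0]
  simp

/-- **(S5)** -/
theorem adj_struct (A : Matrix (Fin (n + 1)) (Fin (n + 1)) ℤ) (hs : ∀ i j, A i j = A j i)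
    (hr : (A.map (Int.cast : ℤ → ℚ)).rank = n) :
    ∃ (v : Fin (n + 1) → ℤ) (c : ℤ) (a : Fin (n + 1) → ℤ), ∑ i, a i * v i = 1 ∧ c ≠ 0 ∧ A *ᵥ v = 0 ∧
      (∀ i j, A.adjugate i j = c * v i * v j) ∧
      ∀ j, (A.submatrix j.succAbove j.succAbove).det = c * v j ^ 2 := by
  have hdet := det_eq_zero A hr
  obtain ⟨u, hu0, hu⟩ := Matrix.exists_mulVec_eq_zero_iff.2 hdet
  obtain ⟨v, d, a, hd, hdv, ha⟩ := exists_primitive u hu0
  have hv : A *ᵥ v = 0 := by
    have h1 : u = d • v := by funext i; simp [hdv i]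
    rw [h1, mulVec_smul] at hu
    funext i
    have h2 := congrFun hu i
    rw [Pi.smul_apply, Pi.zero_apply, smul_eq_mul] at h2
    exact (mul_eq_zero.1 h2).resolve_left hd
  have hv0 : v ≠ 0 := by
    rintro rfl
    simp at ha
  -- columns
  have hcol : ∀ j, ∃ q : ℤ, ∀ i, A.adjugate i j = q * v i := by
    intro j
    have h1 : A *ᵥ (fun i => A.adjugate i j) = 0 := by
      funext i
      have h2 := congrFun (congrFun (Matrix.mul_adjugate A) i) j
      rw [hdet, zero_smul] at h2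
      exact h2
    obtain ⟨q, hq⟩ := ker_prop A hr hv hv0 h1
    refine ⟨∑ i, a i * A.adjugate i j, fun i => ?_⟩
    have h3 : ((∑ i, a i * A.adjugate i j : ℤ) : ℚ) = q := by
      push_cast
      simp only [hq]
      have h4 : ∑ x, (a x : ℚ) * (q * v x) = q * ((∑ i, a i * v i : ℤ) : ℚ) := by
        push_cast
        rw [mul_sum]
        exact sum_congr rfl fun x _ => by ring
      rw [h4, ha]; simp
    have h5 : ((A.adjugate i j : ℤ) : ℚ) = (((∑ i, a i * A.adjugate i j) * v i : ℤ) : ℚ) := by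
      rw [Int.cast_mul, h3]
      exact hq i
    exact_mod_cast h5
  choose q hq using hcol
  have hsym : ∀ i j, A.adjugate i j = A.adjugate j i := by
    have hT : Aᵀ = A := by ext i j; exact hs j i
    intro i j
    have h1 := congrFun (congrFun (Matrix.adjugate_transpose A) i) j
    rw [hT, Matrix.transpose_apply] at h1
    exact h1.symm
  have hqv : ∀ j, q j = (∑ i, a i * q i) * v j := by
    intro j
    have h1 : q j = ∑ i, a i * (q j * v i) := by
      have h2 : ∑ i, a i * (q j * v i) = q j * ∑ i, a i * v i := by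
        rw [mul_sum]; exact sum_congr rfl fun x _ => by ring
      rw [h2, ha, mul_one]
    rw [h1, sum_mul]
    refine sum_congr rfl fun i _ => ?_
    have h3 : q j * v i = q i * v j := by
      rw [← hq j i, hsym i j, hq i j]
    rw [h3]; ring
  have hadj : ∀ i j, A.adjugate i j = (∑ i, a i * q i) * v i * v j := by
    intro i j
    rw [hq j i, hqv j]
    ring
  have hminor : ∀ j, (A.submatrix j.succAbove j.succAbove).det = (∑ i, a i * q i) * v j ^ 2 := by
    intro j
    have h1 := Matrix.adjugate_fin_succ_eq_det_submatrix A j j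
    rw [hadj j j] at h1
    have h2 : (-1 : ℤ) ^ ((j : ℕ) + j) = 1 := by
      rw [← two_mul, pow_mul]; simp
    rw [h2, one_mul] at h1
    rw [← h1]; ring
  refine ⟨v, ∑ i, a i * q i, a, ha, ?_, hv, hadj, hminor⟩
  intro h0
  obtain ⟨j, hj⟩ := adj_ne_zero A hs hr
  apply hj
  rw [hminor j, h0, zero_mul]

/-- the deleted vector: if `p ∣ v_j` then `v` without `j` is a nonzero kernel vector of `P_j` modulo `p` -/
theorem minor_word (A : Matrix (Fin (n + 1)) (Fin (n + 1)) ℤ) {v a : Fin (n + 1) → ℤ} (ha : ∑ i, a i * v i = 1)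
    (hv : A *ᵥ v = 0) (p : ℕ) [Fact p.Prime] (j : Fin (n + 1)) (hj : (p : ℤ) ∣ v j) :
    ((A.submatrix j.succAbove j.succAbove).map (Int.cast : ℤ → ZMod p)) *ᵥ (fun i => ((v (j.succAbove i) : ℤ) : ZMod p)) = 0 ∧
    (fun i => ((v (j.succAbove i) : ℤ) : ZMod p)) ≠ 0 ∧
    (univ.filter fun i : Fin n => ((v (j.succAbove i) : ℤ) : ZMod p) = 0).card + 1 =
      (univ.filter fun i : Fin (n + 1) => ((v i : ℤ) : ZMod p) = 0).card := by
  have hj0 : ((v j : ℤ) : ZMod p) = 0 := (ZMod.intCast_zmod_eq_zero_iff_dvd _ p).2 hj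
  refine ⟨?_, ?_, ?_⟩
  · funext i
    have h1 := congrArg (Int.cast : ℤ → ZMod p) (congrFun hv (j.succAbove i))
    rw [mulVec, dotProduct, Fin.sum_univ_succAbove _ j] at h1
    push_cast at h1
    rw [hj0, mul_zero, zero_add] at h1
    rw [mulVec, dotProduct]
    simpa using h1
  · intro h
    have h1 := congrArg (Int.cast : ℤ → ZMod p) ha
    rw [Fin.sum_univ_succAbove _ j] at h1
    push_cast at h1
    rw [hj0, mul_zero, zero_add] at h1
    have h2 : ∀ i, ((v (j.succAbove i) : ℤ) : ZMod p) = 0 := fun i => congrFun h i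
    simp only [h2, mul_zero, sum_const_zero] at h1
    exact zero_ne_one h1
  · have h1 : ∀ (f : Fin (n + 1) → Prop) [DecidablePred f], f j →
        (univ.filter fun i : Fin n => f (j.succAbove i)).card + 1 = (univ.filter f).card := by
      intro f _ hf
      rw [card_filter, card_filter, Fin.sum_univ_succAbove _ j, if_pos hf, add_comm]
    exact h1 (fun i => ((v i : ℤ) : ZMod p) = 0) hj0

/-- **(S6)** selection of the index -/
theorem selection {ι π : Type*} [Fintype ι] [DecidableEq ι] (P : Finset π) (Z : π → Finset ι) (w : π → ℝ)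
    (hw : ∀ p ∈ P, 0 ≤ w p) (s : ι → ℝ) (hs : ∀ p ∈ P, ∀ j ∈ Z p, ((Z p).card : ℝ) ≤ s j) :
    ∑ j, (∑ p ∈ P with j ∈ Z p, w p) / s j ≤ ∑ p ∈ P, w p := by
  have h1 : ∀ j, (∑ p ∈ P with j ∈ Z p, w p) / s j ≤ ∑ p ∈ P, if j ∈ Z p then w p / (Z p).card else 0 := by
    intro j
    rw [sum_div, sum_filter]
    refine sum_le_sum fun p hp => ?_
    split_ifs with h
    · have h2 : (0 : ℝ) < (Z p).card := by
        exact_mod_cast card_pos.2 ⟨j, h⟩
      exact div_le_div_of_nonneg_left (hw p hp) h2 (hs p hp j h)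
    · exact le_rfl
  calc _ ≤ ∑ j, ∑ p ∈ P, (if j ∈ Z p then w p / (Z p).card else 0) := sum_le_sum fun j _ => h1 j
    _ = ∑ p ∈ P, ∑ j, (if j ∈ Z p then w p / (Z p).card else 0) := sum_comm
    _ ≤ ∑ p ∈ P, w p := by
        refine sum_le_sum fun p hp => ?_
        rw [← sum_filter, filter_mem_eq_inter, univ_inter, sum_const, nsmul_eq_mul]
        by_cases h : (Z p).card = 0
        · rw [h]; simp [hw p hp]
        · have : ((Z p).card : ℝ) ≠ 0 := by exact_mod_cast h
          rw [mul_div_cancel₀ _ this]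

/-- the pigeonhole form: the indices whose bits exceed `s_j * a + b` are few -/
theorem selection_card {ι π : Type*} [Fintype ι] [DecidableEq ι] (P : Finset π) (Z : π → Finset ι) (w : π → ℝ)
    (hw : ∀ p ∈ P, 0 ≤ w p) (s : ι → ℝ) (hs : ∀ p ∈ P, ∀ j ∈ Z p, ((Z p).card : ℝ) ≤ s j)
    (S a b W : ℝ) (hsS : ∀ j, s j ≤ S) (hs0 : ∀ j, 0 ≤ s j) (ha : 0 ≤ a) (hb : 0 ≤ b) (hW : ∑ p ∈ P, w p ≤ W) (hS : 0 < S) :
    ((univ.filter fun j => s j * a + b < ∑ p ∈ P with j ∈ Z p, w p).card : ℝ) * (a + b / S) ≤ W := by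
  classical
  set B := univ.filter fun j => s j * a + b < ∑ p ∈ P with j ∈ Z p, w p with hB
  have h0 : ∀ j, 0 ≤ ∑ p ∈ P with j ∈ Z p, w p := fun j =>
    sum_nonneg fun p hp => hw p (mem_filter.1 hp).1
  have h1 : ∀ j ∈ B, a + b / S ≤ (∑ p ∈ P with j ∈ Z p, w p) / s j := by
    intro j hj
    have h2 : s j * a + b < ∑ p ∈ P with j ∈ Z p, w p := (mem_filter.1 hj).2
    have h3 : 0 < ∑ p ∈ P with j ∈ Z p, w p :=
      lt_of_le_of_lt (add_nonneg (mul_nonneg (hs0 j) ha) hb) h2
    have h4 : 0 < s j := by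
      obtain ⟨p, hp, hp0⟩ := exists_ne_zero_of_sum_ne_zero h3.ne'
      obtain ⟨hpP, hpj⟩ := mem_filter.1 hp
      have h5 : (0 : ℝ) < (Z p).card := by exact_mod_cast card_pos.2 ⟨j, hpj⟩
      exact lt_of_lt_of_le h5 (hs p hpP j hpj)
    rw [le_div_iff₀ h4]
    have h6 : b / S * s j ≤ b := by
      rw [div_mul_eq_mul_div, div_le_iff₀ hS]
      exact mul_le_mul_of_nonneg_left (hsS j) hb
    nlinarith
  calc (B.card : ℝ) * (a + b / S) = ∑ j ∈ B, (a + b / S) := by rw [sum_const, nsmul_eq_mul]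
    _ ≤ ∑ j ∈ B, (∑ p ∈ P with j ∈ Z p, w p) / s j := sum_le_sum h1
    _ ≤ ∑ j, (∑ p ∈ P with j ∈ Z p, w p) / s j :=
        sum_le_sum_of_subset_of_nonneg (subset_univ _) fun j _ _ => div_nonneg (h0 j) (hs0 j)
    _ ≤ _ := selection P Z w hw s hs
    _ ≤ W := hW

end Vale.Agent.P160.Half.Adj
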