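import Mathlib

/-!
# P160, rate 1/2: revealing a few random subset sums of the generators of a finite `p`-group

For a finite abelian `p`-group `G` put `rk l = log_p [p^l G : p^(l+1) G]` and
`bb G = log_p |G| - log_p exp G`.
-/

open Finset

namespace Vale.Agent.P160.Half.Rev

section basic

variable (p : ℕ) (G : Type*) [AddCommGroup G]

/-- the subgroup `p^l G` -/
def pw (l : ℕ) : AddSubgroup G := (nsmulAddMonoidHom (α := G) (p ^ l)).range

/-- `log_p |p^l G|` -/
noncomputable def al (l : ℕ) : ℕ := Nat.log p (Nat.card (pw p G l))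

/-- `log_p [p^l G : p^(l+1) G]` -/
noncomputable def rk (l : ℕ) : ℕ := al p G l - al p G (l + 1)

/-- `log_p |G| - log_p exp G` -/
noncomputable def bb : ℕ := Nat.log p (Nat.card G) - Nat.log p (AddMonoid.exponent G)

/-- the number of `l` with `rk l >= k` -/
noncomputable def lam (k : ℕ) : ℕ :=
  ((range (Nat.log p (Nat.card G))).filter (fun l => k ≤ rk p G l)).card

variable {p G}

theorem mem_pw {l : ℕ} {x : G} : x ∈ pw p G l ↔ ∃ y : G, p ^ l • y = x := by
  simp [pw, AddMonoidHom.mem_range]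

theorem pw_zero : pw p G 0 = ⊤ := by
  ext x
  simp [mem_pw]

theorem pw_succ_le (l : ℕ) : pw p G (l + 1) ≤ pw p G l := by
  intro x hx
  obtain ⟨y, rfl⟩ := mem_pw.1 hx
  exact mem_pw.2 ⟨p • y, by rw [← mul_smul, pow_succ]⟩

theorem pw_eq_bot_iff (l : ℕ) : pw p G l = ⊥ ↔ AddMonoid.exponent G ∣ p ^ l := by
  rw [AddMonoid.exponent_dvd_iff_forall_nsmul_eq_zero, AddSubgroup.eq_bot_iff_forall]
  constructor
  · intro h g
    exact h _ (mem_pw.2 ⟨g, rfl⟩)
  · intro h x hx
    obtain ⟨y, rfl⟩ := mem_pw.1 hx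
    exact h y

end basic

section pgroup

variable {p : ℕ} {G : Type*} [AddCommGroup G]

theorem card_pw (hp : p.Prime) (hG : ∃ n, Nat.card G = p ^ n) (l : ℕ) :
    Nat.card (pw p G l) = p ^ al p G l := by
  obtain ⟨n, hn⟩ := hG
  have h1 : Nat.card (pw p G l) ∣ p ^ n := hn ▸ AddSubgroup.card_addSubgroup_dvd_card _
  obtain ⟨k, -, hk⟩ := (Nat.dvd_prime_pow hp).1 h1
  unfold al
  rw [hk, Nat.log_pow hp.one_lt]

theorem al_zero : al p G 0 = Nat.log p (Nat.card G) := by
  unfold al
  rw [pw_zero]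
  congr 1
  exact Nat.card_congr (Equiv.Set.univ G)

theorem card_mul_relIndex (A B : AddSubgroup G) (h : B ≤ A) :
    Nat.card B * B.relIndex A = Nat.card A := by
  have := AddSubgroup.relIndex_mul_relIndex ⊥ B A bot_le h
  rwa [AddSubgroup.relIndex_bot_left, AddSubgroup.relIndex_bot_left] at this

theorem al_succ_le [Finite G] (hp : p.Prime) (hG : ∃ n, Nat.card G = p ^ n) (l : ℕ) :
    al p G (l + 1) ≤ al p G l := by
  have h1 := AddSubgroup.card_le_of_le (pw_succ_le (p := p) (G := G) l)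
  rw [card_pw hp hG, card_pw hp hG] at h1
  exact (Nat.pow_le_pow_iff_right hp.one_lt).1 h1

theorem relIndex_pw [Finite G] (hp : p.Prime) (hG : ∃ n, Nat.card G = p ^ n) (l : ℕ) :
    (pw p G (l + 1)).relIndex (pw p G l) = p ^ rk p G l := by
  have h1 := card_mul_relIndex _ _ (pw_succ_le (p := p) (G := G) l)
  rw [card_pw hp hG, card_pw hp hG] at h1
  have h2 : p ^ al p G l = p ^ al p G (l + 1) * p ^ rk p G l := by
    rw [← pow_add]
    congr 1
    unfold rk
    have := al_succ_le hp hG l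
    omega
  rw [h2] at h1
  exact Nat.eq_of_mul_eq_mul_left (pow_pos hp.pos _) h1

theorem rk_succ_le [Finite G] (hp : p.Prime) (hG : ∃ n, Nat.card G = p ^ n) (l : ℕ) :
    rk p G (l + 1) ≤ rk p G l := by
  have h1 := relIndex_pw hp hG l
  have h2 := relIndex_pw hp hG (l + 1)
  have h3 : pw p G (l + 1) = (pw p G l).map (nsmulAddMonoidHom (α := G) p) := by
    ext x
    rw [AddSubgroup.mem_map, mem_pw]
    constructor
    · rintro ⟨y, rfl⟩
      exact ⟨p ^ l • y, mem_pw.2 ⟨y, rfl⟩, by simp [← mul_smul, pow_succ, mul_comm]⟩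
    · rintro ⟨y, hy, rfl⟩
      obtain ⟨z, rfl⟩ := mem_pw.1 hy
      exact ⟨z, by simp [← mul_smul, pow_succ, mul_comm]⟩
  have h4 : pw p G (l + 1) ≤
      (pw p G (l + 1 + 1)).comap (nsmulAddMonoidHom (α := G) p) := by
    intro x hx
    obtain ⟨y, rfl⟩ := mem_pw.1 hx
    exact AddSubgroup.mem_comap.2 (mem_pw.2 ⟨y, by simp [← mul_smul, pow_succ, mul_comm]⟩)
  have h5 : (pw p G (l + 1 + 1)).relIndex (pw p G (l + 1)) ∣
      (pw p G (l + 1)).relIndex (pw p G l) := by
    conv_lhs => rw [h3]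
    have h6 := AddSubgroup.relIndex_comap (pw p G (l + 1 + 1)) (nsmulAddMonoidHom (α := G) p)
      (pw p G l)
    rw [← h3] at h6
    rw [← h3, ← h6]
    exact AddSubgroup.relIndex_dvd_of_le_left _ h4
  rw [h1, h2] at h5
  exact (Nat.pow_dvd_pow_iff_le_right hp.one_lt).1 h5

theorem rk_antitone [Finite G] (hp : p.Prime) (hG : ∃ n, Nat.card G = p ^ n) :
    Antitone (rk p G) := antitone_nat_of_succ_le (rk_succ_le hp hG)

theorem sum_rk [Finite G] (hp : p.Prime) (hG : ∃ n, Nat.card G = p ^ n) (n : ℕ) :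
    ∑ l ∈ range n, rk p G l + al p G n = al p G 0 := by
  induction n with
  | zero => simp
  | succ n ih =>
    rw [sum_range_succ, ← ih]
    have := al_succ_le hp hG n
    unfold rk at *
    omega

theorem pw_log [Finite G] (hG : ∃ n, Nat.card G = p ^ n) (hp : p.Prime) :
    pw p G (Nat.log p (Nat.card G)) = ⊥ := by
  rw [pw_eq_bot_iff]
  obtain ⟨n, hn⟩ := hG
  rw [hn, Nat.log_pow hp.one_lt, ← hn]
  exact AddGroup.exponent_dvd_nat_card

theorem al_of_bot {l : ℕ} (h : pw p G l = ⊥) : al p G l = 0 := by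
  unfold al
  rw [h]
  simp

theorem rk_eq_zero_iff [Finite G] (hp : p.Prime) (hG : ∃ n, Nat.card G = p ^ n) (l : ℕ) :
    rk p G l = 0 ↔ pw p G l = ⊥ := by
  constructor
  · intro h
    have h1 : ∀ j, al p G (l + j) = al p G l := by
      intro j
      induction j with
      | zero => rfl
      | succ j ih =>
        have h2 := rk_antitone hp hG (Nat.le_add_right l j)
        have h3 := al_succ_le hp hG (l + j)
        rw [h] at h2
        have h4 : rk p G (l + j) = 0 := by omega
        unfold rk at h4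
        rw [← ih, ← add_assoc]
        omega
    have h2 := h1 (Nat.log p (Nat.card G))
    have h3 : al p G (l + Nat.log p (Nat.card G)) = 0 := by
      apply al_of_bot
      rw [pw_eq_bot_iff]
      have := (pw_eq_bot_iff _).1 (pw_log hG hp)
      exact this.trans (pow_dvd_pow _ (Nat.le_add_left _ _))
    rw [h3] at h2
    have h4 := card_pw hp hG l
    rw [← h2, pow_zero] at h4
    exact (AddSubgroup.card_eq_one).1 h4
  · intro h
    unfold rk
    rw [al_of_bot h]
    simp

theorem bb_eq [Finite G] (hp : p.Prime) (hG : ∃ n, Nat.card G = p ^ n) (n : ℕ)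
    (hn : pw p G n = ⊥) : bb p G = ∑ l ∈ range n, (rk p G l - 1) := by
  obtain ⟨m, hm⟩ := id hG
  have he : AddMonoid.exponent G ∣ p ^ m := hm ▸ AddGroup.exponent_dvd_nat_card
  obtain ⟨e, -, he⟩ := (Nat.dvd_prime_pow hp).1 he
  have h1 : ∀ l, pw p G l = ⊥ ↔ e ≤ l := by
    intro l
    rw [pw_eq_bot_iff, he, Nat.pow_dvd_pow_iff_le_right hp.one_lt]
  have h2 := sum_rk hp hG n
  rw [al_of_bot hn, al_zero] at h2
  have h3 : ∑ l ∈ range n, (rk p G l - 1) + e = ∑ l ∈ range n, rk p G l := by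
    have h4 : e = ∑ l ∈ range n, if l < e then 1 else 0 := by
      rw [← card_filter]
      have : (range n).filter (fun l => l < e) = range e := by
        ext l
        have := (h1 n).1 hn
        simp only [mem_filter, mem_range]
        omega
      rw [this, card_range]
    conv_lhs => rw [h4]
    rw [← sum_add_distrib]
    refine sum_congr rfl fun l _ => ?_
    have h5 := rk_eq_zero_iff hp hG l
    rw [h1] at h5
    split_ifs with h
    · have : rk p G l ≠ 0 := fun h0 => by have := h5.1 h0; omega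
      omega
    · have := h5.2 (by omega)
      omega
  unfold bb
  rw [he, Nat.log_pow hp.one_lt]
  omega

end pgroup

section quot

variable {p : ℕ} {G : Type*} [AddCommGroup G] [Finite G]

omit [Finite G] in
theorem card_quot (hp : p.Prime) (hG : ∃ n, Nat.card G = p ^ n) (H : AddSubgroup G) :
    ∃ n, Nat.card (G ⧸ H) = p ^ n := by
  obtain ⟨n, hn⟩ := hG
  have h1 : Nat.card (G ⧸ H) ∣ p ^ n := by
    rw [← hn]
    exact AddSubgroup.card_quotient_dvd_card H
  obtain ⟨k, -, hk⟩ := (Nat.dvd_prime_pow hp).1 h1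
  exact ⟨k, hk⟩

omit [Finite G] in
theorem pw_quot (H : AddSubgroup G) (l : ℕ) :
    pw p (G ⧸ H) l = (pw p G l).map (QuotientAddGroup.mk' H) := by
  ext x
  rw [mem_pw, AddSubgroup.mem_map]
  constructor
  · rintro ⟨y, rfl⟩
    obtain ⟨z, rfl⟩ := QuotientAddGroup.mk'_surjective H y
    exact ⟨p ^ l • z, mem_pw.2 ⟨z, rfl⟩, by simp⟩
  · rintro ⟨y, hy, rfl⟩
    obtain ⟨z, rfl⟩ := mem_pw.1 hy
    exact ⟨QuotientAddGroup.mk' H z, by simp⟩

theorem relIndex_quot (hp : p.Prime) (hG : ∃ n, Nat.card G = p ^ n) (H : AddSubgroup G) (l : ℕ) :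
    (pw p G (l + 1) ⊔ H).relIndex (pw p G l) = p ^ rk p (G ⧸ H) l := by
  rw [← relIndex_pw hp (card_quot hp hG H), pw_quot, pw_quot, ← AddSubgroup.relIndex_comap,
    AddSubgroup.comap_map_eq, QuotientAddGroup.ker_mk']

theorem rk_quot_le (hp : p.Prime) (hG : ∃ n, Nat.card G = p ^ n) (H : AddSubgroup G) (l : ℕ) :
    rk p (G ⧸ H) l ≤ rk p G l := by
  have h1 := AddSubgroup.relIndex_dvd_of_le_left (pw p G l)
    (le_sup_left : pw p G (l + 1) ≤ pw p G (l + 1) ⊔ H)
  rw [relIndex_quot hp hG, relIndex_pw hp hG] at h1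
  exact (Nat.pow_dvd_pow_iff_le_right hp.one_lt).1 h1

theorem rk_quot_lt (hp : p.Prime) (hG : ∃ n, Nat.card G = p ^ n) (H : AddSubgroup G) (l : ℕ)
    {x : G} (hx : x ∈ pw p G l) (hx' : x ∉ pw p G (l + 1)) (hxH : x ∈ H) :
    rk p (G ⧸ H) l < rk p G l := by
  refine lt_of_le_of_ne (rk_quot_le hp hG H l) fun heq => ?_
  have h1 := AddSubgroup.relIndex_mul_relIndex (pw p G (l + 1))
    ((pw p G (l + 1) ⊔ H) ⊓ pw p G l) (pw p G l)
    (le_inf le_sup_left (pw_succ_le l)) inf_le_right
  rw [AddSubgroup.inf_relIndex_right, relIndex_quot hp hG, relIndex_pw hp hG, heq] at h1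
  have h2 : (pw p G (l + 1)).relIndex ((pw p G (l + 1) ⊔ H) ⊓ pw p G l) = 1 := by
    have h3 : 0 < p ^ rk p G l := pow_pos hp.pos _
    exact Nat.eq_of_mul_eq_mul_right h3 (by rw [h1, one_mul])
  rw [AddSubgroup.relIndex_eq_one] at h2
  exact hx' (h2 (AddSubgroup.mem_inf.2 ⟨AddSubgroup.mem_sup_right hxH, hx⟩))

omit [Finite G] in
theorem exists_int_comb {ι : Type*} [Fintype ι] {e : ι → G}
    (he : AddSubgroup.closure (Set.range e) = ⊤) (g : G) : ∃ c : ι → ℤ, ∑ i, c i • e i = g := by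
  have h1 : g ∈ AddSubgroup.closure (Set.range e) := by rw [he]; trivial
  rw [← Submodule.span_int_eq_addSubgroupClosure, Submodule.mem_toAddSubgroup] at h1
  exact (Submodule.mem_span_range_iff_exists_fun ℤ).1 h1

theorem rk_le_card {ι : Type*} [Fintype ι] (hp : p.Prime) (hG : ∃ n, Nat.card G = p ^ n)
    {e : ι → G} (he : AddSubgroup.closure (Set.range e) = ⊤) (l : ℕ) :
    rk p G l ≤ Fintype.card ι := by
  classical
  refine (rk_antitone hp hG (Nat.zero_le l)).trans ?_
  have h1 := relIndex_pw hp hG 0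
  rw [pw_zero, AddSubgroup.relIndex_top_right, zero_add] at h1
  have : NeZero p := ⟨hp.ne_zero⟩
  let f : (ι → Fin p) → G ⧸ pw p G 1 := fun c => ∑ i, (c i : ℕ) • (QuotientAddGroup.mk' _ (e i))
  have hf : Function.Surjective f := by
    intro q
    obtain ⟨g, rfl⟩ := QuotientAddGroup.mk'_surjective _ q
    obtain ⟨c, rfl⟩ := exists_int_comb he g
    have hpz : (p : ℤ) ≠ 0 := by exact_mod_cast hp.ne_zero
    refine ⟨fun i => ⟨(c i % p).toNat, by
      have h2 := Int.emod_nonneg (c i) hpz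
      have h3 := Int.emod_lt_of_pos (c i) (by exact_mod_cast hp.pos : (0 : ℤ) < p)
      omega⟩, ?_⟩
    simp only [f, map_sum]
    refine sum_congr rfl fun i _ => ?_
    rw [← natCast_zsmul, ← map_zsmul]
    apply (QuotientAddGroup.eq).2
    have h2 : (((c i % p).toNat : ℕ) : ℤ) = c i % p :=
      Int.toNat_of_nonneg (Int.emod_nonneg (c i) hpz)
    have h3 : -((((c i % p).toNat : ℕ) : ℤ) • e i) + c i • e i = p ^ 1 • ((c i / p) • e i) := by
      rw [h2, ← neg_smul, ← add_smul, pow_one, ← natCast_zsmul, ← mul_smul]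
      congr 1
      have := Int.emod_add_mul_ediv (c i) p
      linarith
    show -((((c i % p).toNat : ℕ) : ℤ) • e i) + c i • e i ∈ _
    rw [h3]
    exact mem_pw.2 ⟨_, rfl⟩
  have h2 : Nat.card (G ⧸ pw p G 1) ≤ p ^ Fintype.card ι := by
    have h3 := Nat.card_le_card_of_surjective f hf
    simpa using h3
  have h3 : (pw p G 1).index = Nat.card (G ⧸ pw p G 1) := rfl
  rw [← h3, h1] at h2
  exact (Nat.pow_le_pow_iff_right hp.one_lt).1 h2

end quot

section count

variable {p : ℕ} {G : Type*} [AddCommGroup G] {ι κ : Type*} [Fintype ι]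

/-- the subset sum of the generators chosen by `v` -/
def ssum (e : ι → G) (v : ι → Bool) : G := ∑ i, if v i then e i else 0

/-- the revealed subgroup -/
def Hs (e : ι → G) (ε : κ → ι → Bool) : AddSubgroup G :=
  AddSubgroup.closure (Set.range fun j => ssum e (ε j))

theorem ssum_flip [DecidableEq ι] (e : ι → G) (v : ι → Bool) (i : ι) :
    ssum e (Function.update v i (!v i)) - ssum e v = if v i then -e i else e i := by
  unfold ssum
  rw [← sum_sub_distrib, sum_eq_single i]
  · cases h : v i <;> simp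
  · intro j _ hj
    simp [Function.update_of_ne hj]
  · intro h
    exact absurd (mem_univ i) h

omit [Fintype ι] in
theorem exists_gen (p : ℕ) {e : ι → G} (he : AddSubgroup.closure (Set.range e) = ⊤) {l : ℕ}
    (hne : pw p G l ≠ pw p G (l + 1)) : ∃ i, p ^ l • e i ∉ pw p G (l + 1) := by
  by_contra hcon
  push Not at hcon
  apply hne
  refine le_antisymm ?_ (pw_succ_le l)
  intro x hx
  obtain ⟨y, rfl⟩ := mem_pw.1 hx
  have h1 : (⊤ : AddSubgroup G) ≤ (pw p G (l + 1)).comap (nsmulAddMonoidHom (α := G) (p ^ l)) := by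
    rw [← he, AddSubgroup.closure_le]
    rintro _ ⟨i, rfl⟩
    exact hcon i
  exact h1 (AddSubgroup.mem_top y)

open Classical in
theorem card_one [DecidableEq ι] (p : ℕ) {e : ι → G} (he : AddSubgroup.closure (Set.range e) = ⊤) {l : ℕ}
    (hne : pw p G l ≠ pw p G (l + 1)) :
    2 * (univ.filter fun v : ι → Bool => p ^ l • ssum e v ∈ pw p G (l + 1)).card ≤
      2 ^ Fintype.card ι := by
  obtain ⟨i, hi⟩ := exists_gen p he hne
  set T := univ.filter fun v : ι → Bool => p ^ l • ssum e v ∈ pw p G (l + 1) with hT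
  let F : (ι → Bool) → (ι → Bool) := fun v => Function.update v i (!v i)
  have hF : Function.Injective F := by
    have : Function.Involutive F := by
      intro v
      funext j
      by_cases hj : j = i
      · subst hj; simp [F]
      · simp [F, Function.update_of_ne hj]
    exact this.injective
  have hdis : Disjoint T (T.image F) := by
    rw [disjoint_left]
    intro v hv hv'
    obtain ⟨w, hw, rfl⟩ := mem_image.1 hv'
    rw [hT, mem_filter] at hv hw
    have h1 := AddSubgroup.sub_mem _ hv.2 hw.2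
    rw [← smul_sub, ssum_flip] at h1
    split_ifs at h1 with h
    · rw [smul_neg, neg_mem_iff] at h1
      exact hi h1
    · exact hi h1
  have h1 : (T ∪ T.image F).card ≤ (univ : Finset (ι → Bool)).card := card_le_card (subset_univ _)
  rw [card_union_of_disjoint hdis, card_image_of_injective _ hF] at h1
  have h2 : (univ : Finset (ι → Bool)).card = 2 ^ Fintype.card ι := by simp
  omega

open Classical in
theorem card_all [Fintype κ] [DecidableEq ι] [DecidableEq κ] (p : ℕ) {e : ι → G} (he : AddSubgroup.closure (Set.range e) = ⊤)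
    {l : ℕ} (hne : pw p G l ≠ pw p G (l + 1)) :
    2 ^ Fintype.card κ * (univ.filter fun ε : κ → ι → Bool =>
      ∀ j, p ^ l • ssum e (ε j) ∈ pw p G (l + 1)).card ≤
      2 ^ (Fintype.card κ * Fintype.card ι) := by
  have h1 : (univ.filter fun ε : κ → ι → Bool => ∀ j, p ^ l • ssum e (ε j) ∈ pw p G (l + 1)) =
      Fintype.piFinset (fun _ : κ =>
        univ.filter fun v : ι → Bool => p ^ l • ssum e v ∈ pw p G (l + 1)) := by
    ext ε
    simp [Fintype.mem_piFinset]
  rw [h1, Fintype.card_piFinset, prod_const, card_univ, ← mul_pow, mul_comm (Fintype.card κ),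
    pow_mul]
  exact Nat.pow_le_pow_left (card_one p he hne) _

theorem ssum_mem_Hs (e : ι → G) (ε : κ → ι → Bool) (j : κ) : ssum e (ε j) ∈ Hs e ε :=
  AddSubgroup.subset_closure ⟨j, rfl⟩

/-- if one of the revealed elements survives at level `l`, the rank drops there -/
theorem rk_Hs_lt [Finite G] (hp : p.Prime) (hG : ∃ n, Nat.card G = p ^ n) (e : ι → G)
    (ε : κ → ι → Bool) {l : ℕ} (h : ¬ ∀ j, p ^ l • ssum e (ε j) ∈ pw p G (l + 1)) :
    rk p (G ⧸ Hs e ε) l < rk p G l := by
  push Not at h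
  obtain ⟨j, hj⟩ := h
  exact rk_quot_lt hp hG (Hs e ε) l (mem_pw.2 ⟨_, rfl⟩) hj
    (AddSubgroup.nsmul_mem _ (ssum_mem_Hs e ε j) _)

theorem pw_ne_of_rk [Finite G] (hp : p.Prime) (hG : ∃ n, Nat.card G = p ^ n) {l : ℕ}
    (h : 1 ≤ rk p G l) : pw p G l ≠ pw p G (l + 1) := by
  intro h1
  have h2 := relIndex_pw hp hG l
  rw [← h1, AddSubgroup.relIndex_self] at h2
  have := Nat.one_lt_pow (by omega : rk p G l ≠ 0) hp.one_lt
  omega

/-- one level: the expected value of `(rk (G/H) l - 1)^+` -/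
theorem level_bound [Finite G] [Fintype κ] [DecidableEq ι] [DecidableEq κ] (hp : p.Prime) (hG : ∃ n, Nat.card G = p ^ n)
    {e : ι → G} (he : AddSubgroup.closure (Set.range e) = ⊤) (l : ℕ) :
    2 ^ Fintype.card κ * ∑ ε : κ → ι → Bool, (rk p (G ⧸ Hs e ε) l - 1) ≤
      2 ^ (Fintype.card κ * Fintype.card ι) * ((if 2 ≤ rk p G l then 1 else 0) +
        2 ^ Fintype.card κ * Fintype.card ι * (if 3 ≤ rk p G l then 1 else 0)) := by
  classical
  have hcard : (univ : Finset (κ → ι → Bool)).card =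
      2 ^ (Fintype.card κ * Fintype.card ι) := by
    rw [card_univ, Fintype.card_fun, Fintype.card_fun, Fintype.card_bool, ← pow_mul, mul_comm]
  by_cases h3 : 3 ≤ rk p G l
  · rw [if_pos h3, if_pos (by omega)]
    have h1 : ∑ ε : κ → ι → Bool, (rk p (G ⧸ Hs e ε) l - 1) ≤
        ∑ ε : κ → ι → Bool, Fintype.card ι := by
      refine sum_le_sum fun ε _ => ?_
      have h2 := rk_quot_le hp hG (Hs e ε) l
      have h4 := rk_le_card hp hG he l
      omega
    rw [sum_const, hcard, smul_eq_mul] at h1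
    calc _ ≤ 2 ^ Fintype.card κ *
        (2 ^ (Fintype.card κ * Fintype.card ι) * Fintype.card ι) := Nat.mul_le_mul_left _ h1
      _ ≤ _ := by
        rw [mul_add, mul_one]
        nlinarith [Nat.zero_le (2 ^ (Fintype.card κ * Fintype.card ι))]
  · by_cases h2 : 2 ≤ rk p G l
    · rw [if_neg h3, if_pos h2, mul_zero, add_zero, mul_one]
      have h1 : ∑ ε : κ → ι → Bool, (rk p (G ⧸ Hs e ε) l - 1) ≤
          (univ.filter fun ε : κ → ι → Bool =>
            ∀ j, p ^ l • ssum e (ε j) ∈ pw p G (l + 1)).card := by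
        rw [card_filter]
        refine sum_le_sum fun ε _ => ?_
        split_ifs with h
        · have := rk_quot_le hp hG (Hs e ε) l
          omega
        · have := rk_Hs_lt hp hG e ε h
          omega
      exact (Nat.mul_le_mul_left _ h1).trans (card_all p he (pw_ne_of_rk hp hG (by omega)))
    · have h1 : ∑ ε : κ → ι → Bool, (rk p (G ⧸ Hs e ε) l - 1) = 0 := by
        refine sum_eq_zero fun ε _ => ?_
        have := rk_quot_le hp hG (Hs e ε) l
        omega
      rw [h1, mul_zero]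
      exact Nat.zero_le _

theorem pw_quot_bot (H : AddSubgroup G) {n : ℕ} (h : pw p G n = ⊥) : pw p (G ⧸ H) n = ⊥ := by
  rw [pw_quot, h, AddSubgroup.map_bot]

/-- revealing `|κ|` random subset sums of the generators: on average
`bb (G/H) <= 2^(-|κ|) lam 2 + |ι| lam 3` -/
theorem reveal [Finite G] [Fintype κ] [DecidableEq ι] [DecidableEq κ] (hp : p.Prime)
    (hG : ∃ n, Nat.card G = p ^ n)
    {e : ι → G} (he : AddSubgroup.closure (Set.range e) = ⊤) :
    2 ^ Fintype.card κ * ∑ ε : κ → ι → Bool, bb p (G ⧸ Hs e ε) ≤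
      2 ^ (Fintype.card κ * Fintype.card ι) * (lam p G 2 +
        2 ^ Fintype.card κ * Fintype.card ι * lam p G 3) := by
  have h1 : ∀ ε : κ → ι → Bool, bb p (G ⧸ Hs e ε) =
      ∑ l ∈ range (Nat.log p (Nat.card G)), (rk p (G ⧸ Hs e ε) l - 1) := fun ε =>
    bb_eq hp (card_quot hp hG _) _ (pw_quot_bot _ (pw_log hG hp))
  simp_rw [h1]
  rw [sum_comm, mul_sum]
  refine (sum_le_sum (g := fun l => 2 ^ (Fintype.card κ * Fintype.card ι) *
    ((if 2 ≤ rk p G l then 1 else 0) +
      2 ^ Fintype.card κ * Fintype.card ι * (if 3 ≤ rk p G l then 1 else 0))) fun l _ => ?_).trans ?_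
  · exact level_bound (κ := κ) hp hG he l
  · rw [← mul_sum, sum_add_distrib, ← mul_sum]
    unfold lam
    rw [card_filter, card_filter]

open Classical in
/-- a nonzero cyclic `G` is revealed completely outside a set of density `2^(-|κ|)` -/
theorem reveal_cyc [Finite G] [Fintype κ] [DecidableEq ι] [DecidableEq κ] (hp : p.Prime) (hG : ∃ n, Nat.card G = p ^ n)
    {e : ι → G} (he : AddSubgroup.closure (Set.range e) = ⊤) (h1 : rk p G 0 ≤ 1) :
    2 ^ Fintype.card κ * (univ.filter fun ε : κ → ι → Bool => Hs e ε ≠ ⊤).card ≤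
      2 ^ (Fintype.card κ * Fintype.card ι) := by
  have hkey : ∀ ε : κ → ι → Bool, rk p (G ⧸ Hs e ε) 0 = 0 → Hs e ε = ⊤ := by
    intro ε h
    rw [rk_eq_zero_iff hp (card_quot hp hG _), pw_zero] at h
    have h2 : ∀ q : G ⧸ Hs e ε, q = 0 := fun q => by
      have : q ∈ (⊤ : AddSubgroup (G ⧸ Hs e ε)) := AddSubgroup.mem_top q
      rw [h] at this
      exact (AddSubgroup.mem_bot).1 this
    rw [AddSubgroup.eq_top_iff']
    intro g
    exact (QuotientAddGroup.eq_zero_iff g).1 (h2 (g : G ⧸ Hs e ε))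
  by_cases h0 : rk p G 0 = 0
  · have : (univ.filter fun ε : κ → ι → Bool => Hs e ε ≠ ⊤) = ∅ := by
      rw [filter_eq_empty_iff]
      intro ε _ h
      apply h
      apply hkey
      have := rk_quot_le hp hG (Hs e ε) 0
      omega
    rw [this, card_empty, mul_zero]
    exact Nat.zero_le _
  · refine (Nat.mul_le_mul_left _ (card_le_card ?_)).trans
      (card_all (κ := κ) p he (pw_ne_of_rk hp hG (l := 0) (by omega)))
    intro ε hε
    rw [mem_filter] at hε ⊢
    refine ⟨mem_univ _, ?_⟩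
    by_contra hcon
    have := rk_Hs_lt hp hG e ε hcon
    exact hε.2 (hkey ε (by omega))

end count

end Vale.Agent.P160.Half.Rev
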