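import Vale.Agent.P160.Half.Fail3
import Vale.Agent.P160.Half.Reveal

/-!
# Failures: the two counts of 10294 (5), and the bridge to `Rev.lam`
-/

namespace Vale.Agent.P160.Half.Fail

open Finset

section main

variable {α : Type*} {ρ : ℕ}

/-- the quotient `ℤ^ρ / K_R` -/
abbrev QR (K : AddSubgroup (α → ℤ)) (R : Fin ρ → α) : Type := (Fin ρ → ℤ) ⧸ KR K R

theorem finite_QR (K : AddSubgroup (α → ℤ)) (R : Fin ρ → α) (h : (KR K R).index ≠ 0) :
    Finite (QR K R) := by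
  rw [AddSubgroup.index_eq_card] at h
  exact Nat.finite_of_card_ne_zero h

theorem cnt_ne (K : AddSubgroup (α → ℤ)) (R : Fin ρ → α) (h : (KR K R).index ≠ 0) (i : Fin ρ) :
    cnt (KR K R) i ≠ 0 := by
  rw [index_eq_prod] at h
  exact prod_ne_zero_iff.1 h i (mem_univ i)

open Classical in
/-- the exponents of any finite quotient of `ℤ^ρ / K_R` -/
theorem lam_le_late' {G : Type*} [AddCommGroup G] [Finite G] (K : AddSubgroup (α → ℤ))
    (R : Fin ρ → α) (h : (KR K R).index ≠ 0) (φ : (Fin ρ → ℤ) →+ G)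
    (hφ : Function.Surjective φ) (hK : KR K R ≤ φ.ker) {p : ℕ} (hp : p.Prime) (k b : ℕ) :
    lam p (k + 1) G ≤ ρ * (b - 1) + ∑ i : Fin ρ,
      if late (fun t => Fl K (p ^ b) t R) k i then (cnt (KR K R) i).factorization p else 0 :=
  lam_le_late (fun j => φ (Pi.single j 1)) (cnt (KR K R)) (closure_single φ hφ) (cnt_ne K R h)
    (fun i => cnt_smul_mem _ φ hK i) hp k b _ (fun i hi => not_Fl K hp i R (cnt_ne K R h i) hi)

/-- `k` failures -/
theorem exists_fail {G : Type*} [AddCommGroup G] [Finite G] (K : AddSubgroup (α → ℤ))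
    (R : Fin ρ → α) (h : (KR K R).index ≠ 0) (φ : (Fin ρ → ℤ) →+ G)
    (hφ : Function.Surjective φ) (hK : KR K R ≤ φ.ker) {p : ℕ} (hp : p.Prime) (k b : ℕ)
    (hl : ρ * (b - 1) < lam p k G) :
    ∃ T : Finset (Fin ρ), T.card = k ∧ ∀ t ∈ T, Fl K (p ^ b) t R := by
  classical
  by_cases hk : k ≤ (univ.filter fun t => Fl K (p ^ b) t R).card
  · obtain ⟨T, hT, hTk⟩ := exists_subset_card_eq hk
    exact ⟨T, hTk, fun t ht => (mem_filter.1 (hT ht)).2⟩
  · exfalso
    rw [not_le] at hk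
    obtain ⟨k', rfl⟩ : ∃ k', k = k' + 1 := ⟨k - 1, by omega⟩
    have h1 := lam_le_sum (fun j => φ (Pi.single j 1)) (cnt (KR K R)) (closure_single φ hφ)
      (cnt_ne K R h) (fun i => cnt_smul_mem _ φ hK i) hp k'
      (univ.filter fun t => Fl K (p ^ b) t R) (by omega)
    have h2 : ∀ i ∈ (univ.filter fun t => Fl K (p ^ b) t R)ᶜ,
        (cnt (KR K R) i).factorization p ≤ b - 1 := by
      intro i hi
      rw [mem_compl, mem_filter, not_and] at hi
      have := not_Fl K hp i R (cnt_ne K R h i) (hi (mem_univ _))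
      omega
    have h3 := h1.trans (sum_le_card_nsmul _ _ _ h2)
    have h4 : ((univ.filter fun t => Fl K (p ^ b) t R)ᶜ).card ≤ ρ :=
      (card_le_univ _).trans (by simp)
    have h5 : ((univ.filter fun t => Fl K (p ^ b) t R)ᶜ).card • (b - 1) ≤ ρ * (b - 1) := by
      rw [smul_eq_mul]; exact Nat.mul_le_mul_right _ h4
    omega

variable [Fintype α]

/-- **(C)** `k` failures have density at most `(ρ K0 / m)^k` -/
theorem count_fail_of (K : AddSubgroup (α → ℤ)) {p : ℕ} (hp : p.Prime) (b K0 : ℕ)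
    (hFl : ∀ (t : Fin ρ) (R : Fin ρ → α),
      {a | Fl K (p ^ b) t (Function.update R t a)}.ncard ≤ K0) (k : ℕ)
    (Bad : Finset (Fin ρ → α))
    (hBad : ∀ R ∈ Bad, (KR K R).index ≠ 0 ∧ ρ * (b - 1) < lam p k (QR K R)) :
    (Fintype.card α : ℝ) ^ k * (Bad.card : ℝ) ≤
      ((ρ : ℝ) * K0) ^ k * (Fintype.card α : ℝ) ^ ρ := by
  classical
  have h1 := sum_fail_le' (α := α) (ρ := ρ) (fun t R => Fl K (p ^ b) t R) K0
    (fun t s R a h => Fl_update K _ t s R a h) hFl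
    univ k (fun _ => 1) (fun _ => zero_le_one) (fun _ _ _ _ => rfl) (fun R => R ∈ Bad) (by
      intro R hR
      obtain ⟨h0, hl⟩ := hBad R hR
      have : Finite (QR K R) := finite_QR K R h0
      obtain ⟨T, hTk, hT⟩ := exists_fail K R h0 (QuotientAddGroup.mk' (KR K R))
        (QuotientAddGroup.mk'_surjective _) (by rw [QuotientAddGroup.ker_mk']) hp k b hl
      exact ⟨T, subset_univ _, hTk, hT⟩)
  have h2 : ∑ R : Fin ρ → α, (if R ∈ Bad then (1 : ℝ) else 0) = Bad.card := by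
    rw [← sum_filter, filter_mem_eq_inter, univ_inter, sum_const, nsmul_eq_mul, mul_one]
  have h3 : ∑ _R : Fin ρ → α, (1 : ℝ) = (Fintype.card α : ℝ) ^ ρ := by
    rw [sum_const, card_univ, nsmul_eq_mul, mul_one, Fintype.card_fun, Fintype.card_fin]
    push_cast; rfl
  rw [h2, h3] at h1
  exact h1

/-- **(W)** the expected exponents -/
theorem count_lam_of (K : AddSubgroup (α → ℤ)) (PP : Finset ℕ) (hPP : ∀ p ∈ PP, p.Prime)
    (b : ℕ → ℕ) (K0 : ℕ)
    (hFl : ∀ p ∈ PP, ∀ (t : Fin ρ) (R : Fin ρ → α),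
      {a | Fl K (p ^ b p) t (Function.update R t a)}.ncard ≤ K0) (k : ℕ) (B : ℝ) (hB : 1 ≤ B)
    (Good : Finset (Fin ρ → α))
    (hGood : ∀ R ∈ Good, (KR K R).index ≠ 0 ∧ ((KR K R).index : ℝ) ≤ B) :
    (Fintype.card α : ℝ) ^ k * ∑ R ∈ Good, ∑ p ∈ PP,
        ((lam p (k + 1) (QR K R) - ρ * (b p - 1) : ℕ) : ℝ) * Real.log p ≤
      ((ρ : ℝ) * K0) ^ k * (Fintype.card α : ℝ) ^ ρ * Real.log B := by
  classical
  set ok : Fin ρ → (Fin ρ → α) → Prop := fun i R =>
    (∏ j ∈ univ.filter (· ≤ i), cnt (KR K R) j) ≠ 0 ∧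
      ((∏ j ∈ univ.filter (· ≤ i), cnt (KR K R) j : ℕ) : ℝ) ≤ B with hok
  set g : Fin ρ → ℕ → (Fin ρ → α) → ℝ := fun i p R =>
    if ok i R then ((cnt (KR K R) i).factorization p : ℝ) * Real.log p else 0 with hg
  have hlog : ∀ p ∈ PP, 0 ≤ Real.log p := fun p hp =>
    Real.log_nonneg (by exact_mod_cast (hPP p hp).one_lt.le)
  have hg0 : ∀ i, ∀ p ∈ PP, ∀ R, 0 ≤ g i p R := by
    intro i p hp R
    simp only [hg]
    split_ifs
    · exact mul_nonneg (Nat.cast_nonneg _) (hlog p hp)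
    · exact le_rfl
  -- step 1
  have h1 : ∑ R ∈ Good, ∑ p ∈ PP,
        ((lam p (k + 1) (QR K R) - ρ * (b p - 1) : ℕ) : ℝ) * Real.log p
      ≤ ∑ R : Fin ρ → α, ∑ p ∈ PP, ∑ i : Fin ρ,
        (if late (fun t => Fl K (p ^ b p) t R) k i then g i p R else 0) := by
    have h2 : ∀ R ∈ Good, ∑ p ∈ PP,
        ((lam p (k + 1) (QR K R) - ρ * (b p - 1) : ℕ) : ℝ) * Real.log p
        ≤ ∑ p ∈ PP, ∑ i : Fin ρ,
        (if late (fun t => Fl K (p ^ b p) t R) k i then g i p R else 0) := by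
      intro R hR
      obtain ⟨hR0, hRB⟩ := hGood R hR
      have : Finite (QR K R) := finite_QR K R hR0
      have hokR : ∀ i, ok i R := by
        intro i
        have hd : (∏ j ∈ univ.filter (· ≤ i), cnt (KR K R) j) ∣ (KR K R).index := by
          rw [index_eq_prod]
          exact prod_dvd_prod_of_subset _ _ _ (subset_univ _)
        refine ⟨fun h0 => hR0 (Nat.eq_zero_of_zero_dvd (h0 ▸ hd)), le_trans ?_ hRB⟩
        exact_mod_cast Nat.le_of_dvd (Nat.pos_of_ne_zero hR0) hd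
      refine sum_le_sum fun p hp => ?_
      have h3 : lam p (k + 1) (QR K R) ≤ ρ * (b p - 1) + ∑ i : Fin ρ,
          if late (fun t => Fl K (p ^ b p) t R) k i then (cnt (KR K R) i).factorization p else 0 :=
        lam_le_late' K R hR0 (QuotientAddGroup.mk' (KR K R))
        (QuotientAddGroup.mk'_surjective _) (by rw [QuotientAddGroup.ker_mk']) (hPP p hp) k (b p)
      have h4 : (lam p (k + 1) (QR K R) - ρ * (b p - 1) : ℕ) ≤ ∑ i : Fin ρ,
          if late (fun t => Fl K (p ^ b p) t R) k i then (cnt (KR K R) i).factorization p else 0 := by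
        omega
      have h5 : ((lam p (k + 1) (QR K R) - ρ * (b p - 1) : ℕ) : ℝ) ≤ ∑ i : Fin ρ,
          if late (fun t => Fl K (p ^ b p) t R) k i
          then ((cnt (KR K R) i).factorization p : ℝ) else 0 := by
        refine (Nat.cast_le (α := ℝ).2 h4).trans (le_of_eq ?_)
        push_cast
        rfl
      refine (mul_le_mul_of_nonneg_right h5 (hlog p hp)).trans (le_of_eq ?_)
      rw [sum_mul]
      refine sum_congr rfl fun i _ => ?_
      simp only [hg, if_pos (hokR i), ite_mul, zero_mul]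
    refine (sum_le_sum h2).trans (sum_le_sum_of_subset_of_nonneg (subset_univ _) ?_)
    intro R _ _
    refine sum_nonneg fun p hp => sum_nonneg fun i _ => ?_
    split_ifs
    · exact hg0 i p hp R
    · exact le_rfl
  -- step 2
  have h2 : ∑ R : Fin ρ → α, ∑ p ∈ PP, ∑ i : Fin ρ,
        (if late (fun t => Fl K (p ^ b p) t R) k i then g i p R else 0)
      = ∑ p ∈ PP, ∑ i : Fin ρ, ∑ R : Fin ρ → α,
        (if late (fun t => Fl K (p ^ b p) t R) k i then g i p R else 0) := by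
    rw [sum_comm]
    refine sum_congr rfl fun p _ => ?_
    rw [sum_comm]
  have h3 : ∀ p ∈ PP, ∀ i : Fin ρ, (Fintype.card α : ℝ) ^ k * ∑ R : Fin ρ → α,
        (if late (fun t => Fl K (p ^ b p) t R) k i then g i p R else 0)
      ≤ ((ρ : ℝ) * K0) ^ k * ∑ R, g i p R := by
    intro p hp i
    refine sum_fail_le' (α := α) (ρ := ρ) (fun t R => Fl K (p ^ b p) t R) K0
      (fun t s R a h => Fl_update K _ t s R a h) (hFl p hp)
      (univ.filter (i < ·)) k (g i p) (hg0 i p hp) ?_ (fun R => late (fun t => Fl K (p ^ b p) t R) k i) ?_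
    · intro t ht R a
      have hit : i < t := (mem_filter.1 ht).2
      have h4 : ∀ j ≤ i, cnt (KR K (Function.update R t a)) j = cnt (KR K R) j := by
        intro j hj
        refine cnt_congr K _ _ j fun s hs => ?_
        rw [Function.update_of_ne]
        exact ne_of_lt (lt_of_le_of_lt (hs.trans hj) hit)
      have h5 : ∏ j ∈ univ.filter (· ≤ i), cnt (KR K (Function.update R t a)) j
          = ∏ j ∈ univ.filter (· ≤ i), cnt (KR K R) j :=
        prod_congr rfl fun j hj => h4 j (mem_filter.1 hj).2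
      simp only [hg, hok]
      rw [h5, h4 i le_rfl]
    · rintro R ⟨T, hTk, hT⟩
      exact ⟨T, fun t ht => mem_filter.2 ⟨mem_univ _, (hT t ht).1⟩, hTk, fun t ht => (hT t ht).2⟩
  -- step 3
  have h4 : ∀ R : Fin ρ → α, ∑ p ∈ PP, ∑ i : Fin ρ, g i p R ≤ Real.log B := by
    intro R
    rw [sum_comm]
    refine le_trans (sum_le_sum fun i _ => ?_) (sum_log_le (cnt (KR K R)) B hB)
    by_cases hi : ok i R
    · rw [if_pos hi]
      simp only [hg, if_pos hi]
      refine sum_primes_log_le PP hPP ?_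
      intro h0
      exact hi.1 (prod_eq_zero (mem_filter.2 ⟨mem_univ _, le_rfl⟩) h0)
    · rw [if_neg hi]
      simp only [hg, if_neg hi, sum_const_zero, le_refl]
  calc (Fintype.card α : ℝ) ^ k * ∑ R ∈ Good, ∑ p ∈ PP,
        ((lam p (k + 1) (QR K R) - ρ * (b p - 1) : ℕ) : ℝ) * Real.log p
      ≤ (Fintype.card α : ℝ) ^ k * ∑ p ∈ PP, ∑ i : Fin ρ, ∑ R : Fin ρ → α,
        (if late (fun t => Fl K (p ^ b p) t R) k i then g i p R else 0) := by
        rw [← h2]; exact mul_le_mul_of_nonneg_left h1 (by positivity)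
    _ = ∑ p ∈ PP, ∑ i : Fin ρ, (Fintype.card α : ℝ) ^ k * ∑ R : Fin ρ → α,
        (if late (fun t => Fl K (p ^ b p) t R) k i then g i p R else 0) := by
        rw [mul_sum]
        refine sum_congr rfl fun p _ => ?_
        rw [mul_sum]
    _ ≤ ∑ p ∈ PP, ∑ i : Fin ρ, ((ρ : ℝ) * K0) ^ k * ∑ R, g i p R :=
        sum_le_sum fun p hp => sum_le_sum fun i _ => h3 p hp i
    _ = ((ρ : ℝ) * K0) ^ k * ∑ R : Fin ρ → α, ∑ p ∈ PP, ∑ i : Fin ρ, g i p R := by
        have h6 : ∑ R : Fin ρ → α, ∑ p ∈ PP, ∑ i : Fin ρ, g i p R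
            = ∑ p ∈ PP, ∑ i : Fin ρ, ∑ R : Fin ρ → α, g i p R := by
          rw [sum_comm]
          refine sum_congr rfl fun p _ => ?_
          rw [sum_comm]
        rw [h6, mul_sum]
        refine sum_congr rfl fun p _ => ?_
        rw [mul_sum]
    _ ≤ ((ρ : ℝ) * K0) ^ k * ∑ _R : Fin ρ → α, Real.log B :=
        mul_le_mul_of_nonneg_left (sum_le_sum fun R _ => h4 R) (by positivity)
    _ = _ := by
        rw [sum_const, card_univ, nsmul_eq_mul, Fintype.card_fun, Fintype.card_fin]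
        push_cast
        ring

/-- **(C)** with the hypothesis `hKZ` -/
theorem count_fail (K : AddSubgroup (α → ℤ)) {p : ℕ} (hp : p.Prime) (b K0 : ℕ)
    (hKZ : ∀ u ∈ K, u ≠ 0 → ∃ (s : ℤ) (u' : α → ℤ), u' ∈ K ∧ u = s • u' ∧
      {j | ((p ^ b : ℕ) : ℤ) ∣ u' j}.ncard ≤ K0) (k : ℕ)
    (Bad : Finset (Fin ρ → α))
    (hBad : ∀ R ∈ Bad, (KR K R).index ≠ 0 ∧ ρ * (b - 1) < lam p k (QR K R)) :
    (Fintype.card α : ℝ) ^ k * (Bad.card : ℝ) ≤
      ((ρ : ℝ) * K0) ^ k * (Fintype.card α : ℝ) ^ ρ :=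
  count_fail_of K hp b K0 (fun t R => card_Fl_le K _ K0 hKZ t R) k Bad hBad

/-- **(W)** with the hypothesis `hKZ` -/
theorem count_lam (K : AddSubgroup (α → ℤ)) (PP : Finset ℕ) (hPP : ∀ p ∈ PP, p.Prime)
    (b : ℕ → ℕ) (K0 : ℕ)
    (hKZ : ∀ p ∈ PP, ∀ u ∈ K, u ≠ 0 → ∃ (s : ℤ) (u' : α → ℤ), u' ∈ K ∧ u = s • u' ∧
      {j | ((p ^ b p : ℕ) : ℤ) ∣ u' j}.ncard ≤ K0) (k : ℕ) (B : ℝ) (hB : 1 ≤ B)
    (Good : Finset (Fin ρ → α))
    (hGood : ∀ R ∈ Good, (KR K R).index ≠ 0 ∧ ((KR K R).index : ℝ) ≤ B) :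
    (Fintype.card α : ℝ) ^ k * ∑ R ∈ Good, ∑ p ∈ PP,
        ((lam p (k + 1) (QR K R) - ρ * (b p - 1) : ℕ) : ℝ) * Real.log p ≤
      ((ρ : ℝ) * K0) ^ k * (Fintype.card α : ℝ) ^ ρ * Real.log B :=
  count_lam_of K PP hPP b K0 (fun p hp t R => card_Fl_le K _ K0 (hKZ p hp) t R) k B hB Good hGood

/-- `hFl` from a count of the rows (the form of `AvgStmt`) -/
theorem hFl_of_card (K : AddSubgroup (α → ℤ)) (q K0 : ℕ) (t : Fin ρ) (R : Fin ρ → α)
    (h : Nat.card {r : α // ∀ u ∈ K, (∀ j < t, u (R j) = 0) → ((q : ℕ) : ℤ) ∣ u r} ≤ K0) :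
    {a | Fl K q t (Function.update R t a)}.ncard ≤ K0 := by
  refine le_trans ?_ h
  have h1 : {a | Fl K q t (Function.update R t a)}
      ⊆ {r : α | ∀ u ∈ K, (∀ j < t, u (R j) = 0) → ((q : ℕ) : ℤ) ∣ u r} := by
    intro a ha u hu hz
    have h2 := ha.2 u hu ?_
    · rwa [Function.update_self] at h2
    · intro j hj
      rw [Function.update_of_ne (ne_of_lt hj)]
      exact hz j hj
  exact Set.ncard_le_ncard h1 (Set.toFinite _)

/-- the index of `K_R` from a bound of the contents (the form of `AvgStmt`) -/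
theorem index_le_of (K : AddSubgroup (α → ℤ)) (R : Fin ρ → α) (B : ℝ) (hB : 0 ≤ B)
    (h : ∀ i : Fin ρ, (∃ u ∈ K, (∀ j < i, u (R j) = 0) ∧ u (R i) ≠ 0) →
      ∃ u ∈ K, (∀ j < i, u (R j) = 0) ∧ u (R i) ≠ 0 ∧ Real.logb 2 |(u (R i) : ℝ)| ≤ B)
    (h0 : (KR K R).index ≠ 0) : ((KR K R).index : ℝ) ≤ (2 : ℝ) ^ ((ρ : ℝ) * B) := by
  classical
  have h1 : ∀ i, (cnt (KR K R) i : ℝ) ≤ (2 : ℝ) ^ B := by
    intro i
    have hc := cnt_ne K R h0 i
    obtain ⟨v, ⟨w, hw, rfl⟩, hv, hi⟩ := exists_cnt (KR K R) i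
    obtain ⟨u, hu, hz, hne, hle⟩ := h i ⟨w, hw, fun j hj => hv j hj, by
      intro h2
      have h3 : w (R i) = cnt (KR K R) i := hi
      rw [h2] at h3
      exact hc (by exact_mod_cast h3.symm)⟩
    have hd := cnt_dvd (KR K R) i (u := u ∘ R) ⟨u, hu, rfl⟩ (fun j hj => hz j hj)
    have hd' : (cnt (KR K R) i : ℤ) ≤ |u (R i)| := by
      have := Int.le_of_dvd (abs_pos.2 hne) ((dvd_abs _ _).2 hd)
      exact this
    have h4 : (cnt (KR K R) i : ℝ) ≤ |(u (R i) : ℝ)| := by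
      have : ((cnt (KR K R) i : ℤ) : ℝ) ≤ ((|u (R i)| : ℤ) : ℝ) := by exact_mod_cast hd'
      rw [Int.cast_abs] at this
      exact_mod_cast this
    refine h4.trans ?_
    have h5 : 0 < |(u (R i) : ℝ)| := abs_pos.2 (by exact_mod_cast hne)
    exact (Real.logb_le_iff_le_rpow (by norm_num) h5).1 hle
  rw [index_eq_prod]
  push_cast
  calc ∏ i, (cnt (KR K R) i : ℝ) ≤ ∏ _i : Fin ρ, (2 : ℝ) ^ B :=
        prod_le_prod (fun i _ => Nat.cast_nonneg _) fun i _ => h1 i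
    _ = (2 : ℝ) ^ ((ρ : ℝ) * B) := by
        rw [prod_const, card_univ, Fintype.card_fin, mul_comm, Real.rpow_mul (by norm_num),
          Real.rpow_natCast]

end main

end Vale.Agent.P160.Half.Fail
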