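import Vale.Agent.P160.Half.AvgC
import Vale.Agent.P160.Half.Fail4

/-!
# P160, rate 1/2: the average of the label costs over the rows and the revealed sums
-/

open Finset

namespace Vale.Agent.P160.Half.AvgF

open Vale.Agent.P160.Half.Fail Vale.Agent.P160.Half.AvgC

section one

variable {α : Type*} {ρ : ℕ} {X : Type*} [AddCommGroup X]

/-- `c ↦ ∑ c_i x_i` -/
def comb (x : Fin ρ → X) : (Fin ρ → ℤ) →+ X where
  toFun c := ∑ i, c i • x i
  map_zero' := by simp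
  map_add' a b := by simp [add_smul, sum_add_distrib]

theorem comb_apply (x : Fin ρ → X) (c : Fin ρ → ℤ) : comb x c = ∑ i, c i • x i := rfl

theorem comb_ker (K : AddSubgroup (α → ℤ)) (R : Fin ρ → α) (x : Fin ρ → X)
    (h : ∀ c : Fin ρ → ℤ, ∑ i, c i • x i = 0 ↔ ∃ u ∈ K, ∀ i, u (R i) = c i) :
    (comb x).ker = KR K R := by
  ext c
  rw [AddMonoidHom.mem_ker, comb_apply, h, mem_KR]
  constructor
  · rintro ⟨u, hu, h1⟩
    exact ⟨u, hu, funext fun i => (h1 i).symm⟩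
  · rintro ⟨u, hu, h1⟩
    exact ⟨u, hu, fun i => by rw [h1]; rfl⟩

theorem comb_range (x : Fin ρ → X) : (comb x).range = AddSubgroup.closure (Set.range x) := by
  apply le_antisymm
  · rintro _ ⟨c, rfl⟩
    rw [comb_apply]
    exact AddSubgroup.sum_mem _ fun i _ =>
      AddSubgroup.zsmul_mem _ (AddSubgroup.subset_closure (Set.mem_range_self i)) _
  · rw [AddSubgroup.closure_le]
    rintro _ ⟨i, rfl⟩
    refine ⟨Pi.single i 1, ?_⟩
    rw [comb_apply, sum_eq_single i]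
    · simp
    · intro j _ hj
      simp [Pi.single_eq_of_ne hj]
    · simp

/-- the map from the quotient -/
noncomputable def ff (K : AddSubgroup (α → ℤ)) (R : Fin ρ → α) (x : Fin ρ → X)
    (h : ∀ c : Fin ρ → ℤ, ∑ i, c i • x i = 0 ↔ ∃ u ∈ K, ∀ i, u (R i) = c i) : QR K R →+ X :=
  QuotientAddGroup.lift (KR K R) (comb x) (by rw [comb_ker K R x h])

theorem ff_range (K : AddSubgroup (α → ℤ)) (R : Fin ρ → α) (x : Fin ρ → X)
    (h : ∀ c : Fin ρ → ℤ, ∑ i, c i • x i = 0 ↔ ∃ u ∈ K, ∀ i, u (R i) = c i) :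
    (ff K R x h).range = AddSubgroup.closure (Set.range x) := by
  rw [← comb_range]
  ext y
  constructor
  · rintro ⟨q, rfl⟩
    obtain ⟨c, rfl⟩ := QuotientAddGroup.mk_surjective q
    exact ⟨c, rfl⟩
  · rintro ⟨c, rfl⟩
    exact ⟨QuotientAddGroup.mk c, rfl⟩

theorem index_ne [Finite X] (K : AddSubgroup (α → ℤ)) (R : Fin ρ → α) (x : Fin ρ → X)
    (h : ∀ c : Fin ρ → ℤ, ∑ i, c i • x i = 0 ↔ ∃ u ∈ K, ∀ i, u (R i) = c i) :
    (KR K R).index ≠ 0 := by
  rw [← comb_ker K R x h, AddSubgroup.index_ker]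
  exact Nat.card_pos.ne'

end one

section main

open Classical in
theorem avg : G.AvgStmt := by
  intro n ρ s y a z K B Dl d Pr 𝓡 Γ _ x hn ha hB hDl hfin hrel hd hPr hDlog hcard hcont
  set lv : ℕ → ℕ := fun p => if y ≤ p then 1 else a with hlv
  set ee : ℕ → ℕ := fun p => if y ≤ p then 0 else ρ * (a - 1) with hee
  have hele : ∀ p, ee p = ρ * (lv p - 1) := by
    intro p
    simp only [hee, hlv]
    split_ifs <;> simp
  have hFl : ∀ p ∈ Pr, ∀ (t : Fin ρ) (R : Fin ρ → Fin n),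
      {a | Fl K (p ^ lv p) t (Function.update R t a)}.ncard ≤ z := by
    intro p hp t R
    exact hFl_of_card K _ z t R (hcard p hp t R)
  have hidx : ∀ R ∈ 𝓡, (KR K R).index ≠ 0 := by
    intro R hR
    have := hfin R hR
    exact index_ne K R (x R) (hrel R hR)
  set B' : ℝ := (2 : ℝ) ^ ((ρ : ℝ) * B) with hB'
  have hB'1 : 1 ≤ B' := Real.one_le_rpow (by norm_num) (by positivity)
  have hidx2 : ∀ R ∈ 𝓡, ((KR K R).index : ℝ) ≤ B' := fun R hR =>
    index_le_of K R B hB (fun i => hcont i R) (hidx R hR)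
  have hlog2 : 0 < Real.log 2 := Real.log_pos (by norm_num)
  have hlogB : Real.log B' = ρ * B * Real.log 2 := by
    rw [hB', Real.log_rpow (by norm_num)]
  have hm : (Fintype.card (Fin n) : ℝ) = n := by simp
  have hn0 : (0 : ℝ) < n := by exact_mod_cast hn
  set w : ℝ := ρ * z / n with hw
  have hw0 : 0 ≤ w := by positivity
  have hwn : ∀ k : ℕ, (((ρ : ℝ) * z) ^ k) = w ^ k * (n : ℝ) ^ k := by
    intro k
    rw [← mul_pow]
    congr 1
    rw [hw]; field_simp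
  have hlogp : ∀ p ∈ Pr, 0 ≤ Real.logb 2 p := fun p hp =>
    Real.logb_nonneg (by norm_num) (by exact_mod_cast (hPr p hp).one_lt.le)
  -- counts of failures
  have hW : ∀ k : ℕ, ∀ p ∈ Pr,
      ((𝓡.filter fun R => ee p < lam p k (QR K R)).card : ℝ) ≤ w ^ k * (n : ℝ) ^ ρ := by
    intro k p hp
    have h1 := count_fail_of K (hPr p hp) (lv p) z (hFl p hp) k
      (𝓡.filter fun R => ee p < lam p k (QR K R)) (fun R hR => by
        rw [mem_filter] at hR
        refine ⟨hidx R hR.1, ?_⟩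
        rw [← hele]
        exact hR.2)
    rw [hm, hwn] at h1
    have h2 : (0 : ℝ) < (n : ℝ) ^ k := by positivity
    refine le_of_mul_le_mul_left (h1.trans (le_of_eq ?_)) h2
    ring
  -- sums of exponents
  have hL : ∀ k : ℕ, ∑ R ∈ 𝓡, ∑ p ∈ Pr,
      ((lam p (k + 1) (QR K R) - ee p : ℕ) : ℝ) * Real.logb 2 p ≤
        w ^ k * (n : ℝ) ^ ρ * (ρ * B) := by
    intro k
    have h1 := count_lam_of K Pr hPr lv z hFl k B' hB'1 𝓡 (fun R hR => ⟨hidx R hR, hidx2 R hR⟩)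
    rw [hm, hwn, hlogB] at h1
    have h2 : (0 : ℝ) < (n : ℝ) ^ k := by positivity
    have h3 : ∑ R ∈ 𝓡, ∑ p ∈ Pr, ((lam p (k + 1) (QR K R) - ρ * (lv p - 1) : ℕ) : ℝ) * Real.log p =
        Real.log 2 * ∑ R ∈ 𝓡, ∑ p ∈ Pr,
          ((lam p (k + 1) (QR K R) - ee p : ℕ) : ℝ) * Real.logb 2 p := by
      rw [mul_sum]
      refine sum_congr rfl fun R _ => ?_
      rw [mul_sum]
      refine sum_congr rfl fun p _ => ?_
      rw [hele, Real.logb]
      field_simp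
    rw [h3] at h1
    refine le_of_mul_le_mul_left ?_ (mul_pos h2 hlog2)
    calc (n : ℝ) ^ k * Real.log 2 * ∑ R ∈ 𝓡, ∑ p ∈ Pr,
          ((lam p (k + 1) (QR K R) - ee p : ℕ) : ℝ) * Real.logb 2 p
        = (n : ℝ) ^ k * (Real.log 2 * ∑ R ∈ 𝓡, ∑ p ∈ Pr,
          ((lam p (k + 1) (QR K R) - ee p : ℕ) : ℝ) * Real.logb 2 p) := by ring
      _ ≤ _ := h1
      _ = _ := by ring
  -- one pair
  have hone : ∀ R ∈ 𝓡, ∀ p ∈ Pr, ∑ c : Fin s → Fin ρ → Bool, G.cst ρ p (ee p)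
        (AddSubgroup.closure (Set.range fun t : Fin s => ∑ i, if c t i then x R i else 0))
        (AddSubgroup.closure (Set.range (x R))) ≤
      2 ^ (s * ρ) * (ρ + 1) * Real.logb 2 p *
        ((d p + 2 * ρ * ee p) * ((1 / 2) ^ s * (if ee p < lam p 1 (QR K R) then 1 else 0) +
          (if ee p < lam p 2 (QR K R) then 1 else 0)) +
        2 * ((1 / 2) ^ s * ((lam p 2 (QR K R) - ee p : ℕ) : ℝ) +
          ρ * ((lam p 3 (QR K R) - ee p : ℕ) : ℝ))) := by
    intro R hR p hp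
    have := hfin R hR
    have := finite_QR K R (hidx R hR)
    exact cst_avg (hPr p hp) (ff K R (x R) (hrel R hR)) (x R)
      (ff_range K R (x R) (hrel R hR)).symm (ee p) (d p) (hd R hR p)
  set Q : (Fin ρ → Fin n) → ℕ → ℝ := fun R p => ∑ c : Fin s → Fin ρ → Bool, G.cst ρ p (ee p)
        (AddSubgroup.closure (Set.range fun t : Fin s => ∑ i, if c t i then x R i else 0))
        (AddSubgroup.closure (Set.range (x R))) with hQ
  have hswap : ∑ R ∈ 𝓡, ∑ c : Fin s → Fin ρ → Bool, ∑ p ∈ Pr, G.cst ρ p (ee p)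
      (AddSubgroup.closure (Set.range fun t : Fin s => ∑ i, if c t i then x R i else 0))
      (AddSubgroup.closure (Set.range (x R))) = ∑ R ∈ 𝓡, ∑ p ∈ Pr, Q R p := by
    refine sum_congr rfl fun R _ => ?_
    rw [sum_comm]
  rw [hswap]
  refine (sum_le_sum fun R hR => sum_le_sum fun p hp => hone R hR p hp).trans ?_
  set C : ℝ := 2 ^ (s * ρ) * (ρ + 1) with hC
  have hC0 : 0 ≤ C := by positivity
  set h : ℝ := (1 / 2) ^ s with hh
  have hh0 : 0 ≤ h := by positivity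
  set I1 : (Fin ρ → Fin n) → ℕ → ℝ := fun R p => if ee p < lam p 1 (QR K R) then 1 else 0 with hI1
  set I2 : (Fin ρ → Fin n) → ℕ → ℝ := fun R p => if ee p < lam p 2 (QR K R) then 1 else 0 with hI2
  have e1 : ∑ R ∈ 𝓡, ∑ p ∈ Pr, C * Real.logb 2 p *
        ((d p + 2 * ρ * ee p) * (h * I1 R p + I2 R p) +
        2 * (h * ((lam p 2 (QR K R) - ee p : ℕ) : ℝ) + ρ * ((lam p 3 (QR K R) - ee p : ℕ) : ℝ))) =
      C * (∑ p ∈ Pr, Real.logb 2 p * (d p + 2 * ρ * ee p) *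
          (h * ∑ R ∈ 𝓡, I1 R p + ∑ R ∈ 𝓡, I2 R p) +
        2 * (h * ∑ R ∈ 𝓡, ∑ p ∈ Pr, ((lam p 2 (QR K R) - ee p : ℕ) : ℝ) * Real.logb 2 p +
          ρ * ∑ R ∈ 𝓡, ∑ p ∈ Pr, ((lam p 3 (QR K R) - ee p : ℕ) : ℝ) * Real.logb 2 p)) := by
    have e2 : ∑ p ∈ Pr, Real.logb 2 p * (d p + 2 * ρ * ee p) *
          (h * ∑ R ∈ 𝓡, I1 R p + ∑ R ∈ 𝓡, I2 R p) =
        ∑ R ∈ 𝓡, ∑ p ∈ Pr, Real.logb 2 p * (d p + 2 * ρ * ee p) * (h * I1 R p + I2 R p) := by
      rw [sum_comm]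
      refine sum_congr rfl fun p _ => ?_
      rw [mul_sum, ← sum_add_distrib, mul_sum]
    rw [e2]
    simp only [mul_sum]
    simp only [← sum_add_distrib, mul_sum]
    refine sum_congr rfl fun R _ => ?_
    refine sum_congr rfl fun p _ => ?_
    ring
  refine (le_of_eq e1).trans ?_
  have hI1s : ∀ p ∈ Pr, ∑ R ∈ 𝓡, I1 R p ≤ w * (n : ℝ) ^ ρ := by
    intro p hp
    have := hW 1 p hp
    rw [card_filter] at this
    push_cast at this
    rwa [pow_one] at this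
  have hI2s : ∀ p ∈ Pr, ∑ R ∈ 𝓡, I2 R p ≤ w ^ 2 * (n : ℝ) ^ ρ := by
    intro p hp
    have := hW 2 p hp
    rw [card_filter] at this
    push_cast at this
    exact this
  have hL2 := hL 1
  have hL3 := hL 2
  rw [pow_one] at hL2
  have hnρ : (0 : ℝ) ≤ (n : ℝ) ^ ρ := by positivity
  -- the weights
  have hwt : ∑ p ∈ Pr, Real.logb 2 p * (d p + 2 * ρ * ee p) ≤
      Dl + 2 * ρ * (ρ * a) * y * Real.logb 2 (y + 1) := by
    have h1 : ∑ p ∈ Pr, Real.logb 2 p * (d p + 2 * ρ * ee p) =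
        ∑ p ∈ Pr, (d p : ℝ) * Real.logb 2 p + ∑ p ∈ Pr, 2 * ρ * ee p * Real.logb 2 p := by
      rw [← sum_add_distrib]
      exact sum_congr rfl fun p _ => by ring
    rw [h1]
    refine add_le_add hDlog ?_
    have h2 : ∑ p ∈ Pr, 2 * ρ * ee p * Real.logb 2 p =
        ∑ p ∈ Pr.filter (fun p => p < y), 2 * ρ * ee p * Real.logb 2 p := by
      rw [sum_filter]
      refine sum_congr rfl fun p _ => ?_
      split_ifs with h3
      · rfl
      · simp only [hee]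
        rw [if_pos (not_lt.1 h3)]
        simp
    rw [h2]
    have h3 : ∀ p ∈ Pr.filter (fun p => p < y), 2 * (ρ : ℝ) * ee p * Real.logb 2 p ≤
        2 * ρ * (ρ * a) * Real.logb 2 (y + 1) := by
      intro p hp
      rw [mem_filter] at hp
      have h4 : (ee p : ℝ) ≤ ρ * a := by
        have : ee p ≤ ρ * a := by
          simp only [hee]
          split_ifs
          · exact Nat.zero_le _
          · exact Nat.mul_le_mul_left _ (Nat.sub_le _ _)
        exact_mod_cast this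
      have hp0 : (0 : ℝ) < p := by exact_mod_cast (hPr p hp.1).pos
      have h5 : Real.logb 2 p ≤ Real.logb 2 (y + 1) := by
        apply Real.logb_le_logb_of_le (by norm_num) hp0
        have : (p : ℝ) < y := by exact_mod_cast hp.2
        linarith
      have h6 := hlogp p hp.1
      refine mul_le_mul (mul_le_mul_of_nonneg_left h4 (by positivity)) h5 h6 (by positivity)
    refine (sum_le_sum h3).trans ?_
    rw [sum_const, nsmul_eq_mul]
    have h7 : ((Pr.filter (fun p => p < y)).card : ℝ) ≤ y := by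
      have : (Pr.filter (fun p => p < y)).card ≤ (range y).card :=
        card_le_card fun p hp => mem_range.2 (mem_filter.1 hp).2
      rw [card_range] at this
      exact_mod_cast this
    have h8 : 0 ≤ 2 * (ρ : ℝ) * (ρ * a) * Real.logb 2 (y + 1) := by
      have : 0 ≤ Real.logb 2 ((y : ℝ) + 1) :=
        Real.logb_nonneg (by norm_num) (by linarith [Nat.cast_nonneg (α := ℝ) y])
      positivity
    refine (mul_le_mul_of_nonneg_right h7 h8).trans (le_of_eq (by ring))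
  have hwtn : ∀ p ∈ Pr, 0 ≤ Real.logb 2 p * (d p + 2 * ρ * ee p) := fun p hp =>
    mul_nonneg (hlogp p hp) (by positivity)
  have hA : ∑ p ∈ Pr, Real.logb 2 p * (d p + 2 * ρ * ee p) *
      (h * ∑ R ∈ 𝓡, I1 R p + ∑ R ∈ 𝓡, I2 R p) ≤
      (Dl + 2 * ρ * (ρ * a) * y * Real.logb 2 (y + 1)) * ((h * w + w ^ 2) * (n : ℝ) ^ ρ) := by
    calc ∑ p ∈ Pr, Real.logb 2 p * (d p + 2 * ρ * ee p) *
          (h * ∑ R ∈ 𝓡, I1 R p + ∑ R ∈ 𝓡, I2 R p)
        ≤ ∑ p ∈ Pr, Real.logb 2 p * (d p + 2 * ρ * ee p) * ((h * w + w ^ 2) * (n : ℝ) ^ ρ) := by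
          refine sum_le_sum fun p hp => mul_le_mul_of_nonneg_left ?_ (hwtn p hp)
          have h1 := mul_le_mul_of_nonneg_left (hI1s p hp) hh0
          have h2 := hI2s p hp
          linarith
      _ = (∑ p ∈ Pr, Real.logb 2 p * (d p + 2 * ρ * ee p)) * ((h * w + w ^ 2) * (n : ℝ) ^ ρ) := by
          rw [sum_mul]
      _ ≤ _ := mul_le_mul_of_nonneg_right hwt (by positivity)
  have hB2 : 2 * (h * ∑ R ∈ 𝓡, ∑ p ∈ Pr, ((lam p 2 (QR K R) - ee p : ℕ) : ℝ) * Real.logb 2 p +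
      ρ * ∑ R ∈ 𝓡, ∑ p ∈ Pr, ((lam p 3 (QR K R) - ee p : ℕ) : ℝ) * Real.logb 2 p) ≤
      2 * (ρ * B) * (h * w + ρ * w ^ 2) * (n : ℝ) ^ ρ := by
    have h1 := mul_le_mul_of_nonneg_left hL2 hh0
    have h2 := mul_le_mul_of_nonneg_left hL3 (Nat.cast_nonneg (α := ℝ) ρ)
    calc _ ≤ 2 * (h * (w * (n : ℝ) ^ ρ * (ρ * B)) + ρ * (w ^ 2 * (n : ℝ) ^ ρ * (ρ * B))) := by
          linarith
      _ = _ := by ring
  refine (mul_le_mul_of_nonneg_left (add_le_add hA hB2) hC0).trans (le_of_eq ?_)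
  rw [hC]
  ring

end main

end Vale.Agent.P160.Half.AvgF
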