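import Mathlib

/-!
# Failures: the algebraic part of 10294 (5)

`lay p l G = [p^l G : p^(l+1) G]`, `lam p k G = #{l : p^k ≤ lay p l G}` (the `k`-th largest exponent
of the `p`-part of `G`).
-/

namespace Vale.Agent.P160.Half.Fail

open Finset

section Group

variable {G : Type*} [AddCommGroup G]

/-- `n G` -/
def mul (n : ℕ) (G : Type*) [AddCommGroup G] : AddSubgroup G :=
  (nsmulAddMonoidHom (α := G) n).range

theorem mem_mul {n : ℕ} {x : G} : x ∈ mul n G ↔ ∃ y : G, n • y = x := by
  simp [mul, AddMonoidHom.mem_range]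

/-- the order of `p^l G / p^(l+1) G` -/
noncomputable def lay (p l : ℕ) (G : Type*) [AddCommGroup G] : ℕ :=
  (mul (p ^ (l + 1)) G).relIndex (mul (p ^ l) G)

/-- the `k`-th largest exponent of the `p`-part -/
noncomputable def lam (p k : ℕ) (G : Type*) [AddCommGroup G] : ℕ :=
  {l : ℕ | p ^ k ≤ lay p l G}.ncard

/-- an element with `n • e ∈ H` adds an index dividing `n` -/
theorem relIndex_zmultiples_dvd (H : AddSubgroup G) (e : G) (n : ℕ) (h : n • e ∈ H) :
    H.relIndex (AddSubgroup.zmultiples e) ∣ n := by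
  have h1 : AddSubgroup.zmultiples e = (zmultiplesHom G e).range := rfl
  rw [h1, ← AddSubgroup.index_comap]
  have h2 : AddSubgroup.zmultiples (n : ℤ) ≤ AddSubgroup.comap (zmultiplesHom G e) H := by
    rw [AddSubgroup.zmultiples_le, AddSubgroup.mem_comap]
    simpa using h
  have h3 := AddSubgroup.index_dvd_of_le h2
  rwa [Int.index_zmultiples, Int.natAbs_natCast] at h3

theorem relIndex_sup_zmultiples_dvd (H : AddSubgroup G) (e : G) (n : ℕ) (h : n • e ∈ H) :
    H.relIndex (H ⊔ AddSubgroup.zmultiples e) ∣ n := by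
  rw [AddSubgroup.relIndex_sup_left]
  exact relIndex_zmultiples_dvd H e n h

theorem closure_insert (s : Set G) (e : G) :
    AddSubgroup.closure (insert e s) = AddSubgroup.closure s ⊔ AddSubgroup.zmultiples e := by
  rw [Set.insert_eq, AddSubgroup.closure_union, ← AddSubgroup.zmultiples_eq_closure, sup_comm]

/-- the multiples of `p` in a subgroup with `k` generators -/
theorem index_mul_of_gen {p : ℕ} (T : Finset G) (S : AddSubgroup G)
    (hS : S = AddSubgroup.closure (T : Set G)) :
    (S.map (nsmulAddMonoidHom (α := G) p)).relIndex S ∣ p ^ T.card := by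
  classical
  subst hS
  set H := (AddSubgroup.closure (T : Set G)).map (nsmulAddMonoidHom (α := G) p) with hH
  have hle : H ≤ AddSubgroup.closure (T : Set G) := by
    rw [hH]
    rintro x ⟨y, hy, rfl⟩
    exact AddSubgroup.nsmul_mem _ hy p
  have key : ∀ U : Finset G, U ⊆ T →
      H.relIndex (H ⊔ AddSubgroup.closure (U : Set G)) ∣ p ^ U.card := by
    intro U
    induction U using Finset.induction_on with
    | empty => intro _; simp
    | insert a U ha ih =>
      intro hU
      have ih' := ih (fun x hx => hU (mem_insert_of_mem hx))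
      rw [Finset.coe_insert, closure_insert, ← sup_assoc, card_insert_of_notMem ha, pow_succ,
        ← AddSubgroup.relIndex_mul_relIndex H (H ⊔ AddSubgroup.closure (U : Set G)) _ le_sup_left
          le_sup_left]
      refine Nat.mul_dvd_mul ih' (relIndex_sup_zmultiples_dvd _ _ _ ?_)
      refine (le_sup_left : H ≤ _) ?_
      rw [hH]
      exact ⟨a, AddSubgroup.subset_closure (hU (mem_insert_self _ _)), by simp⟩
  have := key T subset_rfl
  rwa [sup_eq_right.2 hle] at this

/-- the index of `p A` in `A` is the number of elements of `A` killed by `p` -/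
theorem relIndex_map_nsmul [Finite G] (p : ℕ) (A : AddSubgroup G) :
    (A.map (nsmulAddMonoidHom (α := G) p)).relIndex A
      = Nat.card (A ⊓ (nsmulAddMonoidHom (α := G) p).ker : AddSubgroup G) := by
  set f := nsmulAddMonoidHom (α := G) p with hf
  have hle : A.map f ≤ A := by
    rintro x ⟨y, hy, rfl⟩
    exact AddSubgroup.nsmul_mem _ hy p
  have h1 : Nat.card (A.map f) * (A.map f).relIndex A = Nat.card A := by
    rw [← AddSubgroup.relIndex_bot_left, ← AddSubgroup.relIndex_bot_left (H := A)]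
    exact AddSubgroup.relIndex_mul_relIndex _ _ _ bot_le hle
  have h2 : Nat.card (A ⊓ f.ker : AddSubgroup G) * f.ker.relIndex A = Nat.card A := by
    rw [← AddSubgroup.relIndex_bot_left, ← AddSubgroup.relIndex_bot_left (H := A),
      ← AddSubgroup.inf_relIndex_left A f.ker]
    exact AddSubgroup.relIndex_mul_relIndex _ _ _ bot_le inf_le_left
  rw [AddSubgroup.relIndex_ker] at h2
  have h3 : 0 < Nat.card (A.map f) := Nat.card_pos
  have h4 : Nat.card (A.map f) * (A.map f).relIndex A
      = Nat.card (A.map f) * Nat.card (A ⊓ f.ker : AddSubgroup G) := by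
    rw [h1, ← h2, mul_comm]
  exact Nat.eq_of_mul_eq_mul_left h3 h4

/-- a subgroup `A` of a group `S` with `k` generators has `[A : p A] ≤ p ^ k` -/
theorem relIndex_sub_le [Finite G] {p : ℕ} (hp : 0 < p) (T : Finset G) (A S : AddSubgroup G)
    (hS : S = AddSubgroup.closure (T : Set G)) (hA : A ≤ S) :
    (A.map (nsmulAddMonoidHom (α := G) p)).relIndex A ≤ p ^ T.card := by
  rw [relIndex_map_nsmul]
  have h1 : Nat.card (A ⊓ (nsmulAddMonoidHom (α := G) p).ker : AddSubgroup G)
      ≤ Nat.card (S ⊓ (nsmulAddMonoidHom (α := G) p).ker : AddSubgroup G) :=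
    Nat.card_le_card_of_injective
      (AddSubgroup.inclusion (inf_le_inf_right _ hA)) (AddSubgroup.inclusion_injective _)
  rw [← relIndex_map_nsmul p S] at h1
  exact h1.trans (Nat.le_of_dvd (pow_pos hp _) (index_mul_of_gen T S hS))

/-- the layers of a quotient -/
theorem lay_quot [Finite G] {p : ℕ} (hp : 0 < p) (l : ℕ) (T : Finset G) (S : AddSubgroup G)
    (hS : S = AddSubgroup.closure (T : Set G)) (h : lay p l (G ⧸ S) = 1) :
    lay p l G ≤ p ^ T.card := by
  have h1 : mul (p ^ l) (G ⧸ S) ≤ mul (p ^ (l + 1)) (G ⧸ S) :=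
    AddSubgroup.relIndex_eq_one.1 h
  have h2 : mul (p ^ l) G ≤ mul (p ^ (l + 1)) G ⊔ S := by
    intro x hx
    obtain ⟨y, rfl⟩ := mem_mul.1 hx
    have hy : ((p ^ l • y : G) : G ⧸ S) ∈ mul (p ^ (l + 1)) (G ⧸ S) :=
      h1 (mem_mul.2 ⟨(y : G ⧸ S), rfl⟩)
    obtain ⟨z, hz⟩ := mem_mul.1 hy
    obtain ⟨w, rfl⟩ := QuotientAddGroup.mk_surjective z
    have h3 : ((p ^ (l + 1) • w : G) : G ⧸ S) = ((p ^ l • y : G) : G ⧸ S) := hz
    rw [QuotientAddGroup.eq] at h3
    rw [AddSubgroup.mem_sup]
    exact ⟨p ^ (l + 1) • w, mem_mul.2 ⟨w, rfl⟩, _, h3, by abel⟩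
  have hle : mul (p ^ (l + 1)) G ≤ mul (p ^ l) G := by
    intro x hx
    obtain ⟨y, rfl⟩ := mem_mul.1 hx
    exact mem_mul.2 ⟨p • y, by rw [← mul_smul, ← pow_succ]⟩
  set A := S ⊓ mul (p ^ l) G with hA
  have h4 : mul (p ^ l) G = A ⊔ mul (p ^ (l + 1)) G := by
    apply le_antisymm
    · intro x hx
      obtain ⟨y, hy, z, hz, rfl⟩ := AddSubgroup.mem_sup.1 (h2 hx)
      rw [AddSubgroup.mem_sup]
      refine ⟨z, ⟨hz, ?_⟩, y, hy, add_comm _ _⟩
      have := AddSubgroup.sub_mem _ hx (hle hy)
      simpa using this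
    · exact sup_le inf_le_right hle
  have h5 : lay p l G = (mul (p ^ (l + 1)) G).relIndex A := by
    unfold lay
    conv_lhs => rw [h4]
    rw [AddSubgroup.relIndex_sup_right]
  rw [h5]
  have h6 : A.map (nsmulAddMonoidHom (α := G) p) ≤ mul (p ^ (l + 1)) G := by
    rintro x ⟨y, hy, rfl⟩
    obtain ⟨w, rfl⟩ := mem_mul.1 hy.2
    exact mem_mul.2 ⟨w, by simp [pow_succ', mul_smul]⟩
  have h7 : (mul (p ^ (l + 1)) G).relIndex A
      ≤ (A.map (nsmulAddMonoidHom (α := G) p)).relIndex A := by
    refine Nat.le_of_dvd (Nat.pos_of_ne_zero ?_) (AddSubgroup.relIndex_dvd_of_le_left A h6)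
    rw [relIndex_map_nsmul]
    exact Nat.card_pos.ne'
  exact h7.trans (relIndex_sub_le hp T A S hS inf_le_left)

/-- a layer is `1` or at least `p` (divisible by `p`) -/
theorem lay_dvd [Finite G] {p : ℕ} (hp : p.Prime) (l : ℕ) (h : lay p l G ≠ 1) : p ∣ lay p l G := by
  have h1 : ∃ r : ℕ, r.Prime ∧ r ∣ lay p l G := Nat.exists_prime_and_dvd h
  obtain ⟨r, hr, hd⟩ := h1
  have hr' : Fact r.Prime := ⟨hr⟩
  let Q := (mul (p ^ l) G) ⧸ ((mul (p ^ (l + 1)) G).addSubgroupOf (mul (p ^ l) G))
  have hQ : lay p l G = Nat.card Q := rfl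
  rw [hQ] at hd ⊢
  obtain ⟨x, hx⟩ := exists_prime_addOrderOf_dvd_card' (G := Q) r hd
  have h2 : p • x = 0 := by
    obtain ⟨y, rfl⟩ := QuotientAddGroup.mk_surjective x
    have : ((p • y : mul (p ^ l) G) : Q) = 0 := by
      rw [QuotientAddGroup.eq_zero_iff, AddSubgroup.mem_addSubgroupOf]
      obtain ⟨z, hz⟩ := mem_mul.1 y.2
      refine mem_mul.2 ⟨z, ?_⟩
      rw [pow_succ', mul_smul, hz]; rfl
    exact this
  have h3 : r ∣ p := hx ▸ addOrderOf_dvd_of_nsmul_eq_zero h2
  have h4 : r = p := (Nat.prime_dvd_prime_iff_eq hr hp).1 h3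
  rwa [h4] at hd

theorem card_mul_eq [Finite G] (p l : ℕ) :
    Nat.card (mul (p ^ (l + 1)) G) * lay p l G = Nat.card (mul (p ^ l) G) := by
  have hle : mul (p ^ (l + 1)) G ≤ mul (p ^ l) G := by
    intro x hx
    obtain ⟨y, rfl⟩ := mem_mul.1 hx
    exact mem_mul.2 ⟨p • y, by rw [← mul_smul, ← pow_succ]⟩
  rw [← AddSubgroup.relIndex_bot_left, ← AddSubgroup.relIndex_bot_left (H := mul (p ^ l) G)]
  exact AddSubgroup.relIndex_mul_relIndex _ _ _ bot_le hle

/-- layers from some point on: at most `v_p |G|` layers are nontrivial -/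
theorem card_layers [Finite G] {p : ℕ} (hp : p.Prime) (n : ℕ) :
    ((range n).filter fun l => p ≤ lay p l G).card
      + (Nat.card (mul (p ^ n) G)).factorization p ≤ (Nat.card G).factorization p := by
  induction n with
  | zero =>
    rw [range_zero, filter_empty, card_empty, zero_add]
    have : mul (p ^ 0) G = ⊤ := by
      rw [eq_top_iff]; intro x _; exact mem_mul.2 ⟨x, by simp⟩
    rw [this, Nat.card_congr (AddSubgroup.topEquiv (G := G)).toEquiv]
  | succ n ih =>
    refine le_trans ?_ ih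
    have h1 := card_mul_eq (G := G) p n
    have h2 : Nat.card (mul (p ^ (n + 1)) G) ≠ 0 := Nat.card_pos.ne'
    have h3 : lay p n G ≠ 0 := by
      intro h; rw [h, mul_zero] at h1; exact Nat.card_pos.ne' h1.symm
    rw [range_add_one, filter_insert, ← h1, Nat.factorization_mul h2 h3]
    simp only [Finsupp.coe_add, Pi.add_apply]
    split_ifs with h
    · rw [card_insert_of_notMem (by simp)]
      have h4 : lay p n G ≠ 1 := by
        intro h5; rw [h5] at h; exact absurd h (not_le.2 hp.one_lt)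
      have h5 : 1 ≤ (lay p n G).factorization p :=
        (hp.dvd_iff_one_le_factorization h3).1 (lay_dvd hp n h4)
      omega
    · omega

/-- beyond `v_p |G|`... the set of nontrivial layers is finite -/
theorem layers_finite [Finite G] {p : ℕ} (hp : p.Prime) : {l : ℕ | p ≤ lay p l G}.Finite := by
  by_contra h
  have h' : {l : ℕ | p ≤ lay p l G}.Infinite := h
  obtain ⟨t, ht, hc⟩ := h'.exists_subset_card_eq ((Nat.card G).factorization p + 1)
  have h1 : t ⊆ (range (t.sup id + 1)).filter fun l => p ≤ lay p l G := by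
    intro x hx
    rw [mem_filter, mem_range]
    exact ⟨Nat.lt_succ_of_le (Finset.le_sup (f := id) hx), ht hx⟩
  have h2 := card_le_card h1
  have h3 := card_layers (G := G) hp (t.sup id + 1)
  omega

theorem lam_one_le [Finite G] {p : ℕ} (hp : p.Prime) :
    {l : ℕ | p ≤ lay p l G}.ncard ≤ (Nat.card G).factorization p := by
  have hf := layers_finite (G := G) hp
  rw [Set.ncard_eq_toFinset_card _ hf]
  have h1 : hf.toFinset ⊆ (range (hf.toFinset.sup id + 1)).filter fun l => p ≤ lay p l G := by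
    intro x hx
    rw [mem_filter, mem_range]
    exact ⟨Nat.lt_succ_of_le (Finset.le_sup (f := id) hx), by simpa using hx⟩
  have h2 := card_le_card h1
  have h3 := card_layers (G := G) hp (hf.toFinset.sup id + 1)
  omega

/-- the exponents of `G` and of a quotient by a subgroup with `k` generators -/
theorem lam_le_quot [Finite G] {p : ℕ} (hp : p.Prime) (k : ℕ) (T : Finset G) (hT : T.card ≤ k)
    (S : AddSubgroup G) (hS : S = AddSubgroup.closure (T : Set G)) :
    lam p (k + 1) G ≤ (S.index).factorization p := by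
  have h1 : {l : ℕ | p ^ (k + 1) ≤ lay p l G} ⊆ {l : ℕ | p ≤ lay p l (G ⧸ S)} := by
    intro l hl
    have hl' : p ^ (k + 1) ≤ lay p l G := hl
    by_contra h
    have h2 : ¬ p ≤ lay p l (G ⧸ S) := h
    have h3 : lay p l (G ⧸ S) = 1 := by
      by_contra h4
      have h5 := lay_dvd (G := G ⧸ S) hp l h4
      have h6 : lay p l (G ⧸ S) ≠ 0 := by
        intro h7
        have := card_mul_eq (G := G ⧸ S) p l
        rw [h7, mul_zero] at this
        exact Nat.card_pos.ne' this.symm
      exact h2 (Nat.le_of_dvd (Nat.pos_of_ne_zero h6) h5)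
    have h4 := lay_quot hp.pos l T S hS h3
    have h5 : p ^ T.card ≤ p ^ k := Nat.pow_le_pow_right hp.pos hT
    have h6 : p ^ k < p ^ (k + 1) := Nat.pow_lt_pow_right hp.one_lt (Nat.lt_succ_self k)
    omega
  have h2 := Set.ncard_le_ncard h1 (layers_finite (G := G ⧸ S) hp)
  rw [AddSubgroup.index_eq_card]
  exact h2.trans (lam_one_le (G := G ⧸ S) hp)

/-- the subgroup generated by the generators with index at least `i` -/
def tail {ρ : ℕ} (e : Fin ρ → G) (i : ℕ) : AddSubgroup G :=
  AddSubgroup.closure (e '' {j | i ≤ (j : ℕ)})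

theorem tail_succ {ρ : ℕ} (e : Fin ρ → G) (i : Fin ρ) :
    tail e i = tail e (i + 1) ⊔ AddSubgroup.zmultiples (e i) := by
  unfold tail
  rw [← closure_insert, ← Set.image_insert_eq]
  congr 2
  ext j
  simp only [Set.mem_ofPred_eq, Set.mem_insert_iff]
  constructor
  · intro h
    rcases Nat.eq_or_lt_of_le h with h1 | h1
    · exact Or.inl (Fin.ext h1.symm)
    · exact Or.inr h1
  · rintro (h | h)
    · rw [h]
    · omega

theorem tail_last {ρ : ℕ} (e : Fin ρ → G) : tail e ρ = ⊥ := by
  unfold tail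
  have : {j : Fin ρ | ρ ≤ (j : ℕ)} = ∅ := by
    ext j; simp [j.2]
  rw [this]; simp

theorem tail_zero {ρ : ℕ} (e : Fin ρ → G) : tail e 0 = AddSubgroup.closure (Set.range e) := by
  unfold tail
  simp

/-- the index of the subgroup generated by a part of the generators -/
theorem index_dvd {ρ : ℕ} (e : Fin ρ → G) (c : Fin ρ → ℕ)
    (he : AddSubgroup.closure (Set.range e) = ⊤)
    (hc : ∀ i : Fin ρ, c i • e i ∈ tail e (i + 1)) (T : Finset (Fin ρ)) :
    (AddSubgroup.closure (e '' (T : Set (Fin ρ)))).index ∣ ∏ i ∈ Tᶜ, c i := by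
  classical
  set S := AddSubgroup.closure (e '' (T : Set (Fin ρ))) with hS
  have key : ∀ n : ℕ, n ≤ ρ → S.relIndex (tail e (ρ - n) ⊔ S)
      ∣ ∏ i ∈ (Tᶜ).filter (fun i : Fin ρ => ρ - n ≤ (i : ℕ)), c i := by
    intro n
    induction n with
    | zero =>
      intro _
      rw [Nat.sub_zero, tail_last, bot_sup_eq, AddSubgroup.relIndex_self]
      exact one_dvd _
    | succ n ih =>
      intro hn
      have ih' := ih (by omega)
      let i : Fin ρ := ⟨ρ - (n + 1), by omega⟩
      have hi : (i : ℕ) + 1 = ρ - n := by simp only [i]; omega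
      have hi0 : (i : ℕ) = ρ - (n + 1) := rfl
      have h1 := tail_succ e i
      rw [hi, hi0] at h1
      have h2 : tail e (ρ - (n + 1)) ⊔ S
          = (tail e (ρ - n) ⊔ S) ⊔ AddSubgroup.zmultiples (e i) := by
        rw [h1, sup_assoc, sup_comm (AddSubgroup.zmultiples (e i)) S, ← sup_assoc]
      rw [h2, ← AddSubgroup.relIndex_mul_relIndex S (tail e (ρ - n) ⊔ S) _ le_sup_right
        le_sup_left]
      by_cases hT : i ∈ T
      · have h3 : AddSubgroup.zmultiples (e i) ≤ tail e (ρ - n) ⊔ S := by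
          rw [AddSubgroup.zmultiples_le]
          refine (le_sup_right : S ≤ _) ?_
          exact AddSubgroup.subset_closure ⟨i, hT, rfl⟩
        rw [sup_eq_left.2 h3, AddSubgroup.relIndex_self, mul_one]
        refine ih'.trans (prod_dvd_prod_of_subset _ _ _ ?_)
        intro j hj
        rw [mem_filter] at hj ⊢
        exact ⟨hj.1, by omega⟩
      · have h3 : (Tᶜ).filter (fun j : Fin ρ => ρ - (n + 1) ≤ (j : ℕ))
            = insert i ((Tᶜ).filter (fun j : Fin ρ => ρ - n ≤ (j : ℕ))) := by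
          ext j
          simp only [mem_filter, mem_insert, mem_compl]
          constructor
          · rintro ⟨h4, h5⟩
            by_cases h6 : j = i
            · exact Or.inl h6
            · right
              refine ⟨h4, ?_⟩
              have : (j : ℕ) ≠ i := fun h => h6 (Fin.ext h)
              omega
          · rintro (h | h)
            · rw [h]; exact ⟨hT, by omega⟩
            · exact ⟨h.1, by omega⟩
        rw [h3, prod_insert (by simp only [mem_filter, not_and]; intro _; omega), mul_comm (c i)]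
        refine Nat.mul_dvd_mul ih' (relIndex_sup_zmultiples_dvd _ _ _ ?_)
        refine (le_sup_left : tail e (ρ - n) ≤ _) ?_
        rw [← hi]
        exact hc i
  have h := key ρ le_rfl
  rw [Nat.sub_self, tail_zero, he, top_sup_eq, AddSubgroup.relIndex_top_right] at h
  refine h.trans (prod_dvd_prod_of_subset _ _ _ (filter_subset _ _))

/-- **(KEY)** the `(k+1)`-st exponent is at most the sum of all `v_p (c i)` except `k` of them. -/
theorem lam_le_sum [Finite G] {ρ : ℕ} (e : Fin ρ → G) (c : Fin ρ → ℕ)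
    (he : AddSubgroup.closure (Set.range e) = ⊤) (hc0 : ∀ i, c i ≠ 0)
    (hc : ∀ i : Fin ρ, c i • e i ∈ tail e (i + 1)) {p : ℕ} (hp : p.Prime) (k : ℕ)
    (T : Finset (Fin ρ)) (hT : T.card ≤ k) :
    lam p (k + 1) G ≤ ∑ i ∈ Tᶜ, (c i).factorization p := by
  classical
  have h1 := lam_le_quot hp k (T.image e) (card_image_le.trans hT)
    (AddSubgroup.closure (e '' (T : Set (Fin ρ)))) (by rw [coe_image])
  have h2 := index_dvd e c he hc T
  have h3 : (∏ i ∈ Tᶜ, c i) ≠ 0 := prod_ne_zero_iff.2 fun i _ => hc0 i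
  have h4 := (Nat.factorization_le_iff_dvd (fun h => h3 (Nat.eq_zero_of_zero_dvd (h ▸ h2))) h3).2 h2 p
  rw [Nat.factorization_prod fun i _ => hc0 i] at h4
  simp only [Finsupp.coe_finsetSum, Finset.sum_apply] at h4
  exact h1.trans h4

/-- the last `k` elements of a finite set -/
theorem exists_last {α : Type*} [LinearOrder α] (W : Finset α) (k : ℕ) (hk : k ≤ W.card) :
    ∃ T ⊆ W, T.card = k ∧ ∀ i ∈ W, i ∉ T → ∀ t ∈ T, i < t := by
  induction k with
  | zero => exact ⟨∅, empty_subset _, rfl, fun i _ _ t ht => absurd ht (notMem_empty t)⟩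
  | succ k ih =>
    obtain ⟨T, hTW, hTk, hT⟩ := ih (by omega)
    have hne : (W \ T).Nonempty := by
      rw [← card_pos, card_sdiff_of_subset hTW]; omega
    set m := (W \ T).max' hne with hm
    have hmm : m ∈ W \ T := (W \ T).max'_mem hne
    rw [mem_sdiff] at hmm
    refine ⟨insert m T, insert_subset hmm.1 hTW, by rw [card_insert_of_notMem hmm.2, hTk], ?_⟩
    intro i hi hiT t ht
    rw [mem_insert, not_or] at hiT
    rcases mem_insert.1 ht with rfl | ht
    · exact lt_of_le_of_ne ((W \ T).le_max' i (mem_sdiff.2 ⟨hi, hiT.2⟩)) hiT.1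
    · exact hT i hi hiT.2 t ht

/-- `a i` with at least `k` `b`-failures after `i` -/
def late {ρ : ℕ} (F : Fin ρ → Prop) (k : ℕ) (i : Fin ρ) : Prop :=
  ∃ T : Finset (Fin ρ), T.card = k ∧ ∀ t ∈ T, i < t ∧ F t

/-- **(5)** with `T` = the last `k` failures -/
theorem lam_le_late [Finite G] {ρ : ℕ} (e : Fin ρ → G) (c : Fin ρ → ℕ)
    (he : AddSubgroup.closure (Set.range e) = ⊤) (hc0 : ∀ i, c i ≠ 0)
    (hc : ∀ i : Fin ρ, c i • e i ∈ tail e (i + 1)) {p : ℕ} (hp : p.Prime) (k b : ℕ)
    (F : Fin ρ → Prop) (hF : ∀ i, ¬ F i → (c i).factorization p < b)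
    [DecidablePred (late F k)] :
    lam p (k + 1) G ≤ ρ * (b - 1) +
      ∑ i : Fin ρ, if late F k i then (c i).factorization p else 0 := by
  classical
  -- the set of failures, and its last `k` elements
  have hT : ∃ T : Finset (Fin ρ), T.card ≤ k ∧ ∀ i, i ∉ T → F i → late F k i := by
    by_cases hk : k ≤ (univ.filter F).card
    · obtain ⟨T, hTW, hTk, hT⟩ := exists_last (univ.filter F) k hk
      refine ⟨T, hTk.le, fun i hi hFi => ⟨T, hTk, fun t ht => ⟨?_, ?_⟩⟩⟩
      · exact hT i (mem_filter.2 ⟨mem_univ _, hFi⟩) hi t ht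
      · exact (mem_filter.1 (hTW ht)).2
    · refine ⟨univ.filter F, by omega, fun i hi hFi => ?_⟩
      exact absurd (mem_filter.2 ⟨mem_univ _, hFi⟩) hi
  obtain ⟨T, hTk, hT⟩ := hT
  refine (lam_le_sum e c he hc0 hc hp k T hTk).trans ?_
  have h1 : ∀ i ∈ Tᶜ, (c i).factorization p
      ≤ (b - 1) + (if late F k i then (c i).factorization p else 0) := by
    intro i hi
    by_cases h : F i
    · rw [if_pos (hT i (mem_compl.1 hi) h)]
      exact Nat.le_add_left _ _
    · have := hF i h
      omega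
  refine (sum_le_sum h1).trans ?_
  rw [sum_add_distrib, sum_const, smul_eq_mul]
  refine Nat.add_le_add (Nat.mul_le_mul_right _ ?_) ?_
  · exact (card_le_univ _).trans (by simp)
  · exact sum_le_sum_of_subset (subset_univ _)

end Group

end Vale.Agent.P160.Half.Fail
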