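import Vale.Agent.P160.Half.Reveal
import Vale.Agent.P160.Half.Fail

/-!
# P160, rate 1/2: revealing subset sums, for the `p`-part of any finite abelian group

`bbp p G = v_p |G| - v_p exp G`.  The statements of `Reveal.lean` are transported from the
`p`-group `G / p^v G`, `v = v_p |G|`, and rewritten in the numbers of `Fail.lean`.
-/

open Finset

namespace Vale.Agent.P160.Half.RevG

open Vale.Agent.P160.Half.Rev Vale.Agent.P160.Half

/-- `v_p |G| - v_p exp G` -/
noncomputable def bbp (p : ℕ) (G : Type*) [AddCommGroup G] : ℕ :=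
  (Nat.card G).factorization p - (AddMonoid.exponent G).factorization p

section one

variable {p : ℕ} {G : Type*} [AddCommGroup G] [Finite G]

/-- the prime-to-`p` part -/
noncomputable def cop (p : ℕ) (G : Type*) [AddCommGroup G] : AddSubgroup G :=
  pw p G ((Nat.card G).factorization p)

theorem cop_coprime (hp : p.Prime) : Nat.Coprime p (Nat.card (cop p G)) := by
  have : Fact p.Prime := ⟨hp⟩
  rw [hp.coprime_iff_not_dvd]
  intro hdvd
  obtain ⟨x, hx⟩ := exists_prime_addOrderOf_dvd_card' p hdvd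
  obtain ⟨y, hy⟩ := mem_pw.1 x.2
  set v := (Nat.card G).factorization p with hv
  set m := Nat.card G / p ^ v with hm
  have hqm : p ^ v * m = Nat.card G := Nat.ordProj_mul_ordCompl_eq_self _ p
  have hcop : Nat.Coprime p m := Nat.coprime_ordCompl hp Nat.card_pos.ne'
  have h1 : m • x = 0 := by
    apply Subtype.ext
    rw [AddSubgroup.coe_nsmul, ← hy, ← mul_smul, mul_comm, hqm]
    exact card_nsmul_eq_zero'
  have h2 : p ∣ m := by rw [← hx]; exact addOrderOf_dvd_of_nsmul_eq_zero h1
  exact (hp.coprime_iff_not_dvd.1 hcop) h2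

/-- the `p`-part as a quotient -/
abbrev Gp (p : ℕ) (G : Type*) [AddCommGroup G] : Type _ := G ⧸ cop p G

theorem card_Gp (hp : p.Prime) : Nat.card (Gp p G) = p ^ (Nat.card G).factorization p := by
  have : Fact p.Prime := ⟨hp⟩
  set v := (Nat.card G).factorization p with hv
  have h1 : IsPGroup p (Multiplicative (Gp p G)) := by
    intro x
    refine ⟨v, ?_⟩
    apply Multiplicative.toAdd.injective
    obtain ⟨g, hg⟩ := QuotientAddGroup.mk_surjective x.toAdd
    change p ^ v • x.toAdd = 0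
    rw [← hg, ← QuotientAddGroup.mk_nsmul, QuotientAddGroup.eq_zero_iff]
    exact mem_pw.2 ⟨g, rfl⟩
  obtain ⟨k, hk⟩ := IsPGroup.iff_card.mp h1
  have hk' : Nat.card (Gp p G) = p ^ k := by
    rw [← hk]; exact Nat.card_congr Multiplicative.ofAdd
  have h2 : Nat.card G = p ^ k * Nat.card (cop p G) := by
    rw [← hk']; exact AddSubgroup.card_eq_card_quotient_mul_card_addSubgroup _
  have h3 : v = k := by
    rw [hv, h2, Nat.factorization_mul (pow_pos hp.pos _).ne' Nat.card_pos.ne', Finsupp.add_apply,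
      Nat.Prime.factorization_pow hp,
      Nat.factorization_eq_zero_of_not_dvd ((hp.coprime_iff_not_dvd).1 (cop_coprime hp))]
    simp
  rw [hk', h3]

theorem isP (hp : p.Prime) : ∃ n, Nat.card (Gp p G) = p ^ n := ⟨_, card_Gp hp⟩

omit [Finite G] in
theorem pw_Gp (l : ℕ) : pw p (Gp p G) l = (pw p G l).map (QuotientAddGroup.mk' (cop p G)) :=
  pw_quot _ _

omit [Finite G] in
theorem pw_le_of_le {a b : ℕ} (h : a ≤ b) : pw p G b ≤ pw p G a := by
  intro x hx
  obtain ⟨y, rfl⟩ := mem_pw.1 hx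
  refine mem_pw.2 ⟨p ^ (b - a) • y, ?_⟩
  rw [← mul_smul, ← pow_add]
  congr 2
  omega

theorem pw_succ_of_ge (hp : p.Prime) {l : ℕ} (h : (Nat.card G).factorization p ≤ l) :
    pw p G l = cop p G := by
  apply le_antisymm (pw_le_of_le h)
  intro x hx
  have hcop : (Nat.card (cop p G)).Coprime (p ^ l) := ((cop_coprime hp).pow_left _).symm
  obtain ⟨y, hy⟩ := (nsmulCoprime hcop).surjective ⟨x, hx⟩
  have h2 : p ^ l • y = ⟨x, hx⟩ := hy
  refine mem_pw.2 ⟨y.1, ?_⟩
  have := congrArg Subtype.val h2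
  simpa using this

theorem lay_of_lt (hp : p.Prime) {l : ℕ} (h : l < (Nat.card G).factorization p) :
    Fail.lay p l G = p ^ rk p (Gp p G) l := by
  rw [← relIndex_pw hp (isP hp) l, pw_Gp, pw_Gp, ← AddSubgroup.relIndex_comap,
    AddSubgroup.comap_map_eq, QuotientAddGroup.ker_mk']
  have h1 : pw p G (l + 1) ⊔ cop p G = pw p G (l + 1) := sup_eq_left.2 (pw_le_of_le h)
  rw [h1]
  rfl

theorem lay_of_ge (hp : p.Prime) {l : ℕ} (h : (Nat.card G).factorization p ≤ l) :
    Fail.lay p l G = 1 := by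
  unfold Fail.lay
  rw [AddSubgroup.relIndex_eq_one]
  change pw p G l ≤ pw p G (l + 1)
  rw [pw_succ_of_ge hp h, pw_succ_of_ge hp (h.trans (Nat.le_succ l))]

theorem lam_Gp_le (hp : p.Prime) {k : ℕ} (hk : 1 ≤ k) :
    Rev.lam p (Gp p G) k ≤ Fail.lam p k G := by
  unfold Rev.lam Fail.lam
  have hv : Nat.log p (Nat.card (Gp p G)) = (Nat.card G).factorization p := by
    rw [card_Gp hp, Nat.log_pow hp.one_lt]
  rw [hv, ← Set.ncard_coe_finset]
  apply Set.ncard_le_ncard
  · intro l hl
    simp only [coe_filter, mem_range, Set.mem_ofPred_eq] at hl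
    change p ^ k ≤ Fail.lay p l G
    rw [lay_of_lt hp hl.1]
    exact Nat.pow_le_pow_right hp.pos hl.2
  · refine (Set.finite_lt_nat ((Nat.card G).factorization p)).subset ?_
    intro l hl
    by_contra hcon
    have h1 : p ^ k ≤ Fail.lay p l G := hl
    rw [lay_of_ge hp (not_lt.1 hcon)] at h1
    have := Nat.one_lt_pow (by omega : k ≠ 0) hp.one_lt
    omega

theorem rk_Gp_zero (hp : p.Prime) (h : Fail.lay p 0 G < p ^ 2) : rk p (Gp p G) 0 ≤ 1 := by
  by_cases hv : 0 < (Nat.card G).factorization p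
  · rw [lay_of_lt hp hv] at h
    have := (Nat.pow_lt_pow_iff_right hp.one_lt).1 h
    omega
  · have h1 : Nat.card (Gp p G) = 1 := by
      rw [card_Gp hp, Nat.eq_zero_of_not_pos hv, pow_zero]
    unfold rk
    rw [al_zero, h1]
    simp

end one

section quot

variable {p : ℕ} {G : Type*} [AddCommGroup G] [Finite G]

/-- the image of `H` in the `p`-part -/
noncomputable def bar (p : ℕ) {G : Type*} [AddCommGroup G] (H : AddSubgroup G) :
    AddSubgroup (Gp p G) := H.map (QuotientAddGroup.mk' (cop p G))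

theorem card_bar (hp : p.Prime) (H : AddSubgroup G) :
    Nat.card (Gp p G ⧸ bar p H) = p ^ (Nat.card (G ⧸ H)).factorization p := by
  obtain ⟨k, hk⟩ := card_quot hp (isP (G := G) hp) (bar p H)
  have h1 : (bar p H).index = (cop p G ⊔ H).index := by
    unfold bar
    rw [AddSubgroup.index_map, QuotientAddGroup.ker_mk', sup_comm]
    have : (QuotientAddGroup.mk' (cop p G)).range = ⊤ :=
      AddMonoidHom.range_eq_top.2 (QuotientAddGroup.mk'_surjective _)
    rw [this, AddSubgroup.index_top, mul_one]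
  have h2 : (bar p H).index = p ^ k := by rw [← hk, AddSubgroup.index_eq_card]
  have h3 : H.relIndex (cop p G ⊔ H) * (cop p G ⊔ H).index = H.index :=
    AddSubgroup.relIndex_mul_index le_sup_right
  have h4 : H.relIndex (cop p G ⊔ H) = H.relIndex (cop p G) := AddSubgroup.relIndex_sup_right ..
  have h5 : H.relIndex (cop p G) ∣ Nat.card (cop p G) := AddSubgroup.relIndex_dvd_card ..
  have h6 : ¬ p ∣ H.relIndex (cop p G ⊔ H) := by
    rw [h4]
    intro h
    exact (hp.coprime_iff_not_dvd.1 (cop_coprime hp)) (h.trans h5)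
  have h7 : H.relIndex (cop p G ⊔ H) ≠ 0 := fun h => h6 (h ▸ dvd_zero _)
  have h8 : (Nat.card (G ⧸ H)).factorization p = k := by
    rw [← AddSubgroup.index_eq_card, ← h3, ← h1, h2, Nat.factorization_mul h7
      (pow_pos hp.pos _).ne', Finsupp.add_apply, Nat.factorization_eq_zero_of_not_dvd h6,
      Nat.Prime.factorization_pow hp]
    simp
  rw [hk, h8]

theorem bbp_le (hp : p.Prime) (H : AddSubgroup G) : bbp p (G ⧸ H) ≤ bb p (Gp p G ⧸ bar p H) := by
  unfold bbp bb
  rw [card_bar hp H, Nat.log_pow hp.one_lt]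
  refine Nat.sub_le_sub_left ?_ _
  set k := (AddMonoid.exponent (G ⧸ H)).factorization p with hk
  have he0 : AddMonoid.exponent (G ⧸ H) ≠ 0 := AddMonoid.exponent_ne_zero_of_finite
  set m := AddMonoid.exponent (G ⧸ H) / p ^ k with hm
  have hqm : p ^ k * m = AddMonoid.exponent (G ⧸ H) := Nat.ordProj_mul_ordCompl_eq_self _ p
  have hcop : Nat.Coprime p m := Nat.coprime_ordCompl hp he0
  have h1 : AddMonoid.exponent (Gp p G ⧸ bar p H) ∣ p ^ k := by
    rw [AddMonoid.exponent_dvd_iff_forall_nsmul_eq_zero]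
    intro x
    obtain ⟨y, rfl⟩ := QuotientAddGroup.mk_surjective x
    obtain ⟨g, rfl⟩ := QuotientAddGroup.mk_surjective y
    have h2 : (p ^ k * m) • g ∈ H := by
      have : (p ^ k * m) • (g : G ⧸ H) = 0 := by
        rw [hqm]; exact AddMonoid.exponent_nsmul_eq_zero _
      rwa [← QuotientAddGroup.mk_nsmul, QuotientAddGroup.eq_zero_iff] at this
    have h3 : m • (p ^ k • ((g : Gp p G) : Gp p G ⧸ bar p H)) = 0 := by
      rw [← mul_smul, mul_comm, ← QuotientAddGroup.mk_nsmul, QuotientAddGroup.eq_zero_iff,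
        ← QuotientAddGroup.mk_nsmul]
      exact AddSubgroup.mem_map_of_mem (QuotientAddGroup.mk' (cop p G)) h2
    have h4 : (Nat.card (Gp p G ⧸ bar p H)) • (p ^ k • ((g : Gp p G) : Gp p G ⧸ bar p H)) = 0 :=
      card_nsmul_eq_zero'
    have h5 := addOrderOf_dvd_of_nsmul_eq_zero h3
    have h6 := addOrderOf_dvd_of_nsmul_eq_zero h4
    rw [card_bar hp] at h6
    have h7 : Nat.Coprime m (p ^ (Nat.card (G ⧸ H)).factorization p) := (hcop.pow_left _).symm
    have h8 := Nat.dvd_gcd h5 h6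
    rw [h7] at h8
    exact AddMonoid.addOrderOf_eq_one_iff.1 (Nat.dvd_one.1 h8)
  calc Nat.log p (AddMonoid.exponent (Gp p G ⧸ bar p H)) ≤ Nat.log p (p ^ k) :=
        Nat.log_mono_right (Nat.le_of_dvd (pow_pos hp.pos _) h1)
    _ = k := Nat.log_pow hp.one_lt _

theorem bar_ne_top (hp : p.Prime) (H : AddSubgroup G) (h : p ∣ Nat.card (G ⧸ H)) :
    bar p H ≠ ⊤ := by
  intro h1
  have h2 := card_bar hp H
  rw [← AddSubgroup.index_eq_card, h1, AddSubgroup.index_top] at h2
  have h3 : (Nat.card (G ⧸ H)).factorization p ≠ 0 :=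
    (hp.factorization_pos_of_dvd Nat.card_pos.ne' h).ne'
  exact (Nat.one_lt_pow h3 hp.one_lt).ne h2

end quot

section gen

variable {p : ℕ} {G : Type*} [AddCommGroup G] [Finite G] {ι κ : Type*} [Fintype ι]

omit [Finite G] in
theorem Hs_bar (e : ι → G) (ε : κ → ι → Bool) :
    Hs (fun i => ((e i : G) : Gp p G)) ε = bar p (Hs e ε) := by
  unfold Hs bar
  rw [AddMonoidHom.map_closure]
  congr 1
  rw [← Set.range_comp]
  congr 1
  funext j
  simp only [Function.comp, ssum, map_sum]
  refine sum_congr rfl fun i _ => ?_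
  split_ifs <;> simp

omit [Finite G] [Fintype ι] in
theorem closure_bar {e : ι → G} (he : AddSubgroup.closure (Set.range e) = ⊤) :
    AddSubgroup.closure (Set.range fun i => ((e i : G) : Gp p G)) = ⊤ := by
  have h1 : (Set.range fun i => ((e i : G) : Gp p G)) =
      (QuotientAddGroup.mk' (cop p G)) '' Set.range e := by
    rw [← Set.range_comp]; rfl
  rw [h1, ← AddMonoidHom.map_closure, he, ← AddMonoidHom.range_eq_map]
  exact AddMonoidHom.range_eq_top.2 (QuotientAddGroup.mk'_surjective _)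

/-- **revealing, general group**: on average
`bbp (G/H) <= 2^(-|κ|) lam 2 + |ι| lam 3` -/
theorem revG [Fintype κ] [DecidableEq ι] [DecidableEq κ] (hp : p.Prime) {e : ι → G}
    (he : AddSubgroup.closure (Set.range e) = ⊤) :
    2 ^ Fintype.card κ * ∑ ε : κ → ι → Bool, bbp p (G ⧸ Hs e ε) ≤
      2 ^ (Fintype.card κ * Fintype.card ι) * (Fail.lam p 2 G +
        2 ^ Fintype.card κ * Fintype.card ι * Fail.lam p 3 G) := by
  have h1 := reveal (κ := κ) hp (isP (G := G) hp) (closure_bar (p := p) he)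
  have h2 : ∑ ε : κ → ι → Bool, bbp p (G ⧸ Hs e ε) ≤
      ∑ ε : κ → ι → Bool, bb p (Gp p G ⧸ Hs (fun i => ((e i : G) : Gp p G)) ε) := by
    refine sum_le_sum fun ε _ => ?_
    rw [Hs_bar]
    exact bbp_le hp _
  refine (Nat.mul_le_mul_left _ h2).trans (h1.trans ?_)
  refine Nat.mul_le_mul_left _ (Nat.add_le_add (lam_Gp_le hp (by norm_num))
    (Nat.mul_le_mul_left _ (lam_Gp_le hp (by norm_num))))

open Classical in
/-- a cyclic `p`-part is revealed completely outside a set of density `2^(-|κ|)` -/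
theorem revG_cyc [Fintype κ] [DecidableEq ι] [DecidableEq κ] (hp : p.Prime) {e : ι → G}
    (he : AddSubgroup.closure (Set.range e) = ⊤) (h1 : Fail.lay p 0 G < p ^ 2) :
    2 ^ Fintype.card κ *
        (univ.filter fun ε : κ → ι → Bool => p ∣ Nat.card (G ⧸ Hs e ε)).card ≤
      2 ^ (Fintype.card κ * Fintype.card ι) := by
  refine (Nat.mul_le_mul_left _ (card_le_card ?_)).trans
    (reveal_cyc (κ := κ) hp (isP (G := G) hp) (closure_bar (p := p) he) (rk_Gp_zero hp h1))
  intro ε hε
  rw [mem_filter] at hε ⊢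
  refine ⟨mem_univ _, ?_⟩
  rw [Hs_bar]
  exact bar_ne_top hp _ hε.2

omit [Finite G] in
/-- nothing to reveal at the other primes -/
theorem revG_none (e : ι → G) (ε : κ → ι → Bool) (h : ¬ p ∣ Nat.card G) :
    ¬ p ∣ Nat.card (G ⧸ Hs e ε) := fun h1 => h (h1.trans (AddSubgroup.card_quotient_dvd_card _))

end gen

end Vale.Agent.P160.Half.RevG
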