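import Vale.Agent.P160.Half.Fail5
import Vale.Agent.P160.Half.RevGen

/-!
# Average over the rows `R` and the revealed subset sums `ε` of the label costs (10294 (6), (7))
-/

namespace Vale.Agent.P160.Half.Avg212

open Finset Vale.Agent.P160.Half Vale.Agent.P160.Half.Fail

section

variable {p : ℕ} {G : Type*} [AddCommGroup G] [Finite G]

theorem lay_zero_lt (hp : p.Prime) {k : ℕ} (hk : 1 ≤ k) (h : ¬ 1 ≤ lam p k G) :
    lay p 0 G < p ^ k := by
  by_contra h1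
  rw [not_lt] at h1
  exact h ((Set.ncard_pos (set_finite hp hk)).2 ⟨0, h1⟩)

/-- if `p ∣ |G|` then the first layer is nontrivial -/
theorem lay_of_dvd (hp : p.Prime) (h : p ∣ Nat.card G) : p ≤ lay p 0 G := by
  by_contra h1
  have h2 : lay p 0 G = 1 := by
    by_contra h3
    exact h1 (Nat.le_of_dvd (Nat.pos_of_ne_zero (lay_ne_zero p 0)) (lay_dvd hp 0 h3))
  have h3 := card_mul_eq (G := G) p 0
  rw [h2, mul_one] at h3
  have h4 : (mul (p ^ 0) G) = ⊤ := by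
    rw [eq_top_iff]; intro x _; exact mem_mul.2 ⟨x, by simp⟩
  rw [h4, AddSubgroup.card_top] at h3
  have h5 : mul (p ^ (0 + 1)) G = ⊤ := AddSubgroup.eq_top_of_card_eq _ h3
  have h6 : Function.Surjective (nsmulAddMonoidHom (α := G) (p ^ (0 + 1))) :=
    AddMonoidHom.range_eq_top.1 h5
  have h7 := Finite.injective_iff_surjective.2 h6
  have : Fact p.Prime := ⟨hp⟩
  obtain ⟨x, hx⟩ := exists_prime_addOrderOf_dvd_card' (G := G) p h
  have h8 : x = 0 := by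
    apply h7
    have : p • x = 0 := by rw [← hx]; exact addOrderOf_nsmul_eq_zero x
    simp [this]
  rw [h8, addOrderOf_zero] at hx
  exact hp.one_lt.ne hx

end

section

variable {p : ℕ} {G : Type*} [AddCommGroup G] {ρ s : ℕ}

open Classical in
/-- fixed group: how often something remains after revealing -/
theorem card_dvd_le [Finite G] (hp : p.Prime) (e : Fin ρ → G)
    (he : AddSubgroup.closure (Set.range e) = ⊤) :
    ((univ.filter fun ε : Fin s → Fin ρ → Bool => p ∣ Nat.card (G ⧸ Rev.Hs e ε)).card : ℝ)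
      ≤ 2 ^ (s * ρ) * ((if 1 ≤ lam p 2 G then 1 else 0) +
        (1 / 2) ^ s * (if 1 ≤ lam p 1 G then 1 else 0)) := by
  have htot : ((univ.filter fun ε : Fin s → Fin ρ → Bool => p ∣ Nat.card (G ⧸ Rev.Hs e ε)).card : ℝ)
      ≤ 2 ^ (s * ρ) := by
    have h1 := card_le_univ (univ.filter fun ε : Fin s → Fin ρ → Bool =>
      p ∣ Nat.card (G ⧸ Rev.Hs e ε))
    rw [Fintype.card_fun, Fintype.card_fun, Fintype.card_bool, Fintype.card_fin, Fintype.card_fin,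
      ← pow_mul, mul_comm] at h1
    exact_mod_cast h1
  have hpos : (0 : ℝ) < 2 ^ (s * ρ) := by positivity
  have hh : (0 : ℝ) ≤ (1 / 2) ^ s := by positivity
  by_cases h2 : 1 ≤ lam p 2 G
  · rw [if_pos h2]
    refine htot.trans ?_
    have : (0 : ℝ) ≤ (1 / 2) ^ s * (if 1 ≤ lam p 1 G then 1 else 0) := by
      split_ifs <;> simp
    nlinarith
  · rw [if_neg h2, zero_add]
    by_cases h1 : 1 ≤ lam p 1 G
    · rw [if_pos h1, mul_one]
      have h3 := RevG.revG_cyc (κ := Fin s) hp he (lay_zero_lt hp (by norm_num) h2)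
      rw [Fintype.card_fin, Fintype.card_fin] at h3
      have h4 : (2 : ℝ) ^ s *
        ((univ.filter fun ε : Fin s → Fin ρ → Bool => p ∣ Nat.card (G ⧸ Rev.Hs e ε)).card : ℝ)
          ≤ 2 ^ (s * ρ) := by exact_mod_cast h3
      have h5 : (1 / 2 : ℝ) ^ s * 2 ^ s = 1 := by
        rw [← mul_pow]; norm_num
      calc ((univ.filter fun ε : Fin s → Fin ρ → Bool => p ∣ Nat.card (G ⧸ Rev.Hs e ε)).card : ℝ)
          = (1 / 2 : ℝ) ^ s * (2 ^ s *
            ((univ.filter fun ε : Fin s → Fin ρ → Bool =>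
              p ∣ Nat.card (G ⧸ Rev.Hs e ε)).card : ℝ)) := by
            rw [← mul_assoc, h5, one_mul]
        _ ≤ (1 / 2 : ℝ) ^ s * 2 ^ (s * ρ) := mul_le_mul_of_nonneg_left h4 hh
        _ = _ := mul_comm _ _
    · rw [if_neg h1, mul_zero, mul_zero]
      have h3 : ¬ p ∣ Nat.card G := by
        intro h4
        have h5 := lay_of_dvd hp h4
        have h6 := lay_zero_lt hp le_rfl h1
        rw [pow_one] at h6
        omega
      have h4 : (univ.filter fun ε : Fin s → Fin ρ → Bool => p ∣ Nat.card (G ⧸ Rev.Hs e ε)) = ∅ := by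
        rw [filter_eq_empty_iff]
        intro ε _
        exact RevG.revG_none e ε h3
      rw [h4]; simp

end

section main

variable {α : Type*} [Fintype α] {ρ : ℕ}

/-- **expected `b` after revealing** -/
theorem avg_b (K : AddSubgroup (α → ℤ)) (PP : Finset ℕ) (hPP : ∀ p ∈ PP, p.Prime)
    (b : ℕ → ℕ) (K0 : ℕ)
    (hFl : ∀ p ∈ PP, ∀ (t : Fin ρ) (R : Fin ρ → α),
      {a | Fl K (p ^ b p) t (Function.update R t a)}.ncard ≤ K0) (B : ℝ) (hB : 1 ≤ B)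
    (Good : Finset (Fin ρ → α))
    (hGood : ∀ R ∈ Good, (KR K R).index ≠ 0 ∧ ((KR K R).index : ℝ) ≤ B)
    (hm : 0 < Fintype.card α) (x : ℝ) (hx : (ρ : ℝ) * K0 ≤ x * Fintype.card α)
    (A : (Fin ρ → α) → ℕ → Type*) [∀ R p, AddCommGroup (A R p)]
    (hfin : ∀ R ∈ Good, ∀ p ∈ PP, Finite (A R p))
    (e : ∀ R p, Fin ρ → A R p)
    (he : ∀ R ∈ Good, ∀ p ∈ PP, AddSubgroup.closure (Set.range (e R p)) = ⊤)
    (hlam : ∀ R ∈ Good, ∀ p ∈ PP, ∀ k, 1 ≤ k →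
      lam p k (A R p) ≤ lam p k (QR K R) - ρ * (b p - 1)) (s : ℕ) :
    ∑ R ∈ Good, ∑ ε : Fin s → Fin ρ → Bool, ∑ p ∈ PP,
        (RevG.bbp p (A R p ⧸ Rev.Hs (e R p) ε) : ℝ) * Real.log p ≤
      2 ^ (s * ρ) * (Fintype.card α : ℝ) ^ ρ * ((1 / 2) ^ s * x + ρ * x ^ 2) * Real.log B := by
  classical
  have hm' : (0 : ℝ) < Fintype.card α := by exact_mod_cast hm
  have hlog : ∀ p ∈ PP, 0 ≤ Real.log p := fun p hp =>
    Real.log_nonneg (by exact_mod_cast (hPP p hp).one_lt.le)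
  have hlB : 0 ≤ Real.log B := Real.log_nonneg hB
  have hS : ∀ k : ℕ, ∑ R ∈ Good, ∑ p ∈ PP,
        ((lam p (k + 1) (QR K R) - ρ * (b p - 1) : ℕ) : ℝ) * Real.log p ≤
      x ^ k * (Fintype.card α : ℝ) ^ ρ * Real.log B := by
    intro k
    have h1 := count_lam_of K PP hPP b K0 hFl k B hB Good hGood
    have h2 : ((ρ : ℝ) * K0) ^ k ≤ (x * Fintype.card α) ^ k :=
      pow_le_pow_left₀ (by positivity) hx k
    have h3 : (Fintype.card α : ℝ) ^ k * ∑ R ∈ Good, ∑ p ∈ PP,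
        ((lam p (k + 1) (QR K R) - ρ * (b p - 1) : ℕ) : ℝ) * Real.log p
        ≤ (Fintype.card α : ℝ) ^ k * (x ^ k * (Fintype.card α : ℝ) ^ ρ * Real.log B) := by
      refine h1.trans ?_
      have h4 : ((ρ : ℝ) * K0) ^ k * (Fintype.card α : ℝ) ^ ρ * Real.log B
          ≤ (x * Fintype.card α) ^ k * (Fintype.card α : ℝ) ^ ρ * Real.log B := by
        refine mul_le_mul_of_nonneg_right (mul_le_mul_of_nonneg_right h2 (by positivity)) hlB
      refine h4.trans (le_of_eq ?_)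
      rw [mul_pow]; ring
    exact le_of_mul_le_mul_left h3 (by positivity)
  have h1 : ∀ R ∈ Good, ∀ p ∈ PP, ∑ ε : Fin s → Fin ρ → Bool,
        (RevG.bbp p (A R p ⧸ Rev.Hs (e R p) ε) : ℝ) * Real.log p
      ≤ 2 ^ (s * ρ) * ((1 / 2) ^ s * (((lam p (1 + 1) (QR K R) - ρ * (b p - 1) : ℕ) : ℝ) * Real.log p)
        + ρ * (((lam p (2 + 1) (QR K R) - ρ * (b p - 1) : ℕ) : ℝ) * Real.log p)) := by
    intro R hR p hp
    have := hfin R hR p hp
    have h2 := RevG.revG (κ := Fin s) (hPP p hp) (he R hR p hp)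
    rw [Fintype.card_fin, Fintype.card_fin] at h2
    have h3 : (2 : ℝ) ^ s * ∑ ε : Fin s → Fin ρ → Bool,
        (RevG.bbp p (A R p ⧸ Rev.Hs (e R p) ε) : ℝ) ≤ 2 ^ (s * ρ) *
          ((lam p 2 (A R p) : ℝ) + 2 ^ s * ρ * (lam p 3 (A R p) : ℝ)) := by
      exact_mod_cast h2
    have h4 : (lam p 2 (A R p) : ℝ) ≤ ((lam p (1 + 1) (QR K R) - ρ * (b p - 1) : ℕ) : ℝ) := by
      exact_mod_cast hlam R hR p hp 2 (by norm_num)
    have h5 : (lam p 3 (A R p) : ℝ) ≤ ((lam p (2 + 1) (QR K R) - ρ * (b p - 1) : ℕ) : ℝ) := by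
      exact_mod_cast hlam R hR p hp 3 (by norm_num)
    have h6 : (1 / 2 : ℝ) ^ s * 2 ^ s = 1 := by
      rw [← mul_pow]; norm_num
    have h7 : ∑ ε : Fin s → Fin ρ → Bool,
        (RevG.bbp p (A R p ⧸ Rev.Hs (e R p) ε) : ℝ) ≤ 2 ^ (s * ρ) *
          ((1 / 2) ^ s * ((lam p (1 + 1) (QR K R) - ρ * (b p - 1) : ℕ) : ℝ)
            + ρ * ((lam p (2 + 1) (QR K R) - ρ * (b p - 1) : ℕ) : ℝ)) := by
      calc ∑ ε : Fin s → Fin ρ → Bool, (RevG.bbp p (A R p ⧸ Rev.Hs (e R p) ε) : ℝ)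
          = (1 / 2 : ℝ) ^ s * (2 ^ s * ∑ ε : Fin s → Fin ρ → Bool,
            (RevG.bbp p (A R p ⧸ Rev.Hs (e R p) ε) : ℝ)) := by
            rw [← mul_assoc, h6, one_mul]
        _ ≤ (1 / 2 : ℝ) ^ s * (2 ^ (s * ρ) *
          ((lam p 2 (A R p) : ℝ) + 2 ^ s * ρ * (lam p 3 (A R p) : ℝ))) :=
            mul_le_mul_of_nonneg_left h3 (by positivity)
        _ = 2 ^ (s * ρ) * ((1 / 2) ^ s * (lam p 2 (A R p) : ℝ)
            + ((1 / 2) ^ s * 2 ^ s) * (ρ * (lam p 3 (A R p) : ℝ))) := by ring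
        _ = 2 ^ (s * ρ) * ((1 / 2) ^ s * (lam p 2 (A R p) : ℝ)
            + ρ * (lam p 3 (A R p) : ℝ)) := by rw [h6, one_mul]
        _ ≤ _ := by
            refine mul_le_mul_of_nonneg_left (add_le_add ?_ ?_) (by positivity)
            · exact mul_le_mul_of_nonneg_left h4 (by positivity)
            · exact mul_le_mul_of_nonneg_left h5 (by positivity)
    rw [← sum_mul]
    refine (mul_le_mul_of_nonneg_right h7 (hlog p hp)).trans (le_of_eq ?_)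
    ring
  have h2 : ∑ R ∈ Good, ∑ ε : Fin s → Fin ρ → Bool, ∑ p ∈ PP,
        (RevG.bbp p (A R p ⧸ Rev.Hs (e R p) ε) : ℝ) * Real.log p
      ≤ ∑ R ∈ Good, ∑ p ∈ PP, 2 ^ (s * ρ) * ((1 / 2) ^ s *
          (((lam p (1 + 1) (QR K R) - ρ * (b p - 1) : ℕ) : ℝ) * Real.log p)
        + ρ * (((lam p (2 + 1) (QR K R) - ρ * (b p - 1) : ℕ) : ℝ) * Real.log p)) := by
    refine sum_le_sum fun R hR => ?_
    rw [sum_comm]
    exact sum_le_sum fun p hp => h1 R hR p hp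
  refine h2.trans ?_
  have h3 : ∑ R ∈ Good, ∑ p ∈ PP, (2 : ℝ) ^ (s * ρ) * ((1 / 2) ^ s *
          (((lam p (1 + 1) (QR K R) - ρ * (b p - 1) : ℕ) : ℝ) * Real.log p)
        + ρ * (((lam p (2 + 1) (QR K R) - ρ * (b p - 1) : ℕ) : ℝ) * Real.log p))
      = 2 ^ (s * ρ) * ((1 / 2) ^ s * (∑ R ∈ Good, ∑ p ∈ PP,
          ((lam p (1 + 1) (QR K R) - ρ * (b p - 1) : ℕ) : ℝ) * Real.log p)
        + ρ * ∑ R ∈ Good, ∑ p ∈ PP,
          ((lam p (2 + 1) (QR K R) - ρ * (b p - 1) : ℕ) : ℝ) * Real.log p) := by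
    simp only [mul_sum, mul_add, sum_add_distrib]
  rw [h3]
  have h4 := hS 1
  have h5 := hS 2
  calc (2 : ℝ) ^ (s * ρ) * ((1 / 2) ^ s * (∑ R ∈ Good, ∑ p ∈ PP,
          ((lam p (1 + 1) (QR K R) - ρ * (b p - 1) : ℕ) : ℝ) * Real.log p)
        + ρ * ∑ R ∈ Good, ∑ p ∈ PP,
          ((lam p (2 + 1) (QR K R) - ρ * (b p - 1) : ℕ) : ℝ) * Real.log p)
      ≤ (2 : ℝ) ^ (s * ρ) * ((1 / 2) ^ s * (x ^ 1 * (Fintype.card α : ℝ) ^ ρ * Real.log B)
        + ρ * (x ^ 2 * (Fintype.card α : ℝ) ^ ρ * Real.log B)) := by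
        refine mul_le_mul_of_nonneg_left (add_le_add ?_ ?_) (by positivity)
        · exact mul_le_mul_of_nonneg_left h4 (by positivity)
        · exact mul_le_mul_of_nonneg_left h5 (by positivity)
    _ = _ := by ring

open Classical in
/-- **expected `d` after revealing** (`d p` does not depend on `R`, `ε`) -/
theorem avg_d (K : AddSubgroup (α → ℤ)) (PP : Finset ℕ) (hPP : ∀ p ∈ PP, p.Prime)
    (b : ℕ → ℕ) (K0 : ℕ)
    (hFl : ∀ p ∈ PP, ∀ (t : Fin ρ) (R : Fin ρ → α),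
      {a | Fl K (p ^ b p) t (Function.update R t a)}.ncard ≤ K0)
    (Good : Finset (Fin ρ → α)) (hGood : ∀ R ∈ Good, (KR K R).index ≠ 0)
    (hm : 0 < Fintype.card α) (x : ℝ) (hx : (ρ : ℝ) * K0 ≤ x * Fintype.card α)
    (A : (Fin ρ → α) → ℕ → Type*) [∀ R p, AddCommGroup (A R p)]
    (hfin : ∀ R ∈ Good, ∀ p ∈ PP, Finite (A R p))
    (e : ∀ R p, Fin ρ → A R p)
    (he : ∀ R ∈ Good, ∀ p ∈ PP, AddSubgroup.closure (Set.range (e R p)) = ⊤)
    (hlam : ∀ R ∈ Good, ∀ p ∈ PP, ∀ k, 1 ≤ k →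
      lam p k (A R p) ≤ lam p k (QR K R) - ρ * (b p - 1)) (s : ℕ)
    (d : ℕ → ℝ) (hd : ∀ p ∈ PP, 0 ≤ d p) :
    ∑ R ∈ Good, ∑ ε : Fin s → Fin ρ → Bool, ∑ p ∈ PP,
        (if p ∣ Nat.card (A R p ⧸ Rev.Hs (e R p) ε) then d p else 0) ≤
      2 ^ (s * ρ) * (Fintype.card α : ℝ) ^ ρ * ((1 / 2) ^ s * x + x ^ 2) * ∑ p ∈ PP, d p := by
  have hm' : (0 : ℝ) < Fintype.card α := by exact_mod_cast hm
  -- number of `R` with `k` failures
  have hC : ∀ p ∈ PP, ∀ k : ℕ, 1 ≤ k →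
      ((Good.filter fun R => 1 ≤ lam p k (A R p)).card : ℝ) ≤ x ^ k * (Fintype.card α : ℝ) ^ ρ := by
    intro p hp k hk
    have h1 := count_fail_of K (hPP p hp) (b p) K0 (hFl p hp) k
      (Good.filter fun R => 1 ≤ lam p k (A R p)) (by
        intro R hR
        obtain ⟨hR1, hR2⟩ := mem_filter.1 hR
        refine ⟨hGood R hR1, ?_⟩
        have := hlam R hR1 p hp k hk
        omega)
    have h2 : ((ρ : ℝ) * K0) ^ k ≤ (x * Fintype.card α) ^ k :=
      pow_le_pow_left₀ (by positivity) hx k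
    have h3 : (Fintype.card α : ℝ) ^ k * ((Good.filter fun R => 1 ≤ lam p k (A R p)).card : ℝ)
        ≤ (Fintype.card α : ℝ) ^ k * (x ^ k * (Fintype.card α : ℝ) ^ ρ) := by
      refine h1.trans ((mul_le_mul_of_nonneg_right h2 (by positivity)).trans (le_of_eq ?_))
      rw [mul_pow]; ring
    exact le_of_mul_le_mul_left h3 (by positivity)
  have h1 : ∑ R ∈ Good, ∑ ε : Fin s → Fin ρ → Bool, ∑ p ∈ PP,
        (if p ∣ Nat.card (A R p ⧸ Rev.Hs (e R p) ε) then d p else 0)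
      = ∑ p ∈ PP, d p * ∑ R ∈ Good, ((univ.filter fun ε : Fin s → Fin ρ → Bool =>
          p ∣ Nat.card (A R p ⧸ Rev.Hs (e R p) ε)).card : ℝ) := by
    have h2 : ∀ R ∈ Good, ∑ ε : Fin s → Fin ρ → Bool, ∑ p ∈ PP,
        (if p ∣ Nat.card (A R p ⧸ Rev.Hs (e R p) ε) then d p else 0)
        = ∑ p ∈ PP, d p * ((univ.filter fun ε : Fin s → Fin ρ → Bool =>
          p ∣ Nat.card (A R p ⧸ Rev.Hs (e R p) ε)).card : ℝ) := by
      intro R _
      rw [sum_comm]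
      refine sum_congr rfl fun p _ => ?_
      rw [← sum_filter, sum_const, nsmul_eq_mul, mul_comm]
    rw [sum_congr rfl h2, sum_comm]
    refine sum_congr rfl fun p _ => ?_
    rw [mul_sum]
  rw [h1, mul_sum]
  refine sum_le_sum fun p hp => ?_
  have h2 : ∑ R ∈ Good, ((univ.filter fun ε : Fin s → Fin ρ → Bool =>
          p ∣ Nat.card (A R p ⧸ Rev.Hs (e R p) ε)).card : ℝ)
      ≤ 2 ^ (s * ρ) * (Fintype.card α : ℝ) ^ ρ * ((1 / 2) ^ s * x + x ^ 2) := by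
    have h3 : ∑ R ∈ Good, ((univ.filter fun ε : Fin s → Fin ρ → Bool =>
          p ∣ Nat.card (A R p ⧸ Rev.Hs (e R p) ε)).card : ℝ)
        ≤ ∑ R ∈ Good, (2 : ℝ) ^ (s * ρ) * ((if 1 ≤ lam p 2 (A R p) then 1 else 0) +
        (1 / 2) ^ s * (if 1 ≤ lam p 1 (A R p) then 1 else 0)) := by
      refine sum_le_sum fun R hR => ?_
      have := hfin R hR p hp
      exact card_dvd_le (hPP p hp) (e R p) (he R hR p hp)
    refine h3.trans ?_
    have h4 : ∑ R ∈ Good, (2 : ℝ) ^ (s * ρ) * ((if 1 ≤ lam p 2 (A R p) then 1 else 0) +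
        (1 / 2) ^ s * (if 1 ≤ lam p 1 (A R p) then 1 else 0))
        = 2 ^ (s * ρ) * (((Good.filter fun R => 1 ≤ lam p 2 (A R p)).card : ℝ)
          + (1 / 2) ^ s * ((Good.filter fun R => 1 ≤ lam p 1 (A R p)).card : ℝ)) := by
      rw [← mul_sum, sum_add_distrib, ← mul_sum, card_filter, card_filter]
      push_cast
      rfl
    rw [h4]
    have h5 := hC p hp 2 (by norm_num)
    have h6 := hC p hp 1 le_rfl
    calc (2 : ℝ) ^ (s * ρ) * (((Good.filter fun R => 1 ≤ lam p 2 (A R p)).card : ℝ)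
          + (1 / 2) ^ s * ((Good.filter fun R => 1 ≤ lam p 1 (A R p)).card : ℝ))
        ≤ 2 ^ (s * ρ) * (x ^ 2 * (Fintype.card α : ℝ) ^ ρ
          + (1 / 2) ^ s * (x ^ 1 * (Fintype.card α : ℝ) ^ ρ)) := by
          refine mul_le_mul_of_nonneg_left (add_le_add h5 ?_) (by positivity)
          exact mul_le_mul_of_nonneg_left h6 (by positivity)
      _ = _ := by ring
  calc d p * ∑ R ∈ Good, ((univ.filter fun ε : Fin s → Fin ρ → Bool =>
          p ∣ Nat.card (A R p ⧸ Rev.Hs (e R p) ε)).card : ℝ)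
      ≤ d p * (2 ^ (s * ρ) * (Fintype.card α : ℝ) ^ ρ * ((1 / 2) ^ s * x + x ^ 2)) :=
        mul_le_mul_of_nonneg_left h2 (hd p hp)
    _ = _ := by ring

end main

end Vale.Agent.P160.Half.Avg212
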