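import Vale.Agent.P160.Half.GStmt3
import Vale.Agent.P160.Half.RevGen

/-!
# P160, rate 1/2: the average over the revealed subset sums, for fixed rows and a fixed prime
-/

open Finset

namespace Vale.Agent.P160.Half.AvgC

open Vale.Agent.P160.Half.Rev Vale.Agent.P160.Half.Labels Vale.Agent.P160.Half.G

section idem

variable {X : Type*} [AddCommGroup X] [Finite X] {p : ℕ}

/-- a multiple acting as the projection to the `p`-part -/
theorem exists_idem (hp : p.Prime) (X : Type*) [AddCommGroup X] [Finite X] :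
    ∃ E : ℕ, (∀ x : X, E • x ∈ prim X p) ∧ ∀ x ∈ prim X p, E • x = x := by
  have := Fintype.ofFinite X
  set n := Nat.card X with hndef
  have hnpos : n ≠ 0 := Nat.card_pos.ne'
  set q := p ^ n.factorization p with hq
  set m := n / q with hm
  have hqm : q * m = n := Nat.ordProj_mul_ordCompl_eq_self n p
  have hcop : Nat.Coprime q m := by
    rw [hq, hm]
    exact (Nat.coprime_ordCompl hp hnpos).pow_left _
  obtain ⟨e, he1, he2⟩ := Nat.chineseRemainder hcop 1 0
  refine ⟨e, fun x => ?_, fun x hx => ?_⟩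
  · rw [mem_prim]
    have hme : m ∣ e := (Nat.modEq_zero_iff_dvd).mp he2
    obtain ⟨c, hc⟩ := hme
    have : q • (e • x) = c • (n • x) := by
      rw [← mul_smul, ← mul_smul, hc, ← hqm]
      congr 1; ring
    rw [show p ^ (Nat.card X).factorization p = q from rfl, this, hndef, card_nsmul_eq_zero',
      smul_zero]
  · rw [mem_prim] at hx
    have h1 : addOrderOf x ∣ q := addOrderOf_dvd_of_nsmul_eq_zero hx
    have h2 : e ≡ 1 [MOD addOrderOf x] := he1.of_dvd h1
    have h3 := (nsmul_eq_nsmul_iff_modEq (x := x)).2 h2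
    rwa [one_smul] at h3

omit [Finite X] in
theorem pp_eq {E : ℕ} (h1 : ∀ x : X, E • x ∈ prim X p) (h2 : ∀ x ∈ prim X p, E • x = x) (e : ℕ)
    (Q : AddSubgroup X) : pp p e Q = Q.map (nsmulAddMonoidHom (p ^ e * E)) := by
  unfold pp
  apply le_antisymm
  · rintro _ ⟨x, ⟨hx, hx'⟩, rfl⟩
    refine ⟨x, hx, ?_⟩
    change (p ^ e * E) • x = p ^ e • x
    rw [mul_smul, h2 x hx']
  · rintro _ ⟨x, hx, rfl⟩
    refine ⟨E • x, ⟨AddSubgroup.nsmul_mem _ hx _, h1 x⟩, ?_⟩
    change p ^ e • (E • x) = (p ^ e * E) • x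
    rw [mul_smul]

theorem relIndex_map_dvd {A B : Type*} [AddCommGroup A] [AddCommGroup B] (f : A →+ B)
    (K L : AddSubgroup A) : (K.map f).relIndex (L.map f) ∣ K.relIndex L := by
  rw [← AddSubgroup.relIndex_comap, AddSubgroup.comap_map_eq]
  exact AddSubgroup.relIndex_dvd_of_le_left L le_sup_left

/-- `pp` is a `p`-group -/
theorem card_pp (hp : p.Prime) (e : ℕ) (Q : AddSubgroup X) : ∃ n, Nat.card (pp p e Q) = p ^ n := by
  have : Fact p.Prime := ⟨hp⟩
  have := Fintype.ofFinite X
  have h1 : IsPGroup p (Multiplicative (pp p e Q)) := by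
    intro x
    refine ⟨(Nat.card X).factorization p, ?_⟩
    apply Multiplicative.toAdd.injective
    apply Subtype.ext
    obtain ⟨y, ⟨_, hy⟩, hyx⟩ := x.toAdd.2
    change p ^ (Nat.card X).factorization p • (x.toAdd : X) = 0
    rw [← hyx]
    change p ^ (Nat.card X).factorization p • (p ^ e • y) = 0
    rw [smul_comm, mem_prim.1 hy, smul_zero]
  obtain ⟨k, hk⟩ := IsPGroup.iff_card.mp h1
  exact ⟨k, by rw [← hk]; exact Nat.card_congr Multiplicative.ofAdd⟩

end idem

section lam

variable {A X : Type*} [AddCommGroup A] [Finite A] [AddCommGroup X] [Finite X] {p : ℕ}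

theorem lay_ne_zero (l : ℕ) : Fail.lay p l A ≠ 0 := by
  unfold Fail.lay
  rw [AddSubgroup.relIndex]
  exact AddSubgroup.index_ne_zero_of_finite

theorem lay_succ_le (l : ℕ) : Fail.lay p (l + 1) A ≤ Fail.lay p l A := by
  apply Nat.le_of_dvd (Nat.pos_of_ne_zero (lay_ne_zero l))
  have h : ∀ j, Fail.mul (p ^ (j + 1)) A = (Fail.mul (p ^ j) A).map (nsmulAddMonoidHom p) := by
    intro j
    ext x
    rw [Fail.mem_mul, AddSubgroup.mem_map]
    constructor
    · rintro ⟨y, rfl⟩
      refine ⟨p ^ j • y, Fail.mem_mul.2 ⟨y, rfl⟩, ?_⟩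
      change p • (p ^ j • y) = _
      rw [← mul_smul, pow_succ, mul_comm]
    · rintro ⟨_, hy, rfl⟩
      obtain ⟨y, rfl⟩ := Fail.mem_mul.1 hy
      refine ⟨y, ?_⟩
      change _ = p • (p ^ j • y)
      rw [← mul_smul, pow_succ, mul_comm]
  unfold Fail.lay
  rw [h (l + 1), h l]
  exact relIndex_map_dvd _ _ _

theorem lay_le_of_le {a b : ℕ} (h : a ≤ b) : Fail.lay p b A ≤ Fail.lay p a A :=
  (antitone_nat_of_succ_le (f := fun l => Fail.lay p l A) fun l => lay_succ_le l) h

/-- the layers of the image of `A` in the `p`-part -/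
theorem rk_pp_le (hp : p.Prime) (f : A →+ X) (e l : ℕ) :
    p ^ rk p (pp p e f.range) l ≤ Fail.lay p (l + e) A := by
  obtain ⟨E, h1, h2⟩ := exists_idem hp X
  apply Nat.le_of_dvd (Nat.pos_of_ne_zero (lay_ne_zero _))
  rw [← relIndex_pw hp (card_pp hp e f.range) l]
  set P := pp p e f.range with hP
  set h : A →+ X := (nsmulAddMonoidHom E).comp f with hh
  have key : ∀ j, (pw p P j).map P.subtype = (pw p A (j + e)).map h := by
    intro j
    ext x
    rw [AddSubgroup.mem_map, AddSubgroup.mem_map]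
    constructor
    · rintro ⟨_, hy, rfl⟩
      obtain ⟨⟨y, hyP⟩, rfl⟩ := mem_pw.1 hy
      rw [hP, pp_eq h1 h2] at hyP
      obtain ⟨_, ⟨a, rfl⟩, rfl⟩ := hyP
      refine ⟨p ^ (j + e) • a, mem_pw.2 ⟨a, rfl⟩, ?_⟩
      change E • f (p ^ (j + e) • a) = p ^ j • ((p ^ e * E) • f a)
      rw [map_nsmul, ← mul_smul, ← mul_smul]
      congr 1
      ring
    · rintro ⟨_, hy, rfl⟩
      obtain ⟨a, rfl⟩ := mem_pw.1 hy
      have hm : (p ^ e * E) • f a ∈ P := by
        rw [hP, pp_eq h1 h2]
        exact ⟨f a, ⟨a, rfl⟩, rfl⟩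
      refine ⟨p ^ j • ⟨(p ^ e * E) • f a, hm⟩, mem_pw.2 ⟨_, rfl⟩, ?_⟩
      change p ^ j • ((p ^ e * E) • f a) = E • f (p ^ (j + e) • a)
      rw [map_nsmul, ← mul_smul, ← mul_smul]
      congr 1
      ring
  have h3 : (pw p P (l + 1)).relIndex (pw p P l) =
      ((pw p P (l + 1)).map P.subtype).relIndex ((pw p P l).map P.subtype) := by
    rw [← AddSubgroup.relIndex_comap, AddSubgroup.comap_map_eq_self_of_injective
      P.subtype_injective]
  rw [h3, key, key]
  have h4 : l + 1 + e = l + e + 1 := by ring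
  rw [h4]
  exact relIndex_map_dvd _ _ _

theorem lam_fin (hp : p.Prime) {k : ℕ} (hk : 1 ≤ k) : {l : ℕ | p ^ k ≤ Fail.lay p l A}.Finite := by
  refine (Fail.layers_finite (G := A) hp).subset ?_
  intro l hl
  have h1 : p ^ k ≤ Fail.lay p l A := hl
  have h2 : p ^ 1 ≤ p ^ k := Nat.pow_le_pow_right hp.pos hk
  rw [pow_one] at h2
  exact h2.trans h1

theorem lam_pp_le (hp : p.Prime) (f : A →+ X) (e : ℕ) {k : ℕ} (hk : 1 ≤ k) :
    Rev.lam p (pp p e f.range) k ≤ Fail.lam p k A - e := by
  classical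
  set S := {l : ℕ | p ^ k ≤ Fail.lay p l A} with hS
  have hSf : S.Finite := lam_fin hp hk
  have h0 : Fail.lam p k A = hSf.toFinset.card := Set.ncard_eq_toFinset_card _ hSf
  unfold Rev.lam
  set T := (range (Nat.log p (Nat.card (pp p e f.range)))).filter
    (fun l => k ≤ rk p (pp p e f.range) l) with hT
  have hTS : ∀ l ∈ T, l + e ∈ S := by
    intro l hl
    rw [hT, mem_filter] at hl
    exact (Nat.pow_le_pow_right hp.pos hl.2).trans (rk_pp_le hp f e l)
  rcases T.eq_empty_or_nonempty with h | ⟨l0, hl0⟩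
  · rw [h]; simp
  · have h1 : T.image (fun l => l + e) ∪ range e ⊆ hSf.toFinset := by
      intro x hx
      rw [Set.Finite.mem_toFinset]
      rcases mem_union.1 hx with hx | hx
      · obtain ⟨l, hl, rfl⟩ := mem_image.1 hx
        exact hTS l hl
      · have h2 : p ^ k ≤ Fail.lay p (l0 + e) A := hTS l0 hl0
        rw [mem_range] at hx
        exact h2.trans (lay_le_of_le (by omega))
    have h2 : Disjoint (T.image (fun l => l + e)) (range e) := by
      rw [disjoint_left]
      intro x hx hx'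
      obtain ⟨l, _, rfl⟩ := mem_image.1 hx
      rw [mem_range] at hx'
      omega
    have h3 := card_le_card h1
    rw [card_union_of_disjoint h2, card_image_of_injective _ (add_left_injective e), card_range]
      at h3
    omega

/-- a nonzero rank at level `0` is seen by `lam` -/
theorem one_le_lam {P : Type*} [AddCommGroup P] {k : ℕ} (hk : 1 ≤ k) (h : k ≤ rk p P 0) :
    1 ≤ Rev.lam p P k := by
  unfold Rev.lam
  apply card_pos.2
  refine ⟨0, mem_filter.2 ⟨?_, h⟩⟩
  rw [mem_range]
  unfold rk at h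
  rw [al_zero] at h
  omega

end lam

section gen

variable {X : Type*} [AddCommGroup X] [Finite X] {p ρ s : ℕ}

/-- the revealed subgroup -/
def Hc (x : Fin ρ → X) (c : Fin s → Fin ρ → Bool) : AddSubgroup X :=
  AddSubgroup.closure (Set.range fun t : Fin s => ∑ i, if c t i then x i else 0)

omit [Finite X] in
theorem Hc_eq (x : Fin ρ → X) (c : Fin s → Fin ρ → Bool) : Hc x c = Hs x c := rfl

omit [Finite X] in
theorem Hc_le (x : Fin ρ → X) (c : Fin s → Fin ρ → Bool) :
    Hc x c ≤ AddSubgroup.closure (Set.range x) := by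
  unfold Hc
  rw [AddSubgroup.closure_le]
  rintro _ ⟨t, rfl⟩
  refine AddSubgroup.sum_mem _ fun i _ => ?_
  split_ifs
  · exact AddSubgroup.subset_closure ⟨i, rfl⟩
  · exact AddSubgroup.zero_mem _

omit [Finite X] in
theorem map_closure_range (m : ℕ) {ι : Type*} (x : ι → X) :
    (AddSubgroup.closure (Set.range x)).map (nsmulAddMonoidHom m) =
      AddSubgroup.closure (Set.range fun i => m • x i) := by
  rw [AddMonoidHom.map_closure, ← Set.range_comp]
  rfl

omit [Finite X] in
theorem Hc_smul (m : ℕ) (x : Fin ρ → X) (c : Fin s → Fin ρ → Bool) :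
    (Hc x c).map (nsmulAddMonoidHom m) = Hc (fun i => m • x i) c := by
  unfold Hc
  rw [map_closure_range]
  congr 2
  funext t
  rw [smul_sum]
  refine sum_congr rfl fun i _ => ?_
  split_ifs <;> simp

omit [Finite X] in
/-- generators as elements of the subgroup -/
theorem closure_sub {ι : Type*} (y : ι → X) (P : AddSubgroup X) (hy : ∀ i, y i ∈ P) :
    AddSubgroup.closure (Set.range fun i => (⟨y i, hy i⟩ : P)) =
      (AddSubgroup.closure (Set.range y)).addSubgroupOf P := by
  have h1 : (AddSubgroup.closure (Set.range fun i => (⟨y i, hy i⟩ : P))).map P.subtype =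
      AddSubgroup.closure (Set.range y) := by
    rw [AddMonoidHom.map_closure, ← Set.range_comp]
    rfl
  rw [← h1]
  unfold AddSubgroup.addSubgroupOf
  rw [AddSubgroup.comap_map_eq_self_of_injective P.subtype_injective]

omit [Finite X] in
theorem Hs_sub (y : Fin ρ → X) (P : AddSubgroup X) (hy : ∀ i, y i ∈ P)
    (c : Fin s → Fin ρ → Bool) :
    Hs (fun i => (⟨y i, hy i⟩ : P)) c = (Hc y c).addSubgroupOf P := by
  have hz : ∀ t, (∑ i, if c t i then y i else 0) ∈ P := fun t =>
    AddSubgroup.sum_mem _ fun i _ => by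
      split_ifs
      · exact hy i
      · exact P.zero_mem
  have h1 := closure_sub (fun t : Fin s => ∑ i, if c t i then y i else 0) P hz
  unfold Hc
  rw [← h1]
  unfold Hs
  congr 2
  funext t
  apply Subtype.ext
  unfold ssum
  rw [AddSubgroup.val_finsetSum]
  refine sum_congr rfl fun i _ => ?_
  split_ifs <;> rfl

open Classical in
/-- the two averages at `p` -/
theorem avg_pp (hp : p.Prime) (x : Fin ρ → X) (e : ℕ) :
    2 ^ s * ∑ c : Fin s → Fin ρ → Bool,
        bb p (pp p e (AddSubgroup.closure (Set.range x)) ⧸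
          (pp p e (Hc x c)).addSubgroupOf (pp p e (AddSubgroup.closure (Set.range x)))) ≤
      2 ^ (s * ρ) * (Rev.lam p (pp p e (AddSubgroup.closure (Set.range x))) 2 +
        2 ^ s * ρ * Rev.lam p (pp p e (AddSubgroup.closure (Set.range x))) 3) ∧
    2 ^ s * (univ.filter fun c : Fin s → Fin ρ → Bool =>
        pp p e (AddSubgroup.closure (Set.range x)) ≠ pp p e (Hc x c)).card ≤
      2 ^ (s * ρ) *
        ((if 1 ≤ Rev.lam p (pp p e (AddSubgroup.closure (Set.range x))) 1 then 1 else 0) +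
        2 ^ s * (if 1 ≤ Rev.lam p (pp p e (AddSubgroup.closure (Set.range x))) 2 then 1 else 0)) := by
  obtain ⟨E, h1, h2⟩ := exists_idem hp X
  set P := pp p e (AddSubgroup.closure (Set.range x)) with hP
  set y : Fin ρ → X := fun i => (p ^ e * E) • x i with hy
  have hPy : P = AddSubgroup.closure (Set.range y) := by
    rw [hP, pp_eq h1 h2, map_closure_range]
  have hyP : ∀ i, y i ∈ P := fun i => by
    rw [hPy]; exact AddSubgroup.subset_closure ⟨i, rfl⟩
  have hH : ∀ c : Fin s → Fin ρ → Bool, pp p e (Hc x c) = Hc y c := fun c => by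
    rw [pp_eq h1 h2, Hc_smul]
  have hPp := card_pp (X := X) hp e (AddSubgroup.closure (Set.range x))
  rw [← hP] at hPp
  have hgen : AddSubgroup.closure (Set.range fun i => (⟨y i, hyP i⟩ : P)) = ⊤ := by
    rw [closure_sub, ← hPy, AddSubgroup.addSubgroupOf_self]
  have hs : Fintype.card (Fin s) = s := Fintype.card_fin s
  have hr : Fintype.card (Fin ρ) = ρ := Fintype.card_fin ρ
  have hcard : (univ : Finset (Fin s → Fin ρ → Bool)).card = 2 ^ (s * ρ) := by
    rw [card_univ, Fintype.card_fun, Fintype.card_fun, Fintype.card_bool, ← pow_mul, mul_comm,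
      hs, hr]
  constructor
  · have h3 := reveal (κ := Fin s) hp hPp hgen
    rw [hs, hr] at h3
    refine le_trans (le_of_eq ?_) h3
    congr 1
    refine sum_congr rfl fun c _ => ?_
    rw [Hs_sub, hH]
  · -- equality of the subgroups is `Hs = ⊤`
    have htop : ∀ c : Fin s → Fin ρ → Bool, P ≠ pp p e (Hc x c) →
        Hs (fun i => (⟨y i, hyP i⟩ : P)) c ≠ ⊤ := by
      intro c hne h4
      apply hne
      rw [Hs_sub, AddSubgroup.addSubgroupOf_eq_top] at h4
      rw [hH]
      refine le_antisymm h4 ?_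
      rw [hPy]
      exact Hc_le y c
    by_cases h5 : 2 ≤ rk p P 0
    · rw [if_pos (one_le_lam (by norm_num) h5)]
      have h6 := card_filter_le (univ : Finset (Fin s → Fin ρ → Bool))
        (fun c => P ≠ pp p e (Hc x c))
      rw [hcard] at h6
      calc 2 ^ s * _ ≤ 2 ^ s * 2 ^ (s * ρ) := Nat.mul_le_mul_left _ h6
        _ = 2 ^ (s * ρ) * (0 + 2 ^ s * 1) := by ring
        _ ≤ _ := Nat.mul_le_mul_left _ (Nat.add_le_add_right (Nat.zero_le _) _)
    · by_cases h6 : 1 ≤ rk p P 0
      · rw [if_pos (one_le_lam le_rfl h6)]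
        have h7 := reveal_cyc (κ := Fin s) hp hPp hgen (by omega)
        rw [hs, hr] at h7
        refine (Nat.mul_le_mul_left _ (card_le_card ?_)).trans (h7.trans ?_)
        · intro c hc
          rw [mem_filter] at hc ⊢
          exact ⟨mem_univ _, htop c hc.2⟩
        · exact Nat.le_mul_of_pos_right _ (by omega)
      · have h7 : (univ.filter fun c : Fin s → Fin ρ → Bool => P ≠ pp p e (Hc x c)) = ∅ := by
          rw [filter_eq_empty_iff]
          intro c _ hne
          apply htop c hne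
          have h8 : rk p P 0 = 0 := by omega
          rw [rk_eq_zero_iff hp hPp, pw_zero] at h8
          rw [AddSubgroup.eq_top_iff']
          intro g
          have h9 : g ∈ (⊤ : AddSubgroup P) := AddSubgroup.mem_top g
          rw [h8] at h9
          rw [(AddSubgroup.mem_bot).1 h9]
          exact AddSubgroup.zero_mem _
        rw [h7, card_empty, mul_zero]
        exact Nat.zero_le _

/-- the order of `p^e Q_p` -/
theorem card_pp_ge (hp : p.Prime) (x : Fin ρ → X) (e : ℕ) :
    (Nat.card (AddSubgroup.closure (Set.range x))).factorization p ≤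
      (Nat.card (pp p e (AddSubgroup.closure (Set.range x)))).factorization p + ρ * e := by
  classical
  obtain ⟨E, h1, h2⟩ := exists_idem hp X
  set Q := AddSubgroup.closure (Set.range x) with hQ
  set Q' := Q.map (nsmulAddMonoidHom (α := X) (p ^ e)) with hQ'
  have hle : Q' ≤ Q := by
    rintro _ ⟨y, hy, rfl⟩
    exact AddSubgroup.nsmul_mem _ hy _
  have h3 : Q'.relIndex Q ∣ (p ^ e) ^ (univ.image x).card :=
    Fail.index_mul_of_gen (univ.image x) Q (by rw [hQ, coe_image, coe_univ, Set.image_univ])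
  have h4 : Nat.card Q' * Q'.relIndex Q = Nat.card Q := by
    have := AddSubgroup.relIndex_mul_relIndex ⊥ Q' Q bot_le hle
    rwa [AddSubgroup.relIndex_bot_left, AddSubgroup.relIndex_bot_left] at this
  have hr0 : Q'.relIndex Q ≠ 0 := by
    rw [AddSubgroup.relIndex]
    exact AddSubgroup.index_ne_zero_of_finite
  have h5 : (Q'.relIndex Q).factorization p ≤ ρ * e := by
    have h6 := (Nat.factorization_le_iff_dvd hr0 (pow_pos (pow_pos hp.pos _) _).ne').2 h3 p
    refine h6.trans ?_
    rw [← pow_mul, Nat.Prime.factorization_pow hp, Finsupp.single_eq_same, mul_comm]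
    exact Nat.mul_le_mul_right _ (card_image_le.trans (by simp))
  have h7 : pp p e Q = Q'.map (nsmulAddMonoidHom (α := X) E) := by
    rw [pp_eq h1 h2, hQ', AddSubgroup.map_map]
    congr 1
    ext z
    change (p ^ e * E) • z = E • (p ^ e • z)
    rw [← mul_smul, mul_comm]
  have h8 : Nat.card (pp p e Q) * Nat.card (((nsmulAddMonoidHom (α := X) E).ker ⊓ Q' : AddSubgroup X)) =
      Nat.card Q' := by
    rw [h7, ← AddSubgroup.relIndex_ker, ← AddSubgroup.relIndex_bot_left (H := Q'),
      ← AddSubgroup.relIndex_bot_left, ← AddSubgroup.inf_relIndex_right (nsmulAddMonoidHom (α := X) E).ker Q',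
      mul_comm]
    exact AddSubgroup.relIndex_mul_relIndex _ _ _ bot_le inf_le_right
  have h9 : ¬ p ∣ Nat.card (((nsmulAddMonoidHom (α := X) E).ker ⊓ Q' : AddSubgroup X)) := by
    intro hd
    have : Fact p.Prime := ⟨hp⟩
    have := Fintype.ofFinite X
    obtain ⟨z, hz⟩ := exists_prime_addOrderOf_dvd_card' p hd
    have hz1 : E • (z : X) = 0 := z.2.1
    have hz2 : p • (z : X) = 0 := by
      have h := addOrderOf_nsmul_eq_zero z
      rw [hz] at h
      have := congrArg Subtype.val h
      simpa using this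
    have hz0 : (z : X) ≠ 0 := by
      intro h0
      have : z = 0 := Subtype.ext h0
      rw [this, addOrderOf_zero] at hz
      exact hp.one_lt.ne hz
    have hv : (z : X) ∈ prim X p := by
      rw [mem_prim]
      have hpos : (Nat.card X).factorization p ≠ 0 := by
        have h10 : p ∣ Nat.card X := by
          have h11 : addOrderOf z ∣ Nat.card (((nsmulAddMonoidHom (α := X) E).ker ⊓ Q' : AddSubgroup X)) :=
            addOrderOf_dvd_natCard z
          rw [hz] at h11
          exact h11.trans (AddSubgroup.card_addSubgroup_dvd_card _)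
        exact (hp.factorization_pos_of_dvd Nat.card_pos.ne' h10).ne'
      obtain ⟨m, hm⟩ := Nat.exists_eq_succ_of_ne_zero hpos
      rw [hm, pow_succ, mul_smul, hz2, smul_zero]
    exact hz0 ((h2 _ hv).symm.trans hz1)
  have h10 : (Nat.card Q').factorization p = (Nat.card (pp p e Q)).factorization p := by
    rw [← h8, Nat.factorization_mul Nat.card_pos.ne' Nat.card_pos.ne', Finsupp.add_apply,
      Nat.factorization_eq_zero_of_not_dvd h9, add_zero]
  rw [← h4, Nat.factorization_mul Nat.card_pos.ne' hr0, Finsupp.add_apply, h10]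
  omega

/-- **(b)+(c)**: the average over the revealed sums, for fixed rows and a fixed prime -/
theorem cst_avg {X A : Type*} [AddCommGroup X] [Finite X] [AddCommGroup A] [Finite A]
    {ρ s p : ℕ} (hp : p.Prime) (f : A →+ X) (x : Fin ρ → X)
    (hx : AddSubgroup.closure (Set.range x) = f.range) (e d : ℕ)
    (hd : (Nat.card X).factorization p ≤
      d + 2 * (Nat.card (AddSubgroup.closure (Set.range x))).factorization p) :
    ∑ c : Fin s → Fin ρ → Bool, G.cst ρ p e
        (AddSubgroup.closure (Set.range fun t : Fin s => ∑ i, if c t i then x i else 0))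
        (AddSubgroup.closure (Set.range x)) ≤
      2 ^ (s * ρ) * (ρ + 1) * Real.logb 2 p *
        ((d + 2 * ρ * e) * ((1 / 2) ^ s * (if e < Fail.lam p 1 A then 1 else 0) +
          (if e < Fail.lam p 2 A then 1 else 0)) +
        2 * ((1 / 2) ^ s * ((Fail.lam p 2 A - e : ℕ) : ℝ) +
          ρ * ((Fail.lam p 3 A - e : ℕ) : ℝ))) := by
  classical
  obtain ⟨ha, hb⟩ := avg_pp (s := s) hp x e
  set Q := AddSubgroup.closure (Set.range x) with hQ
  have hlog : 0 ≤ Real.logb 2 p := Real.logb_nonneg (by norm_num) (by exact_mod_cast hp.one_lt.le)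
  have hv : ((Nat.card X).factorization p : ℝ) - 2 * ((Nat.card (pp p e Q)).factorization p : ℝ)
      ≤ d + 2 * ρ * e := by
    have h1 := card_pp_ge hp x e
    rw [← hQ] at h1
    have h2 : (Nat.card X).factorization p ≤
        d + 2 * ((Nat.card (pp p e Q)).factorization p + ρ * e) := hd.trans (by omega)
    have h3 : ((Nat.card X).factorization p : ℝ) ≤
        d + 2 * ((Nat.card (pp p e Q)).factorization p + ρ * e) := by exact_mod_cast h2
    linarith
  have hl1 : Rev.lam p (pp p e Q) 1 ≤ Fail.lam p 1 A - e := by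
    rw [hx]; exact lam_pp_le hp f e le_rfl
  have hl2 : Rev.lam p (pp p e Q) 2 ≤ Fail.lam p 2 A - e := by
    rw [hx]; exact lam_pp_le hp f e (by norm_num)
  have hl3 : Rev.lam p (pp p e Q) 3 ≤ Fail.lam p 3 A - e := by
    rw [hx]; exact lam_pp_le hp f e (by norm_num)
  set D : ℝ := d + 2 * ρ * e with hD
  have hD0 : 0 ≤ D := by positivity
  -- the cost of one `c`
  have hone : ∀ c : Fin s → Fin ρ → Bool, G.cst ρ p e (Hc x c) Q ≤
      (D * (if pp p e Q ≠ pp p e (Hc x c) then 1 else 0) +
        2 * (bb p (pp p e Q ⧸ (pp p e (Hc x c)).addSubgroupOf (pp p e Q)) : ℝ)) *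
        (ρ + 1) * Real.logb 2 p := by
    intro c
    unfold G.cst
    refine mul_le_mul_of_nonneg_right (mul_le_mul_of_nonneg_right ?_ (by positivity)) hlog
    refine add_le_add ?_ le_rfl
    by_cases h : pp p e Q = pp p e (Hc x c)
    · rw [if_pos h, if_neg (fun h' => h' h), mul_zero]
    · rw [if_neg h, if_pos h, mul_one]
      exact hv
  set N : ℕ := (univ.filter fun c : Fin s → Fin ρ → Bool => pp p e Q ≠ pp p e (Hc x c)).card with hN
  set S : ℕ := ∑ c : Fin s → Fin ρ → Bool,
    bb p (pp p e Q ⧸ (pp p e (Hc x c)).addSubgroupOf (pp p e Q)) with hS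
  have hsum : ∑ c : Fin s → Fin ρ → Bool, G.cst ρ p e (Hc x c) Q ≤
      (D * N + 2 * S) * (ρ + 1) * Real.logb 2 p := by
    refine (sum_le_sum fun c _ => hone c).trans (le_of_eq ?_)
    rw [← sum_mul, ← sum_mul, sum_add_distrib, ← mul_sum, ← mul_sum]
    congr 4
    · rw [hN, card_filter]
      push_cast
      rfl
    · rw [hS]
      push_cast
      rfl
  have h2s : (0 : ℝ) < 2 ^ s := by positivity
  have hhalf : ((1 : ℝ) / 2) ^ s * 2 ^ s = 1 := by
    rw [← mul_pow]; norm_num
  have hN' : (N : ℝ) ≤ 2 ^ (s * ρ) * ((1 / 2) ^ s * (if e < Fail.lam p 1 A then 1 else 0) +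
      (if e < Fail.lam p 2 A then 1 else 0)) := by
    have h1 : ((2 ^ s * N : ℕ) : ℝ) ≤ ((2 ^ (s * ρ) *
        ((if 1 ≤ Rev.lam p (pp p e Q) 1 then 1 else 0) +
        2 ^ s * (if 1 ≤ Rev.lam p (pp p e Q) 2 then 1 else 0)) : ℕ) : ℝ) := by exact_mod_cast hb
    have h2 : (((if 1 ≤ Rev.lam p (pp p e Q) 1 then 1 else 0 : ℕ)) : ℝ) ≤
        (if e < Fail.lam p 1 A then 1 else 0) := by
      by_cases h : 1 ≤ Rev.lam p (pp p e Q) 1
      · rw [if_pos h, if_pos (by omega)]; simp
      · rw [if_neg h]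
        split_ifs <;> simp
    have h3 : (((if 1 ≤ Rev.lam p (pp p e Q) 2 then 1 else 0 : ℕ)) : ℝ) ≤
        (if e < Fail.lam p 2 A then 1 else 0) := by
      by_cases h : 1 ≤ Rev.lam p (pp p e Q) 2
      · rw [if_pos h, if_pos (by omega)]; simp
      · rw [if_neg h]
        split_ifs <;> simp
    push_cast at h1
    have h4 : (2 : ℝ) ^ s * N ≤ 2 ^ (s * ρ) * ((if e < Fail.lam p 1 A then 1 else 0) +
        2 ^ s * (if e < Fail.lam p 2 A then 1 else 0)) := by
      refine h1.trans (mul_le_mul_of_nonneg_left (add_le_add ?_ (mul_le_mul_of_nonneg_left ?_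
        h2s.le)) (by positivity))
      · simpa using h2
      · simpa using h3
    refine le_of_mul_le_mul_left ?_ h2s
    refine h4.trans (le_of_eq ?_)
    linear_combination (-(2 : ℝ) ^ (s * ρ) * (if e < Fail.lam p 1 A then 1 else 0)) * hhalf
  have hS' : (S : ℝ) ≤ 2 ^ (s * ρ) * ((1 / 2) ^ s * ((Fail.lam p 2 A - e : ℕ) : ℝ) +
      ρ * ((Fail.lam p 3 A - e : ℕ) : ℝ)) := by
    have h1 : 2 ^ s * S ≤ 2 ^ (s * ρ) * ((Fail.lam p 2 A - e) + 2 ^ s * ρ * (Fail.lam p 3 A - e)) :=
      ha.trans (Nat.mul_le_mul_left _ (Nat.add_le_add hl2 (Nat.mul_le_mul_left _ hl3)))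
    have h4 : (2 : ℝ) ^ s * S ≤ 2 ^ (s * ρ) * (((Fail.lam p 2 A - e : ℕ) : ℝ) +
        2 ^ s * ρ * ((Fail.lam p 3 A - e : ℕ) : ℝ)) := by exact_mod_cast h1
    refine le_of_mul_le_mul_left ?_ h2s
    refine h4.trans (le_of_eq ?_)
    linear_combination (-(2 : ℝ) ^ (s * ρ) * ((Fail.lam p 2 A - e : ℕ) : ℝ)) * hhalf
  refine hsum.trans ?_
  calc (D * N + 2 * S) * (ρ + 1) * Real.logb 2 p
      ≤ (D * (2 ^ (s * ρ) * ((1 / 2) ^ s * (if e < Fail.lam p 1 A then 1 else 0) +
          (if e < Fail.lam p 2 A then 1 else 0))) +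
        2 * (2 ^ (s * ρ) * ((1 / 2) ^ s * ((Fail.lam p 2 A - e : ℕ) : ℝ) +
          ρ * ((Fail.lam p 3 A - e : ℕ) : ℝ)))) * (ρ + 1) * Real.logb 2 p := by
        refine mul_le_mul_of_nonneg_right (mul_le_mul_of_nonneg_right (add_le_add
          (mul_le_mul_of_nonneg_left hN' hD0) (mul_le_mul_of_nonneg_left hS' (by norm_num)))
          (by positivity)) hlog
    _ = _ := by ring

end gen

end Vale.Agent.P160.Half.AvgC
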