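import Vale.Agent.P160.Half.GStmt3
import Vale.Agent.P160.Half.Avg212
import Vale.Agent.P160.Half.AvgC

/-!
# `AvgStmt` from the fixed-group average `cst_avg` (helper214): the combination over `R` and `p`
-/

namespace Vale.Agent.P160.Half.AvgF212

open Finset Vale.Agent.P160.Half Vale.Agent.P160.Half.Fail

/-- the average over `c` for one group and one prime (helper214: `AvgC.cst_avg`) -/
def CstAvgStmt : Prop := ∀ (X A : Type) [AddCommGroup X] [Finite X] [AddCommGroup A] [Finite A]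
  (ρ s p : ℕ), p.Prime → ∀ (f : A →+ X) (x : Fin ρ → X),
  AddSubgroup.closure (Set.range x) = f.range → ∀ (e d : ℕ),
  (Nat.card X).factorization p ≤
    d + 2 * (Nat.card (AddSubgroup.closure (Set.range x))).factorization p →
  ∑ c : Fin s → Fin ρ → Bool, G.cst ρ p e
      (AddSubgroup.closure (Set.range fun t : Fin s => ∑ i, if c t i then x i else 0))
      (AddSubgroup.closure (Set.range x)) ≤
    2 ^ (s * ρ) * (ρ + 1) * Real.logb 2 p * ((d + 2 * ρ * e) *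
      ((1 / 2) ^ s * (if e < Fail.lam p 1 A then 1 else 0) +
        (if e < Fail.lam p 2 A then 1 else 0)) +
      2 * ((1 / 2) ^ s * ((Fail.lam p 2 A - e : ℕ) : ℝ) + ρ * ((Fail.lam p 3 A - e : ℕ) : ℝ)))

/-- `c ↦ ∑ c_i x_i` -/
def phi {X : Type*} [AddCommGroup X] {ρ : ℕ} (x : Fin ρ → X) : (Fin ρ → ℤ) →+ X :=
  AddMonoidHom.mk' (fun c => ∑ i, c i • x i) (by
    intro c c'
    simp [add_smul, sum_add_distrib])

theorem phi_apply {X : Type*} [AddCommGroup X] {ρ : ℕ} (x : Fin ρ → X) (c : Fin ρ → ℤ) :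
    phi x c = ∑ i, c i • x i := rfl

theorem phi_range {X : Type*} [AddCommGroup X] {ρ : ℕ} (x : Fin ρ → X) :
    (phi x).range = AddSubgroup.closure (Set.range x) := by
  classical
  apply le_antisymm
  · rintro _ ⟨c, rfl⟩
    rw [phi_apply]
    refine AddSubgroup.sum_mem _ fun i _ => ?_
    have h3 : x i ∈ AddSubgroup.closure (Set.range x) := AddSubgroup.subset_closure ⟨i, rfl⟩
    exact AddSubgroup.zsmul_mem _ h3 _
  · rw [AddSubgroup.closure_le]
    rintro _ ⟨i, rfl⟩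
    refine ⟨Pi.single i 1, ?_⟩
    rw [phi_apply, sum_eq_single i]
    · simp
    · intro j _ hj
      rw [Pi.single_eq_of_ne hj, zero_smul]
    · intro h; exact absurd (mem_univ i) h

theorem ker_eq {X α : Type*} [AddCommGroup X] {ρ : ℕ} (K : AddSubgroup (α → ℤ)) (R : Fin ρ → α)
    (x : Fin ρ → X) (h : ∀ c : Fin ρ → ℤ, ∑ i, c i • x i = 0 ↔ ∃ u ∈ K, ∀ i, u (R i) = c i) :
    (phi x).ker = KR K R := by
  ext c
  rw [AddMonoidHom.mem_ker, phi_apply, h, mem_KR]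
  constructor
  · rintro ⟨u, hu, h1⟩
    exact ⟨u, hu, by funext i; exact (h1 i).symm⟩
  · rintro ⟨u, hu, rfl⟩
    exact ⟨u, hu, fun i => rfl⟩

theorem avg_of (hcst : CstAvgStmt) : G.AvgStmt := by
  classical
  intro n ρ s y a z K B Dl d Pr 𝓡 GG inst x hn ha hB hDl hfin hrel hcard hPr hD hz hcon
  set b : ℕ → ℕ := fun p => if y ≤ p then 1 else a with hb
  set e : ℕ → ℕ := fun p => if y ≤ p then 0 else ρ * (a - 1) with he
  have hbe : ∀ p, ρ * (b p - 1) = e p := by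
    intro p
    simp only [hb, he]
    split_ifs
    · simp
    · rfl
  have hn' : (0 : ℝ) < n := by exact_mod_cast hn
  set X : ℝ := ρ * z / n with hX
  have hX0 : 0 ≤ X := by positivity
  have hlog2 : 0 < Real.log 2 := Real.log_pos (by norm_num)
  have hlogb : ∀ p ∈ Pr, 0 ≤ Real.logb 2 p := fun p hp =>
    Real.logb_nonneg (by norm_num) (by exact_mod_cast (hPr p hp).one_lt.le)
  -- failures
  have hFl : ∀ p ∈ Pr, ∀ (t : Fin ρ) (R : Fin ρ → Fin n),
      {r | Fl K (p ^ b p) t (Function.update R t r)}.ncard ≤ z := by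
    intro p hp t R
    exact hFl_of_card K (p ^ b p) z t R (hz p hp t R)
  have hker : ∀ R ∈ 𝓡, (phi (x R)).ker = KR K R := fun R hR => ker_eq K R (x R) (hrel R hR)
  have hidx : ∀ R ∈ 𝓡, (KR K R).index ≠ 0 := by
    intro R hR
    have := hfin R hR
    rw [← hker R hR, AddSubgroup.index_ker]
    exact Nat.card_pos.ne'
  have hB1 : (1 : ℝ) ≤ (2 : ℝ) ^ ((ρ : ℝ) * B) := Real.one_le_rpow (by norm_num) (by positivity)
  have hidxB : ∀ R ∈ 𝓡, ((KR K R).index : ℝ) ≤ (2 : ℝ) ^ ((ρ : ℝ) * B) := fun R hR =>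
    index_le_of K R B hB (fun i => hcon i R) (hidx R hR)
  have hxn : (ρ * z : ℝ) = X * n := by
    rw [hX]; field_simp
  -- (W) in `logb`
  have hW : ∀ k : ℕ, ∑ R ∈ 𝓡, ∑ p ∈ Pr,
      ((lam p (k + 1) (QR K R) - e p : ℕ) : ℝ) * Real.logb 2 p ≤ X ^ k * (n : ℝ) ^ ρ * (ρ * B) := by
    intro k
    have h1 := count_lam_of K Pr hPr b z hFl k _ hB1 𝓡 (fun R hR => ⟨hidx R hR, hidxB R hR⟩)
    rw [Real.log_rpow (by norm_num), Fintype.card_fin, hxn] at h1
    simp only [hbe] at h1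
    have h2 : (n : ℝ) ^ k * ∑ R ∈ 𝓡, ∑ p ∈ Pr,
        ((lam p (k + 1) (QR K R) - e p : ℕ) : ℝ) * Real.log p
        ≤ (n : ℝ) ^ k * (X ^ k * (n : ℝ) ^ ρ * (ρ * B * Real.log 2)) := by
      refine h1.trans (le_of_eq ?_)
      rw [mul_pow]; ring
    have h3 := le_of_mul_le_mul_left h2 (by positivity)
    have h4 : ∑ R ∈ 𝓡, ∑ p ∈ Pr, ((lam p (k + 1) (QR K R) - e p : ℕ) : ℝ) * Real.logb 2 p
        = (∑ R ∈ 𝓡, ∑ p ∈ Pr, ((lam p (k + 1) (QR K R) - e p : ℕ) : ℝ) * Real.log p)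
          / Real.log 2 := by
      rw [sum_div]
      refine sum_congr rfl fun R _ => ?_
      rw [sum_div]
      refine sum_congr rfl fun p _ => ?_
      rw [Real.logb]; ring
    rw [h4, div_le_iff₀ hlog2]
    refine h3.trans (le_of_eq ?_)
    ring
  -- (C)
  have hC : ∀ p ∈ Pr, ∀ k : ℕ,
      ∑ R ∈ 𝓡, (if e p < lam p k (QR K R) then (1 : ℝ) else 0) ≤ X ^ k * (n : ℝ) ^ ρ := by
    intro p hp k
    have h1 := count_fail_of K (hPr p hp) (b p) z (hFl p hp) k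
      (𝓡.filter fun R => e p < lam p k (QR K R)) (by
        intro R hR
        obtain ⟨hR1, hR2⟩ := mem_filter.1 hR
        exact ⟨hidx R hR1, by rw [hbe]; exact hR2⟩)
    rw [hxn, Fintype.card_fin] at h1
    have h2 : (n : ℝ) ^ k * ((𝓡.filter fun R => e p < lam p k (QR K R)).card : ℝ)
        ≤ (n : ℝ) ^ k * (X ^ k * (n : ℝ) ^ ρ) := by
      refine h1.trans (le_of_eq ?_)
      rw [mul_pow]; ring
    have h3 := le_of_mul_le_mul_left h2 (by positivity)
    rw [card_filter] at h3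
    push_cast at h3
    exact h3
  -- fixed `R`, `p`
  have h1 : ∀ R ∈ 𝓡, ∀ p ∈ Pr, ∑ c : Fin s → Fin ρ → Bool, G.cst ρ p (e p)
      (AddSubgroup.closure (Set.range fun t : Fin s => ∑ i, if c t i then x R i else 0))
      (AddSubgroup.closure (Set.range (x R))) ≤
    2 ^ (s * ρ) * (ρ + 1) * Real.logb 2 p * (((d p : ℝ) + 2 * ρ * e p) *
      ((1 / 2) ^ s * (if e p < lam p 1 (QR K R) then 1 else 0) +
        (if e p < lam p 2 (QR K R) then 1 else 0)) +
      2 * ((1 / 2) ^ s * ((lam p 2 (QR K R) - e p : ℕ) : ℝ)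
        + ρ * ((lam p 3 (QR K R) - e p : ℕ) : ℝ))) := by
    intro R hR p hp
    have := hfin R hR
    have : Finite (QR K R) := finite_QR K R (hidx R hR)
    refine hcst (GG R) (QR K R) ρ s p (hPr p hp)
      (QuotientAddGroup.lift (KR K R) (phi (x R)) (hker R hR).ge) (x R) ?_ (e p) (d p)
      (hcard R hR p)
    rw [← phi_range]
    ext g
    constructor
    · rintro ⟨c, rfl⟩
      exact ⟨(c : QR K R), by simp⟩
    · rintro ⟨q, rfl⟩
      obtain ⟨c, rfl⟩ := QuotientAddGroup.mk_surjective q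
      exact ⟨c, by simp⟩
  -- the sum of the `d`-weights
  set M : ℕ → ℝ := fun p => ((d p : ℝ) + 2 * ρ * e p) * Real.logb 2 p with hM
  have hM0 : ∀ p ∈ Pr, 0 ≤ M p := fun p hp => mul_nonneg (by positivity) (hlogb p hp)
  have hly : 0 ≤ Real.logb 2 ((y : ℝ) + 1) := by
    refine Real.logb_nonneg (by norm_num) ?_
    have : (0 : ℝ) ≤ y := Nat.cast_nonneg _
    linarith
  have hMs : ∑ p ∈ Pr, M p ≤ Dl + 2 * ρ * (ρ * a) * y * Real.logb 2 (y + 1) := by
    have h2 : ∑ p ∈ Pr, M p = ∑ p ∈ Pr, (d p : ℝ) * Real.logb 2 p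
        + ∑ p ∈ Pr, 2 * ρ * (e p : ℝ) * Real.logb 2 p := by
      rw [← sum_add_distrib]
      refine sum_congr rfl fun p _ => ?_
      simp only [hM]; ring
    have h3 : ∑ p ∈ Pr, 2 * ρ * (e p : ℝ) * Real.logb 2 p
        ≤ ∑ p ∈ Pr, (if p < y then 2 * ρ * (ρ * a) * Real.logb 2 (y + 1) else (0 : ℝ)) := by
      refine sum_le_sum fun p hp => ?_
      by_cases hpy : p < y
      · rw [if_pos hpy]
        have h4 : (e p : ℝ) ≤ ρ * a := by
          simp only [he, if_neg (not_le.2 hpy)]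
          have : ρ * (a - 1) ≤ ρ * a := Nat.mul_le_mul_left _ (Nat.sub_le _ _)
          exact_mod_cast this
        have h5 : Real.logb 2 p ≤ Real.logb 2 ((y : ℝ) + 1) := by
          refine Real.logb_le_logb_of_le (by norm_num) ?_ ?_
          · exact_mod_cast (hPr p hp).pos
          · have : (p : ℝ) ≤ y := by exact_mod_cast hpy.le
            linarith
        exact mul_le_mul (mul_le_mul_of_nonneg_left h4 (by positivity)) h5 (hlogb p hp)
          (by positivity)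
      · rw [if_neg hpy]
        simp only [he, if_pos (not_lt.1 hpy)]
        simp
    have h4 : ∑ p ∈ Pr, (if p < y then 2 * ρ * (ρ * a) * Real.logb 2 (y + 1) else (0 : ℝ))
        ≤ y * (2 * ρ * (ρ * a) * Real.logb 2 (y + 1)) := by
      rw [← sum_filter, sum_const, nsmul_eq_mul]
      refine mul_le_mul_of_nonneg_right ?_ (by positivity)
      have h5 : (Pr.filter fun p => p < y) ⊆ range y := by
        intro p hp
        exact mem_range.2 (mem_filter.1 hp).2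
      have h6 := card_le_card h5
      rw [card_range] at h6
      exact_mod_cast h6
    rw [h2]
    linarith
  have hrpos : (0 : ℝ) ≤ 2 ^ (s * ρ) * (ρ + 1) := by positivity
  have hh : (0 : ℝ) ≤ (1 / 2) ^ s := by positivity
  -- the sum over `R`
  have hS1 : ∑ R ∈ 𝓡, ∑ p ∈ Pr, M p * ((1 / 2) ^ s *
        (if e p < lam p 1 (QR K R) then 1 else 0) + (if e p < lam p 2 (QR K R) then 1 else 0))
      ≤ (Dl + 2 * ρ * (ρ * a) * y * Real.logb 2 (y + 1)) *
        (((1 / 2) ^ s * X + X ^ 2) * (n : ℝ) ^ ρ) := by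
    rw [sum_comm]
    have h2 : ∀ p ∈ Pr, ∑ R ∈ 𝓡, M p * ((1 / 2) ^ s *
        (if e p < lam p 1 (QR K R) then 1 else 0) + (if e p < lam p 2 (QR K R) then 1 else 0))
        ≤ M p * (((1 / 2) ^ s * X + X ^ 2) * (n : ℝ) ^ ρ) := by
      intro p hp
      rw [← mul_sum, sum_add_distrib, ← mul_sum]
      refine mul_le_mul_of_nonneg_left ?_ (hM0 p hp)
      have h3 := hC p hp 1
      have h4 := hC p hp 2
      rw [pow_one] at h3
      have h5 := mul_le_mul_of_nonneg_left h3 hh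
      calc _ ≤ (1 / 2 : ℝ) ^ s * (X * (n : ℝ) ^ ρ) + X ^ 2 * (n : ℝ) ^ ρ := add_le_add h5 h4
        _ = _ := by ring
    refine (sum_le_sum h2).trans ?_
    rw [← sum_mul]
    exact mul_le_mul_of_nonneg_right hMs (by positivity)
  have hS2 := hW 1
  have hS3 := hW 2
  have h2 : ∑ R ∈ 𝓡, ∑ c : Fin s → Fin ρ → Bool, ∑ p ∈ Pr, G.cst ρ p (e p)
      (AddSubgroup.closure (Set.range fun t : Fin s => ∑ i, if c t i then x R i else 0))
      (AddSubgroup.closure (Set.range (x R)))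
      ≤ ∑ R ∈ 𝓡, ∑ p ∈ Pr, 2 ^ (s * ρ) * (ρ + 1) * (M p * ((1 / 2) ^ s *
        (if e p < lam p 1 (QR K R) then 1 else 0) + (if e p < lam p 2 (QR K R) then 1 else 0))
        + 2 * ((1 / 2) ^ s * (((lam p (1 + 1) (QR K R) - e p : ℕ) : ℝ) * Real.logb 2 p)
          + ρ * (((lam p (2 + 1) (QR K R) - e p : ℕ) : ℝ) * Real.logb 2 p))) := by
    refine sum_le_sum fun R hR => ?_
    rw [sum_comm]
    refine sum_le_sum fun p hp => (h1 R hR p hp).trans (le_of_eq ?_)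
    simp only [hM]
    ring
  refine h2.trans ?_
  have h3 : ∑ R ∈ 𝓡, ∑ p ∈ Pr, 2 ^ (s * ρ) * ((ρ : ℝ) + 1) * (M p * ((1 / 2) ^ s *
        (if e p < lam p 1 (QR K R) then 1 else 0) + (if e p < lam p 2 (QR K R) then 1 else 0))
        + 2 * ((1 / 2) ^ s * (((lam p (1 + 1) (QR K R) - e p : ℕ) : ℝ) * Real.logb 2 p)
          + ρ * (((lam p (2 + 1) (QR K R) - e p : ℕ) : ℝ) * Real.logb 2 p)))
      = 2 ^ (s * ρ) * ((ρ : ℝ) + 1) * ((∑ R ∈ 𝓡, ∑ p ∈ Pr, M p * ((1 / 2) ^ s *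
        (if e p < lam p 1 (QR K R) then 1 else 0) + (if e p < lam p 2 (QR K R) then 1 else 0)))
        + 2 * ((1 / 2) ^ s * (∑ R ∈ 𝓡, ∑ p ∈ Pr,
            ((lam p (1 + 1) (QR K R) - e p : ℕ) : ℝ) * Real.logb 2 p)
          + ρ * (∑ R ∈ 𝓡, ∑ p ∈ Pr,
            ((lam p (2 + 1) (QR K R) - e p : ℕ) : ℝ) * Real.logb 2 p))) := by
    simp only [← mul_sum, sum_add_distrib]
  rw [h3]
  calc 2 ^ (s * ρ) * ((ρ : ℝ) + 1) * ((∑ R ∈ 𝓡, ∑ p ∈ Pr, M p * ((1 / 2) ^ s *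
        (if e p < lam p 1 (QR K R) then 1 else 0) + (if e p < lam p 2 (QR K R) then 1 else 0)))
        + 2 * ((1 / 2) ^ s * (∑ R ∈ 𝓡, ∑ p ∈ Pr,
            ((lam p (1 + 1) (QR K R) - e p : ℕ) : ℝ) * Real.logb 2 p)
          + ρ * (∑ R ∈ 𝓡, ∑ p ∈ Pr,
            ((lam p (2 + 1) (QR K R) - e p : ℕ) : ℝ) * Real.logb 2 p)))
      ≤ 2 ^ (s * ρ) * ((ρ : ℝ) + 1) * ((Dl + 2 * ρ * (ρ * a) * y * Real.logb 2 (y + 1)) *
        (((1 / 2) ^ s * X + X ^ 2) * (n : ℝ) ^ ρ)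
        + 2 * ((1 / 2) ^ s * (X ^ 1 * (n : ℝ) ^ ρ * (ρ * B))
          + ρ * (X ^ 2 * (n : ℝ) ^ ρ * (ρ * B)))) := by
        refine mul_le_mul_of_nonneg_left (add_le_add hS1 ?_) hrpos
        refine mul_le_mul_of_nonneg_left (add_le_add ?_ ?_) (by norm_num)
        · exact mul_le_mul_of_nonneg_left hS2 hh
        · exact mul_le_mul_of_nonneg_left hS3 (Nat.cast_nonneg _)
    _ = _ := by ring

/-- helper214's fixed-group average -/
theorem cstAvg : CstAvgStmt := by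
  intro X A _ _ _ _ ρ s p hp f x hx e d hd
  exact AvgC.cst_avg hp f x hx e d hd

theorem avg : G.AvgStmt := avg_of cstAvg

end Vale.Agent.P160.Half.AvgF212
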