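import Mathlib

/-!
# Averaging over the deleted index (final assembly of P160-HALF)

`Z p` is the set of indices `j` at which the kernel vector vanishes modulo `p`, `w p` the label cost
of the prime `p`.  The label cost seen at `j` is `cost j`, the largest zero count visible at `j`
is `zm j`.
-/

namespace Vale.Agent.P160.Half.AvgJ

open Finset

variable {ι : Type*} [Fintype ι] [DecidableEq ι] {κ : Type*}

/-- label cost at the index `j` -/
def cost (S : Finset κ) (Z : κ → Finset ι) (w : κ → ℝ) (j : ι) : ℝ :=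
  ∑ p ∈ S.filter (fun p => j ∈ Z p), w p

/-- largest zero count visible at the index `j` -/
def zm (S : Finset κ) (Z : κ → Finset ι) (j : ι) : ℕ :=
  (S.filter (fun p => j ∈ Z p)).sup (fun p => (Z p).card)

theorem card_le_zm (S : Finset κ) (Z : κ → Finset ι) {p : κ} (hp : p ∈ S) {j : ι} (hj : j ∈ Z p) :
    (Z p).card ≤ zm S Z j := by
  unfold zm
  exact Finset.le_sup (f := fun p => (Z p).card) (mem_filter.2 ⟨hp, hj⟩)

theorem cost_nonneg (S : Finset κ) (Z : κ → Finset ι) (w : κ → ℝ) (hw : ∀ p ∈ S, 0 ≤ w p) (j : ι) :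
    0 ≤ cost S Z w j :=
  sum_nonneg fun p hp => hw p (mem_filter.1 hp).1

/-- if some prime is visible at `j`, the maximum is attained -/
theorem exists_zm (S : Finset κ) (Z : κ → Finset ι) (j : ι) (h : 0 < zm S Z j) :
    ∃ p ∈ S, j ∈ Z p ∧ (Z p).card = zm S Z j := by
  have hne : (S.filter (fun p => j ∈ Z p)).Nonempty := by
    by_contra hcon
    rw [not_nonempty_iff_eq_empty] at hcon
    unfold zm at h
    rw [hcon, sup_empty] at h
    simp at h
  obtain ⟨p, hp, hp2⟩ := Finset.exists_mem_eq_sup _ hne (fun p => (Z p).card)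
  exact ⟨p, (mem_filter.1 hp).1, (mem_filter.1 hp).2, hp2.symm⟩

/-- nothing is paid at `j` if no prime is visible -/
theorem cost_eq_zero (S : Finset κ) (Z : κ → Finset ι) (w : κ → ℝ) (j : ι) (h : zm S Z j = 0) :
    cost S Z w j = 0 := by
  unfold cost
  apply sum_eq_zero
  intro p hp
  exfalso
  have h1 := card_le_zm S Z (mem_filter.1 hp).1 (mem_filter.1 hp).2
  have h2 : 0 < (Z p).card := card_pos.2 ⟨j, (mem_filter.1 hp).2⟩
  omega

/-- **Averaging lemma.** -/
theorem sum_cost_div_le (S : Finset κ) (Z : κ → Finset ι) (w : κ → ℝ) (hw : ∀ p ∈ S, 0 ≤ w p) :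
    ∑ j, cost S Z w j / (zm S Z j : ℝ) ≤ ∑ p ∈ S, w p := by
  have h1 : ∀ j, cost S Z w j / (zm S Z j : ℝ) ≤
      ∑ p ∈ S, if j ∈ Z p then w p / ((Z p).card : ℝ) else 0 := by
    intro j
    unfold cost
    rw [sum_div, ← sum_filter]
    apply sum_le_sum
    intro p hp
    have hj := (mem_filter.1 hp).2
    have h2 : 0 < (Z p).card := card_pos.2 ⟨j, hj⟩
    have h3 := card_le_zm S Z (mem_filter.1 hp).1 hj
    have h4 : (0 : ℝ) < ((Z p).card : ℝ) := by exact_mod_cast h2
    have h5 : ((Z p).card : ℝ) ≤ (zm S Z j : ℝ) := by exact_mod_cast h3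
    exact div_le_div_of_nonneg_left (hw p (mem_filter.1 hp).1) h4 h5
  refine (sum_le_sum fun j _ => h1 j).trans ?_
  rw [sum_comm]
  apply sum_le_sum
  intro p hp
  rw [← sum_filter, filter_mem_eq_inter, univ_inter, sum_const, nsmul_eq_mul]
  by_cases h0 : ((Z p).card : ℝ) = 0
  · rw [h0, zero_mul]
    exact hw p hp
  · rw [mul_div_cancel₀ _ h0]

/-- **Few bad indices.** -/
theorem card_bad (S : Finset κ) (Z : κ → Finset ι) (w : κ → ℝ) (hw : ∀ p ∈ S, 0 ≤ w p)
    (lam e K : ℝ) (hlam : 0 ≤ lam) (he : 0 ≤ e) (hK : 0 < K)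
    (hW : ∑ p ∈ S, w p ≤ lam * Fintype.card ι) (hZ : ∀ p ∈ S, ((Z p).card : ℝ) ≤ K) :
    ((univ.filter (fun j => lam * (zm S Z j : ℝ) + e < cost S Z w j)).card : ℝ) * (lam + e / K) ≤
      lam * Fintype.card ι := by
  refine le_trans ?_ hW
  refine le_trans ?_ (sum_cost_div_le S Z w hw)
  have h1 : ∀ j ∈ univ.filter (fun j => lam * (zm S Z j : ℝ) + e < cost S Z w j),
      lam + e / K ≤ cost S Z w j / (zm S Z j : ℝ) := by
    intro j hj
    have hj2 := (mem_filter.1 hj).2
    have hz : 0 < zm S Z j := by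
      rcases Nat.eq_zero_or_pos (zm S Z j) with h0 | h0
      · exfalso
        rw [cost_eq_zero S Z w j h0, h0] at hj2
        simp at hj2
        linarith
      · exact h0
    obtain ⟨p, hp, _, hp2⟩ := exists_zm S Z j hz
    have hzK : (zm S Z j : ℝ) ≤ K := by
      rw [← hp2]
      exact hZ p hp
    have hz' : (0 : ℝ) < (zm S Z j : ℝ) := by exact_mod_cast hz
    rw [le_div_iff₀ hz', add_mul]
    have h3 : e / K * (zm S Z j : ℝ) ≤ e := by
      rw [div_mul_eq_mul_div, div_le_iff₀ hK]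
      exact mul_le_mul_of_nonneg_left hzK he
    linarith
  have h2 : ∑ j ∈ univ.filter (fun j => lam * (zm S Z j : ℝ) + e < cost S Z w j), (lam + e / K) ≤
      ∑ j ∈ univ.filter (fun j => lam * (zm S Z j : ℝ) + e < cost S Z w j),
        cost S Z w j / (zm S Z j : ℝ) := sum_le_sum h1
  rw [sum_const, nsmul_eq_mul] at h2
  refine h2.trans ?_
  exact sum_le_sum_of_subset_of_nonneg (filter_subset _ _)
    (fun j _ _ => div_nonneg (cost_nonneg S Z w hw j) (Nat.cast_nonneg _))

/-- **Many good indices inside a large set of admissible indices.**  If all but `b` indices are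
admissible (`adm`), then at least one admissible index is good as soon as
`(b + 1) * (lam + e / K) ≤ n * e / K`-type slack is available. -/
theorem exists_good (S : Finset κ) (Z : κ → Finset ι) (w : κ → ℝ) (hw : ∀ p ∈ S, 0 ≤ w p)
    (lam e K : ℝ) (hlam : 0 ≤ lam) (he : 0 ≤ e) (hK : 0 < K)
    (hW : ∑ p ∈ S, w p ≤ lam * Fintype.card ι) (hZ : ∀ p ∈ S, ((Z p).card : ℝ) ≤ K)
    (adm : Finset ι)
    (hadm : lam * Fintype.card ι < (adm.card : ℝ) * (lam + e / K)) :
    ∃ j ∈ adm, cost S Z w j ≤ lam * (zm S Z j : ℝ) + e := by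
  by_contra hcon
  push Not at hcon
  have hsub : adm ⊆ univ.filter (fun j => lam * (zm S Z j : ℝ) + e < cost S Z w j) := by
    intro j hj
    exact mem_filter.2 ⟨mem_univ _, hcon j hj⟩
  have h1 := card_bad S Z w hw lam e K hlam he hK hW hZ
  have h2 : (adm.card : ℝ) ≤
      ((univ.filter (fun j => lam * (zm S Z j : ℝ) + e < cost S Z w j)).card : ℝ) := by
    exact_mod_cast card_le_card hsub
  have h3 : 0 ≤ lam + e / K := by positivity
  have h4 := mul_le_mul_of_nonneg_right h2 h3
  linarith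

end Vale.Agent.P160.Half.AvgJ
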