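import Vale.Agent.P160.Half.FlatI

/-! P160-HALF, block (M): EVENT FORM of COUNT (832's 11023 (2), 986's 11105, 182's 11202 (I2)). -/

namespace Vale.Agent.P160.Half.Good439

open Finset Vale.Agent.P160 Vale.Agent.P160.Half.Flat

/-- the entry law `e` (uniform seed in `Om`) is dominated by the lazy law `cf 8` -/
def DomL {Om : Type} [Fintype Om] (e : Om → ℤ) : Prop :=
  ∀ (G : Type) [AddCommGroup G] [Fintype G] [DecidableEq G] (a : ℕ) (y : Fin a → G),
    (Fintype.card G : ℝ) *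
      ((univ.filter fun x : Fin a → Om => ∑ c, e (x c) • y c = 0).card : ℝ) ≤
      (Fintype.card Om : ℝ) ^ a * gZ 8 y

section grp

variable {G G' : Type} [AddCommGroup G] [Fintype G] [AddCommGroup G'] [Fintype G']

lemma gZ_eq {m : ℕ} [DecidableEq G] (y : Fin m → G) : gZ 8 y = Fintype.card G * gpr 8 y 0 := by
  rw [gpr_zero_eq (by norm_num)]
  rfl

lemma gZ_nonneg {m : ℕ} (y : Fin m → G) : 0 ≤ gZ 8 y := by
  classical
  rw [gZ_eq]
  exact mul_nonneg (by positivity) (gpr_nonneg _ _)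

/-- passing to the image under a homomorphism -/
lemma gZ_map {m : ℕ} (φ : G →+ G') (y : Fin m → G) :
    (Fintype.card G' : ℝ) * gZ 8 y ≤ Fintype.card G * gZ 8 (fun c => φ (y c)) := by
  classical
  rw [gZ_eq, gZ_eq]
  have h : gpr 8 y 0 ≤ gpr 8 (fun c => φ (y c)) 0 := by
    unfold gpr
    refine div_le_div_of_nonneg_right ?_ (by positivity)
    refine Nat.cast_le.2 (card_le_card fun ω hω => ?_)
    simp only [mem_filter, mem_univ, true_and] at hω ⊢
    have := congrArg φ hω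
    simpa [gwalk, map_sum, map_zsmul] using this
  have h1 : (0 : ℝ) ≤ Fintype.card G' := by positivity
  have h2 : (0 : ℝ) ≤ Fintype.card G := by positivity
  calc (Fintype.card G' : ℝ) * (Fintype.card G * gpr 8 y 0)
      ≤ Fintype.card G' * (Fintype.card G * gpr 8 (fun c => φ (y c)) 0) := by gcongr
    _ = _ := by ring

omit [Fintype G] [Fintype G'] in
lemma NonSp.map {m : ℕ} {e : ℝ} {y : Fin m → G} (h : NonSp e y) (φ : G →+ G')
    (hφ : Function.Surjective φ) : NonSp e (fun c => φ (y c)) := by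
  classical
  intro ψ hψ
  have h1 : ψ.compAddMonoidHom φ ≠ 1 := by
    intro h0
    refine hψ ?_
    ext v
    obtain ⟨u, rfl⟩ := hφ v
    have := DFunLike.congr_fun h0 u
    simpa using this
  exact h _ h1

/-- `gZ` of a subsingleton group is 1 -/
lemma gZ_subsingleton {m : ℕ} [Subsingleton G] (y : Fin m → G) : gZ 8 y = 1 := by
  classical
  rw [gZ_eq]
  have h1 : Fintype.card G = 1 := Fintype.card_eq_one_iff.2 ⟨0, fun x => Subsingleton.elim _ _⟩
  have h2 : gpr 8 y 0 = 1 := by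
    unfold gpr
    rw [filter_true_of_mem (fun ω _ => Subsingleton.elim _ _)]
    simp
  rw [h1, h2]
  simp

end grp

lemma biUnion_sum_le {α : Type*} [DecidableEq α] (s : Finset ℕ) (t : ℕ → Finset α) (f : α → ℝ)
    (hf : ∀ x, 0 ≤ f x) : ∑ x ∈ s.biUnion t, f x ≤ ∑ i ∈ s, ∑ x ∈ t i, f x := by
  induction s using Finset.induction_on with
  | empty => simp
  | insert a s ha ih =>
    rw [biUnion_insert, sum_insert ha]
    have h := sum_union_inter (s₁ := t a) (s₂ := s.biUnion t) (f := f)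
    have h2 : 0 ≤ ∑ x ∈ t a ∩ s.biUnion t, f x := sum_nonneg fun x _ => hf x
    linarith

/-- one level -/
lemma level {G : Type} [AddCommGroup G] [Fintype G] [DecidableEq G] {a j : ℕ} (hj : j ≤ a)
    (NF : Finset (Fin a → G)) (X A T : ℝ) (hT : 1 ≤ T)
    (hc : (NF.card : ℝ) ≤ (Fintype.card G : ℝ) ^ a * (X / T) ^ a)
    (hZ : ∀ w ∈ NF, gZ 8 w ≤ A * T) (hA1 : 1 ≤ A) :
    ∑ w ∈ NF, gZ 8 w ^ j ≤ (Fintype.card G : ℝ) ^ a * (A * X) ^ a := by
  have hT0 : 0 < T := by linarith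
  calc ∑ w ∈ NF, gZ 8 w ^ j ≤ ∑ w ∈ NF, (A * T) ^ j := by
        refine sum_le_sum fun w hw => ?_
        exact pow_le_pow_left₀ (gZ_nonneg w) (hZ w hw) j
    _ = NF.card * (A * T) ^ j := by rw [sum_const, nsmul_eq_mul]
    _ ≤ NF.card * (A * T) ^ a := by
        refine mul_le_mul_of_nonneg_left ?_ (by positivity)
        exact pow_le_pow_right₀ (one_le_mul_of_one_le_of_one_le hA1 hT) hj
    _ ≤ ((Fintype.card G : ℝ) ^ a * (X / T) ^ a) * (A * T) ^ a := by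
        refine mul_le_mul_of_nonneg_right hc (by positivity)
    _ = _ := by
        rw [mul_assoc, ← mul_pow]
        congr 2
        field_simp

open scoped Classical in
/-- the moment over the nonflat vectors of one group -/
theorem moment (hC : StmtCountG) (δ c C₀ : ℝ) (hδ : 0 < δ) (hδ1 : δ ≤ 1) (hc : 0 < c) (hC₀ : 0 < C₀) :
    ∃ k₀ : ℕ, ∀ k : ℕ, k₀ ≤ k → ∀ (G : Type) [AddCommGroup G] [Fintype G] (a j : ℕ), j ≤ a →
      a ≤ k → (k : ℝ) ≤ 2 * a →
      (∀ p : ℕ, p.Prime → p ∣ Fintype.card G → k ≤ p) →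
      (Fintype.card G : ℝ) * (3 / 4) ^ a ≤ Real.exp (-c * k) →
      ∑ w ∈ univ.filter (fun w : Fin a → G => NonSp ((k : ℝ) ^ (1 - δ / 4)) w ∧
        1 + 1 / k ≤ gZ 8 w ∧ gZ 8 w ≤ (k : ℝ) ^ C₀), gZ 8 w ^ j ≤
        (Fintype.card G : ℝ) ^ a * (3 * (k : ℝ) ^ (-(1 / 2) + δ)) ^ a * ((k : ℝ) ^ C₀ + 2) := by
  obtain ⟨k₀, h₀⟩ := hC δ c C₀ hδ hδ1 hc hC₀
  refine ⟨max k₀ 1, fun k hk G _ _ a j hja hak hka hp hG => ?_⟩
  have hk₀ : k₀ ≤ k := le_trans (le_max_left _ _) hk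
  have hk1 : 1 ≤ k := le_trans (le_max_right _ _) hk
  have hkr : (1 : ℝ) ≤ k := by exact_mod_cast hk1
  have key := h₀ k hk₀ G a hak hka hp hG
  set X : ℝ := (k : ℝ) ^ (-(1 / 2) + δ) with hXd
  have hX : 0 ≤ X := by positivity
  set P : ℝ := (k : ℝ) ^ C₀ with hPd
  have hP1 : 1 ≤ P := Real.one_le_rpow hkr hC₀.le
  set NF := univ.filter (fun w : Fin a → G => NonSp ((k : ℝ) ^ (1 - δ / 4)) w ∧
        1 + 1 / k ≤ gZ 8 w ∧ gZ 8 w ≤ P) with hNF
  -- levels
  set L : ℕ := ⌈P⌉₊ with hL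
  let N0 : Finset (Fin a → G) := univ.filter (fun w : Fin a → G =>
    NonSp ((k : ℝ) ^ (1 - δ / 4)) w ∧ 1 + 1 / k ≤ gZ 8 w ∧ gZ 8 w ≤ 2)
  let Ni : ℕ → Finset (Fin a → G) := fun i => univ.filter (fun w : Fin a → G =>
    NonSp ((k : ℝ) ^ (1 - δ / 4)) w ∧ 1 + 2 ^ i ≤ gZ 8 w ∧ gZ 8 w ≤ 1 + 2 ^ (i + 1) ∧ gZ 8 w ≤ P)
  have hsub : NF ⊆ N0 ∪ (range L).biUnion Ni := by
    intro w hw
    simp only [hNF, mem_filter, mem_univ, true_and] at hw
    obtain ⟨w1, w2, w3⟩ := hw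
    by_cases h2 : gZ 8 w ≤ 2
    · refine mem_union_left _ ?_
      simp only [N0, mem_filter, mem_univ, true_and]
      exact ⟨w1, w2, h2⟩
    · push Not at h2
      refine mem_union_right _ ?_
      have h3 : (1 : ℝ) ≤ gZ 8 w - 1 := by linarith
      obtain ⟨i, hi1, hi2⟩ := exists_nat_pow_near h3 (by norm_num : (1 : ℝ) < 2)
      simp only [mem_biUnion, Finset.mem_range, Ni, mem_filter, mem_univ, true_and]
      refine ⟨i, ?_, w1, by linarith, by linarith, w3⟩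
      have h4 : (2 : ℝ) ^ i ≤ P := by linarith
      have h5 : ((i : ℕ) : ℝ) < (2 : ℝ) ^ i := by exact_mod_cast Nat.lt_two_pow_self
      have h6 : (i : ℝ) < P := lt_of_lt_of_le h5 h4
      exact Nat.lt_ceil.2 h6
  have hb0 : ∑ w ∈ N0, gZ 8 w ^ j ≤ (Fintype.card G : ℝ) ^ a * (3 * X) ^ a := by
    refine level hja N0 X 3 1 le_rfl ?_ ?_ (by norm_num)
    · have h1 := key (1 / k) le_rfl ?_
      · rw [max_eq_left (by rw [div_le_one (by linarith)]; exact hkr)] at h1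
        refine le_trans (Nat.cast_le.2 (card_le_card ?_)) h1
        intro w hw
        simp only [N0, mem_filter, mem_univ, true_and] at hw ⊢
        exact ⟨hw.1, hw.2.1⟩
      · refine le_trans ?_ hP1
        rw [div_le_one (by linarith)]
        exact hkr
    · intro w hw
      simp only [N0, mem_filter, mem_univ, true_and] at hw
      linarith [hw.2.2]
  have hbi : ∀ i ∈ range L, ∑ w ∈ Ni i, gZ 8 w ^ j ≤ (Fintype.card G : ℝ) ^ a * (3 * X) ^ a := by
    intro i _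
    have h2i : (1 : ℝ) ≤ 2 ^ i := one_le_pow₀ (by norm_num)
    by_cases hiP : (2 : ℝ) ^ i ≤ P
    · refine level hja (Ni i) X 3 (2 ^ i) h2i ?_ ?_ (by norm_num)
      · have h1 := key (2 ^ i) ?_ hiP
        · rw [max_eq_right h2i] at h1
          refine le_trans (Nat.cast_le.2 (card_le_card ?_)) h1
          intro w hw
          simp only [Ni, mem_filter, mem_univ, true_and] at hw ⊢
          exact ⟨hw.1, hw.2.1⟩
        · refine le_trans ?_ h2i
          rw [div_le_one (by linarith)]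
          exact hkr
      · intro w hw
        simp only [Ni, mem_filter, mem_univ, true_and] at hw
        have := hw.2.2.1
        rw [pow_succ] at this
        linarith
    · have : Ni i = ∅ := by
        refine filter_eq_empty_iff.2 fun w _ hw => ?_
        obtain ⟨_, h1, _, h3⟩ := hw
        exact hiP (by linarith)
      rw [this, sum_empty]
      positivity
  have hnn : ∀ w : Fin a → G, 0 ≤ gZ 8 w ^ j := fun w => pow_nonneg (gZ_nonneg w) j
  calc ∑ w ∈ NF, gZ 8 w ^ j ≤ ∑ w ∈ N0 ∪ (range L).biUnion Ni, gZ 8 w ^ j :=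
        sum_le_sum_of_subset_of_nonneg hsub fun w _ _ => hnn w
    _ ≤ ∑ w ∈ N0, gZ 8 w ^ j + ∑ w ∈ (range L).biUnion Ni, gZ 8 w ^ j := by
        rw [← sum_union_inter]
        exact le_add_of_nonneg_right (sum_nonneg fun w _ => hnn w)
    _ ≤ ∑ w ∈ N0, gZ 8 w ^ j + ∑ i ∈ range L, ∑ w ∈ Ni i, gZ 8 w ^ j := by
        gcongr
        exact biUnion_sum_le _ _ _ hnn
    _ ≤ (Fintype.card G : ℝ) ^ a * (3 * X) ^ a +
          ∑ i ∈ range L, (Fintype.card G : ℝ) ^ a * (3 * X) ^ a :=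
        add_le_add hb0 (sum_le_sum hbi)
    _ = (Fintype.card G : ℝ) ^ a * (3 * X) ^ a * (L + 1) := by
        rw [sum_const, card_range, nsmul_eq_mul]
        ring
    _ ≤ _ := by
        refine mul_le_mul_of_nonneg_left ?_ (by positivity)
        have := Nat.ceil_lt_add_one (by linarith : 0 ≤ P)
        rw [← hL] at this
        linarith

/-- the vectors of `N` annihilated by the rows of `Y` -/
noncomputable def kerF {Om : Type} (e : Om → ℤ) {G : Type} [AddCommGroup G] {a j : ℕ}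
    (Y : Fin j → Fin a → Om) (N : Finset (Fin a → G)) : Finset (Fin a → G) := by
  classical exact N.filter fun w => ∀ j', ∑ c, e (Y j' c) • w c = 0

lemma mem_kerF {Om : Type} {e : Om → ℤ} {G : Type} [AddCommGroup G] {a j : ℕ}
    {Y : Fin j → Fin a → Om} {N : Finset (Fin a → G)} {w : Fin a → G} :
    w ∈ kerF e Y N ↔ w ∈ N ∧ ∀ j', ∑ c, e (Y j' c) • w c = 0 := by
  classical
  unfold kerF
  rw [mem_filter]

open scoped Classical in
/-- exchange of the sums over matrices and vectors -/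
lemma sumY {Om : Type} [Fintype Om] {e : Om → ℤ} (hD : DomL e) {G : Type} [AddCommGroup G]
    [Fintype G] {a j : ℕ} (NF : Finset (Fin a → G)) :
    (∑ Y : Fin j → Fin a → Om, ((kerF e Y NF).card : ℝ)) * (Fintype.card G : ℝ) ^ j ≤
      (Fintype.card Om : ℝ) ^ (a * j) * ∑ w ∈ NF, gZ 8 w ^ j := by
  have h1 : (∑ Y : Fin j → Fin a → Om, ((kerF e Y NF).card : ℝ)) =
      ∑ w ∈ NF, ((univ.filter fun x : Fin a → Om => ∑ c, e (x c) • w c = 0).card : ℝ) ^ j := by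
    have h2 : ∀ Y : Fin j → Fin a → Om, ((kerF e Y NF).card : ℝ) =
          ∑ w ∈ NF, if (∀ j', ∑ c, e (Y j' c) • w c = 0) then (1 : ℝ) else 0 := by
      intro Y
      unfold kerF
      rw [card_filter]
      push_cast
      rfl
    simp only [h2]
    rw [sum_comm]
    refine sum_congr rfl fun w _ => ?_
    have h3 : (univ.filter fun Y : Fin j → Fin a → Om => ∀ j', ∑ c, e (Y j' c) • w c = 0) =
        Fintype.piFinset (fun _ : Fin j =>
          univ.filter fun x : Fin a → Om => ∑ c, e (x c) • w c = 0) := by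
      ext Y
      simp
    have h4 : ((univ.filter fun Y : Fin j → Fin a → Om =>
        ∀ j', ∑ c, e (Y j' c) • w c = 0).card : ℝ) =
        ((univ.filter fun x : Fin a → Om => ∑ c, e (x c) • w c = 0).card : ℝ) ^ j := by
      rw [h3, Fintype.card_piFinset_const]
      push_cast
      rfl
    rw [← h4, card_filter]
    push_cast
    rfl
  rw [h1, sum_mul, mul_sum]
  refine sum_le_sum fun w _ => ?_
  have h5 := hD G a w
  rw [pow_mul, ← mul_pow, ← mul_pow]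
  refine pow_le_pow_left₀ (by positivity) ?_ j
  rw [mul_comm]
  convert h5

section slots

variable {ι : Type} [DecidableEq ι] (p : ι → ℕ)

/-- the group of the slot set `S` -/
abbrev GS (S : Finset ι) : Type := ∀ i : {x // x ∈ S}, ZMod (p i)

/-- restriction of slots -/
def res (S : Finset ι) (i₀ : ι) : GS p S →+ GS p (S.erase i₀) where
  toFun v i := v ⟨i.1, mem_of_mem_erase i.2⟩
  map_zero' := rfl
  map_add' _ _ := rfl

lemma res_surj (S : Finset ι) (i₀ : ι) : Function.Surjective (res p S i₀) := by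
  intro v
  refine ⟨fun i => if h : i.1 ∈ S.erase i₀ then v ⟨i.1, h⟩ else 0, ?_⟩
  funext i
  have : i.1 ∈ S.erase i₀ := i.2
  show (if h : i.1 ∈ S.erase i₀ then v ⟨i.1, h⟩ else 0) = v i
  rw [dif_pos this]

variable [∀ i, NeZero (p i)]

lemma card_GS (S : Finset ι) : Fintype.card (GS p S) = ∏ i ∈ S, p i := by
  rw [Fintype.card_pi]
  simp only [ZMod.card]
  exact prod_coe_sort S p

/-- nonsparse nonflat kernel vector on the slot set `S` -/
def NF {Om : Type} (e : Om → ℤ) (k : ℕ) (e0 : ℝ) {a j : ℕ} (Y : Fin j → Fin a → Om)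
    (S : Finset ι) (w : Fin a → GS p S) : Prop :=
  NonSp e0 w ∧ 1 + 1 / (k : ℝ) ≤ gZ 8 w ∧ ∀ j', ∑ c, e (Y j' c) • w c = 0

lemma crit {Om : Type} (e : Om → ℤ) (k : ℕ) (e0 : ℝ) {a j : ℕ} (Y : Fin j → Fin a → Om)
    (hk : 1 ≤ k) (P : ℝ) (hP : ∀ i, 2 * (p i : ℝ) ≤ P) (n : ℕ) : ∀ (S : Finset ι), S.card = n →
    ∀ w : Fin a → GS p S, NF p e k e0 Y S w →
      ∃ (S' : Finset ι), S' ⊆ S ∧ 1 ≤ S'.card ∧ ∃ w' : Fin a → GS p S', NF p e k e0 Y S' w' ∧
        gZ 8 w' ≤ P := by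
  induction n with
  | zero =>
    intro S hS w hw
    obtain rfl := card_eq_zero.1 hS
    have h1 := gZ_subsingleton (G := GS p ∅) w
    have h2 := hw.2.1
    rw [h1] at h2
    have h3 : (0 : ℝ) < 1 / k := by
      have : (0 : ℝ) < k := by exact_mod_cast (by omega : 0 < k)
      positivity
    linarith
  | succ n ih =>
    intro S hS w hw
    obtain ⟨i₀, hi₀⟩ : S.Nonempty := card_pos.1 (by omega)
    have hc : (S.erase i₀).card = n := by rw [card_erase_of_mem hi₀, hS]; rfl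
    have hkpos : (1 : ℝ) ≤ k := by exact_mod_cast hk
    by_cases h : 1 + 1 / (k : ℝ) ≤ gZ 8 (fun c => res p S i₀ (w c))
    · have hw' : NF p e k e0 Y (S.erase i₀) (fun c => res p S i₀ (w c)) := by
        refine ⟨NonSp.map hw.1 _ (res_surj p S i₀), h, fun j' => ?_⟩
        have := congrArg (res p S i₀) (hw.2.2 j')
        rw [map_sum, map_zero] at this
        rw [← this]
        exact sum_congr rfl fun c _ => (map_zsmul _ _ _).symm
      obtain ⟨S', hS', h1, h2⟩ := ih (S.erase i₀) hc _ hw'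
      exact ⟨S', hS'.trans (erase_subset _ _), h1, h2⟩
    · push Not at h
      refine ⟨S, Subset.refl S, by omega, w, hw, ?_⟩
      have h1 := gZ_map (res p S i₀) w
      rw [card_GS, card_GS, ← mul_prod_erase S p hi₀] at h1
      have h2 : (0 : ℝ) < ((∏ i ∈ S.erase i₀, p i : ℕ) : ℝ) := by
        have : 0 < ∏ i ∈ S.erase i₀, p i := prod_pos fun i _ => Nat.pos_of_ne_zero (NeZero.ne _)
        exact_mod_cast this
      have h3 : gZ 8 w ≤ p i₀ * gZ 8 (fun c => res p S i₀ (w c)) := by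
        refine le_of_mul_le_mul_left ?_ h2
        calc _ ≤ _ := h1
          _ = _ := by push_cast; ring
      have h4 : gZ 8 (fun c => res p S i₀ (w c)) ≤ 2 := by
        refine h.le.trans ?_
        have : 1 / (k : ℝ) ≤ 1 := by
          rw [div_le_one (by linarith)]
          exact hkpos
        linarith
      have h5 : (0 : ℝ) ≤ p i₀ := by positivity
      calc gZ 8 w ≤ _ := h3
        _ ≤ p i₀ * 2 := mul_le_mul_of_nonneg_left h4 h5
        _ ≤ P := by linarith [hP i₀]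

end slots

/-- **EVENT FORM** (existence form, square matrices): outside a set of density `k^(-(1/2-δ)a)`
every nonsparse kernel vector on any set of slots is flat. -/
def StmtEvent : Prop :=
  ∀ δ c C₀ : ℝ, 0 < δ → δ ≤ 1 → 0 < c → 0 < C₀ → ∃ k₀ : ℕ, ∀ k : ℕ, k₀ ≤ k → ∀ a : ℕ, a ≤ k →
    (k : ℝ) ≤ 2 * a → ∀ (ι : Type) [Fintype ι] [DecidableEq ι] (p : ι → ℕ) [∀ i, NeZero (p i)],
    Fintype.card ι ≤ k → (∀ i, (p i).Prime ∧ k ≤ p i ∧ 2 * (p i : ℝ) ≤ (k : ℝ) ^ C₀) →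
    ((∏ i, p i : ℕ) : ℝ) * (3 / 4) ^ a ≤ Real.exp (-c * k) →
    ∀ (Om : Type) [Fintype Om] (e : Om → ℤ), DomL e →
    (Nat.card {Y : Fin a → Fin a → Om // ∃ (S : Finset ι) (w : Fin a → GS p S),
      NF p e k ((k : ℝ) ^ (1 - δ / 4)) Y S w} : ℝ) ≤
      (Fintype.card Om : ℝ) ^ (a * a) * ((k : ℝ) ^ (-(1 / 2) + 2 * δ)) ^ a

lemma numeric (δ C₀ : ℝ) (hδ : 0 < δ) : ∃ k₀ : ℕ, ∀ k : ℕ, k₀ ≤ k → ∀ a : ℕ, (k : ℝ) ≤ 2 * a →
    2 ^ k * ((3 * (k : ℝ) ^ (-(1 / 2) + δ)) ^ a * ((k : ℝ) ^ C₀ + 2)) ≤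
      ((k : ℝ) ^ (-(1 / 2) + 2 * δ)) ^ a := by
  have h1 : ∀ᶠ k : ℕ in Filter.atTop, (48 : ℝ) ≤ (k : ℝ) ^ δ :=
    ((tendsto_rpow_atTop hδ).comp tendsto_natCast_atTop_atTop).eventually_ge_atTop 48
  have h2 : ∀ᶠ k : ℕ in Filter.atTop, (k : ℝ) ^ C₀ + 2 ≤ 2 ^ k := by
    obtain ⟨n, hn⟩ := exists_nat_ge C₀
    have h3 : ∀ᶠ k : ℕ in Filter.atTop, ‖((k : ℝ) ^ n)‖ ≤ (1 / 2) * ‖((2 : ℝ) ^ k)‖ :=
      (isLittleO_pow_const_const_pow_of_one_lt n (by norm_num : (1 : ℝ) < 2)).def (by norm_num)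
    filter_upwards [h3, Filter.eventually_ge_atTop 2] with k hk hk2
    have hkr : (1 : ℝ) ≤ k := by exact_mod_cast (by omega : 1 ≤ k)
    have h4 : (k : ℝ) ^ C₀ ≤ (k : ℝ) ^ n := by
      rw [← Real.rpow_natCast]
      exact Real.rpow_le_rpow_of_exponent_le hkr hn
    rw [Real.norm_of_nonneg (by positivity), Real.norm_of_nonneg (by positivity)] at hk
    have h5 : (4 : ℝ) ≤ 2 ^ k := by
      calc (4 : ℝ) = 2 ^ 2 := by norm_num
        _ ≤ 2 ^ k := pow_le_pow_right₀ (by norm_num) hk2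
    linarith
  obtain ⟨k₀, hk₀⟩ := Filter.eventually_atTop.1 (h1.and h2)
  refine ⟨max k₀ 1, fun k hk a hka => ?_⟩
  obtain ⟨h3, h4⟩ := hk₀ k (le_trans (le_max_left _ _) hk)
  have hk1 : 1 ≤ k := le_trans (le_max_right _ _) hk
  have hkr : (0 : ℝ) < k := by exact_mod_cast (by omega : 0 < k)
  have hka' : k ≤ 2 * a := by exact_mod_cast hka
  have h5 : (2 : ℝ) ^ k ≤ 4 ^ a := by
    calc (2 : ℝ) ^ k ≤ 2 ^ (2 * a) := pow_le_pow_right₀ (by norm_num) hka'
      _ = 4 ^ a := by rw [pow_mul]; norm_num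
  have h6 : (k : ℝ) ^ (-(1 / 2) + 2 * δ) = (k : ℝ) ^ (-(1 / 2) + δ) * (k : ℝ) ^ δ := by
    rw [← Real.rpow_add hkr]
    ring_nf
  rw [h6, mul_pow, mul_pow]
  set X := ((k : ℝ) ^ (-(1 / 2) + δ)) ^ a with hX
  have hX0 : 0 ≤ X := by positivity
  have h7 : (2 : ℝ) ^ k * ((3 ^ a * X) * ((k : ℝ) ^ C₀ + 2)) ≤ 4 ^ a * ((3 ^ a * X) * 4 ^ a) := by
    gcongr
    exact h4.trans h5
  refine h7.trans ?_
  calc (4 : ℝ) ^ a * ((3 ^ a * X) * 4 ^ a) = X * 48 ^ a := by
        rw [show (48 : ℝ) = 4 * 3 * 4 by norm_num, mul_pow, mul_pow]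
        ring
    _ ≤ X * ((k : ℝ) ^ δ) ^ a := by gcongr

/-- nonsparse, nonflat, not too large -/
noncomputable def WS {G : Type} [AddCommGroup G] [Fintype G] (a k : ℕ) (e0 P : ℝ) :
    Finset (Fin a → G) := by
  classical exact univ.filter (fun w => NonSp e0 w ∧ 1 + 1 / (k : ℝ) ≤ gZ 8 w ∧ gZ 8 w ≤ P)

lemma mem_WS {G : Type} [AddCommGroup G] [Fintype G] {a k : ℕ} {e0 P : ℝ} {w : Fin a → G} :
    w ∈ WS a k e0 P ↔ NonSp e0 w ∧ 1 + 1 / (k : ℝ) ≤ gZ 8 w ∧ gZ 8 w ≤ P := by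
  classical
  unfold WS
  simp only [mem_filter, mem_univ, true_and]

lemma one_mat {Om : Type} [Fintype Om] (e : Om → ℤ) {ι : Type} [Fintype ι] [DecidableEq ι]
    (p : ι → ℕ) [∀ i, NeZero (p i)] (k : ℕ) (hk : 1 ≤ k) (e0 P : ℝ)
    (hP : ∀ i, 2 * (p i : ℝ) ≤ P) {a j : ℕ} (Y : Fin j → Fin a → Om)
    (h : ∃ (S : Finset ι) (w : Fin a → GS p S), NF p e k e0 Y S w) :
    (1 : ℝ) ≤ ∑ S : Finset ι, ((kerF e Y (WS (G := GS p S) a k e0 P)).card : ℝ) := by
  obtain ⟨S, w, hw⟩ := h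
  obtain ⟨S', _, h1, w', hw', hP'⟩ := crit p e k e0 Y hk P hP S.card S rfl w hw
  have h6 : w' ∈ kerF e Y (WS (G := GS p S') a k e0 P) := by
    rw [mem_kerF, mem_WS]
    exact ⟨⟨hw'.1, hw'.2.1, hP'⟩, hw'.2.2⟩
  have h7 : (1 : ℝ) ≤ ((kerF e Y (WS (G := GS p S') a k e0 P)).card : ℝ) := by
    exact_mod_cast card_pos.2 ⟨w', h6⟩
  refine h7.trans ?_
  exact single_le_sum (f := fun S : Finset ι =>
    ((kerF e Y (WS (G := GS p S) a k e0 P)).card : ℝ))
    (fun S _ => Nat.cast_nonneg _) (mem_univ S')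

lemma bad_le {Om : Type} [Fintype Om] (e : Om → ℤ) {ι : Type} [Fintype ι] [DecidableEq ι]
    (p : ι → ℕ) [∀ i, NeZero (p i)] (k : ℕ) (hk : 1 ≤ k) (e0 P : ℝ)
    (hP : ∀ i, 2 * (p i : ℝ) ≤ P) (a j : ℕ) :
    (Nat.card {Y : Fin j → Fin a → Om // ∃ (S : Finset ι) (w : Fin a → GS p S),
      NF p e k e0 Y S w} : ℝ) ≤ ∑ S : Finset ι, ∑ Y : Fin j → Fin a → Om,
        ((kerF e Y (WS (G := GS p S) a k e0 P)).card : ℝ) := by
  classical
  rw [sum_comm]
  have hcard : (Nat.card {Y : Fin j → Fin a → Om // ∃ (S : Finset ι) (w : Fin a → GS p S),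
      NF p e k e0 Y S w} : ℝ) = ∑ Y : Fin j → Fin a → Om,
        if (∃ (S : Finset ι) (w : Fin a → GS p S), NF p e k e0 Y S w) then (1 : ℝ) else 0 := by
    rw [Nat.card_eq_fintype_card, Fintype.card_subtype, card_filter]
    push_cast
    rfl
  rw [hcard]
  refine sum_le_sum fun Y _ => ?_
  by_cases h : ∃ (S : Finset ι) (w : Fin a → GS p S), NF p e k e0 Y S w
  · rw [if_pos h]
    exact one_mat e p k hk e0 P hP Y h
  · rw [if_neg h]
    exact sum_nonneg fun S _ => Nat.cast_nonneg _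

lemma one_S (hC : StmtCountG) (δ c C₀ : ℝ) (hδ : 0 < δ) (hδ1 : δ ≤ 1) (hc : 0 < c) (hC₀ : 0 < C₀) :
    ∃ k₀ : ℕ, ∀ k : ℕ, k₀ ≤ k → ∀ (G : Type) [AddCommGroup G] [Fintype G] (a j : ℕ), j ≤ a →
      a ≤ k → (k : ℝ) ≤ 2 * a →
      (∀ p : ℕ, p.Prime → p ∣ Fintype.card G → k ≤ p) →
      (Fintype.card G : ℝ) * (3 / 4) ^ a ≤ Real.exp (-c * k) →
      ∀ (Om : Type) [Fintype Om] (e : Om → ℤ), DomL e →
      (∑ Y : Fin j → Fin a → Om,
        ((kerF e Y (WS (G := G) a k ((k : ℝ) ^ (1 - δ / 4)) ((k : ℝ) ^ C₀))).card : ℝ)) *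
          (Fintype.card G : ℝ) ^ j ≤
        (Fintype.card Om : ℝ) ^ (a * j) * ((Fintype.card G : ℝ) ^ a *
          ((3 * (k : ℝ) ^ (-(1 / 2) + δ)) ^ a * ((k : ℝ) ^ C₀ + 2))) := by
  obtain ⟨k₁, h₁⟩ := moment hC δ c C₀ hδ hδ1 hc hC₀
  refine ⟨k₁, fun k hk G _ _ a j hj hak hka hp hG Om _ e hD => ?_⟩
  refine (sumY hD _).trans ?_
  refine mul_le_mul_of_nonneg_left ?_ (by positivity)
  have := h₁ k hk G a j hj hak hka hp hG
  rw [mul_assoc] at this
  refine le_trans (le_of_eq ?_) this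
  refine sum_congr ?_ fun _ _ => rfl
  ext w
  rw [mem_WS]
  simp only [mem_filter, mem_univ, true_and]

theorem stmtEvent (hC : StmtCountG) : StmtEvent := by
  intro δ c C₀ hδ hδ1 hc hC₀
  obtain ⟨k₁, h₁⟩ := one_S hC δ c C₀ hδ hδ1 hc hC₀
  obtain ⟨k₂, h₂⟩ := numeric δ C₀ hδ
  refine ⟨max (max k₁ k₂) 1, ?_⟩
  intro k hk a hak hka ι _ _ p _ hι hp hG Om _ e hD
  have hk₁ : k₁ ≤ k := le_trans (le_trans (le_max_left _ _) (le_max_left _ _)) hk
  have hk₂ : k₂ ≤ k := le_trans (le_trans (le_max_right _ _) (le_max_left _ _)) hk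
  have hk1 : 1 ≤ k := le_trans (le_max_right _ _) hk
  refine (bad_le e p k hk1 _ ((k : ℝ) ^ C₀) (fun i => (hp i).2.2) a a).trans ?_
  have hpp : ∀ i, 0 < p i := fun i => (hp i).1.pos
  set M : ℝ := (3 * (k : ℝ) ^ (-(1 / 2) + δ)) ^ a * ((k : ℝ) ^ C₀ + 2) with hM
  have hM0 : 0 ≤ M := by positivity
  have hcount : ∀ S : Finset ι, (∑ Y : Fin a → Fin a → Om,
      ((kerF e Y (WS (G := GS p S) a k ((k : ℝ) ^ (1 - δ / 4)) ((k : ℝ) ^ C₀))).card : ℝ)) ≤
        (Fintype.card Om : ℝ) ^ (a * a) * M := by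
    intro S
    have h3 := h₁ k hk₁ (GS p S) a a le_rfl hak hka ?_ ?_ Om e hD
    · have h4 : (0 : ℝ) < (Fintype.card (GS p S) : ℝ) ^ a := by
        have : (0 : ℝ) < Fintype.card (GS p S) := by exact_mod_cast Fintype.card_pos
        exact pow_pos this a
      refine le_of_mul_le_mul_right ?_ h4
      refine h3.trans (le_of_eq ?_)
      rw [hM]
      ring
    · intro q hq hqd
      rw [card_GS] at hqd
      obtain ⟨i, _, hi⟩ := (Prime.dvd_finsetProd_iff hq.prime _).1 hqd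
      have := (Nat.prime_dvd_prime_iff_eq hq (hp i).1).1 hi
      rw [this]
      exact (hp i).2.1
    · refine le_trans (mul_le_mul_of_nonneg_right ?_ (by positivity)) hG
      rw [card_GS]
      exact_mod_cast prod_le_prod_of_subset_of_one_le' (subset_univ S) fun i _ _ => hpp i
  calc _ ≤ ∑ S : Finset ι, (Fintype.card Om : ℝ) ^ (a * a) * M := sum_le_sum fun S _ => hcount S
    _ = (Fintype.card Om : ℝ) ^ (a * a) * (2 ^ Fintype.card ι * M) := by
        rw [sum_const, card_univ, Fintype.card_finset, nsmul_eq_mul]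
        push_cast
        ring
    _ ≤ (Fintype.card Om : ℝ) ^ (a * a) * (2 ^ k * M) := by
        gcongr
        norm_num
    _ ≤ _ := by
        gcongr
        exact h₂ k hk₂ a hka

end Vale.Agent.P160.Half.Good439
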