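import Vale.Agent.P160.Half.M67Stmt
import Vale.Agent.P160.Half.Good439

/-! P160-HALF, block (M): `StmtChain` and `StmtBadProb` of `M67Stmt`. -/

namespace Vale.Agent.P160.Half.BadP439

open Finset Vale.Agent.P160 Vale.Agent.P160.Half Vale.Agent.P160.Half.Flat
  Vale.Agent.P160.Half.Good439

theorem stmtChain : M67.StmtChain := by
  classical
  intro G _ _ m w τ Q hτ0 hP _ hw
  have hfin : ∀ K : AddSubgroup G, Fintype (G ⧸ K) := fun K => Fintype.ofFinite _
  have hex : ∃ n : ℕ, ∃ K : AddSubgroup G, Nat.card (G ⧸ K) = n ∧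
      1 + τ < gZ 8 (fun c => (w c : G ⧸ K)) := by
    refine ⟨_, ⊥, rfl, ?_⟩
    have h1 := gZ_map ((QuotientAddGroup.mk' (⊥ : AddSubgroup G))) w
    have h2 : Fintype.card (G ⧸ (⊥ : AddSubgroup G)) = Fintype.card G :=
      Fintype.card_congr (QuotientAddGroup.quotientBot (G := G)).toEquiv
    rw [h2] at h1
    have h3 : (0 : ℝ) < Fintype.card G := by exact_mod_cast Fintype.card_pos
    exact hw.trans_le (le_of_mul_le_mul_left h1 h3)
  obtain ⟨K, hK, hKτ⟩ := Nat.find_spec hex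
  have hmin := fun n hn => Nat.find_min hex (m := n) hn
  set n₀ := Nat.find hex with hn₀
  have hnt : Nontrivial (G ⧸ K) := by
    by_contra hcon
    rw [not_nontrivial_iff_subsingleton] at hcon
    have := gZ_subsingleton (fun c => (w c : G ⧸ K))
    linarith
  have hcard1 : Fintype.card (G ⧸ K) ≠ 1 := by
    have := Fintype.one_lt_card (α := G ⧸ K)
    omega
  obtain ⟨q, hq, hqd⟩ := Nat.exists_prime_and_dvd hcard1
  have := Fact.mk hq
  obtain ⟨x, hx⟩ := exists_prime_addOrderOf_dvd_card q hqd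
  set C : AddSubgroup (G ⧸ K) := AddSubgroup.zmultiples x with hC
  set K' : AddSubgroup G := C.comap (QuotientAddGroup.mk' K) with hK'
  have hKK' : K ≤ K' := by
    intro g hg
    rw [hK', AddSubgroup.mem_comap]
    have : QuotientAddGroup.mk' K g = 0 := by
      rw [QuotientAddGroup.mk'_apply, QuotientAddGroup.eq_zero_iff]
      exact hg
    rw [this]
    exact C.zero_mem
  let φ : (G ⧸ K) →+ (G ⧸ K') := QuotientAddGroup.map K K' (AddMonoidHom.id G) hKK'
  have hφs : Function.Surjective φ := by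
    intro y
    obtain ⟨g, rfl⟩ := QuotientAddGroup.mk_surjective y
    exact ⟨(g : G ⧸ K), rfl⟩
  have hker : φ.ker = C := by
    ext y
    obtain ⟨g, rfl⟩ := QuotientAddGroup.mk_surjective y
    rw [AddMonoidHom.mem_ker]
    show ((g : G ⧸ K') = 0) ↔ _
    rw [QuotientAddGroup.eq_zero_iff, hK', AddSubgroup.mem_comap]
    rfl
  have hcardK' : Fintype.card (G ⧸ K) = q * Fintype.card (G ⧸ K') := by
    have h1 : Nat.card (G ⧸ K) = Nat.card ((G ⧸ K) ⧸ C) * Nat.card C :=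
      AddSubgroup.card_eq_card_quotient_mul_card_addSubgroup C
    have h2 : Nat.card ((G ⧸ K) ⧸ C) = Nat.card (G ⧸ K') := by
      rw [← hker]
      exact Nat.card_congr (QuotientAddGroup.quotientKerEquivOfSurjective φ hφs).toEquiv
    have h3 : Nat.card C = q := by
      rw [hC, Nat.card_zmultiples, hx]
    rw [← Nat.card_eq_fintype_card, h1, h2, h3, ← Nat.card_eq_fintype_card, mul_comm]
  have hpos : 0 < Fintype.card (G ⧸ K') := Fintype.card_pos
  have hlt : Nat.card (G ⧸ K') < n₀ := by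
    have h2 : Nat.card (G ⧸ K) = n₀ := hK
    rw [← h2, Nat.card_eq_fintype_card, Nat.card_eq_fintype_card, hcardK']
    have := hq.two_le
    nlinarith
  have hsmall : gZ 8 (fun c => (w c : G ⧸ K')) ≤ 1 + τ := by
    by_contra hcon
    push Not at hcon
    exact hmin _ hlt ⟨K', rfl, hcon⟩
  have hmain : 1 + τ < gZ 8 (fun c => (w c : G ⧸ K)) ∧
      gZ 8 (fun c => (w c : G ⧸ K)) ≤ (1 + τ) * Q := by
    refine ⟨hKτ, ?_⟩
    have h5 := gZ_map φ (fun c => (w c : G ⧸ K))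
    rw [hcardK'] at h5
    have h6 : (0 : ℝ) < Fintype.card (G ⧸ K') := by exact_mod_cast hpos
    have h7 : gZ 8 (fun c => (w c : G ⧸ K)) ≤ q * gZ 8 (fun c => φ (w c : G ⧸ K)) := by
      refine le_of_mul_le_mul_left ?_ h6
      refine h5.trans (le_of_eq ?_)
      push_cast
      ring
    have h8 : gZ 8 (fun c => φ (w c : G ⧸ K)) ≤ 1 + τ := hsmall
    have h9 : (q : ℝ) ≤ Q := by
      refine hP q hq ?_
      refine hqd.trans ?_
      rw [← Nat.card_eq_fintype_card, ← Nat.card_eq_fintype_card]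
      exact AddSubgroup.card_quotient_dvd_card K
    have h10 : (0 : ℝ) ≤ gZ 8 (fun c => φ (w c : G ⧸ K)) := gZ_nonneg _
    have hq0 : (0 : ℝ) ≤ q := by positivity
    nlinarith
  refine ⟨K, fun inst => ?_⟩
  convert hmain

/-- the law `(1/4,1/2,1/4)` -/
theorem domL_xi : DomL M67.xi := by
  classical
  intro G _ _ _ a y
  let σ : Bool × Bool ≃ Fin 4 :=
    { toFun := fun b => if b.1 then (if b.2 then 2 else 0) else (if b.2 then 1 else 3)
      invFun := fun i => if i = 0 then (true, false) else if i = 1 then (false, true) else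
        if i = 2 then (true, true) else (false, false)
      left_inv := by decide
      right_inv := by decide }
  have hσ : ∀ b, M67.xi b = st (σ b) := by decide
  have h1 : (univ.filter fun x : Fin a → Bool × Bool => ∑ c, M67.xi (x c) • y c = 0).card =
      (univ.filter fun x : Fin a → Fin 4 => gwalk x y = 0).card := by
    refine card_equiv (Equiv.arrowCongr (Equiv.refl _) σ) fun x => ?_
    rw [mem_filter, mem_filter]
    have h6 : ∀ c, M67.xi (x c) = st (Equiv.arrowCongr (Equiv.refl _) σ x c) := fun c => hσ (x c)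
    simp only [mem_univ, true_and, h6]
    rfl
  rw [h1]
  have h2 : ((univ.filter fun x : Fin a → Fin 4 => gwalk x y = 0).card : ℝ) =
      (4 : ℝ) ^ a * gpr 4 y 0 := by
    unfold gpr
    rw [Fintype.card_fin]
    push_cast
    field_simp
  have h3 : gpr 4 y 0 ≤ gpr 8 y 0 := by
    have := gpr_le_gpr (M := 4) (M' := 8) le_rfl (by norm_num) (fun e : Fin a => e)
      Function.injective_id y 0
    exact this
  rw [h2, gZ_eq]
  have h4 : (Fintype.card (Bool × Bool) : ℝ) = 4 := by simp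
  rw [h4]
  have h5 : (0 : ℝ) ≤ Fintype.card G := by positivity
  calc (Fintype.card G : ℝ) * ((4 : ℝ) ^ a * gpr 4 y 0)
      ≤ (Fintype.card G : ℝ) * ((4 : ℝ) ^ a * gpr 8 y 0) := by gcongr
    _ = _ := by ring

lemma toCl_ker {G : Type} [AddCommGroup G] {a : ℕ} (z : Fin a → G) (r : Fin a → ℤ)
    (h : ∑ c, r c • z c = 0) : ∑ c, r c • M67.toCl z c = 0 := by
  apply Subtype.ext
  rw [AddSubgroup.val_finsetSum]
  exact h

lemma card_pairs (G : Type) [AddCommGroup G] [Fintype G] :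
    (Nat.card (Σ H : AddSubgroup G, AddSubgroup H)) ≤ Nat.card (AddSubgroup G) ^ 2 := by
  have hinj : Function.Injective (fun x : (Σ H : AddSubgroup G, AddSubgroup H) =>
      ((x.1, x.2.map x.1.subtype) : AddSubgroup G × AddSubgroup G)) := by
    rintro ⟨H, K⟩ ⟨H', K'⟩ h
    simp only [Prod.mk.injEq] at h
    obtain ⟨h1, h2⟩ := h
    subst h1
    have := AddSubgroup.map_injective H.subtype_injective h2
    rw [this]
  have h := Nat.card_le_card_of_injective _ hinj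
  rw [Nat.card_prod] at h
  rw [pow_two]
  exact h

open scoped Classical in
lemma bad_count {Om : Type} [Fintype Om] (e : Om → ℤ) (G : Type) [AddCommGroup G] [Fintype G]
    (a k : ℕ) (e0 Q P0 M : ℝ) (hQ : ∀ p : ℕ, p.Prime → p ∣ Fintype.card G → (p : ℝ) ≤ Q)
    (hQ1 : 1 ≤ Q) (hk : 1 ≤ k) (hP0 : (1 + 1 / (k : ℝ)) * Q ≤ P0)
    (hb : ∀ (G' : Type) [AddCommGroup G'] [Fintype G'], Fintype.card G' ∣ Fintype.card G →
      ∑ Y : Fin a → Fin a → Om, ((kerF e Y (WS (G := G') a k e0 P0)).card : ℝ) ≤ M) (hM : 0 ≤ M) :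
    (Nat.card {Y : Fin a → Fin a → Om // ∃ z : Fin a → G,
      (∀ j', ∑ c, e (Y j' c) • z c = 0) ∧ M67.BadTup e0 (1 / k) z} : ℝ) ≤
      (Nat.card (AddSubgroup G) : ℝ) ^ 2 * M := by
  have hkpos : (0 : ℝ) < k := by exact_mod_cast (by omega : 0 < k)
  have hfG : ∀ H : AddSubgroup G, Fintype H := fun H => Fintype.ofFinite _
  have hfQ : ∀ (H : AddSubgroup G) (K : AddSubgroup H), Fintype (H ⧸ K) := fun H K =>
    Fintype.ofFinite _
  have hfI : Fintype (Σ H : AddSubgroup G, AddSubgroup H) := Fintype.ofFinite _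
  have hdvd : ∀ (H : AddSubgroup G), Fintype.card H ∣ Fintype.card G := by
    intro H
    rw [← Nat.card_eq_fintype_card, ← Nat.card_eq_fintype_card]
    exact AddSubgroup.card_addSubgroup_dvd_card H
  have hdvd2 : ∀ (H : AddSubgroup G) (K : AddSubgroup H), Fintype.card (H ⧸ K) ∣ Fintype.card G := by
    intro H K
    refine dvd_trans ?_ (hdvd H)
    rw [← Nat.card_eq_fintype_card, ← Nat.card_eq_fintype_card]
    exact AddSubgroup.card_quotient_dvd_card K
  let F : (Fin a → Fin a → Om) → (Σ H : AddSubgroup G, AddSubgroup H) → ℝ := fun Y x =>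
    ((kerF e Y (WS (G := x.1 ⧸ x.2) a k e0 P0)).card : ℝ)
  have hcard : (Nat.card {Y : Fin a → Fin a → Om // ∃ z : Fin a → G,
      (∀ j', ∑ c, e (Y j' c) • z c = 0) ∧ M67.BadTup e0 (1 / k) z} : ℝ) =
      ∑ Y : Fin a → Fin a → Om, if (∃ z : Fin a → G,
        (∀ j', ∑ c, e (Y j' c) • z c = 0) ∧ M67.BadTup e0 (1 / k) z) then (1 : ℝ) else 0 := by
    rw [Nat.card_eq_fintype_card, Fintype.card_subtype, card_filter]
    push_cast
    rfl
  rw [hcard]
  have hone : ∀ Y : Fin a → Fin a → Om, (if (∃ z : Fin a → G,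
        (∀ j', ∑ c, e (Y j' c) • z c = 0) ∧ M67.BadTup e0 (1 / k) z) then (1 : ℝ) else 0) ≤
      ∑ x, F Y x := by
    intro Y
    by_cases h : ∃ z : Fin a → G,
        (∀ j', ∑ c, e (Y j' c) • z c = 0) ∧ M67.BadTup e0 (1 / k) z
    · rw [if_pos h]
      obtain ⟨z, hz, hNS, hgZ⟩ := h
      have hgZ' : 1 + 1 / (k : ℝ) < gZ 8 (M67.toCl z) := by
        convert hgZ
      obtain ⟨K, hK⟩ := stmtChain (AddSubgroup.closure (Set.range z)) a (M67.toCl z) (1 / k) Q
        (by positivity) (fun p hp hpd => hQ p hp (hpd.trans (hdvd _))) hQ1 hgZ'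
      obtain ⟨h1, h2⟩ := hK (hfQ _ K)
      set z' : Fin a → (AddSubgroup.closure (Set.range z) ⧸ K) := fun c =>
        (QuotientAddGroup.mk (M67.toCl z c)) with hz'
      have hmem : z' ∈ kerF e Y (WS (G := (AddSubgroup.closure (Set.range z) ⧸ K)) a k e0 P0) := by
        rw [mem_kerF, mem_WS]
        refine ⟨⟨NonSp.map hNS (QuotientAddGroup.mk' K) (QuotientAddGroup.mk'_surjective K),
          h1.le, h2.trans hP0⟩, fun j' => ?_⟩
        have h3 := congrArg (QuotientAddGroup.mk' K) (toCl_ker z _ (hz j'))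
        rw [map_sum, map_zero] at h3
        rw [← h3]
        exact sum_congr rfl fun c _ =>
          (map_zsmul (QuotientAddGroup.mk' K) (e (Y j' c)) (M67.toCl z c)).symm
      have h7 : (1 : ℝ) ≤ F Y ⟨AddSubgroup.closure (Set.range z), K⟩ := by
        have : 1 ≤ (kerF e Y
            (WS (G := (AddSubgroup.closure (Set.range z) ⧸ K)) a k e0 P0)).card :=
          card_pos.2 ⟨z', hmem⟩
        show (1 : ℝ) ≤ ((kerF e Y
            (WS (G := (AddSubgroup.closure (Set.range z) ⧸ K)) a k e0 P0)).card : ℝ)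
        exact_mod_cast this
      exact h7.trans (single_le_sum (f := F Y) (fun x _ => Nat.cast_nonneg _) (mem_univ _))
    · rw [if_neg h]
      exact sum_nonneg fun x _ => Nat.cast_nonneg _
  calc _ ≤ ∑ Y : Fin a → Fin a → Om, ∑ x, F Y x := sum_le_sum fun Y _ => hone Y
    _ = ∑ x, ∑ Y : Fin a → Fin a → Om, F Y x := sum_comm
    _ ≤ ∑ x : (Σ H : AddSubgroup G, AddSubgroup H), M :=
        sum_le_sum fun x _ => hb (x.1 ⧸ x.2) (hdvd2 x.1 x.2)
    _ = (Nat.card (Σ H : AddSubgroup G, AddSubgroup H) : ℝ) * M := by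
        rw [sum_const, card_univ, nsmul_eq_mul, Nat.card_eq_fintype_card]
    _ ≤ _ := by
        refine mul_le_mul_of_nonneg_right ?_ hM
        exact_mod_cast card_pairs G

lemma numeric2 (δ C₀ : ℝ) (hδ : 0 < δ) : ∃ k₀ : ℕ, ∀ k : ℕ, k₀ ≤ k →
    4 ^ k * ((3 * (k : ℝ) ^ (-(1 / 2) + δ)) ^ k * ((k : ℝ) ^ C₀ + 2)) ≤
      (k : ℝ) ^ (-(1 / 2 - 2 * δ) * k) := by
  have h1 : ∀ᶠ k : ℕ in Filter.atTop, (24 : ℝ) ≤ (k : ℝ) ^ δ :=
    ((tendsto_rpow_atTop hδ).comp tendsto_natCast_atTop_atTop).eventually_ge_atTop 24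
  have h2 : ∀ᶠ k : ℕ in Filter.atTop, (k : ℝ) ^ C₀ + 2 ≤ 2 ^ k := by
    obtain ⟨n, hn⟩ := exists_nat_ge C₀
    have h3 : ∀ᶠ k : ℕ in Filter.atTop, ‖((k : ℝ) ^ n)‖ ≤ (1 / 2) * ‖((2 : ℝ) ^ k)‖ :=
      (isLittleO_pow_const_const_pow_of_one_lt n (by norm_num : (1 : ℝ) < 2)).def (by norm_num)
    filter_upwards [h3, Filter.eventually_ge_atTop 2] with k hk hk2
    have hkr : (1 : ℝ) ≤ k := by exact_mod_cast (by omega : 1 ≤ k)
    have h4 : (k : ℝ) ^ C₀ ≤ (k : ℝ) ^ n := by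
      rw [← Real.rpow_natCast]
      exact Real.rpow_le_rpow_of_exponent_le hkr hn
    rw [Real.norm_of_nonneg (by positivity), Real.norm_of_nonneg (by positivity)] at hk
    have h5 : (4 : ℝ) ≤ 2 ^ k := by
      calc (4 : ℝ) = 2 ^ 2 := by norm_num
        _ ≤ 2 ^ k := pow_le_pow_right₀ (by norm_num) hk2
    linarith
  obtain ⟨k₀, hk₀⟩ := Filter.eventually_atTop.1 (h1.and h2)
  refine ⟨max k₀ 1, fun k hk => ?_⟩
  obtain ⟨h3, h4⟩ := hk₀ k (le_trans (le_max_left _ _) hk)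
  have hk1 : 1 ≤ k := le_trans (le_max_right _ _) hk
  have hkr : (0 : ℝ) < k := by exact_mod_cast (by omega : 0 < k)
  have h6 : (k : ℝ) ^ (-(1 / 2 - 2 * δ) * k) =
      ((k : ℝ) ^ (-(1 / 2) + δ)) ^ k * ((k : ℝ) ^ δ) ^ k := by
    rw [← mul_pow, ← Real.rpow_add hkr, Real.rpow_mul hkr.le, Real.rpow_natCast]
    ring_nf
  rw [h6, mul_pow]
  set X := ((k : ℝ) ^ (-(1 / 2) + δ)) ^ k with hX
  have hX0 : 0 ≤ X := by positivity
  have h7 : (4 : ℝ) ^ k * ((3 ^ k * X) * ((k : ℝ) ^ C₀ + 2)) ≤ 4 ^ k * ((3 ^ k * X) * 2 ^ k) := by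
    gcongr
  refine h7.trans ?_
  calc (4 : ℝ) ^ k * ((3 ^ k * X) * 2 ^ k) = X * 24 ^ k := by
        rw [show (24 : ℝ) = 4 * 3 * 2 by norm_num, mul_pow, mul_pow]
        ring
    _ ≤ X * ((k : ℝ) ^ δ) ^ k := by gcongr

lemma small_exp (k : ℕ) (N β : ℝ) (hN0 : 0 ≤ N) (hβ : β ≤ 1 / 5) (hN : N ≤ (2 : ℝ) ^ (β * k)) :
    N ^ 2 * (3 / 4) ^ k ≤ Real.exp (-(1 / 100) * k) ∧ N ^ 6 ≤ 4 ^ k := by
  have h1 : N ≤ ((2 : ℝ) ^ (1 / 5 : ℝ)) ^ k := by
    rw [← Real.rpow_mul_natCast (by norm_num)]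
    refine hN.trans (Real.rpow_le_rpow_of_exponent_le (by norm_num) ?_)
    have : (0 : ℝ) ≤ k := by positivity
    nlinarith
  set y : ℝ := (2 : ℝ) ^ (1 / 5 : ℝ) with hy
  have hy0 : 0 ≤ y := by positivity
  have hy5 : y ^ 5 = 2 := by
    rw [hy, ← Real.rpow_natCast, ← Real.rpow_mul (by norm_num)]
    norm_num
  have hy1 : 1 ≤ y := Real.one_le_rpow (by norm_num) (by norm_num)
  have hy2 : y ^ 2 ≤ 1.32 := by
    by_contra hcon
    push Not at hcon
    have h2 : (1.32 : ℝ) ^ 5 < (y ^ 2) ^ 5 := pow_lt_pow_left₀ hcon (by norm_num) (by norm_num)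
    have h3 : (y ^ 2) ^ 5 = 4 := by
      rw [← pow_mul, show 2 * 5 = 5 * 2 by norm_num, pow_mul, hy5]
      norm_num
    rw [h3] at h2
    norm_num at h2
  constructor
  · have h3 : N ^ 2 * (3 / 4) ^ k ≤ (y ^ 2 * (3 / 4)) ^ k := by
      rw [mul_pow, ← pow_mul, mul_comm 2 k, pow_mul]
      gcongr
    have h4 : y ^ 2 * (3 / 4) ≤ Real.exp (-(1 / 100)) := by
      have h5 := Real.add_one_le_exp (-(1 / 100) : ℝ)
      linarith
    refine h3.trans ?_
    calc (y ^ 2 * (3 / 4)) ^ k ≤ (Real.exp (-(1 / 100))) ^ k := by gcongr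
      _ = Real.exp (-(1 / 100) * k) := by
        rw [← Real.exp_nat_mul]
        ring_nf
  · calc N ^ 6 ≤ (y ^ k) ^ 6 := by gcongr
      _ = (y ^ 6) ^ k := by rw [← pow_mul, ← pow_mul, mul_comm]
      _ ≤ 4 ^ k := by
        gcongr
        calc y ^ 6 = y ^ 5 * y := by ring
          _ = 2 * y := by rw [hy5]
          _ ≤ 2 * 2 := by
            have : y ≤ y ^ 5 := by
              calc y = y ^ 1 := by ring
                _ ≤ y ^ 5 := pow_le_pow_right₀ hy1 (by norm_num)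
            rw [hy5] at this
            linarith
          _ = 4 := by norm_num

/-- **BAD PROBABILITY** -/
theorem stmtBadProb (hC : StmtCountG) (hS : M67.StmtSubgroups) : M67.StmtBadProb := by
  classical
  intro δ b₁ β B hδ hδ1 hb₁ hβ hβ1 hB
  obtain ⟨k₁, h₁⟩ := one_S hC δ (1 / 100) (B + 1) hδ (by linarith) (by norm_num) (by linarith)
  obtain ⟨k₂, h₂⟩ := numeric2 δ (B + 1) hδ
  refine ⟨max (max k₁ k₂) 2, fun k hk P hP => ?_⟩
  have hk₁ : k₁ ≤ k := le_trans (le_trans (le_max_left _ _) (le_max_left _ _)) hk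
  have hk₂ : k₂ ≤ k := le_trans (le_trans (le_max_right _ _) (le_max_left _ _)) hk
  have hk2 : 2 ≤ k := le_trans (le_max_right _ _) hk
  have hkr : (2 : ℝ) ≤ k := by exact_mod_cast hk2
  have hk0 : (0 : ℝ) < k := by linarith
  set N : ℕ := ∏ p ∈ P, p with hN
  have hNpos : 0 < N := prod_pos fun p hp => (hP.pr p hp).pos
  have hNZ : NeZero N := ⟨hNpos.ne'⟩
  have hNR : (N : ℝ) ≤ (2 : ℝ) ^ (β * k) := by
    refine le_trans (le_of_eq ?_) hP.size
    rw [hN]
    push_cast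
    rfl
  obtain ⟨hA1, hA2⟩ := small_exp k N β (by positivity) hβ1 hNR
  set M0 : ℝ := (3 * (k : ℝ) ^ (-(1 / 2) + δ)) ^ k * ((k : ℝ) ^ (B + 1) + 2) with hM0
  have hM0n : 0 ≤ M0 := by positivity
  have hcardG : Fintype.card (ZMod N × ZMod N) = N ^ 2 := by
    rw [Fintype.card_prod, ZMod.card, pow_two]
  -- primes
  have hprime : ∀ q : ℕ, q.Prime → q ∣ Fintype.card (ZMod N × ZMod N) → q ∈ P := by
    intro q hq hqd
    rw [hcardG] at hqd
    have h3 := hq.dvd_of_dvd_pow hqd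
    rw [hN] at h3
    obtain ⟨p, hp, hqp⟩ := (Prime.dvd_finsetProd_iff hq.prime _).1 h3
    have := (Nat.prime_dvd_prime_iff_eq hq (hP.pr p hp)).1 hqp
    rw [this]
    exact hp
  have hQ1 : (1 : ℝ) ≤ (k : ℝ) ^ B := Real.one_le_rpow (by linarith) (by linarith)
  have hP0 : (1 + 1 / (k : ℝ)) * (k : ℝ) ^ B ≤ (k : ℝ) ^ (B + 1) := by
    rw [Real.rpow_add hk0, Real.rpow_one]
    have h3 : 1 + 1 / (k : ℝ) ≤ k := by
      have : 1 / (k : ℝ) ≤ 1 := by
        rw [div_le_one hk0]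
        linarith
      linarith
    calc (1 + 1 / (k : ℝ)) * (k : ℝ) ^ B ≤ k * (k : ℝ) ^ B := by gcongr
      _ = _ := mul_comm _ _
  have hmain := bad_count M67.xi (ZMod N × ZMod N) k k ((k : ℝ) ^ (1 - δ / 4)) ((k : ℝ) ^ B)
    ((k : ℝ) ^ (B + 1)) ((4 : ℝ) ^ (k * k) * M0)
    (fun q hq hqd => hP.hi q (hprime q hq hqd)) hQ1 (by omega) hP0 ?_ (by positivity)
  · have hsub : (Nat.card {ω : Fin k → Fin k → Bool × Bool //
        M67.Bad P ((k : ℝ) ^ (1 - δ / 4)) (M67.mt M67.xi ω)} : ℝ) ≤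
        (Nat.card {Y : Fin k → Fin k → Bool × Bool // ∃ z : Fin k → ZMod N × ZMod N,
          (∀ j', ∑ c, M67.xi (Y j' c) • z c = 0) ∧
            M67.BadTup ((k : ℝ) ^ (1 - δ / 4)) (1 / k) z} : ℝ) := by
      have : Nat.card {ω : Fin k → Fin k → Bool × Bool //
          M67.Bad P ((k : ℝ) ^ (1 - δ / 4)) (M67.mt M67.xi ω)} ≤
          Nat.card {Y : Fin k → Fin k → Bool × Bool // ∃ z : Fin k → ZMod N × ZMod N,
          (∀ j', ∑ c, M67.xi (Y j' c) • z c = 0) ∧
            M67.BadTup ((k : ℝ) ^ (1 - δ / 4)) (1 / k) z} := by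
        refine Nat.card_le_card_of_injective (fun ω => ⟨ω.1, ?_⟩) ?_
        · obtain ⟨hne, z, hz, hbad⟩ := ω.2
          refine ⟨z, hz, ?_⟩
          convert hbad
        · intro x y hxy
          simp only [Subtype.mk.injEq] at hxy
          exact Subtype.ext hxy
      exact_mod_cast this
    refine hsub.trans (hmain.trans ?_)
    have h3 : (Nat.card (AddSubgroup (ZMod N × ZMod N)) : ℝ) ≤ (N : ℝ) ^ 3 := by
      exact_mod_cast hS N
    have h4 : (Nat.card (AddSubgroup (ZMod N × ZMod N)) : ℝ) ^ 2 ≤ 4 ^ k := by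
      calc _ ≤ ((N : ℝ) ^ 3) ^ 2 := by gcongr
        _ = (N : ℝ) ^ 6 := by ring
        _ ≤ 4 ^ k := hA2
    calc (Nat.card (AddSubgroup (ZMod N × ZMod N)) : ℝ) ^ 2 * ((4 : ℝ) ^ (k * k) * M0)
        ≤ 4 ^ k * ((4 : ℝ) ^ (k * k) * M0) := by gcongr
      _ = (4 ^ k * M0) * (4 : ℝ) ^ (k * k) := by ring
      _ ≤ _ := by
        refine mul_le_mul_of_nonneg_right ?_ (by positivity)
        exact h₂ k hk₂
  · intro G' _ _ hd
    have h3 := h₁ k hk₁ G' k k le_rfl le_rfl (by linarith) ?_ ?_ (Bool × Bool) M67.xi domL_xi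
    · have h4 : (0 : ℝ) < (Fintype.card G' : ℝ) ^ k := by
        have : (0 : ℝ) < Fintype.card G' := by exact_mod_cast Fintype.card_pos
        exact pow_pos this k
      refine le_of_mul_le_mul_right ?_ h4
      refine h3.trans (le_of_eq ?_)
      have h5 : (Fintype.card (Bool × Bool) : ℝ) = 4 := by simp
      rw [hM0, h5]
      ring
    · intro q hq hqd
      have h4 := hP.lo q (hprime q hq (hqd.trans hd))
      have h5 : (k : ℝ) ≤ (k : ℝ) ^ b₁ := by
        calc (k : ℝ) = (k : ℝ) ^ (1 : ℝ) := (Real.rpow_one _).symm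
          _ ≤ _ := Real.rpow_le_rpow_of_exponent_le (by linarith) hb₁
      exact_mod_cast h5.trans h4
    · refine le_trans (mul_le_mul_of_nonneg_right ?_ (by positivity)) hA1
      rw [hcardG] at hd
      have := Nat.le_of_dvd (by positivity) hd
      exact_mod_cast this

end Vale.Agent.P160.Half.BadP439
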