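import Vale.Agent.P160.Half.FlatI

/-! P160-HALF, COUNT: the dyadic leaf (helper864). -/

namespace Vale.Agent.P160.Half.Flat.FlatD

open Finset Vale.Agent.P160 Vale.Agent.P160.Half.Flat

theorem half_le_cf {z : ℂ} (hz : ‖z‖ = 1) : (1 / 2 : ℝ) ≤ cf 8 z := by
  have h1 : -1 ≤ z.re := by
    have := Complex.abs_re_le_norm z
    rw [hz] at this
    exact (abs_le.mp this).1
  unfold cf
  norm_num
  linarith

variable {G : Type} [AddCommGroup G] [Fintype G]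

theorem gP_ge {m : ℕ} (y : Fin m → G) (ψ : AddChar G ℂ) : (1 / 2 : ℝ) ^ m ≤ gP 8 y ψ := by
  unfold gP
  calc (1 / 2 : ℝ) ^ m = ∏ _e : Fin m, (1 / 2 : ℝ) := by simp
    _ ≤ _ := Finset.prod_le_prod (fun _ _ => by norm_num) fun e _ => half_le_cf (AddChar.norm_apply ψ _)

theorem gP_le {m : ℕ} (y : Fin m → G) (ψ : AddChar G ℂ) : gP 8 y ψ ≤ 1 := by
  unfold gP
  exact Finset.prod_le_one (fun e _ => cf_nonneg (by norm_num) (AddChar.norm_apply ψ _))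
    fun e _ => cf_le_one (AddChar.norm_apply ψ _)

theorem gP_pos {m : ℕ} (y : Fin m → G) (ψ : AddChar G ℂ) : 0 < gP 8 y ψ :=
  lt_of_lt_of_le (by positivity) (gP_ge y ψ)

omit [Fintype G] in
theorem gP_one {m : ℕ} (y : Fin m → G) : gP 8 y 1 = 1 := by
  unfold gP
  simp [cf]

/-- the dyadic level of `x` -/
theorem exists_level {m : ℕ} {x : ℝ} (h1 : (1 / 2 : ℝ) ^ m ≤ x) (h2 : x ≤ 1) :
    ∃ i, i ≤ m ∧ (1 / 2 : ℝ) ^ (i + 1) ≤ x ∧ x ≤ (1 / 2 : ℝ) ^ i := by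
  induction m with
  | zero =>
    refine ⟨0, le_refl _, ?_, by simpa using h2⟩
    simp only [pow_zero] at h1
    norm_num
    linarith
  | succ k ih =>
    by_cases h : (1 / 2 : ℝ) ^ k ≤ x
    · obtain ⟨i, hi, h3, h4⟩ := ih h
      exact ⟨i, by omega, h3, h4⟩
    · exact ⟨k, by omega, h1, (not_le.1 h).le⟩

theorem sum_tele (n : ℕ) :
    ∑ i ∈ range n, (1 : ℝ) / (((i : ℝ) + 1) * ((i : ℝ) + 2)) = 1 - 1 / ((n : ℝ) + 1) := by
  induction n with
  | zero => simp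
  | succ k ih =>
    rw [sum_range_succ, ih]
    push_cast
    have h1 : ((k : ℝ) + 1) ≠ 0 := by positivity
    have h2 : ((k : ℝ) + 2) ≠ 0 := by positivity
    have h3 : ((k : ℝ) + 1 + 1) ≠ 0 := by positivity
    field_simp
    ring

theorem stmtDyadic : StmtDyadic := by
  classical
  intro G _ _ m y T hT hZ
  by_contra hcon
  push Not at hcon
  have hZ1 : gZ 8 y = 1 + ∑ ψ ∈ univ.erase (1 : AddChar G ℂ), gP 8 y ψ := by
    unfold gZ
    rw [← Finset.add_sum_erase univ _ (mem_univ (1 : AddChar G ℂ)), gP_one]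
  have hY : T ≤ ∑ ψ ∈ univ.erase (1 : AddChar G ℂ), gP 8 y ψ := by linarith
  have hle : ∀ ψ ∈ univ.erase (1 : AddChar G ℂ), gP 8 y ψ ≤
      ∑ i ∈ range (m + 1), (if (1 / 2 : ℝ) ^ (i + 1) ≤ gP 8 y ψ then (1 / 2 : ℝ) ^ i else 0) := by
    intro ψ _
    obtain ⟨i, hi, h3, h4⟩ := exists_level (gP_ge y ψ) (gP_le y ψ)
    refine h4.trans ?_
    have := Finset.single_le_sum (f := fun i => if (1 / 2 : ℝ) ^ (i + 1) ≤ gP 8 y ψ then
      (1 / 2 : ℝ) ^ i else 0) (s := range (m + 1)) (fun j _ => by split_ifs <;> positivity)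
      (mem_range.2 (Nat.lt_succ_of_le hi))
    rwa [if_pos h3] at this
  have h5 : ∑ ψ ∈ univ.erase (1 : AddChar G ℂ), gP 8 y ψ ≤
      ∑ i ∈ range (m + 1), (1 / 2 : ℝ) ^ i * ((Lam y ((1 / 2) ^ (i + 1))).card : ℝ) := by
    refine (Finset.sum_le_sum hle).trans ?_
    rw [Finset.sum_comm]
    refine le_of_eq (Finset.sum_congr rfl fun i _ => ?_)
    rw [← Finset.sum_filter, Finset.sum_const, nsmul_eq_mul, mul_comm]
    congr 2
    congr 1
    unfold Lam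
    ext ψ
    simp [and_comm]
  have h6 : ∑ i ∈ range (m + 1), (1 / 2 : ℝ) ^ i * ((Lam y ((1 / 2) ^ (i + 1))).card : ℝ) <
      ∑ i ∈ range (m + 1), T * (1 / (((i : ℝ) + 1) * ((i : ℝ) + 2))) := by
    refine Finset.sum_lt_sum_of_nonempty ⟨0, mem_range.2 (by omega)⟩ fun i hi => ?_
    have hi' : i ≤ m := Nat.lt_succ_iff.1 (mem_range.1 hi)
    have h7 := hcon i hi'
    have h8 : (0 : ℝ) < (1 / 2) ^ i := by positivity
    have h9 := mul_lt_mul_of_pos_left h7 h8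
    refine h9.trans_le (le_of_eq ?_)
    have h10 : (1 / 2 : ℝ) ^ i * 2 ^ i = 1 := by rw [← mul_pow]; norm_num
    calc (1 / 2 : ℝ) ^ i * (2 ^ i * T / (((i : ℝ) + 1) * ((i : ℝ) + 2)))
        = ((1 / 2 : ℝ) ^ i * 2 ^ i) * (T / (((i : ℝ) + 1) * ((i : ℝ) + 2))) := by ring
      _ = _ := by rw [h10]; ring
  rw [← Finset.mul_sum, sum_tele] at h6
  have h11 : (0 : ℝ) < 1 / (((m + 1 : ℕ) : ℝ) + 1) := by positivity
  have h12 : T * (1 - 1 / (((m + 1 : ℕ) : ℝ) + 1)) < T := by nlinarith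
  linarith

end Vale.Agent.P160.Half.Flat.FlatD
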