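import Vale.Agent.P160.Half.CntA

/-! Counting lemma, part B: a large set of characters has a small Bohr set (Parseval). -/

open Finset

namespace Vale.Agent.P160.Half.Cnt

variable {G : Type*} [AddCommGroup G] [Fintype G] [DecidableEq G]

/-- exponential sum over a set -/
noncomputable def BH (B : Finset G) (s : AddChar G ℂ) : ℂ := ∑ v ∈ B, s v

theorem BH_neg (B : Finset G) (s : AddChar G ℂ) : ‖BH B (-s)‖ = ‖BH B s‖ := by
  have h : BH B (-s) = (starRingEnd ℂ) (BH B s) := by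
    unfold BH
    rw [map_sum]
    refine sum_congr rfl fun v _ => ?_
    rw [AddChar.neg_apply, AddChar.map_neg_eq_conj]
  rw [h, RCLike.norm_conj]

theorem parseval (B : Finset G) :
    ∑ s : AddChar G ℂ, ‖BH B s‖ ^ 2 = (Fintype.card G : ℝ) * B.card := by
  have h1 : ∀ s : AddChar G ℂ, ((‖BH B s‖ ^ 2 : ℝ) : ℂ) = ∑ v ∈ B, ∑ w ∈ B, s (v - w) := by
    intro s
    have h2 : ((‖BH B s‖ ^ 2 : ℝ) : ℂ) = BH B s * (starRingEnd ℂ) (BH B s) := by
      rw [Complex.mul_conj, Complex.normSq_eq_norm_sq]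
    rw [h2]
    unfold BH
    rw [map_sum, sum_mul_sum]
    refine sum_congr rfl fun v _ => sum_congr rfl fun w _ => ?_
    rw [sub_eq_add_neg, AddChar.map_add_eq_mul, AddChar.map_neg_eq_conj]
  have h3 : ((∑ s : AddChar G ℂ, ‖BH B s‖ ^ 2 : ℝ) : ℂ) = (((Fintype.card G : ℝ) * B.card : ℝ) : ℂ) := by
    rw [Complex.ofReal_sum, sum_congr rfl (fun s _ => h1 s), sum_comm]
    calc ∑ v ∈ B, ∑ s : AddChar G ℂ, ∑ w ∈ B, s (v - w)
        = ∑ v ∈ B, ∑ w ∈ B, ∑ s : AddChar G ℂ, s (v - w) := by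
          refine sum_congr rfl fun v _ => ?_
          rw [sum_comm]
      _ = ∑ v ∈ B, ∑ w ∈ B, (if v = w then (Fintype.card G : ℂ) else 0) := by
          refine sum_congr rfl fun v _ => sum_congr rfl fun w _ => ?_
          rw [AddChar.sum_apply_eq_ite]
          simp [sub_eq_zero]
      _ = ∑ v ∈ B, (Fintype.card G : ℂ) := by
          refine sum_congr rfl fun v hv => ?_
          rw [sum_ite_eq, if_pos hv]
      _ = _ := by rw [sum_const, nsmul_eq_mul]; push_cast; ring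
  exact_mod_cast h3

theorem eq_of_nsmul {n : ℕ} (hn : Nat.Coprime n (Fintype.card G)) {u : AddChar G ℂ}
    (h : n • u = 0) : u = 0 := by
  have h1 : addOrderOf u ∣ n := addOrderOf_dvd_iff_nsmul_eq_zero.2 h
  have h2 : addOrderOf u ∣ Fintype.card G := by
    rw [← AddChar.card_eq (α := G)]
    exact addOrderOf_dvd_card
  have h3 : addOrderOf u = 1 := Nat.eq_one_of_dvd_coprimes hn h1 h2
  exact AddMonoid.addOrderOf_eq_one_iff.1 h3

theorem inj_pair {J : ℕ} (hJ : ∀ j, 0 < j → j < J → Nat.Coprime j (Fintype.card G))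
    {j j' : ℕ} (hj : j < J) (hj' : j' < J) (hne : j ≠ j') :
    Function.Injective (fun s : AddChar G ℂ => j • s - j' • s) := by
  intro s t hst
  simp only at hst
  have h1 : j • (s - t) = j' • (s - t) := by
    rw [smul_sub, smul_sub]
    have := hst
    rw [sub_eq_sub_iff_add_eq_add] at this
    rw [sub_eq_sub_iff_add_eq_add]
    rw [this]
    abel
  have h2 : s - t = 0 := by
    rcases lt_or_gt_of_ne hne with h | h
    · apply eq_of_nsmul (hJ (j' - j) (by omega) (by omega))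
      rw [sub_nsmul _ h.le, h1]
      abel
    · apply eq_of_nsmul (hJ (j - j') (by omega) (by omega))
      rw [sub_nsmul _ h.le, h1]
      abel
  exact sub_eq_zero.1 h2

theorem sum_inj {J : ℕ} (hJ : ∀ j, 0 < j → j < J → Nat.Coprime j (Fintype.card G))
    {j j' : ℕ} (hj : j < J) (hj' : j' < J) (hne : j ≠ j') (B : Finset G)
    (Λ : Finset (AddChar G ℂ)) :
    ∑ s ∈ Λ, ‖BH B (j • s - j' • s)‖ ^ 2 ≤ (Fintype.card G : ℝ) * B.card := by
  classical
  rw [← parseval B]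
  calc ∑ s ∈ Λ, ‖BH B (j • s - j' • s)‖ ^ 2
      = ∑ t ∈ Λ.image (fun s : AddChar G ℂ => j • s - j' • s), ‖BH B t‖ ^ 2 := by
        rw [sum_image (fun a _ b _ h => inj_pair hJ hj hj' hne h)]
    _ ≤ _ := sum_le_sum_of_subset_of_nonneg (subset_univ _) (fun _ _ _ => by positivity)

/-- geometric sums are large near `1` -/
theorem geom_large {z : ℂ} (hz : ‖z‖ = 1) {J : ℕ} {r : ℝ} (hr : ‖z - 1‖ ≤ r) (hJr : J * r ≤ 1 / 2) :
    (3 / 4 : ℝ) * J ≤ ‖∑ j ∈ range J, z ^ j‖ := by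
  have h1 : ∀ j : ℕ, ‖z ^ j - 1‖ ≤ j * r := by
    intro j
    induction j with
    | zero => simp
    | succ j ih =>
      have h2 : z ^ (j + 1) - 1 = z ^ j * (z - 1) + (z ^ j - 1) := by ring
      rw [h2]
      calc ‖z ^ j * (z - 1) + (z ^ j - 1)‖ ≤ ‖z ^ j * (z - 1)‖ + ‖z ^ j - 1‖ := norm_add_le _ _
        _ ≤ r + j * r := by
            rw [norm_mul, norm_pow, hz, one_pow, one_mul]
            exact add_le_add hr ih
        _ = ((j + 1 : ℕ) : ℝ) * r := by push_cast; ring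
  have hr0 : 0 ≤ r := (norm_nonneg _).trans hr
  have h3 : ‖∑ j ∈ range J, (z ^ j - 1)‖ ≤ J / 4 := by
    calc ‖∑ j ∈ range J, (z ^ j - 1)‖ ≤ ∑ j ∈ range J, ‖z ^ j - 1‖ := norm_sum_le _ _
      _ ≤ ∑ j ∈ range J, (j : ℝ) * r := sum_le_sum fun j _ => h1 j
      _ = (∑ j ∈ range J, (j : ℝ)) * r := by rw [sum_mul]
      _ ≤ (J * J / 2) * r := by
          apply mul_le_mul_of_nonneg_right _ hr0
          have h4 : ∑ j ∈ range J, (j : ℝ) ≤ (J : ℝ) * J / 2 := by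
            have h5 : (∑ j ∈ range J, j) * 2 = J * (J - 1) := sum_range_id_mul_two J
            have h6 : (∑ j ∈ range J, j) * 2 ≤ J * J := by
              rw [h5]; exact Nat.mul_le_mul_left _ (Nat.sub_le _ _)
            have h7 : ((∑ j ∈ range J, j : ℕ) : ℝ) * 2 ≤ J * J := by exact_mod_cast h6
            push_cast at h7
            linarith
          exact h4
      _ = (J / 2) * (J * r) := by ring
      _ ≤ (J / 2) * (1 / 2) := by
          apply mul_le_mul_of_nonneg_left hJr (by positivity)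
      _ = J / 4 := by ring
  have h8 : ∑ j ∈ range J, z ^ j = (J : ℂ) + ∑ j ∈ range J, (z ^ j - 1) := by
    rw [sum_sub_distrib]
    simp
  have h9 : (J : ℝ) ≤ ‖∑ j ∈ range J, z ^ j‖ + ‖∑ j ∈ range J, (z ^ j - 1)‖ := by
    have h10 : (J : ℂ) = ∑ j ∈ range J, z ^ j - ∑ j ∈ range J, (z ^ j - 1) := by rw [h8]; ring
    calc (J : ℝ) = ‖(J : ℂ)‖ := by simp
      _ = ‖∑ j ∈ range J, z ^ j - ∑ j ∈ range J, (z ^ j - 1)‖ := by rw [← h10]
      _ ≤ _ := norm_sub_le _ _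
  linarith

/-- KEY: if all characters of `Λ` are close to `1` on a fixed proportion of `B`, then
`#Λ * #B` is at most `#G` up to the proportion. -/
theorem key {J : ℕ} (hJ : ∀ j, 0 < j → j < J → Nat.Coprime j (Fintype.card G))
    {r θ : ℝ} (hJr : J * r ≤ 1 / 2) (hθ : 0 < θ) (hJθ : 4 ≤ J * θ)
    (B : Finset G) (Λ : Finset (AddChar G ℂ))
    (hΛ : ∀ s ∈ Λ, θ * B.card ≤ ((B.filter (fun v => ‖s v - 1‖ ≤ r)).card : ℝ)) :
    (Λ.card : ℝ) * B.card * θ ^ 2 ≤ 16 * Fintype.card G := by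
  classical
  set g : ℝ := (Fintype.card G : ℝ) with hg
  have hg0 : 0 ≤ g := by positivity
  rcases Nat.eq_zero_or_pos B.card with hB0 | hBpos
  · rw [hB0]; simp; positivity
  have hB : (0 : ℝ) < B.card := by exact_mod_cast hBpos
  have hJ0 : (0 : ℝ) < J := by
    by_contra hcon
    push Not at hcon
    have : (J : ℝ) * θ ≤ 0 := mul_nonpos_of_nonpos_of_nonneg hcon hθ.le
    linarith
  set P := (range J ×ˢ range J).filter (fun p : ℕ × ℕ => p.1 ≠ p.2) with hP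
  -- lower bound for every s
  have h1 : ∀ s ∈ Λ, (J : ℝ) ^ 2 * θ * B.card / 4 ≤ ∑ p ∈ P, ‖BH B (p.1 • s - p.2 • s)‖ := by
    intro s hs
    have h2 : (9 / 16 : ℝ) * J ^ 2 * (θ * B.card) ≤ ∑ v ∈ B, ‖∑ j ∈ range J, (s v) ^ j‖ ^ 2 := by
      calc (9 / 16 : ℝ) * J ^ 2 * (θ * B.card)
          ≤ (9 / 16 : ℝ) * J ^ 2 * ((B.filter (fun v => ‖s v - 1‖ ≤ r)).card : ℝ) :=
            mul_le_mul_of_nonneg_left (hΛ s hs) (by positivity)
        _ = ∑ v ∈ B.filter (fun v => ‖s v - 1‖ ≤ r), (9 / 16 : ℝ) * J ^ 2 := by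
            rw [sum_const, nsmul_eq_mul]; ring
        _ ≤ ∑ v ∈ B.filter (fun v => ‖s v - 1‖ ≤ r), ‖∑ j ∈ range J, (s v) ^ j‖ ^ 2 := by
            refine sum_le_sum fun v hv => ?_
            have h3 := geom_large (AddChar.norm_apply s v) (mem_filter.1 hv).2 hJr
            calc (9 / 16 : ℝ) * J ^ 2 = (3 / 4 * J) ^ 2 := by ring
              _ ≤ _ := pow_le_pow_left₀ (by positivity) h3 2
        _ ≤ _ := sum_le_sum_of_subset_of_nonneg (filter_subset _ _) (fun _ _ _ => by positivity)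
    have h4 : ((∑ v ∈ B, ‖∑ j ∈ range J, (s v) ^ j‖ ^ 2 : ℝ) : ℂ) =
        ∑ p ∈ range J ×ˢ range J, BH B (p.1 • s - p.2 • s) := by
      have h5 : ∀ v ∈ B, ((‖∑ j ∈ range J, (s v) ^ j‖ ^ 2 : ℝ) : ℂ) =
          ∑ p ∈ range J ×ˢ range J, (p.1 • s - p.2 • s) v := by
        intro v _
        have h6 : ((‖∑ j ∈ range J, (s v) ^ j‖ ^ 2 : ℝ) : ℂ) =
            (∑ j ∈ range J, (s v) ^ j) * (starRingEnd ℂ) (∑ j ∈ range J, (s v) ^ j) := by
          rw [Complex.mul_conj, Complex.normSq_eq_norm_sq]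
        rw [h6, map_sum, sum_mul_sum, sum_product]
        refine sum_congr rfl fun j _ => sum_congr rfl fun j' _ => ?_
        rw [sub_eq_add_neg, AddChar.add_apply, AddChar.neg_apply, AddChar.map_neg_eq_conj,
          AddChar.nsmul_apply, AddChar.nsmul_apply]
      rw [Complex.ofReal_sum, sum_congr rfl h5, sum_comm]
      rfl
    have h7 : ∑ v ∈ B, ‖∑ j ∈ range J, (s v) ^ j‖ ^ 2 ≤
        ∑ p ∈ range J ×ˢ range J, ‖BH B (p.1 • s - p.2 • s)‖ := by
      calc ∑ v ∈ B, ‖∑ j ∈ range J, (s v) ^ j‖ ^ 2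
          = ‖((∑ v ∈ B, ‖∑ j ∈ range J, (s v) ^ j‖ ^ 2 : ℝ) : ℂ)‖ := by
            rw [Complex.norm_real, Real.norm_of_nonneg (by positivity)]
        _ ≤ _ := by rw [h4]; exact norm_sum_le _ _
    have h8 : ∑ p ∈ range J ×ˢ range J, ‖BH B (p.1 • s - p.2 • s)‖ =
        ∑ p ∈ P, ‖BH B (p.1 • s - p.2 • s)‖ +
        ∑ p ∈ (range J ×ˢ range J).filter (fun p : ℕ × ℕ => ¬ p.1 ≠ p.2),
          ‖BH B (p.1 • s - p.2 • s)‖ := (sum_filter_add_sum_filter_not _ _ _).symm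
    have h9 : ∑ p ∈ (range J ×ˢ range J).filter (fun p : ℕ × ℕ => ¬ p.1 ≠ p.2),
          ‖BH B (p.1 • s - p.2 • s)‖ ≤ J * B.card := by
      have h10 : ∀ p ∈ (range J ×ˢ range J).filter (fun p : ℕ × ℕ => ¬ p.1 ≠ p.2),
          ‖BH B (p.1 • s - p.2 • s)‖ ≤ B.card := by
        intro p _
        unfold BH
        calc ‖∑ v ∈ B, (p.1 • s - p.2 • s) v‖ ≤ ∑ v ∈ B, ‖(p.1 • s - p.2 • s) v‖ := norm_sum_le _ _
          _ = ∑ v ∈ B, (1 : ℝ) := sum_congr rfl fun v _ => AddChar.norm_apply _ v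
          _ = _ := by simp
      have h11 : ((range J ×ˢ range J).filter (fun p : ℕ × ℕ => ¬ p.1 ≠ p.2)).card ≤ J := by
        have : (range J ×ˢ range J).filter (fun p : ℕ × ℕ => ¬ p.1 ≠ p.2) ⊆
            (range J).image (fun j => (j, j)) := by
          intro p hp
          simp only [mem_filter, mem_product, not_not] at hp
          rw [mem_image]
          exact ⟨p.1, hp.1.1, by ext <;> simp [hp.2]⟩
        calc _ ≤ ((range J).image (fun j => (j, j))).card := card_le_card this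
          _ ≤ (range J).card := card_image_le
          _ = J := card_range J
      calc _ ≤ ∑ p ∈ (range J ×ˢ range J).filter (fun p : ℕ × ℕ => ¬ p.1 ≠ p.2), (B.card : ℝ) :=
            sum_le_sum h10
        _ = (((range J ×ˢ range J).filter (fun p : ℕ × ℕ => ¬ p.1 ≠ p.2)).card : ℝ) * B.card := by
            rw [sum_const, nsmul_eq_mul]
        _ ≤ _ := by
            apply mul_le_mul_of_nonneg_right _ hB.le
            exact_mod_cast h11
    have h12 : (J : ℝ) * B.card ≤ J ^ 2 * θ * B.card / 4 := by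
      have : (J : ℝ) * B.card * 4 ≤ (J : ℝ) * B.card * (J * θ) :=
        mul_le_mul_of_nonneg_left hJθ (by positivity)
      nlinarith
    nlinarith
  -- Cauchy
  have h2 : ∀ s ∈ Λ, (J : ℝ) ^ 2 * θ ^ 2 * B.card ^ 2 / 16 ≤
      ∑ p ∈ P, ‖BH B (p.1 • s - p.2 • s)‖ ^ 2 := by
    intro s hs
    have h3 := h1 s hs
    have h4 : (∑ p ∈ P, ‖BH B (p.1 • s - p.2 • s)‖) ^ 2 ≤
        P.card * ∑ p ∈ P, ‖BH B (p.1 • s - p.2 • s)‖ ^ 2 := sq_sum_le_card_mul_sum_sq
    have h5 : (P.card : ℝ) ≤ J ^ 2 := by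
      have : P.card ≤ J ^ 2 := by
        calc P.card ≤ (range J ×ˢ range J).card := card_le_card (filter_subset _ _)
          _ = J ^ 2 := by rw [card_product, card_range, sq]
      exact_mod_cast this
    have h6 : ((J : ℝ) ^ 2 * θ * B.card / 4) ^ 2 ≤ J ^ 2 * ∑ p ∈ P, ‖BH B (p.1 • s - p.2 • s)‖ ^ 2 := by
      calc ((J : ℝ) ^ 2 * θ * B.card / 4) ^ 2 ≤ (∑ p ∈ P, ‖BH B (p.1 • s - p.2 • s)‖) ^ 2 :=
            pow_le_pow_left₀ (by positivity) h3 2
        _ ≤ _ := h4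
        _ ≤ _ := mul_le_mul_of_nonneg_right h5 (sum_nonneg fun _ _ => by positivity)
    have h7 : (J : ℝ) ^ 2 * ((J : ℝ) ^ 2 * θ ^ 2 * B.card ^ 2 / 16) ≤
        J ^ 2 * ∑ p ∈ P, ‖BH B (p.1 • s - p.2 • s)‖ ^ 2 := by
      calc (J : ℝ) ^ 2 * ((J : ℝ) ^ 2 * θ ^ 2 * B.card ^ 2 / 16) = ((J : ℝ) ^ 2 * θ * B.card / 4) ^ 2 := by ring
        _ ≤ _ := h6
    exact le_of_mul_le_mul_left h7 (by positivity)
  have h3 : (Λ.card : ℝ) * ((J : ℝ) ^ 2 * θ ^ 2 * B.card ^ 2 / 16) ≤ J ^ 2 * (g * B.card) := by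
    calc (Λ.card : ℝ) * ((J : ℝ) ^ 2 * θ ^ 2 * B.card ^ 2 / 16)
        = ∑ s ∈ Λ, (J : ℝ) ^ 2 * θ ^ 2 * B.card ^ 2 / 16 := by rw [sum_const, nsmul_eq_mul]
      _ ≤ ∑ s ∈ Λ, ∑ p ∈ P, ‖BH B (p.1 • s - p.2 • s)‖ ^ 2 := sum_le_sum h2
      _ = ∑ p ∈ P, ∑ s ∈ Λ, ‖BH B (p.1 • s - p.2 • s)‖ ^ 2 := sum_comm
      _ ≤ ∑ p ∈ P, g * B.card := by
          refine sum_le_sum fun p hp => ?_
          rw [hP, mem_filter, mem_product, mem_range, mem_range] at hp
          exact sum_inj hJ hp.1.1 hp.1.2 hp.2 B Λ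
      _ = (P.card : ℝ) * (g * B.card) := by rw [sum_const, nsmul_eq_mul]
      _ ≤ _ := by
          apply mul_le_mul_of_nonneg_right _ (by positivity)
          have : P.card ≤ J ^ 2 := by
            calc P.card ≤ (range J ×ˢ range J).card := card_le_card (filter_subset _ _)
              _ = J ^ 2 := by rw [card_product, card_range, sq]
          exact_mod_cast this
  have h4 : (J : ℝ) ^ 2 * B.card * (Λ.card * B.card * θ ^ 2) ≤ (J : ℝ) ^ 2 * B.card * (16 * g) := by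
    nlinarith
  exact le_of_mul_le_mul_left h4 (by positivity)

end Vale.Agent.P160.Half.Cnt
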