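import Mathlib

/-! Linear growth of sumsets without Kneser's theorem: if `B` is a finite symmetric set containing `0`,
`B ≠ {0}`, and `k • B` contains no nonzero subgroup, then `((k + 1) / 3) * #B ≤ #(k • B)`. -/

open scoped Pointwise

namespace Vale.Agent.P160.Half.Growth

variable {G : Type*} [AddCommGroup G] [DecidableEq G]

theorem nsmul_subset {B : Finset G} (h0 : (0 : G) ∈ B) {m n : ℕ} (h : m ≤ n) : m • B ⊆ n • B := by
  obtain ⟨d, rfl⟩ := Nat.exists_eq_add_of_le h
  rw [add_nsmul]
  have h1 : (0 : G) ∈ d • B := by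
    induction d with
    | zero => simp
    | succ d ih =>
      rw [succ_nsmul]
      have := Finset.add_mem_add (ih (Nat.le_add_right _ _)) h0
      simpa using this
  intro x hx
  have := Finset.add_mem_add hx h1
  simpa using this

theorem zero_mem_nsmul {B : Finset G} (h0 : (0 : G) ∈ B) (n : ℕ) : (0 : G) ∈ n • B := by
  have h := nsmul_subset h0 (Nat.zero_le n)
  exact h (by simp)

theorem neg_mem_nsmul {B : Finset G} (hs : ∀ x ∈ B, -x ∈ B) (n : ℕ) :
    ∀ x ∈ n • B, -x ∈ n • B := by
  induction n with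
  | zero => intro x hx; simp at hx; simp [hx]
  | succ n ih =>
    intro x hx
    rw [succ_nsmul] at hx ⊢
    obtain ⟨a, ha, b, hb, rfl⟩ := Finset.mem_add.1 hx
    rw [neg_add]
    exact Finset.add_mem_add (ih a ha) (hs b hb)

/-- if `(m + 1) • B = m • B`, then `m • B` is a subgroup -/
theorem stable {B : Finset G} (h0 : (0 : G) ∈ B) {m : ℕ} (h : (m + 1) • B ⊆ m • B) (d : ℕ) :
    (m + d) • B ⊆ m • B := by
  induction d with
  | zero => simp
  | succ d ih =>
    intro x hx
    rw [← add_assoc, succ_nsmul] at hx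
    obtain ⟨a, ha, b, hb, rfl⟩ := Finset.mem_add.1 hx
    apply h
    rw [succ_nsmul]
    exact Finset.add_mem_add (ih ha) hb

/-- the subgroup -/
def sg {B : Finset G} (h0 : (0 : G) ∈ B) (hs : ∀ x ∈ B, -x ∈ B) {m : ℕ}
    (h : (m + 1) • B ⊆ m • B) : AddSubgroup G where
  carrier := ↑(m • B)
  zero_mem' := zero_mem_nsmul h0 m
  add_mem' := by
    intro a b ha hb
    have h1 : a + b ∈ (m + m) • B := by
      rw [add_nsmul]
      exact Finset.add_mem_add (Finset.mem_coe.1 ha) (Finset.mem_coe.1 hb)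
    exact stable h0 h m h1
  neg_mem' := by
    intro a ha
    exact neg_mem_nsmul hs m a ha

theorem exists_new {B : Finset G} (h0 : (0 : G) ∈ B) (hs : ∀ x ∈ B, -x ∈ B) (hB : ∃ x ∈ B, x ≠ 0)
    {k : ℕ} (hk : ∀ H : AddSubgroup G, (∀ x ∈ H, x ∈ k • B) → H = ⊥) {m : ℕ} (hm : m ≤ k) :
    ∃ y, y ∈ (m + 1) • B ∧ y ∉ m • B := by
  by_contra hne
  push Not at hne
  have h : (m + 1) • B ⊆ m • B := fun y hy => hne y hy
  have hH := hk (sg h0 hs h) (fun x hx => nsmul_subset h0 hm hx)
  obtain ⟨x, hx, hx0⟩ := hB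
  have h1 : x ∈ (m + 1) • B := nsmul_subset h0 (Nat.le_add_left 1 m) (by simpa using hx)
  have h2 : x ∈ sg h0 hs h := h h1
  rw [hH] at h2
  exact hx0 (AddSubgroup.mem_bot.1 h2)

theorem growth {B : Finset G} (h0 : (0 : G) ∈ B) (hs : ∀ x ∈ B, -x ∈ B) (hB : ∃ x ∈ B, x ≠ 0)
    {k : ℕ} (hk : ∀ H : AddSubgroup G, (∀ x ∈ H, x ∈ k • B) → H = ⊥) :
    ((k + 1) / 3) * B.card ≤ (k • B).card := by
  classical
  have hex : ∀ j : ℕ, j < (k + 1) / 3 → ∃ y, y ∈ (3 * j + 1) • B ∧ y ∉ (3 * j) • B := by
    intro j hj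
    exact exists_new h0 hs hB hk (by omega)
  choose! y hy1 hy2 using hex
  have hdisj : ∀ i ∈ Finset.range ((k + 1) / 3), ∀ j ∈ Finset.range ((k + 1) / 3), i ≠ j →
      Disjoint (B.image (fun b => y i + b)) (B.image (fun b => y j + b)) := by
    have key : ∀ i j, i < j → j < (k + 1) / 3 →
        Disjoint (B.image (fun b => y i + b)) (B.image (fun b => y j + b)) := by
      intro i j hij hj
      rw [Finset.disjoint_left]
      intro z hz1 hz2
      obtain ⟨b, hb, rfl⟩ := Finset.mem_image.1 hz1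
      obtain ⟨b', hb', he⟩ := Finset.mem_image.1 hz2
      apply hy2 j hj
      have h1 : y j = y i + (b + -b') := by
        have : y j = y i + b - b' := by rw [← he]; abel
        rw [this]; abel
      rw [h1]
      have h2 : b + -b' ∈ 2 • B := by
        rw [two_nsmul]
        exact Finset.add_mem_add hb (hs b' hb')
      have h3 : y i + (b + -b') ∈ (3 * i + 1 + 2) • B := by
        rw [add_nsmul]
        exact Finset.add_mem_add (hy1 i (hij.trans hj)) h2
      exact nsmul_subset h0 (by omega) h3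
    intro i hi j hj hij
    rcases lt_or_gt_of_ne hij with h | h
    · exact key i j h (Finset.mem_range.1 hj)
    · exact (key j i h (Finset.mem_range.1 hi)).symm
  have hsub : (Finset.range ((k + 1) / 3)).biUnion (fun j => B.image (fun b => y j + b)) ⊆ k • B := by
    intro z hz
    obtain ⟨j, hj, hz⟩ := Finset.mem_biUnion.1 hz
    obtain ⟨b, hb, rfl⟩ := Finset.mem_image.1 hz
    have hj' := Finset.mem_range.1 hj
    have h1 : y j + b ∈ (3 * j + 1 + 1) • B := by
      rw [succ_nsmul]
      exact Finset.add_mem_add (hy1 j hj') hb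
    exact nsmul_subset h0 (by omega) h1
  calc ((k + 1) / 3) * B.card = ∑ j ∈ Finset.range ((k + 1) / 3), (B.image (fun b => y j + b)).card := by
        rw [Finset.sum_congr rfl (fun j _ => Finset.card_image_of_injective B (add_right_injective (y j)))]
        simp
    _ = ((Finset.range ((k + 1) / 3)).biUnion (fun j => B.image (fun b => y j + b))).card := by
        rw [Finset.card_biUnion hdisj]
    _ ≤ (k • B).card := Finset.card_le_card hsub

end Vale.Agent.P160.Half.Growth
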