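import Vale.Agent.P160.Half.CntB
import Vale.Agent.P160.Half.Growth

/-! Counting lemma, part C: Bohr sets, greedy choice, growth, exceptional coordinates, counting. -/

open Finset
open scoped Pointwise

namespace Vale.Agent.P160.Half.Cnt

variable {G : Type*} [AddCommGroup G] [Fintype G] [DecidableEq G]
variable {ι : Type*} [Fintype ι] [DecidableEq ι]

/-- Bohr set of a family of characters -/
noncomputable def BL {n : ℕ} (f : Fin n → AddChar G ℂ) (r : ℝ) : Finset G :=
  univ.filter (fun v => ∀ i, ‖f i v - 1‖ ≤ r)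

theorem mem_BL {n : ℕ} {f : Fin n → AddChar G ℂ} {r : ℝ} {v : G} :
    v ∈ BL f r ↔ ∀ i, ‖f i v - 1‖ ≤ r := by simp [BL]

theorem dist_add (s : AddChar G ℂ) (v w : G) : ‖s (v + w) - 1‖ ≤ ‖s v - 1‖ + ‖s w - 1‖ := by
  have h : s (v + w) - 1 = s v * (s w - 1) + (s v - 1) := by
    rw [AddChar.map_add_eq_mul]; ring
  rw [h]
  calc ‖s v * (s w - 1) + (s v - 1)‖ ≤ ‖s v * (s w - 1)‖ + ‖s v - 1‖ := norm_add_le _ _
    _ = ‖s w - 1‖ + ‖s v - 1‖ := by rw [norm_mul, AddChar.norm_apply, one_mul]
    _ = _ := by ring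

theorem dist_neg (s : AddChar G ℂ) (v : G) : ‖s (-v) - 1‖ = ‖s v - 1‖ := by
  rw [AddChar.map_neg_eq_conj]
  have : (starRingEnd ℂ) (s v) - 1 = (starRingEnd ℂ) (s v - 1) := by simp
  rw [this, RCLike.norm_conj]

/-- greedy choice -/
theorem greedy {J : ℕ} (hJ : ∀ j, 0 < j → j < J → Nat.Coprime j (Fintype.card G))
    {r θ : ℝ} (hJr : J * r ≤ 1 / 2) (hθ : 0 < θ) (hJθ : 4 ≤ J * θ)
    (Λ : Finset (AddChar G ℂ)) (hΛ : Λ.Nonempty) (n : ℕ) :
    ∃ f : Fin (n + 1) → AddChar G ℂ, (∀ i, f i ∈ Λ) ∧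
      ((Λ.card : ℝ) * (BL f r).card * θ ^ 2 ≤ 16 * Fintype.card G ∨
        ((BL f r).card : ℝ) ≤ θ ^ n * Fintype.card G) := by
  induction n with
  | zero =>
    obtain ⟨s, hs⟩ := hΛ
    refine ⟨fun _ => s, fun _ => hs, Or.inr ?_⟩
    rw [pow_zero, one_mul]
    exact_mod_cast card_le_univ _
  | succ n ih =>
    obtain ⟨f, hf, h⟩ := ih
    by_cases h1 : (Λ.card : ℝ) * (BL f r).card * θ ^ 2 ≤ 16 * Fintype.card G
    · refine ⟨Fin.cons (f 0) f, ?_, Or.inl ?_⟩
      · intro i
        refine Fin.cases ?_ ?_ i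
        · simpa using hf 0
        · intro j; simpa using hf j
      · have h2 : BL (Fin.cons (f 0) f : Fin (n + 2) → AddChar G ℂ) r = BL f r := by
          ext v
          rw [mem_BL, mem_BL, Fin.forall_fin_succ]
          simp only [Fin.cons_zero, Fin.cons_succ]
          exact ⟨fun h => h.2, fun h => ⟨h 0, h⟩⟩
        rw [h2]
        exact h1
    · have h2 : ((BL f r).card : ℝ) ≤ θ ^ n * Fintype.card G := h.resolve_left h1
      have h3 : ∃ s ∈ Λ, (((BL f r).filter (fun v => ‖s v - 1‖ ≤ r)).card : ℝ) < θ * (BL f r).card := by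
        by_contra hcon
        push Not at hcon
        exact h1 (key hJ hJr hθ hJθ (BL f r) Λ hcon)
      obtain ⟨s, hs, hlt⟩ := h3
      refine ⟨Fin.cons s f, ?_, Or.inr ?_⟩
      · intro i
        refine Fin.cases ?_ ?_ i
        · simpa using hs
        · intro j; simpa using hf j
      · have h4 : BL (Fin.cons s f : Fin (n + 2) → AddChar G ℂ) r =
            (BL f r).filter (fun v => ‖s v - 1‖ ≤ r) := by
          ext v
          rw [mem_BL, mem_filter, mem_BL, Fin.forall_fin_succ]
          simp only [Fin.cons_zero, Fin.cons_succ]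
          exact and_comm
        rw [h4]
        calc (((BL f r).filter (fun v => ‖s v - 1‖ ≤ r)).card : ℝ) ≤ θ * (BL f r).card := hlt.le
          _ ≤ θ * (θ ^ n * Fintype.card G) := mul_le_mul_of_nonneg_left h2 hθ.le
          _ = _ := by rw [pow_succ]; ring

theorem growth' {B : Finset G} (h0 : (0 : G) ∈ B) (hs : ∀ x ∈ B, -x ∈ B) {k : ℕ}
    (hne : ∀ m, m ≤ k → ¬ ((m + 1) • B ⊆ m • B)) :
    ((k + 1) / 3) * B.card ≤ (k • B).card := by
  classical
  have hex : ∀ j : ℕ, j < (k + 1) / 3 → ∃ y, y ∈ (3 * j + 1) • B ∧ y ∉ (3 * j) • B := by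
    intro j hj
    have := hne (3 * j) (by omega)
    rw [Finset.not_subset] at this
    exact this
  choose! y hy1 hy2 using hex
  have hdisj : ∀ i ∈ Finset.range ((k + 1) / 3), ∀ j ∈ Finset.range ((k + 1) / 3), i ≠ j →
      Disjoint (B.image (fun b => y i + b)) (B.image (fun b => y j + b)) := by
    have key : ∀ i j, i < j → j < (k + 1) / 3 →
        Disjoint (B.image (fun b => y i + b)) (B.image (fun b => y j + b)) := by
      intro i j hij hj
      rw [Finset.disjoint_left]
      intro z hz1 hz2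
      obtain ⟨b, hb, rfl⟩ := Finset.mem_image.1 hz1
      obtain ⟨b', hb', he⟩ := Finset.mem_image.1 hz2
      apply hy2 j hj
      have h1 : y j = y i + (b + -b') := by
        have : y j = y i + b - b' := by rw [← he]; abel
        rw [this]; abel
      rw [h1]
      have h2 : b + -b' ∈ 2 • B := by
        rw [two_nsmul]
        exact Finset.add_mem_add hb (hs b' hb')
      have h3 : y i + (b + -b') ∈ (3 * i + 1 + 2) • B := by
        rw [add_nsmul]
        exact Finset.add_mem_add (hy1 i (hij.trans hj)) h2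
      exact Growth.nsmul_subset h0 (by omega) h3
    intro i hi j hj hij
    rcases lt_or_gt_of_ne hij with h | h
    · exact key i j h (Finset.mem_range.1 hj)
    · exact (key j i h (Finset.mem_range.1 hi)).symm
  have hsub : (Finset.range ((k + 1) / 3)).biUnion (fun j => B.image (fun b => y j + b)) ⊆ k • B := by
    intro z hz
    obtain ⟨j, hj, hz⟩ := Finset.mem_biUnion.1 hz
    obtain ⟨b, hb, rfl⟩ := Finset.mem_image.1 hz
    have hj' := Finset.mem_range.1 hj
    have h1 : y j + b ∈ (3 * j + 1 + 1) • B := by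
      rw [succ_nsmul]
      exact Finset.add_mem_add (hy1 j hj') hb
    exact Growth.nsmul_subset h0 (by omega) h1
  calc ((k + 1) / 3) * B.card = ∑ j ∈ Finset.range ((k + 1) / 3), (B.image (fun b => y j + b)).card := by
        rw [Finset.sum_congr rfl (fun j _ => Finset.card_image_of_injective B (add_right_injective (y j)))]
        simp
    _ = ((Finset.range ((k + 1) / 3)).biUnion (fun j => B.image (fun b => y j + b))).card := by
        rw [Finset.card_biUnion hdisj]
    _ ≤ (k • B).card := Finset.card_le_card hsub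

theorem eq_one_of_pow_near {z : ℂ} {n : ℕ} (hn : 0 < n) (hz : z ^ n = 1) {r : ℝ} (hr : r < 1)
    (h : ∀ j : ℕ, ‖z ^ j - 1‖ ≤ r) : z = 1 := by
  by_contra hne
  have h1 : ∑ j ∈ range n, z ^ j = 0 := by
    have := geom_sum_eq hne n
    rw [this, hz]; simp
  have h2 : 0 < (∑ j ∈ range n, z ^ j).re := by
    rw [Complex.re_sum]
    apply sum_pos
    · intro j _
      have h3 := Complex.abs_re_le_norm (z ^ j - 1)
      have h4 := (abs_le.1 (h3.trans (h j))).1
      simp at h4
      linarith
    · exact ⟨0, by simpa using hn⟩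
  rw [h1] at h2
  simp at h2

theorem nsmul_subset_BL {n : ℕ} (f : Fin n → AddChar G ℂ) (ρ : ℝ) (k : ℕ) :
    k • BL f ρ ⊆ BL f (k * ρ) := by
  induction k with
  | zero =>
    intro v hv
    simp at hv
    rw [mem_BL]
    intro i
    simp [hv]
  | succ k ih =>
    intro v hv
    rw [succ_nsmul] at hv
    obtain ⟨a, ha, b, hb, rfl⟩ := Finset.mem_add.1 hv
    have ha' := mem_BL.1 (ih ha)
    have hb' := mem_BL.1 hb
    rw [mem_BL]
    intro i
    push_cast
    calc _ ≤ _ := dist_add (f i) a b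
      _ ≤ k * ρ + ρ := add_le_add (ha' i) (hb' i)
      _ = _ := by ring

theorem growth_BL {n : ℕ} (f : Fin n → AddChar G ℂ) {ρ r : ℝ} (hρ : 0 ≤ ρ) {k : ℕ}
    (hk : k * ρ ≤ r) (hr : r < 1) (hv : ∃ v ∈ BL f ρ, ∃ i, f i v ≠ 1) :
    ((k + 1) / 3) * (BL f ρ).card ≤ (BL f r).card := by
  have h0 : (0 : G) ∈ BL f ρ := by
    rw [mem_BL]; intro i; simpa using hρ
  have hs : ∀ x ∈ BL f ρ, -x ∈ BL f ρ := by
    intro x hx
    rw [mem_BL] at hx ⊢
    intro i
    rw [dist_neg]
    exact hx i
  have hsub : ∀ m, m ≤ k → m • BL f ρ ⊆ BL f r := by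
    intro m hm v hv
    have h1 := mem_BL.1 (nsmul_subset_BL f ρ m hv)
    rw [mem_BL]
    intro i
    refine (h1 i).trans ((mul_le_mul_of_nonneg_right ?_ hρ).trans hk)
    exact_mod_cast hm
  have hmain : ((k + 1) / 3) * (BL f ρ).card ≤ (k • BL f ρ).card := by
    apply growth' h0 hs
    intro m hm hcon
    obtain ⟨v, hv, i, hi⟩ := hv
    have h1 : v ∈ Growth.sg h0 hs hcon := by
      have : v ∈ (m + 1) • BL f ρ := Growth.nsmul_subset h0 (Nat.le_add_left 1 m) (by simpa using hv)
      exact hcon this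
    apply hi
    apply eq_one_of_pow_near (n := Fintype.card G) Fintype.card_pos _ hr
    · intro j
      have h2 : j • v ∈ Growth.sg h0 hs hcon := AddSubgroup.nsmul_mem _ h1 j
      have h3 : j • v ∈ m • BL f ρ := h2
      have h4 := mem_BL.1 (hsub m hm h3) i
      rwa [AddChar.map_nsmul_eq_pow] at h4
    · rw [← AddChar.map_nsmul_eq_pow, card_nsmul_eq_zero, AddChar.map_zero_eq_one]
  exact hmain.trans (card_le_card (hsub k le_rfl))

theorem hh_le_exp {z : ℂ} (hz : ‖z‖ = 1) : hh z ≤ Real.exp (-(‖z - 1‖ ^ 2 / 8)) := by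
  rw [hh_eq hz]
  have := Real.add_one_le_exp (-(‖z - 1‖ ^ 2 / 8))
  linarith

/-- few exceptional coordinates -/
theorem exceptional (y : ι → G) (s : AddChar G ℂ) {τ ρ : ℝ} (hτ : 0 < τ) (hρ : 0 < ρ)
    (h : τ ≤ PPi y s) :
    ((univ.filter (fun c => ¬ ‖s (y c) - 1‖ ≤ ρ)).card : ℝ) * ρ ^ 2 ≤ 8 * Real.log (1 / τ) := by
  have h1 : PPi y s ≤ Real.exp (-((∑ c, ‖s (y c) - 1‖ ^ 2) / 8)) := by
    unfold PPi
    calc ∏ c, hh (s (y c)) ≤ ∏ c, Real.exp (-(‖s (y c) - 1‖ ^ 2 / 8)) :=
          prod_le_prod (fun c _ => hh_nonneg (AddChar.norm_apply s (y c)))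
            (fun c _ => hh_le_exp (AddChar.norm_apply s (y c)))
      _ = _ := by
          rw [← Real.exp_sum]
          congr 1
          rw [sum_neg_distrib, sum_div]
  have h2 : Real.log τ ≤ -((∑ c, ‖s (y c) - 1‖ ^ 2) / 8) := by
    rw [Real.log_le_iff_le_exp hτ]
    exact h.trans h1
  have h3 : ((univ.filter (fun c => ¬ ‖s (y c) - 1‖ ≤ ρ)).card : ℝ) * ρ ^ 2 ≤
      ∑ c, ‖s (y c) - 1‖ ^ 2 := by
    calc ((univ.filter (fun c => ¬ ‖s (y c) - 1‖ ≤ ρ)).card : ℝ) * ρ ^ 2
        = ∑ c ∈ univ.filter (fun c => ¬ ‖s (y c) - 1‖ ≤ ρ), ρ ^ 2 := by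
          rw [sum_const, nsmul_eq_mul]
      _ ≤ ∑ c ∈ univ.filter (fun c => ¬ ‖s (y c) - 1‖ ≤ ρ), ‖s (y c) - 1‖ ^ 2 := by
          refine sum_le_sum fun c hc => ?_
          have h4 : ρ < ‖s (y c) - 1‖ := not_le.1 (mem_filter.1 hc).2
          exact pow_le_pow_left₀ hρ.le h4.le 2
      _ ≤ _ := sum_le_sum_of_subset_of_nonneg (filter_subset _ _) (fun _ _ _ => by positivity)
  rw [Real.log_div one_ne_zero hτ.ne', Real.log_one]
  linarith

/-- vectors with few coordinates outside `B` -/
theorem card_few (B : Finset G) {U : ℝ} (hU : (B.card : ℝ) ≤ U) (hU0 : 0 < U)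
    (hUG : U ≤ Fintype.card G) (E : ℕ) :
    ((univ.filter (fun y : ι → G => (univ.filter (fun c => y c ∉ B)).card ≤ E)).card : ℝ) ≤
      2 ^ Fintype.card ι * (U ^ Fintype.card ι * ((Fintype.card G : ℝ) / U) ^ E) := by
  classical
  set g : ℝ := (Fintype.card G : ℝ) with hg
  have hg0 : 0 < g := lt_of_lt_of_le hU0 hUG
  have h1 : univ.filter (fun y : ι → G => (univ.filter (fun c => y c ∉ B)).card ≤ E) ⊆
      ((univ : Finset (Finset ι)).filter (fun S => S.card ≤ E)).biUnion
        (fun S => Fintype.piFinset (fun c => if c ∈ S then univ else B)) := by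
    intro y hy
    rw [mem_biUnion]
    refine ⟨univ.filter (fun c => y c ∉ B), ?_, ?_⟩
    · simpa using hy
    · rw [Fintype.mem_piFinset]
      intro c
      by_cases h : y c ∈ B <;> simp [h]
  have h2 : ∀ S ∈ (univ : Finset (Finset ι)).filter (fun S => S.card ≤ E),
      ((Fintype.piFinset (fun c => if c ∈ S then (univ : Finset G) else B)).card : ℝ) ≤
        U ^ Fintype.card ι * (g / U) ^ E := by
    intro S hS
    have hSE : S.card ≤ E := by simpa using hS
    rw [Fintype.card_piFinset]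
    push_cast
    calc ∏ c, (((if c ∈ S then (univ : Finset G) else B).card : ℕ) : ℝ)
        ≤ ∏ c, (if c ∈ S then U * (g / U) else U) := by
          apply prod_le_prod
          · intro c _; positivity
          · intro c _
            by_cases hc : c ∈ S
            · simp only [hc, if_true]
              rw [mul_div_cancel₀ _ hU0.ne', hg]
              simp
            · simp only [hc, if_false]
              exact hU
      _ = ∏ c, (U * (if c ∈ S then g / U else 1)) := by
          refine prod_congr rfl fun c _ => ?_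
          by_cases hc : c ∈ S <;> simp [hc]
      _ = U ^ Fintype.card ι * (g / U) ^ S.card := by
          rw [prod_mul_distrib, prod_const, card_univ]
          congr 1
          rw [prod_ite_mem, univ_inter, prod_const]
      _ ≤ _ := by
          apply mul_le_mul_of_nonneg_left _ (by positivity)
          exact pow_le_pow_right₀ ((one_le_div hU0).2 hUG) hSE
  calc ((univ.filter (fun y : ι → G => (univ.filter (fun c => y c ∉ B)).card ≤ E)).card : ℝ)
      ≤ ((((univ : Finset (Finset ι)).filter (fun S => S.card ≤ E)).biUnion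
        (fun S => Fintype.piFinset (fun c => if c ∈ S then univ else B))).card : ℝ) := by
        exact_mod_cast card_le_card h1
    _ ≤ ∑ S ∈ (univ : Finset (Finset ι)).filter (fun S => S.card ≤ E),
        ((Fintype.piFinset (fun c => if c ∈ S then (univ : Finset G) else B)).card : ℝ) := by
        exact_mod_cast card_biUnion_le
    _ ≤ ∑ S ∈ (univ : Finset (Finset ι)).filter (fun S => S.card ≤ E),
        U ^ Fintype.card ι * (g / U) ^ E := sum_le_sum h2
    _ = (((univ : Finset (Finset ι)).filter (fun S => S.card ≤ E)).card : ℝ) *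
        (U ^ Fintype.card ι * (g / U) ^ E) := by rw [sum_const, nsmul_eq_mul]
    _ ≤ 2 ^ Fintype.card ι * (U ^ Fintype.card ι * (g / U) ^ E) := by
        apply mul_le_mul_of_nonneg_right _ (by positivity)
        have : ((univ : Finset (Finset ι)).filter (fun S => S.card ≤ E)).card ≤ 2 ^ Fintype.card ι := by
          calc _ ≤ (univ : Finset (Finset ι)).card := card_le_card (filter_subset _ _)
            _ = _ := by simp
        exact_mod_cast this

end Vale.Agent.P160.Half.Cnt
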