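import Vale.Agent.P160.Half.FlatI
import Vale.Agent.P160.Half.CntC

/-! P160-HALF: growth of Bohr sets (`StmtGrowth`). -/

open Finset

namespace Vale.Agent.P160.Half.Flat.Grow

open Vale.Agent.P160.Half.Cnt Vale.Agent.P160.Half.Flat

theorem mem_bohr {G : Type} [AddCommGroup G] [Fintype G] {S : Finset (AddChar G ℂ)} {r : ℝ}
    {v : G} : v ∈ bohr S r ↔ ∀ ψ ∈ S, ‖ψ v - 1‖ ≤ r := by
  classical
  unfold bohr
  simp

theorem bohr_eq_BL {G : Type} [AddCommGroup G] [Fintype G] [DecidableEq G]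
    (S : Finset (AddChar G ℂ)) (r : ℝ) :
    bohr S r = BL (fun i : Fin S.card => ((S.equivFin.symm i : S) : AddChar G ℂ)) r := by
  ext v
  rw [mem_bohr, mem_BL]
  constructor
  · intro h i
    exact h _ (S.equivFin.symm i).2
  · intro h ψ hψ
    have := h (S.equivFin ⟨ψ, hψ⟩)
    simpa using this

theorem stmtGrowth : StmtGrowth := by
  intro G _ _ S ρ σ hρ hρσ hσ
  classical
  by_cases hv : ∀ v ∈ bohr S ρ, ∀ ψ ∈ S, ψ v = 1
  · exact Or.inl hv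
  right
  push Not at hv
  obtain ⟨v, hv1, ψ, hψ, hne⟩ := hv
  set f : Fin S.card → AddChar G ℂ := fun i => ((S.equivFin.symm i : S) : AddChar G ℂ) with hf
  -- k = floor(σ/(2ρ))
  set k : ℕ := ⌊σ / (2 * ρ)⌋₊ with hk
  have hσ0 : 0 < σ := by linarith
  have hk1 : (k : ℝ) ≤ σ / (2 * ρ) := Nat.floor_le (by positivity)
  have hk2 : σ / (2 * ρ) < k + 1 := Nat.lt_floor_add_one _
  have hk3 : (k : ℝ) * ρ ≤ σ / 2 := by
    have := mul_le_mul_of_nonneg_right hk1 hρ.le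
    have h2 : σ / (2 * ρ) * ρ = σ / 2 := by field_simp
    linarith
  have hex : ∃ v ∈ BL f ρ, ∃ i, f i v ≠ 1 := by
    refine ⟨v, ?_, S.equivFin ⟨ψ, hψ⟩, ?_⟩
    · rw [← bohr_eq_BL]; exact hv1
    · simpa [hf] using hne
  have h1 := growth_BL f hρ.le hk3 (by linarith : σ / 2 < 1) hex
  have h2 : (BL f (σ / 2)).card ≤ (BL f σ).card := by
    apply card_le_card
    intro w hw
    rw [mem_BL] at hw ⊢
    intro i
    exact (hw i).trans (by linarith)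
  have h3 : ((k + 1) / 3) * (BL f ρ).card ≤ (BL f σ).card := h1.trans h2
  rw [bohr_eq_BL, bohr_eq_BL]
  have h4 : (((k + 1) / 3 : ℕ) : ℝ) * (BL f ρ).card ≤ (BL f σ).card := by exact_mod_cast h3
  have h5 : ((k : ℝ) + 1) / 3 - 2 / 3 ≤ (((k + 1) / 3 : ℕ) : ℝ) := by
    have : k + 1 ≤ 3 * ((k + 1) / 3) + 2 := by omega
    have h6 : ((k : ℝ) + 1) ≤ 3 * (((k + 1) / 3 : ℕ) : ℝ) + 2 := by exact_mod_cast this
    linarith
  have h7 : 10 ≤ σ / (2 * ρ) := by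
    rw [le_div_iff₀ (by positivity)]
    linarith
  have h8 : σ ≤ 100 * ρ * (((k + 1) / 3 : ℕ) : ℝ) := by
    have h9 : σ = (σ / (2 * ρ)) * (2 * ρ) := by field_simp
    have h10 : σ / (2 * ρ) ≤ 50 * (((k + 1) / 3 : ℕ) : ℝ) := by linarith
    calc σ = (σ / (2 * ρ)) * (2 * ρ) := h9
      _ ≤ (50 * (((k + 1) / 3 : ℕ) : ℝ)) * (2 * ρ) := by
          apply mul_le_mul_of_nonneg_right h10 (by positivity)
      _ = _ := by ring
  calc ((BL f ρ).card : ℝ) * σ ≤ (BL f ρ).card * (100 * ρ * (((k + 1) / 3 : ℕ) : ℝ)) :=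
        mul_le_mul_of_nonneg_left h8 (by positivity)
    _ = 100 * ρ * ((((k + 1) / 3 : ℕ) : ℝ) * (BL f ρ).card) := by ring
    _ ≤ 100 * ρ * (BL f σ).card := mul_le_mul_of_nonneg_left h4 (by positivity)

end Vale.Agent.P160.Half.Flat.Grow
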