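import Vale.Agent.P160.Half.FlatI

/-! P160-HALF, COUNT part (A): many large frequencies, dissociated tuples (helper398). -/

namespace Vale.Agent.P160.Half.Flat.L398

open Finset Vale.Agent.P160 Vale.Agent.P160.Half.Flat

section diss

variable {H : Type} [CommGroup H]

/-- dissociated tuples -/
def Diss {l : ℕ} (s : Fin l → H) : Prop :=
  ∀ ω : Fin l → Fin 8, ∏ a, s a ^ (st (ω a)) = 1 → ∀ a, st (ω a) = 0

/-- the signed span -/
noncomputable def spn {l : ℕ} (s : Fin l → H) : Finset H := by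
  classical exact univ.image fun ω : Fin l → Fin 8 => ∏ a, s a ^ (st (ω a))

lemma mem_spn {l : ℕ} (s : Fin l → H) (x : H) :
    x ∈ spn s ↔ ∃ ω : Fin l → Fin 8, ∏ a, s a ^ (st (ω a)) = x := by
  classical
  unfold spn
  simp

lemma card_spn_le {l : ℕ} (s : Fin l → H) : (spn s).card ≤ 8 ^ l := by
  classical
  unfold spn
  refine card_image_le.trans ?_
  simp

lemma neg_st (a : Fin 8) : ∃ b : Fin 8, st b = -st a := by
  revert a
  decide

lemma st_cases (a : Fin 8) : st a = 0 ∨ st a = 1 ∨ st a = -1 := by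
  revert a
  decide

lemma card_st_zero : (univ.filter fun a : Fin 8 => st a = 0).card = 6 := by
  decide

lemma inv_mem_spn {l : ℕ} (s : Fin l → H) {x : H} (hx : x⁻¹ ∈ spn s) : x ∈ spn s := by
  rw [mem_spn] at hx ⊢
  obtain ⟨ω, hω⟩ := hx
  choose ν hν using neg_st
  refine ⟨fun a => ν (ω a), ?_⟩
  have : ∏ a, s a ^ (st (ν (ω a))) = (∏ a, s a ^ (st (ω a)))⁻¹ := by
    rw [← prod_inv_distrib]
    refine prod_congr rfl fun a _ => ?_
    rw [hν, zpow_neg]
  rw [this, hω, inv_inv]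

lemma diss_cons {l : ℕ} {s : Fin l → H} {x : H} (hs : Diss s) (hx : x ∉ spn s) :
    Diss (Fin.cons x s : Fin (l + 1) → H) := by
  intro ω hω
  rw [Fin.prod_univ_succ] at hω
  simp only [Fin.cons_zero, Fin.cons_succ] at hω
  have h0 : st (ω 0) = 0 := by
    rcases st_cases (ω 0) with h | h | h
    · exact h
    · exfalso
      apply hx
      apply inv_mem_spn
      rw [mem_spn]
      refine ⟨fun a => ω a.succ, ?_⟩
      rw [h, zpow_one] at hω
      exact (eq_inv_of_mul_eq_one_right hω)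
    · exfalso
      apply hx
      rw [mem_spn]
      refine ⟨fun a => ω a.succ, ?_⟩
      rw [h, zpow_neg_one] at hω
      exact (inv_mul_eq_one.mp hω).symm
  have h1 := hs (fun a => ω a.succ) (by
    rw [h0, zpow_zero, one_mul] at hω
    exact hω)
  intro a
  refine Fin.cases h0 (fun b => h1 b) a

/-- dissociated tuples in `Λ` -/
noncomputable def dtup [Fintype H] (Λ : Finset H) (l : ℕ) : Finset (Fin l → H) := by
  classical exact univ.filter fun s => (∀ a, s a ∈ Λ) ∧ Diss s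

lemma mem_dtup [Fintype H] (Λ : Finset H) (l : ℕ) (s : Fin l → H) :
    s ∈ dtup Λ l ↔ (∀ a, s a ∈ Λ) ∧ Diss s := by
  classical
  unfold dtup
  simp

lemma card_dtup_succ [Fintype H] (Λ : Finset H) (l : ℕ) (K : ℝ) (hK : K ≤ Λ.card)
    (hl : (8 : ℝ) ^ (l + 1) ≤ K) :
    ((dtup Λ l).card : ℝ) * (K / 2) ≤ (dtup Λ (l + 1)).card := by
  classical
  have h1 : ((dtup Λ l).sigma (fun s => Λ \ spn s)).card ≤ (dtup Λ (l + 1)).card := by
    refine card_le_card_of_injOn (fun p => (Fin.cons p.2 p.1 : Fin (l + 1) → H)) ?_ ?_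
    · intro p hp
      have hp' := Finset.mem_sigma.mp (Finset.mem_coe.mp hp)
      have h2 := (mem_dtup _ _ _).mp hp'.1
      have h3 := Finset.mem_sdiff.mp hp'.2
      refine Finset.mem_coe.mpr ((mem_dtup _ _ _).mpr ⟨?_, diss_cons h2.2 h3.2⟩)
      intro a
      refine Fin.cases ?_ (fun b => ?_) a
      · simpa using h3.1
      · simpa using h2.1 b
    · rintro ⟨s, x⟩ _ ⟨s', x'⟩ _ h
      have h4 := Fin.cons_injective2 h
      obtain ⟨rfl, rfl⟩ := h4
      rfl
  rw [card_sigma] at h1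
  have h2 : ∀ s ∈ dtup Λ l, (K / 2 : ℝ) ≤ ((Λ \ spn s).card : ℝ) := by
    intro s _
    have h3 : Λ.card ≤ (Λ \ spn s).card + (spn s).card := by
      have := card_le_card_sdiff_add_card (s := Λ) (t := spn s)
      omega
    have h4 := card_spn_le s
    have h5 : (Λ.card : ℝ) ≤ (Λ \ spn s).card + (8 : ℝ) ^ l := by
      have : Λ.card ≤ (Λ \ spn s).card + 8 ^ l := by omega
      exact_mod_cast this
    have h6 : (8 : ℝ) ^ (l + 1) = 8 * 8 ^ l := by ring
    have h7 : (0 : ℝ) ≤ 8 ^ l := by positivity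
    linarith
  calc ((dtup Λ l).card : ℝ) * (K / 2) = ∑ s ∈ dtup Λ l, (K / 2 : ℝ) := by
        rw [sum_const, nsmul_eq_mul]
    _ ≤ ∑ s ∈ dtup Λ l, ((Λ \ spn s).card : ℝ) := sum_le_sum h2
    _ ≤ ((dtup Λ (l + 1)).card : ℝ) := by exact_mod_cast h1

lemma card_dtup [Fintype H] (Λ : Finset H) (l : ℕ) (K : ℝ) (hK : K ≤ Λ.card)
    (hl : (8 : ℝ) ^ l ≤ K) : (K / 2) ^ l ≤ ((dtup Λ l).card : ℝ) := by
  classical
  induction l with
  | zero =>
    simp only [pow_zero]
    have : (Fin.elim0 : Fin 0 → H) ∈ dtup Λ 0 := by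
      rw [mem_dtup]
      exact ⟨fun a => a.elim0, fun ω _ a => a.elim0⟩
    have := Finset.card_pos.mpr ⟨_, this⟩
    exact_mod_cast this
  | succ l ih =>
    have h0 : (8 : ℝ) ^ l ≤ 8 ^ (l + 1) := pow_le_pow_right₀ (by norm_num) (by omega)
    have h1 := ih (h0.trans hl)
    have h2 := card_dtup_succ Λ l K hK hl
    have hK0 : 0 ≤ K / 2 := by
      have : (0 : ℝ) ≤ 8 ^ (l + 1) := by positivity
      linarith
    calc (K / 2) ^ (l + 1) = (K / 2) ^ l * (K / 2) := by ring
      _ ≤ ((dtup Λ l).card : ℝ) * (K / 2) := by gcongr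
      _ ≤ _ := h2

end diss

section main

variable {G : Type} [AddCommGroup G] [Fintype G]

omit [Fintype G] in
lemma prod_zpow_apply {l : ℕ} (s : Fin l → AddChar G ℂ) (ω : Fin l → Fin 8) (v : G) :
    (∏ a, s a ^ (st (ω a))) v = ∏ a, (s a v) ^ (st (ω a)) := by
  rw [AddChar.prod_apply]
  exact prod_congr rfl fun a _ => AddChar.zpow_apply _ _ _

lemma sum_cf_diss {l : ℕ} {s : Fin l → AddChar G ℂ} (hs : Diss s) :
    ∑ v : G, ∏ a, cf 8 (s a v) = Fintype.card G * (3 / 4 : ℝ) ^ l := by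
  classical
  have h1 : ∀ v : G, (((8 : ℝ) ^ l * ∏ a, cf 8 (s a v) : ℝ) : ℂ) =
      ∑ ω : Fin l → Fin 8, (∏ a, s a ^ (st (ω a))) v := by
    intro v
    have := sum_prod_zpow_st (M := 8) (by norm_num) (fun a : Fin l => s a v)
      (fun a => AddChar.norm_apply _ _)
    have h8 : ((8 : ℕ) : ℝ) = 8 := by norm_num
    rw [Fintype.card_fin, h8] at this
    rw [← this]
    exact sum_congr rfl fun ω _ => (prod_zpow_apply s ω v).symm
  have h2 : (((8 : ℝ) ^ l * ∑ v : G, ∏ a, cf 8 (s a v) : ℝ) : ℂ) =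
      ((Fintype.card G * (6 : ℝ) ^ l : ℝ) : ℂ) := by
    rw [mul_sum]
    rw [Complex.ofReal_sum]
    simp only [h1]
    rw [sum_comm]
    have h3 : ∀ ω : Fin l → Fin 8, ∑ v : G, (∏ a, s a ^ (st (ω a))) v =
        if (∀ a, st (ω a) = 0) then (Fintype.card G : ℂ) else 0 := by
      intro ω
      rw [AddChar.sum_eq_ite]
      have : (∏ a, s a ^ (st (ω a)) = 0) ↔ (∀ a, st (ω a) = 0) := by
        constructor
        · intro h
          exact hs ω h
        · intro h
          have : ∏ a, s a ^ (st (ω a)) = 1 := by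
            simp [h]
          exact this
      simp only [this]
    simp only [h3]
    rw [← sum_filter, sum_const, nsmul_eq_mul]
    have h4 : (univ.filter fun ω : Fin l → Fin 8 => ∀ a, st (ω a) = 0) =
        Fintype.piFinset (fun _ : Fin l => univ.filter fun a : Fin 8 => st a = 0) := by
      ext ω
      simp
    rw [h4, Fintype.card_piFinset]
    simp only [card_st_zero, prod_const, card_univ, Fintype.card_fin]
    push_cast
    ring
  have h5 : (8 : ℝ) ^ l * ∑ v : G, ∏ a, cf 8 (s a v) = Fintype.card G * (6 : ℝ) ^ l := by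
    exact_mod_cast h2
  have h6 : (0 : ℝ) < 8 ^ l := by positivity
  have h7 : (6 : ℝ) ^ l = 8 ^ l * (3 / 4) ^ l := by
    rw [← mul_pow]; norm_num
  rw [h7] at h5
  have h8 : (8 : ℝ) ^ l * ∑ v : G, ∏ a, cf 8 (s a v) =
      8 ^ l * (Fintype.card G * (3 / 4 : ℝ) ^ l) := by rw [h5]; ring
  exact mul_left_cancel₀ h6.ne' h8

lemma gP_nonneg {m : ℕ} (y : Fin m → G) (ψ : AddChar G ℂ) : 0 ≤ gP 8 y ψ :=
  prod_nonneg fun _ _ => cf_nonneg (by norm_num) (AddChar.norm_apply _ _)

lemma mem_Lam {m : ℕ} (y : Fin m → G) (t : ℝ) (ψ : AddChar G ℂ) :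
    ψ ∈ Lam y t ↔ ψ ≠ 1 ∧ t ≤ gP 8 y ψ := by
  classical
  unfold Lam
  simp

lemma sum_gP {l m : ℕ} {s : Fin l → AddChar G ℂ} (hs : Diss s) :
    ∑ y : Fin m → G, ∏ a, gP 8 y (s a) = (Fintype.card G * (3 / 4 : ℝ) ^ l) ^ m := by
  classical
  have h := Finset.prod_univ_sum (fun _ : Fin m => (univ : Finset G))
    (fun _ v => ∏ a, cf 8 (s a v))
  rw [Fintype.piFinset_univ] at h
  simp only [sum_cf_diss hs, prod_const, card_univ, Fintype.card_fin] at h
  rw [h]
  refine sum_congr rfl fun y _ => ?_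
  unfold gP
  rw [prod_comm]

end main

end Vale.Agent.P160.Half.Flat.L398

namespace Vale.Agent.P160.Half.Flat

open Finset Vale.Agent.P160 L398

theorem stmtLarge : StmtLarge := by
  classical
  intro G _ _ m l K t ht hl
  set Bad := univ.filter fun y : Fin m → G => K ≤ (Lam y t).card with hBad
  have hK0 : 0 ≤ K / 2 := by
    have : (0 : ℝ) ≤ 8 ^ l := by positivity
    linarith
  have h1 : ∀ y ∈ Bad, (K / 2) ^ l * t ^ l ≤
      ∑ s ∈ (univ.filter fun s : Fin l → AddChar G ℂ => Diss s), ∏ a, gP 8 y (s a) := by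
    intro y hy
    have hy' : K ≤ (Lam y t).card := (mem_filter.mp hy).2
    have h2 := card_dtup (Lam y t) l K hy' hl
    calc (K / 2) ^ l * t ^ l ≤ ((dtup (Lam y t) l).card : ℝ) * t ^ l := by gcongr
      _ = ∑ s ∈ dtup (Lam y t) l, t ^ l := by rw [sum_const, nsmul_eq_mul]
      _ ≤ ∑ s ∈ dtup (Lam y t) l, ∏ a, gP 8 y (s a) := by
          refine sum_le_sum fun s hs => ?_
          have h3 := ((mem_dtup _ _ _).mp hs).1
          calc t ^ l = ∏ _a : Fin l, t := by simp
            _ ≤ ∏ a, gP 8 y (s a) := by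
                refine prod_le_prod (fun _ _ => ht.le) fun a _ => ?_
                exact ((mem_Lam _ _ _).mp (h3 a)).2
      _ ≤ _ := by
          refine sum_le_sum_of_subset_of_nonneg ?_ ?_
          · intro s hs
            exact mem_filter.mpr ⟨mem_univ _, ((mem_dtup _ _ _).mp hs).2⟩
          · intro s _ _
            exact prod_nonneg fun a _ => gP_nonneg _ _
  calc (Bad.card : ℝ) * ((K / 2) ^ l * t ^ l) = ∑ y ∈ Bad, (K / 2) ^ l * t ^ l := by
        rw [sum_const, nsmul_eq_mul]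
    _ ≤ ∑ y ∈ Bad, ∑ s ∈ (univ.filter fun s : Fin l → AddChar G ℂ => Diss s),
          ∏ a, gP 8 y (s a) := sum_le_sum h1
    _ ≤ ∑ y : Fin m → G, ∑ s ∈ (univ.filter fun s : Fin l → AddChar G ℂ => Diss s),
          ∏ a, gP 8 y (s a) := by
        refine sum_le_sum_of_subset_of_nonneg (subset_univ _) ?_
        intro y _ _
        exact sum_nonneg fun s _ => prod_nonneg fun a _ => gP_nonneg _ _
    _ = ∑ s ∈ (univ.filter fun s : Fin l → AddChar G ℂ => Diss s),
          ∑ y : Fin m → G, ∏ a, gP 8 y (s a) := sum_comm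
    _ = ∑ s ∈ (univ.filter fun s : Fin l → AddChar G ℂ => Diss s),
          (Fintype.card G * (3 / 4 : ℝ) ^ l) ^ m := by
        refine sum_congr rfl fun s hs => ?_
        exact sum_gP (mem_filter.mp hs).2
    _ = ((univ.filter fun s : Fin l → AddChar G ℂ => Diss s).card : ℝ) *
          (Fintype.card G * (3 / 4 : ℝ) ^ l) ^ m := by
        rw [sum_const, nsmul_eq_mul]
    _ ≤ (Fintype.card G : ℝ) ^ l * (Fintype.card G * (3 / 4 : ℝ) ^ l) ^ m := by
        gcongr
        have h4 : (univ.filter fun s : Fin l → AddChar G ℂ => Diss s).card ≤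
            Fintype.card (Fin l → AddChar G ℂ) := card_le_univ _
        rw [Fintype.card_fun, Fintype.card_fin, AddChar.card_eq] at h4
        exact_mod_cast h4

end Vale.Agent.P160.Half.Flat
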