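import Vale.Agent.P160.Half.FlatC
import Vale.Agent.P160.Half.FlatG
import Vale.Agent.P160.Half.FlatF
import Vale.Agent.P160.Half.FlatL
import Vale.Agent.P160.Half.FlatD

/-! COUNT for every finite abelian group, unconditional. -/

namespace Vale.Agent.P160.Half.Flat

/-- COUNT, thresholds `T ≥ k^{-3}`. -/
theorem countG3 : C.StmtCountG3 :=
  C.stmtCountG3 Grow.stmtGrowth Spl.stmtSplit stmtLarge FlatD.stmtDyadic

/-- COUNT (helper986, note 11105). -/
theorem countG : StmtCountG := C.countG_of_countG3 countG3

end Vale.Agent.P160.Half.Flat
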