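import Vale.Agent.P160.Half.M67Stmt
import Vale.Agent.P160.Half.Good439
import Vale.Agent.P160.Half.FlatZ

/-! # P160-HALF, block (M): `StmtBadProb` from `StmtChain` and `StmtSubgroups` -/

namespace Vale.Agent.P160.Half.M67.BP914

open Finset Vale.Agent.P160 Vale.Agent.P160.Half Vale.Agent.P160.Half.Flat
  Vale.Agent.P160.Half.Good439

set_option linter.unusedVariables false

/-- seeds of the law (1/4,1/2,1/4) -/
def sd : Bool × Bool ≃ Fin 4 where
  toFun b := if b.1 then (if b.2 then 2 else 0) else (if b.2 then 1 else 3)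
  invFun i := if i = 0 then (true, false) else if i = 1 then (false, true) else
    if i = 2 then (true, true) else (false, false)
  left_inv := by decide
  right_inv := by decide

lemma st_sd (b : Bool × Bool) : st (sd b) = xi b := by
  revert b; decide

lemma dom_xi : DomL xi := by
  intro G _ _ _ a y
  have h1 : ((univ.filter fun x : Fin a → Bool × Bool => ∑ c, xi (x c) • y c = 0).card : ℝ) =
      ((univ.filter fun ω : Fin a → Fin 4 => gwalk ω y = 0).card : ℝ) := by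
    congr 1
    refine Finset.card_bij' (fun x _ => fun c => sd (x c)) (fun ω _ => fun c => sd.symm (ω c))
      ?_ ?_ ?_ ?_
    · intro x hx
      rw [mem_filter] at hx ⊢
      refine ⟨mem_univ _, ?_⟩
      calc gwalk (fun c => sd (x c)) y = ∑ c, xi (x c) • y c := by
            unfold gwalk
            exact sum_congr rfl fun c _ => by rw [st_sd]
        _ = 0 := hx.2
    · intro ω hω
      rw [mem_filter] at hω ⊢
      refine ⟨mem_univ _, ?_⟩
      calc ∑ c, xi (sd.symm (ω c)) • y c = gwalk ω y := by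
            unfold gwalk
            exact sum_congr rfl fun c _ => by rw [← st_sd, Equiv.apply_symm_apply]
        _ = 0 := hω.2
    · intro x _
      funext c
      simp
    · intro ω _
      funext c
      simp
  have h2 : gpr 4 y 0 ≤ gpr 8 y 0 :=
    gpr_le_gpr (M := 4) (M' := 8) le_rfl (by norm_num) (id : Fin a → Fin a)
      Function.injective_id y 0
  have h3 : ((univ.filter fun ω : Fin a → Fin 4 => gwalk ω y = 0).card : ℝ) =
      4 ^ a * gpr 4 y 0 := by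
    unfold gpr
    rw [Fintype.card_fin]
    push_cast
    field_simp
  have h4 : (Fintype.card (Bool × Bool) : ℝ) = 4 := by
    norm_num [Fintype.card_prod, Fintype.card_bool]
  rw [gZ_eq, h1, h3, h4]
  have h5 : (0 : ℝ) ≤ Fintype.card G := by positivity
  calc (Fintype.card G : ℝ) * (4 ^ a * gpr 4 y 0) = 4 ^ a * (Fintype.card G * gpr 4 y 0) := by ring
    _ ≤ 4 ^ a * (Fintype.card G * gpr 8 y 0) := by gcongr

/-- one group -/
lemma one_group (δ C₀ : ℝ) (hδ : 0 < δ) (hδ1 : δ ≤ 1) (hC₀ : 0 < C₀) :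
    ∃ k₀ : ℕ, ∀ k : ℕ, k₀ ≤ k → ∀ (G : Type) [AddCommGroup G] [Fintype G],
      (∀ p : ℕ, p.Prime → p ∣ Fintype.card G → k ≤ p) →
      (Fintype.card G : ℝ) * (3 / 4) ^ k ≤ Real.exp (-(1 / 100) * k) →
      ∀ S : Finset (Fin k → Fin k → Bool × Bool),
      (∀ ω ∈ S, ∃ w : Fin k → G, NonSp ((k : ℝ) ^ (1 - δ / 4)) w ∧ 1 + 1 / (k : ℝ) ≤ gZ 8 w ∧
        gZ 8 w ≤ (k : ℝ) ^ C₀ ∧ ∀ i, ∑ j, xi (ω i j) • w j = 0) →
      (S.card : ℝ) ≤ 4 ^ (k * k) * ((3 * (k : ℝ) ^ (-(1 / 2) + δ)) ^ k * ((k : ℝ) ^ C₀ + 2)) := by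
  obtain ⟨k₀, h₀⟩ := moment countG δ (1 / 100) C₀ hδ hδ1 (by norm_num) hC₀
  refine ⟨k₀, fun k hk G _ _ hp hG S hS => ?_⟩
  classical
  have hkk : (k : ℝ) ≤ 2 * k := by
    have : (0 : ℝ) ≤ k := Nat.cast_nonneg k
    linarith
  have h1 := h₀ k hk G k k le_rfl le_rfl hkk hp hG
  set NF := univ.filter (fun w : Fin k → G => NonSp ((k : ℝ) ^ (1 - δ / 4)) w ∧
        1 + 1 / (k : ℝ) ≤ gZ 8 w ∧ gZ 8 w ≤ (k : ℝ) ^ C₀) with hNF
  have h2 := sumY dom_xi (j := k) NF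
  have h4 : (Fintype.card (Bool × Bool) : ℝ) = 4 := by
    norm_num [Fintype.card_prod, Fintype.card_bool]
  rw [h4] at h2
  have hGp : (0 : ℝ) < (Fintype.card G : ℝ) ^ k := by
    have : (0 : ℝ) < Fintype.card G := by exact_mod_cast Fintype.card_pos
    positivity
  have h5 : (S.card : ℝ) ≤ ∑ Y : Fin k → Fin k → Bool × Bool, ((kerF xi Y NF).card : ℝ) := by
    calc (S.card : ℝ) = ∑ ω ∈ S, (1 : ℝ) := by simp
      _ ≤ ∑ ω ∈ S, ((kerF xi ω NF).card : ℝ) := by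
          refine sum_le_sum fun ω hω => ?_
          obtain ⟨w, w1, w2, w3, w4⟩ := hS ω hω
          have hm : w ∈ kerF xi ω NF := by
            rw [mem_kerF]
            refine ⟨?_, w4⟩
            rw [hNF, mem_filter]
            exact ⟨mem_univ _, w1, w2, w3⟩
          have : 1 ≤ (kerF xi ω NF).card := card_pos.2 ⟨w, hm⟩
          exact_mod_cast this
      _ ≤ _ := sum_le_sum_of_subset_of_nonneg (subset_univ S) fun _ _ _ => Nat.cast_nonneg _
  refine h5.trans ?_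
  refine le_of_mul_le_mul_right ?_ hGp
  refine h2.trans ?_
  refine (mul_le_mul_of_nonneg_left h1 (by positivity)).trans (le_of_eq ?_)
  ring

lemma numeric (δ C₀ : ℝ) (hδ : 0 < δ) : ∃ k₀ : ℕ, ∀ k : ℕ, k₀ ≤ k →
    4 ^ k * ((3 * (k : ℝ) ^ (-(1 / 2) + δ)) ^ k * ((k : ℝ) ^ C₀ + 2)) ≤
      (k : ℝ) ^ (-(1 / 2 - 2 * δ) * k) := by
  have h1 : ∀ᶠ k : ℕ in Filter.atTop, (48 : ℝ) ≤ (k : ℝ) ^ δ :=
    ((tendsto_rpow_atTop hδ).comp tendsto_natCast_atTop_atTop).eventually_ge_atTop 48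
  have h2 : ∀ᶠ k : ℕ in Filter.atTop, (k : ℝ) ^ C₀ + 2 ≤ 4 ^ k := by
    obtain ⟨n, hn⟩ := exists_nat_ge C₀
    have h3 : ∀ᶠ k : ℕ in Filter.atTop, ‖((k : ℝ) ^ n)‖ ≤ (1 / 2) * ‖((4 : ℝ) ^ k)‖ :=
      (isLittleO_pow_const_const_pow_of_one_lt n (by norm_num : (1 : ℝ) < 4)).def (by norm_num)
    filter_upwards [h3, Filter.eventually_ge_atTop 1] with k hk hk2
    have hkr : (1 : ℝ) ≤ k := by exact_mod_cast (by omega : 1 ≤ k)
    have h4 : (k : ℝ) ^ C₀ ≤ (k : ℝ) ^ n := by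
      rw [← Real.rpow_natCast]
      exact Real.rpow_le_rpow_of_exponent_le hkr hn
    rw [Real.norm_of_nonneg (by positivity), Real.norm_of_nonneg (by positivity)] at hk
    have h5 : (4 : ℝ) ≤ 4 ^ k := by
      calc (4 : ℝ) = 4 ^ 1 := by norm_num
        _ ≤ 4 ^ k := pow_le_pow_right₀ (by norm_num) hk2
    linarith
  obtain ⟨k₀, hk₀⟩ := Filter.eventually_atTop.1 (h1.and h2)
  refine ⟨max k₀ 1, fun k hk => ?_⟩
  obtain ⟨h3, h4⟩ := hk₀ k (le_trans (le_max_left _ _) hk)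
  have hk1 : 1 ≤ k := le_trans (le_max_right _ _) hk
  have hkr : (0 : ℝ) < k := by exact_mod_cast (by omega : 0 < k)
  have h6 : (k : ℝ) ^ (-(1 / 2 - 2 * δ) * k) = ((k : ℝ) ^ (-(1 / 2) + δ) * (k : ℝ) ^ δ) ^ k := by
    rw [Real.rpow_mul hkr.le, Real.rpow_natCast, ← Real.rpow_add hkr]
    congr 2
    ring
  rw [h6, mul_pow, mul_pow]
  set X := ((k : ℝ) ^ (-(1 / 2) + δ)) ^ k with hX
  have hX0 : 0 ≤ X := by positivity
  calc (4 : ℝ) ^ k * ((3 ^ k * X) * ((k : ℝ) ^ C₀ + 2)) ≤ 4 ^ k * ((3 ^ k * X) * 4 ^ k) := by gcongr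
    _ = X * 48 ^ k := by
        rw [show (48 : ℝ) = 4 * 3 * 4 by norm_num, mul_pow, mul_pow]
        ring
    _ ≤ X * ((k : ℝ) ^ δ) ^ k := by gcongr

lemma size_cond (k : ℕ) : (2 : ℝ) ^ ((2 : ℝ) / 5 * k) * (3 / 4) ^ k ≤ Real.exp (-(1 / 100) * k) := by
  have h0 : (0 : ℝ) ≤ (2 : ℝ) ^ ((2 : ℝ) / 5) * (3 / 4) := by positivity
  have h1 : (2 : ℝ) ^ ((2 : ℝ) / 5) * (3 / 4) ≤ Real.exp (-(1 / 100)) := by
    refine le_of_pow_le_pow_left₀ (n := 5) (by norm_num) (Real.exp_pos _).le ?_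
    rw [mul_pow, ← Real.rpow_natCast ((2 : ℝ) ^ ((2 : ℝ) / 5)) 5, ← Real.rpow_mul two_pos.le, ← Real.exp_nat_mul]
    have h2 : (2 : ℝ) / 5 * ((5 : ℕ) : ℝ) = ((2 : ℕ) : ℝ) := by norm_num
    rw [h2, Real.rpow_natCast]
    have h3 := Real.add_one_le_exp (((5 : ℕ) : ℝ) * (-(1 / 100)))
    norm_num at h3 ⊢
    linarith
  calc (2 : ℝ) ^ ((2 : ℝ) / 5 * k) * (3 / 4) ^ k = ((2 : ℝ) ^ ((2 : ℝ) / 5) * (3 / 4)) ^ k := by
        rw [Real.rpow_mul two_pos.le, Real.rpow_natCast, mul_pow]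
    _ ≤ (Real.exp (-(1 / 100))) ^ k := pow_le_pow_left₀ h0 h1 k
    _ = Real.exp (-(1 / 100) * k) := by
        rw [← Real.exp_nat_mul]
        congr 1
        ring

theorem badProb (hch : StmtChain) (hsub : StmtSubgroups) : StmtBadProb := by
  intro δ b₁ β B hδ hδ8 hb₁ hβ hβ5 hbB
  have hB : 1 ≤ B := hb₁.trans hbB
  have hC₀ : 0 < B + 1 := by linarith
  obtain ⟨k₁, h₁⟩ := one_group δ (B + 1) hδ (by linarith) hC₀
  obtain ⟨k₂, h₂⟩ := numeric δ (B + 1) hδ
  refine ⟨max (max k₁ k₂) 2, fun k hk P hP => ?_⟩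
  have hk₁ : k₁ ≤ k := ((le_max_left _ _).trans (le_max_left _ _)).trans hk
  have hk₂ : k₂ ≤ k := ((le_max_right _ _).trans (le_max_left _ _)).trans hk
  have hk2 : 2 ≤ k := (le_max_right _ _).trans hk
  have hkr2 : (2 : ℝ) ≤ k := by exact_mod_cast hk2
  have hkr1 : (1 : ℝ) ≤ k := by linarith
  classical
  set N : ℕ := ∏ p ∈ P, p with hN
  have hN0 : N ≠ 0 := by
    rw [hN]
    exact Finset.prod_ne_zero_iff.2 fun p hp => (hP.pr p hp).ne_zero
  have : NeZero N := ⟨hN0⟩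
  have hNle : (N : ℝ) ≤ (2 : ℝ) ^ (β * k) := by
    rw [hN]
    push_cast
    exact hP.size
  -- the primes dividing a divisor of `N * N`
  have hprime : ∀ (n : ℕ), n ∣ N * N → ∀ q : ℕ, q.Prime → q ∣ n → q ∈ P := by
    intro n hn q hq hqn
    have h1 : q ∣ N := by
      rcases (Nat.Prime.dvd_mul hq).1 (hqn.trans hn) with h | h <;> exact h
    rw [hN] at h1
    obtain ⟨p, hp, hqp⟩ := (Prime.dvd_finsetProd_iff hq.prime _).1 h1
    rwa [(Nat.prime_dvd_prime_iff_eq hq (hP.pr p hp)).1 hqp]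
  -- index set
  have : Finite (AddSubgroup (ZMod N × ZMod N)) := inferInstance
  have hfS : ∀ H : AddSubgroup (ZMod N × ZMod N), Fintype (AddSubgroup H) := fun H => Fintype.ofFinite _
  have : Fintype (AddSubgroup (ZMod N × ZMod N)) := Fintype.ofFinite _
  have hfq : ∀ (H : AddSubgroup (ZMod N × ZMod N)) (K : AddSubgroup H), Fintype (H ⧸ K) :=
    fun H K => Fintype.ofFinite _
  have hcardHK : ∀ (H : AddSubgroup (ZMod N × ZMod N)) (K : AddSubgroup H),
      Fintype.card (H ⧸ K) ∣ N * N := by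
    intro H K
    have h1 : Nat.card (H ⧸ K) ∣ Nat.card H := AddSubgroup.card_quotient_dvd_card K
    have h2 : Nat.card H ∣ Nat.card (ZMod N × ZMod N) := AddSubgroup.card_addSubgroup_dvd_card H
    rw [Nat.card_prod, Nat.card_zmod] at h2
    rw [← Nat.card_eq_fintype_card]
    exact h1.trans h2
  let Bd : (Σ H : AddSubgroup (ZMod N × ZMod N), AddSubgroup H) → Finset (Fin k → Fin k → Bool × Bool) :=
    fun HK => univ.filter fun ω => ∃ w : Fin k → (HK.1 ⧸ HK.2), NonSp ((k : ℝ) ^ (1 - δ / 4)) w ∧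
      1 + 1 / (k : ℝ) ≤ gZ 8 w ∧ gZ 8 w ≤ (k : ℝ) ^ (B + 1) ∧ ∀ i, ∑ j, xi (ω i j) • w j = 0
  have hBd : ∀ HK, ((Bd HK).card : ℝ) ≤
      4 ^ (k * k) * ((3 * (k : ℝ) ^ (-(1 / 2) + δ)) ^ k * ((k : ℝ) ^ (B + 1) + 2)) := by
    rintro ⟨H, K⟩
    refine h₁ k hk₁ (H ⧸ K) ?_ ?_ (Bd ⟨H, K⟩) fun ω hω => ?_
    · intro q hq hqd
      have h3 := hP.lo q (hprime _ (hcardHK H K) q hq hqd)
      have h4 : (k : ℝ) ≤ (k : ℝ) ^ b₁ := by
        calc (k : ℝ) = (k : ℝ) ^ (1 : ℝ) := (Real.rpow_one _).symm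
          _ ≤ (k : ℝ) ^ b₁ := Real.rpow_le_rpow_of_exponent_le hkr1 hb₁
      exact_mod_cast h4.trans h3
    · have h3 : Fintype.card (H ⧸ K) ≤ N * N := Nat.le_of_dvd (by positivity) (hcardHK H K)
      have h4 : (Fintype.card (H ⧸ K) : ℝ) ≤ (N : ℝ) * N := by exact_mod_cast h3
      have h5 : (N : ℝ) * N ≤ (2 : ℝ) ^ ((2 : ℝ) / 5 * k) := by
        calc (N : ℝ) * N ≤ (2 : ℝ) ^ (β * k) * (2 : ℝ) ^ (β * k) :=
              mul_le_mul hNle hNle (by positivity) (by positivity)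
          _ = (2 : ℝ) ^ (β * k + β * k) := (Real.rpow_add two_pos _ _).symm
          _ ≤ _ := by
              refine Real.rpow_le_rpow_of_exponent_le one_le_two ?_
              nlinarith
      calc (Fintype.card (H ⧸ K) : ℝ) * (3 / 4) ^ k ≤ (2 : ℝ) ^ ((2 : ℝ) / 5 * k) * (3 / 4) ^ k := by
            refine mul_le_mul_of_nonneg_right (h4.trans h5) (by positivity)
        _ ≤ _ := size_cond k
    · exact (mem_filter.1 hω).2
  -- covering
  set S : Finset (Fin k → Fin k → Bool × Bool) :=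
    univ.filter fun ω => Bad P ((k : ℝ) ^ (1 - δ / 4)) (mt xi ω) with hS
  have hcov : S ⊆ univ.biUnion Bd := by
    intro ω hω
    rw [hS, mem_filter] at hω
    obtain ⟨_, hz0, z, hzk, hz1, hz2⟩ := hω
    -- the subgroup
    set H := AddSubgroup.closure (Set.range z) with hH
    have hQ : ∀ p : ℕ, p.Prime → p ∣ Fintype.card H → (p : ℝ) ≤ (k : ℝ) ^ B := by
      intro p hp hpd
      have h2 : Nat.card H ∣ Nat.card (ZMod N × ZMod N) := AddSubgroup.card_addSubgroup_dvd_card H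
      rw [Nat.card_prod, Nat.card_zmod, Nat.card_eq_fintype_card] at h2
      exact hP.hi p (hprime _ h2 p hp hpd)
    have h3 : (0 : ℝ) ≤ 1 / (k : ℝ) := by positivity
    have hz2' : 1 + 1 / (k : ℝ) < gZ 8 (toCl z) := by
      convert hz2
    obtain ⟨K, hK⟩ := hch H k (toCl z) (1 / k) ((k : ℝ) ^ B) h3 hQ
      (Real.one_le_rpow hkr1 (by linarith)) hz2'
    obtain ⟨hK1, hK2⟩ := hK (hfq H K)
    rw [mem_biUnion]
    refine ⟨⟨H, K⟩, mem_univ _, ?_⟩
    rw [mem_filter]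
    refine ⟨mem_univ _, fun j => (QuotientAddGroup.mk (toCl z j) : H ⧸ K), ?_, hK1.le, ?_, ?_⟩
    · exact NonSp.map hz1 (QuotientAddGroup.mk' K) (QuotientAddGroup.mk'_surjective K)
    · refine hK2.trans ?_
      have h4 : 1 + 1 / (k : ℝ) ≤ k := by
        have : 1 / (k : ℝ) ≤ 1 := by
          rw [div_le_one (by linarith)]
          exact hkr1
        linarith
      calc (1 + 1 / (k : ℝ)) * (k : ℝ) ^ B ≤ k * (k : ℝ) ^ B :=
            mul_le_mul_of_nonneg_right h4 (by positivity)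
        _ = (k : ℝ) ^ (B + 1) := by
            rw [Real.rpow_add (by linarith), Real.rpow_one]
            ring
    · intro i
      have h4 : ∑ j, xi (ω i j) • toCl z j = 0 := by
        apply Subtype.ext
        rw [AddSubgroup.val_finsetSum]
        exact hzk i
      have h5 := congrArg (QuotientAddGroup.mk' K) h4
      rw [map_sum, map_zero] at h5
      rw [← h5]
      exact sum_congr rfl fun j _ => (map_zsmul (QuotientAddGroup.mk' K) _ _).symm
  -- number of pairs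
  have hpairs : (Fintype.card (Σ H : AddSubgroup (ZMod N × ZMod N), AddSubgroup H) : ℝ) ≤ 4 ^ k := by
    have h1 : ∀ H : AddSubgroup (ZMod N × ZMod N), Fintype.card (AddSubgroup H) ≤ N ^ 3 := by
      intro H
      have h2 : Nat.card (AddSubgroup H) ≤ Nat.card (AddSubgroup (ZMod N × ZMod N)) :=
        Nat.card_le_card_of_injective (fun K => K.map H.subtype)
          (AddSubgroup.map_injective H.subtype_injective)
      rw [← Nat.card_eq_fintype_card]
      exact h2.trans (hsub N)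
    have h3 : Fintype.card (Σ H : AddSubgroup (ZMod N × ZMod N), AddSubgroup H) ≤ N ^ 3 * N ^ 3 := by
      rw [Fintype.card_sigma]
      calc ∑ H : AddSubgroup (ZMod N × ZMod N), Fintype.card (AddSubgroup H)
          ≤ ∑ _H : AddSubgroup (ZMod N × ZMod N), N ^ 3 := sum_le_sum fun H _ => h1 H
        _ = Fintype.card (AddSubgroup (ZMod N × ZMod N)) * N ^ 3 := by
            rw [sum_const, card_univ, smul_eq_mul]
        _ ≤ N ^ 3 * N ^ 3 := by
            refine Nat.mul_le_mul_right _ ?_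
            rw [← Nat.card_eq_fintype_card]
            exact hsub N
    have h4 : (Fintype.card (Σ H : AddSubgroup (ZMod N × ZMod N), AddSubgroup H) : ℝ) ≤
        ((N : ℝ)) ^ 6 := by
      have : ((N : ℝ)) ^ 6 = ((N ^ 3 * N ^ 3 : ℕ) : ℝ) := by
        push_cast
        ring
      rw [this]
      exact_mod_cast h3
    refine h4.trans ?_
    calc (N : ℝ) ^ 6 ≤ ((2 : ℝ) ^ (β * k)) ^ 6 := pow_le_pow_left₀ (by positivity) hNle 6
      _ = (2 : ℝ) ^ (β * k * 6) := by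
          rw [Real.rpow_mul two_pos.le (β * k) 6]
          norm_cast
      _ ≤ (2 : ℝ) ^ (2 * k : ℝ) := by
          refine Real.rpow_le_rpow_of_exponent_le one_le_two ?_
          nlinarith
      _ = 4 ^ k := by
          rw [Real.rpow_mul two_pos.le, Real.rpow_natCast]
          norm_num
  have hcard : (Nat.card {ω : Fin k → Fin k → Bool × Bool //
      Bad P ((k : ℝ) ^ (1 - δ / 4)) (mt xi ω)} : ℝ) = S.card := by
    rw [Nat.card_eq_fintype_card, Fintype.card_subtype]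
  rw [hcard]
  calc (S.card : ℝ) ≤ ((univ.biUnion Bd).card : ℝ) := by exact_mod_cast card_le_card hcov
    _ ≤ ((∑ HK, (Bd HK).card : ℕ) : ℝ) := by exact_mod_cast card_biUnion_le
    _ = ∑ HK, ((Bd HK).card : ℝ) := by push_cast; rfl
    _ ≤ ∑ _HK : (Σ H : AddSubgroup (ZMod N × ZMod N), AddSubgroup H),
        4 ^ (k * k) * ((3 * (k : ℝ) ^ (-(1 / 2) + δ)) ^ k * ((k : ℝ) ^ (B + 1) + 2)) :=
        sum_le_sum fun HK _ => hBd HK
    _ = (Fintype.card (Σ H : AddSubgroup (ZMod N × ZMod N), AddSubgroup H) : ℝ) *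
        (4 ^ (k * k) * ((3 * (k : ℝ) ^ (-(1 / 2) + δ)) ^ k * ((k : ℝ) ^ (B + 1) + 2))) := by
        rw [sum_const, card_univ, nsmul_eq_mul]
    _ ≤ 4 ^ k * (4 ^ (k * k) * ((3 * (k : ℝ) ^ (-(1 / 2) + δ)) ^ k * ((k : ℝ) ^ (B + 1) + 2))) :=
        mul_le_mul_of_nonneg_right hpairs (by positivity)
    _ = (4 ^ k * ((3 * (k : ℝ) ^ (-(1 / 2) + δ)) ^ k * ((k : ℝ) ^ (B + 1) + 2))) * 4 ^ (k * k) := by
        ring
    _ ≤ _ := mul_le_mul_of_nonneg_right (h₂ k hk₂) (by positivity)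

end Vale.Agent.P160.Half.M67.BP914
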