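import Vale.Agent.P160.Half.GStmt

/-! # P160, half rate: service file (helper525): averaging over the random block `S × (Sᶜ ⊕ β)` -/

open Finset Matrix

set_option linter.unusedSectionVars false

namespace Vale.Agent.P160.Half.G.Blk

/-- fibre averaging -/
theorem card_fiber {X Y : Type*} [Fintype X] [Fintype Y] (upd : X → Y → X) (ext : X → Y)
    (h1 : ∀ c x, ext (upd c x) = x) (h2 : ∀ c x x', upd (upd c x) x' = upd c x') (h3 : ∀ c, upd c (ext c) = c)
    (Q : X → Prop) (B : ℝ) (hB : ∀ c, (Nat.card {x // Q (upd c x)} : ℝ) ≤ B) :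
    (Nat.card {c // Q c} : ℝ) * Fintype.card Y ≤ B * Fintype.card X := by
  classical
  let e : X × Y ≃ X × Y :=
    { toFun := fun p => (upd p.1 p.2, ext p.1)
      invFun := fun p => (upd p.1 p.2, ext p.1)
      left_inv := fun p => by
        rcases p with ⟨c, x⟩
        simp only [h2, h3, h1]
      right_inv := fun p => by
        rcases p with ⟨c, x⟩
        simp only [h2, h3, h1] }
  have e1 : {p : X × Y // Q (upd p.1 p.2)} ≃ {p : X × Y // Q p.1} :=
    e.subtypeEquiv fun p => Iff.rfl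
  have e2 : {p : X × Y // Q p.1} ≃ {c // Q c} × Y :=
    { toFun := fun p => (⟨p.1.1, p.2⟩, p.1.2)
      invFun := fun p => ⟨(p.1.1, p.2), p.1.2⟩
      left_inv := fun p => rfl
      right_inv := fun p => rfl }
  have e3 : {p : X × Y // Q (upd p.1 p.2)} ≃ (c : X) × {x // Q (upd c x)} :=
    { toFun := fun p => ⟨p.1.1, ⟨p.1.2, p.2⟩⟩
      invFun := fun p => ⟨(p.1, p.2.1), p.2.2⟩
      left_inv := fun p => rfl
      right_inv := fun p => rfl }
  have h4 : Nat.card ({c // Q c} × Y) = Nat.card ((c : X) × {x // Q (upd c x)}) :=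
    Nat.card_congr ((e1.trans e2).symm.trans e3)
  rw [Nat.card_prod, Nat.card_eq_fintype_card (α := Y), Nat.card_sigma] at h4
  have h5 : (Nat.card {c // Q c} : ℝ) * Fintype.card Y = ∑ c : X, (Nat.card {x // Q (upd c x)} : ℝ) := by
    exact_mod_cast h4
  rw [h5]
  refine (Finset.sum_le_sum fun c _ => hB c).trans ?_
  rw [Finset.sum_const, Finset.card_univ, nsmul_eq_mul, mul_comm]

section blk

variable {α β : Type} [Fintype α] [Fintype β] [DecidableEq α] [DecidableEq β] (S : Finset α)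

/-- the bits of the block `S × (Sᶜ ⊕ β)` -/
def ext (c : (Sym2 α → Bool) × (α → β → Bool)) : S → (↥(Sᶜ) ⊕ β) → Bool :=
  fun s v => Sum.elim (fun t : ↥(Sᶜ) => c.1 s((s : α), (t : α))) (fun j => c.2 s j) v

open Classical in
/-- replace the bits of the block `S × (Sᶜ ⊕ β)` -/
noncomputable def upd (c : (Sym2 α → Bool) × (α → β → Bool)) (x : S → (↥(Sᶜ) ⊕ β) → Bool) :
    (Sym2 α → Bool) × (α → β → Bool) :=
  (fun e => if h : ∃ u : S × ↥(Sᶜ), e = s((u.1 : α), (u.2 : α)) then x h.choose.1 (Sum.inl h.choose.2) else c.1 e,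
   fun i j => if h : i ∈ S then x ⟨i, h⟩ (Sum.inr j) else c.2 i j)

theorem uniq {u v : S × ↥(Sᶜ)} (h : s((u.1 : α), (u.2 : α)) = s((v.1 : α), (v.2 : α))) : u = v := by
  rcases Sym2.eq_iff.1 h with ⟨h1, h2⟩ | ⟨h1, h2⟩
  · exact Prod.ext (Subtype.ext h1) (Subtype.ext h2)
  · exfalso
    have h3 := v.2.2
    rw [← h1] at h3
    exact (Finset.mem_compl.1 h3) u.1.2

theorem upd_fst_cross (c : (Sym2 α → Bool) × (α → β → Bool)) (x : S → (↥(Sᶜ) ⊕ β) → Bool) (s : S) (t : ↥(Sᶜ)) :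
    (upd S c x).1 s((s : α), (t : α)) = x s (Sum.inl t) := by
  have h : ∃ u : S × ↥(Sᶜ), s((s : α), (t : α)) = s((u.1 : α), (u.2 : α)) := ⟨(s, t), rfl⟩
  unfold upd
  simp only
  rw [dif_pos h]
  have h1 : h.choose = (s, t) := (uniq S h.choose_spec).symm
  rw [h1]

theorem upd_fst_other (c : (Sym2 α → Bool) × (α → β → Bool)) (x : S → (↥(Sᶜ) ⊕ β) → Bool) (e : Sym2 α)
    (h : ¬ ∃ u : S × ↥(Sᶜ), e = s((u.1 : α), (u.2 : α))) : (upd S c x).1 e = c.1 e := by
  unfold upd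
  simp only
  rw [dif_neg h]

theorem upd_snd_mem (c : (Sym2 α → Bool) × (α → β → Bool)) (x : S → (↥(Sᶜ) ⊕ β) → Bool) (s : S) (j : β) :
    (upd S c x).2 s j = x s (Sum.inr j) := by
  unfold upd
  simp only
  rw [dif_pos s.2]

theorem upd_snd_not (c : (Sym2 α → Bool) × (α → β → Bool)) (x : S → (↥(Sᶜ) ⊕ β) → Bool) (i : α) (hi : i ∉ S) (j : β) :
    (upd S c x).2 i j = c.2 i j := by
  unfold upd
  simp only
  rw [dif_neg hi]

theorem ext_upd (c : (Sym2 α → Bool) × (α → β → Bool)) (x : S → (↥(Sᶜ) ⊕ β) → Bool) : ext S (upd S c x) = x := by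
  funext s v
  cases v with
  | inl t => exact upd_fst_cross S c x s t
  | inr j => exact upd_snd_mem S c x s j

theorem upd_upd (c : (Sym2 α → Bool) × (α → β → Bool)) (x x' : S → (↥(Sᶜ) ⊕ β) → Bool) :
    upd S (upd S c x) x' = upd S c x' := by
  refine Prod.ext ?_ ?_
  · funext e
    by_cases h : ∃ u : S × ↥(Sᶜ), e = s((u.1 : α), (u.2 : α))
    · obtain ⟨u, rfl⟩ := h
      rw [upd_fst_cross, upd_fst_cross]
    · rw [upd_fst_other S _ _ _ h, upd_fst_other S _ _ _ h, upd_fst_other S _ _ _ h]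
  · funext i j
    by_cases hi : i ∈ S
    · have h1 := upd_snd_mem S (upd S c x) x' ⟨i, hi⟩ j
      have h2 := upd_snd_mem S c x' ⟨i, hi⟩ j
      exact h1.trans h2.symm
    · rw [upd_snd_not S _ _ _ hi, upd_snd_not S _ _ _ hi, upd_snd_not S _ _ _ hi]

theorem upd_ext (c : (Sym2 α → Bool) × (α → β → Bool)) : upd S c (ext S c) = c := by
  refine Prod.ext ?_ ?_
  · funext e
    by_cases h : ∃ u : S × ↥(Sᶜ), e = s((u.1 : α), (u.2 : α))
    · obtain ⟨u, rfl⟩ := h
      rw [upd_fst_cross]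
      rfl
    · rw [upd_fst_other S _ _ _ h]
  · funext i j
    by_cases hi : i ∈ S
    · exact upd_snd_mem S c (ext S c) ⟨i, hi⟩ j
    · rw [upd_snd_not S _ _ _ hi]

/-- **averaging over the block** `S × (Sᶜ ⊕ β)` -/
theorem card_block (Q : (Sym2 α → Bool) × (α → β → Bool) → Prop) (B : ℝ)
    (hB : ∀ c, (Nat.card {x : S → (↥(Sᶜ) ⊕ β) → Bool // Q (upd S c x)} : ℝ) ≤
      B * 2 ^ (Fintype.card (↥(Sᶜ) ⊕ β) * Fintype.card S)) :
    (Nat.card {c // Q c} : ℝ) ≤ B * 2 ^ (Fintype.card (Sym2 α) + Fintype.card α * Fintype.card β) := by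
  have h := card_fiber (upd S) (ext S) (ext_upd S) (upd_upd S) (upd_ext S) Q _ hB
  have h1 : Fintype.card (S → (↥(Sᶜ) ⊕ β) → Bool) = 2 ^ (Fintype.card (↥(Sᶜ) ⊕ β) * Fintype.card S) := by
    rw [Fintype.card_fun, Fintype.card_fun, Fintype.card_bool, ← pow_mul]
  have h2 : Fintype.card ((Sym2 α → Bool) × (α → β → Bool)) =
      2 ^ (Fintype.card (Sym2 α) + Fintype.card α * Fintype.card β) := by
    rw [Fintype.card_prod, Fintype.card_fun, Fintype.card_fun, Fintype.card_fun, Fintype.card_bool, ← pow_mul, ← pow_add,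
      mul_comm (Fintype.card β)]
  rw [h1, h2] at h
  push_cast at h
  have h3 : (0 : ℝ) < 2 ^ (Fintype.card (↥(Sᶜ) ⊕ β) * Fintype.card S) := by positivity
  refine le_of_mul_le_mul_right ?_ h3
  calc _ ≤ _ := h
    _ = _ := by ring

end blk

end Vale.Agent.P160.Half.G.Blk
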