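import Vale.Agent.P160.Half.M67Stmt

/-! # P160/Half: leaf (9b) of `M67Stmt`: the weight counts kernel tuples -/

namespace Vale.Agent.P160.Half.CRT296

open Finset Vale.Agent.P160 Vale.Agent.P160.Half Vale.Agent.P160.Half.M67

/-- number of kernel tuples with values in `G` -/
noncomputable def Kc (G : Type*) [AddCommGroup G] {k : ℕ} (M : Matrix (Fin k) (Fin k) ℤ) : ℕ :=
  Nat.card {x : Fin k → G // ∀ i, ∑ j, M i j • x j = 0}

lemma Kc_congr {G H : Type*} [AddCommGroup G] [AddCommGroup H] (e : G ≃+ H) {k : ℕ}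
    (M : Matrix (Fin k) (Fin k) ℤ) : Kc G M = Kc H M := by
  unfold Kc
  refine Nat.card_congr (Equiv.subtypeEquiv (Equiv.piCongrRight fun _ => e.toEquiv) ?_)
  intro x
  refine forall_congr' fun i => ?_
  have h : ∑ j, M i j • (Equiv.piCongrRight fun _ => e.toEquiv) x j = e (∑ j, M i j • x j) := by
    rw [map_sum]
    refine sum_congr rfl fun j _ => ?_
    rw [map_zsmul]
    rfl
  rw [h]
  exact (AddEquiv.map_eq_zero_iff e).symm

lemma Kc_prod {G H : Type*} [AddCommGroup G] [AddCommGroup H] {k : ℕ}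
    (M : Matrix (Fin k) (Fin k) ℤ) : Kc (G × H) M = Kc G M * Kc H M := by
  unfold Kc
  rw [← Nat.card_prod]
  refine Nat.card_congr
    { toFun := fun x => (⟨fun j => (x.1 j).1, fun i => ?_⟩, ⟨fun j => (x.1 j).2, fun i => ?_⟩)
      invFun := fun x => ⟨fun j => (x.1.1 j, x.2.1 j), fun i => ?_⟩
      left_inv := fun x => rfl
      right_inv := fun x => rfl }
  · have h := congrArg Prod.fst (x.2 i)
    rw [Prod.fst_sum] at h
    simpa using h
  · have h := congrArg Prod.snd (x.2 i)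
    rw [Prod.snd_sum] at h
    simpa using h
  · apply Prod.ext
    · rw [Prod.fst_sum]
      simpa using x.1.2 i
    · rw [Prod.snd_sum]
      simpa using x.2.2 i

lemma Kc_one {k : ℕ} (M : Matrix (Fin k) (Fin k) ℤ) : Kc (ZMod 1) M = 1 := by
  unfold Kc
  have : Subsingleton (Fin k → ZMod 1) := inferInstance
  rw [Nat.card_eq_one_iff_unique]
  refine ⟨inferInstance, ⟨⟨0, fun i => Subsingleton.elim _ _⟩⟩⟩

lemma Kc_prime {p : ℕ} (hp : p.Prime) {k : ℕ} (M : Matrix (Fin k) (Fin k) ℤ) :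
    Kc (ZMod p) M = p ^ (k - rkp p M) := by
  have : Fact p.Prime := ⟨hp⟩
  set A := M.map (Int.cast : ℤ → ZMod p) with hA
  have h1 : Kc (ZMod p) M = Nat.card (LinearMap.ker A.mulVecLin) := by
    unfold Kc
    refine Nat.card_congr (Equiv.subtypeEquiv (Equiv.refl _) ?_)
    intro x
    rw [LinearMap.mem_ker]
    simp only [Equiv.refl_apply, Matrix.mulVecLin_apply, funext_iff]
    refine forall_congr' fun i => ?_
    have h : ∑ j, M i j • x j = A.mulVec x i := by
      simp only [Matrix.mulVec, dotProduct, hA, Matrix.map_apply, zsmul_eq_mul]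
    rw [h]
    rfl
  have h2 : A.rank + Module.finrank (ZMod p) (LinearMap.ker A.mulVecLin) = k := by
    have h1 := LinearMap.finrank_range_add_finrank_ker A.mulVecLin
    rw [Module.finrank_fintype_fun_eq_card, Fintype.card_fin] at h1
    exact h1
  rw [h1, Module.natCard_eq_pow_finrank (K := ZMod p), Nat.card_zmod]
  have h3 : rkp p M = A.rank := rfl
  rw [h3]
  congr 1
  omega

lemma Kc_mul {a b : ℕ} (h : a.Coprime b) {k : ℕ} (M : Matrix (Fin k) (Fin k) ℤ) :
    Kc (ZMod (a * b)) M = Kc (ZMod a) M * Kc (ZMod b) M := by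
  rw [← Kc_prod]
  exact Kc_congr (ZMod.chineseRemainder h).toAddEquiv M

lemma W_eq (P : Finset ℕ) (hP : ∀ p ∈ P, p.Prime) {k : ℕ} (M : Matrix (Fin k) (Fin k) ℤ) :
    W P M = (Kc (ZMod (∏ p ∈ P, p)) M : ℝ) ^ 2 := by
  induction P using Finset.induction_on with
  | empty =>
    unfold W
    rw [prod_empty, prod_empty, Kc_one]
    norm_num
  | insert q P hq ih =>
    have hP' : ∀ p ∈ P, p.Prime := fun p hp => hP p (mem_insert_of_mem hp)
    have hqp : q.Prime := hP q (mem_insert_self _ _)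
    have hco : q.Coprime (∏ p ∈ P, p) := by
      apply Nat.Coprime.prod_right
      intro p hp
      rw [Nat.coprime_primes hqp (hP' p hp)]
      rintro rfl
      exact hq hp
    have h1 := ih hP'
    unfold W at h1 ⊢
    rw [prod_insert hq, prod_insert hq, Kc_mul hco, Kc_prime hqp, h1]
    push_cast
    ring

/-- **(9b)** -/
theorem crt : StmtCRT := by
  intro k P hP M
  have h1 := W_eq P hP M
  refine ⟨h1, ?_⟩
  rw [h1]
  have h2 := Kc_prod (G := ZMod (∏ p ∈ P, p)) (H := ZMod (∏ p ∈ P, p)) M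
  have h3 : (Kc (ZMod (∏ p ∈ P, p)) M : ℝ) ^ 2 =
      (Kc (ZMod (∏ p ∈ P, p) × ZMod (∏ p ∈ P, p)) M : ℝ) := by
    rw [h2]
    push_cast
    ring
  exact h3

end Vale.Agent.P160.Half.CRT296
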