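import Vale.Agent.P160.Half.M67Stmt

/-! # P160, half rate, M67 (9b): the weight counts kernel tuples (helper330) -/

namespace Vale.Agent.P160.Half.CRT330

open Finset Vale.Agent.P160 Vale.Agent.P160.Half Vale.Agent.P160.Half.M67

/-- kernel vectors modulo a prime -/
theorem card_ker_prime {k : ℕ} (p : ℕ) (hp : p.Prime) (M : Matrix (Fin k) (Fin k) ℤ) :
    Nat.card {x : Fin k → ZMod p // ∀ i, ∑ j, M i j • x j = 0} = p ^ (k - rkp p M) := by
  classical
  have := Fact.mk hp
  set A : Matrix (Fin k) (Fin k) (ZMod p) := M.map (Int.cast : ℤ → ZMod p) with hA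
  have h1 : Nat.card {x : Fin k → ZMod p // ∀ i, ∑ j, M i j • x j = 0} =
      Nat.card (LinearMap.ker A.mulVecLin) := by
    refine Nat.card_congr (Equiv.subtypeEquivRight fun x => ?_)
    rw [LinearMap.mem_ker, Matrix.mulVecLin_apply, funext_iff]
    refine forall_congr' fun i => ?_
    simp only [Matrix.mulVec, dotProduct, hA, Matrix.map_apply, Pi.zero_apply, zsmul_eq_mul]
  rw [h1, Module.natCard_eq_pow_finrank (K := ZMod p), Nat.card_zmod]
  congr 1
  have h2 := LinearMap.finrank_range_add_finrank_ker A.mulVecLin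
  rw [Module.finrank_pi, Fintype.card_fin] at h2
  have h3 : rkp p M = Module.finrank (ZMod p) (LinearMap.range A.mulVecLin) := rfl
  omega

/-- Chinese remainder for kernel vectors -/
theorem card_ker_prod {k : ℕ} (P : Finset ℕ) (hP : ∀ p ∈ P, p.Prime)
    (M : Matrix (Fin k) (Fin k) ℤ) (N : ℕ) (hN : N = ∏ p : P, (p : ℕ)) :
    Nat.card {x : Fin k → ZMod N // ∀ i, ∑ j, M i j • x j = 0} =
      ∏ p ∈ P, p ^ (k - rkp p M) := by
  classical
  subst hN
  have hco : Pairwise (Function.onFun Nat.Coprime fun p : P => (p : ℕ)) := by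
    intro p q hpq
    exact (Nat.coprime_primes (hP _ p.2) (hP _ q.2)).2 fun h => hpq (Subtype.ext h)
  let e : ZMod (∏ p : P, (p : ℕ)) ≃+* ((p : P) → ZMod (p : ℕ)) := ZMod.prodEquivPi (fun p : P => (p : ℕ)) hco
  let E : {x : Fin k → ZMod (∏ p : P, (p : ℕ)) // ∀ i, ∑ j, M i j • x j = 0} ≃
      ((p : P) → {x : Fin k → ZMod (p : ℕ) // ∀ i, ∑ j, M i j • x j = 0}) :=
    { toFun := fun x p => ⟨fun j => e (x.1 j) p, fun i => by
        have h := congrFun (congrArg e (x.2 i)) p
        rw [map_sum, map_zero, Finset.sum_apply] at h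
        simpa only [map_zsmul, Pi.smul_apply, Pi.zero_apply] using h⟩
      invFun := fun y => ⟨fun j => e.symm fun p => (y p).1 j, fun i => by
        apply e.injective
        funext p
        rw [map_sum, map_zero, Finset.sum_apply]
        simpa only [map_zsmul, Pi.smul_apply, Pi.zero_apply, RingEquiv.apply_symm_apply] using (y p).2 i⟩
      left_inv := fun x => by
        apply Subtype.ext
        funext j
        exact e.symm_apply_apply (x.1 j)
      right_inv := fun y => by
        funext p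
        apply Subtype.ext
        funext j
        exact congrFun (e.apply_symm_apply fun p => (y p).1 j) p }
  rw [Nat.card_congr E, Nat.card_pi, ← Finset.prod_coe_sort P fun p => p ^ (k - rkp p M)]
  exact Finset.prod_congr rfl fun p _ => card_ker_prime p (hP _ p.2) M

theorem stmtCRT : StmtCRT := by
  intro k P hP M
  have h0 := card_ker_prod P hP M (∏ p ∈ P, p) (Finset.prod_coe_sort P fun p => p).symm
  have hW : W P M = (Nat.card {x : Fin k → ZMod (∏ p ∈ P, p) // ∀ i, ∑ j, M i j • x j = 0} : ℝ) ^ 2 := by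
    rw [h0, W]
    push_cast
    rw [← Finset.prod_pow]
    refine Finset.prod_congr rfl fun p _ => ?_
    rw [← pow_mul, mul_comm 2]
  refine ⟨hW, ?_⟩
  have h1 : Nat.card {z : Fin k → ZMod (∏ p ∈ P, p) × ZMod (∏ p ∈ P, p) // ∀ i, ∑ j, M i j • z j = 0} =
      Nat.card {x : Fin k → ZMod (∏ p ∈ P, p) // ∀ i, ∑ j, M i j • x j = 0} *
      Nat.card {x : Fin k → ZMod (∏ p ∈ P, p) // ∀ i, ∑ j, M i j • x j = 0} := by
    rw [← Nat.card_prod]
    refine Nat.card_congr
      { toFun := fun z => ⟨⟨fun j => (z.1 j).1, fun i => ?_⟩, ⟨fun j => (z.1 j).2, fun i => ?_⟩⟩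
        invFun := fun y => ⟨fun j => (y.1.1 j, y.2.1 j), fun i => ?_⟩
        left_inv := fun z => rfl
        right_inv := fun y => rfl }
    · have h := congrArg Prod.fst (z.2 i)
      rw [Prod.fst_sum] at h
      simpa only [Prod.smul_fst, Prod.fst_zero] using h
    · have h := congrArg Prod.snd (z.2 i)
      rw [Prod.snd_sum] at h
      simpa only [Prod.smul_snd, Prod.snd_zero] using h
    · apply Prod.ext
      · rw [Prod.fst_sum]
        simpa only [Prod.smul_fst, Prod.fst_zero] using y.1.2 i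
      · rw [Prod.snd_sum]
        simpa only [Prod.smul_snd, Prod.snd_zero] using y.2.2 i
  rw [h1, hW]
  push_cast
  ring

end Vale.Agent.P160.Half.CRT330
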