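import Vale.Agent.P160.Half.M67Stmt
import Vale.Agent.P160.Rank

/-! # P160, leaf (9b) of `M67Stmt`: the weight counts kernel tuples -/

namespace Vale.Agent.P160.Half.M67

open Finset Vale.Agent.P160 Vale.Agent.P160.Half Vale.Agent.P160.Half.Flat

namespace CRT653

/-- kernel tuples over an additive group -/
def Ker (G : Type) [AddCommGroup G] {k : ℕ} (M : Matrix (Fin k) (Fin k) ℤ) : Type :=
  {x : Fin k → G // ∀ i, ∑ j, M i j • x j = 0}

def kerCongr {G H : Type} [AddCommGroup G] [AddCommGroup H] (e : G ≃+ H) {k : ℕ}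
    (M : Matrix (Fin k) (Fin k) ℤ) : Ker G M ≃ Ker H M where
  toFun x := ⟨fun j => e (x.1 j), fun i => by
    have h := congrArg e (x.2 i)
    rw [map_sum, map_zero] at h
    simpa only [map_zsmul] using h⟩
  invFun x := ⟨fun j => e.symm (x.1 j), fun i => by
    have h := congrArg e.symm (x.2 i)
    rw [map_sum, map_zero] at h
    simpa only [map_zsmul] using h⟩
  left_inv x := Subtype.ext (funext fun j => e.symm_apply_apply _)
  right_inv x := Subtype.ext (funext fun j => e.apply_symm_apply _)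

def kerPi {ι : Type} (G : ι → Type) [∀ i, AddCommGroup (G i)] {k : ℕ}
    (M : Matrix (Fin k) (Fin k) ℤ) : Ker (∀ i, G i) M ≃ ∀ i, Ker (G i) M where
  toFun x := fun a => ⟨fun j => x.1 j a, fun i => by
    have h := congrFun (x.2 i) a
    simpa using h⟩
  invFun x := ⟨fun j a => (x a).1 j, fun i => by
    funext a
    have h := (x a).2 i
    simpa using h⟩
  left_inv _ := rfl
  right_inv _ := rfl

def kerProd (G H : Type) [AddCommGroup G] [AddCommGroup H] {k : ℕ}
    (M : Matrix (Fin k) (Fin k) ℤ) : Ker (G × H) M ≃ Ker G M × Ker H M where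
  toFun x := (⟨fun j => (x.1 j).1, fun i => by
    have h := congrArg Prod.fst (x.2 i)
    simpa [Prod.fst_sum] using h⟩, ⟨fun j => (x.1 j).2, fun i => by
    have h := congrArg Prod.snd (x.2 i)
    simpa [Prod.snd_sum] using h⟩)
  invFun x := ⟨fun j => (x.1.1 j, x.2.1 j), fun i => by
    have h1 := x.1.2 i
    have h2 := x.2.2 i
    refine Prod.ext ?_ ?_
    · simpa [Prod.fst_sum] using h1
    · simpa [Prod.snd_sum] using h2⟩
  left_inv _ := rfl
  right_inv _ := rfl

theorem card_prime {p : ℕ} (hp : p.Prime) {k : ℕ} (M : Matrix (Fin k) (Fin k) ℤ) :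
    Nat.card (Ker (ZMod p) M) = p ^ (k - rkp p M) := by
  classical
  have : Fact p.Prime := ⟨hp⟩
  have h1 := card_ker_mulVecLin p (M.map (Int.cast : ℤ → ZMod p))
  rw [Fintype.card_fin] at h1
  have h2 : Nat.card (Ker (ZMod p) M) =
      (univ.filter (fun u : Fin k → ZMod p =>
        (M.map (Int.cast : ℤ → ZMod p)).mulVec u = 0)).card := by
    rw [← Fintype.card_subtype, ← Nat.card_eq_fintype_card]
    refine Nat.card_congr (Equiv.subtypeEquivRight fun x => ?_)
    rw [funext_iff]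
    refine forall_congr' fun i => ?_
    simp [Matrix.mulVec, dotProduct, zsmul_eq_mul]
  have h3 : rkp p M ≤ k := by
    have := Matrix.rank_le_width (M.map (Int.cast : ℤ → ZMod p))
    exact this
  have h4 : p ^ (k - rkp p M) * p ^ rkp p M = p ^ k := by
    rw [← pow_add, Nat.sub_add_cancel h3]
  rw [h2]
  refine Nat.eq_of_mul_eq_mul_right (pow_pos hp.pos (rkp p M)) ?_
  rw [h4]
  exact h1

theorem card_crt {P : Finset ℕ} (hP : ∀ p ∈ P, p.Prime) {k : ℕ} (M : Matrix (Fin k) (Fin k) ℤ) :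
    Nat.card (Ker (ZMod (∏ p ∈ P, p)) M) = ∏ p ∈ P, p ^ (k - rkp p M) := by
  classical
  have hco : Pairwise fun p q : P => Nat.Coprime (p : ℕ) (q : ℕ) := by
    intro p q hpq
    exact (Nat.coprime_primes (hP _ p.2) (hP _ q.2)).2 fun h => hpq (Subtype.ext h)
  have e : ZMod (∏ p ∈ P, p) ≃+* ∀ p : P, ZMod (p : ℕ) :=
    (ZMod.ringEquivCongr (Finset.prod_coe_sort P (fun p => p)).symm).trans
      (ZMod.prodEquivPi (fun p : P => (p : ℕ)) hco)
  rw [Nat.card_congr ((kerCongr e.toAddEquiv M).trans (kerPi _ M)), Nat.card_pi,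
    ← Finset.prod_coe_sort P (fun p => p ^ (k - rkp p M))]
  exact Finset.prod_congr rfl fun p _ => card_prime (hP _ p.2) M

end CRT653

open CRT653 in
/-- leaf (9b) -/
theorem stmtCRT653 : StmtCRT := by
  intro k P hP M
  have h1 : W P M = (Nat.card (Ker (ZMod (∏ p ∈ P, p)) M) : ℝ) ^ 2 := by
    rw [card_crt hP M, W, Nat.cast_prod, ← Finset.prod_pow]
    refine Finset.prod_congr rfl fun p _ => ?_
    rw [Nat.cast_pow, ← pow_mul, mul_comm (k - rkp p M) 2]
  refine ⟨h1, ?_⟩
  have h2 : Nat.card (Ker (ZMod (∏ p ∈ P, p) × ZMod (∏ p ∈ P, p)) M) =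
      Nat.card (Ker (ZMod (∏ p ∈ P, p)) M) ^ 2 := by
    rw [Nat.card_congr (kerProd _ _ M), Nat.card_prod, sq]
  have h3 : W P M = (Nat.card (Ker (ZMod (∏ p ∈ P, p) × ZMod (∏ p ∈ P, p)) M) : ℝ) := by
    rw [h1, h2, Nat.cast_pow]
  exact h3

end Vale.Agent.P160.Half.M67
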