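import Vale.Agent.P160.Half.M67Stmt

/-! # P160, half rate, block (M): leaf (9b) of `M67Stmt.lean` (Chinese remainder theorem for kernels) -/

namespace Vale.Agent.P160.Half.CRT964

open Finset Vale.Agent.P160 Vale.Agent.P160.Half

/-- kernel tuples with entries in `R` -/
abbrev Ker {k : ℕ} (R : Type) [AddCommGroup R] (M : Matrix (Fin k) (Fin k) ℤ) : Type :=
  {x : Fin k → R // ∀ i, ∑ j, M i j • x j = 0}

theorem card_ker_equiv {k : ℕ} {R S : Type} [AddCommGroup R] [AddCommGroup S] (e : R ≃+ S)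
    (M : Matrix (Fin k) (Fin k) ℤ) : Nat.card (Ker R M) = Nat.card (Ker S M) := by
  refine Nat.card_congr (Equiv.subtypeEquiv (Equiv.piCongrRight fun _ => e.toEquiv) fun x => ?_)
  refine forall_congr' fun i => ?_
  have h : ∑ j, M i j • e (x j) = e (∑ j, M i j • x j) := by
    rw [map_sum]
    exact sum_congr rfl fun j _ => (map_zsmul e _ _).symm
  constructor
  · intro hx
    show ∑ j, M i j • e (x j) = 0
    rw [h, hx, map_zero]
  · intro hx
    have hx' : ∑ j, M i j • e (x j) = 0 := hx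
    rw [h] at hx'
    exact (map_eq_zero_iff e e.injective).1 hx'

theorem card_ker_prod {k : ℕ} {S T : Type} [AddCommGroup S] [AddCommGroup T]
    (M : Matrix (Fin k) (Fin k) ℤ) : Nat.card (Ker (S × T) M) = Nat.card (Ker S M) * Nat.card (Ker T M) := by
  rw [← Nat.card_prod]
  refine Nat.card_congr
    { toFun := fun x => (⟨fun j => (x.1 j).1, fun i => ?_⟩, ⟨fun j => (x.1 j).2, fun i => ?_⟩)
      invFun := fun y => ⟨fun j => (y.1.1 j, y.2.1 j), fun i => ?_⟩
      left_inv := fun x => rfl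
      right_inv := fun y => rfl }
  · have h := congrArg Prod.fst (x.2 i)
    rw [Prod.fst_sum] at h
    exact h
  · have h := congrArg Prod.snd (x.2 i)
    rw [Prod.snd_sum] at h
    exact h
  · refine Prod.ext ?_ ?_
    · rw [Prod.fst_sum]
      exact y.1.2 i
    · rw [Prod.snd_sum]
      exact y.2.2 i

theorem card_ker_prime {k : ℕ} {p : ℕ} (hp : p.Prime) (M : Matrix (Fin k) (Fin k) ℤ) :
    Nat.card (Ker (ZMod p) M) = p ^ (k - M67.rkp p M) := by
  have : Fact p.Prime := ⟨hp⟩
  set f := (M.map (Int.cast : ℤ → ZMod p)).mulVecLin with hf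
  have h1 : Nat.card (Ker (ZMod p) M) = Nat.card (LinearMap.ker f) := by
    refine Nat.card_congr (Equiv.subtypeEquivRight fun x => ?_)
    rw [LinearMap.mem_ker, hf, Matrix.mulVecLin_apply, funext_iff]
    refine forall_congr' fun i => ?_
    have : (M.map (Int.cast : ℤ → ZMod p)).mulVec x i = ∑ j, M i j • x j := by
      show ∑ j, ((M i j : ℤ) : ZMod p) * x j = ∑ j, M i j • x j
      exact sum_congr rfl fun j _ => (zsmul_eq_mul _ _).symm
    rw [this, Pi.zero_apply]
  have h2 := Module.natCard_eq_pow_finrank (K := ZMod p) (V := LinearMap.ker f)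
  have h3 := LinearMap.finrank_range_add_finrank_ker f
  rw [Module.finrank_fin_fun] at h3
  have h4 : M67.rkp p M = Module.finrank (ZMod p) (LinearMap.range f) := rfl
  rw [h1, h2, Nat.card_zmod, h4]
  congr 1
  omega

theorem card_ker {k : ℕ} (P : Finset ℕ) (hP : ∀ p ∈ P, p.Prime) (M : Matrix (Fin k) (Fin k) ℤ) :
    Nat.card (Ker (ZMod (∏ p ∈ P, p)) M) = ∏ p ∈ P, p ^ (k - M67.rkp p M) := by
  induction P using Finset.induction_on with
  | empty =>
    rw [prod_empty, prod_empty]
    have : Subsingleton (ZMod 1) := inferInstance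
    have : Subsingleton (Ker (ZMod 1) M) := ⟨fun a b => Subtype.ext (funext fun _ => Subsingleton.elim _ _)⟩
    have : Nonempty (Ker (ZMod 1) M) := ⟨⟨fun _ => 0, fun i => Subsingleton.elim _ _⟩⟩
    exact Nat.card_unique
  | insert p Q hpQ ih =>
    rw [prod_insert hpQ, prod_insert hpQ]
    have hp := hP p (mem_insert_self p Q)
    have hQ : ∀ q ∈ Q, q.Prime := fun q hq => hP q (mem_insert_of_mem hq)
    have hco : Nat.Coprime p (∏ q ∈ Q, q) := Nat.Coprime.prod_right fun q hq =>
      (Nat.coprime_primes hp (hQ q hq)).2 fun h => hpQ (h ▸ hq)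
    rw [card_ker_equiv (ZMod.chineseRemainder hco).toAddEquiv M, card_ker_prod, card_ker_prime hp, ih hQ]

/-- **(9b)** the weight counts kernel tuples -/
theorem crt : M67.StmtCRT := by
  intro k P hP M
  have h1 : M67.W P M = (Nat.card (Ker (ZMod (∏ p ∈ P, p)) M) : ℝ) ^ 2 := by
    rw [card_ker P hP M]
    unfold M67.W
    rw [Nat.cast_prod, ← prod_pow]
    refine prod_congr rfl fun p _ => ?_
    rw [Nat.cast_pow, ← pow_mul, mul_comm]
  refine ⟨h1, ?_⟩
  rw [h1]
  have h2 := card_ker_prod (S := ZMod (∏ p ∈ P, p)) (T := ZMod (∏ p ∈ P, p)) M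
  rw [sq]
  exact_mod_cast h2.symm

end Vale.Agent.P160.Half.CRT964
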