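import Vale.Agent.P160.Half.M67Stmt

/-! # P160, half rate, (9b) of `M67Stmt`: the weight counts kernel tuples modulo `∏ P` (Chinese remainder) -/

namespace Vale.Agent.P160.Half.CRT99

open Finset Vale.Agent.P160.Half

/-- kernel tuples of an integer matrix in the abelian group `A` -/
abbrev Ker {k : ℕ} (M : Matrix (Fin k) (Fin k) ℤ) (A : Type) [AddCommGroup A] : Type :=
  {x : Fin k → A // ∀ i, ∑ j, M i j • x j = 0}

theorem card_congr {k : ℕ} (M : Matrix (Fin k) (Fin k) ℤ) {A B : Type} [AddCommGroup A] [AddCommGroup B]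
    (e : A ≃+ B) : Nat.card (Ker M A) = Nat.card (Ker M B) := by
  refine Nat.card_congr ⟨fun x => ⟨fun j => e (x.1 j), fun i => ?_⟩, fun x => ⟨fun j => e.symm (x.1 j), fun i => ?_⟩,
    fun x => ?_, fun x => ?_⟩
  · have := congrArg e (x.2 i)
    simpa only [map_sum, map_zsmul, map_zero] using this
  · have := congrArg e.symm (x.2 i)
    simpa only [map_sum, map_zsmul, map_zero] using this
  · ext j; simp
  · ext j; simp

theorem card_prod {k : ℕ} (M : Matrix (Fin k) (Fin k) ℤ) (A B : Type) [AddCommGroup A] [AddCommGroup B] :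
    Nat.card (Ker M (A × B)) = Nat.card (Ker M A) * Nat.card (Ker M B) := by
  rw [← Nat.card_prod]
  refine Nat.card_congr ⟨fun x => (⟨fun j => (x.1 j).1, fun i => ?_⟩, ⟨fun j => (x.1 j).2, fun i => ?_⟩),
    fun y => ⟨fun j => (y.1.1 j, y.2.1 j), fun i => ?_⟩, fun x => ?_, fun y => ?_⟩
  · have := congrArg Prod.fst (x.2 i)
    simpa only [Prod.fst_sum, Prod.smul_fst, Prod.fst_zero] using this
  · have := congrArg Prod.snd (x.2 i)
    simpa only [Prod.snd_sum, Prod.smul_snd, Prod.snd_zero] using this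
  · refine Prod.ext ?_ ?_
    · have := y.1.2 i
      simpa only [Prod.fst_sum, Prod.smul_fst, Prod.fst_zero] using this
    · have := y.2.2 i
      simpa only [Prod.snd_sum, Prod.smul_snd, Prod.snd_zero] using this
  · rfl
  · rfl

theorem card_prime {k : ℕ} (M : Matrix (Fin k) (Fin k) ℤ) (p : ℕ) (hp : p.Prime) :
    Nat.card (Ker M (ZMod p)) = p ^ (k - M67.rkp p M) := by
  have := Fact.mk hp
  have h1 : Nat.card (Ker M (ZMod p)) =
      Nat.card (LinearMap.ker (M.map (Int.cast : ℤ → ZMod p)).mulVecLin) := by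
    refine Nat.card_congr (Equiv.subtypeEquivRight fun x => ?_)
    rw [LinearMap.mem_ker, Matrix.mulVecLin_apply, funext_iff]
    refine forall_congr' fun i => ?_
    simp only [Matrix.mulVec, dotProduct, Matrix.map_apply, Pi.zero_apply, zsmul_eq_mul]
  rw [h1, Module.natCard_eq_pow_finrank (K := ZMod p), Nat.card_zmod]
  congr 1
  have h2 := LinearMap.finrank_range_add_finrank_ker (M.map (Int.cast : ℤ → ZMod p)).mulVecLin
  rw [Module.finrank_fintype_fun_eq_card, Fintype.card_fin] at h2
  unfold M67.rkp Matrix.rank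
  omega

theorem card_prodP {k : ℕ} (M : Matrix (Fin k) (Fin k) ℤ) (P : Finset ℕ) (hP : ∀ p ∈ P, p.Prime) :
    Nat.card (Ker M (ZMod (∏ p ∈ P, p))) = ∏ p ∈ P, p ^ (k - M67.rkp p M) := by
  classical
  induction P using Finset.induction_on with
  | empty =>
    rw [prod_empty, prod_empty]
    have : Subsingleton (ZMod 1) := inferInstance
    let _ : Unique (Ker M (ZMod 1)) := ⟨⟨⟨fun _ => 0, fun i => Subsingleton.elim _ _⟩⟩,
      fun x => Subtype.ext (funext fun j => Subsingleton.elim _ _)⟩
    exact Nat.card_unique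
  | insert p P hpP ih =>
    rw [prod_insert hpP, prod_insert hpP]
    have hcop : Nat.Coprime p (∏ q ∈ P, q) := by
      refine Nat.Coprime.prod_right fun q hq => ?_
      refine (Nat.coprime_primes (hP p (mem_insert_self p P)) (hP q (mem_insert_of_mem hq))).2 ?_
      rintro rfl
      exact hpP hq
    rw [card_congr M (ZMod.chineseRemainder hcop).toAddEquiv, card_prod,
      card_prime M p (hP p (mem_insert_self p P)), ih fun q hq => hP q (mem_insert_of_mem hq)]

/-- **(9b)** -/
theorem stmtCRT : M67.StmtCRT := by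
  intro k P hP M
  have h := card_prodP M P hP
  have h1 : M67.W P M = (Nat.card (Ker M (ZMod (∏ p ∈ P, p))) : ℝ) ^ 2 := by
    rw [h]
    unfold M67.W
    push_cast
    rw [← prod_pow]
    refine prod_congr rfl fun p _ => ?_
    rw [← pow_mul, mul_comm]
  refine ⟨h1, ?_⟩
  have h2 := card_prod M (ZMod (∏ p ∈ P, p)) (ZMod (∏ p ∈ P, p))
  rw [h1]
  change _ = (Nat.card (Ker M (ZMod (∏ p ∈ P, p) × ZMod (∏ p ∈ P, p))) : ℝ)
  rw [h2]
  push_cast
  ring

end Vale.Agent.P160.Half.CRT99
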