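import Vale.Agent.P160.Half.LOMin

/-!
# P160: Cauchy-Binet and the minor bound with exponent one

`|det (A * B)| ≤ choose a r * r ^ r ≤ (3 a) ^ r` for `A : r × a`, `B : a × r` with entries in
`{-1, 0, 1}`.
-/

set_option linter.unusedSectionVars false

namespace Vale.Agent.P160.Half.LOMin1

open Finset Matrix

variable {ι : Type*} [Fintype ι] [DecidableEq ι]

theorem det_mul_sum {r : ℕ} (A : Matrix (Fin r) ι ℤ) (B : Matrix ι (Fin r) ℤ) :
    (A * B).det = ∑ f : Fin r → ι, (∏ i, A i (f i)) * (B.submatrix f id).det := by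
  classical
  have h1 : (A * B).det = (detRowAlternating : (Fin r → ℤ) [⋀^Fin r]→ₗ[ℤ] ℤ)
      (fun i => ∑ k : ι, A i k • B k) := by
    show (A * B).det = Matrix.det (fun i => ∑ k : ι, A i k • B k)
    congr 1
    ext i j
    rw [Matrix.mul_apply, Finset.sum_apply]
    rfl
  have h2 := (detRowAlternating : (Fin r → ℤ) [⋀^Fin r]→ₗ[ℤ] ℤ).toMultilinearMap.map_sum
    (fun (i : Fin r) (k : ι) => A i k • B k)
  rw [h1]
  refine h2.trans (Finset.sum_congr rfl fun f _ => ?_)
  exact (detRowAlternating : (Fin r → ℤ) [⋀^Fin r]→ₗ[ℤ] ℤ).toMultilinearMap.map_smul_univ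
    (fun i => A i (f i)) (fun i => B (f i))

theorem cauchy_binet {r : ℕ} (A : Matrix (Fin r) ι ℤ) (B : Matrix ι (Fin r) ℤ) :
    (r.factorial : ℤ) * (A * B).det =
      ∑ f : Fin r → ι, (A.submatrix id f).det * (B.submatrix f id).det := by
  classical
  have h1 : ∀ σ : Equiv.Perm (Fin r), (A * B).det =
      ∑ f : Fin r → ι, ((Equiv.Perm.sign σ : ℤ) * ∏ i, A i (f (σ i))) *
        (B.submatrix f id).det := by
    intro σ
    rw [det_mul_sum]
    refine (Fintype.sum_equiv (Equiv.arrowCongr σ (Equiv.refl ι)) _ _ fun f => ?_)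
    have h2 : (Equiv.arrowCongr σ (Equiv.refl ι)) f = f ∘ σ.symm := rfl
    rw [h2]
    have h3 : ∏ i, A i ((f ∘ σ.symm) (σ i)) = ∏ i, A i (f i) := by
      refine Finset.prod_congr rfl fun i _ => ?_
      simp
    have h4 : (B.submatrix (f ∘ σ.symm) id).det =
        (Equiv.Perm.sign σ : ℤ) * (B.submatrix f id).det := by
      have h5 := Matrix.det_permute σ.symm (B.submatrix f id)
      rw [Equiv.Perm.sign_symm, Int.cast_id] at h5
      exact h5
    rw [h3, h4]
    have h6 : (Equiv.Perm.sign σ : ℤ) * (Equiv.Perm.sign σ : ℤ) = 1 := by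
      rw [← Units.val_mul, Int.units_mul_self, Units.val_one]
    linear_combination -((∏ i, A i (f i)) * (B.submatrix f id).det) * h6
  have h7 : ∑ _σ : Equiv.Perm (Fin r), (A * B).det = (r.factorial : ℤ) * (A * B).det := by
    rw [Finset.sum_const, Finset.card_univ, Fintype.card_perm, Fintype.card_fin, nsmul_eq_mul]
  rw [← h7, Finset.sum_congr rfl fun σ _ => h1 σ, Finset.sum_comm]
  refine Finset.sum_congr rfl fun f _ => ?_
  rw [← Finset.sum_mul]
  congr 1
  rw [← Matrix.det_transpose, Matrix.det_apply']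
  refine Finset.sum_congr rfl fun σ _ => ?_
  rfl

theorem abs_det_le {r : ℕ} (M : Matrix (Fin r) (Fin r) ℤ) (h : ∀ i j, |M i j| ≤ 1) :
    |M.det| * |M.det| ≤ (r : ℤ) ^ r := by
  have h1 := LOMin.hadamard M 1 h
  rw [one_pow, one_mul] at h1
  rw [← abs_mul, ← sq, abs_of_nonneg (sq_nonneg _)]
  exact h1

theorem abs_det_mul_le {r : ℕ} (A : Matrix (Fin r) ι ℤ) (B : Matrix ι (Fin r) ℤ)
    (hA : ∀ i j, |A i j| ≤ 1) (hB : ∀ i j, |B i j| ≤ 1) :
    |(A * B).det| ≤ ((Fintype.card ι).choose r * r ^ r : ℕ) := by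
  classical
  have h1 := cauchy_binet A B
  have h2 : ∀ f : Fin r → ι, |(A.submatrix id f).det * (B.submatrix f id).det| ≤
      if Function.Injective f then (r : ℤ) ^ r else 0 := by
    intro f
    split_ifs with hf
    · rw [abs_mul]
      have h3 := abs_det_le (A.submatrix id f) fun i j => hA _ _
      have h4 := abs_det_le (B.submatrix f id) fun i j => hB _ _
      nlinarith [sq_nonneg (|(A.submatrix id f).det| - |(B.submatrix f id).det|),
        abs_nonneg (A.submatrix id f).det, abs_nonneg (B.submatrix f id).det]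
    · rw [Function.Injective] at hf
      push Not at hf
      obtain ⟨i, j, hij, hne⟩ := hf
      have h5 : (B.submatrix f id).det = 0 := by
        refine Matrix.det_zero_of_row_eq hne ?_
        funext k
        show B (f i) k = B (f j) k
        rw [hij]
      rw [h5, mul_zero, abs_zero]
  have h3 : (r.factorial : ℤ) * |(A * B).det| ≤
      ∑ f : Fin r → ι, if Function.Injective f then (r : ℤ) ^ r else 0 := by
    have h4 : (r.factorial : ℤ) * |(A * B).det| = |(r.factorial : ℤ) * (A * B).det| := by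
      rw [abs_mul, abs_of_nonneg (by positivity : (0 : ℤ) ≤ (r.factorial : ℤ))]
    rw [h4, h1]
    exact (Finset.abs_sum_le_sum_abs _ _).trans (Finset.sum_le_sum fun f _ => h2 f)
  have h5 : (∑ f : Fin r → ι, if Function.Injective f then (r : ℤ) ^ r else 0) =
      ((Fintype.card ι).descFactorial r : ℤ) * (r : ℤ) ^ r := by
    rw [← Finset.sum_filter, Finset.sum_const, nsmul_eq_mul]
    congr 1
    have h6 : ((univ : Finset (Fin r → ι)).filter fun f => Function.Injective f).card =
        Fintype.card (Fin r ↪ ι) := by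
      rw [← Fintype.card_subtype]
      exact Fintype.card_congr (Equiv.subtypeInjectiveEquivEmbedding _ _)
    rw [h6, Fintype.card_embedding_eq, Fintype.card_fin]
  rw [h5, Nat.descFactorial_eq_factorial_mul_choose] at h3
  have h6 : (0 : ℤ) < (r.factorial : ℤ) := by exact_mod_cast r.factorial_pos
  push_cast at h3 ⊢
  rw [mul_assoc] at h3
  exact le_of_mul_le_mul_left h3 h6

theorem pow_self_le (r : ℕ) : r ^ r ≤ 3 ^ r * r.factorial := by
  have h1 : (r : ℝ) ^ r / (r.factorial : ℝ) ≤ Real.exp r :=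
    Real.pow_div_factorial_le_exp (r : ℝ) (by positivity) r
  have h2 : Real.exp (r : ℝ) ≤ 3 ^ r := by
    have h3 : Real.exp (r : ℝ) = Real.exp 1 ^ r := by
      rw [← Real.exp_nat_mul, mul_one]
    rw [h3]
    have h4 := Real.exp_one_lt_d9
    exact pow_le_pow_left₀ (Real.exp_pos _).le (by linarith) r
  have h5 : (0 : ℝ) < (r.factorial : ℝ) := by exact_mod_cast r.factorial_pos
  have h6 : (r : ℝ) ^ r ≤ 3 ^ r * (r.factorial : ℝ) := by
    rw [div_le_iff₀ h5] at h1
    exact h1.trans (mul_le_mul_of_nonneg_right h2 h5.le)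
  exact_mod_cast h6

theorem choose_mul_pow_le (a r : ℕ) : a.choose r * r ^ r ≤ (3 * a) ^ r := by
  have h1 := pow_self_le r
  have h2 : a.choose r * r.factorial ≤ a ^ r := by
    rw [mul_comm, ← Nat.descFactorial_eq_factorial_mul_choose]
    exact Nat.descFactorial_le_pow a r
  calc a.choose r * r ^ r ≤ a.choose r * (3 ^ r * r.factorial) := Nat.mul_le_mul_left _ h1
    _ = 3 ^ r * (a.choose r * r.factorial) := by ring
    _ ≤ 3 ^ r * a ^ r := Nat.mul_le_mul_left _ h2
    _ = (3 * a) ^ r := by rw [mul_pow]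

end Vale.Agent.P160.Half.LOMin1
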