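import Vale.Agent.P160.Half.M67Stmt
import Vale.Agent.P160.Half.Good439

/-! P160-HALF, block (M), leaf (3a): the chain lemma. -/

namespace Vale.Agent.P160.Half.Chain176

open Finset Vale.Agent.P160 Vale.Agent.P160.Half Vale.Agent.P160.Half.Flat
  Vale.Agent.P160.Half.Good439

/-- `gZ` of the image in the quotient, classical instance -/
noncomputable def ZK {H : Type} [AddCommGroup H] [Fintype H] {m : ℕ} (z : Fin m → H)
    (K : AddSubgroup H) : ℝ :=
  @gZ (H ⧸ K) _ (Fintype.ofFinite _) m 8 (fun j => (QuotientAddGroup.mk (z j) : H ⧸ K))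

lemma ZK_eq {H : Type} [AddCommGroup H] [Fintype H] {m : ℕ} (z : Fin m → H)
    (K : AddSubgroup H) (i : Fintype (H ⧸ K)) :
    gZ 8 (fun j => (QuotientAddGroup.mk (z j) : H ⧸ K)) = ZK z K := by
  unfold ZK
  rw [Subsingleton.elim i (Fintype.ofFinite _)]

lemma ZK_le {H : Type} [AddCommGroup H] [Fintype H] {m : ℕ} (z : Fin m → H)
    (K K' : AddSubgroup H) (h : K ≤ K') :
    (Nat.card (H ⧸ K') : ℝ) * ZK z K ≤ Nat.card (H ⧸ K) * ZK z K' := by
  classical
  letI : Fintype (H ⧸ K) := Fintype.ofFinite _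
  letI : Fintype (H ⧸ K') := Fintype.ofFinite _
  have h1 := gZ_map (QuotientAddGroup.map K K' (AddMonoidHom.id H) h)
    (fun j => (QuotientAddGroup.mk (z j) : H ⧸ K))
  rw [Nat.card_eq_fintype_card, Nat.card_eq_fintype_card]
  exact h1

theorem stmtChain : M67.StmtChain := by
  classical
  intro H _ _ m z τ Q hτ hp hQ hz
  have hbot : 1 + τ < ZK z ⊥ := by
    letI : Fintype (H ⧸ (⊥ : AddSubgroup H)) := Fintype.ofFinite _
    have h1 := gZ_map (QuotientAddGroup.mk' (⊥ : AddSubgroup H)) z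
    have hc : Fintype.card (H ⧸ (⊥ : AddSubgroup H)) = Fintype.card H :=
      Fintype.card_congr (QuotientAddGroup.quotientBot (G := H)).toEquiv
    rw [hc] at h1
    have h2 : (0 : ℝ) < Fintype.card H := by
      exact_mod_cast Fintype.card_pos
    have h3 := le_of_mul_le_mul_left h1 h2
    rw [← ZK_eq z ⊥ this]
    exact lt_of_lt_of_le hz h3
  obtain ⟨K, hK, hmax⟩ : ∃ K : AddSubgroup H, 1 + τ < ZK z K ∧
      ∀ K' : AddSubgroup H, K < K' → ¬ 1 + τ < ZK z K' := by
    have hfin : Set.Finite {K : AddSubgroup H | 1 + τ < ZK z K} := Set.toFinite _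
    obtain ⟨K, hK⟩ := hfin.exists_maximal ⟨⊥, hbot⟩
    refine ⟨K, hK.1, fun K' hlt h' => ?_⟩
    exact absurd (hK.2 h' hlt.le) (not_le_of_gt hlt)
  refine ⟨K, fun i => ?_⟩
  rw [ZK_eq z K i]
  refine ⟨hK, ?_⟩
  by_contra hcon
  push Not at hcon
  -- the quotient is nontrivial
  have hnt : Nat.card (H ⧸ K) ≠ 1 := by
    intro h1
    have hsub : Subsingleton (H ⧸ K) := (Nat.card_eq_one_iff_unique.1 h1).1
    have h2 : ZK z K = 1 := by
      unfold ZK
      exact @gZ_subsingleton (H ⧸ K) _ (Fintype.ofFinite _) m hsub _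
    rw [h2] at hcon
    nlinarith
  obtain ⟨p, hpp, hpd⟩ := Nat.exists_prime_and_dvd hnt
  haveI : Fact p.Prime := ⟨hpp⟩
  obtain ⟨x, hx⟩ := exists_prime_addOrderOf_dvd_card' (G := H ⧸ K) p hpd
  have hpQ : (p : ℝ) ≤ Q := by
    refine hp p hpp (hpd.trans ?_)
    rw [← Nat.card_eq_fintype_card]
    exact AddSubgroup.card_quotient_dvd_card K
  -- the bigger subgroup
  set C : AddSubgroup (H ⧸ K) := AddSubgroup.zmultiples x with hC
  set K' : AddSubgroup H := C.comap (QuotientAddGroup.mk' K) with hK'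
  have hle : K ≤ K' := by
    intro a ha
    have : (QuotientAddGroup.mk' K) a = 0 := by
      simpa using ha
    rw [hK', AddSubgroup.mem_comap, this]
    exact zero_mem _
  have hcardC : Nat.card C = p := by
    rw [hC, Nat.card_zmultiples, hx]
  have hcard : Nat.card (H ⧸ K) = p * Nat.card (H ⧸ K') := by
    have e1 : Nat.card (H ⧸ K) = Nat.card ((H ⧸ K) ⧸ C) * Nat.card C :=
      AddSubgroup.card_eq_card_quotient_mul_card_addSubgroup C
    have e2 : Nat.card ((H ⧸ K) ⧸ C) = Nat.card (H ⧸ K') := by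
      have := AddSubgroup.index_comap_of_surjective C (f := QuotientAddGroup.mk' K)
        (QuotientAddGroup.mk'_surjective K)
      rw [AddSubgroup.index, AddSubgroup.index] at this
      exact this.symm
    rw [e1, e2, hcardC, mul_comm]
  have hpos : (0 : ℝ) < Nat.card (H ⧸ K') := by
    exact_mod_cast Nat.card_pos
  have hlt : K < K' := by
    refine lt_of_le_of_ne hle fun h => ?_
    rw [← h] at hcard
    have h1 : 0 < Nat.card (H ⧸ K) := Nat.card_pos
    have h2 := hpp.two_le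
    nlinarith
  have hnot := hmax K' hlt
  apply hnot
  have h1 := ZK_le z K K' hle
  rw [hcard] at h1
  push_cast at h1
  have h2 : ZK z K ≤ p * ZK z K' := by
    refine le_of_mul_le_mul_left ?_ hpos
    calc (Nat.card (H ⧸ K') : ℝ) * ZK z K ≤ p * Nat.card (H ⧸ K') * ZK z K' := h1
      _ = Nat.card (H ⧸ K') * (p * ZK z K') := by ring
  have hp0 : (0 : ℝ) < p := by exact_mod_cast hpp.pos
  have h3 : (1 + τ) * p < ZK z K' * p := by
    calc (1 + τ) * p ≤ (1 + τ) * Q := by
          refine mul_le_mul_of_nonneg_left hpQ (by linarith)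
      _ < ZK z K := hcon
      _ ≤ p * ZK z K' := h2
      _ = ZK z K' * p := by ring
  exact lt_of_mul_lt_mul_right h3 hp0.le

end Vale.Agent.P160.Half.Chain176
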