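import Vale.Agent.P160.Half.M67Stmt

/-! # P160, block (M), leaf (3a): chain lemma (helper416). -/

set_option linter.unusedSectionVars false
set_option linter.unusedVariables false

namespace Vale.Agent.P160.Half.Chain416

open Finset Vale.Agent.P160 Vale.Agent.P160.Half Vale.Agent.P160.Half.Flat

/-- `gZ 8` through the walk -/
theorem gZ_eq {G : Type} [AddCommGroup G] [Fintype G] {m : ℕ} (y : Fin m → G) :
    gZ 8 y = Fintype.card G * ((Nat.card {ω : Fin m → Fin 8 // gwL 1 ω y = 0} : ℝ) / 8 ^ m) := by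
  classical
  have h := prL_zero_eq (L := 1) (M := 8) (by norm_num) (by norm_num) y
  have hc : ∀ z : ℂ, cf 8 z = cfL 1 8 z := by
    intro z; unfold cf cfL; norm_num
  unfold gZ gP
  simp only [hc]
  rw [← h]
  unfold prL
  rw [Nat.card_eq_fintype_card, Fintype.card_subtype, Fintype.card_fin]
  norm_num

variable {H : Type} [AddCommGroup H] [Fintype H] {m : ℕ}

/-- `[H : K] P(walk ∈ K)` -/
noncomputable def f (z : Fin m → H) (K : AddSubgroup H) : ℝ :=
  K.index * ((Nat.card {ω : Fin m → Fin 8 // gwL 1 ω z ∈ K} : ℝ) / 8 ^ m)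

theorem gwL_mk (z : Fin m → H) (K : AddSubgroup H) (ω : Fin m → Fin 8) :
    gwL 1 ω (fun j => (QuotientAddGroup.mk (z j) : H ⧸ K)) = QuotientAddGroup.mk (gwL 1 ω z) := by
  unfold gwL
  rw [← QuotientAddGroup.mk'_apply, map_sum]
  refine sum_congr rfl fun j _ => ?_
  rw [map_zsmul]; rfl

theorem gZ_quot (z : Fin m → H) (K : AddSubgroup H) (i : Fintype (H ⧸ K)) :
    gZ 8 (fun j => (QuotientAddGroup.mk (z j) : H ⧸ K)) = f z K := by
  rw [gZ_eq]
  unfold f
  have h1 : (Fintype.card (H ⧸ K) : ℝ) = K.index := by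
    rw [AddSubgroup.index, Nat.card_eq_fintype_card]
  rw [h1]
  congr 3
  refine Nat.card_congr (Equiv.subtypeEquivRight fun ω => ?_)
  rw [gwL_mk, QuotientAddGroup.eq_zero_iff]

theorem f_bot (z : Fin m → H) : f z ⊥ = gZ 8 z := by
  rw [gZ_eq]
  unfold f
  have h1 : ((⊥ : AddSubgroup H).index : ℝ) = Fintype.card H := by
    rw [AddSubgroup.index_bot, Nat.card_eq_fintype_card]
  rw [h1]
  congr 3

theorem prob_le_one (z : Fin m → H) (K : AddSubgroup H) :
    (Nat.card {ω : Fin m → Fin 8 // gwL 1 ω z ∈ K} : ℝ) / 8 ^ m ≤ 1 := by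
  rw [div_le_one (by positivity)]
  have h := Nat.card_le_card_of_injective
    (fun ω : {ω : Fin m → Fin 8 // gwL 1 ω z ∈ K} => ω.1) Subtype.val_injective
  have h2 : Nat.card (Fin m → Fin 8) = 8 ^ m := by simp
  rw [h2] at h
  exact_mod_cast h

theorem prob_mono (z : Fin m → H) {K C : AddSubgroup H} (h : K ≤ C) :
    (Nat.card {ω : Fin m → Fin 8 // gwL 1 ω z ∈ K} : ℝ) / 8 ^ m ≤
      (Nat.card {ω : Fin m → Fin 8 // gwL 1 ω z ∈ C} : ℝ) / 8 ^ m := by
  refine div_le_div_of_nonneg_right ?_ (by positivity)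
  exact_mod_cast Nat.card_le_card_of_injective
    (fun ω : {ω : Fin m → Fin 8 // gwL 1 ω z ∈ K} =>
      (⟨ω.1, h ω.2⟩ : {ω : Fin m → Fin 8 // gwL 1 ω z ∈ C}))
    (fun a b hab => Subtype.ext (congrArg (fun x => x.1) hab))

/-- a subgroup of index `[H : K] / p` above `K` -/
theorem exists_above (K : AddSubgroup H) (hK : K.index ≠ 1) :
    ∃ (C : AddSubgroup H) (p : ℕ), p.Prime ∧ p ∣ Fintype.card H ∧ K ≤ C ∧ C.index * p = K.index := by
  classical
  have hne : Nat.card (H ⧸ K) ≠ 1 := hK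
  obtain ⟨p, hp, hpd⟩ := Nat.exists_prime_and_dvd hne
  have : Fact p.Prime := ⟨hp⟩
  obtain ⟨x, hx⟩ := exists_prime_addOrderOf_dvd_card' (G := H ⧸ K) p hpd
  refine ⟨(AddSubgroup.zmultiples x).comap (QuotientAddGroup.mk' K), p, hp, ?_, ?_, ?_⟩
  · refine hpd.trans ?_
    rw [← Nat.card_eq_fintype_card]
    exact AddSubgroup.index_dvd_card K
  · intro a ha
    rw [AddSubgroup.mem_comap]
    have : (QuotientAddGroup.mk' K) a = 0 := (QuotientAddGroup.eq_zero_iff a).2 ha
    rw [this]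
    exact AddSubgroup.zero_mem _
  · rw [AddSubgroup.index_comap_of_surjective _ (QuotientAddGroup.mk'_surjective K), ← hx,
      ← Nat.card_zmultiples, AddSubgroup.index_mul_card]
    rfl

theorem main (z : Fin m → H) (τ Q : ℝ) (hτ : 0 ≤ τ)
    (hQ : ∀ p : ℕ, p.Prime → p ∣ Fintype.card H → (p : ℝ) ≤ Q) (hQ1 : 1 ≤ Q) :
    ∀ (n : ℕ) (K : AddSubgroup H), K.index = n → 1 + τ < f z K →
      ∃ K' : AddSubgroup H, 1 + τ < f z K' ∧ f z K' ≤ (1 + τ) * Q := by
  intro n
  induction n using Nat.strong_induction_on with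
  | _ n ih =>
    intro K hK h
    by_cases hle : f z K ≤ (1 + τ) * Q
    · exact ⟨K, h, hle⟩
    · rw [not_le] at hle
      have hi : K.index ≠ 1 := by
        intro h1
        have h2 : f z K ≤ 1 := by
          unfold f
          rw [h1, Nat.cast_one, one_mul]
          exact prob_le_one z K
        nlinarith
      obtain ⟨C, p, hp, hpd, hKC, hidx⟩ := exists_above K hi
      have hp0 : (0 : ℝ) < p := by exact_mod_cast hp.pos
      have hpQ := hQ p hp hpd
      have hCpos : 0 < C.index := Nat.pos_of_ne_zero C.index_ne_zero_of_finite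
      have h1 : f z K ≤ p * f z C := by
        unfold f
        rw [← hidx]
        push_cast
        have h3 := prob_mono z hKC
        have h4 : (0 : ℝ) ≤ (C.index : ℝ) * p := by positivity
        calc (C.index : ℝ) * p * ((Nat.card {ω : Fin m → Fin 8 // gwL 1 ω z ∈ K} : ℝ) / 8 ^ m)
            ≤ (C.index : ℝ) * p * ((Nat.card {ω : Fin m → Fin 8 // gwL 1 ω z ∈ C} : ℝ) / 8 ^ m) :=
              mul_le_mul_of_nonneg_left h3 h4
          _ = _ := by ring
      have h2 : 1 + τ < f z C := by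
        by_contra hcon
        rw [not_lt] at hcon
        have h5 : p * f z C ≤ p * (1 + τ) := mul_le_mul_of_nonneg_left hcon hp0.le
        have h6 : (p : ℝ) * (1 + τ) ≤ Q * (1 + τ) := mul_le_mul_of_nonneg_right hpQ (by linarith)
        nlinarith
      refine ih C.index ?_ C rfl h2
      rw [← hK, ← hidx]
      have := hp.two_le
      nlinarith

theorem chain : M67.StmtChain := by
  intro H _ _ m z τ Q hτ hQ hQ1 h
  rw [← f_bot] at h
  obtain ⟨K, h1, h2⟩ := main z τ Q hτ hQ hQ1 _ ⊥ rfl h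
  refine ⟨K, fun i => ?_⟩
  rw [gZ_quot z K i]
  exact ⟨h1, h2⟩

end Vale.Agent.P160.Half.Chain416
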