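import Vale.Agent.P160.Half.M67Stmt

/-! # P160, half rate, M67: the chain lemma (3a).

`gZ 8 (z mod K) = [H : K] P(walk ∈ K)`, so passing from `K` to `K' ≥ K` of index `p` divides it by at most `p`. -/

set_option linter.unusedSectionVars false

namespace Vale.Agent.P160.Half.M67.C520

open Finset Vale.Agent.P160 Vale.Agent.P160.Half Vale.Agent.P160.Half.Flat

variable {H : Type} [AddCommGroup H] [Fintype H] {m : ℕ}

open scoped Classical in
/-- `P(walk ∈ K)` -/
noncomputable def pr (z : Fin m → H) (K : AddSubgroup H) : ℝ :=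
  ((univ.filter (fun ω : Fin m → Fin 8 => gwalk ω z ∈ K)).card : ℝ) / (8 : ℝ) ^ m

theorem pr_nonneg (z : Fin m → H) (K : AddSubgroup H) : 0 ≤ pr z K := by
  unfold pr
  positivity

theorem pr_mono (z : Fin m → H) {K K' : AddSubgroup H} (h : K ≤ K') : pr z K ≤ pr z K' := by
  classical
  unfold pr
  refine div_le_div_of_nonneg_right ?_ (by positivity)
  exact_mod_cast card_le_card fun ω hω => by
    rw [mem_filter] at hω ⊢
    exact ⟨hω.1, h hω.2⟩

theorem pr_le_one (z : Fin m → H) (K : AddSubgroup H) : pr z K ≤ 1 := by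
  classical
  unfold pr
  rw [div_le_one (by positivity)]
  have h : (univ.filter (fun ω : Fin m → Fin 8 => gwalk ω z ∈ K)).card ≤ 8 ^ m := by
    refine (card_le_univ _).trans ?_
    simp
  exact_mod_cast h

theorem gZ_quot (z : Fin m → H) (K : AddSubgroup H) (i : Fintype (H ⧸ K)) :
    gZ 8 (fun j => (QuotientAddGroup.mk (z j) : H ⧸ K)) = (K.index : ℝ) * pr z K := by
  classical
  have h1 : gZ 8 (fun j => (QuotientAddGroup.mk (z j) : H ⧸ K)) =
      Fintype.card (H ⧸ K) * gpr 8 (fun j => (QuotientAddGroup.mk (z j) : H ⧸ K)) 0 :=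
    (gpr_zero_eq (by norm_num) _).symm
  have h2 : (Fintype.card (H ⧸ K) : ℝ) = K.index := by
    rw [AddSubgroup.index, Nat.card_eq_fintype_card]
  rw [h1, h2]
  congr 1
  unfold gpr pr
  rw [Fintype.card_fin]
  congr 2
  · congr 1
    refine filter_congr fun ω _ => ?_
    have h3 : gwalk ω (fun j => (QuotientAddGroup.mk (z j) : H ⧸ K)) =
        (QuotientAddGroup.mk' K) (gwalk ω z) := by
      unfold gwalk
      rw [map_sum]
      exact sum_congr rfl fun e _ => (map_zsmul (QuotientAddGroup.mk' K) _ _).symm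
    rw [h3, QuotientAddGroup.mk'_apply, QuotientAddGroup.eq_zero_iff]

theorem index_pos (K : AddSubgroup H) : 0 < K.index :=
  Nat.pos_of_ne_zero AddSubgroup.index_ne_zero_of_finite

/-- A subgroup above `K` of prime index. -/
theorem exists_up {K : AddSubgroup H} (hK : K ≠ ⊤) : ∃ (p : ℕ) (K' : AddSubgroup H), p.Prime ∧
    p ∣ Fintype.card H ∧ K ≤ K' ∧ K.index = p * K'.index := by
  have h1 : K.index ≠ 1 := fun h => hK (AddSubgroup.index_eq_one.1 h)
  obtain ⟨p, hp, hpd⟩ := Nat.exists_prime_and_dvd h1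
  have hpc : p ∣ Nat.card (H ⧸ K) := hpd
  have := Fact.mk hp
  obtain ⟨x, hx⟩ := exists_prime_addOrderOf_dvd_card' (G := H ⧸ K) p hpc
  refine ⟨p, (AddSubgroup.zmultiples x).comap (QuotientAddGroup.mk' K), hp, ?_, ?_, ?_⟩
  · rw [← Nat.card_eq_fintype_card]
    exact hpd.trans (AddSubgroup.index_dvd_card K)
  · intro y hy
    rw [AddSubgroup.mem_comap]
    have : QuotientAddGroup.mk' K y = 0 := by
      rw [QuotientAddGroup.mk'_apply, QuotientAddGroup.eq_zero_iff]
      exact hy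
    rw [this]
    exact zero_mem _
  · rw [AddSubgroup.index_comap_of_surjective _ (QuotientAddGroup.mk'_surjective K),
      ← hx, ← Nat.card_zmultiples, AddSubgroup.card_mul_index]
    rfl

theorem chain_aux (z : Fin m → H) {τ Q : ℝ} (hτ : 0 ≤ τ) (hQ1 : 1 ≤ Q)
    (hQ : ∀ p : ℕ, p.Prime → p ∣ Fintype.card H → (p : ℝ) ≤ Q) (n : ℕ) :
    ∀ K : AddSubgroup H, K.index = n → 1 + τ < (K.index : ℝ) * pr z K →
      ∃ K' : AddSubgroup H, 1 + τ < (K'.index : ℝ) * pr z K' ∧
        (K'.index : ℝ) * pr z K' ≤ (1 + τ) * Q := by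
  induction n using Nat.strong_induction_on with
  | _ n ih =>
    intro K hn hK
    by_cases hle : (K.index : ℝ) * pr z K ≤ (1 + τ) * Q
    · exact ⟨K, hK, hle⟩
    push Not at hle
    have hKt : K ≠ ⊤ := by
      rintro rfl
      rw [AddSubgroup.index_top, Nat.cast_one, one_mul] at hK
      linarith [pr_le_one z ⊤]
    obtain ⟨p, K', hp, hpd, hKK, hi⟩ := exists_up hKt
    have hpQ := hQ p hp hpd
    have hp0 : (0 : ℝ) < p := by exact_mod_cast hp.pos
    have h1 : (K.index : ℝ) * pr z K ≤ p * ((K'.index : ℝ) * pr z K') := by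
      rw [hi, Nat.cast_mul, mul_assoc]
      exact mul_le_mul_of_nonneg_left (mul_le_mul_of_nonneg_left (pr_mono z hKK)
        (Nat.cast_nonneg _)) hp0.le
    have hg : 0 ≤ (K'.index : ℝ) * pr z K' := mul_nonneg (Nat.cast_nonneg _) (pr_nonneg z K')
    have h2 : (1 + τ) * Q < Q * ((K'.index : ℝ) * pr z K') :=
      hle.trans_le (h1.trans (mul_le_mul_of_nonneg_right hpQ hg))
    have h3 : 1 + τ < (K'.index : ℝ) * pr z K' := by
      have hQ0 : 0 < Q := by linarith
      rw [mul_comm] at h2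
      exact lt_of_mul_lt_mul_left h2 hQ0.le
    have h4 : K'.index < n := by
      rw [← hn, hi]
      have := index_pos K'
      nlinarith [hp.two_le]
    exact ih _ h4 K' rfl h3

theorem stmtChain : StmtChain := by
  intro H _ _ m z τ Q hτ hQ hQ1 hz
  classical
  have h0 : gZ 8 z = Fintype.card H * gpr 8 z 0 := (gpr_zero_eq (by norm_num) _).symm
  have h1 : gpr 8 z 0 = pr z ⊥ := by
    unfold gpr pr
    rw [Fintype.card_fin]
    congr 2
  have h2 : (Fintype.card H : ℝ) = ((⊥ : AddSubgroup H).index : ℝ) := by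
    rw [AddSubgroup.index_bot, Nat.card_eq_fintype_card]
  rw [h0, h1, h2] at hz
  obtain ⟨K, hK1, hK2⟩ := chain_aux z hτ hQ1 hQ _ ⊥ rfl hz
  exact ⟨K, fun i => by rw [gZ_quot z K i]; exact ⟨hK1, hK2⟩⟩

end Vale.Agent.P160.Half.M67.C520
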