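import Vale.Agent.P160.Half.M67Stmt

/-! P160-HALF, block (M): the chain lemma `M67.StmtChain` (helper721).

`gZ 8 (z mod K) = |H/K| P(walk ∈ K)`; take `K` maximal with `1 + τ < gZ 8 (z mod K)` and one more subgroup `K' > K` with
`[K' : K]` prime. -/

open Finset

namespace Vale.Agent.P160.Half.Chain721

open Vale.Agent.P160 Vale.Agent.P160.Half Vale.Agent.P160.Half.Flat

variable {H : Type} [AddCommGroup H]

/-- number of seeds with the walk in `K` -/
noncomputable def cK {m : ℕ} (M : ℕ) (z : Fin m → H) (K : AddSubgroup H) : ℕ :=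
  Nat.card {ω : Fin m → Fin M // gwalk ω z ∈ K}

theorem cK_mono {m M : ℕ} (z : Fin m → H) {K K' : AddSubgroup H} (h : K ≤ K') :
    cK M z K ≤ cK M z K' :=
  Nat.card_le_card_of_injective
    (fun ω : {ω : Fin m → Fin M // gwalk ω z ∈ K} => (⟨ω.1, h ω.2⟩ : {ω : Fin m → Fin M // gwalk ω z ∈ K'}))
    (fun a b h => Subtype.ext (by simpa using h))

theorem cK_top {m M : ℕ} (z : Fin m → H) : cK M z ⊤ = M ^ m := by
  unfold cK
  rw [Nat.card_congr (Equiv.subtypeUnivEquiv fun _ => AddSubgroup.mem_top _)]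
  simp

/-- `gZ` of a group as a count -/
theorem gZ_eq {G : Type} [AddCommGroup G] [Fintype G] {m M : ℕ} (hM : 2 ≤ M) (y : Fin m → G) :
    gZ M y * (M : ℝ) ^ m = Nat.card G * cK M y ⊥ := by
  classical
  have hM0 : ((M : ℝ) ^ m) ≠ 0 := by
    have : (0 : ℝ) < M := by exact_mod_cast (by omega : 0 < M)
    positivity
  unfold gZ gP cK
  rw [← gpr_zero_eq hM y, gpr, Nat.card_eq_fintype_card, Nat.card_eq_fintype_card, Fintype.card_subtype, Fintype.card_fin]
  simp only [AddSubgroup.mem_bot]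
  field_simp

theorem gwalk_map {G : Type} [AddCommGroup G] (f : H →+ G) {m M : ℕ} (ω : Fin m → Fin M) (z : Fin m → H) :
    gwalk ω (fun j => f (z j)) = f (gwalk ω z) := by
  unfold gwalk
  rw [map_sum]
  exact sum_congr rfl fun e _ => (map_zsmul f _ _).symm

/-- `gZ` of a quotient -/
theorem gZ_quot [Fintype H] {m M : ℕ} (hM : 2 ≤ M) (z : Fin m → H) (K : AddSubgroup H) (_ : Fintype (H ⧸ K)) :
    gZ M (fun j => (QuotientAddGroup.mk (z j) : H ⧸ K)) * (Nat.card K * (M : ℝ) ^ m) = Nat.card H * cK M z K := by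
  have h1 := gZ_eq hM (fun j => (QuotientAddGroup.mk (z j) : H ⧸ K))
  have h2 : cK M (fun j => (QuotientAddGroup.mk (z j) : H ⧸ K)) ⊥ = cK M z K := by
    unfold cK
    refine Nat.card_congr (Equiv.subtypeEquivRight fun ω => ?_)
    have h3 := gwalk_map (QuotientAddGroup.mk' K) ω z
    simp only [QuotientAddGroup.mk'_apply] at h3
    rw [h3, AddSubgroup.mem_bot, QuotientAddGroup.eq_zero_iff]
  have h4 : Nat.card H = Nat.card (H ⧸ K) * Nat.card K := AddSubgroup.card_eq_card_quotient_mul_card_addSubgroup K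
  rw [h2] at h1
  rw [h4]
  push_cast
  calc _ = (gZ M (fun j => (QuotientAddGroup.mk (z j) : H ⧸ K)) * (M : ℝ) ^ m) * Nat.card K := by ring
    _ = _ := by rw [h1]; ring

/-- a subgroup of prime index above a proper subgroup -/
theorem exists_prime_step [Finite H] (K : AddSubgroup H) (hK : K ≠ ⊤) :
    ∃ K' : AddSubgroup H, K < K' ∧ ∃ p : ℕ, p.Prime ∧ p ∣ Nat.card H ∧ Nat.card K' = p * Nat.card K := by
  have hq : Nat.card (H ⧸ K) ≠ 1 := by
    intro h
    apply hK
    have := AddSubgroup.index_eq_one (H := K)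
    exact this.1 h
  obtain ⟨p, hp, hpd⟩ := Nat.exists_prime_and_dvd hq
  have : Fact p.Prime := ⟨hp⟩
  obtain ⟨x, hx⟩ := exists_prime_addOrderOf_dvd_card' (G := H ⧸ K) p hpd
  set K' := (AddSubgroup.zmultiples x).comap (QuotientAddGroup.mk' K) with hK'
  have hle : K ≤ K' := by
    intro k hk
    rw [hK', AddSubgroup.mem_comap]
    have : (QuotientAddGroup.mk' K) k = 0 := (QuotientAddGroup.eq_zero_iff k).2 hk
    rw [this]
    exact zero_mem _
  have hcard : Nat.card K' = p * Nat.card K := by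
    have h1 : Nat.card K' * K'.index = Nat.card H := AddSubgroup.card_mul_index K'
    have h2 : Nat.card (AddSubgroup.zmultiples x) * (AddSubgroup.zmultiples x).index = Nat.card (H ⧸ K) :=
      AddSubgroup.card_mul_index _
    have h3 : K'.index = (AddSubgroup.zmultiples x).index :=
      AddSubgroup.index_comap_of_surjective _ (QuotientAddGroup.mk'_surjective K)
    have h4 : Nat.card H = Nat.card (H ⧸ K) * Nat.card K := AddSubgroup.card_eq_card_quotient_mul_card_addSubgroup K
    have h5 : 0 < K'.index := Nat.pos_of_ne_zero AddSubgroup.index_ne_zero_of_finite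
    rw [Nat.card_zmultiples, hx] at h2
    apply Nat.eq_of_mul_eq_mul_right h5
    rw [h1, h4, ← h2, h3]
    ring
  have hp' : p ∣ Nat.card H := hpd.trans ⟨_, AddSubgroup.card_eq_card_quotient_mul_card_addSubgroup K⟩
  refine ⟨K', lt_of_le_of_ne hle ?_, p, hp, hp', hcard⟩
  intro h
  have h5 := hcard
  rw [← h] at h5
  have h6 : 0 < Nat.card K := Nat.card_pos
  have h7 := hp.two_le
  nlinarith

theorem stmtChain : M67.StmtChain := by
  intro H _ _ m z τ Q hτ hp hQ hz
  classical
  have hc : (0 : ℝ) < (8 : ℝ) ^ m := by positivity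
  have hH : (0 : ℝ) < Nat.card H := by exact_mod_cast Nat.card_pos
  set F : AddSubgroup H → ℝ := fun K => (Nat.card H : ℝ) * cK 8 z K / (Nat.card K * (8 : ℝ) ^ m) with hF
  have hKpos : ∀ K : AddSubgroup H, (0 : ℝ) < Nat.card K := fun K => by exact_mod_cast Nat.card_pos
  have hgZ : ∀ (K : AddSubgroup H) (i : Fintype (H ⧸ K)),
      gZ 8 (fun j => (QuotientAddGroup.mk (z j) : H ⧸ K)) = F K := by
    intro K i
    have h := gZ_quot (M := 8) (by norm_num) z K i
    have h1 := hKpos K
    rw [hF]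
    simp only
    rw [eq_div_iff (by positivity)]
    exact_mod_cast h
  have hbot : 1 + τ < F ⊥ := by
    have h := gZ_eq (M := 8) (by norm_num) z
    have h2 : F ⊥ = gZ 8 z := by
      rw [hF]
      simp only [AddSubgroup.card_bot, Nat.cast_one, one_mul]
      rw [div_eq_iff (by positivity)]
      exact_mod_cast h.symm
    rw [h2]
    exact hz
  have htop : F ⊤ = 1 := by
    rw [hF]
    simp only
    rw [cK_top, AddSubgroup.card_top]
    push_cast
    exact div_self (by positivity)
  -- a maximal subgroup with the property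
  obtain ⟨K, hK, hmax⟩ := (Set.toFinite {K : AddSubgroup H | 1 + τ < F K}).exists_maximalFor id _ ⟨⊥, hbot⟩
  have hKne : K ≠ ⊤ := by
    rintro rfl
    have : 1 + τ < F ⊤ := hK
    rw [htop] at this
    linarith
  obtain ⟨K', hlt, p, hpp, hpd, hcard⟩ := exists_prime_step K hKne
  have hK' : F K' ≤ 1 + τ := by
    by_contra h
    exact absurd (hmax (not_le.1 h) hlt.le) (not_le_of_gt hlt)
  have hpQ : (p : ℝ) ≤ Q := hp p hpp (by rwa [Nat.card_eq_fintype_card] at hpd)
  have hp0 : (0 : ℝ) < p := by exact_mod_cast hpp.pos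
  have hstep : F K ≤ p * F K' := by
    rw [hF]
    simp only
    rw [hcard]
    have h1 : (cK 8 z K : ℝ) ≤ cK 8 z K' := by exact_mod_cast cK_mono z hlt.le
    have h2 := hKpos K
    push_cast
    rw [show (p : ℝ) * ((Nat.card H : ℝ) * cK 8 z K' / (p * Nat.card K * (8 : ℝ) ^ m)) =
      (Nat.card H : ℝ) * cK 8 z K' / (Nat.card K * (8 : ℝ) ^ m) by field_simp]
    gcongr
  refine ⟨K, fun i => ?_⟩
  rw [hgZ K i]
  refine ⟨hK, hstep.trans ?_⟩
  calc (p : ℝ) * F K' ≤ p * (1 + τ) := by gcongr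
    _ ≤ Q * (1 + τ) := by gcongr
    _ = (1 + τ) * Q := by ring

end Vale.Agent.P160.Half.Chain721
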