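import Vale.Agent.P160.Half.Good439

/-! P160-HALF, block (M): the chain of quotients for a general finite abelian group. -/

namespace Vale.Agent.P160.Half.ChainG439

open Finset Vale.Agent.P160 Vale.Agent.P160.Half.Flat Vale.Agent.P160.Half.Good439

/-- **CHAIN**: some quotient is critical: `Z` exceeds the threshold `τ` but is at most `τ P`. -/
theorem chain {G : Type} [AddCommGroup G] [Fintype G] {m : ℕ} (τ P : ℝ) (hτ : 1 < τ)
    (hP : ∀ q : ℕ, q.Prime → q ∣ Fintype.card G → (q : ℝ) ≤ P) (w : Fin m → G) (hw : τ ≤ gZ 8 w) :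
    ∃ K : AddSubgroup G, ∃ (_ : Fintype (G ⧸ K)), τ ≤ gZ 8 (fun c => (w c : G ⧸ K)) ∧
      gZ 8 (fun c => (w c : G ⧸ K)) ≤ P * τ := by
  classical
  have hfin : ∀ K : AddSubgroup G, Fintype (G ⧸ K) := fun K => Fintype.ofFinite _
  -- subgroups with the property
  have hex : ∃ n : ℕ, ∃ K : AddSubgroup G, Nat.card (G ⧸ K) = n ∧
      τ ≤ gZ 8 (fun c => (w c : G ⧸ K)) := by
    refine ⟨_, ⊥, rfl, ?_⟩
    have h1 := gZ_map ((QuotientAddGroup.mk' (⊥ : AddSubgroup G))) w
    have h2 : Fintype.card (G ⧸ (⊥ : AddSubgroup G)) = Fintype.card G :=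
      Fintype.card_congr (QuotientAddGroup.quotientBot (G := G)).toEquiv
    rw [h2] at h1
    have h3 : (0 : ℝ) < Fintype.card G := by exact_mod_cast Fintype.card_pos
    exact hw.trans (le_of_mul_le_mul_left h1 h3)
  obtain ⟨K, hK, hKτ⟩ := Nat.find_spec hex
  have hmin := fun n hn => Nat.find_min hex (m := n) hn
  set n₀ := Nat.find hex with hn₀
  -- `G ⧸ K` is nontrivial
  have hnt : Nontrivial (G ⧸ K) := by
    by_contra hcon
    rw [not_nontrivial_iff_subsingleton] at hcon
    have := gZ_subsingleton (fun c => (w c : G ⧸ K))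
    linarith
  have hcard1 : Fintype.card (G ⧸ K) ≠ 1 := by
    have := Fintype.one_lt_card (α := G ⧸ K)
    omega
  obtain ⟨q, hq, hqd⟩ := Nat.exists_prime_and_dvd hcard1
  have := Fact.mk hq
  obtain ⟨x, hx⟩ := exists_prime_addOrderOf_dvd_card q hqd
  set C : AddSubgroup (G ⧸ K) := AddSubgroup.zmultiples x with hC
  set K' : AddSubgroup G := C.comap (QuotientAddGroup.mk' K) with hK'
  have hKK' : K ≤ K' := by
    intro g hg
    rw [hK', AddSubgroup.mem_comap]
    have : QuotientAddGroup.mk' K g = 0 := by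
      rw [QuotientAddGroup.mk'_apply, QuotientAddGroup.eq_zero_iff]
      exact hg
    rw [this]
    exact C.zero_mem
  -- the induced map
  let φ : (G ⧸ K) →+ (G ⧸ K') := QuotientAddGroup.map K K' (AddMonoidHom.id G) hKK'
  have hφs : Function.Surjective φ := by
    intro y
    obtain ⟨g, rfl⟩ := QuotientAddGroup.mk_surjective y
    exact ⟨(g : G ⧸ K), rfl⟩
  have hker : φ.ker = C := by
    ext y
    obtain ⟨g, rfl⟩ := QuotientAddGroup.mk_surjective y
    rw [AddMonoidHom.mem_ker]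
    show ((g : G ⧸ K') = 0) ↔ _
    rw [QuotientAddGroup.eq_zero_iff, hK', AddSubgroup.mem_comap]
    rfl
  have hcardK' : Fintype.card (G ⧸ K) = q * Fintype.card (G ⧸ K') := by
    have h1 : Nat.card (G ⧸ K) = Nat.card ((G ⧸ K) ⧸ C) * Nat.card C :=
      AddSubgroup.card_eq_card_quotient_mul_card_addSubgroup C
    have h2 : Nat.card ((G ⧸ K) ⧸ C) = Nat.card (G ⧸ K') := by
      rw [← hker]
      exact Nat.card_congr (QuotientAddGroup.quotientKerEquivOfSurjective φ hφs).toEquiv
    have h3 : Nat.card C = q := by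
      rw [hC, Nat.card_zmultiples, hx]
    rw [← Nat.card_eq_fintype_card, h1, h2, h3, ← Nat.card_eq_fintype_card, mul_comm]
  have hpos : 0 < Fintype.card (G ⧸ K') := Fintype.card_pos
  have hlt : Nat.card (G ⧸ K') < n₀ := by
    have h2 : Nat.card (G ⧸ K) = n₀ := hK
    rw [← h2, Nat.card_eq_fintype_card, Nat.card_eq_fintype_card, hcardK']
    have := hq.two_le
    nlinarith
  have hsmall : gZ 8 (fun c => (w c : G ⧸ K')) < τ := by
    by_contra hcon
    push Not at hcon
    exact hmin _ hlt ⟨K', rfl, hcon⟩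
  refine ⟨K, hfin K, hKτ, ?_⟩
  have h5 := gZ_map φ (fun c => (w c : G ⧸ K))
  rw [hcardK'] at h5
  have h6 : (0 : ℝ) < Fintype.card (G ⧸ K') := by exact_mod_cast hpos
  have h7 : gZ 8 (fun c => (w c : G ⧸ K)) ≤ q * gZ 8 (fun c => φ (w c : G ⧸ K)) := by
    refine le_of_mul_le_mul_left ?_ h6
    refine h5.trans (le_of_eq ?_)
    push_cast
    ring
  have h8 : gZ 8 (fun c => φ (w c : G ⧸ K)) < τ := hsmall
  have h9 : (q : ℝ) ≤ P := by
    refine hP q hq ?_
    refine hqd.trans ?_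
    rw [← Nat.card_eq_fintype_card, ← Nat.card_eq_fintype_card]
    exact AddSubgroup.card_quotient_dvd_card K
  have h10 : (0 : ℝ) ≤ gZ 8 (fun c => φ (w c : G ⧸ K)) := gZ_nonneg _
  have hq0 : (0 : ℝ) ≤ q := by positivity
  nlinarith

end Vale.Agent.P160.Half.ChainG439
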