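import Mathlib

/-!
(R) of helper624's note 11242, abstract form.

Events `A i` (`i` in a finset `I`, `m` of them) in a finite uniform space `Om`. If for all sets
`S` of size `u` the number of points in all `A i`, `i` in `S`, is at most `C0 * q ^ u * card Om`,
then the number of points in at least `s` of the events is at most
`C0 * choose m u * q ^ u / choose s u * card Om` (`fact_moment`), and for `s + 1 >= (m + 1) q` this
is at most `C0 * (m + 1) * choose m s * q ^ s * (1 - q) ^ (m - s) * card Om` (`chern_pmf`).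
With different `q i` : `exp_moment`.
-/

namespace Vale.Agent.P160.Half.Chern471

open Finset

variable {Om ι : Type*} [Fintype Om]

open Classical in
/-- factorial moment = sum over sets of size `u`. -/
theorem sum_choose (I : Finset ι) (A : ι → Om → Prop) (u : ℕ) :
    ∑ w : Om, ((I.filter fun i => A i w).card.choose u)
      = ∑ S ∈ I.powersetCard u, (univ.filter fun w : Om => ∀ i ∈ S, A i w).card := by
  simp_rw [Finset.card_filter]
  rw [Finset.sum_comm]
  refine Finset.sum_congr rfl fun w _ => ?_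
  rw [← Finset.card_filter, ← Finset.card_filter, ← Finset.card_powersetCard]
  congr 1
  ext S
  simp only [Finset.mem_powersetCard, Finset.mem_filter, Finset.subset_iff]
  constructor
  · rintro ⟨h1, h2⟩
    exact ⟨⟨fun x hx => (h1 hx).1, h2⟩, fun x hx => (h1 hx).2⟩
  · rintro ⟨⟨h1, h2⟩, h3⟩
    exact ⟨fun x hx => ⟨h1 hx, h3 x hx⟩, h2⟩

open Classical in
/-- (R), factorial moment form. -/
theorem fact_moment (I : Finset ι) (A : ι → Om → Prop) (u s : ℕ) (C0 q : ℝ)
    (h : ∀ S ⊆ I, S.card = u →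
      ((univ.filter fun w : Om => ∀ i ∈ S, A i w).card : ℝ) ≤ C0 * q ^ u * Fintype.card Om) :
    ((univ.filter fun w : Om => s ≤ (I.filter fun i => A i w).card).card : ℝ) * (s.choose u : ℝ)
      ≤ C0 * (I.card.choose u : ℝ) * q ^ u * Fintype.card Om := by
  have h1 : ((univ.filter fun w : Om => s ≤ (I.filter fun i => A i w).card).card : ℝ)
      * (s.choose u : ℝ) ≤ ∑ w : Om, (((I.filter fun i => A i w).card.choose u : ℕ) : ℝ) := by
    rw [← nsmul_eq_mul, ← Finset.sum_const, Finset.sum_filter]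
    refine Finset.sum_le_sum fun w _ => ?_
    split_ifs with hw
    · exact_mod_cast Nat.choose_le_choose u hw
    · positivity
  refine h1.trans ?_
  have h2 : ∑ w : Om, (((I.filter fun i => A i w).card.choose u : ℕ) : ℝ)
      = ∑ S ∈ I.powersetCard u, ((univ.filter fun w : Om => ∀ i ∈ S, A i w).card : ℝ) := by
    exact_mod_cast sum_choose I A u
  rw [h2]
  calc ∑ S ∈ I.powersetCard u, ((univ.filter fun w : Om => ∀ i ∈ S, A i w).card : ℝ)
      ≤ ∑ S ∈ I.powersetCard u, C0 * q ^ u * Fintype.card Om := by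
        refine Finset.sum_le_sum fun S hS => ?_
        rw [Finset.mem_powersetCard] at hS
        exact h S hS.1 hS.2
    _ = C0 * (I.card.choose u : ℝ) * q ^ u * Fintype.card Om := by
        rw [Finset.sum_const, Finset.card_powersetCard, nsmul_eq_mul]; ring

/-- one term of the binomial law. -/
noncomputable def pm (n : ℕ) (q : ℝ) (i : ℕ) : ℝ := (n.choose i : ℝ) * q ^ i * (1 - q) ^ (n - i)

theorem pm_nonneg {n : ℕ} {q : ℝ} (h0 : 0 ≤ q) (h1 : q ≤ 1) (i : ℕ) : 0 ≤ pm n q i := by
  unfold pm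
  have : 0 ≤ 1 - q := by linarith
  positivity

theorem sum_pm (n : ℕ) (q : ℝ) : ∑ i ∈ range (n + 1), pm n q i = 1 := by
  have h := add_pow q (1 - q) n
  have h2 : (q + (1 - q)) ^ n = 1 := by simp
  rw [h2] at h
  rw [h]
  refine Finset.sum_congr rfl fun i _ => ?_
  unfold pm; ring

/-- the relation between neighbouring terms. -/
theorem pm_succ {n i : ℕ} (hi : i < n) (q : ℝ) :
    pm n q (i + 1) * ((i + 1 : ℝ) * (1 - q)) = pm n q i * ((n - i : ℝ) * q) := by
  unfold pm
  have h1 : ((n.choose (i + 1) : ℕ) : ℝ) * (i + 1 : ℝ) = (n.choose i : ℝ) * ((n : ℝ) - i) := by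
    have := Nat.choose_succ_right_eq n i
    have h2 : ((n.choose (i + 1) * (i + 1) : ℕ) : ℝ) = ((n.choose i * (n - i) : ℕ) : ℝ) := by
      rw [this]
    push_cast [Nat.cast_sub hi.le] at h2
    linarith
  have h3 : n - i = (n - (i + 1)) + 1 := by omega
  rw [h3, pow_succ (1 - q), pow_succ q]
  linear_combination (q ^ i * q * (1 - q) ^ (n - (i + 1)) * (1 - q)) * h1

theorem pm_le_succ {n i : ℕ} (hi : i < n) {q : ℝ} (h0 : 0 < q) (h1 : q < 1)
    (h : (i + 1 : ℝ) ≤ (n + 1) * q) : pm n q i ≤ pm n q (i + 1) := by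
  have e := pm_succ hi q
  have hp : 0 < (i + 1 : ℝ) * (1 - q) := by
    have : (0 : ℝ) < 1 - q := by linarith
    positivity
  have hle : (i + 1 : ℝ) * (1 - q) ≤ ((n : ℝ) - i) * q := by nlinarith
  have hn := pm_nonneg (n := n) h0.le h1.le i
  have : pm n q i * ((i + 1 : ℝ) * (1 - q)) ≤ pm n q (i + 1) * ((i + 1 : ℝ) * (1 - q)) := by
    rw [e]; exact mul_le_mul_of_nonneg_left hle hn
  exact le_of_mul_le_mul_right this hp

theorem pm_succ_le {n i : ℕ} (hi : i < n) {q : ℝ} (h0 : 0 < q) (h1 : q < 1)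
    (h : (n + 1) * q ≤ (i + 1 : ℝ)) : pm n q (i + 1) ≤ pm n q i := by
  have e := pm_succ hi q
  have hp : 0 < (i + 1 : ℝ) * (1 - q) := by
    have : (0 : ℝ) < 1 - q := by linarith
    positivity
  have hle : ((n : ℝ) - i) * q ≤ (i + 1 : ℝ) * (1 - q) := by nlinarith
  have hn := pm_nonneg (n := n) h0.le h1.le i
  have : pm n q (i + 1) * ((i + 1 : ℝ) * (1 - q)) ≤ pm n q i * ((i + 1 : ℝ) * (1 - q)) := by
    rw [e]; exact mul_le_mul_of_nonneg_left hle hn
  exact le_of_mul_le_mul_right this hp

/-- a mode of the binomial law has mass at least `1 / (n + 1)`. -/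
theorem mode {n j : ℕ} (hj : j ≤ n) {q : ℝ} (h0 : 0 < q) (h1 : q < 1)
    (hl : (j : ℝ) ≤ (n + 1) * q) (hr : (n + 1) * q ≤ j + 1) :
    1 ≤ (n + 1 : ℝ) * pm n q j := by
  have up : ∀ d, d ≤ j → pm n q (j - d) ≤ pm n q j := by
    intro d
    induction d with
    | zero => intro _; simp
    | succ d ih =>
      intro hd
      refine le_trans ?_ (ih (by omega))
      have e : j - d = (j - (d + 1)) + 1 := by omega
      rw [e]
      refine pm_le_succ (by omega) h0 h1 ?_
      refine le_trans ?_ hl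
      have : (j - (d + 1)) + 1 ≤ j := by omega
      exact_mod_cast this
  have dn : ∀ d, j + d ≤ n → pm n q (j + d) ≤ pm n q j := by
    intro d
    induction d with
    | zero => intro _; simp
    | succ d ih =>
      intro hd
      refine le_trans ?_ (ih (by omega))
      have e : j + (d + 1) = (j + d) + 1 := by omega
      rw [e]
      refine pm_succ_le (by omega) h0 h1 ?_
      refine hr.trans ?_
      push_cast
      linarith [(Nat.cast_nonneg d : (0 : ℝ) ≤ d)]
  have all : ∀ i ∈ range (n + 1), pm n q i ≤ pm n q j := by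
    intro i hi
    rw [Finset.mem_range] at hi
    rcases le_total i j with hij | hij
    · have := up (j - i) (by omega)
      rwa [show j - (j - i) = i by omega] at this
    · have := dn (i - j) (by omega)
      rwa [show j + (i - j) = i by omega] at this
  have hs := Finset.sum_le_sum all
  rw [sum_pm, Finset.sum_const, Finset.card_range, nsmul_eq_mul] at hs
  push_cast at hs
  exact hs

/-- the best order `u` of the factorial moment. -/
theorem exists_order {m s : ℕ} (hs : s ≤ m) {q : ℝ} (h0 : 0 < q) (_h1 : q < 1)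
    (hq : (m + 1) * q ≤ s + 1) :
    ∃ u, u ≤ s ∧ ((s - u : ℕ) : ℝ) ≤ ((m - u : ℕ) + 1) * q ∧
      ((m - u : ℕ) + 1) * q ≤ ((s - u : ℕ) : ℝ) + 1 := by
  classical
  have hex : ∃ u, u ≤ s ∧ ((s - u : ℕ) : ℝ) ≤ ((m - u : ℕ) + 1) * q := by
    refine ⟨s, le_rfl, ?_⟩
    simp
    positivity
  let u := Nat.find hex
  obtain ⟨hu1, hu2⟩ := Nat.find_spec hex
  refine ⟨u, hu1, hu2, ?_⟩
  by_cases hz : u = 0
  · rw [hz]; simpa using hq
  · have hlt : u - 1 < Nat.find hex := by
      change u - 1 < u
      omega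
    have hmin := Nat.find_min hex hlt
    have hus : u ≤ s := hu1
    have h3 : ¬ (((s - (u - 1) : ℕ) : ℝ) ≤ ((m - (u - 1) : ℕ) + 1) * q) := by
      intro h4; exact hmin ⟨by omega, h4⟩
    push Not at h3
    have e1 : s - (u - 1) = (s - u) + 1 := by omega
    have e2 : m - (u - 1) = (m - u) + 1 := by omega
    rw [e1, e2] at h3
    push_cast at h3
    nlinarith

open Classical in
/-- (R), binomial form: the number of points in at least `s` of the `m` events is at most
`C0 (m + 1) Bin(m, q)(s)`. -/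
theorem chern_pmf (I : Finset ι) (A : ι → Om → Prop) (s : ℕ) (C0 q : ℝ)
    (hC : 0 ≤ C0) (h0 : 0 < q) (h1 : q < 1) (hsm : s ≤ I.card)
    (hq : (I.card + 1) * q ≤ s + 1)
    (h : ∀ S ⊆ I, S.card ≤ s →
      ((univ.filter fun w : Om => ∀ i ∈ S, A i w).card : ℝ)
        ≤ C0 * q ^ S.card * Fintype.card Om) :
    ((univ.filter fun w : Om => s ≤ (I.filter fun i => A i w).card).card : ℝ)
      ≤ C0 * (I.card + 1) * ((I.card.choose s : ℝ) * q ^ s * (1 - q) ^ (I.card - s))
        * Fintype.card Om := by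
  obtain ⟨u, hus, hl, hr⟩ := exists_order hsm h0 h1 hq
  have hf := fact_moment I A u s C0 q (fun S hS hc => by
    have := h S hS (by omega)
    rwa [hc] at this)
  set m := I.card with hm
  set X : ℝ := ((univ.filter fun w : Om => s ≤ (I.filter fun i => A i w).card).card : ℝ) with hX
  have hmode := mode (n := m - u) (j := s - u) (by omega) h0 h1 hl hr
  unfold pm at hmode
  have hsu : (m - u) - (s - u) = m - s := by omega
  rw [hsu] at hmode
  have hc : (m.choose u : ℝ) * ((m - u).choose (s - u) : ℝ) = (m.choose s : ℝ) * (s.choose u : ℝ) := by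
    have := Nat.choose_mul (n := m) hus
    have h2 : ((m.choose s * s.choose u : ℕ) : ℝ) = ((m.choose u * (m - u).choose (s - u) : ℕ) : ℝ) := by
      rw [this]
    push_cast at h2
    linarith
  have hcs : (0 : ℝ) < (s.choose u : ℝ) := by
    exact_mod_cast Nat.choose_pos hus
  have hOm : (0 : ℝ) ≤ Fintype.card Om := by positivity
  have h1q : (0 : ℝ) < 1 - q := by linarith
  have hK : (0 : ℝ) ≤ C0 * (m.choose u : ℝ) * q ^ u * Fintype.card Om := by positivity
  have step : C0 * (m.choose u : ℝ) * q ^ u * Fintype.card Om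
      ≤ (C0 * (m + 1) * ((m.choose s : ℝ) * q ^ s * (1 - q) ^ (m - s)) * Fintype.card Om)
        * (s.choose u : ℝ) := by
    have e1 : q ^ s = q ^ u * q ^ (s - u) := by
      rw [← pow_add]; congr 1; omega
    have hmu : (((m - u : ℕ) : ℝ) + 1) ≤ (m : ℝ) + 1 := by
      have : (m - u : ℕ) ≤ m := Nat.sub_le _ _
      have : ((m - u : ℕ) : ℝ) ≤ (m : ℝ) := by exact_mod_cast this
      linarith
    have hb : (0 : ℝ) ≤ ((m - u).choose (s - u) : ℝ) * q ^ (s - u) * (1 - q) ^ (m - s) := by
      positivity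
    have hmode2 : 1 ≤ ((m : ℝ) + 1)
        * (((m - u).choose (s - u) : ℝ) * q ^ (s - u) * (1 - q) ^ (m - s)) :=
      hmode.trans (mul_le_mul_of_nonneg_right hmu hb)
    calc C0 * (m.choose u : ℝ) * q ^ u * Fintype.card Om
        = (C0 * (m.choose u : ℝ) * q ^ u * Fintype.card Om) * 1 := by ring
      _ ≤ (C0 * (m.choose u : ℝ) * q ^ u * Fintype.card Om) * (((m : ℝ) + 1)
            * (((m - u).choose (s - u) : ℝ) * q ^ (s - u) * (1 - q) ^ (m - s))) :=
          mul_le_mul_of_nonneg_left hmode2 hK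
      _ = (C0 * (m + 1) * q ^ u * q ^ (s - u) * (1 - q) ^ (m - s) * Fintype.card Om)
            * ((m.choose u : ℝ) * ((m - u).choose (s - u) : ℝ)) := by ring
      _ = (C0 * (m + 1) * ((m.choose s : ℝ) * q ^ s * (1 - q) ^ (m - s)) * Fintype.card Om)
            * (s.choose u : ℝ) := by rw [hc, e1]; ring
  exact le_of_mul_le_mul_right (hf.trans step) hcs

open Classical in
/-- exponential moment with different `q i`: `E prod (1 + z 1_{A i}) <= C0 prod (1 + z q_i)`. -/
theorem exp_moment (I : Finset ι) (A : ι → Om → Prop) (C0 z : ℝ) (q : ι → ℝ) (hz : 0 ≤ z)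
    (h : ∀ S ⊆ I,
      ((univ.filter fun w : Om => ∀ i ∈ S, A i w).card : ℝ)
        ≤ C0 * (∏ i ∈ S, q i) * Fintype.card Om) :
    ∑ w : Om, (1 + z) ^ (I.filter fun i => A i w).card
      ≤ C0 * (∏ i ∈ I, (1 + z * q i)) * Fintype.card Om := by
  have e1 : ∀ w : Om, (1 + z) ^ (I.filter fun i => A i w).card
      = ∑ S ∈ I.powerset, if ∀ i ∈ S, A i w then z ^ S.card else 0 := by
    intro w
    have : (1 + z) ^ (I.filter fun i => A i w).card
        = ∏ i ∈ I, (1 + if A i w then z else 0) := by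
      rw [← Finset.prod_const, Finset.prod_filter]
      refine Finset.prod_congr rfl fun i _ => ?_
      split_ifs <;> simp
    rw [this, Finset.prod_one_add]
    refine Finset.sum_congr rfl fun S _ => ?_
    by_cases hS : ∀ i ∈ S, A i w
    · rw [if_pos hS, ← Finset.prod_const]
      exact Finset.prod_congr rfl fun i hi => by rw [if_pos (hS i hi)]
    · rw [if_neg hS]
      push Not at hS
      obtain ⟨i, hi, hA⟩ := hS
      exact Finset.prod_eq_zero hi (if_neg hA)
  simp_rw [e1]
  rw [Finset.sum_comm]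
  have e2 : ∏ i ∈ I, (1 + z * q i) = ∑ S ∈ I.powerset, z ^ S.card * ∏ i ∈ S, q i := by
    rw [Finset.prod_one_add]
    refine Finset.sum_congr rfl fun S _ => ?_
    rw [Finset.prod_mul_distrib, Finset.prod_const]
  rw [e2, Finset.mul_sum, Finset.sum_mul]
  refine Finset.sum_le_sum fun S hS => ?_
  rw [← Finset.sum_filter, Finset.sum_const, nsmul_eq_mul]
  have hS' := h S (Finset.mem_powerset.1 hS)
  calc ((univ.filter fun w : Om => ∀ i ∈ S, A i w).card : ℝ) * z ^ S.card
      ≤ (C0 * (∏ i ∈ S, q i) * Fintype.card Om) * z ^ S.card :=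
        mul_le_mul_of_nonneg_right hS' (by positivity)
    _ = _ := by ring

open Classical in
/-- tail form of `exp_moment`. -/
theorem exp_tail (I : Finset ι) (A : ι → Om → Prop) (s : ℕ) (C0 z : ℝ) (q : ι → ℝ) (hz : 0 ≤ z)
    (h : ∀ S ⊆ I,
      ((univ.filter fun w : Om => ∀ i ∈ S, A i w).card : ℝ)
        ≤ C0 * (∏ i ∈ S, q i) * Fintype.card Om) :
    ((univ.filter fun w : Om => s ≤ (I.filter fun i => A i w).card).card : ℝ) * (1 + z) ^ s
      ≤ C0 * (∏ i ∈ I, (1 + z * q i)) * Fintype.card Om := by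
  refine le_trans ?_ (exp_moment I A C0 z q hz h)
  rw [← nsmul_eq_mul, ← Finset.sum_const, Finset.sum_filter]
  refine Finset.sum_le_sum fun w _ => ?_
  split_ifs with hw
  · exact pow_le_pow_right₀ (by linarith) hw
  · positivity

end Vale.Agent.P160.Half.Chern471
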