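import Vale.Agent.P160.Half.Labels3
import Vale.Agent.P160.Half.Reveal

/-!
# P160, rate 1/2, gap (G), block G12: the number of labels

`G` finite abelian with a symmetric nondegenerate pairing, `H ≤ Q` isotropic, `Q` generated by `ρ`
elements, weighted count of the `Q`.
-/

namespace Vale.Agent.P160.Half.Cnt

open Finset Vale.Agent.P160.Half.Labels Vale.Agent.P160.Half.Rev

variable {G : Type*} [AddCommGroup G]

/-- `p ^ e` times the `p`-part of `Q` -/
noncomputable def pp (p e : ℕ) (Q : AddSubgroup G) : AddSubgroup G :=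
  (Q ⊓ prim G p).map (nsmulAddMonoidHom (p ^ e))

open Classical in
/-- weight of `R` over `H` -/
noncomputable def w0 (ρ p v : ℕ) (H R : AddSubgroup G) : ℝ :=
  if R = H then 0 else
    (ρ + 1) * ((v : ℝ) - 2 * Nat.log p (Nat.card R) + 2 * bb p (R ⧸ H.addSubgroupOf R))
      * Real.logb 2 p + 2 * Real.logb 2 (v + 1) + 3

/-- the weight of `Q` over `H` at the prime `p` -/
noncomputable def wt (ρ p e : ℕ) (H Q : AddSubgroup G) : ℝ :=
  w0 ρ p ((Nat.card G).factorization p) (pp p e H) (pp p e Q)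

/-- the elements of the `p`-part killed by `p ^ e` -/
noncomputable def tor (G : Type*) [AddCommGroup G] (p e : ℕ) : AddSubgroup G :=
  prim G p ⊓ (nsmulAddMonoidHom (p ^ e) : G →+ G).ker

/-! ### decomposition into primary parts -/

section dec

variable [Fintype G]

theorem ordCompl_smul_mem (p : ℕ) (x : G) :
    (Nat.card G / p ^ (Nat.card G).factorization p) • x ∈ prim G p := by
  rw [mem_prim, ← mul_smul]
  have h : p ^ (Nat.card G).factorization p * (Nat.card G / p ^ (Nat.card G).factorization p)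
      = Nat.card G := Nat.ordProj_mul_ordCompl_eq_self (Nat.card G) p
  rw [h]
  exact card_nsmul_eq_zero'

theorem le_of_prim_le {Q Q' : AddSubgroup G}
    (h : ∀ p ∈ (Nat.card G).primeFactors, Q ⊓ prim G p ≤ Q') : Q ≤ Q' := by
  intro x hx
  by_contra hx'
  set y : G ⧸ Q' := QuotientAddGroup.mk x with hy
  have hy0 : y ≠ 0 := fun h0 => hx' ((QuotientAddGroup.eq_zero_iff x).mp h0)
  have hd1 : addOrderOf y ≠ 1 := fun h1 => hy0 (AddMonoid.addOrderOf_eq_one_iff.mp h1)
  obtain ⟨p, hp, hpd⟩ := Nat.exists_prime_and_dvd hd1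
  have hn : Nat.card G ≠ 0 := Nat.card_pos.ne'
  have hdn : addOrderOf y ∣ Nat.card G := by
    refine (addOrderOf_dvd_natCard y).trans ?_
    exact Q'.card_quotient_dvd_card
  have hmem : p ∈ (Nat.card G).primeFactors := by
    rw [Nat.mem_primeFactors]
    exact ⟨hp, hpd.trans hdn, hn⟩
  have h1 : (Nat.card G / p ^ (Nat.card G).factorization p) • x ∈ Q' :=
    h p hmem ⟨Q.nsmul_mem hx _, ordCompl_smul_mem p x⟩
  have h2 : (Nat.card G / p ^ (Nat.card G).factorization p) • y = 0 := by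
    rw [hy]
    exact (QuotientAddGroup.eq_zero_iff _).mpr h1
  have h3 := addOrderOf_dvd_of_nsmul_eq_zero h2
  exact Nat.not_dvd_ordCompl hp hn (hpd.trans h3)

/-- the `p`-part of a `ρ`-generated subgroup is `ρ`-generated -/
theorem prim_gen {p : ℕ} (hp : p.Prime) {ρ : ℕ} {Q : AddSubgroup G} {g : Fin ρ → G}
    (hQ : Q = AddSubgroup.closure (Set.range g)) :
    ∃ g' : Fin ρ → G, Q ⊓ prim G p = AddSubgroup.closure (Set.range g') := by
  classical
  set n := Nat.card G with hndef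
  have hnpos : n ≠ 0 := Nat.card_pos.ne'
  set q := p ^ n.factorization p with hq
  set m := n / q with hm
  have hqm : q * m = n := Nat.ordProj_mul_ordCompl_eq_self n p
  have hcop : Nat.Coprime q m := by
    rw [hq, hm]
    exact (Nat.coprime_ordCompl hp hnpos).pow_left _
  obtain ⟨c, hc1, hc2⟩ := Nat.chineseRemainder hcop 1 0
  have hcprim : ∀ x : G, c • x ∈ prim G p := by
    intro x
    have hmc : m ∣ c := (Nat.modEq_zero_iff_dvd).mp hc2
    obtain ⟨d, hd⟩ := hmc
    have : c • x = d • (m • x) := by rw [hd, mul_comm, mul_smul]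
    rw [this]
    exact (prim G p).nsmul_mem (ordCompl_smul_mem p x) d
  have hcx : ∀ x ∈ prim G p, c • x = x := by
    intro x hx
    have h1 : addOrderOf x ∣ q := addOrderOf_dvd_of_nsmul_eq_zero (mem_prim.mp hx)
    have h2 : c ≡ 1 [MOD addOrderOf x] := hc1.of_dvd h1
    have h3 := nsmul_eq_nsmul_iff_modEq.mpr h2
    rwa [one_smul] at h3
  refine ⟨fun i => c • g i, ?_⟩
  have hmap : Q.map (nsmulAddMonoidHom c) = AddSubgroup.closure (Set.range fun i => c • g i) := by
    rw [hQ, AddMonoidHom.map_closure, ← Set.range_comp]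
    rfl
  rw [← hmap]
  ext x
  constructor
  · rintro ⟨h1, h2⟩
    exact ⟨x, h1, hcx x h2⟩
  · rintro ⟨y, hy, rfl⟩
    exact ⟨Q.nsmul_mem hy c, hcprim y⟩

end dec

/-! ### the fibres of `A ↦ p ^ e A` -/

theorem fiber_card [Fintype G] (f : G →+ G) (B R : AddSubgroup G) (ρ : ℕ)
    (S : Finset (AddSubgroup G)) (hB : ∀ A ∈ S, A ≤ B) (hR : ∀ A ∈ S, A.map f = R)
    (hg : ∀ A ∈ S, ∃ g : Fin ρ → G, A = AddSubgroup.closure (Set.range g)) :
    S.card ≤ (Nat.card (B ⊓ f.ker : AddSubgroup G)) ^ (2 * ρ) := by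
  classical
  rcases S.eq_empty_or_nonempty with h | ⟨A0, hA0⟩
  · rw [h]; simp
  set K : AddSubgroup G := B ⊓ f.ker with hK
  obtain ⟨g0, hg0⟩ := hg A0 hA0
  have hg0A : ∀ j, g0 j ∈ A0 := fun j => by
    rw [hg0]; exact AddSubgroup.subset_closure ⟨j, rfl⟩
  have key : ∀ A ∈ S, ∃ u z : Fin ρ → K,
      A = AddSubgroup.closure (Set.range (fun j => (u j : G) + g0 j) ∪ Set.range (fun i => (z i : G))) := by
    intro A hA
    obtain ⟨g, hgA⟩ := hg A hA
    have hgmem : ∀ i, g i ∈ A := fun i => by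
      rw [hgA]; exact AddSubgroup.subset_closure ⟨i, rfl⟩
    have h1 : ∀ j, ∃ y ∈ A, f y = f (g0 j) := by
      intro j
      have : f (g0 j) ∈ A.map f := by
        rw [hR A hA, ← hR A0 hA0]
        exact ⟨g0 j, hg0A j, rfl⟩
      obtain ⟨y, hy, hfy⟩ := this
      exact ⟨y, hy, hfy⟩
    choose y hyA hfy using h1
    have h2 : ∀ i, ∃ w ∈ AddSubgroup.closure (Set.range y), f w = f (g i) := by
      intro i
      have e1 : (AddSubgroup.closure (Set.range y)).map f = R := by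
        rw [AddMonoidHom.map_closure, ← Set.range_comp, ← hR A0 hA0, hg0,
          AddMonoidHom.map_closure, ← Set.range_comp]
        congr 1
        apply congrArg
        funext j
        exact hfy j
      have e2 : f (g i) ∈ (AddSubgroup.closure (Set.range y)).map f := by
        rw [e1, ← hR A hA]
        exact ⟨g i, hgmem i, rfl⟩
      obtain ⟨w, hw, hfw⟩ := e2
      exact ⟨w, hw, hfw⟩
    choose w hw hfw using h2
    have hcl : AddSubgroup.closure (Set.range y) ≤ A := by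
      rw [AddSubgroup.closure_le]
      rintro _ ⟨j, rfl⟩
      exact hyA j
    have hu : ∀ j, y j - g0 j ∈ K := by
      intro j
      refine AddSubgroup.mem_inf.mpr ⟨B.sub_mem (hB A hA (hyA j)) (hB A0 hA0 (hg0A j)), ?_⟩
      rw [AddMonoidHom.mem_ker, map_sub, hfy, sub_self]
    have hz : ∀ i, g i - w i ∈ K := by
      intro i
      refine AddSubgroup.mem_inf.mpr ⟨B.sub_mem (hB A hA (hgmem i)) (hB A hA (hcl (hw i))), ?_⟩
      rw [AddMonoidHom.mem_ker, map_sub, hfw, sub_self]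
    refine ⟨fun j => ⟨y j - g0 j, hu j⟩, fun i => ⟨g i - w i, hz i⟩, ?_⟩
    have e3 : (fun j => ((⟨y j - g0 j, hu j⟩ : K) : G) + g0 j) = y := by
      funext j
      exact sub_add_cancel _ _
    rw [e3]
    apply le_antisymm
    · conv_lhs => rw [hgA]
      rw [AddSubgroup.closure_le]
      rintro _ ⟨i, rfl⟩
      have e4 : g i = w i + (g i - w i) := by abel
      rw [SetLike.mem_coe, e4]
      refine AddSubgroup.add_mem _ ?_ ?_
      · exact AddSubgroup.closure_mono Set.subset_union_left (hw i)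
      · exact AddSubgroup.subset_closure (Or.inr ⟨i, rfl⟩)
    · rw [AddSubgroup.closure_le]
      rintro x (⟨j, rfl⟩ | ⟨i, rfl⟩)
      · exact hyA j
      · exact A.sub_mem (hgmem i) (hcl (hw i))
  choose! u z huz using key
  have h3 : S.card ≤ Nat.card ((Fin ρ → K) × (Fin ρ → K)) := by
    rw [← Fintype.card_coe S, ← Nat.card_eq_fintype_card]
    apply Nat.card_le_card_of_injective (fun A : S => (u A.1, z A.1))
    intro A A' hAA
    have e1 : u A.1 = u A'.1 := congrArg Prod.fst hAA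
    have e2 : z A.1 = z A'.1 := congrArg Prod.snd hAA
    apply Subtype.ext
    rw [huz A.1 A.2, huz A'.1 A'.2, e1, e2]
  rw [Nat.card_prod, Nat.card_fun, Nat.card_fin, ← pow_add, ← two_mul] at h3
  exact h3

/-! ### the image in `H^⊥ / H` -/

section red

variable [Fintype G] {N : ℕ} [NeZero N] (b : G →+ G →+ ZMod N)

/-- `R → H^⊥ / H` -/
def toRed (H R : AddSubgroup G) (hR : R ≤ perp b H) : R →+ Red b H :=
  (QuotientAddGroup.mk' (H.addSubgroupOf (perp b H))).comp (AddSubgroup.inclusion hR)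

theorem toRed_apply (H R : AddSubgroup G) (hR : R ≤ perp b H) (x : R) :
    toRed b H R hR x = QuotientAddGroup.mk ⟨x.1, hR x.2⟩ := rfl

theorem toRed_ker (H R : AddSubgroup G) (hR : R ≤ perp b H) :
    (toRed b H R hR).ker = H.addSubgroupOf R := by
  ext x
  rw [AddMonoidHom.mem_ker, toRed_apply, QuotientAddGroup.eq_zero_iff,
    AddSubgroup.mem_addSubgroupOf, AddSubgroup.mem_addSubgroupOf]

/-- `R / H` embeds -/
noncomputable def redEquiv (H R : AddSubgroup G) (hR : R ≤ perp b H) :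
    (R ⧸ H.addSubgroupOf R) ≃+ (toRed b H R hR).range :=
  (QuotientAddGroup.quotientAddEquivOfEq (toRed_ker b H R hR).symm).trans
    (QuotientAddGroup.quotientKerEquivRange (toRed b H R hR))

open Classical in
/-- the image of `R` in `H^⊥ / H` -/
noncomputable def im (H R : AddSubgroup G) : AddSubgroup (Red b H) :=
  if hR : R ≤ perp b H then (toRed b H R hR).range else ⊥

theorem im_eq {H R : AddSubgroup G} (hR : R ≤ perp b H) : im b H R = (toRed b H R hR).range := by
  rw [im, dif_pos hR]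

theorem mem_im {H R : AddSubgroup G} (hR : R ≤ perp b H) (x : perp b H) (hHR : H ≤ R) :
    (QuotientAddGroup.mk x : Red b H) ∈ im b H R ↔ x.1 ∈ R := by
  rw [im_eq b hR]
  constructor
  · rintro ⟨y, hy⟩
    rw [toRed_apply, QuotientAddGroup.eq, AddSubgroup.mem_addSubgroupOf] at hy
    have h1 : x.1 = y.1 + (-y.1 + x.1) := by abel
    rw [h1]
    exact R.add_mem y.2 (hHR hy)
  · intro h
    exact ⟨⟨x.1, h⟩, rfl⟩

theorem im_inj {H R R' : AddSubgroup G} (hR : R ≤ perp b H) (hR' : R' ≤ perp b H) (hHR : H ≤ R)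
    (hHR' : H ≤ R') (h : im b H R = im b H R') : R = R' := by
  ext x
  constructor
  · intro hx
    have h1 : (QuotientAddGroup.mk ⟨x, hR hx⟩ : Red b H) ∈ im b H R := (mem_im b hR _ hHR).mpr hx
    rw [h] at h1
    exact (mem_im b hR' _ hHR').mp h1
  · intro hx
    have h1 : (QuotientAddGroup.mk ⟨x, hR' hx⟩ : Red b H) ∈ im b H R' :=
      (mem_im b hR' _ hHR').mpr hx
    rw [← h] at h1
    exact (mem_im b hR _ hHR).mp h1

/-- number of `R` with given exponent of `R / H` -/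
theorem card_level (hs : ∀ x y, b x y = b y x) (hn : ∀ x, (∀ y, b x y = 0) → x = 0) {p : ℕ}
    (hp : p.Prime) (H : AddSubgroup G) (ρ a : ℕ) (S : Finset (AddSubgroup G))
    (hiso : ∀ R ∈ S, ∀ x ∈ R, ∀ y ∈ R, b x y = 0) (hH : ∀ R ∈ S, H ≤ R)
    (hP : ∀ R ∈ S, R ≤ prim G p)
    (hg : ∀ R ∈ S, ∃ g : Fin ρ → G, R = AddSubgroup.closure (Set.range g))
    (hexp : ∀ R ∈ S, AddMonoid.exponent (R ⧸ H.addSubgroupOf R) = p ^ a) :
    S.card * (p ^ (2 * a)) ^ (ρ + 1)
      ≤ 4 * (a + 1) * (p ^ (Nat.card (Red b H)).factorization p) ^ (ρ + 1) := by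
  classical
  have hperp : ∀ R ∈ S, R ≤ perp b H := fun R hR x hx h hh => hiso R hR x hx h (hH R hR hh)
  have hcard : (S.image (im b H)).card = S.card := by
    apply Finset.card_image_of_injOn
    intro R hR R' hR' h
    exact im_inj b (hperp R hR) (hperp R' hR') (hH R hR) (hH R' hR') h
  rw [← hcard]
  have := Fintype.ofFinite (Red b H)
  apply lab_count_prime (redPair b H hs) (redPair_symm b H hs) (redPair_nondeg b H hs hn) hp a ρ
  · intro Q hQ x hx y hy
    obtain ⟨R, hR, rfl⟩ := Finset.mem_image.mp hQ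
    rw [im_eq b (hperp R hR)] at hx hy
    obtain ⟨x, rfl⟩ := hx
    obtain ⟨y, rfl⟩ := hy
    rw [toRed_apply, toRed_apply, redPair_mk]
    exact hiso R hR _ x.2 _ y.2
  · intro Q hQ x hx
    obtain ⟨R, hR, rfl⟩ := Finset.mem_image.mp hQ
    rw [im_eq b (hperp R hR)] at hx
    obtain ⟨x, rfl⟩ := hx
    -- a power of p kills the image
    set y := toRed b H R (hperp R hR) x with hy
    have h1 : p ^ (Nat.card G).factorization p • y = 0 := by
      rw [hy, ← map_nsmul]
      have h2 : p ^ (Nat.card G).factorization p • x = 0 := by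
        apply Subtype.ext
        exact mem_prim.mp (hP R hR x.2)
      rw [h2, map_zero]
    have h3 : addOrderOf y ∣ p ^ (Nat.card G).factorization p := addOrderOf_dvd_of_nsmul_eq_zero h1
    obtain ⟨k, -, hk⟩ := (Nat.dvd_prime_pow hp).mp h3
    rw [mem_prim]
    have h4 : addOrderOf y ∣ Nat.card (Red b H) := addOrderOf_dvd_natCard y
    rw [hk, hp.pow_dvd_iff_le_factorization Nat.card_pos.ne'] at h4
    have h5 : addOrderOf y ∣ p ^ (Nat.card (Red b H)).factorization p := by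
      rw [hk]; exact Nat.pow_dvd_pow p h4
    exact addOrderOf_dvd_iff_nsmul_eq_zero.mp h5
  · intro Q hQ
    obtain ⟨R, hR, rfl⟩ := Finset.mem_image.mp hQ
    obtain ⟨g, hgR⟩ := hg R hR
    have hgm : ∀ i, g i ∈ R := fun i => by
      rw [hgR]; exact AddSubgroup.subset_closure ⟨i, rfl⟩
    rw [im_eq b (hperp R hR)]
    set A := (toRed b H R (hperp R hR)).range with hA
    have hexpA : AddMonoid.exponent A = p ^ a := by
      rw [← hexp R hR]
      exact (AddMonoid.exponent_eq_of_addEquiv (redEquiv b H R (hperp R hR))).symm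
    obtain ⟨h, hh⟩ := AddMonoid.exists_addOrderOf_eq_exponent (G := A)
      (AddMonoid.ExponentExists.of_finite)
    refine ⟨h.1, ?_, fun i => toRed b H R (hperp R hR) ⟨g i, hgm i⟩, ?_⟩
    · rw [← hexpA, ← hh]
      exact AddSubgroup.addOrderOf_coe h
    · apply le_antisymm
      · rintro _ ⟨x, rfl⟩
        have h6 : x ∈ AddSubgroup.closure (Set.range fun i => (⟨g i, hgm i⟩ : R)) := by
          have h7 : (AddSubgroup.closure (Set.range fun i => (⟨g i, hgm i⟩ : R))).map R.subtype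
              = R := by
            rw [AddMonoidHom.map_closure, ← Set.range_comp]
            exact hgR.symm
          have h8 : x.1 ∈ (AddSubgroup.closure (Set.range fun i => (⟨g i, hgm i⟩ : R))).map
              R.subtype := by rw [h7]; exact x.2
          obtain ⟨z, hz, hzx⟩ := h8
          have h9 : z = x := Subtype.ext hzx
          rwa [← h9]
        have h10 := AddSubgroup.mem_map_of_mem (toRed b H R (hperp R hR)) h6
        rw [AddMonoidHom.map_closure, ← Set.range_comp] at h10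
        exact AddSubgroup.closure_mono (Set.subset_insert _ _) h10
      · rw [AddSubgroup.closure_le]
        rintro x (rfl | ⟨i, rfl⟩)
        · exact h.2
        · exact ⟨_, rfl⟩

end red

/-! ### weights -/

section weight

variable [Fintype G]

theorem prim_card_pow {p : ℕ} (hp : p.Prime) : ∃ k, Nat.card (prim G p) = p ^ k := by
  classical
  have : Fact p.Prime := ⟨hp⟩
  have h1 : IsPGroup p (Multiplicative (prim G p)) := by
    intro x
    refine ⟨(Nat.card G).factorization p, ?_⟩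
    apply Multiplicative.toAdd.injective
    apply Subtype.ext
    exact mem_prim.mp x.toAdd.2
  obtain ⟨k, hk⟩ := IsPGroup.iff_card.mp h1
  exact ⟨k, by rw [← hk]; exact Nat.card_congr Multiplicative.ofAdd⟩

theorem card_pow_of_le {p : ℕ} (hp : p.Prime) {R : AddSubgroup G} (hR : R ≤ prim G p) :
    Nat.card R = p ^ Nat.log p (Nat.card R) ∧ Nat.log p (Nat.card R) ≤ (Nat.card G).factorization p := by
  obtain ⟨k, hk⟩ := prim_card_pow (G := G) hp
  have h1 : Nat.card R ∣ p ^ k := by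
    rw [← hk]
    exact AddSubgroup.card_dvd_of_le hR
  obtain ⟨j, -, hj⟩ := (Nat.dvd_prime_pow hp).mp h1
  have h2 : Nat.log p (Nat.card R) = j := by rw [hj, Nat.log_pow hp.one_lt]
  rw [h2]
  refine ⟨hj, ?_⟩
  rw [← hp.pow_dvd_iff_le_factorization Nat.card_pos.ne', ← hj]
  exact AddSubgroup.card_addSubgroup_dvd_card R

/-- the exponent of `R / H` -/
noncomputable def ex (p : ℕ) (H R : AddSubgroup G) : ℕ :=
  Nat.log p (AddMonoid.exponent (R ⧸ H.addSubgroupOf R))

theorem ex_spec {p : ℕ} (hp : p.Prime) {H R : AddSubgroup G} (hHR : H ≤ R) (hR : R ≤ prim G p) :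
    AddMonoid.exponent (R ⧸ H.addSubgroupOf R) = p ^ ex p H R ∧
    Nat.log p (Nat.card (R ⧸ H.addSubgroupOf R)) + Nat.log p (Nat.card H)
      = Nat.log p (Nat.card R) ∧
    ex p H R ≤ Nat.log p (Nat.card (R ⧸ H.addSubgroupOf R)) := by
  obtain ⟨hc1, -⟩ := card_pow_of_le hp hR
  obtain ⟨hc2, -⟩ := card_pow_of_le hp (hHR.trans hR)
  have h1 := AddSubgroup.card_eq_card_quotient_mul_card_addSubgroup (H.addSubgroupOf R)
  have h2 : Nat.card (H.addSubgroupOf R) = Nat.card H :=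
    Nat.card_congr (AddSubgroup.addSubgroupOfEquivOfLe hHR).toEquiv
  rw [h2] at h1
  have h3 : Nat.card (R ⧸ H.addSubgroupOf R) ∣ p ^ Nat.log p (Nat.card R) := by
    rw [← hc1, h1]; exact dvd_mul_right _ _
  obtain ⟨j, -, hj⟩ := (Nat.dvd_prime_pow hp).mp h3
  have h4 : AddMonoid.exponent (R ⧸ H.addSubgroupOf R) ∣ p ^ j := by
    rw [← hj]; exact AddGroup.exponent_dvd_nat_card
  obtain ⟨i, hij, hi⟩ := (Nat.dvd_prime_pow hp).mp h4
  have h5 : ex p H R = i := by rw [ex, hi, Nat.log_pow hp.one_lt]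
  have h6 : Nat.log p (Nat.card (R ⧸ H.addSubgroupOf R)) = j := by rw [hj, Nat.log_pow hp.one_lt]
  refine ⟨by rw [h5, hi], ?_, by rw [h5, h6]; exact hij⟩
  rw [h6]
  apply Nat.pow_right_injective hp.two_le
  show p ^ (j + _) = p ^ _
  rw [pow_add, ← hc2, ← hc1, h1, hj]

theorem rpow_w (ρ p v v' a : ℕ) (hp : 0 < p) :
    (2 : ℝ) ^ (-(((ρ : ℝ) + 1) * ((v' : ℝ) - 2 * a) * Real.logb 2 p
      + 2 * Real.logb 2 ((v : ℝ) + 1) + 3))
      = ((p : ℝ) ^ (2 * a)) ^ (ρ + 1) / ((p : ℝ) ^ v') ^ (ρ + 1) / (8 * ((v : ℝ) + 1) ^ 2) := by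
  have hp' : (0 : ℝ) < p := by exact_mod_cast hp
  have hv : (0 : ℝ) < (v : ℝ) + 1 := by positivity
  have h1 : (2 : ℝ) ^ (Real.logb 2 p) = p := Real.rpow_logb (by norm_num) (by norm_num) hp'
  have h2 : (2 : ℝ) ^ (Real.logb 2 ((v : ℝ) + 1)) = (v : ℝ) + 1 :=
    Real.rpow_logb (by norm_num) (by norm_num) hv
  have e : -(((ρ : ℝ) + 1) * ((v' : ℝ) - 2 * a) * Real.logb 2 p
      + 2 * Real.logb 2 ((v : ℝ) + 1) + 3)
      = Real.logb 2 p * (((2 * a * (ρ + 1) : ℕ) : ℝ) - ((v' * (ρ + 1) : ℕ) : ℝ))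
        - Real.logb 2 ((v : ℝ) + 1) * ((2 : ℕ) : ℝ) - ((3 : ℕ) : ℝ) := by
    push_cast; ring
  rw [e, Real.rpow_sub (by norm_num), Real.rpow_sub (by norm_num), Real.rpow_mul (by norm_num),
    h1, Real.rpow_mul (by norm_num), h2, Real.rpow_sub hp', Real.rpow_natCast, Real.rpow_natCast,
    Real.rpow_natCast, Real.rpow_natCast, div_div]
  rw [← pow_mul, ← pow_mul]
  congr 1
  ring

variable {N : ℕ} [NeZero N] (b : G →+ G →+ ZMod N)

theorem w0_eq (hs : ∀ x y, b x y = b y x) (hn : ∀ x, (∀ y, b x y = 0) → x = 0) {p : ℕ}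
    (hp : p.Prime) {H R : AddSubgroup G} (ρ : ℕ) (hHR : H ≤ R) (hR : R ≤ prim G p)
    (hiso : ∀ x ∈ R, ∀ y ∈ R, b x y = 0) (hne : R ≠ H) :
    (2 : ℝ) ^ (-(w0 ρ p ((Nat.card G).factorization p) H R))
      = ((p : ℝ) ^ (2 * ex p H R)) ^ (ρ + 1)
        / ((p : ℝ) ^ (Nat.card (Red b H)).factorization p) ^ (ρ + 1)
        / (8 * (((Nat.card G).factorization p : ℝ) + 1) ^ 2) := by
  classical
  rw [← rpow_w ρ p _ _ _ hp.pos]
  congr 2
  rw [w0, if_neg hne]
  obtain ⟨h1, h2, h3⟩ := ex_spec hp hHR hR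
  obtain ⟨hc2, -⟩ := card_pow_of_le hp (hHR.trans hR)
  have h4 : (Nat.card (Red b H)).factorization p + 2 * Nat.log p (Nat.card H)
      = (Nat.card G).factorization p := by
    have h5 := card_red b H hs hn (fun x hx y hy => hiso x (hHR hx) y (hHR hy))
    rw [← h5, Nat.factorization_mul Nat.card_pos.ne' (pow_ne_zero _ Nat.card_pos.ne')]
    simp only [Finsupp.coe_add, Pi.add_apply, Nat.factorization_pow, Finsupp.coe_smul,
      Pi.smul_apply, smul_eq_mul]
    congr 2
    conv_rhs => rw [hc2]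
    rw [hp.factorization_pow]
    simp
  have h6 : bb p (R ⧸ H.addSubgroupOf R) + ex p H R
      = Nat.log p (Nat.card (R ⧸ H.addSubgroupOf R)) := by
    rw [bb, ← ex]
    omega
  have h4' : ((Nat.card (Red b H)).factorization p : ℝ) + 2 * Nat.log p (Nat.card H)
      = (Nat.card G).factorization p := by exact_mod_cast h4
  have h6' : (bb p (R ⧸ H.addSubgroupOf R) : ℝ) + ex p H R + Nat.log p (Nat.card H)
      = Nat.log p (Nat.card R) := by
    rw [← h2, ← h6]; push_cast; ring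
  have h7 : ((Nat.card G).factorization p : ℝ) - 2 * Nat.log p (Nat.card R)
      + 2 * bb p (R ⧸ H.addSubgroupOf R)
      = (Nat.card (Red b H)).factorization p - 2 * ex p H R := by
    rw [← h4', ← h6']; ring
  rw [h7]

theorem sum_level (hs : ∀ x y, b x y = b y x) (hn : ∀ x, (∀ y, b x y = 0) → x = 0) {p : ℕ}
    (hp : p.Prime) (H : AddSubgroup G) (ρ : ℕ) (S : Finset (AddSubgroup G))
    (hiso : ∀ R ∈ S, ∀ x ∈ R, ∀ y ∈ R, b x y = 0) (hH : ∀ R ∈ S, H ≤ R)
    (hP : ∀ R ∈ S, R ≤ prim G p)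
    (hg : ∀ R ∈ S, ∃ g : Fin ρ → G, R = AddSubgroup.closure (Set.range g)) :
    ∑ R ∈ S, (2 : ℝ) ^ (-(w0 ρ p ((Nat.card G).factorization p) H R)) ≤ 3 / 2 := by
  classical
  set v := (Nat.card G).factorization p with hv
  rw [← Finset.sum_filter_add_sum_filter_not S (fun R => R = H)]
  have hA : ∑ R ∈ S.filter (fun R => R = H), (2 : ℝ) ^ (-(w0 ρ p v H R)) ≤ 1 := by
    calc _ ≤ ∑ R ∈ S.filter (fun R => R = H), (1 : ℝ) := by
          apply Finset.sum_le_sum
          intro R hR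
          rw [mem_filter] at hR
          rw [w0, if_pos hR.2, neg_zero, Real.rpow_zero]
      _ = ((S.filter (fun R => R = H)).card : ℝ) := by rw [sum_const, nsmul_eq_mul, mul_one]
      _ ≤ 1 := by
          have : (S.filter (fun R => R = H)).card ≤ 1 := by
            rw [Finset.card_le_one]
            intro x hx y hy
            rw [mem_filter] at hx hy
            rw [hx.2, hy.2]
          exact_mod_cast this
  have hmaps : ∀ R ∈ S.filter (fun R => ¬ R = H), ex p H R ∈ range (v + 1) := by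
    intro R hR
    rw [mem_filter] at hR
    rw [mem_range]
    obtain ⟨-, h2, h3⟩ := ex_spec hp (hH R hR.1) (hP R hR.1)
    obtain ⟨-, h4⟩ := card_pow_of_le hp (hP R hR.1)
    omega
  have hB : ∑ R ∈ S.filter (fun R => ¬ R = H), (2 : ℝ) ^ (-(w0 ρ p v H R)) ≤ 1 / 2 := by
    rw [← Finset.sum_fiberwise_of_maps_to hmaps]
    have hlev : ∀ a ∈ range (v + 1), ∑ R ∈ (S.filter (fun R => ¬ R = H)).filter
        (fun R => ex p H R = a), (2 : ℝ) ^ (-(w0 ρ p v H R)) ≤ 1 / (2 * ((v : ℝ) + 1)) := by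
      intro a ha
      rw [mem_range] at ha
      set T := (S.filter (fun R => ¬ R = H)).filter (fun R => ex p H R = a) with hT
      have hTS : ∀ R ∈ T, R ∈ S ∧ R ≠ H ∧ ex p H R = a := by
        intro R hR
        rw [hT, mem_filter, mem_filter] at hR
        exact ⟨hR.1.1, hR.1.2, hR.2⟩
      set v' := (Nat.card (Red b H)).factorization p with hv'
      have h1 := card_level b hs hn hp H ρ a T (fun R hR => hiso R (hTS R hR).1)
        (fun R hR => hH R (hTS R hR).1) (fun R hR => hP R (hTS R hR).1)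
        (fun R hR => hg R (hTS R hR).1) (fun R hR => by
          have h2 := (ex_spec hp (hH R (hTS R hR).1) (hP R (hTS R hR).1)).1
          rw [h2, (hTS R hR).2.2])
      have h3 : ∀ R ∈ T, (2 : ℝ) ^ (-(w0 ρ p v H R)) = ((p : ℝ) ^ (2 * a)) ^ (ρ + 1)
          / ((p : ℝ) ^ v') ^ (ρ + 1) / (8 * ((v : ℝ) + 1) ^ 2) := by
        intro R hR
        have h4 := w0_eq b hs hn hp ρ (hH R (hTS R hR).1) (hP R (hTS R hR).1)
          (hiso R (hTS R hR).1) (hTS R hR).2.1
        rw [(hTS R hR).2.2] at h4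
        exact h4
      rw [Finset.sum_congr rfl h3, sum_const, nsmul_eq_mul]
      have h1' : (T.card : ℝ) * ((p : ℝ) ^ (2 * a)) ^ (ρ + 1)
          ≤ 4 * ((a : ℝ) + 1) * ((p : ℝ) ^ v') ^ (ρ + 1) := by exact_mod_cast h1
      have hpp : (0 : ℝ) < ((p : ℝ) ^ v') ^ (ρ + 1) := by
        have : (0 : ℝ) < p := by exact_mod_cast hp.pos
        positivity
      have hv1 : (0 : ℝ) < (v : ℝ) + 1 := by positivity
      have ha' : (a : ℝ) + 1 ≤ (v : ℝ) + 1 := by
        have : (a : ℝ) ≤ v := by exact_mod_cast Nat.lt_succ_iff.mp ha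
        linarith
      calc (T.card : ℝ) * (((p : ℝ) ^ (2 * a)) ^ (ρ + 1) / ((p : ℝ) ^ v') ^ (ρ + 1)
            / (8 * ((v : ℝ) + 1) ^ 2))
          = ((T.card : ℝ) * ((p : ℝ) ^ (2 * a)) ^ (ρ + 1)) / ((p : ℝ) ^ v') ^ (ρ + 1)
            / (8 * ((v : ℝ) + 1) ^ 2) := by ring
        _ ≤ (4 * ((a : ℝ) + 1) * ((p : ℝ) ^ v') ^ (ρ + 1)) / ((p : ℝ) ^ v') ^ (ρ + 1)
            / (8 * ((v : ℝ) + 1) ^ 2) := by gcongr
        _ = 4 * ((a : ℝ) + 1) / (8 * ((v : ℝ) + 1) ^ 2) := by
            rw [mul_div_assoc, div_self hpp.ne', mul_one]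
        _ ≤ 4 * ((v : ℝ) + 1) / (8 * ((v : ℝ) + 1) ^ 2) := by gcongr
        _ = 1 / (2 * ((v : ℝ) + 1)) := by field_simp; norm_num
    calc _ ≤ ∑ _a ∈ range (v + 1), 1 / (2 * ((v : ℝ) + 1)) := Finset.sum_le_sum hlev
      _ = 1 / 2 := by
          rw [sum_const, card_range, nsmul_eq_mul]
          push_cast
          field_simp
  linarith

end weight

/-! ### the count -/

section final

variable [Fintype G] {N : ℕ} [NeZero N] (b : G →+ G →+ ZMod N)

theorem sum_prime (hs : ∀ x y, b x y = b y x) (hn : ∀ x, (∀ y, b x y = 0) → x = 0) {p : ℕ}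
    (hp : p.Prime) (e : ℕ) (H' : AddSubgroup G) (ρ : ℕ) (T : Finset (AddSubgroup G))
    (hiso : ∀ A ∈ T, ∀ x ∈ A, ∀ y ∈ A, b x y = 0)
    (hH : ∀ A ∈ T, H' ≤ A.map (nsmulAddMonoidHom (p ^ e)))
    (hP : ∀ A ∈ T, A ≤ prim G p)
    (hg : ∀ A ∈ T, ∃ g : Fin ρ → G, A = AddSubgroup.closure (Set.range g)) :
    ∑ A ∈ T, (2 : ℝ) ^ (-(w0 ρ p ((Nat.card G).factorization p) H'
      (A.map (nsmulAddMonoidHom (p ^ e))))) ≤ 3 / 2 * (Nat.card (tor G p e) : ℝ) ^ (2 * ρ) := by
  classical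
  set f : G →+ G := nsmulAddMonoidHom (p ^ e) with hf
  set v := (Nat.card G).factorization p with hv
  have hle : ∀ A : AddSubgroup G, A.map f ≤ A := by
    rintro A _ ⟨x, hx, rfl⟩
    exact A.nsmul_mem hx _
  have hmaps : ∀ A ∈ T, A.map f ∈ T.image (fun A => A.map f) := fun A hA =>
    Finset.mem_image_of_mem _ hA
  rw [← Finset.sum_fiberwise_of_maps_to hmaps]
  have h1 : ∀ R ∈ T.image (fun A => A.map f), ∑ A ∈ T.filter (fun A => A.map f = R),
      (2 : ℝ) ^ (-(w0 ρ p v H' (A.map f)))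
      ≤ (Nat.card (tor G p e) : ℝ) ^ (2 * ρ) * (2 : ℝ) ^ (-(w0 ρ p v H' R)) := by
    intro R hR
    have h2 : ∑ A ∈ T.filter (fun A => A.map f = R), (2 : ℝ) ^ (-(w0 ρ p v H' (A.map f)))
        = ((T.filter (fun A => A.map f = R)).card : ℝ) * (2 : ℝ) ^ (-(w0 ρ p v H' R)) := by
      rw [← nsmul_eq_mul, ← Finset.sum_const]
      apply Finset.sum_congr rfl
      intro A hA
      rw [(Finset.mem_filter.mp hA).2]
    rw [h2]
    apply mul_le_mul_of_nonneg_right _ (by positivity)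
    have h3 := fiber_card f (prim G p) R ρ (T.filter (fun A => A.map f = R))
      (fun A hA => hP A (Finset.mem_filter.mp hA).1) (fun A hA => (Finset.mem_filter.mp hA).2)
      (fun A hA => hg A (Finset.mem_filter.mp hA).1)
    exact_mod_cast h3
  refine (Finset.sum_le_sum h1).trans ?_
  rw [← Finset.mul_sum, mul_comm]
  apply mul_le_mul_of_nonneg_right _ (by positivity)
  apply sum_level b hs hn hp H' ρ
  · intro R hR
    obtain ⟨A, hA, rfl⟩ := Finset.mem_image.mp hR
    intro x hx y hy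
    exact hiso A hA x (hle A hx) y (hle A hy)
  · intro R hR
    obtain ⟨A, hA, rfl⟩ := Finset.mem_image.mp hR
    exact hH A hA
  · intro R hR
    obtain ⟨A, hA, rfl⟩ := Finset.mem_image.mp hR
    exact (hle A).trans (hP A hA)
  · intro R hR
    obtain ⟨A, hA, rfl⟩ := Finset.mem_image.mp hR
    obtain ⟨g, hg⟩ := hg A hA
    refine ⟨fun i => f (g i), ?_⟩
    show A.map f = _
    conv_lhs => rw [hg]
    rw [AddMonoidHom.map_closure, ← Set.range_comp]
    rfl

theorem count (hs : ∀ x y, b x y = b y x) (hn : ∀ x, (∀ y, b x y = 0) → x = 0)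
    (ρ : ℕ) (e : ℕ → ℕ) (H : AddSubgroup G) (X : ℝ) (S : Finset (AddSubgroup G))
    (hiso : ∀ Q ∈ S, ∀ x ∈ Q, ∀ y ∈ Q, b x y = 0) (hH : ∀ Q ∈ S, H ≤ Q)
    (hg : ∀ Q ∈ S, ∃ g : Fin ρ → G, Q = AddSubgroup.closure (Set.range g))
    (hX : ∀ Q ∈ S, ∑ p ∈ (Nat.card G).primeFactors, wt ρ p (e p) H Q ≤ X) :
    (S.card : ℝ) ≤ (2 : ℝ) ^ X * ∏ p ∈ (Nat.card G).primeFactors,
      (3 / 2 * (Nat.card (tor G p (e p)) : ℝ) ^ (2 * ρ)) := by
  classical
  set P := (Nat.card G).primeFactors with hPdef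
  have hpr : ∀ p ∈ P, p.Prime := fun p hp => Nat.prime_of_mem_primeFactors hp
  set v : ℕ → ℕ := fun p => (Nat.card G).factorization p with hv
  set W : ℕ → AddSubgroup G → ℝ := fun p A =>
    (2 : ℝ) ^ (-(w0 ρ p (v p) (pp p (e p) H) (A.map (nsmulAddMonoidHom (p ^ e p))))) with hW
  have hW0 : ∀ p A, 0 < W p A := fun p A => by positivity
  set t : P → Finset (AddSubgroup G) := fun p => S.image (fun Q => Q ⊓ prim G p.1) with ht
  -- each term
  have h1 : ∀ Q ∈ S, (1 : ℝ) ≤ (2 : ℝ) ^ X * ∏ p : P, W p.1 (Q ⊓ prim G p.1) := by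
    intro Q hQ
    have h2 : ∏ p : P, W p.1 (Q ⊓ prim G p.1) = (2 : ℝ) ^ (-∑ p ∈ P, wt ρ p (e p) H Q) := by
      rw [← Finset.sum_neg_distrib, Finset.prod_coe_sort P (fun p => W p (Q ⊓ prim G p)),
        Real.rpow_sum_of_pos (by norm_num)]
      apply Finset.prod_congr rfl
      intro p _
      rfl
    rw [h2, ← Real.rpow_add (by norm_num)]
    apply Real.one_le_rpow (by norm_num)
    linarith [hX Q hQ]
  have h3 : (S.card : ℝ) ≤ ∑ Q ∈ S, (2 : ℝ) ^ X * ∏ p : P, W p.1 (Q ⊓ prim G p.1) := by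
    calc (S.card : ℝ) = ∑ Q ∈ S, (1 : ℝ) := by rw [sum_const, nsmul_eq_mul, mul_one]
      _ ≤ _ := Finset.sum_le_sum h1
  refine h3.trans ?_
  rw [← Finset.mul_sum]
  apply mul_le_mul_of_nonneg_left _ (by positivity)
  -- injectivity
  have hinj : Set.InjOn (fun (Q : AddSubgroup G) (p : P) => Q ⊓ prim G p.1) (S : Set (AddSubgroup G)) := by
    intro Q _ Q' _ h
    have h4 : ∀ p ∈ P, Q ⊓ prim G p = Q' ⊓ prim G p := fun p hp => congrFun h ⟨p, hp⟩
    apply le_antisymm
    · exact le_of_prim_le fun p hp => by rw [h4 p hp]; exact inf_le_left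
    · exact le_of_prim_le fun p hp => by rw [← h4 p hp]; exact inf_le_left
  have h5 : ∑ Q ∈ S, ∏ p : P, W p.1 (Q ⊓ prim G p.1)
      = ∑ φ ∈ S.image (fun (Q : AddSubgroup G) (p : P) => Q ⊓ prim G p.1), ∏ p : P, W p.1 (φ p) := by
    rw [Finset.sum_image hinj]
  rw [h5]
  have h6 : S.image (fun (Q : AddSubgroup G) (p : P) => Q ⊓ prim G p.1) ⊆ Fintype.piFinset t := by
    intro φ hφ
    obtain ⟨Q, hQ, rfl⟩ := Finset.mem_image.mp hφ
    rw [Fintype.mem_piFinset]
    intro p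
    exact Finset.mem_image_of_mem _ hQ
  calc _ ≤ ∑ φ ∈ Fintype.piFinset t, ∏ p : P, W p.1 (φ p) :=
        Finset.sum_le_sum_of_subset_of_nonneg h6
          (fun φ _ _ => Finset.prod_nonneg fun p _ => (hW0 _ _).le)
    _ = ∏ p : P, ∑ A ∈ t p, W p.1 A := (Finset.prod_univ_sum t (fun p A => W p.1 A)).symm
    _ ≤ ∏ p : P, (3 / 2 * (Nat.card (tor G p.1 (e p.1)) : ℝ) ^ (2 * ρ)) := by
        apply Finset.prod_le_prod
        · intro p _
          exact Finset.sum_nonneg fun A _ => (hW0 _ _).le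
        · intro p _
          have hp := hpr p.1 p.2
          apply sum_prime b hs hn hp (e p.1) (pp p.1 (e p.1) H) ρ (t p)
          · intro A hA
            obtain ⟨Q, hQ, rfl⟩ := Finset.mem_image.mp hA
            intro x hx y hy
            exact hiso Q hQ x hx.1 y hy.1
          · intro A hA
            obtain ⟨Q, hQ, rfl⟩ := Finset.mem_image.mp hA
            exact AddSubgroup.map_mono (inf_le_inf_right _ (hH Q hQ))
          · intro A hA
            obtain ⟨Q, hQ, rfl⟩ := Finset.mem_image.mp hA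
            exact inf_le_right
          · intro A hA
            obtain ⟨Q, hQ, rfl⟩ := Finset.mem_image.mp hA
            obtain ⟨g, hgQ⟩ := hg Q hQ
            exact prim_gen hp hgQ
    _ = _ := Finset.prod_coe_sort P (fun p => (3 / 2 * (Nat.card (tor G p (e p)) : ℝ) ^ (2 * ρ)))

end final

end Vale.Agent.P160.Half.Cnt
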