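import Vale.Agent.P160.Half.Cnt978a

/-! # P160, half rate: COUNT, link part: the number of labels (helper978) -/

set_option linter.all false

open Finset Matrix

namespace Vale.Agent.P160.Half.G.Cnt978

open A Labels

theorem pp_le_prim {G : Type*} [AddCommGroup G] [Finite G] (p e : ℕ) (Q : AddSubgroup G) :
    pp p e Q ≤ prim G p := by
  rintro _ ⟨x, hx, rfl⟩
  exact (prim G p).nsmul_mem hx.2 _

theorem wt_le {G : Type*} [AddCommGroup G] [Fintype G] {p : ℕ} (hp : p.Prime) (ρ e : ℕ)
    (H Q : AddSubgroup G) :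
    Cnt.wt ρ p e H Q ≤ cst ρ p e H Q +
      (2 * Real.logb 2 ((Nat.card G).factorization p + 1) + 3) := by
  have hl : (0 : ℝ) ≤ Real.logb 2 p :=
    Real.logb_nonneg (by norm_num) (by exact_mod_cast hp.one_lt.le)
  have hl2 : (0 : ℝ) ≤ Real.logb 2 ((Nat.card G).factorization p + 1) :=
    Real.logb_nonneg (by norm_num) (by
      have : (0 : ℝ) ≤ ((Nat.card G).factorization p : ℝ) := Nat.cast_nonneg _
      linarith)
  unfold Cnt.wt Cnt.w0 cst
  have e1 : Cnt.pp p e Q = pp p e Q := rfl
  have e2 : Cnt.pp p e H = pp p e H := rfl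
  rw [e1, e2]
  by_cases h : pp p e Q = pp p e H
  · rw [if_pos h, if_pos h]
    have : (0 : ℝ) ≤ (0 + 2 * (Rev.bb p (pp p e Q ⧸ (pp p e H).addSubgroupOf (pp p e Q)) : ℝ)) *
        (ρ + 1) * Real.logb 2 p := by positivity
    linarith
  · rw [if_neg h, if_neg h]
    obtain ⟨h1, -⟩ := Cnt.card_pow_of_le hp (pp_le_prim p e Q)
    have h2 : (Nat.card (pp p e Q)).factorization p = Nat.log p (Nat.card (pp p e Q)) := by
      conv_lhs => rw [h1]
      rw [hp.factorization_pow, Finsupp.single_eq_same]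
    rw [h2]
    apply le_of_eq
    ring

/-- the exponent of the torsion -/
theorem two_log_le (v : ℕ) : 2 * Real.logb 2 ((v : ℝ) + 1) ≤ 2 * v := by
  have h1 : ((v : ℝ) + 1) ≤ 2 ^ (v : ℝ) := by
    rw [Real.rpow_natCast]
    have := Nat.lt_two_pow_self (n := v)
    exact_mod_cast this
  have h2 : Real.logb 2 ((v : ℝ) + 1) ≤ v := by
    rw [Real.logb_le_iff_le_rpow (by norm_num) (by positivity)]
    exact h1
  linarith

theorem sum_log {N : ℕ} (hN : N ≠ 0) :
    ∑ p ∈ N.primeFactors, (N.factorization p : ℝ) * Real.logb 2 p = Real.logb 2 N := by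
  unfold Real.logb
  rw [Real.log_nat_eq_sum_factorization, Finsupp.sum, Nat.support_factorization, Finset.sum_div]
  exact Finset.sum_congr rfl fun p _ => by ring

theorem numbers {N : ℕ} (hN : N ≠ 0) {ρ y a k : ℕ} {Dt : ℝ} (hy : 2 ≤ y) (hDt : 0 ≤ Dt)
    (hD : Real.logb 2 N ≤ Dt) :
    ∑ p ∈ N.primeFactors, (2 * Real.logb 2 ((N.factorization p : ℝ) + 1) + 4 +
      (if y ≤ p then 0 else 2 * ρ * (k * (ρ * (a - 1) : ℕ)) * Real.logb 2 p)) ≤
      6 * Dt / Real.logb 2 y + y * (4 + 2 * Real.logb 2 (Dt + 1) +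
        2 * ρ * (ρ * a) * k * Real.logb 2 y) := by
  have hy1 : (1 : ℝ) ≤ Real.logb 2 y := by
    rw [Real.le_logb_iff_rpow_le (by norm_num) (by positivity)]
    rw [Real.rpow_one]; exact_mod_cast hy
  have hl : ∀ p ∈ N.primeFactors, (1 : ℝ) ≤ Real.logb 2 p := by
    intro p hp
    have hp' := Nat.prime_of_mem_primeFactors hp
    have : (0 : ℝ) < p := by exact_mod_cast hp'.pos
    rw [Real.le_logb_iff_rpow_le (by norm_num) this]
    rw [Real.rpow_one]; exact_mod_cast hp'.two_le
  set K : ℝ := 4 + 2 * Real.logb 2 (Dt + 1) + 2 * ρ * (ρ * a) * k * Real.logb 2 y with hK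
  have hK0 : 0 ≤ K := by
    have h1 : 0 ≤ Real.logb 2 (Dt + 1) := Real.logb_nonneg (by norm_num) (by linarith)
    have h2 : (0 : ℝ) ≤ 2 * ρ * (ρ * a) * k * Real.logb 2 y := by positivity
    rw [hK]; linarith
  have hsum := sum_log hN
  have hterm : ∀ p ∈ N.primeFactors, 2 * Real.logb 2 ((N.factorization p : ℝ) + 1) + 4 +
      (if y ≤ p then 0 else 2 * ρ * (k * (ρ * (a - 1) : ℕ)) * Real.logb 2 p) ≤
      6 * ((N.factorization p : ℝ) * Real.logb 2 p) / Real.logb 2 y + if p < y then K else 0 := by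
    intro p hp
    have hp1 := hl p hp
    have hv1 : (1 : ℝ) ≤ (N.factorization p : ℝ) := by
      have : 0 < N.factorization p :=
        (Nat.prime_of_mem_primeFactors hp).factorization_pos_of_dvd hN (Nat.dvd_of_mem_primeFactors hp)
      exact_mod_cast this
    by_cases h : y ≤ p
    · rw [if_pos h, if_neg (not_lt.2 h), add_zero, add_zero, le_div_iff₀ (by linarith)]
      have h1 := two_log_le (N.factorization p)
      have h2 : Real.logb 2 y ≤ Real.logb 2 p :=
        Real.logb_le_logb_of_le (by norm_num) (by positivity) (by exact_mod_cast h)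
      have h3 : 2 * Real.logb 2 ((N.factorization p : ℝ) + 1) + 4 ≤ 6 * (N.factorization p : ℝ) := by
        linarith
      have h4 : (2 * Real.logb 2 ((N.factorization p : ℝ) + 1) + 4) * Real.logb 2 y ≤
          (6 * (N.factorization p : ℝ)) * Real.logb 2 p :=
        mul_le_mul h3 h2 (by linarith) (by linarith)
      linarith
    · have h' : p < y := not_le.1 h
      rw [if_neg h, if_pos h']
      have h1 : 0 ≤ 6 * ((N.factorization p : ℝ) * Real.logb 2 p) / Real.logb 2 y := by positivity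
      have h2 : (N.factorization p : ℝ) ≤ Dt := by
        have h3 : (N.factorization p : ℝ) * Real.logb 2 p ≤ Real.logb 2 N := by
          rw [← hsum]
          exact Finset.single_le_sum (f := fun q => (N.factorization q : ℝ) * Real.logb 2 q)
            (fun q hq => mul_nonneg (Nat.cast_nonneg _) (by linarith [hl q hq])) hp
        nlinarith
      have h3 : Real.logb 2 ((N.factorization p : ℝ) + 1) ≤ Real.logb 2 (Dt + 1) :=
        Real.logb_le_logb_of_le (by norm_num) (by positivity) (by linarith)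
      have h4 : Real.logb 2 p ≤ Real.logb 2 y :=
        Real.logb_le_logb_of_le (by norm_num) (by
          have := (Nat.prime_of_mem_primeFactors hp).pos
          exact_mod_cast this) (by exact_mod_cast h'.le)
      have h5 : ((ρ * (a - 1) : ℕ) : ℝ) ≤ ρ * a := by
        have : ρ * (a - 1) ≤ ρ * a := Nat.mul_le_mul_left _ (Nat.sub_le _ _)
        exact_mod_cast this
      have h6 : 2 * (ρ : ℝ) * (k * (ρ * (a - 1) : ℕ)) * Real.logb 2 p ≤
          2 * ρ * (k * (ρ * a)) * Real.logb 2 y := by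
        apply mul_le_mul _ h4 (by linarith) (by positivity)
        apply mul_le_mul_of_nonneg_left _ (by positivity)
        exact mul_le_mul_of_nonneg_left h5 (by positivity)
      rw [hK]
      nlinarith
  refine (Finset.sum_le_sum hterm).trans ?_
  rw [Finset.sum_add_distrib, ← Finset.sum_div, ← Finset.mul_sum, hsum]
  apply add_le_add
  · apply div_le_div_of_nonneg_right _ (by linarith)
    linarith
  · rw [← Finset.sum_filter, Finset.sum_const, nsmul_eq_mul]
    apply mul_le_mul_of_nonneg_right _ hK0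
    have h1 : (N.primeFactors.filter fun p => p < y) ⊆ Finset.range y := by
      intro p hp
      rw [Finset.mem_filter] at hp
      exact Finset.mem_range.2 hp.2
    have h2 := Finset.card_le_card h1
    rw [Finset.card_range] at h2
    exact_mod_cast h2

theorem countL : CountStmt := by
  intro n s ρ y a k Dt X M' h hy ha hX hDt
  classical
  by_cases hne : (LabSet n s ρ y a k Dt X M' h).Nonempty
  swap
  · rw [Set.not_nonempty_iff_eq_empty.1 hne]
    refine ⟨Set.finite_empty, ?_⟩
    rw [Set.ncard_empty]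
    push_cast
    positivity
  obtain ⟨L0, M, hz, hM, hs, hd, hDM, hrk, hhz, -⟩ := hne
  subst hM
  have hN : M.det.natAbs ≠ 0 := Int.natAbs_ne_zero.2 hd
  have hcard := card_coker M hd
  have hfin : Finite (Coker M) := Nat.finite_of_card_ne_zero (by rw [hcard]; exact hN)
  have hFt : Fintype (Coker M) := Fintype.ofFinite _
  have hNz : NeZero M.det.natAbs := ⟨hN⟩
  set H : AddSubgroup (Coker M) :=
    AddSubgroup.closure (Set.range fun t => (QuotientAddGroup.mk (hz t) : Coker M)) with hH
  set ee : ℕ → ℕ := fun p => if y ≤ p then 0 else ρ * (a - 1) with hee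
  have hmem : ∀ L ∈ LabSet n s ρ y a k Dt X (M.map (Int.cast : ℤ → ℚ)) h,
      (∀ z : Fin n → ℤ, (fun j => (z j : ℚ)) ∈ L) ∧
      (∀ v ∈ L, ∀ w ∈ L, ∃ m : ℤ, v ⬝ᵥ (M.map (Int.cast : ℤ → ℚ) *ᵥ w) = m) ∧
      H ≤ QL M L ∧ (∃ g : Fin ρ → Coker M, QL M L = AddSubgroup.closure (Set.range g)) ∧
      ∑ p ∈ M.det.natAbs.primeFactors, cst ρ p (ee p) H (QL M L) ≤ X := by
    rintro L ⟨M1, hz1, hM1, -, -, -, -, hhz1, h1, h2, h3, h4, h5⟩
    have e1 : M1 = M := by
      ext i j
      have := congrFun (congrFun hM1 i) j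
      simp only [Matrix.map_apply] at this
      exact_mod_cast this
    subst e1
    have e2 : hz1 = hz := by
      funext t j
      have := (hhz1 t j).symm.trans (hhz t j)
      exact_mod_cast this
    subst e2
    exact ⟨h1, h2, h3, h4, h5⟩
  have hinj : Set.InjOn (QL M) (LabSet n s ρ y a k Dt X (M.map (Int.cast : ℤ → ℚ)) h) := by
    intro L hL L' hL' e
    obtain ⟨h1, h2, -⟩ := hmem L hL
    obtain ⟨h1', h2', -⟩ := hmem L' hL'
    exact QL_inj hd h1 h2 h1' h2' e
  have hfinA : Finite (AddSubgroup (Coker M)) := inferInstance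
  have hfin2 : (LabSet n s ρ y a k Dt X (M.map (Int.cast : ℤ → ℚ)) h).Finite :=
    Set.Finite.of_finite_image (Set.toFinite _) hinj
  refine ⟨hfin2, ?_⟩
  have himg : (QL M '' LabSet n s ρ y a k Dt X (M.map (Int.cast : ℤ → ℚ)) h).Finite :=
    hfin2.image _
  set S : Finset (AddSubgroup (Coker M)) := himg.toFinset with hS
  have hSmem : ∀ Q ∈ S, ∃ L ∈ LabSet n s ρ y a k Dt X (M.map (Int.cast : ℤ → ℚ)) h, QL M L = Q := by
    intro Q hQ
    rw [hS, Set.Finite.mem_toFinset] at hQ
    obtain ⟨L, hL, e⟩ := hQ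
    exact ⟨L, hL, e⟩
  have hc1 : (LabSet n s ρ y a k Dt X (M.map (Int.cast : ℤ → ℚ)) h).ncard = S.card := by
    rw [← Set.ncard_image_of_injOn hinj, Set.ncard_eq_toFinset_card _ himg]
  rw [hc1]
  have hcnt := Cnt.count (cokPair M hs) (cokPair_symm M hs) (cokPair_nondeg M hs hd) ρ ee H
    (X + ∑ p ∈ (Nat.card (Coker M)).primeFactors,
      (2 * Real.logb 2 ((Nat.card (Coker M)).factorization p + 1) + 3)) S
    (fun Q hQ x hx z hz' => by
      obtain ⟨L, hL, rfl⟩ := hSmem Q hQ
      exact QL_iso hs (hmem L hL).2.1 x hx z hz')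
    (fun Q hQ => by
      obtain ⟨L, hL, rfl⟩ := hSmem Q hQ
      exact (hmem L hL).2.2.1)
    (fun Q hQ => by
      obtain ⟨L, hL, rfl⟩ := hSmem Q hQ
      exact (hmem L hL).2.2.2.1)
    (fun Q hQ => by
      obtain ⟨L, hL, rfl⟩ := hSmem Q hQ
      have h5 := (hmem L hL).2.2.2.2
      rw [← hcard] at h5
      calc _ ≤ ∑ p ∈ (Nat.card (Coker M)).primeFactors, (cst ρ p (ee p) H (QL M L) +
            (2 * Real.logb 2 ((Nat.card (Coker M)).factorization p + 1) + 3)) :=
            Finset.sum_le_sum fun p hp => wt_le (Nat.prime_of_mem_primeFactors hp) ρ (ee p) H _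
        _ ≤ _ := by
            rw [Finset.sum_add_distrib]
            linarith)
  rw [hcard] at hcnt
  refine hcnt.trans ?_
  -- the product
  have hprod : ∏ p ∈ M.det.natAbs.primeFactors, (3 / 2 * (Nat.card (Cnt.tor (Coker M) p (ee p)) : ℝ) ^ (2 * ρ)) ≤
      (2 : ℝ) ^ (∑ p ∈ M.det.natAbs.primeFactors, (1 + (if y ≤ p then 0 else
        2 * ρ * (k * (ρ * (a - 1) : ℕ)) * Real.logb 2 p))) := by
    rw [Real.rpow_sum_of_pos (by norm_num)]
    apply Finset.prod_le_prod
    · intro p _; positivity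
    · intro p hp
      have hp' := Nat.prime_of_mem_primeFactors hp
      have hp0 : (0 : ℝ) < p := by exact_mod_cast hp'.pos
      rw [Real.rpow_add (by norm_num), Real.rpow_one]
      apply mul_le_mul (by norm_num) _ (by positivity) (by norm_num)
      have h1 := card_tor_le M hd hp' (hrk p hp') (ee p)
      have h2 : (Nat.card (Cnt.tor (Coker M) p (ee p)) : ℝ) ^ (2 * ρ) ≤
          ((p : ℝ) ^ (k * ee p)) ^ (2 * ρ) := by
        apply pow_le_pow_left₀ (by positivity)
        exact_mod_cast h1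
      refine h2.trans ?_
      by_cases hyp : y ≤ p
      · have : ee p = 0 := if_pos hyp
        rw [this, if_pos hyp]
        simp
      · have : ee p = ρ * (a - 1) := if_neg hyp
        rw [this, if_neg hyp]
        have e : (2 : ℝ) ^ (2 * (ρ : ℝ) * (k * (ρ * (a - 1) : ℕ)) * Real.logb 2 p) =
            ((p : ℝ) ^ (k * (ρ * (a - 1)))) ^ (2 * ρ) := by
          rw [mul_comm _ (Real.logb 2 (p : ℝ)), Real.rpow_mul (by norm_num),
            Real.rpow_logb (by norm_num) (by norm_num) hp0, ← pow_mul, ← Real.rpow_natCast]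
          congr 1
          push_cast
          ring
        rw [e]
  have hDN : Real.logb 2 (M.det.natAbs : ℝ) ≤ Dt := by
    have : ((M.det.natAbs : ℕ) : ℝ) = |(M.det : ℝ)| := by
      rw [Nat.cast_natAbs]; push_cast; rfl
    rw [this]; exact hDM
  have hnum := numbers hN (ρ := ρ) (a := a) (k := k) hy hDt hDN
  calc _ ≤ (2 : ℝ) ^ (X + ∑ p ∈ M.det.natAbs.primeFactors,
        (2 * Real.logb 2 ((M.det.natAbs.factorization p : ℝ) + 1) + 3)) *
        (2 : ℝ) ^ (∑ p ∈ M.det.natAbs.primeFactors, (1 + (if y ≤ p then 0 else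
        2 * ρ * (k * (ρ * (a - 1) : ℕ)) * Real.logb 2 p))) :=
        mul_le_mul_of_nonneg_left hprod (by positivity)
    _ ≤ _ := by
        rw [← Real.rpow_add (by norm_num)]
        apply Real.rpow_le_rpow_of_exponent_le (by norm_num)
        rw [add_assoc, ← Finset.sum_add_distrib]
        have e : ∀ p ∈ M.det.natAbs.primeFactors,
            (2 * Real.logb 2 ((M.det.natAbs.factorization p : ℝ) + 1) + 3 + (1 + (if y ≤ p then 0 else
              2 * ρ * (k * (ρ * (a - 1) : ℕ)) * Real.logb 2 p))) =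
            2 * Real.logb 2 ((M.det.natAbs.factorization p : ℝ) + 1) + 4 +
            (if y ≤ p then 0 else 2 * ρ * (k * (ρ * (a - 1) : ℕ)) * Real.logb 2 p) := by
          intro p _; ring
        rw [Finset.sum_congr rfl e]
        linarith

end Vale.Agent.P160.Half.G.Cnt978
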