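import Vale.Agent.P160.Half.GStmt3

/-! # P160, half rate: gap (G), statements, part 3: labels, deterministic core, numbers, assembly (helper667) -/

set_option linter.unusedVariables false

open Finset Matrix

namespace Vale.Agent.P160.Half.G

open A Labels

/-- the image of `M L` in the cokernel of `M` -/
def QL {n : ℕ} (M : Matrix (Fin n) (Fin n) ℤ) (L : Submodule ℤ (Fin n → ℚ)) : AddSubgroup (Coker M) where
  carrier := {x | ∃ w : Fin n → ℤ, x = QuotientAddGroup.mk w ∧ ∃ v ∈ L, M.map (Int.cast : ℤ → ℚ) *ᵥ v = fun j => (w j : ℚ)}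
  add_mem' := by
    rintro _ _ ⟨w, rfl, v, hv, h⟩ ⟨w', rfl, v', hv', h'⟩
    refine ⟨w + w', rfl, v + v', L.add_mem hv hv', ?_⟩
    rw [mulVec_add, h, h']; ext j; simp
  zero_mem' := ⟨0, rfl, 0, L.zero_mem, by rw [mulVec_zero]; ext j; simp⟩
  neg_mem' := by
    rintro _ ⟨w, rfl, v, hv, h⟩
    refine ⟨-w, rfl, -v, L.neg_mem hv, ?_⟩
    rw [mulVec_neg, h]; ext j; simp

/-- **the label sets** (`lab τ R M' h` of `StmtG`): integral lattices `L` over `(ℤ^n, M')` whose image in the cokernel has `ρ` generators, contains the classes of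
`h` and has total cost `≤ X`. -/
def LabSet (n s ρ y a k : ℕ) (Dt X : ℝ) (M' : Matrix (Fin n) (Fin n) ℚ) (h : Fin s → Fin n → ℚ) : Set (Submodule ℤ (Fin n → ℚ)) :=
  {L | ∃ (M : Matrix (Fin n) (Fin n) ℤ) (hz : Fin s → Fin n → ℤ), M.map (Int.cast : ℤ → ℚ) = M' ∧ M.transpose = M ∧ M.det ≠ 0 ∧
    Real.logb 2 |(M.det : ℝ)| ≤ Dt ∧ (∀ p, p.Prime → n ≤ (M.map (Int.cast : ℤ → ZMod p)).rank + k) ∧ (∀ t j, h t j = hz t j) ∧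
    (∀ z : Fin n → ℤ, (fun j => (z j : ℚ)) ∈ L) ∧ (∀ v ∈ L, ∀ w ∈ L, ∃ m : ℤ, v ⬝ᵥ (M' *ᵥ w) = m) ∧
    AddSubgroup.closure (Set.range fun t => (QuotientAddGroup.mk (hz t) : Coker M)) ≤ QL M L ∧
    (∃ g : Fin ρ → Coker M, QL M L = AddSubgroup.closure (Set.range g)) ∧
    ∑ p ∈ M.det.natAbs.primeFactors, cst ρ p (if y ≤ p then 0 else ρ * (a - 1))
      (AddSubgroup.closure (Set.range fun t => (QuotientAddGroup.mk (hz t) : Coker M))) (QL M L) ≤ X}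

/-- **COUNT** (404; file `Cnt404.lean`, theorem `countL : CountStmt`). PROOF. `L ↦ QL M L` is injective (`L ∋ v` iff `M v` integral with class in `QL`), `QL` isotropic for
`cokPair`. For each `p` the exponent `α_p` of `pp Q / pp H` is a flag (`≤ v_p + 1` values); `Labels.lab_count_prime` in `Red`; total `≤ ∏ 4 (v_p+1)^2 · 2^X`;
`16 (v+1)^2 ≤ 2^(6 v)` for `p ≥ y`, `∑_(p ≥ y) v_p ≤ Dt / log2 y`; `p < y`: lifts `≤ |G[p^e]|^(2ρ) ≤ p^(2 ρ e k)`. -/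
def CountStmt : Prop := ∀ (n s ρ y a k : ℕ) (Dt X : ℝ) (M' : Matrix (Fin n) (Fin n) ℚ) (h : Fin s → Fin n → ℚ), 2 ≤ y → 1 ≤ a → 0 ≤ X → 0 ≤ Dt →
  (LabSet n s ρ y a k Dt X M' h).Finite ∧
  (((LabSet n s ρ y a k Dt X M' h).ncard : ℕ) : ℝ) ≤
    2 ^ (X + 6 * Dt / Real.logb 2 y + y * (4 + 2 * Real.logb 2 (Dt + 1) + 2 * ρ * (ρ * a) * k * Real.logb 2 y))

/-- **DET** (file `GDet.lean`, theorem `gdet : KZFStmt → ConStmt → RelStmt → GoodRStmt → AvgStmt → DetStmt`): the deterministic core: one matrix `b`, fixed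
columns `F`. PROOF. `RelStmt` gives `M'`, `hz`, `D`. `𝓡` = good rows (`GoodRStmt`), `|𝓡| ≥ 3/4 n^ρ`. `AvgStmt` (transfer `β ≃ Fin ρ`; `G R = Coker (M' R)`,
`x R i = [hz R i]`, `d p = v_p(D)`, `Pr` = all primes `≤` a bound containing all prime factors of all `det M'`, or the prime factors of the product), hypotheses by `KZFStmt` and `ConStmt`
(`T = {R j : j < i}`). Some `(R, c)` has cost `≤ X`. Then `newL ∈ LabSet`: rank: `M'` contains `P_TT`, `T = Rᶜ`, so `n ≤ rank + (k + ρ)`. -/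
def DetStmt : Prop := ∀ (n : ℕ) (β : Type) [Fintype β] [DecidableEq β] (b : Bits n) (F : Matrix (Fin n) β ℤ) (Xn y a z k s s₁ : ℕ) (τ Y Dt X B : ℝ) (Av : Finset (Fin n)),
  0 < n → 1 ≤ Xn → 1 ≤ a → 2 ≤ y → 0 < τ → 1 ≤ Y → 0 ≤ X → (matZ b).det ≠ 0 → (∀ j q, |F j q| ≤ (Xn : ℤ)) →
  (∀ i k, ∃ m : ℤ, gF (matZ b) F i ⬝ᵥ (PQ (matZ b) *ᵥ gF (matZ b) F k) = m) → (∀ q, BdQ Y (gF (matZ b) F q)) →
  KZ (matZ b) F y a z → CorLt (matZ b) k →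
  (∀ c : β → ℝ, (∀ q, |c q| ≤ 1) → (∃ q, |c q| = 1) → Set.ncard {j : Fin n | |∑ q, c q * ((gF (matZ b) F q j : ℚ) : ℝ)| < τ} ≤ s) →
  4 * (Fintype.card β * (s + Av.card + Fintype.card β)) ≤ n →
  Real.logb 2 (((Fintype.card β + 1).factorial * ((Fintype.card β + 1) * (n * n.factorial * Xn)) ^ (Fintype.card β + 1) : ℕ) : ℝ) ≤ B →
  Real.logb 2 (n.factorial * ((Fintype.card β).factorial * Y ^ Fintype.card β) ^ 2) ≤ Dt →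
  ((Fintype.card β : ℝ) + 1) *
      ((Real.logb 2 n.factorial + 2 * Fintype.card β * (Fintype.card β * a) * y * Real.logb 2 (y + 1)) *
          ((1 / 2) ^ s₁ * (Fintype.card β * z / n) + (Fintype.card β * z / n) ^ 2) +
        2 * (Fintype.card β * B) * ((1 / 2) ^ s₁ * (Fintype.card β * z / n) + Fintype.card β * (Fintype.card β * z / n) ^ 2)) ≤ X / 2 →
  ∃ R : β → Fin n, Function.Injective R ∧ (∀ i, R i ∉ Av) ∧ τ ^ Fintype.card β ≤ |((minor R (gF (matZ b) F) : ℚ) : ℝ)| ∧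
    ∃ c : Fin s₁ → β → Bool, newL (LFg (matZ b) F) R (gF (matZ b) F) ∈
      LabSet n s₁ (Fintype.card β) y a (k + Fintype.card β) Dt X (newP (matZ b) R (gF (matZ b) F)) (fun t => newH (matZ b) R (gF (matZ b) F) (c t))

/-! ## Numbers: `y = 2^v`, `v = log2 n / 10`, `t = v y^2`, `a = y^3`, `X = n^A`, `z = C n / v`, `k = sqrt (2 (C+12) n) + 1` -/

/-- `v ≈ log2 n / 10` -/
def pv (n : ℕ) : ℕ := Nat.log 2 n / 10
/-- `y ≈ n^(1/10)` -/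
def py (n : ℕ) : ℕ := 2 ^ pv n
/-- `t ≈ n^(1/5) log n` -/
def pt (n : ℕ) : ℕ := pv n * py n ^ 2
/-- `a ≈ n^(3/10)` -/
def pa (n : ℕ) : ℕ := py n ^ 3
/-- `z = C n / v` -/
def pz (C n : ℕ) : ℕ := C * n / pv n
/-- `k ≈ sqrt (2 (C+12) n)` -/
def pk (C n : ℕ) : ℕ := Nat.sqrt (2 * (C + 12) * n) + 1

open Filter in
/-- **N1** small facts -/
def Num1 : Prop := ∀ J A s₀ m : ℕ, ∀ᶠ n : ℕ in atTop, m ≤ pv n ∧ s₀.factorial < py n ∧ pv n ≤ pa n ∧ m * (pt n + m) ≤ n ∧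
  (pt n + J).factorial * (n ^ A) ^ (pt n + J) < 2 ^ (pa n - pv n) ∧ 2 * py n ≤ 2 ^ pa n

open Filter in
/-- **N2** number of types (`pm = 2^a`) -/
def Num2 : Prop := ∀ J : ℕ, ∀ ε : ℝ, 0 < ε → ∀ᶠ n : ℕ in atTop,
  ((((2 ^ pa n + 1) * (n * (2 ^ pa n + 1)) ^ pt n * (2 ^ pa n + 1) ^ J + 1) ^ J : ℕ) : ℝ) ≤ 2 ^ (ε * n)

open Filter in
/-- **N3** NS: `s₀` constant -/
def Num3 : Prop := ∀ C : ℕ, ∃ s₀ : ℕ, ∀ᶠ n : ℕ in atTop,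
  1 / (py n : ℝ) + 3 / 2 / Real.sqrt (s₀ + 1) ≤ 1 ∧
  ((pt n : ℝ) + 1) ^ 2 * 8 ^ n * (1 / (py n : ℝ) + 3 / 2 / Real.sqrt (s₀ + 1)) ^ (n - 3 * pt n) ≤ 2 ^ (-(C * n : ℝ))

open Filter in
/-- **N4** KZ1 with `z = 40 (C+10) n / v` -/
def Num4 : Prop := ∀ C J A : ℕ, ∀ ρ ≤ J, ∀ᶠ n : ℕ in atTop,
  1 / (py n : ℝ) + 3 / 2 / Real.sqrt (pt n + 1) ≤ 1 ∧
  3 * ((n ^ A : ℕ) : ℝ) * ((n : ℝ) + ρ) ^ 2 * 8 ^ n * (1 / (py n : ℝ) + 3 / 2 / Real.sqrt (pt n + 1)) ^ (pz (4 * (C + 10)) n - 2 * (pk C n + ρ)) ≤ 2 ^ (-(C * n : ℝ))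

open Filter in
/-- **N5** KZA with `L = s = v` -/
def Num5 : Prop := ∀ C J : ℕ, ∀ ρ ≤ J, ∀ᶠ n : ℕ in atTop,
  max ((1 / 2) ^ pv n) (1 / (2 : ℝ) ^ pv n + 3 / 2 / Real.sqrt (pt n / pv n)) ≤ 1 ∧
  (py n : ℝ) * 4 ^ n * (max ((1 / 2) ^ pv n) (1 / (2 : ℝ) ^ pv n + 3 / 2 / Real.sqrt (pt n / pv n))) ^ (pz (4 * (C + 10)) n - pa n * (pk C n + ρ)) ≤ 2 ^ (-(C * n : ℝ))

open Filter in
/-- **N6** the average: `s₁` is any number with `2^s₁ ≥ 10^6 (C+10) (J+2)^4`; `B ≤ 2 (J+2) n log2 n`, `log2 n! ≤ n log2 n` -/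
def Num6 : Prop := ∀ C J s₁ : ℕ, 10 ^ 6 * (C + 10) * (J + 2) ^ 4 ≤ 2 ^ s₁ → ∀ ρ ≤ J, ∀ᶠ n : ℕ in atTop,
  ((ρ : ℝ) + 1) *
      ((Real.logb 2 n.factorial + 2 * ρ * (ρ * pa n) * py n * Real.logb 2 (py n + 1)) *
          ((1 / 2) ^ s₁ * (ρ * pz (4 * (C + 10)) n / n) + (ρ * pz (4 * (C + 10)) n / n) ^ 2) +
        2 * (ρ * (2 * (J + 2) * n * Real.logb 2 n)) *
          ((1 / 2) ^ s₁ * (ρ * pz (4 * (C + 10)) n / n) + ρ * (ρ * pz (4 * (C + 10)) n / n) ^ 2)) ≤ (n : ℝ) / 2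

open Filter in
/-- **N7** content bound, determinant bound, count bound (`C₂ = 200`) -/
def Num7 : Prop := ∀ C J A : ℕ, ∀ ρ ≤ J, ∀ᶠ n : ℕ in atTop,
  Real.logb 2 (((ρ + 1).factorial * ((ρ + 1) * (n * n.factorial * n ^ A)) ^ (ρ + 1) : ℕ) : ℝ) ≤ 2 * (J + 2) * n * Real.logb 2 n ∧
  Real.logb 2 (n.factorial * (ρ.factorial * ((n : ℝ) ^ (A : ℝ)) ^ ρ) ^ 2) ≤ 2 * n * Real.logb 2 n ∧
  (n : ℝ) + 6 * (2 * n * Real.logb 2 n) / Real.logb 2 (py n) + py n * (4 + 2 * Real.logb 2 (2 * n * Real.logb 2 n + 1) +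
    2 * ρ * (ρ * pa n) * (pk C n + ρ : ℕ) * Real.logb 2 (py n)) ≤ 200 * n

open Filter in
/-- **N8** choice of `s₁` for `StmtG` (`C = 10 l M`, `J = 2 l M`) -/
def Num8 : Prop := ∀ M : ℕ, 1 ≤ M → ∃ l₀ : ℕ, ∀ l ≥ l₀, ∃ s₁ : ℕ, (s₁ : ℝ) * Real.logb 2 (4 * l * M + 1) ≤ l / 16 ∧
  10 ^ 6 * (10 * l * M + 10) * (2 * l * M + 2) ^ 4 ≤ 2 ^ s₁

end Vale.Agent.P160.Half.G
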