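import Vale.Agent.P160.Half.Cnt404
import Vale.Agent.P160.Half.GStmt4

/-! # P160, half rate: COUNT, link part: torsion of the cokernel, lattices and subgroups (helper978) -/

set_option linter.all false

open Finset Matrix

namespace Vale.Agent.P160.Half.G.Cnt978

open A Labels

theorem card_ker_comp_le {G : Type*} [AddCommGroup G] [Finite G] (f g : G →+ G) :
    Nat.card (f.comp g).ker ≤ Nat.card f.ker * Nat.card g.ker := by
  classical
  let h : (f.comp g).ker →+ f.ker := (g.comp (f.comp g).ker.subtype).codRestrict f.ker (by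
    intro x; exact x.2)
  have h1 : Nat.card (f.comp g).ker = Nat.card h.ker * Nat.card h.range := by
    rw [AddSubgroup.card_eq_card_quotient_mul_card_addSubgroup h.ker, mul_comm]
    congr 1
    exact Nat.card_congr (QuotientAddGroup.quotientKerEquivRange h).toEquiv
  have h2 : Nat.card h.range ≤ Nat.card f.ker :=
    Nat.card_le_card_of_injective _ Subtype.val_injective
  have h3 : Nat.card h.ker ≤ Nat.card g.ker := by
    refine Nat.card_le_card_of_injective (fun x => (⟨x.1.1, ?_⟩ : g.ker)) ?_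
    · have := congrArg Subtype.val x.2
      exact this
    · intro x y hxy
      apply Subtype.ext
      apply Subtype.ext
      exact congrArg (fun z : g.ker => z.1) hxy
  rw [h1, mul_comm]
  exact Nat.mul_le_mul h2 h3

theorem card_ker_pow_le {G : Type*} [AddCommGroup G] [Finite G] (p : ℕ) (e : ℕ) :
    Nat.card (nsmulAddMonoidHom (p ^ e) : G →+ G).ker ≤
      (Nat.card (nsmulAddMonoidHom p : G →+ G).ker) ^ e := by
  induction e with
  | zero =>
    have : (nsmulAddMonoidHom (p ^ 0) : G →+ G).ker = ⊥ := by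
      ext x
      rw [AddMonoidHom.mem_ker, AddSubgroup.mem_bot]
      show p ^ 0 • x = 0 ↔ x = 0
      rw [pow_zero, one_smul]
    rw [this]
    simp
  | succ e ih =>
    have h1 : (nsmulAddMonoidHom (p ^ (e + 1)) : G →+ G) =
        (nsmulAddMonoidHom (p ^ e)).comp (nsmulAddMonoidHom p) := by
      ext x
      show p ^ (e + 1) • x = p ^ e • (p • x)
      rw [pow_succ, mul_smul]
    rw [h1, pow_succ]
    exact (card_ker_comp_le _ _).trans (Nat.mul_le_mul_right _ ih)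

theorem card_ker_p {n : ℕ} (M : Matrix (Fin n) (Fin n) ℤ) (hd : M.det ≠ 0) {p k : ℕ}
    (hp : p.Prime) (hr : n ≤ (M.map (Int.cast : ℤ → ZMod p)).rank + k) [Finite (Coker M)] :
    Nat.card (nsmulAddMonoidHom p : Coker M →+ Coker M).ker ≤ p ^ k := by
  classical
  have : Fact p.Prime := ⟨hp⟩
  set W : Submodule (ZMod p) (Fin n → ZMod p) :=
    LinearMap.ker (M.map (Int.cast : ℤ → ZMod p)).mulVecLin with hW
  have hfin : Module.finrank (ZMod p) W ≤ k := by
    have h1 := LinearMap.finrank_range_add_finrank_ker (M.map (Int.cast : ℤ → ZMod p)).mulVecLin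
    rw [Module.finrank_fintype_fun_eq_card, Fintype.card_fin] at h1
    unfold Matrix.rank at hr
    rw [← hW] at h1
    omega
  have hcard : Nat.card W ≤ p ^ k := by
    rw [Module.natCard_eq_pow_finrank (K := ZMod p), Nat.card_zmod]
    exact Nat.pow_le_pow_right hp.pos hfin
  refine le_trans ?_ hcard
  have hx : ∀ g : (nsmulAddMonoidHom p : Coker M →+ Coker M).ker, ∃ (x z : Fin n → ℤ),
      g.1 = QuotientAddGroup.mk x ∧ M *ᵥ z = p • x := by
    intro g
    obtain ⟨x, hx⟩ := QuotientAddGroup.mk_surjective g.1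
    have h1 : p • g.1 = 0 := g.2
    rw [← hx] at h1
    have h2 : (QuotientAddGroup.mk (p • x) : Coker M) = 0 := h1
    rw [QuotientAddGroup.eq_zero_iff, mem_lat] at h2
    obtain ⟨z, hz⟩ := h2
    exact ⟨x, z, hx.symm, hz⟩
  choose x z hx1 hx2 using hx
  have hz : ∀ g, (fun i => ((z g i : ℤ) : ZMod p)) ∈ W := by
    intro g
    rw [hW, LinearMap.mem_ker]
    show (M.map (Int.cast : ℤ → ZMod p)) *ᵥ (fun i => ((z g i : ℤ) : ZMod p)) = 0
    ext i
    have h1 := congrFun (hx2 g) i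
    have h2 : ((M *ᵥ z g) i : ZMod p) = 0 := by
      rw [h1]
      simp
    simp only [Matrix.mulVec, dotProduct, Matrix.map_apply, Pi.zero_apply] at h2 ⊢
    rw [← h2]
    push_cast
    rfl
  refine Nat.card_le_card_of_injective (fun g => (⟨_, hz g⟩ : W)) ?_
  intro g g' h
  have h1 : ∀ i, ((z g i : ℤ) : ZMod p) = ((z g' i : ℤ) : ZMod p) := fun i =>
    congrFun (congrArg Subtype.val h) i
  have h2 : ∀ i, ∃ w : ℤ, z g i - z g' i = p * w := by
    intro i
    have h3 := (ZMod.intCast_eq_intCast_iff_dvd_sub _ _ p).1 (h1 i).symm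
    obtain ⟨w, hw⟩ := h3
    exact ⟨w, hw⟩
  choose w hw using h2
  have h3 : z g - z g' = (p : ℤ) • w := by
    ext i; rw [Pi.sub_apply, hw i]; rfl
  have h4 : (p : ℤ) • (x g - x g') = (p : ℤ) • (M *ᵥ w) := by
    rw [← mulVec_smul, ← h3, mulVec_sub, hx2, hx2]
    ext i
    simp [mul_sub]
  have h5 : x g - x g' = M *ᵥ w := by
    have hp0 : (p : ℤ) ≠ 0 := by exact_mod_cast hp.ne_zero
    exact smul_right_injective _ hp0 h4
  apply Subtype.ext
  rw [hx1, hx1, QuotientAddGroup.eq, mem_lat]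
  refine ⟨-w, ?_⟩
  rw [mulVec_neg, ← h5]
  abel

theorem card_tor_le {n : ℕ} (M : Matrix (Fin n) (Fin n) ℤ) (hd : M.det ≠ 0) {p k : ℕ}
    (hp : p.Prime) (hr : n ≤ (M.map (Int.cast : ℤ → ZMod p)).rank + k) [Finite (Coker M)] (e : ℕ) :
    Nat.card (Cnt.tor (Coker M) p e) ≤ p ^ (k * e) := by
  have h1 : Nat.card (Cnt.tor (Coker M) p e) ≤
      Nat.card (nsmulAddMonoidHom (p ^ e) : Coker M →+ Coker M).ker :=
    Nat.card_le_card_of_injective (AddSubgroup.inclusion inf_le_right)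
      (AddSubgroup.inclusion_injective _)
  refine h1.trans ((card_ker_pow_le p e).trans ?_)
  rw [pow_mul]
  exact Nat.pow_le_pow_left (card_ker_p M hd hp hr) e

/-! ## lattices and subgroups -/

theorem map_mulVec_int {n : ℕ} (M : Matrix (Fin n) (Fin n) ℤ) (z : Fin n → ℤ) :
    M.map (Int.cast : ℤ → ℚ) *ᵥ (fun j => (z j : ℚ)) = fun j => (((M *ᵥ z) j : ℤ) : ℚ) := by
  ext i
  simp only [Matrix.mulVec, dotProduct, Matrix.map_apply]
  push_cast
  rfl

theorem mulVec_inj {n : ℕ} {M : Matrix (Fin n) (Fin n) ℤ} (hd : M.det ≠ 0) {v w : Fin n → ℚ}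
    (h : M.map (Int.cast : ℤ → ℚ) *ᵥ v = M.map (Int.cast : ℤ → ℚ) *ᵥ w) : v = w := by
  have hd' : (M.map (Int.cast : ℤ → ℚ)).det ≠ 0 := by
    have : (M.map (Int.cast : ℤ → ℚ)).det = ((M.det : ℤ) : ℚ) := by
      have := RingHom.map_det (Int.castRingHom ℚ) M
      simpa using this.symm
    rw [this]
    exact_mod_cast hd
  have hu : IsUnit (M.map (Int.cast : ℤ → ℚ)).det := hd'.isUnit
  have h1 := congrArg (fun u => (M.map (Int.cast : ℤ → ℚ))⁻¹ *ᵥ u) h
  simp only [Matrix.mulVec_mulVec, Matrix.nonsing_inv_mul _ hu, Matrix.one_mulVec] at h1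
  exact h1

/-- the lattice is determined by the subgroup -/
theorem mem_iff {n : ℕ} {M : Matrix (Fin n) (Fin n) ℤ} (hd : M.det ≠ 0)
    {L : Submodule ℤ (Fin n → ℚ)} (h1 : ∀ z : Fin n → ℤ, (fun j => (z j : ℚ)) ∈ L)
    (h2 : ∀ v ∈ L, ∀ w ∈ L, ∃ m : ℤ, v ⬝ᵥ (M.map (Int.cast : ℤ → ℚ) *ᵥ w) = m)
    (v : Fin n → ℚ) :
    v ∈ L ↔ ∃ w : Fin n → ℤ, M.map (Int.cast : ℤ → ℚ) *ᵥ v = (fun j => (w j : ℚ)) ∧
      (QuotientAddGroup.mk w : Coker M) ∈ QL M L := by
  constructor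
  · intro hv
    have h3 : ∀ j, ∃ m : ℤ, (M.map (Int.cast : ℤ → ℚ) *ᵥ v) j = m := by
      intro j
      obtain ⟨m, hm⟩ := h2 _ (h1 (Pi.single j 1)) v hv
      refine ⟨m, ?_⟩
      rw [← hm]
      have e : (fun i => (((Pi.single j (1 : ℤ) : Fin n → ℤ) i : ℤ) : ℚ)) = Pi.single j 1 := by
        ext i
        by_cases hij : i = j
        · subst hij; simp
        · simp [hij]
      rw [e, single_one_dotProduct]
    choose w hw using h3
    have h4 : M.map (Int.cast : ℤ → ℚ) *ᵥ v = (fun j => (w j : ℚ)) := funext hw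
    exact ⟨w, h4, w, rfl, v, hv, h4⟩
  · rintro ⟨w, hw, w', hww, v', hv', h3⟩
    have h4 : -w + w' ∈ lat M := by
      rw [← QuotientAddGroup.eq]; exact hww
    obtain ⟨z, hz⟩ := (mem_lat M).1 h4
    have h5 : v' = v + fun j => (z j : ℚ) := by
      apply mulVec_inj hd
      rw [mulVec_add, hw, h3, map_mulVec_int, hz]
      ext j
      simp
    have h6 : v = v' - fun j => (z j : ℚ) := by rw [h5]; abel
    rw [h6]
    exact L.sub_mem hv' (h1 z)

theorem QL_inj {n : ℕ} {M : Matrix (Fin n) (Fin n) ℤ} (hd : M.det ≠ 0)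
    {L L' : Submodule ℤ (Fin n → ℚ)} (h1 : ∀ z : Fin n → ℤ, (fun j => (z j : ℚ)) ∈ L)
    (h2 : ∀ v ∈ L, ∀ w ∈ L, ∃ m : ℤ, v ⬝ᵥ (M.map (Int.cast : ℤ → ℚ) *ᵥ w) = m)
    (h1' : ∀ z : Fin n → ℤ, (fun j => (z j : ℚ)) ∈ L')
    (h2' : ∀ v ∈ L', ∀ w ∈ L', ∃ m : ℤ, v ⬝ᵥ (M.map (Int.cast : ℤ → ℚ) *ᵥ w) = m)
    (h : QL M L = QL M L') : L = L' := by
  ext v
  rw [mem_iff hd h1 h2, mem_iff hd h1' h2', h]

theorem QL_iso {n : ℕ} {M : Matrix (Fin n) (Fin n) ℤ} (hs : M.transpose = M)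
    {L : Submodule ℤ (Fin n → ℚ)}
    (h2 : ∀ v ∈ L, ∀ w ∈ L, ∃ m : ℤ, v ⬝ᵥ (M.map (Int.cast : ℤ → ℚ) *ᵥ w) = m)
    (x : Coker M) (hx : x ∈ QL M L) (y : Coker M) (hy : y ∈ QL M L) :
    cokPair M hs x y = 0 := by
  obtain ⟨w, rfl, v, hv, h3⟩ := hx
  obtain ⟨w', rfl, v', hv', h3'⟩ := hy
  rw [cokPair_mk, ZMod.intCast_zmod_eq_zero_iff_dvd, Int.natAbs_dvd]
  obtain ⟨m, hm⟩ := h2 v hv v' hv'
  refine ⟨m, ?_⟩
  have h4 : (((w ⬝ᵥ (M.adjugate *ᵥ w') : ℤ)) : ℚ) = ((M.det * m : ℤ) : ℚ) := by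
    have e1 : (((w ⬝ᵥ (M.adjugate *ᵥ w') : ℤ)) : ℚ) =
        (fun j => (w j : ℚ)) ⬝ᵥ ((M.adjugate.map (Int.cast : ℤ → ℚ)) *ᵥ fun j => (w' j : ℚ)) := by
      rw [map_mulVec_int]
      simp only [dotProduct]
      push_cast
      rfl
    have e2 : M.adjugate.map (Int.cast : ℤ → ℚ) = (M.map (Int.cast : ℤ → ℚ)).adjugate := by
      have := RingHom.map_adjugate (Int.castRingHom ℚ) M
      simpa using this
    have e3 : (M.map (Int.cast : ℤ → ℚ)).det = ((M.det : ℤ) : ℚ) := by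
      have := RingHom.map_det (Int.castRingHom ℚ) M
      simpa using this.symm
    have e4 : (M.map (Int.cast : ℤ → ℚ))ᵀ = M.map (Int.cast : ℤ → ℚ) := by
      rw [← Matrix.transpose_map, hs]
    rw [e1, e2, ← h3, ← h3', mulVec_mulVec, adjugate_mul, smul_mulVec, one_mulVec, dotProduct_smul,
      e3, smul_eq_mul]
    push_cast
    rw [← hm]
    congr 1
    conv_rhs => rw [dotProduct_mulVec, ← mulVec_transpose, e4]
  exact_mod_cast h4

end Vale.Agent.P160.Half.G.Cnt978
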