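import Mathlib

/-! Counting lemma for vectors with large concentration in a finite abelian group, part A:
many tiny characters (dissociated tuples); general laziness: `0` with probability `1 - 2 b`,
`±1` with probability `b`. -/

open Finset

namespace Vale.Agent.P160.Half.CntM

variable {G : Type*} [AddCommGroup G] [Fintype G] [DecidableEq G]
variable {ι : Type*} [Fintype ι] [DecidableEq ι]

/-- characteristic function of a lazy step (`0` with probability `1 - 2 b`, `±1` with `b`) -/
noncomputable def hh (b : ℝ) (z : ℂ) : ℝ := 1 - 2 * b + 2 * b * z.re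

/-- product over the coordinates -/
noncomputable def PPi (b : ℝ) (y : ι → G) (s : AddChar G ℂ) : ℝ := ∏ c, hh b (s (y c))

theorem hh_eq (b : ℝ) {z : ℂ} (hz : ‖z‖ = 1) : hh b z = 1 - b * ‖z - 1‖ ^ 2 := by
  unfold hh
  have h1 : z.re ^ 2 + z.im ^ 2 = 1 := by
    have := Complex.sq_norm z
    rw [hz, Complex.normSq_apply] at this
    nlinarith
  have h2 : ‖z - 1‖ ^ 2 = (z.re - 1) ^ 2 + z.im ^ 2 := by
    rw [Complex.sq_norm, Complex.normSq_apply]
    simp
    ring
  have h3 : (z.re - 1) ^ 2 + z.im ^ 2 = 2 - 2 * z.re := by nlinarith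
  rw [h2, h3]
  ring

theorem hh_nonneg {b : ℝ} (hb : 0 ≤ b) (hb4 : b ≤ 1 / 4) {z : ℂ} (hz : ‖z‖ = 1) :
    0 ≤ hh b z := by
  unfold hh
  have := Complex.abs_re_le_norm z
  rw [hz] at this
  have := (abs_le.1 this).1
  nlinarith

theorem hh_le_one {b : ℝ} (hb : 0 ≤ b) {z : ℂ} (hz : ‖z‖ = 1) : hh b z ≤ 1 := by
  rw [hh_eq b hz]
  have := mul_nonneg hb (sq_nonneg ‖z - 1‖)
  linarith

theorem PPi_nonneg {b : ℝ} (hb : 0 ≤ b) (hb4 : b ≤ 1 / 4) (y : ι → G) (s : AddChar G ℂ) :
    0 ≤ PPi b y s :=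
  prod_nonneg fun c _ => hh_nonneg hb hb4 (AddChar.norm_apply s (y c))

theorem PPi_le_one {b : ℝ} (hb : 0 ≤ b) (hb4 : b ≤ 1 / 4) (y : ι → G) (s : AddChar G ℂ) :
    PPi b y s ≤ 1 :=
  prod_le_one (fun c _ => hh_nonneg hb hb4 (AddChar.norm_apply s (y c)))
    (fun c _ => hh_le_one hb (AddChar.norm_apply s (y c)))

theorem hh_mul (b : ℝ) (s t : AddChar G ℂ) (v : G) :
    ((hh b (s v) : ℝ) : ℂ) * t v = ((1 - 2 * b : ℝ) : ℂ) * t v + (b : ℂ) * (t + s) v +
      (b : ℂ) * (t - s) v := by
  have h1 : ((hh b (s v) : ℝ) : ℂ) = ((1 - 2 * b : ℝ) : ℂ) +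
      (b : ℂ) * (s v + (starRingEnd ℂ) (s v)) := by
    unfold hh
    push_cast
    rw [Complex.re_eq_add_conj]
    ring
  have h2 : (t - s) v = t v * (starRingEnd ℂ) (s v) := by
    rw [sub_eq_add_neg, AddChar.add_apply, AddChar.neg_apply, AddChar.map_neg_eq_conj]
  rw [h1, h2, AddChar.add_apply]
  ring

/-- the `{0, ±1}`-span of a list -/
noncomputable def sp : List (AddChar G ℂ) → Finset (AddChar G ℂ)
  | [] => {0}
  | s :: L => sp L ∪ (sp L).image (fun t => t + s) ∪ (sp L).image (fun t => t - s)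

theorem card_sp (L : List (AddChar G ℂ)) : (sp L).card ≤ 3 ^ L.length := by
  induction L with
  | nil => simp [sp]
  | cons s L ih =>
    have h1 := card_union_le (sp L ∪ (sp L).image (fun t => t + s)) ((sp L).image (fun t => t - s))
    have h2 := card_union_le (sp L) ((sp L).image (fun t => t + s))
    have h3 : ((sp L).image (fun t => t + s)).card ≤ (sp L).card := card_image_le
    have h4 : ((sp L).image (fun t => t - s)).card ≤ (sp L).card := card_image_le
    have h5 : 3 ^ (s :: L).length = 3 ^ L.length * 3 := by simp [pow_succ]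
    rw [h5]
    have h6 : (sp (s :: L)).card = (sp L ∪ (sp L).image (fun t => t + s) ∪ (sp L).image (fun t => t - s)).card := rfl
    omega

theorem zero_mem_sp (L : List (AddChar G ℂ)) : (0 : AddChar G ℂ) ∈ sp L := by
  induction L with
  | nil => simp [sp]
  | cons s L ih => exact mem_union_left _ (mem_union_left _ ih)

theorem neg_mem_sp (L : List (AddChar G ℂ)) : ∀ t ∈ sp L, -t ∈ sp L := by
  induction L with
  | nil => intro t ht; simp [sp] at ht ⊢; exact ht
  | cons s L ih =>
    intro t ht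
    simp only [sp, mem_union, mem_image] at ht ⊢
    rcases ht with (ht | ⟨a, ha, rfl⟩) | ⟨a, ha, rfl⟩
    · exact Or.inl (Or.inl (ih t ht))
    · exact Or.inr ⟨-a, ih a ha, by abel⟩
    · exact Or.inl (Or.inr ⟨-a, ih a ha, by abel⟩)

theorem not_mem_sp {s t : AddChar G ℂ} {L : List (AddChar G ℂ)} (h : t ∉ sp (s :: L)) :
    t ∉ sp L ∧ t + s ∉ sp L ∧ t - s ∉ sp L := by
  simp only [sp, mem_union, mem_image, not_or, not_exists, not_and] at h
  refine ⟨h.1.1, fun h1 => ?_, fun h1 => ?_⟩
  · exact h.2 _ h1 (by abel)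
  · exact h.1.2 _ h1 (by abel)

/-- weighted sums of a character -/
noncomputable def QQ (b : ℝ) (L : List (AddChar G ℂ)) (t : AddChar G ℂ) : ℂ :=
  ∑ v, (L.map (fun s => ((hh b (s v) : ℝ) : ℂ))).prod * t v

theorem QQ_cons (b : ℝ) (s : AddChar G ℂ) (L : List (AddChar G ℂ)) (t : AddChar G ℂ) :
    QQ b (s :: L) t = ((1 - 2 * b : ℝ) : ℂ) * QQ b L t + (b : ℂ) * QQ b L (t + s) +
      (b : ℂ) * QQ b L (t - s) := by
  unfold QQ
  rw [mul_sum, mul_sum, mul_sum, ← sum_add_distrib, ← sum_add_distrib]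
  refine sum_congr rfl fun v _ => ?_
  rw [List.map_cons, List.prod_cons]
  calc _ = (L.map (fun s => ((hh b (s v) : ℝ) : ℂ))).prod * (((hh b (s v) : ℝ) : ℂ) * t v) := by ring
    _ = _ := by rw [hh_mul]; ring

theorem QQ_zero (b : ℝ) {L : List (AddChar G ℂ)} :
    ∀ {t : AddChar G ℂ}, t ∉ sp L → QQ b L t = 0 := by
  induction L with
  | nil =>
    intro t ht
    have h0 : t ≠ 0 := by simpa [sp] using ht
    unfold QQ
    simp only [List.map_nil, List.prod_nil, one_mul]
    rw [AddChar.sum_eq_ite, if_neg h0]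
  | cons s L ih =>
    intro t ht
    obtain ⟨h1, h2, h3⟩ := not_mem_sp ht
    rw [QQ_cons, ih h1, ih h2, ih h3]
    ring

/-- dissociated lists -/
def Good : List (AddChar G ℂ) → Prop
  | [] => True
  | s :: L => s ∉ sp L ∧ Good L

theorem QQ_good (b : ℝ) {L : List (AddChar G ℂ)} (h : Good L) :
    QQ b L 0 = Fintype.card G * ((1 - 2 * b : ℝ) : ℂ) ^ L.length := by
  induction L with
  | nil =>
    unfold QQ
    simp
  | cons s L ih =>
    obtain ⟨h1, h2⟩ := h
    rw [QQ_cons, ih h2, zero_add, zero_sub, QQ_zero b h1,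
      QQ_zero b (fun hn => h1 (by simpa using neg_mem_sp L _ hn))]
    simp only [List.length_cons, pow_succ]
    ring

/-- sum over all vectors of a product of `PPi` -/
theorem sum_prod_PPi (b : ℝ) (L : List (AddChar G ℂ)) (h : Good L) :
    ∑ y : ι → G, (L.map (fun s => PPi b y s)).prod =
      ((Fintype.card G : ℝ) * (1 - 2 * b) ^ L.length) ^ Fintype.card ι := by
  have h1 : ∀ y : ι → G, (L.map (fun s => PPi b y s)).prod =
      ∏ c, (L.map (fun s => hh b (s (y c)))).prod := by
    intro y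
    induction L with
    | nil => simp
    | cons s L ih =>
      rw [List.map_cons, List.prod_cons, ih h.2]
      simp only [List.map_cons, List.prod_cons]
      rw [prod_mul_distrib]
      rfl
  have h2 : ∑ v : G, (L.map (fun s => hh b (s v))).prod =
      (Fintype.card G : ℝ) * (1 - 2 * b) ^ L.length := by
    have := QQ_good b h
    unfold QQ at this
    simp only [AddChar.zero_apply, mul_one] at this
    have h3 : ∀ v : G, (L.map (fun s => ((hh b (s v) : ℝ) : ℂ))).prod =
        (((L.map (fun s => hh b (s v))).prod : ℝ) : ℂ) := by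
      intro v
      clear this h1 h
      induction L with
      | nil => simp
      | cons s L ih => simp only [List.map_cons, List.prod_cons]; rw [ih]; push_cast; rfl
    simp only [h3] at this
    have h4 : (((∑ v : G, (L.map (fun s => hh b (s v))).prod : ℝ)) : ℂ) =
        (((Fintype.card G : ℝ) * (1 - 2 * b) ^ L.length : ℝ) : ℂ) := by
      push_cast at this ⊢
      exact this
    exact_mod_cast h4
  calc ∑ y : ι → G, (L.map (fun s => PPi b y s)).prod
      = ∑ y : ι → G, ∏ c, (L.map (fun s => hh b (s (y c)))).prod := sum_congr rfl fun y _ => h1 y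
    _ = ∏ _c : ι, ∑ v : G, (L.map (fun s => hh b (s v))).prod := by
        rw [prod_univ_sum]
        simp [Fintype.piFinset_univ]
    _ = _ := by rw [h2]; simp

/-- iterated sums over dissociated tuples -/
noncomputable def WW (b : ℝ) (y : ι → G) : ℕ → List (AddChar G ℂ) → ℝ
  | 0, _ => 1
  | n + 1, L => ∑ s ∈ univ \ sp L, PPi b y s * WW b y n (s :: L)

theorem WW_nonneg {b : ℝ} (hb : 0 ≤ b) (hb4 : b ≤ 1 / 4) (y : ι → G) (n : ℕ) : ∀ L : List (AddChar G ℂ), 0 ≤ WW b y n L := by
  induction n with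
  | zero => intro L; simp [WW]
  | succ n ih => intro L; exact sum_nonneg fun s _ => mul_nonneg (PPi_nonneg hb hb4 y s) (ih _)

/-- the large spectrum -/
noncomputable def Lam (b : ℝ) (y : ι → G) (τ : ℝ) : Finset (AddChar G ℂ) :=
  univ.filter (fun s => s ≠ 0 ∧ τ ≤ PPi b y s)

theorem WW_ge {b : ℝ} (hb : 0 ≤ b) (hb4 : b ≤ 1 / 4) (y : ι → G) {τ : ℝ} (hτ : 0 ≤ τ) {K : ℕ} (hK : K ≤ (Lam b y τ).card) (n : ℕ) :
    ∀ L : List (AddChar G ℂ), 2 * 3 ^ (L.length + n) ≤ K → (K * τ / 2) ^ n ≤ WW b y n L := by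
  induction n with
  | zero => intro L _; simp [WW]
  | succ n ih =>
    intro L hL
    have h1 : (K : ℝ) / 2 ≤ ((Lam b y τ \ sp L).card : ℝ) := by
      have h2 : (Lam b y τ).card - (sp L).card ≤ (Lam b y τ \ sp L).card := le_card_sdiff _ _
      have h3 := card_sp L
      have h4 : 3 ^ L.length ≤ 3 ^ (L.length + (n + 1)) := Nat.pow_le_pow_right (by norm_num) (by omega)
      have h5 : K ≤ 2 * (Lam b y τ \ sp L).card := by omega
      have h6 : (K : ℝ) ≤ 2 * ((Lam b y τ \ sp L).card : ℝ) := by exact_mod_cast h5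
      linarith
    have h2 : ∀ s ∈ Lam b y τ \ sp L, τ * (K * τ / 2) ^ n ≤ PPi b y s * WW b y n (s :: L) := by
      intro s hs
      have h3 : τ ≤ PPi b y s := (mem_filter.1 (mem_sdiff.1 hs).1).2.2
      have h4 := ih (s :: L) (by simpa [Nat.add_assoc, Nat.add_comm 1 n] using hL)
      exact mul_le_mul h3 h4 (by positivity) (PPi_nonneg hb hb4 y s)
    calc (K * τ / 2) ^ (n + 1) = (K / 2) * (τ * (K * τ / 2) ^ n) := by rw [pow_succ]; ring
      _ ≤ ((Lam b y τ \ sp L).card : ℝ) * (τ * (K * τ / 2) ^ n) :=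
          mul_le_mul_of_nonneg_right h1 (by positivity)
      _ = ∑ s ∈ Lam b y τ \ sp L, τ * (K * τ / 2) ^ n := by rw [sum_const, nsmul_eq_mul]
      _ ≤ ∑ s ∈ Lam b y τ \ sp L, PPi b y s * WW b y n (s :: L) := sum_le_sum h2
      _ ≤ ∑ s ∈ univ \ sp L, PPi b y s * WW b y n (s :: L) := by
          apply sum_le_sum_of_subset_of_nonneg
          · exact sdiff_subset_sdiff (subset_univ _) le_rfl
          · intro s _ _
            exact mul_nonneg (PPi_nonneg hb hb4 y s) (WW_nonneg hb hb4 y n _)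
      _ = WW b y (n + 1) L := rfl

theorem sum_WW {b : ℝ} (hb4 : b ≤ 1 / 4) (n : ℕ) : ∀ L : List (AddChar G ℂ), Good L →
    ∑ y : ι → G, (L.map (fun s => PPi b y s)).prod * WW b y n L ≤
      (Fintype.card G : ℝ) ^ n * ((Fintype.card G : ℝ) * (1 - 2 * b) ^ (L.length + n)) ^ Fintype.card ι := by
  have h0 : (0 : ℝ) ≤ 1 - 2 * b := by linarith
  induction n with
  | zero =>
    intro L hL
    simp only [WW, mul_one, pow_zero, one_mul, Nat.add_zero]
    exact (sum_prod_PPi b L hL).le
  | succ n ih =>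
    intro L hL
    calc ∑ y : ι → G, (L.map (fun s => PPi b y s)).prod * WW b y (n + 1) L
        = ∑ s ∈ univ \ sp L, ∑ y : ι → G, ((s :: L).map (fun s => PPi b y s)).prod * WW b y n (s :: L) := by
          rw [sum_comm]
          refine sum_congr rfl fun y _ => ?_
          show _ * (∑ s ∈ univ \ sp L, PPi b y s * WW b y n (s :: L)) = _
          rw [mul_sum]
          refine sum_congr rfl fun s _ => ?_
          rw [List.map_cons, List.prod_cons]
          ring
      _ ≤ ∑ s ∈ univ \ sp L, (Fintype.card G : ℝ) ^ n *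
            ((Fintype.card G : ℝ) * (1 - 2 * b) ^ (L.length + (n + 1))) ^ Fintype.card ι := by
          refine sum_le_sum fun s hs => ?_
          have := ih (s :: L) ⟨(mem_sdiff.1 hs).2, hL⟩
          simpa [Nat.add_assoc, Nat.add_comm 1 n] using this
      _ ≤ (Fintype.card G : ℝ) * ((Fintype.card G : ℝ) ^ n *
            ((Fintype.card G : ℝ) * (1 - 2 * b) ^ (L.length + (n + 1))) ^ Fintype.card ι) := by
          rw [sum_const, nsmul_eq_mul]
          apply mul_le_mul_of_nonneg_right _ (by positivity)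
          have h1 : (univ \ sp L).card ≤ Fintype.card G := by
            calc (univ \ sp L).card ≤ (univ : Finset (AddChar G ℂ)).card := card_le_card sdiff_subset
              _ = Fintype.card (AddChar G ℂ) := rfl
              _ = Fintype.card G := AddChar.card_eq
          exact_mod_cast h1
      _ = _ := by rw [pow_succ]; ring

/-- PART A: few vectors have many (tiny) characters. -/
theorem card_tiny {b : ℝ} (hb : 0 ≤ b) (hb4 : b ≤ 1 / 4) {τ : ℝ} (hτ : 0 < τ) {K n : ℕ} (hK : 2 * 3 ^ n ≤ K) :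
    ((univ.filter (fun y : ι → G => K ≤ (Lam b y τ).card)).card : ℝ) * (K * τ / 2) ^ n ≤
      (Fintype.card G : ℝ) ^ n * ((Fintype.card G : ℝ) * (1 - 2 * b) ^ n) ^ Fintype.card ι := by
  calc ((univ.filter (fun y : ι → G => K ≤ (Lam b y τ).card)).card : ℝ) * (K * τ / 2) ^ n
      = ∑ y ∈ univ.filter (fun y : ι → G => K ≤ (Lam b y τ).card), (K * τ / 2) ^ n := by
        rw [sum_const, nsmul_eq_mul]
    _ ≤ ∑ y ∈ univ.filter (fun y : ι → G => K ≤ (Lam b y τ).card), WW b y n [] :=
        sum_le_sum fun y hy => WW_ge hb hb4 y hτ.le (mem_filter.1 hy).2 n [] (by simpa using hK)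
    _ ≤ ∑ y : ι → G, WW b y n [] :=
        sum_le_sum_of_subset_of_nonneg (filter_subset _ _) (fun y _ _ => WW_nonneg hb hb4 y n _)
    _ ≤ _ := by
        have := sum_WW (G := G) (ι := ι) hb4 n [] trivial
        simpa using this

end Vale.Agent.P160.Half.CntM
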