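import Vale.Agent.P160.Half.FlatF

/-! # P160-HALF, leaf P2 of note 11331 (helper502): counting with an arbitrary family of characters

`adapt`: adaptive choice of boundedly many characters of `Λ` whose Bohr set is small (iterates `StmtSplit`).
`count`: if every `y ∈ Y` has a large family `Λ y` of characters which are close to `1` at all but `E`
coordinates of `y`, then `Y` is small. -/

open Finset

namespace Vale.Agent.P160.Half.CntGen

open Vale.Agent.P160.Half.Flat

theorem mem_bohr {G : Type} [AddCommGroup G] [Fintype G] {S : Finset (AddChar G ℂ)} {r : ℝ}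
    {v : G} : v ∈ bohr S r ↔ ∀ ψ ∈ S, ‖ψ v - 1‖ ≤ r := by
  classical
  unfold bohr
  simp

/-- adaptive choice -/
theorem adapt {G : Type} [AddCommGroup G] [Fintype G] (Λ : Finset (AddChar G ℂ)) (hΛ : Λ.Nonempty)
    (J : ℕ) (θ : ℝ) (hθ0 : 0 < θ) (hθ : 8 ≤ θ * J)
    (hp : ∀ p : ℕ, p.Prime → p ∣ Fintype.card G → J ≤ p) (l : ℕ) :
    ∃ S : Finset (AddChar G ℂ), S ⊆ Λ ∧ S.card ≤ l ∧
      ((bohr S (1 / J)).card : ℝ) ≤
        max (θ ^ l * Fintype.card G) (256 * Fintype.card G / (θ ^ 2 * Λ.card)) := by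
  classical
  have hΛ0 : (0 : ℝ) < Λ.card := by exact_mod_cast hΛ.card_pos
  induction l with
  | zero =>
    refine ⟨∅, empty_subset _, by simp, ?_⟩
    refine le_max_of_le_left ?_
    rw [pow_zero, one_mul]
    exact_mod_cast card_le_univ _
  | succ l ih =>
    obtain ⟨S, hS1, hS2, hS3⟩ := ih
    by_cases h : ((bohr S (1 / J)).card : ℝ) ≤ 256 * Fintype.card G / (θ ^ 2 * Λ.card)
    · exact ⟨S, hS1, hS2.trans (Nat.le_succ l), le_max_of_le_right h⟩
    have h3 : ((bohr S (1 / J)).card : ℝ) ≤ θ ^ l * Fintype.card G := by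
      rcases le_max_iff.1 hS3 with h4 | h4
      · exact h4
      · exact absurd h4 h
    by_cases h5 : ∀ ψ ∈ Λ, θ * (bohr S (1 / J)).card ≤
        (((bohr S (1 / J)).filter fun v => ‖ψ v - 1‖ ≤ 1 / J).card : ℝ)
    · exfalso
      apply h
      have h6 := Spl.stmtSplit G Λ (bohr S (1 / J)) J θ hθ hp h5
      rw [le_div_iff₀ (by positivity)]
      linarith [mul_comm ((bohr S (1 / J)).card : ℝ) (θ ^ 2 * Λ.card),
        mul_comm (Λ.card : ℝ) ((bohr S (1 / J)).card : ℝ),
        mul_assoc ((bohr S (1 / J)).card : ℝ) (θ ^ 2) (Λ.card : ℝ),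
        mul_assoc ((bohr S (1 / J)).card : ℝ) (Λ.card : ℝ) (θ ^ 2),
        mul_comm (θ ^ 2) (Λ.card : ℝ),
        show ((bohr S (1 / J)).card : ℝ) * (θ ^ 2 * Λ.card) = (Λ.card : ℝ) * (bohr S (1 / J)).card * θ ^ 2 by
          ring]
    · push Not at h5
      obtain ⟨ψ, hψ, hψ2⟩ := h5
      refine ⟨insert ψ S, ?_, ?_, ?_⟩
      · exact insert_subset hψ hS1
      · exact (card_insert_le _ _).trans (Nat.succ_le_succ hS2)
      · refine le_max_of_le_left ?_
        have h7 : bohr (insert ψ S) (1 / J) = (bohr S (1 / J)).filter fun v => ‖ψ v - 1‖ ≤ 1 / J := by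
          ext v
          rw [mem_filter, mem_bohr, mem_bohr]
          constructor
          · intro h8
            exact ⟨fun χ hχ => h8 χ (mem_insert_of_mem hχ), h8 ψ (mem_insert_self _ _)⟩
          · rintro ⟨h8, h9⟩ χ hχ
            rcases mem_insert.1 hχ with rfl | h10
            · exact h9
            · exact h8 χ h10
        rw [h7, pow_succ]
        calc (((bohr S (1 / J)).filter fun v => ‖ψ v - 1‖ ≤ 1 / J).card : ℝ)
            ≤ θ * (bohr S (1 / J)).card := hψ2.le
          _ ≤ θ * (θ ^ l * Fintype.card G) := by gcongr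
          _ = θ ^ l * θ * Fintype.card G := by ring

/-- counting -/
theorem count {G : Type} [AddCommGroup G] [Fintype G] {m : ℕ} (Y : Finset (Fin m → G))
    (Λ : (Fin m → G) → Finset (AddChar G ℂ)) (J : ℕ) (θ : ℝ) (hθ0 : 0 < θ) (hθ : 8 ≤ θ * J)
    (hp : ∀ p : ℕ, p.Prime → p ∣ Fintype.card G → J ≤ p) (l E : ℕ) (U : ℝ) (hU1 : 0 ≤ U)
    (hUG : U ≤ Fintype.card G) (hUl : θ ^ l * Fintype.card G ≤ U)
    (hΛ : ∀ y ∈ Y, (Λ y).Nonempty)
    (hUΛ : ∀ y ∈ Y, 256 * Fintype.card G / (θ ^ 2 * (Λ y).card) ≤ U)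
    (hE : ∀ y ∈ Y, ∀ ψ ∈ Λ y, Nat.card {c // ¬ ‖ψ (y c) - 1‖ ≤ 1 / J} ≤ E) (hm : l * E ≤ m) :
    (Y.card : ℝ) ≤ ((Fintype.card G : ℝ) + 1) ^ l * 2 ^ m *
      ((Fintype.card G : ℝ) ^ (l * E) * U ^ (m - l * E)) := by
  classical
  have hG1 : (1 : ℝ) ≤ Fintype.card G := by exact_mod_cast Fintype.card_pos
  -- the set attached to `(f, X)`
  set Sf : (Fin l → Option (AddChar G ℂ)) → Finset (AddChar G ℂ) := fun f =>
    univ.filter fun ψ => ∃ i, f i = some ψ with hSf
  set Bx : (Fin l → Option (AddChar G ℂ)) → Finset (Fin m) → Finset (Fin m → G) := fun f X =>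
    if ((bohr (Sf f) (1 / J)).card : ℝ) ≤ U ∧ X.card ≤ l * E then
      Fintype.piFinset fun c => if c ∈ X then univ else bohr (Sf f) (1 / J)
    else ∅ with hBx
  have hcard : ∀ f X, ((Bx f X).card : ℝ) ≤ (Fintype.card G : ℝ) ^ (l * E) * U ^ (m - l * E) := by
    intro f X
    rw [hBx]
    dsimp only
    split_ifs with h
    · obtain ⟨h1, h2⟩ := h
      rw [Fintype.card_piFinset, Nat.cast_prod]
      have h3 : ∀ c : Fin m, ((if c ∈ X then (univ : Finset G) else bohr (Sf f) (1 / J)).card : ℝ) ≤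
          if c ∈ X then (Fintype.card G : ℝ) else U := by
        intro c
        split_ifs
        · simp
        · exact h1
      calc ∏ c : Fin m, ((if c ∈ X then (univ : Finset G) else bohr (Sf f) (1 / J)).card : ℝ)
          ≤ ∏ c : Fin m, (if c ∈ X then (Fintype.card G : ℝ) else U) :=
            prod_le_prod (fun c _ => by positivity) fun c _ => h3 c
        _ = (Fintype.card G : ℝ) ^ X.card * U ^ (m - X.card) := by
            rw [prod_ite, prod_const, prod_const]
            congr 2
            · congr 1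
              ext c; simp
            · have h4 : (univ.filter fun c : Fin m => ¬ c ∈ X) = Xᶜ := by
                ext c; simp
              rw [h4, card_compl, Fintype.card_fin]
        _ ≤ (Fintype.card G : ℝ) ^ (l * E) * U ^ (m - l * E) := by
            have h5 : m - X.card = (l * E - X.card) + (m - l * E) := by omega
            have h6 : l * E = X.card + (l * E - X.card) := by omega
            rw [h5, pow_add, ← mul_assoc]
            refine mul_le_mul_of_nonneg_right ?_ (by positivity)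
            conv_rhs => rw [h6, pow_add]
            refine mul_le_mul_of_nonneg_left ?_ (by positivity)
            exact pow_le_pow_left₀ hU1 hUG _
    · rw [card_empty, Nat.cast_zero]
      positivity
  have hsub : Y ⊆ (univ : Finset ((Fin l → Option (AddChar G ℂ)) × Finset (Fin m))).biUnion
      fun q => Bx q.1 q.2 := by
    intro y hy
    obtain ⟨S, hS1, hS2, hS3⟩ := adapt (Λ y) (hΛ y hy) J θ hθ0 hθ hp l
    have hSU : ((bohr S (1 / J)).card : ℝ) ≤ U := hS3.trans (max_le hUl (hUΛ y hy))
    -- code of `S`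
    set f : Fin l → Option (AddChar G ℂ) := fun i =>
      if h : (i : ℕ) < S.card then some (S.equivFin.symm ⟨i, h⟩ : AddChar G ℂ) else none with hf
    have hfS : Sf f = S := by
      ext ψ
      rw [hSf]
      simp only [mem_filter, mem_univ, true_and]
      constructor
      · rintro ⟨i, hi⟩
        rw [hf] at hi
        dsimp only at hi
        split_ifs at hi with h
        rw [Option.some.injEq] at hi
        rw [← hi]
        exact (S.equivFin.symm ⟨i, h⟩).2
      · intro hψ
        have h1 : ((S.equivFin ⟨ψ, hψ⟩ : Fin S.card) : ℕ) < l := (S.equivFin ⟨ψ, hψ⟩).2.trans_le hS2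
        refine ⟨⟨_, h1⟩, ?_⟩
        rw [hf]
        dsimp only
        rw [dif_pos (S.equivFin ⟨ψ, hψ⟩).2]
        simp
    set X : Finset (Fin m) := univ.filter fun c => y c ∉ bohr S (1 / J) with hX
    have hXc : X.card ≤ l * E := by
      have h1 : X ⊆ S.biUnion fun ψ => univ.filter fun c => ¬ ‖ψ (y c) - 1‖ ≤ 1 / J := by
        intro c hc
        rw [hX, mem_filter, mem_bohr] at hc
        have h2 := hc.2
        push Not at h2
        obtain ⟨ψ, hψ, h3⟩ := h2
        rw [mem_biUnion]
        exact ⟨ψ, hψ, by rw [mem_filter]; exact ⟨mem_univ _, not_le.2 h3⟩⟩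
      calc X.card ≤ _ := card_le_card h1
        _ ≤ ∑ ψ ∈ S, (univ.filter fun c => ¬ ‖ψ (y c) - 1‖ ≤ 1 / J).card := card_biUnion_le
        _ ≤ ∑ _ψ ∈ S, E := by
            refine sum_le_sum fun ψ hψ => ?_
            have := hE y hy ψ (hS1 hψ)
            rw [Nat.card_eq_fintype_card, Fintype.card_subtype] at this
            exact this
        _ = S.card * E := by rw [sum_const, smul_eq_mul]
        _ ≤ l * E := Nat.mul_le_mul_right _ hS2
    rw [mem_biUnion]
    refine ⟨(f, X), mem_univ _, ?_⟩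
    rw [hBx]
    dsimp only
    rw [hfS, if_pos ⟨hSU, hXc⟩, Fintype.mem_piFinset]
    intro c
    split_ifs with h
    · exact mem_univ _
    · rw [hX, mem_filter] at h
      push Not at h
      exact h (mem_univ _)
  have hcard2 : Fintype.card (AddChar G ℂ) = Fintype.card G := AddChar.card_eq
  calc (Y.card : ℝ) ≤ (((univ : Finset ((Fin l → Option (AddChar G ℂ)) × Finset (Fin m))).biUnion
      fun q => Bx q.1 q.2).card : ℝ) := by exact_mod_cast card_le_card hsub
    _ ≤ ∑ q : (Fin l → Option (AddChar G ℂ)) × Finset (Fin m), ((Bx q.1 q.2).card : ℝ) := by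
        exact_mod_cast card_biUnion_le
    _ ≤ ∑ _q : (Fin l → Option (AddChar G ℂ)) × Finset (Fin m),
        (Fintype.card G : ℝ) ^ (l * E) * U ^ (m - l * E) := sum_le_sum fun q _ => hcard q.1 q.2
    _ = ((Fintype.card G : ℝ) + 1) ^ l * 2 ^ m *
      ((Fintype.card G : ℝ) ^ (l * E) * U ^ (m - l * E)) := by
        rw [sum_const, nsmul_eq_mul, card_univ, Fintype.card_prod, Fintype.card_fun,
          Fintype.card_option, hcard2, Fintype.card_fin, Fintype.card_finset, Fintype.card_fin]
        push_cast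
        ring

end Vale.Agent.P160.Half.CntGen
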