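import Vale.Agent.P160.Half.LabVec

/-! # P160: torsion of the cokernel and the corank modulo `p`; crude bound for the label sets (helper201) -/

set_option linter.unusedSectionVars false

namespace Vale.Agent.P160.Half.LabCok

open Finset Matrix Vale.Agent.P160.Half.Labels Vale.Agent.P160.Half.LabMax Vale.Agent.P160.Half.LabTwo
  Vale.Agent.P160.Half.LabAll

section G

variable {G : Type*} [AddCommGroup G] [Fintype G] {N : ℕ} [NeZero N] (b : G →+ G →+ ZMod N)

theorem card_kil_pow_le (p a : ℕ) : Nat.card (kil (p ^ a) G) ≤ (Nat.card (kil p G)) ^ a := by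
  induction a with
  | zero =>
    have : kil (p ^ 0) G = ⊥ := by
      ext x; rw [mem_kil]; simp
    rw [this]; simp
  | succ a ih =>
    calc _ ≤ Nat.card (kil p G) * Nat.card (kil (p ^ a) G) := card_kil_succ p a
      _ ≤ Nat.card (kil p G) * (Nat.card (kil p G)) ^ a := Nat.mul_le_mul le_rfl ih
      _ = (Nat.card (kil p G)) ^ (a + 1) := by rw [pow_succ]; ring

/-- the label set is at most the number of elements killed by `p ^ a` -/
theorem card_Tp_le_kil (p a : ℕ) : (Tp b p a).card ≤ Nat.card (kil (p ^ a) G) := by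
  classical
  have h1 : ∀ Q ∈ Tp b p a, ∃ h : G, addOrderOf h = p ^ a ∧ Q = AddSubgroup.closure {h} :=
    fun Q hQ => ((mem_Tp b).1 hQ).2.2
  choose! h ho hQ using h1
  rw [Nat.card_eq_fintype_card, Fintype.card_subtype]
  apply Finset.card_le_card_of_injOn h
  · intro Q hQm
    rw [Finset.coe_filter]
    refine ⟨mem_univ _, ?_⟩
    rw [mem_kil, ← ho Q hQm]; exact addOrderOf_nsmul_eq_zero _
  · intro Q hQm Q' hQm' hhh
    rw [hQ Q hQm, hQ Q' hQm', hhh]

theorem card_Tp_le_pow (p a : ℕ) : (Tp b p a).card ≤ (Nat.card (kil p G)) ^ a :=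
  (card_Tp_le_kil b p a).trans (card_kil_pow_le p a)

theorem card_kil_eq (p : ℕ) : Nat.card {x : G // p • x = 0} = Nat.card (kil p G) := by
  apply Nat.card_congr
  exact Equiv.subtypeEquivRight (fun x => by rw [mem_kil])

end G

section M

variable {m : ℕ} (P : Matrix (Fin m) (Fin m) ℤ)

/-- torsion of the cokernel is at most the kernel modulo `p` -/
theorem card_kil_coker (hd : P.det ≠ 0) {p : ℕ} (hp : p.Prime) :
    Nat.card (kil p (Coker P)) ≤ p ^ (m - (P.map (Int.cast : ℤ → ZMod p)).rank) := by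
  classical
  have : Fact p.Prime := ⟨hp⟩
  have hinj : ∀ z w : Fin m → ℤ, P *ᵥ z = P *ᵥ w → z = w := by
    intro z w hzw
    have h2 : P.adjugate *ᵥ (P *ᵥ z) = P.adjugate *ᵥ (P *ᵥ w) := by rw [hzw]
    rw [mulVec_mulVec, mulVec_mulVec, adjugate_mul, smul_mulVec, smul_mulVec, one_mulVec,
      one_mulVec] at h2
    exact smul_right_injective _ hd h2
  set Pp := P.map (Int.cast : ℤ → ZMod p) with hPp
  -- representatives
  have h1 : ∀ g : kil p (Coker P), ∃ x z : Fin m → ℤ, (QuotientAddGroup.mk x : Coker P) = g.1 ∧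
      P *ᵥ z = p • x := by
    intro g
    obtain ⟨x, hx⟩ := QuotientAddGroup.mk_surjective g.1
    have h2 := mem_kil.1 g.2
    rw [← hx, ← QuotientAddGroup.mk_nsmul, QuotientAddGroup.eq_zero_iff, mem_lat] at h2
    obtain ⟨z, hz⟩ := h2
    exact ⟨x, z, hx, hz⟩
  choose x z hx hz using h1
  have hmap : ∀ w : Fin m → ℤ, Pp *ᵥ (fun i => ((w i : ℤ) : ZMod p))
      = fun i => (((P *ᵥ w) i : ℤ) : ZMod p) := by
    intro w
    ext i
    simp only [hPp, mulVec, dotProduct, map_apply]
    push_cast; rfl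
  let f : kil p (Coker P) → LinearMap.ker Pp.mulVecLin := fun g =>
    ⟨fun i => ((z g i : ℤ) : ZMod p), by
      rw [LinearMap.mem_ker, mulVecLin_apply, hmap]
      ext i
      rw [hz g]
      simp⟩
  have hf : Function.Injective f := by
    intro g g' hgg
    have h2 : ∀ i, ((z g i : ℤ) : ZMod p) = ((z g' i : ℤ) : ZMod p) := by
      intro i
      have := congrArg (fun u => u.1 i) hgg
      exact this
    have h3 : ∀ i, (p : ℤ) ∣ z g i - z g' i := by
      intro i
      rw [← ZMod.intCast_zmod_eq_zero_iff_dvd, Int.cast_sub, h2 i, sub_self]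
    choose w hw using h3
    have h4 : z g - z g' = (p : ℤ) • w := by
      ext i; rw [Pi.sub_apply, hw i]; rfl
    have h5 : (p : ℤ) • (P *ᵥ w) = (p : ℤ) • (x g - x g') := by
      rw [← mulVec_smul, ← h4, mulVec_sub, hz g, hz g', smul_sub, natCast_zsmul, natCast_zsmul]
    have h6 : P *ᵥ w = x g - x g' := by
      have hp0 : (p : ℤ) ≠ 0 := by exact_mod_cast hp.ne_zero
      exact smul_right_injective _ hp0 h5
    apply Subtype.ext
    rw [← hx g, ← hx g', ← sub_eq_zero, ← QuotientAddGroup.mk_sub, QuotientAddGroup.eq_zero_iff,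
      mem_lat]
    exact ⟨w, h6⟩
  refine (Nat.card_le_card_of_injective f hf).trans ?_
  have h7 : Nat.card (LinearMap.ker Pp.mulVecLin) = p ^ Module.finrank (ZMod p) (LinearMap.ker Pp.mulVecLin) := by
    rw [Module.natCard_eq_pow_finrank (K := ZMod p), Nat.card_zmod]
  rw [h7]
  apply Nat.pow_le_pow_right hp.pos
  have h8 := LinearMap.finrank_range_add_finrank_ker Pp.mulVecLin
  rw [Module.finrank_fin_fun] at h8
  have h9 : Pp.rank = Module.finrank (ZMod p) (LinearMap.range Pp.mulVecLin) := rfl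
  omega

end M

end Vale.Agent.P160.Half.LabCok
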