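import Vale.Agent.P160.Half.GStmt4
import Vale.Agent.P160.Half.Cnt404
import Vale.Agent.P160.Half.LabCok

/-! # P160, half rate: `CountStmt` from `Cnt.count` (helper840) -/

set_option linter.unusedVariables false

open Finset Matrix

namespace Vale.Agent.P160.Half.G.C840

open A Labels

variable {n : ℕ}

theorem castM_inj {M M' : Matrix (Fin n) (Fin n) ℤ}
    (h : M.map (Int.cast : ℤ → ℚ) = M'.map (Int.cast : ℤ → ℚ)) : M = M' := by
  ext i j
  have := congrFun (congrFun h i) j
  simp only [Matrix.map_apply] at this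
  exact_mod_cast this

theorem map_mulVec (M : Matrix (Fin n) (Fin n) ℤ) (z : Fin n → ℤ) :
    M.map (Int.cast : ℤ → ℚ) *ᵥ (fun j => (z j : ℚ)) = fun j => ((M *ᵥ z) j : ℚ) := by
  ext i
  simp only [mulVec, dotProduct, map_apply]
  push_cast
  rfl

theorem mulVec_inj {M : Matrix (Fin n) (Fin n) ℤ} (hd : M.det ≠ 0) {v w : Fin n → ℚ}
    (h : M.map (Int.cast : ℤ → ℚ) *ᵥ v = M.map (Int.cast : ℤ → ℚ) *ᵥ w) : v = w := by
  have h1 : (M.map (Int.cast : ℤ → ℚ)).det ≠ 0 := by
    have := Int.cast_det (R := ℚ) M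
    rw [← this]
    exact_mod_cast hd
  exact (Matrix.mulVec_injective_iff_isUnit.mpr ((Matrix.isUnit_iff_isUnit_det _).mpr (isUnit_iff_ne_zero.mpr h1))) h

/-- `L` is recovered from `QL M L` -/
theorem mem_of_QL {M : Matrix (Fin n) (Fin n) ℤ} (hd : M.det ≠ 0) {L L' : Submodule ℤ (Fin n → ℚ)}
    (hZ' : ∀ z : Fin n → ℤ, (fun j => (z j : ℚ)) ∈ L')
    (hZ : ∀ z : Fin n → ℤ, (fun j => (z j : ℚ)) ∈ L)
    (hint : ∀ v ∈ L, ∀ w ∈ L, ∃ m : ℤ, v ⬝ᵥ (M.map (Int.cast : ℤ → ℚ) *ᵥ w) = m)
    (hQ : QL M L ≤ QL M L') : L ≤ L' := by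
  intro v hv
  have h1 : ∀ j, ∃ m : ℤ, (M.map (Int.cast : ℤ → ℚ) *ᵥ v) j = m := by
    intro j
    obtain ⟨m, hm⟩ := hint _ (hZ (Pi.single j 1)) v hv
    refine ⟨m, ?_⟩
    rw [← hm]
    have : (fun k => ((Pi.single j (1 : ℤ) : Fin n → ℤ) k : ℚ)) = Pi.single j (1 : ℚ) := by
      ext k
      by_cases hk : k = j
      · subst hk; simp
      · simp [Pi.single_eq_of_ne hk]
    rw [this, single_one_dotProduct]
  choose w hw using h1
  have h2 : M.map (Int.cast : ℤ → ℚ) *ᵥ v = fun j => (w j : ℚ) := funext hw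
  have h3 : (QuotientAddGroup.mk w : Coker M) ∈ QL M L := ⟨w, rfl, v, hv, h2⟩
  obtain ⟨w', hww, v', hv', h4⟩ := hQ h3
  rw [QuotientAddGroup.eq, mem_lat] at hww
  obtain ⟨u, hu⟩ := hww
  have h5 : v' = v + (fun j => (u j : ℚ)) := by
    apply mulVec_inj hd
    rw [mulVec_add, h2, h4, map_mulVec, hu]
    ext j
    simp
  have h6 : v = v' - (fun j => (u j : ℚ)) := by rw [h5]; abel
  rw [h6]
  exact L'.sub_mem hv' (hZ' u)

/-- `QL` is isotropic -/
theorem QL_iso {M : Matrix (Fin n) (Fin n) ℤ} (hP : M.transpose = M) (hd : M.det ≠ 0) {L : Submodule ℤ (Fin n → ℚ)}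
    (hint : ∀ v ∈ L, ∀ w ∈ L, ∃ m : ℤ, v ⬝ᵥ (M.map (Int.cast : ℤ → ℚ) *ᵥ w) = m) :
    ∀ x ∈ QL M L, ∀ y ∈ QL M L, cokPair M hP x y = 0 := by
  rintro _ ⟨w, rfl, v, hv, h⟩ _ ⟨w', rfl, v', hv', h'⟩
  rw [cokPair_mk, ZMod.intCast_zmod_eq_zero_iff_dvd, Int.natAbs_dvd]
  obtain ⟨m, hm⟩ := hint v' hv' v hv
  refine ⟨m, ?_⟩
  have h1 : M.map (Int.cast : ℤ → ℚ) *ᵥ ((M.det : ℚ) • v') =
      M.map (Int.cast : ℤ → ℚ) *ᵥ (fun j => ((M.adjugate *ᵥ w') j : ℚ)) := by
    rw [mulVec_smul, h', map_mulVec, mulVec_mulVec, mul_adjugate, smul_mulVec, one_mulVec]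
    ext j
    simp
  have h2 := mulVec_inj hd h1
  have h3 : ((w ⬝ᵥ (M.adjugate *ᵥ w') : ℤ) : ℚ) = (M.det : ℚ) * m := by
    have h4 : ((w ⬝ᵥ (M.adjugate *ᵥ w') : ℤ) : ℚ) = (fun j => (w j : ℚ)) ⬝ᵥ (fun j => ((M.adjugate *ᵥ w') j : ℚ)) := by
      simp only [dotProduct]
      push_cast
      rfl
    rw [h4, ← h2, dotProduct_smul, smul_eq_mul, ← hm, ← h, dotProduct_comm]
  exact_mod_cast h3

section wt

variable {G : Type*} [AddCommGroup G] [Fintype G]

theorem log_eq {p : ℕ} (hp : p.Prime) {R : AddSubgroup G} (hR : R ≤ prim G p) :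
    (Nat.card R).factorization p = Nat.log p (Nat.card R) := by
  conv_lhs => rw [(Cnt.card_pow_of_le hp hR).1]
  rw [hp.factorization_pow]
  simp

theorem pp_le (p e : ℕ) (Q : AddSubgroup G) : pp p e Q ≤ prim G p := by
  rintro _ ⟨x, hx, rfl⟩
  exact (prim G p).nsmul_mem hx.2 _

theorem wt_le {p : ℕ} (hp : p.Prime) (ρ e : ℕ) (H Q : AddSubgroup G) :
    Cnt.wt ρ p e H Q ≤ cst ρ p e H Q + (2 * Real.logb 2 ((Nat.card G).factorization p + 1) + 3) := by
  classical
  have hlp : 0 ≤ Real.logb 2 (p : ℝ) := Real.logb_nonneg (by norm_num) (by exact_mod_cast hp.one_lt.le)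
  have hlv : 0 ≤ Real.logb 2 (((Nat.card G).factorization p : ℝ) + 1) :=
    Real.logb_nonneg (by norm_num) (by linarith [Nat.cast_nonneg (α := ℝ) ((Nat.card G).factorization p)])
  have e1 : Cnt.pp p e Q = pp p e Q := rfl
  have e2 : Cnt.pp p e H = pp p e H := rfl
  rw [Cnt.wt, Cnt.w0, e1, e2, cst]
  by_cases h : pp p e Q = pp p e H
  · rw [if_pos h, if_pos h]
    have : 0 ≤ (0 + 2 * (Rev.bb p (pp p e Q ⧸ (pp p e H).addSubgroupOf (pp p e Q)) : ℝ)) * ((ρ : ℝ) + 1) * Real.logb 2 p := by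
      positivity
    linarith
  · rw [if_neg h, if_neg h, log_eq hp (pp_le p e Q)]
    have : ((ρ : ℝ) + 1) * (((Nat.card G).factorization p : ℝ) - 2 * (Nat.log p (Nat.card (pp p e Q)) : ℝ) +
        2 * (Rev.bb p (pp p e Q ⧸ (pp p e H).addSubgroupOf (pp p e Q)) : ℝ)) * Real.logb 2 p =
      (((Nat.card G).factorization p : ℝ) - 2 * (Nat.log p (Nat.card (pp p e Q)) : ℝ) +
        2 * (Rev.bb p (pp p e Q ⧸ (pp p e H).addSubgroupOf (pp p e Q)) : ℝ)) * ((ρ : ℝ) + 1) * Real.logb 2 p := by ring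
    linarith

theorem tor_le {p : ℕ} (e : ℕ) : Nat.card (Cnt.tor G p e) ≤ Nat.card (LabAll.kil p G) ^ e := by
  refine le_trans ?_ (LabCok.card_kil_pow_le p e)
  apply Nat.card_le_card_of_injective (fun x : Cnt.tor G p e => (⟨x.1, LabAll.mem_kil.mpr x.2.2⟩ : LabAll.kil (p ^ e) G))
  intro x y hxy
  exact Subtype.ext (congrArg (fun u : LabAll.kil (p ^ e) G => u.1) hxy)

end wt

theorem sum_fac (N : ℕ) (hN : N ≠ 0) :
    ∑ p ∈ N.primeFactors, (N.factorization p : ℝ) * Real.logb 2 p = Real.logb 2 N := by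
  have h1 : (N : ℝ) = ∏ p ∈ N.primeFactors, (p : ℝ) ^ N.factorization p := by
    conv_lhs => rw [← Nat.factorization_prod_pow_eq_self hN]
    rw [Finsupp.prod, Nat.support_factorization]
    push_cast
    rfl
  rw [h1, Real.logb_prod]
  · apply Finset.sum_congr rfl
    intro p hp
    rw [Real.logb_pow]
  · intro p hp
    have := (Nat.prime_of_mem_primeFactors hp).pos
    positivity

theorem fac_le (N p : ℕ) (hN : N ≠ 0) (hp : p.Prime) : (N.factorization p : ℝ) ≤ Real.logb 2 N := by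
  have h1 : 2 ^ N.factorization p ≤ N :=
    (Nat.pow_le_pow_left hp.two_le _).trans (Nat.ordProj_le p hN)
  have h2 : ((2 : ℝ)) ^ (N.factorization p) ≤ (N : ℝ) := by exact_mod_cast h1
  have h3 : (0 : ℝ) < N := by exact_mod_cast Nat.pos_of_ne_zero hN
  rw [Real.le_logb_iff_rpow_le (by norm_num) h3, Real.rpow_natCast]
  exact h2

theorem count_arith (N : ℕ) (hN : N ≠ 0) (ρ y a k : ℕ) (Dt : ℝ) (hy : 2 ≤ y) (ha : 1 ≤ a) (hDt : Real.logb 2 N ≤ Dt)
    (tor : ℕ → ℕ) (h0 : ∀ p ∈ N.primeFactors, y ≤ p → tor p ≤ 1)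
    (h1 : ∀ p ∈ N.primeFactors, p < y → tor p ≤ p ^ (k * (ρ * (a - 1)))) :
    (2 : ℝ) ^ (∑ p ∈ N.primeFactors, (2 * Real.logb 2 (N.factorization p + 1) + 3)) *
      ∏ p ∈ N.primeFactors, (3 / 2 * (tor p : ℝ) ^ (2 * ρ)) ≤
    2 ^ (6 * Dt / Real.logb 2 y + y * (4 + 2 * Real.logb 2 (Dt + 1) + 2 * ρ * (ρ * a) * k * Real.logb 2 y)) := by
  have hly : 1 ≤ Real.logb 2 (y : ℝ) := by
    rw [Real.le_logb_iff_rpow_le (by norm_num) (by exact_mod_cast (by omega : 0 < y)), Real.rpow_one]
    exact_mod_cast hy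
  have hDt0 : 0 ≤ Dt := le_trans (Real.logb_nonneg (by norm_num) (by exact_mod_cast Nat.one_le_iff_ne_zero.mpr hN)) hDt
  have hlD : 0 ≤ Real.logb 2 (Dt + 1) := Real.logb_nonneg (by norm_num) (by linarith)
  set E : ℝ := 4 + 2 * Real.logb 2 (Dt + 1) + 2 * ρ * (ρ * a) * k * Real.logb 2 y with hE
  have hE0 : 0 ≤ E := by positivity
  set c : ℕ → ℝ := fun p => if y ≤ p then 6 * ((N.factorization p : ℝ) * Real.logb 2 p) / Real.logb 2 y else E with hc
  -- each prime
  have key : ∀ p ∈ N.primeFactors, (2 : ℝ) ^ (2 * Real.logb 2 (N.factorization p + 1) + 3) * (3 / 2 * (tor p : ℝ) ^ (2 * ρ)) ≤ 2 ^ c p := by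
    intro p hp
    have hpp := Nat.prime_of_mem_primeFactors hp
    have hv1 : 1 ≤ N.factorization p := by
      have := Nat.support_factorization N
      have h2 : p ∈ N.factorization.support := by rw [this]; exact hp
      exact Nat.one_le_iff_ne_zero.mpr (Finsupp.mem_support_iff.mp h2)
    have hv1' : (1 : ℝ) ≤ N.factorization p := by exact_mod_cast hv1
    by_cases hyp : y ≤ p
    · have h2 : (tor p : ℝ) ^ (2 * ρ) ≤ 1 := pow_le_one₀ (Nat.cast_nonneg _) (by exact_mod_cast h0 p hp hyp)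
      have h3 : Real.logb 2 ((N.factorization p : ℝ) + 1) ≤ N.factorization p := by
        rw [Real.logb_le_iff_le_rpow (by norm_num) (by positivity), Real.rpow_natCast]
        have : N.factorization p + 1 ≤ 2 ^ N.factorization p := Nat.lt_two_pow_self
        exact_mod_cast this
      have h4 : 6 * (N.factorization p : ℝ) ≤ c p := by
        rw [hc]
        simp only [if_pos hyp]
        rw [le_div_iff₀ (by linarith)]
        have h5 : Real.logb 2 (y : ℝ) ≤ Real.logb 2 (p : ℝ) :=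
          Real.logb_le_logb_of_le (by norm_num) (by exact_mod_cast (by omega : 0 < y)) (by exact_mod_cast hyp)
        nlinarith
      calc _ ≤ (2 : ℝ) ^ (2 * (N.factorization p : ℝ) + 3) * (3 / 2 * 1) := by
            gcongr
            norm_num
        _ ≤ (2 : ℝ) ^ (2 * (N.factorization p : ℝ) + 3) * (2 : ℝ) ^ (1 : ℝ) := by
            gcongr
            norm_num
        _ = (2 : ℝ) ^ (2 * (N.factorization p : ℝ) + 3 + 1) := by
            rw [← Real.rpow_add (by norm_num)]
        _ ≤ _ := Real.rpow_le_rpow_of_exponent_le (by norm_num) (by linarith)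
    · have hc' : c p = E := by rw [hc]; simp only [if_neg hyp]
      have hpy : p < y := not_le.mp hyp
      have h3 : Real.logb 2 ((N.factorization p : ℝ) + 1) ≤ Real.logb 2 (Dt + 1) := by
        apply Real.logb_le_logb_of_le (by norm_num) (by positivity)
        linarith [fac_le N p hN hpp]
      have h2 : (tor p : ℝ) ^ (2 * ρ) ≤ 2 ^ (2 * ρ * (ρ * a) * k * Real.logb 2 y) := by
        have h5 : tor p ^ (2 * ρ) ≤ y ^ (2 * ρ * (ρ * a) * k) := by
          calc tor p ^ (2 * ρ) ≤ (p ^ (k * (ρ * (a - 1)))) ^ (2 * ρ) := Nat.pow_le_pow_left (h1 p hp hpy) _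
            _ ≤ (y ^ (k * (ρ * a))) ^ (2 * ρ) := by
                apply Nat.pow_le_pow_left
                calc p ^ (k * (ρ * (a - 1))) ≤ y ^ (k * (ρ * (a - 1))) := Nat.pow_le_pow_left hpy.le _
                  _ ≤ y ^ (k * (ρ * a)) := Nat.pow_le_pow_right (by omega) (by gcongr; omega)
            _ = y ^ (2 * ρ * (ρ * a) * k) := by rw [← pow_mul]; congr 1; ring
        have h6 : (tor p : ℝ) ^ (2 * ρ) ≤ (y : ℝ) ^ (2 * ρ * (ρ * a) * k) := by exact_mod_cast h5
        refine h6.trans (le_of_eq ?_)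
        have hy0 : (0 : ℝ) < y := by exact_mod_cast (by omega : 0 < y)
        have h7 : (2 : ℝ) ^ (Real.logb 2 (y : ℝ)) = y := Real.rpow_logb (by norm_num) (by norm_num) hy0
        conv_lhs => rw [← h7]
        rw [← Real.rpow_natCast, ← Real.rpow_mul (by norm_num)]
        congr 1
        push_cast
        ring
      rw [hc']
      calc _ ≤ (2 : ℝ) ^ (2 * Real.logb 2 (Dt + 1) + 3) * (2 ^ (1 : ℝ) * 2 ^ (2 * ρ * (ρ * a) * k * Real.logb 2 y)) := by
            gcongr
            · norm_num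
            · rw [Real.rpow_one]; norm_num
        _ = 2 ^ E := by
            rw [← Real.rpow_add (by norm_num), ← Real.rpow_add (by norm_num), hE]
            congr 1
            ring
  rw [Real.rpow_sum_of_pos (by norm_num), ← Finset.prod_mul_distrib]
  calc _ ≤ ∏ p ∈ N.primeFactors, (2 : ℝ) ^ c p :=
        Finset.prod_le_prod (fun p _ => by positivity) key
    _ = 2 ^ (∑ p ∈ N.primeFactors, c p) := (Real.rpow_sum_of_pos (by norm_num) _ _).symm
    _ ≤ _ := by
        apply Real.rpow_le_rpow_of_exponent_le (by norm_num)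
        have h5 : ∀ p ∈ N.primeFactors, c p ≤ 6 * ((N.factorization p : ℝ) * Real.logb 2 p) / Real.logb 2 y + if y ≤ p then 0 else E := by
          intro p hp
          have hlp : 0 ≤ Real.logb 2 (p : ℝ) :=
            Real.logb_nonneg (by norm_num) (by exact_mod_cast (Nat.prime_of_mem_primeFactors hp).one_lt.le)
          by_cases hyp : y ≤ p
          · simp only [hc, if_pos hyp]; linarith
          · simp only [hc, if_neg hyp]
            have : 0 ≤ 6 * ((N.factorization p : ℝ) * Real.logb 2 p) / Real.logb 2 y := by positivity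
            linarith
        refine (Finset.sum_le_sum h5).trans ?_
        rw [Finset.sum_add_distrib, ← Finset.sum_div, ← Finset.mul_sum, sum_fac N hN]
        have h6 : ∑ p ∈ N.primeFactors, (if y ≤ p then (0 : ℝ) else E) ≤ y * E := by
          have h7 : ∑ p ∈ N.primeFactors, (if y ≤ p then (0 : ℝ) else E) =
              ∑ p ∈ N.primeFactors.filter (fun p => ¬ y ≤ p), E := by
            rw [Finset.sum_filter]
            apply Finset.sum_congr rfl
            intro p _
            by_cases hyp : y ≤ p <;> simp [hyp]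
          rw [h7, Finset.sum_const, nsmul_eq_mul]
          apply mul_le_mul_of_nonneg_right _ hE0
          have h8 : (N.primeFactors.filter (fun p => ¬ y ≤ p)).card ≤ (Finset.range y).card := by
            apply Finset.card_le_card
            intro p hp
            rw [Finset.mem_filter] at hp
            rw [Finset.mem_range]
            omega
          rw [Finset.card_range] at h8
          exact_mod_cast h8
        have h9 : 6 * Real.logb 2 (N : ℝ) / Real.logb 2 y ≤ 6 * Dt / Real.logb 2 y := by gcongr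
        linarith

theorem countL : CountStmt := by
  intro n s ρ y a k Dt X M' h hy ha hX hDt
  classical
  by_cases hne : (LabSet n s ρ y a k Dt X M' h).Nonempty
  · obtain ⟨L0, M, hz, hM, hMt, hMd, hMD, hrk, hh, -⟩ := hne
    have hall : ∀ L ∈ LabSet n s ρ y a k Dt X M' h,
        (∀ z : Fin n → ℤ, (fun j => (z j : ℚ)) ∈ L) ∧ (∀ v ∈ L, ∀ w ∈ L, ∃ m : ℤ, v ⬝ᵥ (M.map (Int.cast : ℤ → ℚ) *ᵥ w) = m) ∧
        AddSubgroup.closure (Set.range fun t => (QuotientAddGroup.mk (hz t) : Coker M)) ≤ QL M L ∧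
        (∃ g : Fin ρ → Coker M, QL M L = AddSubgroup.closure (Set.range g)) ∧
        ∑ p ∈ M.det.natAbs.primeFactors, cst ρ p (if y ≤ p then 0 else ρ * (a - 1))
          (AddSubgroup.closure (Set.range fun t => (QuotientAddGroup.mk (hz t) : Coker M))) (QL M L) ≤ X := by
      rintro L ⟨M1, hz1, hM1, -, -, -, -, hh1, a1, a2, a3, a4, a5⟩
      have e1 : M1 = M := castM_inj (hM1.trans hM.symm)
      subst e1
      have e2 : hz1 = hz := by
        ext t j
        have := (hh1 t j).symm.trans (hh t j)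
        exact_mod_cast this
      subst e2
      rw [← hM1] at a2
      exact ⟨a1, a2, a3, a4, a5⟩
    have hN0 : M.det.natAbs ≠ 0 := Int.natAbs_ne_zero.mpr hMd
    have hNe : NeZero M.det.natAbs := ⟨hN0⟩
    have hcard : Nat.card (Coker M) = M.det.natAbs := card_coker M hMd
    have hfin : Finite (Coker M) := Nat.finite_of_card_ne_zero (by rw [hcard]; exact hN0)
    have : Fintype (Coker M) := Fintype.ofFinite _
    set H := AddSubgroup.closure (Set.range fun t => (QuotientAddGroup.mk (hz t) : Coker M)) with hH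
    have hinj : Set.InjOn (QL M) (LabSet n s ρ y a k Dt X M' h) := by
      intro L hL L' hL' hQ
      obtain ⟨b1, b2, -⟩ := hall L hL
      obtain ⟨c1, c2, -⟩ := hall L' hL'
      exact le_antisymm (mem_of_QL hMd c1 b1 b2 hQ.le) (mem_of_QL hMd b1 c1 c2 hQ.ge)
    have hfi : ((QL M) '' (LabSet n s ρ y a k Dt X M' h)).Finite := Set.toFinite _
    refine ⟨Set.Finite.of_finite_image hfi hinj, ?_⟩
    set S := hfi.toFinset with hS
    have hSc : (LabSet n s ρ y a k Dt X M' h).ncard = S.card := by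
      rw [← Set.ncard_image_of_injOn hinj, Set.ncard_eq_toFinset_card _ hfi]
    have hmem : ∀ Q ∈ S, ∃ L ∈ LabSet n s ρ y a k Dt X M' h, QL M L = Q := by
      intro Q hQ
      rw [hS, Set.Finite.mem_toFinset] at hQ
      obtain ⟨L, hL, rfl⟩ := hQ
      exact ⟨L, hL, rfl⟩
    have hcount := Cnt.count (G := Coker M) (cokPair M hMt) (cokPair_symm M hMt) (cokPair_nondeg M hMt hMd) ρ
      (fun p => if y ≤ p then 0 else ρ * (a - 1)) H
      (X + ∑ p ∈ M.det.natAbs.primeFactors, (2 * Real.logb 2 (M.det.natAbs.factorization p + 1) + 3)) S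
      (by
        intro Q hQ
        obtain ⟨L, hL, rfl⟩ := hmem Q hQ
        exact QL_iso hMt hMd (hall L hL).2.1)
      (by
        intro Q hQ
        obtain ⟨L, hL, rfl⟩ := hmem Q hQ
        exact (hall L hL).2.2.1)
      (by
        intro Q hQ
        obtain ⟨L, hL, rfl⟩ := hmem Q hQ
        exact (hall L hL).2.2.2.1)
      (by
        intro Q hQ
        obtain ⟨L, hL, rfl⟩ := hmem Q hQ
        rw [hcard]
        calc _ ≤ ∑ p ∈ M.det.natAbs.primeFactors, (cst ρ p (if y ≤ p then 0 else ρ * (a - 1)) H (QL M L) +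
                (2 * Real.logb 2 (M.det.natAbs.factorization p + 1) + 3)) := by
              apply Finset.sum_le_sum
              intro p hp
              have := wt_le (G := Coker M) (Nat.prime_of_mem_primeFactors hp) ρ (if y ≤ p then 0 else ρ * (a - 1)) H (QL M L)
              rw [hcard] at this
              exact this
          _ ≤ _ := by
              rw [Finset.sum_add_distrib]
              have := (hall L hL).2.2.2.2
              linarith)
    rw [hSc]
    refine hcount.trans ?_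
    rw [Real.rpow_add (by norm_num), mul_assoc, hcard]
    have hDt' : Real.logb 2 (M.det.natAbs : ℝ) ≤ Dt := by
      have : ((M.det.natAbs : ℕ) : ℝ) = |(M.det : ℝ)| := by
        rw [Nat.cast_natAbs, Int.cast_abs]
      rw [this]
      exact hMD
    have hfinal := count_arith M.det.natAbs hN0 ρ y a k Dt hy ha hDt'
      (fun p => Nat.card (Cnt.tor (Coker M) p (if y ≤ p then 0 else ρ * (a - 1))))
      (by
        intro p hp hyp
        simp only [if_pos hyp]
        have := tor_le (G := Coker M) (p := p) 0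
        simpa using this)
      (by
        intro p hp hyp
        have hyp' : ¬ y ≤ p := not_le.mpr hyp
        simp only [if_neg hyp']
        have hpp := Nat.prime_of_mem_primeFactors hp
        refine (tor_le (G := Coker M) (p := p) (ρ * (a - 1))).trans ?_
        have h1 : Nat.card (LabAll.kil p (Coker M)) ≤ p ^ k := by
          refine (LabCok.card_kil_coker M hMd hpp).trans ?_
          apply Nat.pow_le_pow_right hpp.pos
          have := hrk p hpp
          omega
        calc _ ≤ (p ^ k) ^ (ρ * (a - 1)) := Nat.pow_le_pow_left h1 _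
          _ = _ := (pow_mul p k _).symm)
    calc _ ≤ (2 : ℝ) ^ X * 2 ^ (6 * Dt / Real.logb 2 y + y * (4 + 2 * Real.logb 2 (Dt + 1) + 2 * ρ * (ρ * a) * k * Real.logb 2 y)) :=
          mul_le_mul_of_nonneg_left hfinal (by positivity)
      _ = _ := by
          rw [← Real.rpow_add (by norm_num)]
          congr 1
          ring
  · rw [Set.not_nonempty_iff_eq_empty] at hne
    rw [hne]
    refine ⟨Set.finite_empty, ?_⟩
    rw [Set.ncard_empty]
    push_cast
    positivity

end Vale.Agent.P160.Half.G.C840
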