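import Mathlib

/-! # P160/Half: the `q_S`/`q_T` step of block (M) (11023 (5), 10755 (3)).

`u = (u_S, u_T)` a vector with values in `∏ ZMod (p i)`.  If `u_S` is flat modulo the primes of `BS`, `u_T` is flat
modulo the primes of `BT`, `u_S` vanishes outside `BS`, and `BS ∪ BT` is everything, then `u` is flat modulo all primes. -/

namespace Vale.Agent.P160.Half.CombFlat

open Finset

variable {t : ℕ} (p : Fin t → ℕ)

/-- the 0/1 combination `∑ x_j u_j` in the component `i` -/
def lin {S : Type*} [Fintype S] (u : S → ∀ i, ZMod (p i)) (x : S → Bool) (i : Fin t) : ZMod (p i) :=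
  ∑ j, if x j then u j i else 0

/-- number of 0/1 vectors with prescribed value modulo the primes of `B` -/
def cnt {S : Type*} [Fintype S] [DecidableEq S] (u : S → ∀ i, ZMod (p i)) (B : Finset (Fin t))
    (a : ∀ i, ZMod (p i)) : ℕ :=
  (univ.filter (fun x : S → Bool => ∀ i ∈ B, lin p u x i = a i)).card

variable {p}

/-- `u` is `C`-flat modulo `B`: every value is taken at most `C / ∏_B p` times -/
def Flat {S : Type*} [Fintype S] [DecidableEq S] (u : S → ∀ i, ZMod (p i)) (B : Finset (Fin t))
    (C : ℕ) : Prop :=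
  ∀ a : ∀ i, ZMod (p i), cnt p u B a * ∏ i ∈ B, p i ≤ C

section one

variable {S : Type*} [Fintype S] [DecidableEq S]

lemma cnt_erase [∀ i, NeZero (p i)] (u : S → ∀ i, ZMod (p i)) {B : Finset (Fin t)} {i : Fin t}
    (hi : i ∈ B) (a : ∀ i, ZMod (p i)) :
    cnt p u (B.erase i) a = ∑ c : ZMod (p i), cnt p u B (Function.update a i c) := by
  classical
  unfold cnt
  rw [← card_sigma]
  symm
  refine card_bij (fun q _ => q.2) ?_ ?_ ?_
  · rintro ⟨c, x⟩ h
    rw [mem_sigma, mem_filter] at h
    simp only [mem_filter, mem_univ, true_and]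
    intro k hk
    have hki : k ≠ i := ne_of_mem_erase hk
    have h2 := h.2.2 k (mem_of_mem_erase hk)
    rwa [Function.update_of_ne hki] at h2
  · rintro ⟨c, x⟩ h ⟨c', x'⟩ h' hx
    rw [mem_sigma, mem_filter] at h h'
    have hx2 : x = x' := hx
    subst hx2
    have h2 : lin p u x i = c := by
      have := h.2.2 i hi
      rwa [Function.update_self] at this
    have h3 : lin p u x i = c' := by
      have := h'.2.2 i hi
      rwa [Function.update_self] at this
    have h4 : c = c' := h2.symm.trans h3
    subst h4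
    rfl
  · intro x hx
    rw [mem_filter] at hx
    refine ⟨⟨lin p u x i, x⟩, ?_, rfl⟩
    rw [mem_sigma, mem_filter]
    refine ⟨mem_univ _, mem_univ _, ?_⟩
    intro k hk
    by_cases hki : k = i
    · subst hki
      rw [Function.update_self]
    · rw [Function.update_of_ne hki]
      exact hx.2 k (mem_erase.2 ⟨hki, hk⟩)

lemma Flat.erase [∀ i, NeZero (p i)] {u : S → ∀ i, ZMod (p i)} {B : Finset (Fin t)} {C : ℕ}
    (h : Flat u B C) {i : Fin t} (hi : i ∈ B) : Flat u (B.erase i) C := by
  intro a
  have hp : 0 < p i := Nat.pos_of_ne_zero (NeZero.ne _)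
  have h1 : (cnt p u (B.erase i) a * ∏ k ∈ B.erase i, p k) * p i ≤ C * p i := by
    rw [mul_assoc, prod_erase_mul _ _ hi, cnt_erase u hi a, sum_mul]
    calc ∑ c : ZMod (p i), cnt p u B (Function.update a i c) * ∏ k ∈ B, p k
        ≤ ∑ _c : ZMod (p i), C := sum_le_sum fun c _ => h _
      _ = C * p i := by
        rw [sum_const, card_univ, ZMod.card, smul_eq_mul, mul_comm]
  exact Nat.le_of_mul_le_mul_right h1 hp

lemma Flat.mono [∀ i, NeZero (p i)] {u : S → ∀ i, ZMod (p i)} {B : Finset (Fin t)} {C : ℕ}
    (h : Flat u B C) {B' : Finset (Fin t)} (hB : B' ⊆ B) : Flat u B' C := by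
  classical
  obtain ⟨D, hD⟩ : ∃ D : Finset (Fin t), D = B \ B' := ⟨_, rfl⟩
  induction D using Finset.induction_on generalizing B with
  | empty =>
    have : B = B' := by
      refine Subset.antisymm ?_ hB
      rw [← sdiff_eq_empty_iff_subset, ← hD]
    rw [← this]; exact h
  | insert i D hi ih =>
    have hiB : i ∈ B \ B' := by rw [← hD]; exact mem_insert_self _ _
    rw [mem_sdiff] at hiB
    refine ih (h.erase hiB.1) ?_ ?_
    · intro k hk
      refine mem_erase.2 ⟨?_, hB hk⟩
      rintro rfl
      exact hiB.2 hk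
    · ext k
      have hk := congrArg (fun s => k ∈ s) hD
      simp only [mem_insert, mem_sdiff, eq_iff_iff] at hk
      rw [mem_sdiff, mem_erase]
      constructor
      · intro h1
        have h2 := hk.1 (Or.inr h1)
        refine ⟨⟨?_, h2.1⟩, h2.2⟩
        rintro rfl
        exact hi h1
      · rintro ⟨⟨h1, h2⟩, h3⟩
        rcases hk.2 ⟨h2, h3⟩ with h4 | h4
        · exact absurd h4 h1
        · exact h4

end one

section two

variable {S T : Type*} [Fintype S] [DecidableEq S] [Fintype T] [DecidableEq T]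

/-- the vector `(u_S, u_T)` -/
def comb (u : S → ∀ i, ZMod (p i)) (v : T → ∀ i, ZMod (p i)) : S ⊕ T → ∀ i, ZMod (p i) :=
  Sum.elim u v

omit [DecidableEq S] [DecidableEq T] in
lemma lin_comb (u : S → ∀ i, ZMod (p i)) (v : T → ∀ i, ZMod (p i)) (x : S ⊕ T → Bool) (i : Fin t) :
    lin p (comb u v) x i = lin p u (fun j => x (Sum.inl j)) i + lin p v (fun j => x (Sum.inr j)) i := by
  unfold lin comb
  rw [Fintype.sum_sum_type]
  rfl

/-- `11023 (5)`: flat modulo `BS`, flat modulo `BT`, `BS ∪ BT` everything and `u` vanishing outside `BS` give flatness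
modulo everything, with constant the product. -/
theorem flat_comb [∀ i, NeZero (p i)] (u : S → ∀ i, ZMod (p i)) (v : T → ∀ i, ZMod (p i))
    (BS BT : Finset (Fin t)) (hu : ∀ j, ∀ i ∉ BS, u j i = 0) (hB : ∀ i, i ∈ BS ∨ i ∈ BT)
    (C D : ℕ) (hS : Flat u BS C) (hT : Flat v BT D) :
    Flat (comb u v) univ (C * D) := by
  classical
  intro a
  have hT' : Flat v (univ \ BS) D := hT.mono (by
    intro i hi
    rw [mem_sdiff] at hi
    rcases hB i with h | h
    · exact absurd h hi.2
    · exact h)
  have hprod : ∏ i : Fin t, p i = (∏ i ∈ BS, p i) * ∏ i ∈ univ \ BS, p i := by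
    rw [mul_comm, prod_sdiff (subset_univ BS)]
  -- fibration over the T part
  have hcnt : cnt p (comb u v) univ a ≤
      ∑ z ∈ univ.filter (fun z : T → Bool => ∀ i ∈ univ \ BS, lin p v z i = a i),
        cnt p u BS (fun i => a i - lin p v z i) := by
    unfold cnt
    rw [← card_sigma]
    refine card_le_card_of_injOn (fun x => ⟨fun j => x (Sum.inr j), fun j => x (Sum.inl j)⟩) ?_ ?_
    · intro x hx
      rw [mem_coe, mem_filter] at hx
      rw [mem_coe, mem_sigma, mem_filter, mem_filter]
      refine ⟨⟨mem_univ _, ?_⟩, mem_univ _, ?_⟩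
      · intro i hi
        rw [mem_sdiff] at hi
        have h1 := hx.2 i (mem_univ _)
        rw [lin_comb] at h1
        have h2 : lin p u (fun j => x (Sum.inl j)) i = 0 := by
          unfold lin
          refine sum_eq_zero fun j _ => ?_
          rw [hu j i hi.2, ite_self]
        rw [h2, zero_add] at h1
        exact h1
      · intro i _
        have h1 := hx.2 i (mem_univ _)
        rw [lin_comb] at h1
        exact eq_sub_of_add_eq h1
    · intro x _ y _ h
      have h1 : (fun j => x (Sum.inr j)) = fun j => y (Sum.inr j) := congrArg Sigma.fst h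
      have h2 : (fun j => x (Sum.inl j)) = fun j => y (Sum.inl j) := by
        have := congrArg (fun q : (Σ _ : T → Bool, S → Bool) => q.2) h
        exact this
      funext k
      rcases k with k | k
      · exact congrFun h2 k
      · exact congrFun h1 k
  calc cnt p (comb u v) univ a * ∏ i : Fin t, p i
      ≤ (∑ z ∈ univ.filter (fun z : T → Bool => ∀ i ∈ univ \ BS, lin p v z i = a i),
        cnt p u BS (fun i => a i - lin p v z i)) * ((∏ i ∈ BS, p i) * ∏ i ∈ univ \ BS, p i) := by
        rw [hprod]
        exact Nat.mul_le_mul_right _ hcnt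
    _ = ∑ z ∈ univ.filter (fun z : T → Bool => ∀ i ∈ univ \ BS, lin p v z i = a i),
        (cnt p u BS (fun i => a i - lin p v z i) * ∏ i ∈ BS, p i) * ∏ i ∈ univ \ BS, p i := by
        rw [sum_mul]
        refine sum_congr rfl fun z _ => ?_
        ring
    _ ≤ ∑ z ∈ univ.filter (fun z : T → Bool => ∀ i ∈ univ \ BS, lin p v z i = a i),
        C * ∏ i ∈ univ \ BS, p i :=
        sum_le_sum fun z _ => Nat.mul_le_mul_right _ (hS _)
    _ = C * (cnt p v (univ \ BS) a * ∏ i ∈ univ \ BS, p i) := by
        rw [sum_const, smul_eq_mul]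
        unfold cnt
        ring
    _ ≤ C * D := Nat.mul_le_mul_left _ (hT' a)

end two

end Vale.Agent.P160.Half.CombFlat
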