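import Vale.Agent.P160.Half.GStmt3

open Finset Matrix

namespace Vale.Agent.P160.Half.Con409

/-- Schur: a bordered minor which vanishes for all last columns makes the row dependent. -/
theorem row_dep {m β : Type*} {k : ℕ} [Fintype β] [DecidableEq β] (N : Matrix m β ℤ) (a : Fin k → m) (c : Fin k → β) (t : m)
    (h0 : (N.submatrix a c).det ≠ 0)
    (h1 : ∀ c' : β, (N.submatrix (Sum.elim a fun _ : Unit => t) (Sum.elim c fun _ : Unit => c')).det = 0) :
    ∃ l : Fin k → ℚ, ∀ j, (N t j : ℚ) = ∑ i, l i * (N (a i) j : ℚ) := by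
  obtain ⟨A, hA⟩ : ∃ A : Matrix (Fin k) (Fin k) ℚ, A = (N.submatrix a c).map (Int.cast : ℤ → ℚ) := ⟨_, rfl⟩
  have hdet : A.det ≠ 0 := by
    have : A.det = ((N.submatrix a c).det : ℚ) := by
      rw [hA]
      exact (Int.cast_det (N.submatrix a c)).symm
    rw [this]
    exact_mod_cast h0
  have hu : IsUnit A.det := isUnit_iff_ne_zero.2 hdet
  obtain ⟨C, hC⟩ : ∃ C : Matrix Unit (Fin k) ℚ, C = Matrix.of fun _ i => (N t (c i) : ℚ) := ⟨_, rfl⟩
  refine ⟨fun i => (C * A⁻¹) () i, fun j => ?_⟩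
  obtain ⟨B, hB⟩ : ∃ B : Matrix (Fin k) Unit ℚ, B = Matrix.of fun i _ => (N (a i) j : ℚ) := ⟨_, rfl⟩
  obtain ⟨D, hD⟩ : ∃ D : Matrix Unit Unit ℚ, D = Matrix.of fun _ _ => (N t j : ℚ) := ⟨_, rfl⟩
  have hblock : (N.submatrix (Sum.elim a fun _ : Unit => t) (Sum.elim c fun _ : Unit => j)).map (Int.cast : ℤ → ℚ) =
      fromBlocks A B C D := by
    ext x y
    rcases x with x | x <;> rcases y with y | y <;> simp [hA, hB, hC, hD]
  have hz : (fromBlocks A B C D).det = 0 := by
    rw [← hblock]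
    have := Int.cast_det (R := ℚ) (N.submatrix (Sum.elim a fun _ : Unit => t) (Sum.elim c fun _ : Unit => j))
    rw [h1 j] at this
    rw [← this]; simp
  let _ : Invertible A := A.invertibleOfIsUnitDet hu
  rw [det_fromBlocks₁₁] at hz
  have hz2 : (D - C * ⅟A * B).det = 0 := by
    rcases mul_eq_zero.1 hz with h | h
    · exact absurd h hdet
    · exact h
  rw [det_unique, invOf_eq_nonsing_inv] at hz2
  have hz3 : D () () = (C * A⁻¹ * B) () () := by
    have : (D - C * A⁻¹ * B) () () = 0 := hz2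
    rw [Matrix.sub_apply] at this
    linarith
  have e1 : D () () = (N t j : ℚ) := by rw [hD]; rfl
  rw [← e1, hz3, mul_apply]
  refine Finset.sum_congr rfl fun i _ => ?_
  rw [hB]; rfl

theorem content {m β : Type*} [Fintype β] [DecidableEq β] [DecidableEq m] (N : Matrix m β ℤ) (Y : ℕ) (hY : 1 ≤ Y)
    (hN : ∀ i j, |N i j| ≤ (Y : ℤ)) (T : Finset m) (r : m) (d0 : β → ℤ)
    (hd0 : ∀ t ∈ T, (N *ᵥ d0) t = 0) (hr0 : (N *ᵥ d0) r ≠ 0) :
    ∃ d : β → ℤ, (∀ t ∈ T, (N *ᵥ d) t = 0) ∧ (N *ᵥ d) r ≠ 0 ∧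
      |(N *ᵥ d) r| ≤ (((Fintype.card β + 1).factorial * ((Fintype.card β + 1) * Y) ^ (Fintype.card β + 1) : ℕ) : ℤ) := by
  classical
  -- maximal nonsingular minor with rows in T
  let S : ℕ → Prop := fun k => ∃ (a : Fin k → m) (c : Fin k → β), (∀ i, a i ∈ T) ∧ (N.submatrix a c).det ≠ 0
  have hinj : ∀ {ι : Type} [Fintype ι] [DecidableEq ι] (a : ι → m) (c : ι → β), (N.submatrix a c).det ≠ 0 →
      Function.Injective c := by
    intro ι _ _ a c h i j hij
    by_contra hne
    exact h (Matrix.det_zero_of_column_eq hne fun x => by simp [hij])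
  have hS0 : S 0 := ⟨fun i => i.elim0, fun i => i.elim0, fun i => i.elim0, by simp⟩
  have hSb : ∀ k, S k → k ≤ Fintype.card β := by
    rintro k ⟨a, c, -, h⟩
    have := Fintype.card_le_of_injective c (hinj a c h)
    simpa using this
  obtain ⟨k, hk, hmax⟩ : ∃ k, S k ∧ ∀ k', S k' → k' ≤ k := by
    have hb : BddAbove {k | S k} := ⟨_, fun k hk => hSb k hk⟩
    exact ⟨sSup {k | S k}, Nat.sSup_mem ⟨0, hS0⟩ hb, fun k' hk' => le_csSup hb hk'⟩
  obtain ⟨a, c, haT, hdet⟩ := hk
  -- rows of T depend on the rows a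
  have hT : ∀ t ∈ T, ∃ l : Fin k → ℚ, ∀ j, (N t j : ℚ) = ∑ i, l i * (N (a i) j : ℚ) := by
    intro t ht
    refine row_dep N a c t hdet fun c' => ?_
    by_contra hne
    have hS : S (k + 1) := by
      let e : Fin (k + 1) ≃ Fin k ⊕ Unit := (finSumFinEquiv (m := k) (n := 1)).symm.trans
        (Equiv.sumCongr (Equiv.refl _) (Equiv.ofUnique (Fin 1) Unit))
      refine ⟨(Sum.elim a fun _ : Unit => t) ∘ e, (Sum.elim c fun _ : Unit => c') ∘ e, fun i => ?_, ?_⟩
      · simp only [Function.comp_apply]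
        rcases e i with x | x
        · exact haT x
        · exact ht
      · have : N.submatrix ((Sum.elim a fun _ : Unit => t) ∘ e) ((Sum.elim c fun _ : Unit => c') ∘ e) =
            (N.submatrix (Sum.elim a fun _ : Unit => t) (Sum.elim c fun _ : Unit => c')).submatrix e e := rfl
        rw [this, det_submatrix_equiv_self]
        exact hne
    have := hmax _ hS
    omega
  -- a column for r
  have hrc : ∃ c' : β, (N.submatrix (Sum.elim a fun _ : Unit => r) (Sum.elim c fun _ : Unit => c')).det ≠ 0 := by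
    by_contra hcon
    push Not at hcon
    obtain ⟨l, hl⟩ := row_dep N a c r hdet hcon
    apply hr0
    have e1 : (((N *ᵥ d0) r : ℤ) : ℚ) = ∑ i, l i * (((N *ᵥ d0) (a i) : ℤ) : ℚ) := by
      simp only [mulVec, dotProduct, Int.cast_sum, Int.cast_mul, hl, Finset.sum_mul, Finset.mul_sum]
      rw [Finset.sum_comm]
      refine Finset.sum_congr rfl fun i _ => Finset.sum_congr rfl fun j _ => by ring
    have e2 : ∀ i, (N *ᵥ d0) (a i) = 0 := fun i => hd0 _ (haT i)
    simp only [e2, Int.cast_zero, mul_zero, Finset.sum_const_zero] at e1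
    exact_mod_cast e1
  obtain ⟨c', hc'⟩ := hrc
  obtain ⟨ra, hra⟩ : ∃ ra : Fin k ⊕ Unit → m, ra = Sum.elim a fun _ : Unit => r := ⟨_, rfl⟩
  obtain ⟨cc, hcc⟩ : ∃ cc : Fin k ⊕ Unit → β, cc = Sum.elim c fun _ : Unit => c' := ⟨_, rfl⟩
  rw [← hra, ← hcc] at hc'
  obtain ⟨A, hA⟩ : ∃ A : Matrix (Fin k ⊕ Unit) (Fin k ⊕ Unit) ℤ, A = N.submatrix ra cc := ⟨_, rfl⟩
  rw [← hA] at hc'
  let d : β → ℤ := fun q => ∑ x, if cc x = q then A.adjugate x (Sum.inr ()) else 0
  have hNd : ∀ x, (N *ᵥ d) (ra x) = if x = Sum.inr () then A.det else 0 := by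
    intro x
    have e1 : (N *ᵥ d) (ra x) = ∑ y, A x y * A.adjugate y (Sum.inr ()) := by
      simp only [mulVec, dotProduct, d, Finset.mul_sum, mul_ite, mul_zero]
      rw [Finset.sum_comm]
      refine Finset.sum_congr rfl fun y _ => ?_
      rw [Finset.sum_ite_eq]
      simp [hA]
    rw [e1]
    have e2 := congrFun (congrFun (Matrix.mul_adjugate A) x) (Sum.inr ())
    rw [mul_apply] at e2
    rw [e2, Matrix.smul_apply, Matrix.one_apply]
    split_ifs <;> simp
  have hda : ∀ i, (N *ᵥ d) (a i) = 0 := by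
    intro i
    have := hNd (Sum.inl i)
    rw [hra] at this
    simpa using this
  have hdr : (N *ᵥ d) r = A.det := by
    have := hNd (Sum.inr ())
    rw [hra] at this
    simpa using this
  have hcard : k + 1 ≤ Fintype.card β := by
    have h := Fintype.card_le_of_injective cc (hinj ra cc (by rw [← hA]; exact hc'))
    simpa using h
  refine ⟨d, fun t ht => ?_, by rw [hdr]; exact hc', ?_⟩
  · obtain ⟨l, hl⟩ := hT t ht
    have e1 : (((N *ᵥ d) t : ℤ) : ℚ) = ∑ i, l i * (((N *ᵥ d) (a i) : ℤ) : ℚ) := by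
      simp only [mulVec, dotProduct, Int.cast_sum, Int.cast_mul, hl, Finset.sum_mul, Finset.mul_sum]
      rw [Finset.sum_comm]
      refine Finset.sum_congr rfl fun i _ => Finset.sum_congr rfl fun j _ => by ring
    simp only [hda, Int.cast_zero, mul_zero, Finset.sum_const_zero] at e1
    exact_mod_cast e1
  · rw [hdr]
    have e1 : |A.det| ≤ (Fintype.card (Fin k ⊕ Unit)).factorial • (Y : ℤ) ^ Fintype.card (Fin k ⊕ Unit) :=
      Matrix.det_le (abv := (AbsoluteValue.abs : AbsoluteValue ℤ ℤ)) (fun i j => by rw [hA]; exact hN _ _)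
    have e2 : Fintype.card (Fin k ⊕ Unit) = k + 1 := by simp
    rw [e2, nsmul_eq_mul] at e1
    refine e1.trans ?_
    have e3 : (k + 1).factorial * Y ^ (k + 1) ≤
        (Fintype.card β + 1).factorial * ((Fintype.card β + 1) * Y) ^ (Fintype.card β + 1) := by
      refine Nat.mul_le_mul (Nat.factorial_le (by omega)) ?_
      calc Y ^ (k + 1) ≤ Y ^ (Fintype.card β + 1) := Nat.pow_le_pow_right hY (by omega)
        _ ≤ ((Fintype.card β + 1) * Y) ^ (Fintype.card β + 1) :=
          Nat.pow_le_pow_left (Nat.le_mul_of_pos_left _ (by omega)) _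
    exact_mod_cast e3

open Vale.Agent.P160.Half.G Vale.Agent.P160.Half.A in
/-- **CON** -/
theorem con : Vale.Agent.P160.Half.G.ConStmt := by
  intro n β _ _ b F X hdet hX hF T r _ ⟨u, hu, huT, hur⟩
  obtain ⟨d, hd⟩ := hu
  obtain ⟨P, hP⟩ : ∃ P : Matrix (Fin n) (Fin n) ℤ, P = matZ b := ⟨_, rfl⟩
  rw [← hP] at hdet hd ⊢
  obtain ⟨N, hN⟩ : ∃ N : Matrix (Fin n) β ℤ, N = P.adjugate * F := ⟨_, rfl⟩
  have hn : 1 ≤ n := Nat.one_le_iff_ne_zero.2 fun h => by subst h; exact r.elim0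
  have hPabs : ∀ i j, |P i j| ≤ 1 := fun i j => by rw [hP]; exact matZ_abs b i j
  -- entries of the adjugate
  have hadj : ∀ i j, |P.adjugate i j| ≤ (n.factorial : ℤ) := by
    intro i j
    rw [Matrix.adjugate_apply]
    have h := Matrix.det_le (A := P.updateRow j (Pi.single i 1)) (x := (1 : ℤ))
      (abv := (AbsoluteValue.abs : AbsoluteValue ℤ ℤ)) (fun x y => by
        change |(P.updateRow j (Pi.single i 1)) x y| ≤ 1
        rw [Matrix.updateRow_apply]
        split_ifs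
        · rw [Pi.single_apply]; split_ifs <;> simp
        · exact hPabs x y)
    simpa using h
  have hNabs : ∀ i j, |N i j| ≤ ((n * n.factorial * X : ℕ) : ℤ) := by
    intro i j
    rw [hN, Matrix.mul_apply]
    calc |∑ k, P.adjugate i k * F k j| ≤ ∑ k, |P.adjugate i k * F k j| := Finset.abs_sum_le_sum_abs _ _
      _ ≤ ∑ _k : Fin n, (n.factorial : ℤ) * X := Finset.sum_le_sum fun k _ => by
          rw [abs_mul]
          exact mul_le_mul (hadj i k) (hF k j) (abs_nonneg _) (by positivity)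
      _ = ((n * n.factorial * X : ℕ) : ℤ) := by
          rw [Finset.sum_const, Finset.card_univ, Fintype.card_fin, nsmul_eq_mul]; push_cast; ring
  have hKW : ∀ e : β → ℤ, N *ᵥ e ∈ KW P F := by
    intro e
    refine ⟨fun q => -(P.det * e q), ?_⟩
    have e1 : P *ᵥ (N *ᵥ e) = P.det • (F *ᵥ e) := by
      rw [hN, Matrix.mulVec_mulVec, ← Matrix.mul_assoc, Matrix.mul_adjugate, Matrix.smul_mul, Matrix.one_mul,
        Matrix.smul_mulVec]
    have e2 : (fun q => -(P.det * e q)) = -(P.det • e) := by ext q; simp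
    rw [e1, e2, Matrix.mulVec_neg, Matrix.mulVec_smul, add_neg_cancel]
  have hNd : N *ᵥ d = -(P.det • u) := by
    have e1 : F *ᵥ d = -(P *ᵥ u) := by
      rw [eq_neg_iff_add_eq_zero, add_comm]; exact hd
    rw [hN, ← Matrix.mulVec_mulVec, e1, Matrix.mulVec_neg, Matrix.mulVec_mulVec, Matrix.adjugate_mul,
      Matrix.smul_mulVec, Matrix.one_mulVec]
  obtain ⟨e, he1, he2, he3⟩ := content N (n * n.factorial * X)
    (Nat.one_le_iff_ne_zero.2 (Nat.mul_ne_zero (Nat.mul_ne_zero (by omega) (Nat.factorial_ne_zero n)) (by omega)))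
    hNabs T r d (fun t ht => by rw [hNd]; simp [huT t ht]) (by
      rw [hNd]
      simp only [Pi.neg_apply, Pi.smul_apply, smul_eq_mul, neg_ne_zero]
      exact mul_ne_zero hdet hur)
  exact ⟨N *ᵥ e, hKW e, he1, he2, he3⟩

end Vale.Agent.P160.Half.Con409
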