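import Vale.Agent.P160.Half.GStmt3

/-! # P160, half rate, gap (G): the content bound `ConStmt` (hedge, helper589)

`N = adj(P) F`, `N d ∈ KW P F` for integral `d`. Take the largest nonzero minor of `N` on rows `r, f` (`f` in `T`) and columns `g`; the vector
`u_j = det N[(j, f), g]` is in the column span of `N`, vanishes on `T` (else the minor can be enlarged with the column `N d₀`, which vanishes on `T` and not
at `r`) and `u_r ≠ 0` is a minor. -/

set_option linter.unusedVariables false

open Finset Matrix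

namespace Vale.Agent.P160.Half.Con589

open G A

variable {n : ℕ} {β : Type*} [Fintype β] [DecidableEq β]

/-- the minor with first row `j`, other rows `f`, columns `g` -/
def mn (N : Matrix (Fin n) β ℤ) {k : ℕ} (j : Fin n) (f : Fin k → Fin n) (g : Fin (k + 1) → β) : ℤ :=
  (N.submatrix (Fin.cons j f : Fin (k + 1) → Fin n) g).det

/-- the minors are in the column span -/
theorem mn_span (N : Matrix (Fin n) β ℤ) {k : ℕ} (f : Fin k → Fin n) (g : Fin (k + 1) → β) :
    ∃ d : β → ℤ, ∀ j, mn N j f g = (N *ᵥ d) j := by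
  refine ⟨∑ b : Fin (k + 1), Pi.single (g b) ((-1) ^ (b : ℕ) * (N.submatrix f (g ∘ b.succAbove)).det), fun j => ?_⟩
  rw [Matrix.mulVec_sum, Finset.sum_apply, mn, Matrix.det_succ_row_zero]
  refine Finset.sum_congr rfl fun b _ => ?_
  rw [Matrix.mulVec_single]
  simp only [Matrix.submatrix_apply, Fin.cons_zero, Matrix.submatrix_submatrix]
  have : (Fin.cons j f : Fin (k + 1) → Fin n) ∘ Fin.succ = f := by
    funext i; simp
  rw [this]
  simp
  ring

/-- enlarging a minor by a column of the column span -/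
theorem mn_step (N : Matrix (Fin n) β ℤ) {k : ℕ} (r : Fin n) (f : Fin (k + 1) → Fin n) (g : Fin (k + 1) → β) (d : β → ℤ)
    (h0 : ∀ i, (N *ᵥ d) (f i) = 0) :
    ∑ q, d q * mn N r f (Fin.cons q g : Fin (k + 2) → β) = (N *ᵥ d) r * (N.submatrix f g).det := by
  have h1 : ∀ q, mn N r f (Fin.cons q g : Fin (k + 2) → β) =
      ∑ i : Fin (k + 2), (-1) ^ (i : ℕ) * N ((Fin.cons r f : Fin (k + 2) → Fin n) i) q *
        (N.submatrix ((Fin.cons r f : Fin (k + 2) → Fin n) ∘ i.succAbove) g).det := by
    intro q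
    rw [mn, Matrix.det_succ_column_zero]
    refine Finset.sum_congr rfl fun i _ => ?_
    rw [Matrix.submatrix_submatrix]
    have : (Fin.cons q g : Fin (k + 2) → β) ∘ Fin.succ = g := by
      funext i; simp
    rw [this]
    simp
  simp only [h1, Finset.mul_sum]
  rw [Finset.sum_comm]
  have h2 : ∀ i : Fin (k + 2), ∑ q, d q * ((-1) ^ (i : ℕ) * N ((Fin.cons r f : Fin (k + 2) → Fin n) i) q *
        (N.submatrix ((Fin.cons r f : Fin (k + 2) → Fin n) ∘ i.succAbove) g).det) =
      (-1) ^ (i : ℕ) * (N *ᵥ d) ((Fin.cons r f : Fin (k + 2) → Fin n) i) *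
        (N.submatrix ((Fin.cons r f : Fin (k + 2) → Fin n) ∘ i.succAbove) g).det := by
    intro i
    rw [Matrix.mulVec, dotProduct, Finset.mul_sum, Finset.sum_mul]
    exact Finset.sum_congr rfl fun q _ => by ring
  rw [Finset.sum_congr rfl fun i _ => h2 i, Fin.sum_univ_succ]
  rw [Finset.sum_eq_zero (s := univ) (f := fun i : Fin (k + 1) => _)]
  · have : (Fin.cons r f : Fin (k + 2) → Fin n) ∘ (0 : Fin (k + 2)).succAbove = f := by
      funext i; simp
    rw [this]; simp
  · intro i _
    simp [h0]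

/-- the main lemma -/
theorem main (N : Matrix (Fin n) β ℤ) (T : Finset (Fin n)) (r : Fin n) (d : β → ℤ) (hT : ∀ j ∈ T, (N *ᵥ d) j = 0)
    (hr : (N *ᵥ d) r ≠ 0) (Y : ℤ) (hY : ∀ j q, |N j q| ≤ Y) :
    ∃ k, k + 1 ≤ Fintype.card β ∧ ∃ d' : β → ℤ, (∀ j ∈ T, (N *ᵥ d') j = 0) ∧ (N *ᵥ d') r ≠ 0 ∧
      |(N *ᵥ d') r| ≤ ((k + 1).factorial : ℤ) * Y ^ (k + 1) := by
  by_contra hcon
  push Not at hcon
  have hg : ∀ k (f : Fin k → Fin n) (g : Fin (k + 1) → β), mn N r f g ≠ 0 → k + 1 ≤ Fintype.card β := by
    intro k f g h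
    have : Function.Injective g := by
      intro a b hab
      by_contra hne
      apply h
      rw [mn]
      apply Matrix.det_zero_of_column_eq hne
      intro i
      simp [hab]
    simpa using Fintype.card_le_of_injective g this
  have key : ∀ k, ∃ f : Fin k → Fin n, (∀ i, f i ∈ T) ∧ ∃ g : Fin (k + 1) → β, mn N r f g ≠ 0 := by
    intro k
    induction k with
    | zero =>
      refine ⟨Fin.elim0, fun i => i.elim0, ?_⟩
      by_contra h0
      push Not at h0
      apply hr
      rw [Matrix.mulVec, dotProduct]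
      refine Finset.sum_eq_zero fun q _ => ?_
      have := h0 (fun _ => q)
      rw [mn, Matrix.det_succ_row_zero] at this
      have h9 : N r q = 0 := by simpa using this
      simp [h9]
    | succ k ih =>
      obtain ⟨f, hf, g, hfg⟩ := ih
      obtain ⟨d', hd'⟩ := mn_span N f g
      have hk := hg k f g hfg
      have h3 : ∃ j ∈ T, mn N j f g ≠ 0 := by
        by_contra h4
        push Not at h4
        have h5 := hcon k hk d' (fun j hj => by rw [← hd' j]; exact h4 j hj) (by rw [← hd' r]; exact hfg)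
        rw [← hd' r] at h5
        have h6 := Matrix.det_le (A := N.submatrix (Fin.cons r f : Fin (k + 1) → Fin n) g) (abv := AbsoluteValue.abs) (x := Y)
          (fun i j => hY _ _)
        simp only [AbsoluteValue.abs_apply, Fintype.card_fin, nsmul_eq_mul] at h6
        exact absurd h6 (not_le.mpr h5)
      obtain ⟨j, hj, hj0⟩ := h3
      refine ⟨Fin.cons j f, ?_, ?_⟩
      · intro i
        refine Fin.cases ?_ (fun i => ?_) i
        · simpa using hj
        · simpa using hf i
      · by_contra h7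
        push Not at h7
        have h8 := mn_step N r (Fin.cons j f : Fin (k + 1) → Fin n) g d (by
          intro i
          refine Fin.cases ?_ (fun i => ?_) i
          · simpa using hT j hj
          · simpa using hT _ (hf i))
        rw [Finset.sum_eq_zero (fun q _ => by rw [h7, mul_zero])] at h8
        exact mul_ne_zero hr hj0 h8.symm
  obtain ⟨f, -, g, hfg⟩ := key (Fintype.card β)
  have := hg _ f g hfg
  omega

theorem matZ_abs (b : Bits n) (i j : Fin n) : |matZ b i j| ≤ 1 := by
  unfold matZ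
  split_ifs <;> simp

theorem adj_abs (b : Bits n) (i j : Fin n) : |(matZ b).adjugate i j| ≤ (n.factorial : ℤ) := by
  rw [Matrix.adjugate_apply]
  have h6 := Matrix.det_le (A := (matZ b).updateRow j (Pi.single i 1)) (abv := AbsoluteValue.abs) (x := (1 : ℤ))
    (fun k l => by
      simp only [AbsoluteValue.abs_apply, Matrix.updateRow_apply]
      split_ifs
      · by_cases hl : l = i
        · subst hl; simp
        · simp [hl]
      · exact matZ_abs b k l)
  simpa [nsmul_eq_mul] using h6

theorem con : ConStmt := by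
  intro n β _ _ b F X hdet hX hF T r hTc ⟨u, ⟨d, hd⟩, huT, hur⟩
  set P := matZ b with hP
  set N : Matrix (Fin n) β ℤ := P.adjugate * F with hN
  have hNu : N *ᵥ d = -(P.det • u) := by
    have h1 : P.adjugate *ᵥ (P *ᵥ u + F *ᵥ d) = 0 := by rw [hd, Matrix.mulVec_zero]
    rw [Matrix.mulVec_add, Matrix.mulVec_mulVec, Matrix.mulVec_mulVec, Matrix.adjugate_mul, Matrix.smul_mulVec, Matrix.one_mulVec] at h1
    exact eq_neg_of_add_eq_zero_right h1
  have hin : ∀ d' : β → ℤ, N *ᵥ d' ∈ KW P F := by
    intro d'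
    refine ⟨-(P.det • d'), ?_⟩
    rw [hN, Matrix.mulVec_mulVec, ← Matrix.mul_assoc, Matrix.mul_adjugate, Matrix.smul_mul, Matrix.one_mul, Matrix.smul_mulVec, Matrix.mulVec_neg, Matrix.mulVec_smul, add_neg_cancel]
  have hY : ∀ j q, |N j q| ≤ ((n * n.factorial * X : ℕ) : ℤ) := by
    intro j q
    rw [hN, Matrix.mul_apply]
    refine (Finset.abs_sum_le_sum_abs _ _).trans ?_
    have : ∀ i ∈ (univ : Finset (Fin n)), |P.adjugate j i * F i q| ≤ (n.factorial : ℤ) * X := by
      intro i _
      rw [abs_mul]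
      exact mul_le_mul (adj_abs b j i) (hF i q) (abs_nonneg _) (by positivity)
    refine (Finset.sum_le_sum this).trans ?_
    simp [mul_assoc]
  have hnpos : 0 < n := Fin.pos r
  obtain ⟨k, hk, d', h1, h2, h3⟩ := main N T r d (fun j hj => by rw [hNu]; simp [huT j hj]) (by
    rw [hNu]; simp [hur, hdet]) _ hY
  refine ⟨N *ᵥ d', hin d', h1, h2, h3.trans ?_⟩
  have hYpos : 1 ≤ n * n.factorial * X := Nat.one_le_iff_ne_zero.mpr (by positivity)
  have e1 : (k + 1).factorial ≤ (Fintype.card β + 1).factorial := Nat.factorial_le (by omega)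
  have e2 : (n * n.factorial * X) ^ (k + 1) ≤ ((Fintype.card β + 1) * (n * n.factorial * X)) ^ (Fintype.card β + 1) :=
    (Nat.pow_le_pow_right hYpos (by omega)).trans (Nat.pow_le_pow_left (Nat.le_mul_of_pos_left _ (by omega)) _)
  have e3 := Nat.mul_le_mul e1 e2
  calc ((k + 1).factorial : ℤ) * ((n * n.factorial * X : ℕ) : ℤ) ^ (k + 1)
      = (((k + 1).factorial * (n * n.factorial * X) ^ (k + 1) : ℕ) : ℤ) := by push_cast; ring
    _ ≤ _ := by exact_mod_cast e3

end Vale.Agent.P160.Half.Con589
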