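import Vale.Agent.P160.Half.GStmt3

/-! # P160, half rate: gap (G), `ConStmt` (content bound), helper679 -/

open Finset Matrix

namespace Vale.Agent.P160.Half.Con679

lemma core {β : Type*} [Fintype β] [DecidableEq β] {n : ℕ} (N : Matrix (Fin n) β ℤ) (B : ℕ) (hB : 1 ≤ B)
    (hN : ∀ j q, |N j q| ≤ (B : ℤ)) (T : Finset (Fin n)) (r : Fin n) (d0 : β → ℤ)
    (h0 : ∀ j ∈ T, (N *ᵥ d0) j = 0) (hr : (N *ᵥ d0) r ≠ 0) :
    ∃ d : β → ℤ, (∀ j ∈ T, (N *ᵥ d) j = 0) ∧ (N *ᵥ d) r ≠ 0 ∧
      |(N *ᵥ d) r| ≤ (((Fintype.card β).factorial * B ^ Fintype.card β : ℕ) : ℤ) := by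
  classical
  let w : Fin n ⊕ β → β → ℤ := Sum.elim (fun i => N i) (fun q => Pi.single q 1)
  let v : Fin n ⊕ β → β → ℚ := fun x q => (w x q : ℚ)
  have hw : ∀ x q, |w x q| ≤ (B : ℤ) := by
    rintro (i | q') q
    · exact hN i q
    · have h1 : |w (Sum.inr q') q| ≤ 1 := by
        simp only [w, Sum.elim_inr, Pi.single_apply]
        split_ifs <;> simp
      have : (1 : ℤ) ≤ B := by exact_mod_cast hB
      linarith
  -- functional of an integer vector
  let φ : (β → ℤ) → ((β → ℚ) →ₗ[ℚ] ℚ) := fun d =>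
    { toFun := fun x => ∑ q, x q * (d q : ℚ)
      map_add' := by intro x y; simp [add_mul, sum_add_distrib]
      map_smul' := by intro c x; simp [mul_sum, mul_assoc] }
  have hφ : ∀ d x, φ d (v x) = ((∑ q, w x q * d q : ℤ) : ℚ) := by
    intro d x
    simp [φ, v]
  have hφN : ∀ d i, φ d (v (Sum.inl i)) = (((N *ᵥ d) i : ℤ) : ℚ) := by
    intro d i
    rw [hφ]
    simp [w, mulVec, dotProduct]
  obtain ⟨b0, hb0, -, hsp0, hli0⟩ := exists_linearIndepOn_extension (K := ℚ) (v := v)
    (s := ∅) (t := Sum.inl '' (T : Set (Fin n))) (linearIndepOn_empty ℚ v) (Set.empty_subset _)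
  have hker : ∀ d : β → ℤ, (∀ x ∈ b0, φ d (v x) = 0) → ∀ x ∈ Submodule.span ℚ (v '' b0), φ d x = 0 := by
    intro d hd x hx
    have : Submodule.span ℚ (v '' b0) ≤ LinearMap.ker (φ d) := by
      rw [Submodule.span_le]
      rintro _ ⟨y, hy, rfl⟩
      exact hd y hy
    exact this hx
  have hnot : v (Sum.inl r) ∉ Submodule.span ℚ (v '' b0) := by
    intro hmem
    have := hker d0 (by
      intro x hx
      obtain ⟨j, hj, rfl⟩ := hb0 hx
      rw [hφN, h0 j hj]; simp) _ hmem
    rw [hφN] at this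
    exact hr (by exact_mod_cast this)
  have hli1 : LinearIndepOn ℚ v (insert (Sum.inl r) b0) := hli0.insert hnot
  obtain ⟨b, -, hb1, hsp, hli⟩ := exists_linearIndepOn_extension hli1 (Set.subset_univ _)
  have htop : Submodule.span ℚ (v '' b) = ⊤ := by
    rw [eq_top_iff]
    have h1 : ∀ q : β, (Pi.single q (1 : ℚ) : β → ℚ) ∈ Submodule.span ℚ (v '' b) := by
      intro q
      have : v (Sum.inr q) = Pi.single q (1 : ℚ) := by
        funext q'
        simp only [v, w, Sum.elim_inr, Pi.single_apply]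
        split_ifs <;> simp
      rw [← this]
      exact hsp ⟨_, Set.mem_univ _, rfl⟩
    intro x _
    have : x = ∑ q, x q • (Pi.single q (1 : ℚ) : β → ℚ) := by
      funext q'
      simp [Finset.sum_apply, Pi.single_apply]
    rw [this]
    exact Submodule.sum_mem _ fun q _ => Submodule.smul_mem _ _ (h1 q)
  have : Fintype b := Fintype.ofFinite b
  have hli' : LinearIndependent ℚ (fun x : b => v x) := hli
  have hcard : Fintype.card b = Fintype.card β := by
    let bs : Module.Basis b ℚ (β → ℚ) := Module.Basis.mk hli' (by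
      rw [← htop, Set.image_eq_range])
    rw [← Module.finrank_eq_card_basis bs, Module.finrank_pi]
  let e : β ≃ b := Fintype.equivOfCardEq hcard.symm
  let S : Matrix β β ℤ := Matrix.of fun q => w (e q).1
  have hSdet : S.det ≠ 0 := by
    have h1 : LinearIndependent ℚ (S.map (Int.cast : ℤ → ℚ)).row := by
      have := hli'.comp e e.injective
      exact this
    have h2 := linearIndependent_rows_iff_isUnit.1 h1
    rw [isUnit_iff_isUnit_det] at h2
    intro h3
    have h4 : (S.map (Int.cast : ℤ → ℚ)).det = 0 := by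
      have := (Int.cast_det (R := ℚ) S)
      rw [h3] at this
      simpa using this.symm
    rw [h4] at h2
    simp at h2
  let jr : b := ⟨Sum.inl r, hb1 (Set.mem_insert _ _)⟩
  let d : β → ℤ := fun q => S.adjugate q (e.symm jr)
  have hSd : ∀ x : b, ∑ q, w x.1 q * d q = if x = jr then S.det else 0 := by
    intro x
    have h1 := congrFun (congrFun (mul_adjugate S) (e.symm x)) (e.symm jr)
    have hrow : ∀ q, S (e.symm x) q = w x.1 q := by intro q; simp [S]
    rw [mul_apply] at h1
    simp only [hrow] at h1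
    rw [show ∑ q, w x.1 q * d q = ∑ q, w x.1 q * S.adjugate q (e.symm jr) from rfl, h1,
      Matrix.smul_apply, one_apply, smul_eq_mul, mul_ite, mul_one, mul_zero]
    simp only [EmbeddingLike.apply_eq_iff_eq]
  have hdr : (N *ᵥ d) r = S.det := by
    have := hSd jr
    simp only [if_true] at this
    rw [← this]
    simp [jr, w, mulVec, dotProduct]
  refine ⟨d, ?_, ?_, ?_⟩
  · intro j hj
    have hz : φ d (v (Sum.inl j)) = 0 := by
      apply hker d
      · intro x hx
        have hxb : x ∈ b := hb1 (Set.mem_insert_of_mem _ hx)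
        rw [hφ, hSd ⟨x, hxb⟩, if_neg]
        · simp
        · intro h
          have : x = Sum.inl r := congrArg Subtype.val h
          rw [this] at hx
          exact hnot (Submodule.subset_span ⟨_, hx, rfl⟩)
      · exact hsp0 ⟨_, ⟨j, hj, rfl⟩, rfl⟩
    rw [hφN] at hz
    exact_mod_cast hz
  · rw [hdr]; exact hSdet
  · rw [hdr]
    have := det_le (A := S) (abv := AbsoluteValue.abs) (x := (B : ℤ)) (by
      intro i j
      exact hw _ _)
    simp only [AbsoluteValue.abs_apply, nsmul_eq_mul] at this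
    push_cast
    exact this

lemma abs_adj_le {n : ℕ} (P : Matrix (Fin n) (Fin n) ℤ) (hP : ∀ i j, |P i j| ≤ 1) (i j : Fin n) :
    |P.adjugate i j| ≤ (n.factorial : ℤ) := by
  rw [adjugate_apply]
  have := det_le (A := P.updateRow j (Pi.single i 1)) (abv := AbsoluteValue.abs) (x := (1 : ℤ)) (by
    intro k l
    rw [AbsoluteValue.abs_apply, updateRow_apply]
    split_ifs with h
    · rw [Pi.single_apply]
      split_ifs <;> simp
    · exact hP k l)
  simpa using this

theorem con : G.ConStmt := by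
  intro n β _ _ b F X hdet hX hF T r hT ⟨u0, ⟨d0, hd0⟩, hT0, hr0⟩
  set P := matZ b with hPdef
  have hP1 : ∀ i j, |P i j| ≤ 1 := by
    intro i j
    simp only [hPdef, matZ]
    first
      | (simp only [Matrix.of_apply]; split_ifs <;> simp)
      | (split_ifs <;> simp)
  let N : Matrix (Fin n) β ℤ := P.adjugate * F
  have hn : 1 ≤ n := Nat.one_le_iff_ne_zero.2 (by rintro rfl; exact r.elim0)
  let B : ℕ := n * n.factorial * X
  have hB : 1 ≤ B := Nat.one_le_iff_ne_zero.2 (by positivity)
  have hN : ∀ j q, |N j q| ≤ (B : ℤ) := by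
    intro j q
    calc |N j q| = |∑ k, P.adjugate j k * F k q| := by
          show |(P.adjugate * F) j q| = _
          rw [mul_apply]
      _ ≤ ∑ k, |P.adjugate j k * F k q| := abs_sum_le_sum_abs _ _
      _ ≤ ∑ _k : Fin n, (n.factorial : ℤ) * X := by
        refine sum_le_sum fun k _ => ?_
        rw [abs_mul]
        exact mul_le_mul (abs_adj_le P hP1 j k) (hF k q) (abs_nonneg _) (by positivity)
      _ = (B : ℤ) := by
        simp only [sum_const, card_univ, Fintype.card_fin, nsmul_eq_mul, B]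
        push_cast
        ring
  have hKW : ∀ d : β → ℤ, N *ᵥ d ∈ G.KW P F := by
    intro d
    refine ⟨-(P.det • d), ?_⟩
    rw [mulVec_mulVec, ← Matrix.mul_assoc, mul_adjugate, Matrix.smul_mul, Matrix.one_mul, mulVec_neg,
      mulVec_smul, smul_mulVec]
    simp
  have hrel : ∀ i, (N *ᵥ d0) i = -(P.det * u0 i) := by
    intro i
    have h1 : P.adjugate *ᵥ (P *ᵥ u0 + F *ᵥ d0) = 0 := by rw [hd0, mulVec_zero]
    rw [mulVec_add, mulVec_mulVec, mulVec_mulVec, adjugate_mul, smul_mulVec, one_mulVec] at h1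
    have h2 := congrFun h1 i
    simp only [Pi.add_apply, Pi.smul_apply, smul_eq_mul, Pi.zero_apply] at h2
    show ((P.adjugate * F) *ᵥ d0) i = _
    linarith
  obtain ⟨d, hd1, hd2, hd3⟩ := core N B hB hN T r d0 (fun j hj => by rw [hrel, hT0 j hj]; simp) (by
    rw [hrel]
    simp only [ne_eq, neg_eq_zero, mul_eq_zero, not_or]
    exact ⟨hdet, hr0⟩)
  refine ⟨N *ᵥ d, hKW d, hd1, hd2, hd3.trans ?_⟩
  norm_cast
  apply Nat.mul_le_mul
  · exact Nat.factorial_le (by omega)
  · calc B ^ Fintype.card β ≤ B ^ (Fintype.card β + 1) := Nat.pow_le_pow_right hB (by omega)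
      _ ≤ ((Fintype.card β + 1) * B) ^ (Fintype.card β + 1) :=
        Nat.pow_le_pow_left (Nat.le_mul_of_pos_left _ (by omega)) _

end Vale.Agent.P160.Half.Con679
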