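import Mathlib

/-!
# Many primes at once: large coranks modulo all `p` in a set are rational (Hadamard)

* `pow_corank_dvd_det` : `p ^ (card ι - rank_p D) ∣ det D`;
* `det_sq_le` : `det D ^ 2 ≤ n ^ n` for an integer `n × n` matrix with entries in `{-1,0,1}`;
* `exists_minor` : a nonsingular minor of size the rational rank;
* `prod_pow_corank_sq_le` : `(∏ p ∈ S, p ^ (rank_ℚ X - rank_p X)) ^ 2 ≤ rank_ℚ ^ rank_ℚ`.
-/

namespace Vale.Agent.P160.Half.HadN

open Matrix Finset Module
open scoped MatrixOrder ComplexOrder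

section basis
variable {k : Type*} [Field k] {ι : Type*} [Fintype ι] [DecidableEq ι]

/-- a basis of `ι → k` adapted to a subspace -/
theorem adapted_basis (N : Submodule k (ι → k)) :
    ∃ (B : Module.Basis ι k (ι → k)) (J : Finset ι), J.card = Module.finrank k N ∧
      ∀ j ∈ J, B j ∈ N := by
  classical
  obtain ⟨N', hN⟩ := Submodule.exists_isCompl N
  set s := Module.finrank k N
  set t := Module.finrank k N'
  let b := ((Module.finBasis k N).prod (Module.finBasis k N')).map
    (Submodule.prodEquivOfIsCompl N N' hN)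
  have hcard : Fintype.card (Fin s ⊕ Fin t) = Fintype.card ι := by
    rw [← Module.finrank_eq_card_basis b, Module.finrank_fintype_fun_eq_card]
  let e : Fin s ⊕ Fin t ≃ ι := Fintype.equivOfCardEq hcard
  refine ⟨b.reindex e, (Finset.univ : Finset (Fin s)).image fun i => e (Sum.inl i), ?_, ?_⟩
  · rw [Finset.card_image_of_injective _ fun x y h => Sum.inl_injective (e.injective h),
      Finset.card_univ, Fintype.card_fin]
  · intro j hj
    obtain ⟨i, -, rfl⟩ := Finset.mem_image.1 hj
    rw [Module.Basis.reindex_apply, e.symm_apply_apply]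
    simp only [b, Module.Basis.map_apply, Module.Basis.prod_apply, Sum.elim_inl,
      Function.comp_apply, Submodule.coe_prodEquivOfIsCompl', LinearMap.coe_inl,
      ZeroMemClass.coe_zero, add_zero]
    exact (Module.finBasis k N i).2
end basis

/-- `p ^ (corank mod p)` divides the determinant. -/
theorem pow_corank_dvd_det {ι : Type*} [Fintype ι] [DecidableEq ι] {p : ℕ} (hp : p.Prime)
    (D : Matrix ι ι ℤ) :
    (p : ℤ) ^ (Fintype.card ι - (D.map (Int.cast : ℤ → ZMod p)).rank) ∣ D.det := by
  classical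
  have : Fact p.Prime := ⟨hp⟩
  set Dp := D.map (Int.cast : ℤ → ZMod p) with hDp
  set N : Submodule (ZMod p) (ι → ZMod p) := LinearMap.ker Dp.mulVecLin with hN
  obtain ⟨B, J, hJ, hB⟩ := adapted_basis N
  have hfin : Module.finrank (ZMod p) N = Fintype.card ι - Dp.rank := by
    have h1 : Dp.rank + Module.finrank (ZMod p) N = Fintype.card ι := by
      have h1 := LinearMap.finrank_range_add_finrank_ker Dp.mulVecLin
      rw [Module.finrank_fintype_fun_eq_card] at h1
      exact h1
    exact (Nat.sub_eq_of_eq_add' h1.symm).symm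
  rw [← hfin, ← hJ]
  let U : Matrix ι ι (ZMod p) := (Pi.basisFun (ZMod p) ι).toMatrix B
  have hU : U * (B.toMatrix (Pi.basisFun (ZMod p) ι)) = 1 :=
    (Pi.basisFun (ZMod p) ι).toMatrix_mul_toMatrix_flip B
  have hdet : U.det ≠ 0 := by
    intro h0
    have := congrArg Matrix.det hU
    rw [Matrix.det_mul, h0, zero_mul, Matrix.det_one] at this
    exact zero_ne_one this
  -- integer lift
  let W : Matrix ι ι ℤ := U.map (fun a => (a.val : ℤ))
  have hW : W.map (Int.cast : ℤ → ZMod p) = U := by
    ext i j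
    simp [W]
  have hWdet : ((W.det : ℤ) : ZMod p) = U.det := by
    have := RingHom.map_det (Int.castRingHom (ZMod p)) W
    rw [← hW]
    simpa using this
  let A : Matrix ι ι ℤ := D * W
  have hA : ∀ j ∈ J, ∀ i, (p : ℤ) ∣ A i j := by
    intro j hj i
    rw [← ZMod.intCast_zmod_eq_zero_iff_dvd]
    have h1 : Dp.mulVec (B j) = 0 := by
      have := hB j hj
      rw [hN, LinearMap.mem_ker] at this
      simpa using this
    have h2 := congrFun h1 i
    simp only [Matrix.mulVec, dotProduct, Pi.zero_apply] at h2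
    have h3 : ((A i j : ℤ) : ZMod p) = ∑ x, Dp i x * (B j) x := by
      simp only [A, Matrix.mul_apply, Int.cast_sum, Int.cast_mul]
      refine Finset.sum_congr rfl fun x _ => ?_
      have : ((W x j : ℤ) : ZMod p) = U x j := by
        have := congrFun (congrFun hW x) j
        simpa using this
      rw [this]
      simp [hDp, U, Module.Basis.toMatrix_apply, Pi.basisFun_repr]
    rw [h3, h2]
  let v : ι → ℤ := fun j => if j ∈ J then (p : ℤ) else 1
  have hv : ∀ i j, v j ∣ A i j := by
    intro i j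
    by_cases hj : j ∈ J
    · simp only [v, if_pos hj]
      exact hA j hj i
    · simp only [v, if_neg hj]
      exact one_dvd _
  choose G' hG' using hv
  have e1 : A = fun i j => v j * G' i j := by
    funext i j
    exact hG' i j
  have e2 : A.det = (∏ j, v j) * Matrix.det (fun i j => G' i j) := by
    rw [e1]
    exact Matrix.det_mul_row v _
  have e3 : (∏ j, v j) = (p : ℤ) ^ J.card := by
    simp only [v]
    rw [Finset.prod_ite_mem, Finset.univ_inter, Finset.prod_const]
  have e4 : A.det = D.det * W.det := Matrix.det_mul _ _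
  have h5 : (p : ℤ) ^ J.card ∣ D.det * W.det := by
    rw [← e4, e2, e3]
    exact dvd_mul_right _ _
  have hcop : IsCoprime ((p : ℤ) ^ J.card) W.det := by
    apply IsCoprime.pow_left
    rw [Int.isCoprime_iff_gcd_eq_one]
    have hnd : ¬ (p : ℤ) ∣ W.det := by
      intro h
      rw [← ZMod.intCast_zmod_eq_zero_iff_dvd, hWdet] at h
      exact hdet h
    have := (Nat.Prime.coprime_iff_not_dvd hp).2 (fun h => hnd (Int.natCast_dvd.2 h))
    simpa [Int.gcd, Nat.Coprime] using this
  exact hcop.dvd_of_dvd_mul_right h5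

/-- AM-GM for the eigenvalues of a positive semidefinite matrix. -/
theorem det_le_trace_pow {n : Type*} [Fintype n] [DecidableEq n] [Nonempty n]
    {M : Matrix n n ℝ} (hM : M.PosSemidef) :
    M.det ≤ (M.trace / Fintype.card n) ^ Fintype.card n := by
  have hn' : (0 : ℝ) < Fintype.card n := by exact_mod_cast Fintype.card_pos
  have h1 : M.det = ∏ i, hM.1.eigenvalues i := by
    have := hM.1.det_eq_prod_eigenvalues
    simpa using this
  have h2 : M.trace = ∑ i, hM.1.eigenvalues i := by
    have := hM.1.trace_eq_sum_eigenvalues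
    simpa using this
  have h0 : ∀ i, 0 ≤ hM.1.eigenvalues i := hM.eigenvalues_nonneg
  have h3 := Real.geom_mean_le_arith_mean_weighted Finset.univ
    (fun _ : n => (1 : ℝ) / Fintype.card n)
    (fun i => hM.1.eigenvalues i) (fun _ _ => by positivity)
    (by simp [hn'.ne']) (fun i _ => h0 i)
  have h4 : ∏ i, (hM.1.eigenvalues i) ^ ((1 : ℝ) / Fintype.card n)
      = (∏ i, hM.1.eigenvalues i) ^ ((1 : ℝ) / Fintype.card n) :=
    Real.finsetProd_rpow _ _ (fun i _ => h0 i) _
  rw [h4] at h3
  have h5 : ∑ i, (1 : ℝ) / Fintype.card n * hM.1.eigenvalues i = M.trace / Fintype.card n := by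
    rw [h2, ← Finset.mul_sum]; ring
  rw [h5] at h3
  have hp : 0 ≤ ∏ i, hM.1.eigenvalues i := Finset.prod_nonneg (fun i _ => h0 i)
  rw [h1]
  calc ∏ i, hM.1.eigenvalues i
      = ((∏ i, hM.1.eigenvalues i) ^ ((1 : ℝ) / Fintype.card n)) ^ Fintype.card n := by
        rw [← Real.rpow_natCast, ← Real.rpow_mul hp]
        rw [one_div, inv_mul_cancel₀ hn'.ne', Real.rpow_one]
    _ ≤ (M.trace / Fintype.card n) ^ Fintype.card n :=
        pow_le_pow_left₀ (Real.rpow_nonneg hp _) h3 _

/-- Hadamard's bound for entries of absolute value at most one. -/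
theorem det_sq_le {n : Type*} [Fintype n] [DecidableEq n] (D : Matrix n n ℤ)
    (h : ∀ i j, |D i j| ≤ 1) :
    D.det ^ 2 ≤ (Fintype.card n : ℤ) ^ Fintype.card n := by
  classical
  rcases isEmpty_or_nonempty n with he | he
  · simp [Fintype.card_eq_zero]
  · set R : Matrix n n ℝ := D.map (Int.cast : ℤ → ℝ) with hR
    have hdet : (R.det : ℝ) = (D.det : ℝ) := by
      have := RingHom.map_det (Int.castRingHom ℝ) D
      simpa [hR] using this.symm
    have hpsd : (Rᴴ * R).PosSemidef := Matrix.posSemidef_conjTranspose_mul_self R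
    have h1 := det_le_trace_pow hpsd
    have h2 : (Rᴴ * R).det = (D.det : ℝ) ^ 2 := by
      rw [Matrix.det_mul, Matrix.det_conjTranspose, hdet]
      simp [sq]
    have h3 : (Rᴴ * R).trace ≤ (Fintype.card n : ℝ) * Fintype.card n := by
      have : (Rᴴ * R).trace = ∑ i, ∑ j, (R j i) ^ 2 := by
        simp [Matrix.trace, Matrix.mul_apply, sq]
      rw [this]
      calc ∑ i, ∑ j, (R j i) ^ 2 ≤ ∑ _i : n, ∑ _j : n, (1 : ℝ) := by
            refine Finset.sum_le_sum fun i _ => Finset.sum_le_sum fun j _ => ?_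
            have h4 : |R j i| ≤ 1 := by
              have := h j i
              have h5 : |((D j i : ℤ) : ℝ)| ≤ 1 := by exact_mod_cast this
              simpa [hR] using h5
            rw [← sq_abs]
            nlinarith [abs_nonneg (R j i)]
        _ = (Fintype.card n : ℝ) * Fintype.card n := by simp
    have hc : (0 : ℝ) < Fintype.card n := by exact_mod_cast Fintype.card_pos
    have h6 : 0 ≤ (Rᴴ * R).trace := hpsd.trace_nonneg
    have h7 : (Rᴴ * R).trace / Fintype.card n ≤ Fintype.card n := by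
      rw [div_le_iff₀ hc]; exact h3
    have h8 : (D.det : ℝ) ^ 2 ≤ (Fintype.card n : ℝ) ^ Fintype.card n := by
      rw [← h2]
      refine h1.trans (pow_le_pow_left₀ (div_nonneg h6 hc.le) h7 _)
    exact_mod_cast h8

/-- a nonsingular minor of size the rank -/
theorem exists_minor {m n : Type*} [Fintype m] [Fintype n]
    {F : Type*} [Field F] (X : Matrix m n F) :
    ∃ (f : Fin X.rank → m) (g : Fin X.rank → n), (X.submatrix f g).det ≠ 0 := by
  classical
  -- linearly independent rows
  have h1 : X.rank = Module.finrank F (Submodule.span F (Set.range X.row)) :=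
    X.rank_eq_finrank_span_row
  obtain ⟨f0, hf0, -, hli⟩ := Submodule.exists_fun_fin_finrank_span_eq F (Set.range X.row)
  choose f1 hf1 using hf0
  let e : Fin X.rank ≃ Fin (Module.finrank F (Submodule.span F (Set.range X.row))) := finCongr h1
  let f : Fin X.rank → m := fun i => f1 (e i)
  let Y : Matrix (Fin X.rank) n F := X.submatrix f id
  have hY : LinearIndependent F Y.row := by
    have : Y.row = f0 ∘ e := by
      funext i
      exact hf1 (e i)
    rw [this]
    exact hli.comp _ e.injective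
  have hYr : Y.rank = X.rank := by
    have := hY.rank_matrix
    simpa using this
  -- linearly independent columns
  have h2 : Y.rank = Module.finrank F (Submodule.span F (Set.range Y.col)) :=
    Y.rank_eq_finrank_span_cols
  obtain ⟨g0, hg0, -, hli2⟩ := Submodule.exists_fun_fin_finrank_span_eq F (Set.range Y.col)
  choose g1 hg1 using hg0
  let e2 : Fin X.rank ≃ Fin (Module.finrank F (Submodule.span F (Set.range Y.col))) :=
    finCongr (hYr.symm.trans h2)
  let g : Fin X.rank → n := fun i => g1 (e2 i)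
  have hZ : LinearIndependent F (Y.submatrix id g).col := by
    have : (Y.submatrix id g).col = g0 ∘ e2 := by
      funext i
      exact hg1 (e2 i)
    rw [this]
    exact hli2.comp _ e2.injective
  refine ⟨f, g, ?_⟩
  have h3 : IsUnit (Y.submatrix id g) := Matrix.linearIndependent_cols_iff_isUnit.1 hZ
  have h4 := (Matrix.isUnit_iff_isUnit_det _).1 h3
  exact h4.ne_zero

/-- the rank over `ℚ` of an integer matrix -/
noncomputable def rQ {m n : Type*} [Fintype n] (X : Matrix m n ℤ) : ℕ :=
  (X.map (Int.cast : ℤ → ℚ)).rank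

/-- the rank modulo `p` of an integer matrix -/
noncomputable def rP {m n : Type*} [Fintype n] (p : ℕ) (X : Matrix m n ℤ) : ℕ :=
  (X.map (Int.cast : ℤ → ZMod p)).rank

/-- an integer nonsingular minor of size the rational rank, and its rank modulo `p` -/
theorem exists_int_minor {m n : Type*} [Fintype m] [Fintype n] (X : Matrix m n ℤ) :
    ∃ (f : Fin (rQ X) → m) (g : Fin (rQ X) → n), (X.submatrix f g).det ≠ 0 ∧
      ∀ p : ℕ, p.Prime → (p : ℤ) ^ (rQ X - rP p X) ∣ (X.submatrix f g).det := by
  obtain ⟨f, g, h⟩ := exists_minor (X.map (Int.cast : ℤ → ℚ))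
  refine ⟨f, g, ?_, ?_⟩
  · intro h0
    apply h
    have h1 : (X.map (Int.cast : ℤ → ℚ)).submatrix f g
        = (X.submatrix f g).map (Int.cast : ℤ → ℚ) := rfl
    have h2 := RingHom.map_det (Int.castRingHom ℚ) (X.submatrix f g)
    rw [h1]
    have h3 : ((X.submatrix f g).map (Int.cast : ℤ → ℚ)).det = ((X.submatrix f g).det : ℚ) := by
      simpa using h2.symm
    rw [h3]
    exact (congrArg (Int.cast : ℤ → ℚ) h0).trans Int.cast_zero
  · intro p hp
    have : Fact p.Prime := ⟨hp⟩
    have h1 := pow_corank_dvd_det hp (X.submatrix f g)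
    rw [Fintype.card_fin] at h1
    have h2 : ((X.submatrix f g).map (Int.cast : ℤ → ZMod p)).rank ≤ rP p X :=
      Matrix.rank_submatrix_le (X.map (Int.cast : ℤ → ZMod p)) f g
    exact (pow_dvd_pow _ (Nat.sub_le_sub_left h2 _)).trans h1

/-- The rank modulo `p` is at most the rational rank. -/
theorem rP_le_rQ {m n : Type*} [Fintype m] [Fintype n] {p : ℕ} (hp : p.Prime)
    (X : Matrix m n ℤ) : rP p X ≤ rQ X := by
  classical
  have : Fact p.Prime := ⟨hp⟩
  obtain ⟨f, g, h⟩ := exists_minor (X.map (Int.cast : ℤ → ZMod p))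
  have h1 : (X.submatrix f g).det ≠ 0 := by
    intro h0
    apply h
    have h3 : ((X.submatrix f g).map (Int.cast : ℤ → ZMod p)).det
        = ((X.submatrix f g).det : ZMod p) := by
      have h2 := RingHom.map_det (Int.castRingHom (ZMod p)) (X.submatrix f g)
      simpa using h2.symm
    have h4 : (X.map (Int.cast : ℤ → ZMod p)).submatrix f g
        = (X.submatrix f g).map (Int.cast : ℤ → ZMod p) := rfl
    rw [h4, h3, h0]
    simp
  have h5 : ((X.submatrix f g).map (Int.cast : ℤ → ℚ)).rank = rP p X := by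
    have h6 : ((X.submatrix f g).map (Int.cast : ℤ → ℚ)).det ≠ 0 := by
      have h2 := RingHom.map_det (Int.castRingHom ℚ) (X.submatrix f g)
      have h3 : ((X.submatrix f g).map (Int.cast : ℤ → ℚ)).det = ((X.submatrix f g).det : ℚ) := by
        simpa using h2.symm
      rw [h3]
      exact_mod_cast h1
    have h7 := Matrix.rank_of_det_ne_zero h6
    simpa [rP] using h7
  rw [← h5]
  exact Matrix.rank_submatrix_le (X.map (Int.cast : ℤ → ℚ)) f g

/-- **From many primes to `ℚ`.** -/
theorem prod_pow_dvd {m n : Type*} [Fintype m] [Fintype n] (X : Matrix m n ℤ)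
    (S : Finset ℕ) (hS : ∀ p ∈ S, p.Prime) (h1 : ∀ i j, |X i j| ≤ 1) :
    (∏ p ∈ S, p ^ (rQ X - rP p X)) ^ 2 ≤ rQ X ^ rQ X := by
  classical
  obtain ⟨f, g, hne, hdvd⟩ := exists_int_minor X
  set D := X.submatrix f g with hD
  have hprod : (((∏ p ∈ S, p ^ (rQ X - rP p X) : ℕ)) : ℤ) ∣ D.det := by
    rw [Nat.cast_prod]
    refine Finset.prod_dvd_of_coprime ?_ ?_
    · intro a ha b hb hab
      change IsCoprime (((a ^ (rQ X - rP a X) : ℕ)) : ℤ) (((b ^ (rQ X - rP b X) : ℕ)) : ℤ)
      exact Nat.isCoprime_iff_coprime.2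
        (Nat.Coprime.pow _ _ ((Nat.coprime_primes (hS a ha) (hS b hb)).2 hab))
    · intro p hp
      have := hdvd p (hS p hp)
      exact_mod_cast this
  have h2 : ((∏ p ∈ S, p ^ (rQ X - rP p X) : ℕ) : ℤ) ≤ |D.det| :=
    Int.le_of_dvd (abs_pos.2 hne) ((dvd_abs _ _).2 hprod)
  have h3 := det_sq_le D (fun i j => h1 _ _)
  rw [Fintype.card_fin] at h3
  have h4 : (((∏ p ∈ S, p ^ (rQ X - rP p X) : ℕ) : ℤ)) ^ 2 ≤ D.det ^ 2 := by
    rw [← sq_abs D.det]
    exact pow_le_pow_left₀ (by positivity) h2 2
  exact_mod_cast h4.trans h3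

/-- the weight `∏ p ^ c_p` of a square matrix with entries in `{-1,0,1}`:
`(∏ p ^ c_p) ^ 2 ≤ (∏ p) ^ (2 c_ℚ) * k ^ k`. -/
theorem weight_sq_le {k : ℕ} (X : Matrix (Fin k) (Fin k) ℤ)
    (S : Finset ℕ) (hS : ∀ p ∈ S, p.Prime) (h1 : ∀ i j, |X i j| ≤ 1) :
    (∏ p ∈ S, p ^ (k - rP p X)) ^ 2 ≤ (∏ p ∈ S, p) ^ (2 * (k - rQ X)) * k ^ k := by
  classical
  have hk : rQ X ≤ k := by
    have := (X.map (Int.cast : ℤ → ℚ)).rank_le_width
    exact this
  have h2 := prod_pow_dvd X S hS h1
  have h3 : ∏ p ∈ S, p ^ (k - rP p X)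
      = (∏ p ∈ S, p) ^ (k - rQ X) * ∏ p ∈ S, p ^ (rQ X - rP p X) := by
    rw [← Finset.prod_pow, ← Finset.prod_mul_distrib]
    refine Finset.prod_congr rfl fun p hp => ?_
    rw [← pow_add]
    congr 1
    have := rP_le_rQ (hS p hp) X
    omega
  have h4 : rQ X ^ rQ X ≤ k ^ k := by
    rcases Nat.eq_zero_or_pos k with h | h
    · have : rQ X = 0 := by omega
      simp [this, h]
    · exact (Nat.pow_le_pow_left hk _).trans (Nat.pow_le_pow_right h hk)
  rw [h3, mul_pow, ← pow_mul, mul_comm (k - rQ X) 2]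
  exact Nat.mul_le_mul_left _ (h2.trans h4)

end Vale.Agent.P160.Half.HadN
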