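import Vale.Agent.P160.Half.GStmt3
import Vale.Agent.P160.Half.HadN

/-! # P160, half rate, gap (G): CON (content bound). Hedge version of helper932. -/

set_option linter.unusedVariables false

open Finset Matrix

namespace Vale.Agent.P160.Half.G.Con932

open A Labels

theorem det_bd {k : ℕ} (M : Matrix (Fin k) (Fin k) ℤ) (Y : ℤ) (h : ∀ i j, |M i j| ≤ Y) :
    |M.det| ≤ k.factorial * Y ^ k := by
  have := Matrix.det_le (A := M) (abv := AbsoluteValue.abs) (x := Y) (fun i j => h i j)
  simpa using this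

/-- Cramer: a small integral vector orthogonal to the rows `T`, not to the row `r` -/
theorem small_kernel {ι κ : Type*} [Fintype ι] [Fintype κ] [DecidableEq κ]
    (N : Matrix ι κ ℤ) (Y : ℤ) (hY : ∀ i j, |N i j| ≤ Y) (T : Finset ι) (r : ι)
    (h : ∃ d : κ → ℤ, (∀ t ∈ T, (N *ᵥ d) t = 0) ∧ (N *ᵥ d) r ≠ 0) :
    ∃ d : κ → ℤ, (∀ t ∈ T, (N *ᵥ d) t = 0) ∧ (N *ᵥ d) r ≠ 0 ∧
      ∃ k, k ≤ Fintype.card κ ∧ |(N *ᵥ d) r| ≤ k.factorial * Y ^ k := by
  classical
  obtain ⟨d, hd, hdr⟩ := h
  let v : ι → κ → ℚ := fun i c => (N i c : ℚ)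
  obtain ⟨κ', a, ha, hspan, hli⟩ := exists_linearIndependent' ℚ (fun t : T => v t)
  have : Finite κ' := Finite.of_injective a ha
  have : Fintype κ' := Fintype.ofFinite κ'
  -- functional of an integral vector
  let φ : (κ → ℤ) → (κ → ℚ) →ₗ[ℚ] ℚ := fun d =>
    { toFun := fun w => ∑ c, w c * (d c : ℚ)
      map_add' := by intro x y; simp [add_mul, Finset.sum_add_distrib]
      map_smul' := by intro m x; simp [Finset.mul_sum, mul_assoc] }
  have hφ : ∀ (d : κ → ℤ) (i : ι), φ d (v i) = ((N *ᵥ d) i : ℚ) := by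
    intro d i
    show ∑ c, (N i c : ℚ) * (d c : ℚ) = _
    simp [Matrix.mulVec, dotProduct]
  have hkill : ∀ d : κ → ℤ, (∀ x : κ', φ d (v (a x)) = 0) → ∀ t ∈ T, (N *ᵥ d) t = 0 := by
    intro d h0 t ht
    have h1 : v t ∈ Submodule.span ℚ (Set.range ((fun t : T => v t) ∘ a)) := by
      rw [hspan]
      exact Submodule.subset_span ⟨⟨t, ht⟩, rfl⟩
    have h2 : Submodule.span ℚ (Set.range ((fun t : T => v t) ∘ a)) ≤ LinearMap.ker (φ d) := by
      rw [Submodule.span_le]
      rintro _ ⟨x, rfl⟩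
      exact h0 x
    have h3 : φ d (v t) = 0 := h2 h1
    rw [hφ] at h3
    exact_mod_cast h3
  let row : Option κ' → ι := fun o => o.elim r (fun x => (a x : ι))
  let W : Matrix (Option κ') κ ℚ := fun o c => v (row o) c
  have hW : LinearIndependent ℚ W.row := by
    rw [linearIndependent_option]
    refine ⟨hli, ?_⟩
    intro hmem
    have h2 : Submodule.span ℚ (Set.range (W.row ∘ some)) ≤ LinearMap.ker (φ d) := by
      rw [Submodule.span_le]
      rintro _ ⟨x, rfl⟩
      show φ d (v (a x)) = 0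
      rw [hφ]
      exact_mod_cast hd (a x) (a x).2
    have h3 : φ d (v r) = 0 := h2 hmem
    rw [hφ] at h3
    exact hdr (by exact_mod_cast h3)
  have hrank : W.rank = Fintype.card (Option κ') := hW.rank_matrix
  obtain ⟨f, g, hfg⟩ := HadN.exists_minor W
  have hfi : Function.Injective f := by
    intro x y hxy
    by_contra hne
    apply hfg
    apply Matrix.det_zero_of_row_eq hne
    ext c
    simp [hxy]
  have hfb : Function.Bijective f := by
    rw [Fintype.bijective_iff_injective_and_card]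
    exact ⟨hfi, by simp [hrank]⟩
  obtain ⟨i0, hi0⟩ := hfb.2 none
  let M : Matrix (Fin W.rank) (Fin W.rank) ℤ := fun i j => N (row (f i)) (g j)
  have hM : M.det ≠ 0 := by
    intro h0
    apply hfg
    have h1 : W.submatrix f g = M.map (Int.castRingHom ℚ) := by
      ext i j
      rfl
    rw [h1, ← RingHom.mapMatrix_apply, ← RingHom.map_det, h0, map_zero]
  let e : Fin W.rank → ℤ := fun j => M.adjugate j i0
  let d' : κ → ℤ := fun c => ∑ j, if g j = c then e j else 0
  have hNd : ∀ i, (N *ᵥ d') i = ∑ j, N i (g j) * e j := by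
    intro i
    simp only [Matrix.mulVec, dotProduct, d', Finset.mul_sum]
    rw [Finset.sum_comm]
    refine Finset.sum_congr rfl fun j _ => ?_
    rw [Finset.sum_eq_single (g j)]
    · simp
    · intro c _ hc
      rw [if_neg (Ne.symm hc), mul_zero]
    · intro h; exact absurd (Finset.mem_univ _) h
  have hMe : ∀ i', (N *ᵥ d') (row (f i')) = if i' = i0 then M.det else 0 := by
    intro i'
    rw [hNd]
    have h1 : (M * M.adjugate) i' i0 = ∑ j, M i' j * M.adjugate j i0 := Matrix.mul_apply
    rw [Matrix.mul_adjugate] at h1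
    have h2 : ∑ j, N (row (f i')) (g j) * e j = (M.det • (1 : Matrix (Fin W.rank) (Fin W.rank) ℤ)) i' i0 := h1.symm
    rw [h2]
    simp [Matrix.one_apply]
  have hr : (N *ᵥ d') r = M.det := by
    have := hMe i0
    rw [hi0] at this
    simpa [row] using this
  refine ⟨d', ?_, ?_, W.rank, ?_, ?_⟩
  · apply hkill
    intro x
    obtain ⟨i', hi'⟩ := hfb.2 (some x)
    rw [hφ]
    have h1 := hMe i'
    rw [hi'] at h1
    have h2 : i' ≠ i0 := by
      rintro rfl
      rw [hi0] at hi'
      exact absurd hi' (by simp)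
    rw [if_neg h2] at h1
    have h3 : row (some x) = (a x : ι) := rfl
    rw [h3] at h1
    rw [h1]; simp
  · rw [hr]; exact hM
  · exact Matrix.rank_le_card_width W
  · rw [hr]
    exact det_bd M Y (fun i j => hY _ _)

theorem adj_bd {n : ℕ} (b : Bits n) (i j : Fin n) : |(matZ b).adjugate i j| ≤ n.factorial := by
  rw [Matrix.adjugate_apply]
  have := det_bd ((matZ b).updateRow j (Pi.single i 1)) 1 (by
    intro k l
    by_cases hk : k = j
    · subst hk
      rw [Matrix.updateRow_self]
      by_cases hl : l = i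
      · subst hl; simp
      · simp [Pi.single_eq_of_ne hl]
    · rw [Matrix.updateRow_ne hk]
      simp only [matZ]
      split_ifs <;> simp)
  simpa using this

theorem con : ConStmt := by
  intro n β _ _ b F X hdet hX hF T r hT ⟨u, hu, huT, hur⟩
  classical
  set P := matZ b with hP
  set N : Matrix (Fin n) β ℤ := P.adjugate * F with hN
  have hn : 1 ≤ n := by have := r.pos; omega
  have hNb : ∀ i j, |N i j| ≤ ((n * (n.factorial * X) : ℕ) : ℤ) := by
    intro i j
    rw [hN, Matrix.mul_apply]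
    calc |∑ k, P.adjugate i k * F k j| ≤ ∑ k, |P.adjugate i k * F k j| := Finset.abs_sum_le_sum_abs _ _
      _ ≤ ∑ k : Fin n, ((n.factorial : ℤ) * X) := by
          refine Finset.sum_le_sum fun k _ => ?_
          rw [abs_mul]
          exact mul_le_mul (adj_bd b i k) (hF k j) (abs_nonneg _) (by positivity)
      _ = _ := by simp
  obtain ⟨d, hd⟩ := hu
  have hNd : N *ᵥ d = - (P.det • u) := by
    have h1 : P.adjugate *ᵥ (P *ᵥ u) = P.det • u := by
      rw [Matrix.mulVec_mulVec, Matrix.adjugate_mul, Matrix.smul_mulVec, Matrix.one_mulVec]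
    have h2 : F *ᵥ d = - (P *ᵥ u) := by
      rw [add_comm] at hd
      exact eq_neg_of_add_eq_zero_left hd
    rw [hN, ← Matrix.mulVec_mulVec, h2, Matrix.mulVec_neg, h1]
  have hex : ∃ d : β → ℤ, (∀ t ∈ T, (N *ᵥ d) t = 0) ∧ (N *ᵥ d) r ≠ 0 := by
    refine ⟨d, fun t ht => ?_, ?_⟩
    · rw [hNd]; simp [huT t ht]
    · rw [hNd]; simp [hdet, hur]
  obtain ⟨d', hd1, hd2, k, hk, hd3⟩ := small_kernel N _ hNb T r hex
  refine ⟨N *ᵥ d', ⟨- (P.det • d'), ?_⟩, hd1, hd2, ?_⟩
  · rw [hN, Matrix.mulVec_mulVec, ← Matrix.mul_assoc, Matrix.mul_adjugate, Matrix.smul_mul,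
      Matrix.one_mul, Matrix.mulVec_neg, Matrix.mulVec_smul, Matrix.smul_mulVec]
    simp
  · refine hd3.trans ?_
    have hb : 1 ≤ n * (n.factorial * X) := by
      have h0 : 0 < n.factorial := Nat.factorial_pos n
      have h1 : 0 < n * (n.factorial * X) := Nat.mul_pos hn (Nat.mul_pos h0 hX)
      exact h1
    have h1 : k.factorial * (n * (n.factorial * X)) ^ k ≤
        (Fintype.card β + 1).factorial * ((Fintype.card β + 1) * (n * n.factorial * X)) ^ (Fintype.card β + 1) := by
      refine Nat.mul_le_mul (Nat.factorial_le (by omega)) ?_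
      calc (n * (n.factorial * X)) ^ k ≤ (n * (n.factorial * X)) ^ (Fintype.card β + 1) :=
            Nat.pow_le_pow_right hb (by omega)
        _ ≤ _ := by
            apply Nat.pow_le_pow_left
            calc n * (n.factorial * X) = 1 * (n * n.factorial * X) := by ring
              _ ≤ _ := Nat.mul_le_mul_right _ (by omega)
    exact_mod_cast h1

end Vale.Agent.P160.Half.G.Con932
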