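import Mathlib

/-! # P160, half rate: CON, abstract part (helper697): small integral vectors by Cramer -/

namespace Vale.Agent.P160.Half.Con697

open Finset Matrix

theorem exists_cols {κ β : Type} [Fintype κ] [DecidableEq κ] [Fintype β] [DecidableEq β]
    (w : κ → β → ℚ) (hw : LinearIndependent ℚ w) :
    ∃ g : κ → β, Function.Injective g ∧ (Matrix.of fun o o' => w o (g o')).det ≠ 0 := by
  classical
  set A : Matrix κ β ℚ := Matrix.of w with hA
  have hr : A.rank = Fintype.card κ := by
    have : LinearIndependent ℚ A.row := hw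
    exact this.rank_matrix
  obtain ⟨κ', a, ha, hspan, hli⟩ := exists_linearIndependent' ℚ A.col
  have : Finite κ' := Finite.of_injective a ha
  have : Fintype κ' := Fintype.ofFinite κ'
  have hcard : Fintype.card κ' = Fintype.card κ := by
    have h1 := finrank_span_eq_card hli
    rw [hspan] at h1
    rw [← h1, ← hr, Matrix.rank_eq_finrank_span_cols]
  obtain ⟨e⟩ : Nonempty (κ ≃ κ') := ⟨Fintype.equivOfCardEq hcard.symm⟩
  refine ⟨a ∘ e, ha.comp e.injective, ?_⟩
  have h2 : LinearIndependent ℚ ((A.col ∘ a) ∘ e) := hli.comp e e.injective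
  have h3 : IsUnit (Matrix.of fun o o' => w o ((a ∘ e) o')) := by
    rw [← Matrix.linearIndependent_cols_iff_isUnit]
    exact h2
  exact (Matrix.isUnit_iff_isUnit_det _).1 h3 |>.ne_zero

theorem exists_small {ι β : Type} [Fintype β] [DecidableEq β] (N : Matrix ι β ℤ) (Y : ℕ)
    (hY : 1 ≤ Y) (hN : ∀ j q, |N j q| ≤ (Y : ℤ)) (T : Finset ι) (r : ι)
    (h : ∃ d : β → ℤ, (∀ j ∈ T, (N *ᵥ d) j = 0) ∧ (N *ᵥ d) r ≠ 0) :
    ∃ d : β → ℤ, (∀ j ∈ T, (N *ᵥ d) j = 0) ∧ (N *ᵥ d) r ≠ 0 ∧
      |(N *ᵥ d) r| ≤ (((Fintype.card β).factorial * Y ^ (Fintype.card β) : ℕ) : ℤ) := by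
  classical
  obtain ⟨d0, hd0, hr0⟩ := h
  let v : ι → β → ℚ := fun j q => (N j q : ℚ)
  obtain ⟨κ, a, ha, hspan, hli⟩ := exists_linearIndependent' ℚ (fun j : T => v j)
  have : Finite κ := Finite.of_injective a ha
  have : Fintype κ := Fintype.ofFinite κ
  -- the functional of `d0`
  let φ0 : (β → ℚ) →ₗ[ℚ] ℚ := Fintype.linearCombination ℚ (fun q => (d0 q : ℚ))
  have hφ0 : ∀ j, φ0 (v j) = (((N *ᵥ d0) j : ℤ) : ℚ) := by
    intro j
    simp only [φ0, v, Fintype.linearCombination_apply, smul_eq_mul, Matrix.mulVec, dotProduct]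
    push_cast
    rfl
  have hnot : v r ∉ Submodule.span ℚ (Set.range ((fun j : T => v j) ∘ a)) := by
    intro hmem
    have h1 : Submodule.span ℚ (Set.range ((fun j : T => v j) ∘ a)) ≤ LinearMap.ker φ0 := by
      rw [Submodule.span_le]
      rintro _ ⟨k, rfl⟩
      simp only [Function.comp, SetLike.mem_coe, LinearMap.mem_ker]
      rw [hφ0, hd0 _ (a k).2]
      simp
    have h2 := h1 hmem
    rw [LinearMap.mem_ker, hφ0] at h2
    exact hr0 (by exact_mod_cast h2)
  let ro : Option κ → ι := fun o => o.elim r (fun k => (a k : ι))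
  have hwli : LinearIndependent ℚ (fun o => v (ro o)) := by
    rw [linearIndependent_option]
    exact ⟨hli, hnot⟩
  obtain ⟨g, hg, hdet⟩ := exists_cols (fun o => v (ro o)) hwli
  let B : Matrix (Option κ) (Option κ) ℤ := Matrix.of fun o o' => N (ro o) (g o')
  have hdetB : B.det ≠ 0 := by
    intro h0
    apply hdet
    have : (Matrix.of fun o o' => v (ro o) (g o')) = B.map (Int.castRingHom ℚ) := by
      ext o o'
      simp [B, v]
    rw [this]
    have h1 := (Int.castRingHom ℚ).map_det B
    rw [h0, map_zero] at h1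
    rw [← RingHom.mapMatrix_apply, ← h1]
  let d : β → ℤ := ∑ o', Pi.single (g o') (B.adjugate o' none)
  have hd : ∀ x, (N *ᵥ d) x = ∑ o', N x (g o') * B.adjugate o' none := by
    intro x
    simp only [d, Matrix.mulVec, dotProduct_sum, dotProduct_single]
  have hrow : ∀ o, (N *ᵥ d) (ro o) = B.det * (1 : Matrix (Option κ) (Option κ) ℤ) o none := by
    intro o
    rw [hd]
    have h1 := congrFun (congrFun (Matrix.mul_adjugate B) o) none
    rw [Matrix.mul_apply] at h1
    rw [Matrix.smul_apply, smul_eq_mul] at h1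
    rw [← h1]
    rfl
  let φ : (β → ℚ) →ₗ[ℚ] ℚ := Fintype.linearCombination ℚ (fun q => (d q : ℚ))
  have hφ : ∀ j, φ (v j) = (((N *ᵥ d) j : ℤ) : ℚ) := by
    intro j
    simp only [φ, v, Fintype.linearCombination_apply, smul_eq_mul, Matrix.mulVec, dotProduct]
    push_cast
    rfl
  refine ⟨d, ?_, ?_, ?_⟩
  · intro j hj
    have h1 : Submodule.span ℚ (Set.range ((fun j : T => v j) ∘ a)) ≤ LinearMap.ker φ := by
      rw [Submodule.span_le]
      rintro _ ⟨k, rfl⟩
      simp only [Function.comp, SetLike.mem_coe, LinearMap.mem_ker]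
      rw [hφ]
      have := hrow (some k)
      change (N *ᵥ d) (a k : ι) = _ at this
      rw [this, Matrix.one_apply_ne (by simp)]
      simp
    have h2 : v j ∈ Submodule.span ℚ (Set.range ((fun j : T => v j) ∘ a)) := by
      rw [hspan]
      exact Submodule.subset_span ⟨⟨j, hj⟩, rfl⟩
    have h3 := h1 h2
    rw [LinearMap.mem_ker, hφ] at h3
    exact_mod_cast h3
  · have := hrow none
    change (N *ᵥ d) r = _ at this
    rw [this, Matrix.one_apply_eq, mul_one]
    exact hdetB
  · have := hrow none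
    change (N *ᵥ d) r = _ at this
    rw [this, Matrix.one_apply_eq, mul_one]
    have h1 := Matrix.det_le (A := B) (abv := AbsoluteValue.abs) (x := (Y : ℤ))
      (fun i j => by simpa [B] using hN (ro i) (g j))
    have h2 : |B.det| ≤ ((Fintype.card (Option κ)).factorial : ℤ) * (Y : ℤ) ^ Fintype.card (Option κ) := by
      simpa [nsmul_eq_mul] using h1
    refine h2.trans ?_
    have hc : Fintype.card (Option κ) ≤ Fintype.card β := Fintype.card_le_of_injective g hg
    exact_mod_cast Nat.mul_le_mul (Nat.factorial_le hc) (Nat.pow_le_pow_right hY hc)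

end Vale.Agent.P160.Half.Con697
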