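import Vale.Agent.P160.Half.GStmt3

/-! # P160, half rate, gap (G): content bound `con : ConStmt` (helper775) -/

open Finset Matrix

namespace Vale.Agent.P160.Half.G

open A Labels

namespace ConAux

variable {β τ : Type*} [Fintype β] [DecidableEq β]

/-- rows `v, A (f 0), A (f 1), ..`, columns `g` -/
def mt {k : ℕ} (v : β → ℤ) (A : τ → β → ℤ) (f : Fin k → τ) (g : Fin (k + 1) → β) :
    Matrix (Fin (k + 1)) (Fin (k + 1)) ℤ :=
  Matrix.of fun i j => (Fin.cons v (fun i => A (f i)) : Fin (k + 1) → β → ℤ) i (g j)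

/-- the solution given by cofactors -/
def sol {k : ℕ} (A : τ → β → ℤ) (f : Fin k → τ) (g : Fin (k + 1) → β) (q : β) : ℤ :=
  ∑ j : Fin (k + 1), if g j = q then
    (-1) ^ (j : ℕ) * (Matrix.of fun (a b : Fin k) => A (f a) (g (j.succAbove b))).det else 0

theorem sum_sol {k : ℕ} (a : β → ℤ) (A : τ → β → ℤ) (f : Fin k → τ) (g : Fin (k + 1) → β) :
    ∑ q, a q * sol A f g q = (mt a A f g).det := by
  rw [Matrix.det_succ_row_zero]
  unfold sol
  simp_rw [Finset.mul_sum]
  rw [Finset.sum_comm]
  refine Finset.sum_congr rfl fun j _ => ?_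
  rw [Finset.sum_eq_single (g j)]
  · rw [if_pos rfl]
    have h1 : mt a A f g 0 j = a (g j) := by
      simp [mt]
    have h2 : (mt a A f g).submatrix Fin.succ j.succAbove =
        Matrix.of fun (a b : Fin k) => A (f a) (g (j.succAbove b)) := by
      ext x y
      simp [mt]
    rw [h1, h2]
    ring
  · intro q _ hq
    rw [if_neg (Ne.symm hq), mul_zero]
  · intro h
    exact absurd (mem_univ _) h

theorem main (v : β → ℤ) (A : τ → β → ℤ) (e0 : β → ℤ) (h0 : ∀ t, ∑ q, A t q * e0 q = 0)
    (hv : ∑ q, v q * e0 q ≠ 0) (Y : ℕ) (hY : 1 ≤ Y) (hvY : ∀ q, |v q| ≤ (Y : ℤ))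
    (hAY : ∀ t q, |A t q| ≤ (Y : ℤ)) :
    ∃ e : β → ℤ, (∀ t, ∑ q, A t q * e q = 0) ∧ ∑ q, v q * e q ≠ 0 ∧
      |∑ q, v q * e q| ≤ (((Fintype.card β).factorial * Y ^ Fintype.card β : ℕ) : ℤ) := by
  classical
  -- the property
  let S : ℕ → Prop := fun k => ∃ (f : Fin k → τ) (g : Fin (k + 1) → β), (mt v A f g).det ≠ 0
  have hS0 : S 0 := by
    obtain ⟨q, hq⟩ : ∃ q, v q ≠ 0 := by
      by_contra h
      push Not at h
      exact hv (by simp [h])
    refine ⟨Fin.elim0, fun _ => q, ?_⟩
    rw [Matrix.det_fin_one]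
    simpa [mt] using hq
  have hSb : ∀ k, S k → k + 1 ≤ Fintype.card β := by
    rintro k ⟨f, g, hd⟩
    have hinj : Function.Injective g := by
      intro i j hij
      by_contra hne
      refine hd (Matrix.det_zero_of_column_eq hne fun x => ?_)
      simp [mt, hij]
    simpa using Fintype.card_le_of_injective g hinj
  obtain ⟨k, hk, hk1⟩ : ∃ k, S k ∧ ¬ S (k + 1) := by
    by_contra h
    push Not at h
    have hall : ∀ k, S k := fun k => Nat.rec hS0 (fun m hm => h m hm) k
    have := hSb _ (hall (Fintype.card β))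
    omega
  obtain ⟨f, g, hd⟩ := hk
  have hkb := hSb k ⟨f, g, hd⟩
  refine ⟨sol A f g, fun t => ?_, ?_, ?_⟩
  · -- expansion along the first column
    rw [sum_sol]
    have hz : ∀ q, (mt v A (Fin.cons t f : Fin (k + 1) → τ) (Fin.cons q g : Fin (k + 2) → β)).det = 0 := by
      intro q
      by_contra hne
      exact hk1 ⟨_, _, hne⟩
    set w : Fin (k + 2) → β → ℤ := Fin.cons v (fun i => A ((Fin.cons t f : Fin (k + 1) → τ) i)) with hw
    set c : Fin (k + 2) → ℤ := fun i => (-1) ^ (i : ℕ) *
      (Matrix.of fun (x y : Fin (k + 1)) => w (i.succAbove x) (g y)).det with hc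
    have hrel : ∀ q, ∑ i, c i * w i q = 0 := by
      intro q
      have h1 := hz q
      rw [Matrix.det_succ_column_zero] at h1
      rw [← h1]
      refine Finset.sum_congr rfl fun i _ => ?_
      have h2 : mt v A (Fin.cons t f : Fin (k + 1) → τ) (Fin.cons q g : Fin (k + 2) → β) i 0 = w i q := by
        simp [mt, hw]
      have h3 : (mt v A (Fin.cons t f : Fin (k + 1) → τ) (Fin.cons q g : Fin (k + 2) → β)).submatrix
          i.succAbove Fin.succ = Matrix.of fun (x y : Fin (k + 1)) => w (i.succAbove x) (g y) := by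
        ext x y
        simp [mt, hw]
      rw [h2, h3]
      simp only [hc]
      ring
    have hsum : ∑ i, c i * ∑ q, w i q * e0 q = 0 := by
      have : ∑ q, (∑ i, c i * w i q) * e0 q = 0 := by
        simp [hrel]
      rw [← this]
      simp_rw [Finset.mul_sum, Finset.sum_mul]
      rw [Finset.sum_comm]
      refine Finset.sum_congr rfl fun q _ => Finset.sum_congr rfl fun i _ => ?_
      ring
    rw [Fin.sum_univ_succ] at hsum
    have hrest : ∀ i : Fin (k + 1), c i.succ * ∑ q, w i.succ q * e0 q = 0 := by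
      intro i
      have : w i.succ = A ((Fin.cons t f : Fin (k + 1) → τ) i) := by
        simp [hw]
      rw [this, h0, mul_zero]
    rw [Finset.sum_eq_zero (fun i _ => hrest i), add_zero] at hsum
    have hw0 : w 0 = v := by simp [hw]
    rw [hw0] at hsum
    have hc0 : c 0 = 0 := (mul_eq_zero.mp hsum).resolve_right hv
    have hc0' : c 0 = (mt (A t) A f g).det := by
      simp only [hc]
      rw [Fin.val_zero, pow_zero, one_mul]
      congr 1
      ext x y
      simp only [Matrix.of_apply, Fin.zero_succAbove, hw, Fin.cons_succ, mt]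
      refine Fin.cases ?_ (fun x => ?_) x
      · simp
      · simp
    rw [← hc0', hc0]
  · rw [sum_sol]
    exact hd
  · rw [sum_sol]
    have h1 := Matrix.det_le (A := mt v A f g) (abv := (AbsoluteValue.abs : AbsoluteValue ℤ ℤ)) (x := (Y : ℤ)) (by
      intro i j
      show |mt v A f g i j| ≤ (Y : ℤ)
      simp only [mt, Matrix.of_apply]
      refine Fin.cases ?_ (fun i => ?_) i
      · simpa using hvY _
      · simpa using hAY _ _)
    have h1' : |(mt v A f g).det| ≤ (((k + 1).factorial * Y ^ (k + 1) : ℕ) : ℤ) := by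
      have h2 : (AbsoluteValue.abs : AbsoluteValue ℤ ℤ) (mt v A f g).det = |(mt v A f g).det| := rfl
      rw [h2] at h1
      simpa using h1
    refine h1'.trans ?_
    have h3 : (k + 1).factorial * Y ^ (k + 1) ≤ (Fintype.card β).factorial * Y ^ Fintype.card β :=
      Nat.mul_le_mul (Nat.factorial_le hkb) (Nat.pow_le_pow_right hY hkb)
    exact_mod_cast h3

end ConAux

theorem ConAux.con : ConStmt := by
  classical
  intro n β _ _ b F X hdet hX hF T r hT hu
  obtain ⟨u0, ⟨d, hd⟩, huT, hur⟩ := hu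
  set P := matZ b with hP
  set N : Matrix (Fin n) β ℤ := P.adjugate * F with hN
  have hn : 0 < n := Fin.pos r
  set Y : ℕ := n * n.factorial * X with hYdef
  have hY1 : 1 ≤ Y := Nat.mul_pos (Nat.mul_pos hn (Nat.factorial_pos n)) hX
  have hadj : ∀ i j, |P.adjugate i j| ≤ (n.factorial : ℤ) := by
    intro i j
    rw [Matrix.adjugate_apply]
    have h1 := Matrix.det_le (A := P.updateRow j (Pi.single i 1))
      (abv := (AbsoluteValue.abs : AbsoluteValue ℤ ℤ)) (x := (1 : ℤ)) (by
        intro x y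
        show |P.updateRow j (Pi.single i 1) x y| ≤ (1 : ℤ)
        rw [Matrix.updateRow_apply]
        split_ifs with h
        · by_cases hy : y = i
          · subst hy; simp
          · simp [hy]
        · exact matZ_abs b x y)
    have h2 : (AbsoluteValue.abs : AbsoluteValue ℤ ℤ) (P.updateRow j (Pi.single i 1)).det =
      |(P.updateRow j (Pi.single i 1)).det| := rfl
    rw [h2] at h1
    simpa using h1
  have hNY : ∀ j q, |N j q| ≤ (Y : ℤ) := by
    intro j q
    rw [hN, Matrix.mul_apply]
    refine (Finset.abs_sum_le_sum_abs _ _).trans ?_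
    calc ∑ k, |P.adjugate j k * F k q| ≤ ∑ _k : Fin n, (n.factorial : ℤ) * X := by
          refine Finset.sum_le_sum fun k _ => ?_
          rw [abs_mul]
          exact mul_le_mul (hadj j k) (hF k q) (abs_nonneg _) (by positivity)
      _ = (Y : ℤ) := by
          rw [Finset.sum_const, Finset.card_univ, Fintype.card_fin, nsmul_eq_mul, hYdef]
          push_cast
          ring
  -- the given word
  have he0 : N *ᵥ (-d) = P.det • u0 := by
    have h1 : F *ᵥ d = -(P *ᵥ u0) := by
      rw [eq_neg_iff_add_eq_zero, add_comm]; exact hd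
    rw [hN, ← Matrix.mulVec_mulVec, Matrix.mulVec_neg, h1, neg_neg, Matrix.mulVec_mulVec,
      Matrix.adjugate_mul, Matrix.smul_mulVec, Matrix.one_mulVec]
  have hrow : ∀ j, ∑ q, N j q * (-d) q = P.det * u0 j := by
    intro j
    have := congrFun he0 j
    simpa [Matrix.mulVec, dotProduct] using this
  obtain ⟨e, heT, her, hbd⟩ := ConAux.main (τ := T) (fun q => N r q) (fun t q => N t.1 q) (-d)
    (fun t => by rw [hrow, huT _ t.2, mul_zero])
    (by rw [hrow]; exact mul_ne_zero hdet hur) Y hY1 (fun q => hNY r q) (fun t q => hNY t.1 q)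
  refine ⟨N *ᵥ e, ⟨-(P.det • e), ?_⟩, fun j hj => ?_, ?_, ?_⟩
  · rw [hN, Matrix.mulVec_neg, Matrix.mulVec_smul, ← Matrix.mulVec_mulVec, Matrix.mulVec_mulVec,
      Matrix.mul_adjugate, Matrix.smul_mulVec, Matrix.one_mulVec]
    simp
  · exact heT ⟨j, hj⟩
  · exact her
  · refine hbd.trans ?_
    have h3 : (Fintype.card β).factorial * Y ^ Fintype.card β ≤
        (Fintype.card β + 1).factorial * ((Fintype.card β + 1) * Y) ^ (Fintype.card β + 1) := by
      refine Nat.mul_le_mul (Nat.factorial_le (Nat.le_succ _)) ?_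
      calc Y ^ Fintype.card β ≤ Y ^ (Fintype.card β + 1) := Nat.pow_le_pow_right hY1 (Nat.le_succ _)
        _ ≤ ((Fintype.card β + 1) * Y) ^ (Fintype.card β + 1) :=
            Nat.pow_le_pow_left (Nat.le_mul_of_pos_left _ (Nat.succ_pos _)) _
    exact_mod_cast h3

end Vale.Agent.P160.Half.G
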