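import Vale.Agent.P160.Half.GStmt3

/-! # P160, half rate, gap (G): content bound (helper90) -/


open Finset Matrix

namespace Vale.Agent.P160.Half.G.Con90

/-- full column rank gives a nonsingular selection of rows -/
theorem exists_rows {α κ : Type*} [Fintype α] [Fintype κ] [DecidableEq κ] (B : Matrix α κ ℚ)
    (hcol : LinearIndependent ℚ B.col) :
    ∃ a : κ → α, (Matrix.of fun i j => B (a i) j).det ≠ 0 := by
  classical
  have hrank : B.rank = Fintype.card κ := by
    rw [Matrix.rank_eq_finrank_span_cols, finrank_span_eq_card hcol]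
  obtain ⟨ι, a, ha, hspan, hli⟩ := exists_linearIndependent' ℚ B.row
  have : Finite ι := Finite.of_injective a ha
  have : Fintype ι := Fintype.ofFinite ι
  have hcard : Fintype.card ι = Fintype.card κ := by
    rw [← hrank, Matrix.rank_eq_finrank_span_row, ← hspan, finrank_span_eq_card hli]
  let e : ι ≃ κ := Fintype.equivOfCardEq hcard
  refine ⟨fun i => a (e.symm i), fun h0 => ?_⟩
  have hrow : LinearIndependent ℚ (Matrix.of fun i j => B (a (e.symm i)) j).row :=
    hli.comp e.symm e.symm.injective
  have := (Matrix.linearIndependent_rows_iff_isUnit).1 hrow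
  rw [Matrix.isUnit_iff_isUnit_det, h0] at this
  exact not_isUnit_zero this

/-- small integral solution of a homogeneous system with one inequation -/
theorem small_sol {α β : Type*} [Fintype α] [DecidableEq α] [Fintype β] [DecidableEq β]
    (N : Matrix α β ℤ) (Y : ℕ) (hY : 1 ≤ Y) (hN : ∀ i q, |N i q| ≤ (Y : ℤ)) (T : Finset α)
    (r : α) (hT : T.card < Fintype.card β) (d₀ : β → ℤ) (h0 : ∀ t ∈ T, (N *ᵥ d₀) t = 0)
    (hr : (N *ᵥ d₀) r ≠ 0) :
    ∃ d : β → ℤ, (∀ t ∈ T, (N *ᵥ d) t = 0) ∧ (N *ᵥ d) r ≠ 0 ∧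
      |(N *ᵥ d) r| ≤ (((Fintype.card β).factorial * Y ^ Fintype.card β : ℕ) : ℤ) := by
  classical
  let NQ : α → β → ℚ := fun i q => (N i q : ℚ)
  obtain ⟨κ, a, ha, hspan, hli⟩ := exists_linearIndependent' ℚ (fun t : T => NQ t)
  have : Finite κ := Finite.of_injective a ha
  have : Fintype κ := Fintype.ofFinite κ
  have hκ : Fintype.card κ ≤ T.card := by
    have := Fintype.card_le_of_injective a ha
    rwa [Fintype.card_coe] at this
  -- the functional given by `d₀`
  let φ : (β → ℚ) →ₗ[ℚ] ℚ := (Fintype.linearCombination ℚ (fun q => (d₀ q : ℚ)))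
  have hφ : ∀ v, φ v = ∑ q, v q * (d₀ q : ℚ) := fun v => by
    simp [φ, Fintype.linearCombination_apply]
  have hφN : ∀ i, φ (NQ i) = (((N *ᵥ d₀) i : ℤ) : ℚ) := by
    intro i
    rw [hφ]
    show _ = ((∑ q, N i q * d₀ q : ℤ) : ℚ)
    push_cast
    rfl
  have hφT : ∀ v ∈ Submodule.span ℚ (Set.range ((fun t : T => NQ t) ∘ a)), φ v = 0 := by
    intro v hv
    rw [hspan] at hv
    refine Submodule.span_induction ?_ (map_zero _) ?_ ?_ hv
    · rintro _ ⟨t, rfl⟩
      show φ (NQ t) = 0
      rw [hφN, h0 t t.2]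
      simp
    · intro x y _ _ hx hy
      rw [map_add, hx, hy, add_zero]
    · intro c x _ hx
      rw [map_smul, hx, smul_zero]
  have hrn : NQ r ∉ Submodule.span ℚ (Set.range ((fun t : T => NQ t) ∘ a)) := by
    intro h
    have := hφT _ h
    rw [hφN] at this
    exact hr (by exact_mod_cast this)
  let ρ : Option κ → α := fun o => o.elim r (fun k => (a k : α))
  have hliO : LinearIndependent ℚ (fun o : Option κ => NQ (ρ o)) := by
    rw [linearIndependent_option]
    refine ⟨?_, ?_⟩
    · exact hli
    · exact hrn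
  obtain ⟨e, he⟩ := exists_rows (Matrix.of fun (q : β) (o : Option κ) => NQ (ρ o) q) (by
    exact hliO)
  let W : Matrix (Option κ) (Option κ) ℤ := fun i j => N (ρ i) (e j)
  have hW : W.det ≠ 0 := by
    intro h
    apply he
    have h1 : (Matrix.of fun i j => (Matrix.of fun (q : β) (o : Option κ) => NQ (ρ o) q) (e i) j) =
        (W.map (Int.cast : ℤ → ℚ))ᵀ := rfl
    rw [h1, Matrix.det_transpose]
    have := (Int.castRingHom ℚ).map_det W
    rw [h, map_zero] at this
    exact this.symm
  let d : β → ℤ := fun q => ∑ j, if e j = q then W.adjugate j none else 0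
  have hNd : ∀ i : Option κ, (N *ᵥ d) (ρ i) = if i = none then W.det else 0 := by
    intro i
    have h1 : (N *ᵥ d) (ρ i) = ∑ j, W i j * W.adjugate j none := by
      show ∑ q, N (ρ i) q * ∑ j, (if e j = q then W.adjugate j none else 0) = _
      simp_rw [Finset.mul_sum]
      rw [Finset.sum_comm]
      refine Finset.sum_congr rfl fun j _ => ?_
      rw [Finset.sum_eq_single (e j)]
      · rw [if_pos rfl]
      · intro q _ hq
        rw [if_neg (Ne.symm hq), mul_zero]
      · intro h
        exact absurd (mem_univ _) h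
    rw [h1]
    have h2 : (W * W.adjugate) i none = ∑ j, W i j * W.adjugate j none := rfl
    rw [← h2, Matrix.mul_adjugate, Matrix.smul_apply, Matrix.one_apply]
    split_ifs <;> simp
  refine ⟨d, ?_, ?_, ?_⟩
  · intro t ht
    -- row `t` is a combination of the rows `a k`
    let ψ : (β → ℚ) →ₗ[ℚ] ℚ := (Fintype.linearCombination ℚ (fun q => (d q : ℚ)))
    have hψ : ∀ v, ψ v = ∑ q, v q * (d q : ℚ) := fun v => by
      simp [ψ, Fintype.linearCombination_apply]
    have hψN : ∀ i, ψ (NQ i) = (((N *ᵥ d) i : ℤ) : ℚ) := by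
      intro i
      rw [hψ]
      show _ = ((∑ q, N i q * d q : ℤ) : ℚ)
      push_cast
      rfl
    have h3 : NQ t ∈ Submodule.span ℚ (Set.range ((fun t : T => NQ t) ∘ a)) := by
      rw [hspan]
      exact Submodule.subset_span ⟨⟨t, ht⟩, rfl⟩
    have h4 : ψ (NQ t) = 0 := by
      refine Submodule.span_induction ?_ (map_zero _) ?_ ?_ h3
      · rintro _ ⟨k, rfl⟩
        show ψ (NQ (a k)) = 0
        rw [hψN]
        have := hNd (some k)
        rw [if_neg (by simp)] at this
        have h5 : (N *ᵥ d) ((a k : T) : α) = 0 := this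
        rw [h5]
        simp
      · intro x y _ _ hx hy
        rw [map_add, hx, hy, add_zero]
      · intro c x _ hx
        rw [map_smul, hx, smul_zero]
    rw [hψN] at h4
    exact_mod_cast h4
  · have := hNd none
    rw [if_pos rfl] at this
    have h5 : (N *ᵥ d) r = W.det := this
    rw [h5]
    exact hW
  · have := hNd none
    rw [if_pos rfl] at this
    have h5 : (N *ᵥ d) r = W.det := this
    rw [h5]
    have h6 := Matrix.det_le (A := W) (abv := AbsoluteValue.abs) (x := (Y : ℤ))
      (fun i j => hN _ _)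
    have h7 : |W.det| ≤ (Fintype.card (Option κ)).factorial * (Y : ℤ) ^ Fintype.card (Option κ) := by
      simpa using h6
    refine h7.trans ?_
    have hc : Fintype.card (Option κ) ≤ Fintype.card β := by
      rw [Fintype.card_option]; omega
    have h8 : (Fintype.card (Option κ)).factorial ≤ (Fintype.card β).factorial :=
      Nat.factorial_le hc
    have h9 : Y ^ Fintype.card (Option κ) ≤ Y ^ Fintype.card β := Nat.pow_le_pow_right hY hc
    exact_mod_cast Nat.mul_le_mul h8 h9

open A

theorem adj_le {n : ℕ} (b : Bits n) (i j : Fin n) : |(matZ b).adjugate i j| ≤ (n.factorial : ℤ) := by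
  rw [Matrix.adjugate_apply]
  have h := Matrix.det_le (A := (matZ b).updateRow j (Pi.single i 1)) (abv := AbsoluteValue.abs)
    (x := (1 : ℤ)) (fun k l => by
      show |(matZ b).updateRow j (Pi.single i 1) k l| ≤ 1
      by_cases hk : k = j
      · subst hk
        rw [Matrix.updateRow_self]
        by_cases hl : l = i
        · subst hl; simp
        · rw [Pi.single_eq_of_ne hl]; simp
      · rw [Matrix.updateRow_ne hk]
        exact matZ_abs b k l)
  simpa using h

/-- **CON**. -/
theorem con : ConStmt := by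
  intro n β _ _ b F X hdet hX hF T r hT hex
  set P := matZ b with hP
  set N : Matrix (Fin n) β ℤ := P.adjugate * F with hN
  have hn : 0 < n := lt_of_le_of_lt (Nat.zero_le _) r.2
  have hNle : ∀ j q, |N j q| ≤ ((n * n.factorial * X : ℕ) : ℤ) := by
    intro j q
    rw [hN, Matrix.mul_apply]
    refine (Finset.abs_sum_le_sum_abs _ _).trans ?_
    calc ∑ i, |P.adjugate j i * F i q| ≤ ∑ _i : Fin n, (n.factorial : ℤ) * X := by
          refine Finset.sum_le_sum fun i _ => ?_
          rw [abs_mul]
          exact mul_le_mul (adj_le b j i) (hF i q) (abs_nonneg _) (by positivity)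
      _ = ((n * n.factorial * X : ℕ) : ℤ) := by
          rw [Finset.sum_const, Finset.card_univ, Fintype.card_fin]
          push_cast
          rw [nsmul_eq_mul]
          ring
  have hKW : ∀ d : β → ℤ, N *ᵥ d ∈ KW P F := by
    intro d
    refine ⟨-(P.det • d), ?_⟩
    rw [hN, Matrix.mulVec_mulVec, ← Matrix.mul_assoc, Matrix.mul_adjugate, Matrix.mulVec_neg,
      Matrix.smul_mul, Matrix.one_mul, Matrix.mulVec_smul, Matrix.smul_mulVec]
    exact add_neg_cancel _
  obtain ⟨u, ⟨d, hd⟩, huT, hur⟩ := hex
  have hu : N *ᵥ (-d) = P.det • u := by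
    have h1 : P *ᵥ u = F *ᵥ (-d) := by
      rw [Matrix.mulVec_neg]
      exact eq_neg_of_add_eq_zero_left hd
    rw [hN, ← Matrix.mulVec_mulVec, ← h1, Matrix.mulVec_mulVec, Matrix.adjugate_mul,
      Matrix.smul_mulVec, Matrix.one_mulVec]
  have hY : 1 ≤ n * n.factorial * X :=
    Nat.mul_pos (Nat.mul_pos hn n.factorial_pos) hX
  obtain ⟨d', h1, h2, h3⟩ := Con90.small_sol N (n * n.factorial * X) hY hNle T r hT (-d)
    (fun t ht => by rw [hu, Pi.smul_apply, huT t ht, smul_zero])
    (by
      rw [hu, Pi.smul_apply, smul_eq_mul]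
      exact mul_ne_zero hdet hur)
  refine ⟨N *ᵥ d', hKW d', h1, h2, h3.trans ?_⟩
  have h4 : (Fintype.card β).factorial ≤ (Fintype.card β + 1).factorial :=
    Nat.factorial_le (Nat.le_succ _)
  have h5 : (n * n.factorial * X) ^ Fintype.card β ≤
      ((Fintype.card β + 1) * (n * n.factorial * X)) ^ (Fintype.card β + 1) := by
    calc (n * n.factorial * X) ^ Fintype.card β ≤ (n * n.factorial * X) ^ (Fintype.card β + 1) :=
          Nat.pow_le_pow_right hY (Nat.le_succ _)
      _ ≤ _ := Nat.pow_le_pow_left (Nat.le_mul_of_pos_left _ (Nat.succ_pos _)) _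
  exact_mod_cast Nat.mul_le_mul h4 h5

end Vale.Agent.P160.Half.G.Con90
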