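import Vale.Agent.P160.Half.Corank

/-! # P160: reduction to corank one

A symmetric 0/1 matrix of rank `ρ < n` contains a principal submatrix of size `ρ + 1` with
corank exactly one; large coranks are excluded by `card_corank_le_exp`. -/

set_option linter.unusedSectionVars false

namespace Vale.Agent.P160.Half.Cor1

open Finset Matrix Vale.Agent.P160.Half

/-- the rational rank -/
noncomputable def rkQ {α : Type*} [Fintype α] [DecidableEq α] (b : Sym2 α → Bool) : ℕ :=
  ((matZ b).map (Int.cast : ℤ → ℚ)).rank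

/-- bits of a submatrix -/
def sub {α β : Type*} (e : β → α) (b : Sym2 α → Bool) : Sym2 β → Bool := fun z => b (z.map e)

theorem matZ_sub {α β : Type*} (e : β → α) (b : Sym2 α → Bool) :
    matZ (sub e b) = (matZ b).submatrix e e := by
  ext i j
  rfl

/-- `rank_{F_p} ≤ rank_ℚ` -/
theorem rank_mod_le {α : Type*} [Fintype α] [DecidableEq α] (b : Sym2 α → Bool) (p : ℕ)
    [Fact p.Prime] (T : Finset α) :
    (prin ((matZ b).map (Int.cast : ℤ → ZMod p)) T).rank ≤ rkQ b := by
  obtain ⟨A, hAT, hAc, hdet, -⟩ := exists_base ((matZ b).map (Int.cast : ℤ → ZMod p))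
      (fun i j => by rw [map_apply, map_apply, matZ_symm]) T
  have hm1 : (prin ((matZ b).map (Int.cast : ℤ → ZMod p)) A).det =
      ((prin (matZ b) A).det : ZMod p) := by
    have h1 : prin ((matZ b).map (Int.cast : ℤ → ZMod p)) A =
      (Int.castRingHom (ZMod p)).mapMatrix (prin (matZ b) A) := rfl
    rw [h1, ← RingHom.map_det]
    rfl
  have hne : (prin (matZ b) A).det ≠ 0 := by
    intro h
    rw [hm1, h, Int.cast_zero] at hdet
    exact hdet rfl
  have hQ : (prin ((matZ b).map (Int.cast : ℤ → ℚ)) A).det ≠ 0 := by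
    have h1 : prin ((matZ b).map (Int.cast : ℤ → ℚ)) A =
      (Int.castRingHom ℚ).mapMatrix (prin (matZ b) A) := rfl
    rw [h1, ← RingHom.map_det]
    simpa using hne
  rw [← hAc]
  have h2 : (prin ((matZ b).map (Int.cast : ℤ → ℚ)) A).rank = A.card := by
    rw [Matrix.rank_of_isUnit _ ((Matrix.isUnit_iff_isUnit_det _).2 (isUnit_iff_ne_zero.2 hQ))]
    simp
  rw [← h2]
  exact Matrix.rank_submatrix_le _ _ _

/-- A matrix of rank `ρ < n` has a principal submatrix of size `ρ + 1` and corank one. -/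
theorem exists_sub {n : ℕ} (b : Sym2 (Fin n) → Bool) (ρ : ℕ) (hρ : rkQ b = ρ) (h : ρ < n) :
    ∃ B : Finset (Fin n), ∃ hB : B.card = ρ + 1,
      rkQ (sub (B.orderEmbOfFin hB) b) + 1 = ρ + 1 := by
  classical
  obtain ⟨A, -, hAc, hdet, -⟩ := exists_base ((matZ b).map (Int.cast : ℤ → ℚ))
      (fun i j => by rw [map_apply, map_apply, matZ_symm]) univ
  have hr : (prin ((matZ b).map (Int.cast : ℤ → ℚ)) univ).rank = rkQ b := by
    unfold rkQ prin
    exact Matrix.rank_submatrix _ (Equiv.subtypeUnivEquiv (fun x => mem_univ x))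
      (Equiv.subtypeUnivEquiv (fun x => mem_univ x))
  rw [hr, hρ] at hAc
  obtain ⟨i, hi⟩ : ∃ i, i ∉ A := by
    by_contra hcon
    push Not at hcon
    have : A = univ := eq_univ_iff_forall.2 hcon
    rw [this, card_univ, Fintype.card_fin] at hAc
    omega
  have hB : (insert i A).card = ρ + 1 := by rw [card_insert_of_notMem hi, hAc]
  refine ⟨insert i A, hB, ?_⟩
  congr 1
  set e := (insert i A).orderEmbOfFin hB with he
  apply le_antisymm
  · refine le_trans ?_ hρ.le
    exact Matrix.rank_submatrix_le ((matZ b).map (Int.cast : ℤ → ℚ)) e e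
  · -- the nonsingular block `A` is inside
    have hmem : ∀ a : A, ∃ j, e j = (a : Fin n) := by
      intro a
      have h1 : (a : Fin n) ∈ Set.range e := by
        rw [he, Finset.range_orderEmbOfFin]
        exact mem_coe.2 (mem_insert_of_mem a.2)
      exact h1
    choose g hg using hmem
    have h2 : prin ((matZ b).map (Int.cast : ℤ → ℚ)) A =
        ((matZ (sub e b)).map (Int.cast : ℤ → ℚ)).submatrix g g := by
      ext x y
      show ((matZ b x y : ℤ) : ℚ) = ((matZ b (e (g x)) (e (g y)) : ℤ) : ℚ)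
      rw [hg, hg]
    have h3 : (prin ((matZ b).map (Int.cast : ℤ → ℚ)) A).rank = A.card := by
      rw [Matrix.rank_of_isUnit _ ((Matrix.isUnit_iff_isUnit_det _).2 (isUnit_iff_ne_zero.2 hdet))]
      simp
    refine le_trans (h3.trans hAc).ge ?_
    rw [h2]
    exact Matrix.rank_submatrix_le _ _ _

/-! ## Counting -/

/-- the density of a set of bit arrays depending only on a part of the bits -/
theorem card_comp {γ δ : Type*} [Fintype γ] [Fintype δ] [DecidableEq γ] [DecidableEq δ]
    (f : γ → δ) (hf : Function.Injective f) (Q : (γ → Bool) → Prop) [DecidablePred Q] :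
    (univ.filter fun b : δ → Bool => Q (b ∘ f)).card * 2 ^ Fintype.card γ =
      (univ.filter Q).card * 2 ^ Fintype.card δ := by
  classical
  let E : (δ → Bool) ≃ ((γ → Bool) × ({x // x ∉ Set.range f} → Bool)) :=
    ((Equiv.sumCompl (fun x => x ∈ Set.range f)).symm.arrowCongr (Equiv.refl Bool)).trans
      ((Equiv.sumArrowEquivProdArrow _ _ _).trans
        (Equiv.prodCongr ((Equiv.ofInjective f hf).symm.arrowCongr (Equiv.refl Bool))
          (Equiv.refl _)))
  have hE : ∀ b : δ → Bool, (E b).1 = b ∘ f := by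
    intro b
    funext x
    rfl
  have h1 : (univ.filter fun b : δ → Bool => Q (b ∘ f)).card =
      ((univ.filter Q) ×ˢ (univ : Finset ({x // x ∉ Set.range f} → Bool))).card := by
    refine Finset.card_equiv E fun b => ?_
    simp only [mem_filter, mem_univ, true_and, mem_product, and_true, hE]
  have h2 : Fintype.card {x // x ∉ Set.range f} + Fintype.card γ = Fintype.card δ := by
    have h3 := Fintype.card_congr (Equiv.sumCompl (fun x => x ∈ Set.range f))
    rw [Fintype.card_sum] at h3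
    have h4 : Fintype.card {x // x ∈ Set.range f} = Fintype.card γ :=
      (Fintype.card_congr (Equiv.ofInjective f hf)).symm
    omega
  rw [h1, card_product, card_univ, Fintype.card_fun, Fintype.card_bool, mul_assoc, ← pow_add, h2]

/-- density of corank one -/
noncomputable def p1 (n : ℕ) : ℝ := by
  classical exact
  ((univ.filter fun b : Sym2 (Fin n) → Bool => rkQ b + 1 = n).card : ℝ) /
    2 ^ Fintype.card (Sym2 (Fin n))

open Classical in
theorem p1_eq (n : ℕ) : p1 n = ((univ.filter fun b : Sym2 (Fin n) → Bool => rkQ b + 1 = n).card : ℝ) /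
    2 ^ Fintype.card (Sym2 (Fin n)) := rfl

theorem p1_nonneg (n : ℕ) : 0 ≤ p1 n := by
  rw [p1_eq]
  positivity

open Classical in
/-- the probability that the rank is exactly `ρ` -/
theorem card_rank_eq (n ρ : ℕ) (h : ρ < n) :
    ((univ.filter fun b : Sym2 (Fin n) → Bool => rkQ b = ρ).card : ℝ) ≤
      (n.choose (ρ + 1) : ℝ) * (p1 (ρ + 1) * 2 ^ Fintype.card (Sym2 (Fin n))) := by
  have hsub : (univ.filter fun b : Sym2 (Fin n) → Bool => rkQ b = ρ) ⊆
      (univ.powersetCard (ρ + 1) : Finset (Finset (Fin n))).biUnion fun B =>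
        univ.filter fun b : Sym2 (Fin n) → Bool =>
          ∃ hB : B.card = ρ + 1, rkQ (sub (B.orderEmbOfFin hB) b) + 1 = ρ + 1 := by
    intro b hb
    have hb' := (mem_filter.1 hb).2
    obtain ⟨B, hB, h1⟩ := exists_sub b ρ hb' h
    exact mem_biUnion.2 ⟨B, mem_powersetCard.2 ⟨subset_univ _, hB⟩,
      mem_filter.2 ⟨mem_univ _, hB, h1⟩⟩
  have hcard : ∀ B ∈ (univ.powersetCard (ρ + 1) : Finset (Finset (Fin n))),
      ((univ.filter fun b : Sym2 (Fin n) → Bool =>
          ∃ hB : B.card = ρ + 1, rkQ (sub (B.orderEmbOfFin hB) b) + 1 = ρ + 1).card : ℝ) ≤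
        p1 (ρ + 1) * 2 ^ Fintype.card (Sym2 (Fin n)) := by
    intro B hB
    have hB' := (mem_powersetCard.1 hB).2
    have hinj : Function.Injective (Sym2.map (B.orderEmbOfFin hB')) :=
      Sym2.map.injective (B.orderEmbOfFin hB').injective
    have h2 := card_comp (Sym2.map (B.orderEmbOfFin hB')) hinj
      (fun c : Sym2 (Fin (ρ + 1)) → Bool => rkQ c + 1 = ρ + 1)
    have h3 : (univ.filter fun b : Sym2 (Fin n) → Bool =>
          ∃ hB : B.card = ρ + 1, rkQ (sub (B.orderEmbOfFin hB) b) + 1 = ρ + 1) =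
        (univ.filter fun b : Sym2 (Fin n) → Bool =>
          rkQ (b ∘ Sym2.map (B.orderEmbOfFin hB')) + 1 = ρ + 1) := by
      refine filter_congr fun b _ => ⟨fun ⟨_, h⟩ => h, fun h => ⟨hB', h⟩⟩
    rw [h3, p1_eq, div_mul_eq_mul_div, le_div_iff₀ (by positivity)]
    exact_mod_cast h2.le
  calc ((univ.filter fun b : Sym2 (Fin n) → Bool => rkQ b = ρ).card : ℝ)
      ≤ ∑ B ∈ (univ.powersetCard (ρ + 1) : Finset (Finset (Fin n))),
        ((univ.filter fun b : Sym2 (Fin n) → Bool =>
          ∃ hB : B.card = ρ + 1, rkQ (sub (B.orderEmbOfFin hB) b) + 1 = ρ + 1).card : ℝ) := by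
        exact_mod_cast (card_le_card hsub).trans card_biUnion_le
    _ ≤ ∑ B ∈ (univ.powersetCard (ρ + 1) : Finset (Finset (Fin n))),
        p1 (ρ + 1) * 2 ^ Fintype.card (Sym2 (Fin n)) := sum_le_sum hcard
    _ = (n.choose (ρ + 1) : ℝ) * (p1 (ρ + 1) * 2 ^ Fintype.card (Sym2 (Fin n))) := by
        rw [sum_const, card_powersetCard, card_univ, Fintype.card_fin, nsmul_eq_mul]

theorem det_zero_iff {n : ℕ} (b : Sym2 (Fin n) → Bool) : (matZ b).det = 0 ↔ rkQ b < n := by
  have h1 : ((matZ b).map (Int.cast : ℤ → ℚ)).det = (((matZ b).det : ℤ) : ℚ) := by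
    have h2 : (matZ b).map (Int.cast : ℤ → ℚ) = (Int.castRingHom ℚ).mapMatrix (matZ b) := rfl
    rw [h2, ← RingHom.map_det]
    rfl
  have h3 : rkQ b ≤ n := by
    have := Matrix.rank_le_card_height ((matZ b).map (Int.cast : ℤ → ℚ))
    rwa [Fintype.card_fin] at this
  constructor
  · intro h
    rcases h3.lt_or_eq with h4 | h4
    · exact h4
    · exfalso
      have h5 : IsUnit ((matZ b).map (Int.cast : ℤ → ℚ)) := by
        rw [← Matrix.mulVec_surjective_iff_isUnit]
        have h6 : LinearMap.range ((matZ b).map (Int.cast : ℤ → ℚ)).mulVecLin = ⊤ := by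
          refine Submodule.eq_top_of_finrank_eq ?_
          rw [Module.finrank_fintype_fun_eq_card, Fintype.card_fin]
          exact h4
        exact LinearMap.range_eq_top.1 h6
      rw [Matrix.isUnit_iff_isUnit_det, h1, h] at h5
      simp at h5
  · intro h
    by_contra hne
    have h5 : IsUnit ((matZ b).map (Int.cast : ℤ → ℚ)) := by
      rw [Matrix.isUnit_iff_isUnit_det, h1]
      exact isUnit_iff_ne_zero.2 (by exact_mod_cast hne)
    have h6 : rkQ b = n := by
      have := Matrix.rank_of_isUnit _ h5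
      rwa [Fintype.card_fin] at this
    omega

open Classical in
/-- the main count: singular matrices in terms of corank one -/
theorem card_sing_le (n k : ℕ) (hn : 1 ≤ n) (hk : 26 * n ≤ k ^ 2) :
    ((univ.filter fun b : Sym2 (Fin n) → Bool => (matZ b).det = 0).card : ℝ) ≤
      (∑ ρ ∈ (range n).filter (fun ρ => n < ρ + k), (n.choose (ρ + 1) : ℝ) * p1 (ρ + 1) +
        2 ^ (-(n : ℝ))) * 2 ^ Fintype.card (Sym2 (Fin n)) := by
  have hsub : (univ.filter fun b : Sym2 (Fin n) → Bool => (matZ b).det = 0) ⊆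
      (((range n).filter (fun ρ => n < ρ + k)).biUnion fun ρ =>
        univ.filter fun b : Sym2 (Fin n) → Bool => rkQ b = ρ) ∪
      (univ.filter fun b : Sym2 (Fin n) → Bool => ∃ (p : ℕ) (_ : Fact p.Prime)
        (T : Finset (Fin n)), (prin ((matZ b).map (Int.cast : ℤ → ZMod p)) T).rank + k ≤ T.card) := by
    intro b hb
    have hb' := (det_zero_iff b).1 (mem_filter.1 hb).2
    by_cases hc : n < rkQ b + k
    · exact mem_union_left _ (mem_biUnion.2 ⟨rkQ b, mem_filter.2 ⟨mem_range.2 hb', hc⟩,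
        mem_filter.2 ⟨mem_univ _, rfl⟩⟩)
    · refine mem_union_right _ (mem_filter.2 ⟨mem_univ _, 2, ⟨Nat.prime_two⟩, univ, ?_⟩)
      have : Fact (Nat.Prime 2) := ⟨Nat.prime_two⟩
      have h1 := rank_mod_le b 2 univ
      rw [card_univ, Fintype.card_fin]
      omega
  have hexp := card_corank_le_exp (α := Fin n) 1 k (by rw [Fintype.card_fin]; exact hn)
    (by rw [Fintype.card_fin]; exact hk)
  rw [one_mul, Fintype.card_fin] at hexp
  set N2 := (univ.filter fun b : Sym2 (Fin n) → Bool => ∃ (p : ℕ) (_ : Fact p.Prime)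
        (T : Finset (Fin n)), (prin ((matZ b).map (Int.cast : ℤ → ZMod p)) T).rank + k ≤ T.card).card
    with hN2
  have hexp' : (N2 : ℝ) ≤ 2 ^ (-(n : ℝ)) * 2 ^ Fintype.card (Sym2 (Fin n)) := by
    have h1 : (N2 : ℝ) * 2 ^ n ≤ 2 ^ Fintype.card (Sym2 (Fin n)) := by exact_mod_cast hexp
    have h2 : (2 : ℝ) ^ (-(n : ℝ)) = 1 / 2 ^ n := by
      rw [Real.rpow_neg (by norm_num), Real.rpow_natCast, one_div]
    rw [h2, div_mul_eq_mul_div, one_mul, le_div_iff₀ (by positivity)]
    exact h1
  have h1 : ((univ.filter fun b : Sym2 (Fin n) → Bool => (matZ b).det = 0).card : ℝ) ≤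
      (∑ ρ ∈ (range n).filter (fun ρ => n < ρ + k),
        ((univ.filter fun b : Sym2 (Fin n) → Bool => rkQ b = ρ).card : ℝ)) + N2 := by
    have h2 := (card_le_card hsub).trans (card_union_le _ _)
    have h3 := card_biUnion_le (s := (range n).filter (fun ρ => n < ρ + k))
      (t := fun ρ => univ.filter fun b : Sym2 (Fin n) → Bool => rkQ b = ρ)
    exact_mod_cast h2.trans (Nat.add_le_add_right h3 _)
  refine h1.trans ?_
  rw [add_mul, sum_mul]
  refine add_le_add (sum_le_sum fun ρ hρ => ?_) hexp'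
  have := card_rank_eq n ρ (mem_range.1 (mem_filter.1 hρ).1)
  rwa [← mul_assoc] at this

end Vale.Agent.P160.Half.Cor1
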