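import Vale.Agent.P160.Half.WCount
import Vale.Agent.P160.Half.Corank

/-! # P160-HALF: reduction to corank one

`a_(n+1)(r+1) <= (n+1) 2^(-(r+1)) a_n(r)`, where `a_n(r)` is the probability that the uniform
symmetric 0/1 matrix of size `n` has corank `r` over the rationals: delete an index in the support
of a kernel vector. -/

set_option linter.unusedSectionVars false

namespace Vale.Agent.P160.Half.Cor1

open Finset Matrix Module Vale.Agent.P160.Half

/-- the rational 0/1 matrix -/
def matQ {α : Type*} (b : Sym2 α → Bool) : Matrix α α ℚ := fun i j => if b s(i, j) then 1 else 0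

theorem matQ_eq_map {α : Type*} (b : Sym2 α → Bool) :
    matQ b = (matZ b).map (Int.castRingHom ℚ) := by
  ext i j
  simp only [matQ, matZ, Matrix.map_apply]
  split_ifs <;> simp

theorem matQ_symm {α : Type*} (b : Sym2 α → Bool) (i j : α) : matQ b i j = matQ b j i := by
  unfold matQ; rw [Sym2.eq_swap]

theorem det_matZ_eq_zero_iff {n : ℕ} (b : Sym2 (Fin n) → Bool) :
    (matZ b).det = 0 ↔ (matQ b).det = 0 := by
  rw [matQ_eq_map, ← RingHom.mapMatrix_apply, ← RingHom.map_det]
  simp

/-- restriction of the entries to the indices different from `j` -/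
def del {n : ℕ} (j : Fin (n + 1)) (b : Sym2 (Fin (n + 1)) → Bool) : Sym2 (Fin n) → Bool :=
  fun e => b (Sym2.map j.succAbove e)

/-- the deleted column -/
def col {n : ℕ} (j : Fin (n + 1)) (b : Sym2 (Fin (n + 1)) → Bool) : Fin n → Bool :=
  fun i => b s(j.succAbove i, j)

theorem matQ_del {n : ℕ} (j : Fin (n + 1)) (b : Sym2 (Fin (n + 1)) → Bool) (i k : Fin n) :
    matQ (del j b) i k = matQ b (j.succAbove i) (j.succAbove k) := rfl

theorem bq_col {n : ℕ} (j : Fin (n + 1)) (b : Sym2 (Fin (n + 1)) → Bool) (i : Fin n) :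
    bq (col j b) i = matQ b (j.succAbove i) j := rfl

/-- the column space -/
noncomputable def cs {n : ℕ} (P : Matrix (Fin n) (Fin n) ℚ) : Submodule ℚ (Fin n → ℚ) :=
  LinearMap.range P.mulVecLin

theorem finrank_cs {n : ℕ} (P : Matrix (Fin n) (Fin n) ℚ) : finrank ℚ (cs P) = P.rank := rfl

/-- the expansion matrix -/
def expM {n : ℕ} (j : Fin (n + 1)) (u : Fin n → ℚ) : Matrix (Fin (n + 1)) (Fin n) ℚ :=
  fun i a => if i = j then u a else if i = j.succAbove a then 1 else 0

theorem expM_self {n : ℕ} (j : Fin (n + 1)) (u : Fin n → ℚ) (a : Fin n) : expM j u j a = u a := by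
  simp [expM]

theorem expM_succ {n : ℕ} (j : Fin (n + 1)) (u : Fin n → ℚ) (i a : Fin n) :
    expM j u (j.succAbove i) a = if i = a then 1 else 0 := by
  simp [expM, Fin.succAbove_ne]

theorem exists_index {n : ℕ} (b : Sym2 (Fin (n + 1)) → Bool) (h : (matQ b).rank < n + 1) :
    ∃ j : Fin (n + 1), ∃ u : Fin n → ℚ, matQ (del j b) *ᵥ u = bq (col j b) ∧
      matQ b j j = bq (col j b) ⬝ᵥ u := by
  have hdet : (matQ b).det = 0 := by
    by_contra hne
    have h1 : IsUnit (matQ b) := (Matrix.isUnit_iff_isUnit_det _).2 (isUnit_iff_ne_zero.2 hne)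
    have h2 := Matrix.rank_of_isUnit _ h1
    rw [Fintype.card_fin] at h2
    omega
  obtain ⟨v, hv0, hv⟩ := Matrix.exists_mulVec_eq_zero_iff.2 hdet
  obtain ⟨j, hj⟩ : ∃ j, v j ≠ 0 := by
    by_contra hcon
    push Not at hcon
    exact hv0 (funext hcon)
  refine ⟨j, fun a => - v (j.succAbove a) / v j, ?_, ?_⟩
  · funext i
    have h1 := congrFun hv (j.succAbove i)
    simp only [Matrix.mulVec, dotProduct, Pi.zero_apply] at h1 ⊢
    rw [Fin.sum_univ_succAbove _ j] at h1
    rw [bq_col]
    have h2 : ∑ k, matQ (del j b) i k * (- v (j.succAbove k) / v j) =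
        -(∑ k, matQ b (j.succAbove i) (j.succAbove k) * v (j.succAbove k)) / v j := by
      rw [← Finset.sum_neg_distrib, Finset.sum_div]
      refine sum_congr rfl fun k _ => ?_
      rw [matQ_del]; ring
    rw [h2, div_eq_iff hj]
    linarith
  · have h1 := congrFun hv j
    simp only [Matrix.mulVec, dotProduct, Pi.zero_apply] at h1 ⊢
    rw [Fin.sum_univ_succAbove _ j] at h1
    have h2 : ∑ k, bq (col j b) k * (- v (j.succAbove k) / v j) =
        -(∑ k, matQ b j (j.succAbove k) * v (j.succAbove k)) / v j := by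
      rw [← Finset.sum_neg_distrib, Finset.sum_div]
      refine sum_congr rfl fun k _ => ?_
      rw [bq_col, matQ_symm]; ring
    rw [h2, eq_div_iff hj]
    linarith

theorem rank_eq {n : ℕ} (b : Sym2 (Fin (n + 1)) → Bool) (j : Fin (n + 1)) (u : Fin n → ℚ)
    (h1 : matQ (del j b) *ᵥ u = bq (col j b)) (h2 : matQ b j j = bq (col j b) ⬝ᵥ u) :
    (matQ b).rank = (matQ (del j b)).rank := by
  have hM : matQ b = expM j u * matQ (del j b) * (expM j u)ᵀ := by
    ext i k
    rw [Matrix.mul_assoc]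
    simp only [Matrix.mul_apply, Matrix.transpose_apply]
    have hcol : ∀ a, ∑ c, matQ (del j b) a c * expM j u k c =
        matQ b (j.succAbove a) k := by
      intro a
      rcases Fin.eq_self_or_eq_succAbove j k with rfl | ⟨k', rfl⟩
      · simp only [expM_self]
        exact congrFun h1 a
      · simp only [expM_succ]
        simp [matQ_del]
    simp only [hcol]
    rcases Fin.eq_self_or_eq_succAbove j i with rfl | ⟨i', rfl⟩
    · simp only [expM_self]
      rcases Fin.eq_self_or_eq_succAbove i k with rfl | ⟨k', rfl⟩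
      · rw [h2, dotProduct]
        refine sum_congr rfl fun a _ => ?_
        rw [bq_col]; ring
      · have h3 := congrFun h1 k'
        rw [bq_col, matQ_symm] at h3
        rw [← h3]
        simp only [Matrix.mulVec, dotProduct]
        refine sum_congr rfl fun a _ => ?_
        rw [matQ_del, matQ_symm]; ring
    · simp only [expM_succ]
      simp
  have hP : matQ (del j b) = (expM j 0)ᵀ * matQ b * (expM j 0) := by
    ext i k
    rw [Matrix.mul_assoc]
    simp only [Matrix.mul_apply, Matrix.transpose_apply]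
    rw [Fin.sum_univ_succAbove _ j]
    simp only [expM_self, expM_succ]
    have : ∀ x : Fin n, ∑ y, matQ b (j.succAbove x) y * expM j 0 y k =
        matQ (del j b) x k := by
      intro x
      rw [Fin.sum_univ_succAbove _ j]
      simp only [expM_self, expM_succ]
      simp [matQ_del]
    simp [this]
  apply le_antisymm
  · calc (matQ b).rank = (expM j u * matQ (del j b) * (expM j u)ᵀ).rank := by rw [← hM]
      _ ≤ (expM j u * matQ (del j b)).rank := Matrix.rank_mul_le_left _ _
      _ ≤ (matQ (del j b)).rank := Matrix.rank_mul_le_right _ _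
  · calc (matQ (del j b)).rank = ((expM j 0)ᵀ * matQ b * (expM j 0)).rank := by rw [← hP]
      _ ≤ ((expM j 0)ᵀ * matQ b).rank := Matrix.rank_mul_le_left _ _
      _ ≤ (matQ b).rank := Matrix.rank_mul_le_right _ _

/-- the patterns of corank `r` -/
noncomputable def crk (n r : ℕ) : Finset (Sym2 (Fin n) → Bool) := by
  classical exact univ.filter fun b => (matQ b).rank + r = n

theorem mem_crk {n r : ℕ} {b : Sym2 (Fin n) → Bool} : b ∈ crk n r ↔ (matQ b).rank + r = n := by
  simp [crk]

/-- the patterns of corank `r + 1` for which `j` can be deleted -/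
noncomputable def crkj (n r : ℕ) (j : Fin (n + 1)) : Finset (Sym2 (Fin (n + 1)) → Bool) := by
  classical exact univ.filter fun b => (matQ (del j b)).rank + r = n ∧
    ∃ u : Fin n → ℚ, matQ (del j b) *ᵥ u = bq (col j b) ∧ matQ b j j = bq (col j b) ⬝ᵥ u

theorem mem_crkj {n r : ℕ} {j : Fin (n + 1)} {b : Sym2 (Fin (n + 1)) → Bool} :
    b ∈ crkj n r j ↔ (matQ (del j b)).rank + r = n ∧
    ∃ u : Fin n → ℚ, matQ (del j b) *ᵥ u = bq (col j b) ∧ matQ b j j = bq (col j b) ⬝ᵥ u := by
  simp [crkj]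

theorem crk_subset (n r : ℕ) : crk (n + 1) (r + 1) ⊆ univ.biUnion (crkj n r) := by
  intro b hb
  rw [mem_crk] at hb
  obtain ⟨j, u, h1, h2⟩ := exists_index b (by omega)
  rw [mem_biUnion]
  refine ⟨j, mem_univ _, mem_crkj.2 ⟨?_, u, h1, h2⟩⟩
  have := rank_eq b j u h1 h2
  omega

theorem card_crkj (n r : ℕ) (j : Fin (n + 1)) :
    (crkj n r j).card ≤ (crk n r).card * 2 ^ (n - r) := by
  classical
  have h1 : (crkj n r j).card ≤
      ((crk n r).sigma fun b' => pts (cs (matQ b')) 0).card := by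
    apply card_le_card_of_injOn
      (fun b => (⟨del j b, col j b⟩ : (_ : Sym2 (Fin n) → Bool) × (Fin n → Bool)))
    · intro b hb
      obtain ⟨hr, u, hu, -⟩ := mem_crkj.1 (mem_coe.1 hb)
      rw [mem_coe, mem_sigma]
      refine ⟨mem_crk.2 hr, mem_pts.2 ?_⟩
      rw [sub_zero]
      exact ⟨u, hu⟩
    · intro b hb b' hb' heq
      obtain ⟨-, u, hu, hd⟩ := mem_crkj.1 (mem_coe.1 hb)
      obtain ⟨-, u', hu', hd'⟩ := mem_crkj.1 (mem_coe.1 hb')
      simp only [Sigma.mk.injEq, heq_eq_eq] at heq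
      obtain ⟨e1, e2⟩ := heq
      have hsym : ∀ x y : Fin n → ℚ, (matQ (del j b) *ᵥ x) ⬝ᵥ y = (matQ (del j b) *ᵥ y) ⬝ᵥ x := by
        intro x y
        have ht : (matQ (del j b))ᵀ = matQ (del j b) := by
          ext i k; rw [Matrix.transpose_apply, matQ_symm]
        rw [dotProduct_comm (matQ (del j b) *ᵥ x) y, Matrix.dotProduct_mulVec,
          ← Matrix.mulVec_transpose, ht]
      have hdd : matQ b j j = matQ b' j j := by
        rw [hd, hd', ← e2, ← hu, hsym u u']
        rw [← e1, ← e2] at hu'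
        rw [hu', hu]
      have hjj : b s(j, j) = b' s(j, j) := by
        unfold matQ at hdd
        cases h3 : b s(j, j) <;> cases h4 : b' s(j, j) <;> simp_all
      funext e
      induction e using Sym2.ind with
      | _ i k =>
        rcases Fin.eq_self_or_eq_succAbove j i with rfl | ⟨i', rfl⟩
        · rcases Fin.eq_self_or_eq_succAbove i k with rfl | ⟨k', rfl⟩
          · exact hjj
          · have := congrFun e2 k'
            unfold col at this
            rw [Sym2.eq_swap]; exact this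
        · rcases Fin.eq_self_or_eq_succAbove j k with rfl | ⟨k', rfl⟩
          · exact congrFun e2 i'
          · exact congrFun e1 s(i', k')
  refine h1.trans ?_
  rw [card_sigma]
  refine (sum_le_card_nsmul _ _ (2 ^ (n - r)) fun b' hb' => ?_).trans (by rw [smul_eq_mul])
  refine (card_pts_le _ _).trans ?_
  have := mem_crk.1 hb'
  rw [finrank_cs]
  exact Nat.pow_le_pow_right (by norm_num) (by omega)

/-- **corank recursion** -/
theorem card_crk (n r : ℕ) :
    (crk (n + 1) (r + 1)).card ≤ (n + 1) * ((crk n r).card * 2 ^ (n - r)) := by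
  classical
  refine (card_le_card (crk_subset n r)).trans (card_biUnion_le.trans ?_)
  refine (sum_le_card_nsmul _ _ _ fun j _ => card_crkj n r j).trans ?_
  rw [card_univ, Fintype.card_fin, smul_eq_mul]

/-- the probability of corank `r` -/
noncomputable def dens (n r : ℕ) : ℝ := ((crk n r).card : ℝ) / 2 ^ ((n + 1).choose 2)

theorem dens_nonneg (n r : ℕ) : 0 ≤ dens n r := by
  unfold dens; positivity

theorem dens_zero_succ (r : ℕ) : dens 0 (r + 1) = 0 := by
  have : crk 0 (r + 1) = ∅ := by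
    ext b
    rw [mem_crk]
    simp
  simp [dens, this]

theorem dens_succ_le (n r : ℕ) : dens (n + 1) (r + 1) ≤ (n + 1) / 2 ^ (r + 1) * dens n r := by
  have hch : (n + 1 + 1).choose 2 = (n + 1).choose 2 + (n + 1) := by
    rw [Nat.choose_succ_succ' (n + 1) 1, Nat.choose_one_right]; ring
  have h := card_crk n r
  rcases lt_or_ge n r with hr | hr
  · have h0 : (crk n r).card = 0 := by
      rw [card_eq_zero, eq_empty_iff_forall_notMem]
      intro b hb
      have := mem_crk.1 hb
      omega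
    have h1 : (crk (n + 1) (r + 1)).card = 0 := by
      rw [h0] at h; omega
    simp [dens, h0, h1]
  · unfold dens
    rw [hch, pow_add, div_mul_div_comm, div_le_div_iff₀ (by positivity) (by positivity)]
    have h' : ((crk (n + 1) (r + 1)).card : ℝ) ≤ (n + 1) * (((crk n r).card : ℝ) * 2 ^ (n - r)) := by
      exact_mod_cast h
    have h2 : (2 : ℝ) ^ (n + 1) = 2 ^ (n - r) * 2 ^ (r + 1) := by
      rw [← pow_add]; congr 1; omega
    calc ((crk (n + 1) (r + 1)).card : ℝ) * (2 ^ (r + 1) * 2 ^ (n + 1).choose 2)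
        ≤ ((n + 1) * (((crk n r).card : ℝ) * 2 ^ (n - r))) * (2 ^ (r + 1) * 2 ^ (n + 1).choose 2) :=
          mul_le_mul_of_nonneg_right h' (by positivity)
      _ = (n + 1) * ((crk n r).card : ℝ) * (2 ^ (n + 1).choose 2 * 2 ^ (n + 1)) := by
          rw [h2]; ring

theorem dens_le {x C : ℝ} (hx : 1 / 2 ≤ x) (hC : 0 ≤ C) (H : ∀ m, dens m 1 ≤ C * x ^ m) (r : ℕ) :
    ∀ n, dens n (r + 1) ≤ C * x ^ n * ∏ i ∈ range r, ((n : ℝ) / 2 ^ (i + 1)) := by
  have hx0 : 0 ≤ x := by linarith
  induction r with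
  | zero => intro n; simpa using H n
  | succ r ih =>
    intro n
    cases n with
    | zero =>
      rw [dens_zero_succ]
      exact mul_nonneg (by positivity) (prod_nonneg fun i _ => by positivity)
    | succ m =>
      have hprod : ∏ i ∈ range r, ((m : ℝ) / 2 ^ (i + 1)) ≤
          ∏ i ∈ range r, (((m + 1 : ℕ) : ℝ) / 2 ^ (i + 1)) := by
        apply prod_le_prod (fun i _ => by positivity)
        intro i _
        push_cast
        gcongr
        linarith
      have hp0 : 0 ≤ ∏ i ∈ range r, (((m + 1 : ℕ) : ℝ) / 2 ^ (i + 1)) :=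
        prod_nonneg fun i _ => by positivity
      have h1 : x ^ m ≤ 2 * x ^ (m + 1) := by
        rw [pow_succ]
        nlinarith [pow_nonneg hx0 m]
      calc dens (m + 1) (r + 1 + 1) ≤ (m + 1) / 2 ^ (r + 1 + 1) * dens m (r + 1) :=
            dens_succ_le m (r + 1)
        _ ≤ (m + 1) / 2 ^ (r + 1 + 1) *
            (C * x ^ m * ∏ i ∈ range r, ((m : ℝ) / 2 ^ (i + 1))) :=
            mul_le_mul_of_nonneg_left (ih m) (by positivity)
        _ ≤ (m + 1) / 2 ^ (r + 1 + 1) *
            (C * (2 * x ^ (m + 1)) * ∏ i ∈ range r, (((m + 1 : ℕ) : ℝ) / 2 ^ (i + 1))) := by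
            gcongr
        _ = C * x ^ (m + 1) * ∏ i ∈ range (r + 1), (((m + 1 : ℕ) : ℝ) / 2 ^ (i + 1)) := by
            rw [prod_range_succ, pow_succ (2 : ℝ) (r + 1)]
            push_cast
            field_simp

theorem prod_le (n r : ℕ) : ∏ i ∈ range r, ((n : ℝ) / 2 ^ (i + 1)) ≤ (n + 1 : ℝ) ^ Nat.log 2 n := by
  set L := Nat.log 2 n with hL
  have h1 : ∏ i ∈ range r, ((n : ℝ) / 2 ^ (i + 1)) ≤
      ∏ i ∈ range r, (if i < L then (n + 1 : ℝ) else 1) := by
    apply prod_le_prod (fun i _ => by positivity)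
    intro i _
    split_ifs with hi
    · rw [div_le_iff₀ (by positivity)]
      have : (1 : ℝ) ≤ 2 ^ (i + 1) := one_le_pow₀ (by norm_num)
      nlinarith [(Nat.cast_nonneg n : (0 : ℝ) ≤ n)]
    · rw [div_le_one (by positivity)]
      have h2 : n < 2 ^ (L + 1) := Nat.lt_pow_succ_log_self (by norm_num) n
      have h3 : (2 : ℕ) ^ (L + 1) ≤ 2 ^ (i + 1) := Nat.pow_le_pow_right (by norm_num) (by omega)
      exact_mod_cast (h2.le.trans h3)
  refine h1.trans ?_
  rw [← prod_filter, prod_const]
  apply pow_le_pow_right₀ (by linarith [(Nat.cast_nonneg n : (0 : ℝ) ≤ n)])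
  calc ((range r).filter (· < L)).card ≤ (range L).card := by
        apply card_le_card
        intro i hi
        rw [mem_filter] at hi
        exact mem_range.2 hi.2
    _ = L := card_range L

/-- the probability that the uniform symmetric 0/1 matrix is singular -/
noncomputable def sing (n : ℕ) : ℝ := by
  classical exact ((univ.filter fun b : Sym2 (Fin n) → Bool => (matZ b).det = 0).card : ℝ) /
    2 ^ ((n + 1).choose 2)

theorem sing_le_sum (n : ℕ) : sing n ≤ ∑ r ∈ range n, dens n (r + 1) := by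
  classical
  unfold sing dens
  rw [← sum_div]
  gcongr
  have : (univ.filter fun b : Sym2 (Fin n) → Bool => (matZ b).det = 0) ⊆
      (range n).biUnion fun r => crk n (r + 1) := by
    intro b hb
    rw [mem_filter] at hb
    have h0 := (det_matZ_eq_zero_iff b).1 hb.2
    have h1 : (matQ b).rank ≤ n := by
      have := Matrix.rank_le_width (matQ b)
      simpa using this
    have h2 : (matQ b).rank ≠ n := by
      intro hr
      have h3 : LinearMap.range (matQ b).mulVecLin = ⊤ := by
        apply Submodule.eq_top_of_finrank_eq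
        rw [Module.finrank_fintype_fun_eq_card, Fintype.card_fin]
        exact hr
      have h4 : Function.Surjective (matQ b).mulVecLin := LinearMap.range_eq_top.1 h3
      have h5 : IsUnit (matQ b) := Matrix.mulVec_surjective_iff_isUnit.1 h4
      have h6 := (Matrix.isUnit_iff_isUnit_det _).1 h5
      rw [h0] at h6
      exact not_isUnit_zero h6
    rw [mem_biUnion]
    exact ⟨n - 1 - (matQ b).rank, mem_range.2 (by omega), mem_crk.2 (by omega)⟩
  have h := (card_le_card this).trans card_biUnion_le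
  exact_mod_cast h

theorem sing_le {x C : ℝ} (hx : 1 / 2 ≤ x) (hC : 0 ≤ C) (H : ∀ m, dens m 1 ≤ C * x ^ m) (n : ℕ) :
    sing n ≤ C * x ^ n * (n * (n + 1 : ℝ) ^ Nat.log 2 n) := by
  have hx0 : 0 ≤ x := by linarith
  refine (sing_le_sum n).trans ?_
  have h1 : ∀ r ∈ range n, dens n (r + 1) ≤ C * x ^ n * (n + 1 : ℝ) ^ Nat.log 2 n := fun r _ =>
    (dens_le hx hC H r n).trans (mul_le_mul_of_nonneg_left (prod_le n r) (by positivity))
  refine (sum_le_card_nsmul _ _ _ h1).trans (le_of_eq ?_)
  rw [card_range, nsmul_eq_mul]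
  ring

/-- the subexponential loss -/
theorem loss {β : ℝ} (hβ : 1 < β) : ∃ K : ℝ, 0 < K ∧ ∀ n : ℕ,
    (n * (n + 1 : ℝ) ^ Nat.log 2 n) ≤ K * β ^ n := by
  have hlb : 0 < Real.log β := Real.log_pos hβ
  have hl2 : 0 < Real.log 2 := Real.log_pos (by norm_num)
  have hO : (fun x : ℝ => Real.log x ^ 1 + Real.log x ^ 2 * (1 / Real.log 2)) =o[Filter.atTop]
      (fun x : ℝ => x) := by
    apply Asymptotics.IsLittleO.add
    · exact Real.isLittleO_pow_log_id_atTop
    · have h := (Real.isLittleO_pow_log_id_atTop (n := 2)).const_mul_left (1 / Real.log 2)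
      refine h.congr_left fun x => by ring
  have hev := hO.bound hlb
  have hev2 : ∀ᶠ n : ℕ in Filter.atTop, ‖Real.log ((n : ℝ) + 1) ^ 1 +
      Real.log ((n : ℝ) + 1) ^ 2 * (1 / Real.log 2)‖ ≤ Real.log β * ‖(n : ℝ) + 1‖ :=
    (Filter.tendsto_atTop_add_const_right _ (1 : ℝ) tendsto_natCast_atTop_atTop).eventually hev
  obtain ⟨N, hN⟩ := Filter.eventually_atTop.1 hev2
  have key : ∀ n ≥ N, (n * (n + 1 : ℝ) ^ Nat.log 2 n) ≤ β * β ^ n := by
    intro n hn
    have h1 := hN n hn
    have hn0 : (0 : ℝ) ≤ n := Nat.cast_nonneg n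
    have hlog0 : 0 ≤ Real.log ((n : ℝ) + 1) := Real.log_nonneg (by linarith)
    rw [Real.norm_of_nonneg (by positivity), Real.norm_of_nonneg (by positivity)] at h1
    have h2 : (n : ℝ) ≤ Real.exp (Real.log ((n : ℝ) + 1)) := by
      rw [Real.exp_log (by positivity)]; linarith
    have hL : (Nat.log 2 n : ℝ) ≤ Real.log ((n : ℝ) + 1) / Real.log 2 := by
      rw [le_div_iff₀ hl2, ← Real.log_pow]
      apply Real.log_le_log (by positivity)
      rcases Nat.eq_zero_or_pos n with rfl | hpos
      · simp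
      · have : 2 ^ Nat.log 2 n ≤ n := Nat.pow_log_le_self 2 (by omega)
        have h3 : ((2 ^ Nat.log 2 n : ℕ) : ℝ) ≤ n := by exact_mod_cast this
        push_cast at h3
        linarith
    have h4 : (n + 1 : ℝ) ^ Nat.log 2 n ≤
        Real.exp (Real.log ((n : ℝ) + 1) * (Real.log ((n : ℝ) + 1) / Real.log 2)) := by
      rw [← Real.rpow_natCast, Real.rpow_def_of_pos (by positivity)]
      apply Real.exp_le_exp.2
      exact mul_le_mul_of_nonneg_left hL hlog0
    calc (n * (n + 1 : ℝ) ^ Nat.log 2 n) ≤ Real.exp (Real.log ((n : ℝ) + 1)) *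
          Real.exp (Real.log ((n : ℝ) + 1) * (Real.log ((n : ℝ) + 1) / Real.log 2)) :=
          mul_le_mul h2 h4 (by positivity) (by positivity)
      _ = Real.exp (Real.log ((n : ℝ) + 1) ^ 1 +
          Real.log ((n : ℝ) + 1) ^ 2 * (1 / Real.log 2)) := by
          rw [← Real.exp_add]; congr 1; ring
      _ ≤ Real.exp (Real.log β * ((n : ℝ) + 1)) := Real.exp_le_exp.2 h1
      _ = β * β ^ n := by
          rw [mul_add, mul_one, Real.exp_add, Real.exp_log (by linarith), mul_comm (Real.log β),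
            Real.exp_nat_mul, Real.exp_log (by linarith), mul_comm]
  refine ⟨β + ∑ n ∈ range N, (n * (n + 1 : ℝ) ^ Nat.log 2 n), ?_, ?_⟩
  · have : 0 ≤ ∑ n ∈ range N, ((n : ℝ) * (n + 1 : ℝ) ^ Nat.log 2 n) :=
      sum_nonneg fun i _ => by positivity
    linarith
  · intro n
    have hs0 : 0 ≤ ∑ n ∈ range N, ((n : ℝ) * (n + 1 : ℝ) ^ Nat.log 2 n) :=
      sum_nonneg fun i _ => by positivity
    have hb1 : 1 ≤ β ^ n := one_le_pow₀ hβ.le
    rcases lt_or_ge n N with h | h
    · have h1 : ((n : ℝ) * (n + 1 : ℝ) ^ Nat.log 2 n) ≤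
          ∑ n ∈ range N, ((n : ℝ) * (n + 1 : ℝ) ^ Nat.log 2 n) :=
        single_le_sum (f := fun n : ℕ => (n : ℝ) * (n + 1 : ℝ) ^ Nat.log 2 n)
          (fun i _ => by positivity) (mem_range.2 h)
      nlinarith
    · have := key n h
      nlinarith

/-- **reduction to corank one** -/
theorem sing_of_corank_one
    (H : ∀ ε : ℝ, 0 < ε → ∃ C : ℝ, ∀ m : ℕ, dens m 1 ≤ C * (1 / 2 + ε) ^ m) :
    ∀ ε : ℝ, 0 < ε → ∃ C : ℝ, 0 < C ∧ ∀ n : ℕ, sing n ≤ C * (1 / 2 + ε) ^ n := by
  intro ε hε
  obtain ⟨C, hC⟩ := H (ε / 2) (by positivity)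
  have hC0 : ∀ m : ℕ, dens m 1 ≤ (|C| + 1) * (1 / 2 + ε / 2) ^ m := fun m =>
    (hC m).trans (mul_le_mul_of_nonneg_right (by linarith [le_abs_self C]) (by positivity))
  have hx : (0 : ℝ) < 1 / 2 + ε / 2 := by positivity
  have hβ : 1 < (1 / 2 + ε) / (1 / 2 + ε / 2) := by
    rw [one_lt_div hx]; linarith
  obtain ⟨K, hK, hK2⟩ := loss hβ
  refine ⟨(|C| + 1) * K, by positivity, fun n => ?_⟩
  have h1 := sing_le (x := 1 / 2 + ε / 2) (C := |C| + 1) (by linarith) (by positivity) hC0 n
  refine h1.trans ?_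
  calc (|C| + 1) * (1 / 2 + ε / 2) ^ n * (n * (n + 1 : ℝ) ^ Nat.log 2 n)
      ≤ (|C| + 1) * (1 / 2 + ε / 2) ^ n * (K * ((1 / 2 + ε) / (1 / 2 + ε / 2)) ^ n) :=
        mul_le_mul_of_nonneg_left (hK2 n) (by positivity)
    _ = (|C| + 1) * K * (1 / 2 + ε) ^ n := by
        rw [div_pow]
        field_simp

end Vale.Agent.P160.Half.Cor1
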