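import Vale.Agent.P160.Half.Corank

/-! # P160, half rate, final assembly: coranks `≥ 2` reduce to corank `1`

A symmetric matrix of corank `r + 1` has an index `i` such that deleting `i` does not change the rank
(`i` outside a nonsingular principal minor of maximal size); the deleted column is then orthogonal to
the kernel of the remaining matrix. -/

open Finset Matrix

namespace Vale.Agent.P160.Half.FA

open Vale.Agent.P160.Half

/-- the rational symmetric 0/1 matrix -/
def mq {α : Type*} (b : Sym2 α → Bool) : Matrix α α ℚ := (matZ b).map (Int.cast : ℤ → ℚ)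

/-- number of bit arrays of corank `r` -/
noncomputable def nc (n r : ℕ) : ℕ := Nat.card {b : Sym2 (Fin n) → Bool // (mq b).rank + r = n}

theorem mq_apply {α : Type*} (b : Sym2 α → Bool) (i j : α) : mq b i j = if b s(i, j) then 1 else 0 := by
  show (((if b s(i, j) then 1 else 0 : ℤ)) : ℚ) = _
  split_ifs <;> simp

theorem mq_symm {α : Type*} (b : Sym2 α → Bool) (i j : α) : mq b i j = mq b j i := by
  rw [mq_apply, mq_apply, Sym2.eq_swap]

theorem det_prin_cast {α : Type*} [Fintype α] [DecidableEq α] {R : Type*} [CommRing R] (M : Matrix α α ℤ)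
    (A : Finset α) : (prin (M.map (Int.cast : ℤ → R)) A).det = (((prin M A).det : ℤ) : R) := by
  have h := (Int.castRingHom R).map_det (prin M A)
  rw [RingHom.mapMatrix_apply] at h
  exact h.symm

/-- rank modulo `p` is at most the rational rank -/
theorem rank_prin_le {α : Type*} [Fintype α] [DecidableEq α] (M : Matrix α α ℤ) (hM : ∀ i j, M i j = M j i)
    (p : ℕ) [Fact p.Prime] :
    (prin (M.map (Int.cast : ℤ → ZMod p)) univ).rank ≤ (M.map (Int.cast : ℤ → ℚ)).rank := by
  obtain ⟨A, -, hA, hdet, -⟩ := exists_base (M.map (Int.cast : ℤ → ZMod p))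
    (fun i j => by rw [Matrix.map_apply, Matrix.map_apply, hM]) univ
  rw [← hA]
  have h1 : (prin M A).det ≠ 0 := by
    intro h0
    apply hdet
    rw [det_prin_cast, h0, Int.cast_zero]
  have h2 : (prin (M.map (Int.cast : ℤ → ℚ)) A).det ≠ 0 := by
    rw [det_prin_cast]
    exact_mod_cast h1
  have h3 : (prin (M.map (Int.cast : ℤ → ℚ)) A).rank = A.card := by
    rw [Matrix.rank_of_isUnit _ ((Matrix.isUnit_iff_isUnit_det _).2 (isUnit_iff_ne_zero.2 h2)),
      Fintype.card_coe]
  rw [← h3]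
  exact Matrix.rank_submatrix_le _ _ _

/-- an index which can be deleted without changing the rank -/
theorem exists_index {n : ℕ} (M : Matrix (Fin (n + 1)) (Fin (n + 1)) ℚ) (hM : ∀ i j, M i j = M j i)
    (h : M.rank < n + 1) :
    ∃ i : Fin (n + 1), (M.submatrix i.succAbove i.succAbove).rank = M.rank := by
  obtain ⟨A, -, hA, hdet, -⟩ := exists_base M hM univ
  have h0 : (prin M univ).rank ≤ M.rank := Matrix.rank_submatrix_le _ _ _
  have h0' : M.rank ≤ (prin M univ).rank := by
    have : M = (prin M univ).submatrix (fun i => (⟨i, mem_univ i⟩ : (univ : Finset (Fin (n + 1)))))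
        (fun i => (⟨i, mem_univ i⟩ : (univ : Finset (Fin (n + 1))))) := rfl
    conv_lhs => rw [this]
    exact Matrix.rank_submatrix_le _ _ _
  have hAr : A.card = M.rank := by omega
  obtain ⟨i, hi⟩ : ∃ i, i ∉ A := by
    by_contra hcon
    push Not at hcon
    have : A = univ := eq_univ_iff_forall.2 hcon
    rw [this, card_univ, Fintype.card_fin] at hAr
    omega
  refine ⟨i, le_antisymm (Matrix.rank_submatrix_le _ _ _) ?_⟩
  have h3 : (prin M A).rank = A.card := by
    rw [Matrix.rank_of_isUnit _ ((Matrix.isUnit_iff_isUnit_det _).2 (isUnit_iff_ne_zero.2 hdet)),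
      Fintype.card_coe]
  have hpre : ∀ a : A, ∃ j : Fin n, i.succAbove j = (a : Fin (n + 1)) := fun a =>
    Fin.exists_succAbove_eq (fun h => hi (h ▸ a.2))
  choose g hg using hpre
  have h4 : prin M A = (M.submatrix i.succAbove i.succAbove).submatrix g g := by
    ext a c
    simp only [prin, Matrix.submatrix_apply, hg]
  rw [← hAr, ← h3, h4]
  exact Matrix.rank_submatrix_le _ _ _

/-- deleting a row without changing the rank does not change the kernel -/
theorem ker_eq {n : ℕ} (M : Matrix (Fin (n + 1)) (Fin (n + 1)) ℚ) (i : Fin (n + 1))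
    (h : M.rank ≤ (M.submatrix i.succAbove id).rank) (v : Fin (n + 1) → ℚ)
    (hv : (M.submatrix i.succAbove id) *ᵥ v = 0) : M *ᵥ v = 0 := by
  have hle : LinearMap.ker M.mulVecLin ≤ LinearMap.ker (M.submatrix i.succAbove id).mulVecLin := by
    intro u hu
    rw [LinearMap.mem_ker, Matrix.mulVecLin_apply] at hu ⊢
    funext j
    have := congrFun hu (i.succAbove j)
    exact this
  have e1 := LinearMap.finrank_range_add_finrank_ker M.mulVecLin
  have e2 := LinearMap.finrank_range_add_finrank_ker (M.submatrix i.succAbove id).mulVecLin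
  have e : LinearMap.ker M.mulVecLin = LinearMap.ker (M.submatrix i.succAbove id).mulVecLin := by
    apply Submodule.eq_of_le_of_finrank_le hle
    unfold Matrix.rank at h
    omega
  have : v ∈ LinearMap.ker (M.submatrix i.succAbove id).mulVecLin := by
    rw [LinearMap.mem_ker, Matrix.mulVecLin_apply]; exact hv
  rw [← e, LinearMap.mem_ker, Matrix.mulVecLin_apply] at this
  exact this

/-- the deleted column is orthogonal to the kernel of the remaining matrix -/
theorem orth {n : ℕ} (M : Matrix (Fin (n + 1)) (Fin (n + 1)) ℚ) (i : Fin (n + 1))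
    (h : (M.submatrix i.succAbove i.succAbove).rank = M.rank) (w : Fin n → ℚ)
    (hw : (M.submatrix i.succAbove i.succAbove) *ᵥ w = 0) : ∑ j, M i (i.succAbove j) * w j = 0 := by
  have h1 : M.rank ≤ (M.submatrix i.succAbove id).rank := by
    rw [← h]
    have : M.submatrix i.succAbove i.succAbove = (M.submatrix i.succAbove id).submatrix id i.succAbove := rfl
    rw [this]
    exact Matrix.rank_submatrix_le _ _ _
  have h2 : (M.submatrix i.succAbove id) *ᵥ (i.insertNth 0 w : Fin (n + 1) → ℚ) = 0 := by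
    funext j
    have := congrFun hw j
    simp only [Matrix.mulVec, dotProduct, Matrix.submatrix_apply, id_eq, Pi.zero_apply] at this ⊢
    rw [Fin.sum_univ_succAbove _ i]
    simpa using this
  have h3 := congrFun (ker_eq M i h1 _ h2) i
  simp only [Matrix.mulVec, dotProduct, Pi.zero_apply] at h3
  rw [Fin.sum_univ_succAbove _ i] at h3
  simpa using h3

/-- Odlyzko for one vector -/
theorem card_dot_le {n : ℕ} (w : Fin n → ℚ) (hw : w ≠ 0) :
    2 * Nat.card {y : Fin n → Bool // ∑ j, (if y j then (1 : ℚ) else 0) * w j = 0} ≤ 2 ^ n := by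
  classical
  obtain ⟨j0, hj0⟩ : ∃ j, w j ≠ 0 := by
    by_contra hcon
    push Not at hcon
    exact hw (funext hcon)
  rw [Nat.card_eq_fintype_card, Fintype.card_subtype]
  set Z := univ.filter fun y : Fin n → Bool => ∑ j, (if y j then (1 : ℚ) else 0) * w j = 0 with hZ
  let fl : (Fin n → Bool) → (Fin n → Bool) := fun y => Function.update y j0 (!y j0)
  have hinj : Function.Injective fl := by
    apply Function.LeftInverse.injective (g := fl)
    intro y
    funext j
    by_cases h : j = j0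
    · subst h; simp [fl]
    · simp [fl, Function.update_of_ne h]
  have hdisj : Disjoint Z (Z.image fl) := by
    rw [Finset.disjoint_left]
    intro y hy hy'
    obtain ⟨z, hz, hzy⟩ := mem_image.1 hy'
    rw [hZ, mem_filter] at hy hz
    have h1 := hy.2
    have h2 := hz.2
    rw [← hzy, ← Finset.add_sum_erase _ _ (mem_univ j0)] at h1
    rw [← Finset.add_sum_erase _ _ (mem_univ j0)] at h2
    have h3 : ∑ j ∈ univ.erase j0, (if fl z j then (1 : ℚ) else 0) * w j
        = ∑ j ∈ univ.erase j0, (if z j then (1 : ℚ) else 0) * w j := by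
      apply sum_congr rfl
      intro j hj
      simp only [fl, Function.update_of_ne (ne_of_mem_erase hj)]
    rw [h3] at h1
    have h4 : (if fl z j0 then (1 : ℚ) else 0) * w j0 = (if z j0 then (1 : ℚ) else 0) * w j0 := by linarith
    have h5 := mul_right_cancel₀ hj0 h4
    simp only [fl, Function.update_self] at h5
    cases hb : z j0 <;> simp [hb] at h5
  have h6 : (Z ∪ Z.image fl).card ≤ 2 ^ n := by
    refine (card_le_univ _).trans (le_of_eq ?_)
    simp
  rw [card_union_of_disjoint hdisj, card_image_of_injective _ hinj] at h6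
  omega

/-- restriction of a bit array -/
def res {n : ℕ} (i : Fin (n + 1)) (b : Sym2 (Fin (n + 1)) → Bool) : Sym2 (Fin n) → Bool :=
  fun z => b (z.map i.succAbove)

theorem mq_res {n : ℕ} (i : Fin (n + 1)) (b : Sym2 (Fin (n + 1)) → Bool) :
    mq (res i b) = (mq b).submatrix i.succAbove i.succAbove := by
  ext j k
  simp only [mq, matZ, res, Matrix.map_apply, Matrix.submatrix_apply, Sym2.map_mk]
  rfl

theorem exists_ker {n r : ℕ} (M : Matrix (Fin n) (Fin n) ℚ) (h : M.rank + (r + 1) = n) :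
    ∃ w : Fin n → ℚ, w ≠ 0 ∧ M *ᵥ w = 0 := by
  apply Matrix.exists_mulVec_eq_zero_iff.2
  by_contra hdet
  have := Matrix.rank_of_isUnit _ ((Matrix.isUnit_iff_isUnit_det _).2 (isUnit_iff_ne_zero.2 hdet))
  rw [Fintype.card_fin] at this
  omega

/-- the step for a fixed deleted index -/
theorem step_index {n : ℕ} (r : ℕ) (i : Fin (n + 1)) :
    Nat.card {b : Sym2 (Fin (n + 1)) → Bool // (mq b).rank + (r + 2) = n + 1 ∧
      ((mq b).submatrix i.succAbove i.succAbove).rank = (mq b).rank} ≤ 2 ^ n * nc n (r + 1) := by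
  classical
  -- the kernel vector of the restricted matrix
  have hker : ∀ b' : {b' : Sym2 (Fin n) → Bool // (mq b').rank + (r + 1) = n},
      ∃ w : Fin n → ℚ, w ≠ 0 ∧ mq b'.1 *ᵥ w = 0 := fun b' => exists_ker _ b'.2
  choose w hw0 hw using hker
  let F : {b : Sym2 (Fin (n + 1)) → Bool // (mq b).rank + (r + 2) = n + 1 ∧
      ((mq b).submatrix i.succAbove i.succAbove).rank = (mq b).rank} →
      Σ b' : {b' : Sym2 (Fin n) → Bool // (mq b').rank + (r + 1) = n},
        {y : Fin n → Bool // ∑ j, (if y j then (1 : ℚ) else 0) * w b' j = 0} × Bool := fun b =>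
    ⟨⟨res i b.1, by rw [mq_res, b.2.2]; have := b.2.1; omega⟩,
      ⟨⟨fun j => b.1 s(i, i.succAbove j), by
        have hr : (mq (res i b.1)).rank + (r + 1) = n := by rw [mq_res, b.2.2]; have := b.2.1; omega
        have h1 := orth (mq b.1) i b.2.2 (w ⟨res i b.1, hr⟩)
          (by rw [← mq_res]; exact hw ⟨res i b.1, hr⟩)
        simp only [mq_apply] at h1
        exact h1⟩, b.1 s(i, i)⟩⟩
  have hF : Function.Injective F := by
    rintro ⟨b, hb⟩ ⟨c, hc⟩ h
    have h1 : res i b = res i c := by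
      have := congrArg (fun z => z.1.1) h
      exact this
    have h2 : (fun j => b s(i, i.succAbove j)) = fun j => c s(i, i.succAbove j) := by
      have := congrArg (fun z => z.2.1.1) h
      exact this
    have h3 : b s(i, i) = c s(i, i) := by
      have := congrArg (fun z => z.2.2) h
      exact this
    apply Subtype.ext
    funext z
    induction z using Sym2.ind with
    | _ x y =>
      by_cases hx : x = i
      · subst hx
        by_cases hy : y = x
        · subst hy; exact h3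
        · obtain ⟨k, rfl⟩ := Fin.exists_succAbove_eq hy
          exact congrFun h2 k
      · obtain ⟨j, rfl⟩ := Fin.exists_succAbove_eq hx
        by_cases hy : y = i
        · subst hy
          rw [Sym2.eq_swap]
          exact congrFun h2 j
        · obtain ⟨k, rfl⟩ := Fin.exists_succAbove_eq hy
          have := congrFun h1 s(j, k)
          simpa [res] using this
  have h1 := Nat.card_le_card_of_injective F hF
  refine h1.trans ?_
  rw [Nat.card_sigma]
  have h2 : ∀ b' : {b' : Sym2 (Fin n) → Bool // (mq b').rank + (r + 1) = n},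
      Nat.card ({y : Fin n → Bool // ∑ j, (if y j then (1 : ℚ) else 0) * w b' j = 0} × Bool) ≤ 2 ^ n := by
    intro b'
    rw [Nat.card_prod]
    have := card_dot_le (w b') (hw0 b')
    have hb : Nat.card Bool = 2 := by simp
    rw [hb]; omega
  refine (sum_le_sum fun b' _ => h2 b').trans ?_
  rw [sum_const, smul_eq_mul, nc, Nat.card_eq_fintype_card, mul_comm]
  simp

/-- **the step**: corank `r + 2` in size `n + 1` against corank `r + 1` in size `n` -/
theorem step (n r : ℕ) : nc (n + 1) (r + 2) ≤ (n + 1) * 2 ^ n * nc n (r + 1) := by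
  classical
  have h1 : nc (n + 1) (r + 2) ≤ ∑ i : Fin (n + 1), Nat.card {b : Sym2 (Fin (n + 1)) → Bool //
      (mq b).rank + (r + 2) = n + 1 ∧ ((mq b).submatrix i.succAbove i.succAbove).rank = (mq b).rank} := by
    unfold nc
    rw [Nat.card_eq_fintype_card, Fintype.card_subtype]
    have : (univ.filter fun b : Sym2 (Fin (n + 1)) → Bool => (mq b).rank + (r + 2) = n + 1) ⊆
        univ.biUnion fun i : Fin (n + 1) => univ.filter fun b : Sym2 (Fin (n + 1)) → Bool =>
          (mq b).rank + (r + 2) = n + 1 ∧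
            ((mq b).submatrix i.succAbove i.succAbove).rank = (mq b).rank := by
      intro b hb
      rw [mem_filter] at hb
      obtain ⟨i, hi⟩ := exists_index (mq b) (mq_symm b) (by omega)
      rw [mem_biUnion]
      exact ⟨i, mem_univ i, mem_filter.2 ⟨mem_univ _, hb.2, hi⟩⟩
    refine (card_le_card this).trans (card_biUnion_le.trans (le_of_eq ?_))
    apply sum_congr rfl
    intro i _
    rw [Nat.card_eq_fintype_card, Fintype.card_subtype]
  refine h1.trans ((sum_le_sum fun i _ => step_index r i).trans ?_)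
  rw [sum_const, card_univ, Fintype.card_fin, smul_eq_mul, mul_assoc]

/-- density of corank `r` -/
noncomputable def dn (n r : ℕ) : ℝ := (nc n r : ℝ) / 2 ^ Fintype.card (Sym2 (Fin n))

theorem card_succ (n : ℕ) : Fintype.card (Sym2 (Fin (n + 1))) = Fintype.card (Sym2 (Fin n)) + (n + 1) := by
  rw [Sym2.card, Sym2.card, Fintype.card_fin, Fintype.card_fin, Nat.choose_succ_succ' (n + 1) 1,
    Nat.choose_one_right]
  simp only [Nat.reduceAdd]
  omega

theorem dn_nonneg (n r : ℕ) : 0 ≤ dn n r := by unfold dn; positivity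

theorem dn_step (n r : ℕ) : dn (n + 1) (r + 2) ≤ (n + 1) * dn n (r + 1) := by
  have h : ((nc (n + 1) (r + 2) : ℕ) : ℝ) ≤ (n + 1) * 2 ^ n * nc n (r + 1) := by exact_mod_cast step n r
  unfold dn
  rw [card_succ, pow_add, div_le_iff₀ (by positivity)]
  refine h.trans ?_
  have e : ((n : ℝ) + 1) * ((nc n (r + 1) : ℝ) / 2 ^ Fintype.card (Sym2 (Fin n))) *
      (2 ^ Fintype.card (Sym2 (Fin n)) * 2 ^ (n + 1)) = (n + 1) * 2 ^ (n + 1) * nc n (r + 1) := by
    field_simp
  rw [e]
  have h2 : (2 : ℝ) ^ n ≤ 2 ^ (n + 1) := pow_le_pow_right₀ (by norm_num) (by omega)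
  gcongr

theorem nc_zero (r : ℕ) : nc 0 (r + 1) = 0 := by
  unfold nc
  rw [Nat.card_eq_zero]
  left
  exact ⟨fun b => by have := b.2; omega⟩

theorem dn_iter (r : ℕ) : ∀ n : ℕ, dn n (r + 1) ≤ (n : ℝ) ^ r * dn (n - r) 1 := by
  induction r with
  | zero => intro n; simp
  | succ r ih =>
    intro n
    cases n with
    | zero =>
      have : dn 0 (r + 1 + 1) = 0 := by unfold dn; rw [nc_zero]; simp
      rw [this]
      exact mul_nonneg (by positivity) (dn_nonneg _ _)
    | succ n =>
      refine (dn_step n r).trans ?_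
      have h1 := mul_le_mul_of_nonneg_left (ih n) (show (0 : ℝ) ≤ n + 1 by positivity)
      refine h1.trans ?_
      have h2 : (n + 1) - (r + 1) = n - r := by omega
      rw [h2, Nat.cast_add, Nat.cast_one, pow_succ, ← mul_assoc]
      apply mul_le_mul_of_nonneg_right _ (dn_nonneg _ _)
      rw [mul_comm]
      apply mul_le_mul_of_nonneg_right _ (by positivity)
      exact pow_le_pow_left₀ (by positivity) (by linarith) r

/-- splitting of the singular matrices at corank `K` -/
theorem split (n K : ℕ) (hn : 1 ≤ n) (hK : 26 * n ≤ K ^ 2) :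
    (Nat.card {b : Sym2 (Fin n) → Bool // (matZ b).det = 0} : ℝ) ≤
      (∑ r ∈ range K, dn n (r + 1) + 1 / 2 ^ n) * 2 ^ Fintype.card (Sym2 (Fin n)) := by
  classical
  obtain ⟨Bad, hBad⟩ : ∃ Bad : Finset (Sym2 (Fin n) → Bool), Bad = univ.filter fun b =>
    ∃ (p : ℕ) (_ : Fact p.Prime) (T : Finset (Fin n)),
      (prin ((matZ b).map (Int.cast : ℤ → ZMod p)) T).rank + K ≤ T.card := ⟨_, rfl⟩
  have hB := card_corank_le_exp (α := Fin n) 1 K (by simpa using hn)
    (by rw [Fintype.card_fin]; exact hK)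
  rw [← hBad, Fintype.card_fin, one_mul] at hB
  have hsub : (univ.filter fun b : Sym2 (Fin n) → Bool => (matZ b).det = 0) ⊆
      ((range K).biUnion fun r => univ.filter fun b : Sym2 (Fin n) → Bool =>
        (mq b).rank + (r + 1) = n) ∪ Bad := by
    intro b hb
    rw [mem_filter] at hb
    have hdet : (mq b).det = 0 := by
      have h := (Int.castRingHom ℚ).map_det (matZ b)
      rw [RingHom.mapMatrix_apply, hb.2, map_zero] at h
      exact h.symm
    have hrank : (mq b).rank < n := by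
      by_contra hcon
      push Not at hcon
      have hle := Matrix.rank_le_card_width (mq b)
      rw [Fintype.card_fin] at hle
      have heq : (mq b).rank = Fintype.card (Fin n) := by rw [Fintype.card_fin]; omega
      obtain ⟨v, hv0, hv⟩ := Matrix.exists_mulVec_eq_zero_iff.2 hdet
      have e1 := LinearMap.finrank_range_add_finrank_ker (mq b).mulVecLin
      have e2 : Module.finrank ℚ (LinearMap.ker (mq b).mulVecLin) = 0 := by
        have : Module.finrank ℚ (LinearMap.range (mq b).mulVecLin) = n := by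
          rw [Fintype.card_fin] at heq; exact heq
        rw [this, Module.finrank_fintype_fun_eq_card, Fintype.card_fin] at e1
        omega
      have e3 := Submodule.finrank_eq_zero.1 e2
      have : v ∈ LinearMap.ker (mq b).mulVecLin := by
        rw [LinearMap.mem_ker, Matrix.mulVecLin_apply]; exact hv
      rw [e3, Submodule.mem_bot] at this
      exact hv0 this
    rw [mem_union]
    by_cases hK' : n < (mq b).rank + K + 1
    · by_cases hK2 : n = (mq b).rank + K
      · right
        rw [hBad, mem_filter]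
        refine ⟨mem_univ _, 2, ⟨Nat.prime_two⟩, univ, ?_⟩
        have : Fact (Nat.Prime 2) := ⟨Nat.prime_two⟩
        have := rank_prin_le (matZ b) (matZ_symm b) 2
        have h3 : ((matZ b).map (Int.cast : ℤ → ℚ)).rank = (mq b).rank := rfl
        rw [card_univ, Fintype.card_fin]
        omega
      · left
        rw [mem_biUnion]
        refine ⟨n - (mq b).rank - 1, mem_range.2 (by omega), mem_filter.2 ⟨mem_univ _, by omega⟩⟩
    · right
      rw [hBad, mem_filter]
      refine ⟨mem_univ _, 2, ⟨Nat.prime_two⟩, univ, ?_⟩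
      have : Fact (Nat.Prime 2) := ⟨Nat.prime_two⟩
      have := rank_prin_le (matZ b) (matZ_symm b) 2
      have h3 : ((matZ b).map (Int.cast : ℤ → ℚ)).rank = (mq b).rank := rfl
      rw [card_univ, Fintype.card_fin]
      omega
  have h1 : (univ.filter fun b : Sym2 (Fin n) → Bool => (matZ b).det = 0).card ≤
      ∑ r ∈ range K, nc n (r + 1) + Bad.card := by
    refine (card_le_card hsub).trans ((card_union_le _ _).trans ?_)
    apply Nat.add_le_add_right
    refine card_biUnion_le.trans (le_of_eq ?_)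
    apply sum_congr rfl
    intro r _
    rw [nc, Nat.card_eq_fintype_card, Fintype.card_subtype]
  rw [Nat.card_eq_fintype_card, Fintype.card_subtype]
  have h2 : (((univ.filter fun b : Sym2 (Fin n) → Bool => (matZ b).det = 0).card : ℕ) : ℝ) ≤
      ∑ r ∈ range K, (nc n (r + 1) : ℝ) + Bad.card := by exact_mod_cast h1
  refine h2.trans ?_
  rw [add_mul, sum_mul]
  apply add_le_add
  · apply le_of_eq
    apply sum_congr rfl
    intro r _
    unfold dn
    field_simp
  · have h3 : ((Bad.card : ℕ) : ℝ) * 2 ^ n ≤ 2 ^ Fintype.card (Sym2 (Fin n)) := by exact_mod_cast hB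
    rw [one_div, ← div_eq_inv_mul, le_div_iff₀ (by positivity)]
    exact h3

/-- the exponent of the loss is `o(n)` -/
theorem small_exp (δ : ℝ) (hδ : 0 < δ) : ∃ n₁ : ℕ, ∀ n ≥ n₁, 1 ≤ n ∧
    (2 * ((Nat.sqrt (26 * n) + 1 : ℕ) : ℝ) + 1) * Real.logb 2 (2 * n) ≤ δ * n := by
  have h := (isLittleO_log_rpow_atTop (show (0 : ℝ) < 1 / 2 by norm_num)).def
    (show (0 : ℝ) < δ / 60 by positivity)
  have h2 : Filter.Tendsto (fun n : ℕ => (2 : ℝ) * (n : ℝ)) Filter.atTop Filter.atTop :=
    Filter.Tendsto.const_mul_atTop (by norm_num) tendsto_natCast_atTop_atTop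
  have h3 := h2.eventually h
  obtain ⟨n₁, hn₁⟩ := Filter.eventually_atTop.1 h3
  refine ⟨max n₁ 1, fun n hn => ?_⟩
  have hn1 : 1 ≤ n := le_trans (le_max_right _ _) hn
  refine ⟨hn1, ?_⟩
  have h4 := hn₁ n (le_trans (le_max_left _ _) hn)
  have hnr : (1 : ℝ) ≤ n := by exact_mod_cast hn1
  have hlog : 0 ≤ Real.log (2 * n) := Real.log_nonneg (by linarith)
  rw [Real.norm_eq_abs, Real.norm_eq_abs, abs_of_nonneg hlog, ← Real.sqrt_eq_rpow,
    abs_of_nonneg (Real.sqrt_nonneg _)] at h4
  have hs : Real.sqrt (2 * n) = Real.sqrt 2 * Real.sqrt n := Real.sqrt_mul (by norm_num) _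
  have hs2 : Real.sqrt 2 ≤ 3 / 2 := by
    rw [Real.sqrt_le_left (by norm_num)]; norm_num
  have hsn : 1 ≤ Real.sqrt n := by rw [Real.one_le_sqrt]; exact hnr
  have hsq : Real.sqrt n * Real.sqrt n = n := Real.mul_self_sqrt (by linarith)
  have hlog2 : (1 : ℝ) / 2 ≤ Real.log 2 := by linarith [Real.log_two_gt_d9]
  have h5 : Real.logb 2 (2 * n) ≤ 2 * Real.log (2 * n) := by
    unfold Real.logb
    rw [div_le_iff₀ (by linarith)]
    nlinarith
  have h6 : ((Nat.sqrt (26 * n) : ℕ) : ℝ) ≤ 6 * Real.sqrt n := by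
    have : (Nat.sqrt (26 * n)) ^ 2 ≤ 26 * n := Nat.sqrt_le' _
    have h7 : (((Nat.sqrt (26 * n) : ℕ) : ℝ)) ^ 2 ≤ 26 * n := by exact_mod_cast this
    apply abs_le_of_sq_le_sq' _ (by positivity) |>.2
    nlinarith
  have h8 : 2 * ((Nat.sqrt (26 * n) + 1 : ℕ) : ℝ) + 1 ≤ 15 * Real.sqrt n := by
    push_cast; linarith
  have h9 : Real.logb 2 (2 * n) ≤ 2 * (δ / 60 * (3 / 2 * Real.sqrt n)) := by
    rw [hs] at h4
    have : δ / 60 * (Real.sqrt 2 * Real.sqrt n) ≤ δ / 60 * (3 / 2 * Real.sqrt n) := by gcongr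
    linarith
  calc (2 * ((Nat.sqrt (26 * n) + 1 : ℕ) : ℝ) + 1) * Real.logb 2 (2 * n)
      ≤ (15 * Real.sqrt n) * (2 * (δ / 60 * (3 / 2 * Real.sqrt n))) := by
        apply mul_le_mul h8 h9 _ (by positivity)
        apply Real.logb_nonneg (by norm_num); linarith
    _ = 3 / 4 * δ * (Real.sqrt n * Real.sqrt n) := by ring
    _ ≤ δ * n := by rw [hsq]; nlinarith

/-- corank one has density `2 ^ (-(1 - o(1)) m)` -/
def Cor1Small : Prop := ∀ ε : ℝ, 0 < ε → ∃ m₀ : ℕ, ∀ m ≥ m₀,
  (Nat.card {b : Sym2 (Fin m) → Bool // (mq b).rank + 1 = m} : ℝ) ≤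
    (2 : ℝ) ^ (-((1 - ε) * m)) * 2 ^ Fintype.card (Sym2 (Fin m))

/-- singular symmetric 0/1 matrices have density `2 ^ (-(1 - o(1)) n)` -/
def SingSmall : Prop := ∀ ε : ℝ, 0 < ε → ∃ n₀ : ℕ, ∀ n ≥ n₀,
  (Nat.card {b : Sym2 (Fin n) → Bool // (matZ b).det = 0} : ℝ) ≤
    (2 : ℝ) ^ (-((1 - ε) * n)) * 2 ^ Fintype.card (Sym2 (Fin n))

/-- **coranks `≥ 2` cost nothing** -/
theorem sing_of_cor1 (h : Cor1Small) : SingSmall := by
  intro ε hε
  obtain ⟨m₀, hm₀⟩ := h (ε / 2) (by positivity)
  obtain ⟨n₁, hn₁⟩ := small_exp (ε / 2) (by positivity)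
  obtain ⟨n₂, hn₂⟩ := small_exp 1 (by norm_num)
  refine ⟨max (max n₁ n₂) (4 * m₀ + 4), fun n hn => ?_⟩
  obtain ⟨hn1, hexp⟩ := hn₁ n (le_trans (le_trans (le_max_left _ _) (le_max_left _ _)) hn)
  obtain ⟨-, hexp2⟩ := hn₂ n (le_trans (le_trans (le_max_right _ _) (le_max_left _ _)) hn)
  have hn4 : 4 * m₀ + 4 ≤ n := le_trans (le_max_right _ _) hn
  obtain ⟨K, hK⟩ : ∃ K : ℕ, K = Nat.sqrt (26 * n) + 1 := ⟨_, rfl⟩
  rw [← hK] at hexp hexp2
  have hK2 : 26 * n ≤ K ^ 2 := by
    rw [hK]; have := Nat.lt_succ_sqrt' (26 * n); rw [Nat.succ_eq_add_one] at this; omega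
  have hnr : (1 : ℝ) ≤ n := by exact_mod_cast hn1
  -- `K ≤ n / 2`
  have hl2 : 2 ≤ Real.logb 2 (2 * n) := by
    have : (4 : ℝ) ≤ 2 * n := by
      have : (4 : ℝ) ≤ n := by exact_mod_cast (by omega : 4 ≤ n)
      linarith
    calc (2 : ℝ) = Real.logb 2 4 := by
          rw [show (4 : ℝ) = 2 ^ (2 : ℝ) by norm_num, Real.logb_rpow (by norm_num) (by norm_num)]
      _ ≤ _ := Real.logb_le_logb_of_le (by norm_num) (by norm_num) this
  have hKn : 4 * K ≤ n := by
    have h1 : (2 * (K : ℝ) + 1) * 2 ≤ (2 * (K : ℝ) + 1) * Real.logb 2 (2 * n) :=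
      mul_le_mul_of_nonneg_left hl2 (by positivity)
    have h2 : (4 : ℝ) * K ≤ n := by linarith
    exact_mod_cast h2
  have hs := split n K hn1 hK2
  refine hs.trans (mul_le_mul_of_nonneg_right ?_ (by positivity))
  -- the main term
  have hterm : ∀ r ∈ range K, dn n (r + 1) ≤ (2 * n : ℝ) ^ K * (2 : ℝ) ^ (-((1 - ε / 2) * n)) := by
    intro r hr
    have hrK : r < K := mem_range.1 hr
    have h1 := dn_iter r n
    have h2 := hm₀ (n - r) (by omega)
    have h3 : dn (n - r) 1 ≤ (2 : ℝ) ^ (-((1 - ε / 2) * ((n - r : ℕ) : ℝ))) := by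
      unfold dn
      rw [div_le_iff₀ (by positivity)]
      exact h2
    have h4 : ((n - r : ℕ) : ℝ) = n - r := by
      rw [Nat.cast_sub (by omega)]
    rw [h4] at h3
    have h5 : (2 : ℝ) ^ (-((1 - ε / 2) * ((n : ℝ) - r))) ≤ (2 : ℝ) ^ r * (2 : ℝ) ^ (-((1 - ε / 2) * n)) := by
      rw [← Real.rpow_natCast 2 r, ← Real.rpow_add (by norm_num)]
      apply Real.rpow_le_rpow_of_exponent_le (by norm_num)
      have : 0 ≤ ε / 2 * r := by positivity
      nlinarith
    calc dn n (r + 1) ≤ (n : ℝ) ^ r * dn (n - r) 1 := h1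
      _ ≤ (n : ℝ) ^ r * ((2 : ℝ) ^ r * (2 : ℝ) ^ (-((1 - ε / 2) * n))) := by
          apply mul_le_mul_of_nonneg_left (h3.trans h5) (by positivity)
      _ = (2 * n : ℝ) ^ r * (2 : ℝ) ^ (-((1 - ε / 2) * n)) := by rw [mul_pow]; ring
      _ ≤ _ := by
          apply mul_le_mul_of_nonneg_right _ (by positivity)
          exact pow_le_pow_right₀ (by linarith) hrK.le
  have hsum : ∑ r ∈ range K, dn n (r + 1) ≤ K * ((2 * n : ℝ) ^ K * (2 : ℝ) ^ (-((1 - ε / 2) * n))) := by
    refine (sum_le_sum hterm).trans (le_of_eq ?_)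
    rw [sum_const, card_range, nsmul_eq_mul]
  have hone : (1 : ℝ) / 2 ^ n ≤ (2 : ℝ) ^ (-((1 - ε / 2) * n)) := by
    rw [one_div, ← Real.rpow_natCast 2 n, ← Real.rpow_neg (by norm_num)]
    apply Real.rpow_le_rpow_of_exponent_le (by norm_num)
    have : 0 ≤ ε / 2 * n := by positivity
    nlinarith
  have hX : (K : ℝ) * (2 * n : ℝ) ^ K + 1 ≤ (2 * n : ℝ) ^ (2 * K + 1) := by
    have hb : (1 : ℝ) ≤ (2 * n : ℝ) ^ K := one_le_pow₀ (by linarith)
    have hKle : (K : ℝ) + 1 ≤ (2 * n : ℝ) ^ (K + 1) := by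
      have h1 : (K : ℝ) + 1 ≤ 2 * n := by
        have : (4 : ℝ) * K ≤ n := by exact_mod_cast hKn
        linarith
      have h2 : (2 * n : ℝ) ^ 1 ≤ (2 * n : ℝ) ^ (K + 1) := pow_le_pow_right₀ (by linarith) (by omega)
      linarith
    calc (K : ℝ) * (2 * n : ℝ) ^ K + 1 ≤ ((K : ℝ) + 1) * (2 * n : ℝ) ^ K := by linarith
      _ ≤ (2 * n : ℝ) ^ (K + 1) * (2 * n : ℝ) ^ K := by gcongr
      _ = _ := by rw [← pow_add]; congr 1; omega
  have hY : (2 * n : ℝ) ^ (2 * K + 1) ≤ (2 : ℝ) ^ (ε / 2 * n) := by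
    have h1 : (2 * n : ℝ) ^ (2 * K + 1) = (2 : ℝ) ^ ((2 * (K : ℝ) + 1) * Real.logb 2 (2 * n)) := by
      rw [mul_comm (2 * (K : ℝ) + 1), Real.rpow_mul (by norm_num), Real.rpow_logb (by norm_num) (by norm_num) (by linarith)]
      rw [← Real.rpow_natCast]
      congr 1
      push_cast; ring
    rw [h1]
    exact Real.rpow_le_rpow_of_exponent_le (by norm_num) hexp
  calc ∑ r ∈ range K, dn n (r + 1) + 1 / 2 ^ n
      ≤ K * ((2 * n : ℝ) ^ K * (2 : ℝ) ^ (-((1 - ε / 2) * n))) + (2 : ℝ) ^ (-((1 - ε / 2) * n)) :=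
        add_le_add hsum hone
    _ = ((K : ℝ) * (2 * n : ℝ) ^ K + 1) * (2 : ℝ) ^ (-((1 - ε / 2) * n)) := by ring
    _ ≤ (2 : ℝ) ^ (ε / 2 * n) * (2 : ℝ) ^ (-((1 - ε / 2) * n)) :=
        mul_le_mul_of_nonneg_right (hX.trans hY) (by positivity)
    _ = (2 : ℝ) ^ (-((1 - ε) * n)) := by
        rw [← Real.rpow_add (by norm_num)]; congr 1; ring

end Vale.Agent.P160.Half.FA
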