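import Vale.Agent.P160.Half.Corank

/-! # P160, half rate: corank `r ≥ 2` reduces to corank exactly one

If a symmetric matrix has corank `r ≥ 1` then some principal submatrix of size `n - r + 1` has
corank exactly one, and the remaining `r - 1` columns are orthogonal to its kernel. -/

set_option linter.unusedSectionVars false

namespace Vale.Agent.P160.Half.CorOne

open Finset Matrix Vale.Agent.P160.Half

section lin

variable {β : Type*} [Fintype β] [DecidableEq β]

theorem ker_one (N : Matrix β β ℚ) (h : N.rank + 1 = Fintype.card β) :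
    ∃ w : β → ℚ, w ≠ 0 ∧ ∀ u, N *ᵥ u = 0 → ∃ c : ℚ, u = c • w := by
  have h1 : Module.finrank ℚ (LinearMap.range N.mulVecLin) +
      Module.finrank ℚ (LinearMap.ker N.mulVecLin) = Fintype.card β := by
    rw [LinearMap.finrank_range_add_finrank_ker, Module.finrank_fintype_fun_eq_card]
  have h2 : Module.finrank ℚ (LinearMap.ker N.mulVecLin) = 1 := by
    unfold Matrix.rank at h
    omega
  obtain ⟨v, hv0, hv⟩ := finrank_eq_one_iff'.1 h2
  refine ⟨v.1, fun h0 => hv0 (Subtype.ext h0), fun u hu => ?_⟩
  obtain ⟨c, hc⟩ := hv ⟨u, by simpa [LinearMap.mem_ker] using hu⟩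
  exact ⟨c, by simpa using (congrArg Subtype.val hc).symm⟩

theorem rank_one_of (N : Matrix β β ℚ) (u : β → ℚ) (hu : u ≠ 0) (hk : N *ᵥ u = 0) (i0 : β)
    (hinj : ∀ v : β → ℚ, N *ᵥ v = 0 → v i0 = 0 → v = 0) : N.rank + 1 = Fintype.card β := by
  have h1 : Module.finrank ℚ (LinearMap.range N.mulVecLin) +
      Module.finrank ℚ (LinearMap.ker N.mulVecLin) = Fintype.card β := by
    rw [LinearMap.finrank_range_add_finrank_ker, Module.finrank_fintype_fun_eq_card]
  have h2 : 0 < Module.finrank ℚ (LinearMap.ker N.mulVecLin) := by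
    rw [Module.finrank_pos_iff_exists_ne_zero]
    exact ⟨⟨u, by simpa [LinearMap.mem_ker] using hk⟩, fun h => hu (congrArg Subtype.val h)⟩
  have h3 : Module.finrank ℚ (LinearMap.ker N.mulVecLin) ≤ 1 := by
    have h4 : Function.Injective
        ((LinearMap.proj i0 : (β → ℚ) →ₗ[ℚ] ℚ).comp (LinearMap.ker N.mulVecLin).subtype) := by
      rw [← LinearMap.ker_eq_bot, LinearMap.ker_eq_bot']
      intro v hv
      have hv1 : N *ᵥ v.1 = 0 := by
        have := LinearMap.mem_ker.1 v.2
        rwa [Matrix.mulVecLin_apply] at this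
      exact Subtype.ext (hinj v.1 hv1 (by simpa using hv))
    simpa using LinearMap.finrank_le_finrank_of_injective h4
  unfold Matrix.rank
  omega

/-- at most half of the 0/1 vectors are orthogonal to a given non-zero vector -/
theorem half (w : β → ℚ) (hw : w ≠ 0) :
    (univ.filter fun c : β → Bool => ∑ x, w x * (if c x then 1 else 0) = 0).card * 2 ≤
      2 ^ Fintype.card β := by
  classical
  obtain ⟨i, hi⟩ := Function.ne_iff.1 hw
  set H := univ.filter fun c : β → Bool => ∑ x, w x * (if c x then (1 : ℚ) else 0) = 0 with hH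
  set f : (β → Bool) → (β → Bool) := fun c => Function.update c i (!c i) with hf
  have hinj : Function.Injective f := by
    intro c c' h
    funext x
    have h1 := congrFun h x
    have h2 := congrFun h i
    by_cases hx : x = i
    · subst hx
      simpa [hf] using h2
    · simpa [hf, hx] using h1
  have hdisj : Disjoint H (H.image f) := by
    rw [Finset.disjoint_left]
    intro c hc hc'
    obtain ⟨d, hd, rfl⟩ := mem_image.1 hc'
    have h1 := (mem_filter.1 hc).2
    have h2 := (mem_filter.1 hd).2
    rw [← Finset.add_sum_erase _ _ (mem_univ i)] at h1 h2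
    have h3 : ∑ x ∈ univ.erase i, w x * (if f d x then (1 : ℚ) else 0) =
        ∑ x ∈ univ.erase i, w x * (if d x then (1 : ℚ) else 0) := by
      refine sum_congr rfl fun x hx => ?_
      have : x ≠ i := (mem_erase.1 hx).1
      simp [hf, this]
    rw [h3] at h1
    have h4 : w i * (if f d i then (1 : ℚ) else 0) = w i * (if d i then (1 : ℚ) else 0) := by
      linarith
    have hi' : w i ≠ 0 := by simpa using hi
    have h5 := mul_left_cancel₀ hi' h4
    simp only [hf, Function.update_self] at h5
    cases hdi : d i <;> simp [hdi] at h5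
  have h6 : (H ∪ H.image f).card ≤ 2 ^ Fintype.card β := by
    refine (card_le_univ _).trans ?_
    rw [Fintype.card_fun, Fintype.card_bool]
  rw [card_union_of_disjoint hdisj, card_image_of_injective _ hinj] at h6
  omega

end lin

section cnt

variable {α : Type*} [Fintype α] [DecidableEq α]

/-- the 0/1 matrix over the rationals -/
def matQ (b : Sym2 α → Bool) : Matrix α α ℚ := (matZ b).map (Int.cast : ℤ → ℚ)

theorem matQ_apply (b : Sym2 α → Bool) (i j : α) : matQ b i j = if b s(i, j) then 1 else 0 := by
  change ((matZ b i j : ℤ) : ℚ) = _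
  unfold matZ
  split_ifs <;> simp

theorem matQ_symm (b : Sym2 α → Bool) (i j : α) : matQ b i j = matQ b j i := by
  rw [matQ_apply, matQ_apply, Sym2.eq_swap]

/-- restriction of the bits to `J` -/
def res (J : Finset α) (b : Sym2 α → Bool) : Sym2 J → Bool := fun e => b (e.map Subtype.val)

theorem matQ_res (J : Finset α) (b : Sym2 α → Bool) (x y : J) :
    matQ (res J b) x y = matQ b x y := by
  rw [matQ_apply, matQ_apply]
  rfl

/-- number of bit arrays whose matrix has corank exactly one -/
noncomputable def N1 (β : Type*) [Fintype β] [DecidableEq β] : ℕ :=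
  (univ.filter fun b : Sym2 β → Bool => (matQ b).rank + 1 = Fintype.card β).card

theorem N1_congr {β γ : Type*} [Fintype β] [DecidableEq β] [Fintype γ] [DecidableEq γ]
    (e : β ≃ γ) : N1 β = N1 γ := by
  unfold N1
  refine Finset.card_bij (fun b _ => fun z => b (z.map e.symm)) ?_ ?_ ?_
  · intro b hb
    refine mem_filter.2 ⟨mem_univ _, ?_⟩
    have h1 : matQ (fun z : Sym2 γ => b (z.map e.symm)) = (matQ b).submatrix e.symm e.symm := by
      ext i j
      rw [submatrix_apply, matQ_apply, matQ_apply]
      rfl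
    rw [h1, rank_submatrix, ← Fintype.card_congr e]
    exact (mem_filter.1 hb).2
  · intro b _ b' _ h
    funext z
    have := congrFun h (z.map e)
    simpa [Sym2.map_map] using this
  · intro b hb
    refine ⟨fun z => b (z.map e), mem_filter.2 ⟨mem_univ _, ?_⟩, ?_⟩
    · have h1 : matQ (fun z : Sym2 β => b (z.map e)) = (matQ b).submatrix e e := by
        ext i j
        rw [submatrix_apply, matQ_apply, matQ_apply]
        rfl
      rw [h1, rank_submatrix, Fintype.card_congr e]
      exact (mem_filter.1 hb).2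
    · funext z
      simp [Sym2.map_map]

/-- the event for `J` -/
def EvJ (J : Finset α) (b : Sym2 α → Bool) : Prop :=
  (matQ (res J b)).rank + 1 = Fintype.card J ∧
    ∃ u : J → ℚ, u ≠ 0 ∧ (matQ (res J b)) *ᵥ u = 0 ∧
      ∀ k, k ∉ J → ∑ x : J, u x * matQ b x k = 0

theorem exists_J (b : Sym2 α → Bool) (r : ℕ) (hr : 1 ≤ r)
    (h : (matQ b).rank + r = Fintype.card α) :
    ∃ J : Finset α, J.card + r = Fintype.card α + 1 ∧ EvJ J b := by
  classical
  obtain ⟨A, -, hAc, hdet, hA⟩ := exists_base (matQ b) (matQ_symm b) univ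
  have hrk : (prin (matQ b) univ).rank = (matQ b).rank := by
    unfold prin
    exact rank_submatrix (matQ b) (Equiv.subtypeUnivEquiv (fun x => mem_univ x))
      (Equiv.subtypeUnivEquiv (fun x => mem_univ x))
  rw [hrk] at hAc
  have hlt : A.card < Fintype.card α := by omega
  obtain ⟨i0, hi0⟩ : ∃ i0, i0 ∉ A := by
    by_contra hcon
    push Not at hcon
    have : A = univ := eq_univ_iff_forall.2 hcon
    rw [this, card_univ] at hlt
    exact lt_irrefl _ hlt
  set J := insert i0 A with hJ
  have hJc : J.card = A.card + 1 := card_insert_of_notMem hi0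
  -- the vector
  set g : A → ℚ := (fun a : A => matQ b i0 a) ᵥ* (prin (matQ b) A).adjugate with hg
  set u' : α → ℚ := fun x => if x = i0 then (prin (matQ b) A).det else
    if hx : x ∈ A then - g ⟨x, hx⟩ else 0 with hu'
  have hu'0 : u' i0 = (prin (matQ b) A).det := by simp [hu']
  have hu'A : ∀ a : A, u' a = - g a := by
    intro a
    have hne : (a : α) ≠ i0 := fun h => hi0 (h ▸ a.2)
    simp [hu', hne]
  have hsum : ∀ k, ∑ x ∈ J, u' x * matQ b x k = 0 := by
    intro k
    rw [hJ, sum_insert hi0, hu'0, hA i0 (mem_univ _) k (mem_univ _), ← sum_coe_sort A]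
    unfold schur
    rw [dotProduct_mulVec]
    have : ∑ a : A, u' a * matQ b a k = - ((fun a : A => matQ b i0 a) ᵥ* (prin (matQ b) A).adjugate
        ⬝ᵥ fun a : A => matQ b a k) := by
      rw [dotProduct, ← Finset.sum_neg_distrib]
      refine sum_congr rfl fun a _ => ?_
      rw [hu'A, neg_mul]
    rw [this, add_neg_cancel]
  have hi0J : i0 ∈ J := mem_insert_self _ _
  have hJsum : ∀ F : α → ℚ, ∑ x ∈ J, F x = F i0 + ∑ x ∈ A, F x := by
    intro F
    rw [hJ, sum_insert hi0]
  set u : J → ℚ := fun x => u' x with hu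
  have hu0 : u ≠ 0 := by
    intro h0
    have := congrFun h0 ⟨i0, hi0J⟩
    rw [hu] at this
    simp only [Pi.zero_apply] at this
    rw [hu'0] at this
    exact hdet this
  have hker : (matQ (res J b)) *ᵥ u = 0 := by
    funext y
    rw [Pi.zero_apply, mulVec, dotProduct]
    have := hsum y
    rw [← sum_coe_sort J] at this
    rw [← this]
    refine sum_congr rfl fun x _ => ?_
    rw [matQ_res, matQ_symm, mul_comm]
  have hrank : (matQ (res J b)).rank + 1 = Fintype.card J := by
    refine rank_one_of _ u hu0 hker ⟨i0, hi0J⟩ fun v hv hv0 => ?_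
    have hz : ∀ a : A, v ⟨a, mem_insert_of_mem a.2⟩ = 0 := by
      have h1 : (prin (matQ b) A) *ᵥ (fun a : A => v ⟨a, mem_insert_of_mem a.2⟩) = 0 := by
        funext a
        have h2 := congrFun hv ⟨a, mem_insert_of_mem a.2⟩
        rw [mulVec, dotProduct, Pi.zero_apply] at h2
        rw [mulVec, dotProduct, Pi.zero_apply, ← h2]
        have h3 : ∑ x : J, matQ (res J b) ⟨a, mem_insert_of_mem a.2⟩ x * v x =
            ∑ x ∈ J, matQ b a x * (if hx : x ∈ J then v ⟨x, hx⟩ else 0) := by
          rw [← sum_coe_sort J]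
          refine sum_congr rfl fun x _ => ?_
          rw [matQ_res, dif_pos x.2]
        rw [h3, hJsum, dif_pos hi0J]
        have h4 : v ⟨i0, hi0J⟩ = 0 := hv0
        rw [h4, mul_zero, zero_add, ← sum_coe_sort A]
        refine sum_congr rfl fun x _ => ?_
        rw [dif_pos (mem_insert_of_mem x.2)]
        rfl
      have h5 := Matrix.eq_zero_of_mulVec_eq_zero hdet h1
      exact fun a => congrFun h5 a
    funext x
    rcases mem_insert.1 x.2 with hx | hx
    · have : x = ⟨i0, hi0J⟩ := Subtype.ext hx
      rw [this]; exact hv0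
    · exact hz ⟨x, hx⟩
  refine ⟨J, by omega, hrank, u, hu0, hker, fun k _ => ?_⟩
  have := hsum k
  rw [← sum_coe_sort J] at this
  exact this

open Classical in
/-- chosen kernel vector -/
noncomputable def wv {β : Type*} [Fintype β] [DecidableEq β] (b : Sym2 β → Bool) : β → ℚ :=
  if h : (matQ b).rank + 1 = Fintype.card β then (ker_one (matQ b) h).choose else 0

theorem card_EvJ (J : Finset α) [DecidablePred (EvJ J)] :
    (univ.filter (EvJ J)).card * 2 ^ (Fintype.card α - J.card) ≤
      N1 J * (2 ^ J.card) ^ (Fintype.card α - J.card) *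
        2 ^ Fintype.card (Sym2 {x // x ∉ J}) := by
  classical
  set H : (J → ℚ) → Finset (J → Bool) := fun w =>
    univ.filter fun c : J → Bool => ∑ x, w x * (if c x then (1 : ℚ) else 0) = 0 with hH
  set S : Finset (Σ _ : Sym2 J → Bool, ({x // x ∉ J} → J → Bool) × (Sym2 {x // x ∉ J} → Bool)) :=
    (univ.filter fun b : Sym2 J → Bool => (matQ b).rank + 1 = Fintype.card J).sigma
      fun b => (Fintype.piFinset fun _ : {x // x ∉ J} => H (wv b)) ×ˢ univ with hS
  have hle : (univ.filter (EvJ J)).card ≤ S.card := by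
    refine card_le_card_of_injOn
      (fun b => ⟨res J b, (fun k x => b s((x : α), (k : α)), fun e => b (e.map Subtype.val))⟩) ?_ ?_
    · intro b hb
      have hb' := (mem_filter.1 (mem_coe.1 hb)).2
      obtain ⟨hrk, u, hu0, hku, huk⟩ := hb'
      refine mem_coe.2 (mem_sigma.2 ⟨mem_filter.2 ⟨mem_univ _, hrk⟩, mem_product.2 ⟨?_, mem_univ _⟩⟩)
      refine Fintype.mem_piFinset.2 fun k => mem_filter.2 ⟨mem_univ _, ?_⟩
      have hw : wv (res J b) = (ker_one (matQ (res J b)) hrk).choose := by
        unfold wv
        rw [dif_pos hrk]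
      obtain ⟨hw0, hwk⟩ := (ker_one (matQ (res J b)) hrk).choose_spec
      rw [← hw] at hw0 hwk
      obtain ⟨c, hc⟩ := hwk u hku
      have hc0 : c ≠ 0 := by
        intro h0
        rw [h0, zero_smul] at hc
        exact hu0 hc
      have h1 := huk k k.2
      rw [hc] at h1
      have h2 : ∑ x : J, (c • wv (res J b)) x * matQ b x k =
          c * ∑ x : J, wv (res J b) x * (if b s((x : α), (k : α)) then (1 : ℚ) else 0) := by
        rw [mul_sum]
        refine sum_congr rfl fun x _ => ?_
        rw [Pi.smul_apply, smul_eq_mul, matQ_apply, mul_assoc]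
      rw [h2] at h1
      exact (mul_eq_zero.1 h1).resolve_left hc0
    · intro b _ b' _ h
      simp only [Sigma.mk.injEq, heq_eq_eq, Prod.mk.injEq] at h
      obtain ⟨h1, h2, h3⟩ := h
      funext e
      induction e using Sym2.ind with
      | _ i j =>
        by_cases hi : i ∈ J
        · by_cases hj : j ∈ J
          · exact congrFun h1 s(⟨i, hi⟩, ⟨j, hj⟩)
          · exact congrFun (congrFun h2 ⟨j, hj⟩) ⟨i, hi⟩
        · by_cases hj : j ∈ J
          · have := congrFun (congrFun h2 ⟨i, hi⟩) ⟨j, hj⟩
            rw [Sym2.eq_swap]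
            exact this
          · exact congrFun h3 s(⟨i, hi⟩, ⟨j, hj⟩)
  have hcJ : Fintype.card {x // x ∉ J} = Fintype.card α - J.card := by
    rw [Fintype.card_subtype_compl]
    simp
  have hHc : ∀ b : Sym2 J → Bool, (matQ b).rank + 1 = Fintype.card J →
      (H (wv b)).card * 2 ≤ 2 ^ J.card := by
    intro b hb
    have hw0 : wv b ≠ 0 := by
      unfold wv
      rw [dif_pos hb]
      exact (ker_one (matQ b) hb).choose_spec.1
    have := half (wv b) hw0
    rw [Fintype.card_coe] at this
    exact this
  calc (univ.filter (EvJ J)).card * 2 ^ (Fintype.card α - J.card)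
      ≤ S.card * 2 ^ (Fintype.card α - J.card) := Nat.mul_le_mul_right _ hle
    _ = ∑ b ∈ univ.filter (fun b : Sym2 J → Bool => (matQ b).rank + 1 = Fintype.card J),
          ((H (wv b)).card * 2) ^ (Fintype.card α - J.card) *
            2 ^ Fintype.card (Sym2 {x // x ∉ J}) := by
        rw [hS, card_sigma, sum_mul]
        refine sum_congr rfl fun b _ => ?_
        rw [card_product, Fintype.card_piFinset, prod_const, card_univ, card_univ, hcJ,
          Fintype.card_fun, Fintype.card_bool, mul_pow]
        ring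
    _ ≤ ∑ b ∈ univ.filter (fun b : Sym2 J → Bool => (matQ b).rank + 1 = Fintype.card J),
          (2 ^ J.card) ^ (Fintype.card α - J.card) *
            2 ^ Fintype.card (Sym2 {x // x ∉ J}) := by
        refine sum_le_sum fun b hb => Nat.mul_le_mul_right _ (Nat.pow_le_pow_left ?_ _)
        exact hHc b (mem_filter.1 hb).2
    _ = _ := by
        rw [sum_const, smul_eq_mul]
        unfold N1
        ring

theorem choose_split {n m : ℕ} (h : m ≤ n) :
    (m + 1).choose 2 + m * (n - m) + (n - m + 1).choose 2 = (n + 1).choose 2 := by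
  obtain ⟨d, rfl⟩ := Nat.exists_eq_add_of_le h
  rw [Nat.add_sub_cancel_left]
  induction d with
  | zero => simp
  | succ d ih =>
    have h1 : (d + 1 + 1).choose 2 = (d + 1).choose 2 + (d + 1) := by
      rw [Nat.choose_succ_succ' (d + 1) 1]; simp; ring
    have h2 : (m + (d + 1) + 1).choose 2 = (m + d + 1).choose 2 + (m + d + 1) := by
      rw [show m + (d + 1) + 1 = (m + d + 1) + 1 by ring, Nat.choose_succ_succ' (m + d + 1) 1]
      simp; ring
    rw [h1, h2, ← ih (by omega)]
    ring

/-- **Corank `r`.** The density of the matrices of corank `r ≥ 1` is at most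
`C(n, r-1) 2^{-(r-1)}` times the density of corank one in size `n - r + 1`. -/
theorem card_corank_eq (r : ℕ) (hr : 1 ≤ r) (hrn : r ≤ Fintype.card α)
    [DecidablePred fun b : Sym2 α → Bool => (matQ b).rank + r = Fintype.card α] :
    (univ.filter fun b : Sym2 α → Bool => (matQ b).rank + r = Fintype.card α).card *
        2 ^ (Fintype.card α - r + 2).choose 2 * 2 ^ (r - 1) ≤
      (Fintype.card α).choose (r - 1) * N1 (Fin (Fintype.card α - r + 1)) *
        2 ^ Fintype.card (Sym2 α) := by
  classical
  set n := Fintype.card α with hn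
  set m := n - r + 1 with hm
  have hsub : (univ.filter fun b : Sym2 α → Bool => (matQ b).rank + r = n) ⊆
      (powersetCard m (univ : Finset α)).biUnion fun J => univ.filter (EvJ J) := by
    intro b hb
    obtain ⟨J, hJ, hE⟩ := exists_J b r hr (mem_filter.1 hb).2
    refine mem_biUnion.2 ⟨J, mem_powersetCard.2 ⟨subset_univ _, by omega⟩, ?_⟩
    exact mem_filter.2 ⟨mem_univ _, hE⟩
  have hmn : m ≤ n := by omega
  have hnm : n - m = r - 1 := by omega
  have hJ : ∀ J ∈ powersetCard m (univ : Finset α),
      (univ.filter (EvJ J)).card * 2 ^ (n - r + 2).choose 2 * 2 ^ (r - 1) ≤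
        N1 (Fin m) * 2 ^ Fintype.card (Sym2 α) := by
    intro J hJ
    have hJc : J.card = m := (mem_powersetCard.1 hJ).2
    have h1 := card_EvJ J
    rw [← hn, hJc, hnm] at h1
    have h2 : N1 J = N1 (Fin m) := N1_congr (Fintype.equivFinOfCardEq (by simpa using hJc))
    have h3 : Fintype.card (Sym2 {x // x ∉ J}) = (r - 1 + 1).choose 2 := by
      rw [Sym2.card, Fintype.card_subtype_compl, ← hn]
      have : n - Fintype.card J = r - 1 := by
        rw [Fintype.card_coe, hJc]; omega
      rw [show Fintype.card {x // x ∈ J} = Fintype.card J from rfl, this]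
    rw [h2, h3] at h1
    have h4 : (m + 1).choose 2 + m * (n - m) + (n - m + 1).choose 2 = (n + 1).choose 2 :=
      choose_split hmn
    rw [hnm] at h4
    have h5 : n - r + 2 = m + 1 := by omega
    rw [Sym2.card, ← hn, h5, ← h4]
    calc (univ.filter (EvJ J)).card * 2 ^ (m + 1).choose 2 * 2 ^ (r - 1)
        = ((univ.filter (EvJ J)).card * 2 ^ (r - 1)) * 2 ^ (m + 1).choose 2 := by ring
      _ ≤ (N1 (Fin m) * (2 ^ m) ^ (r - 1) * 2 ^ (r - 1 + 1).choose 2) * 2 ^ (m + 1).choose 2 :=
          Nat.mul_le_mul_right _ h1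
      _ = _ := by
          rw [← pow_mul 2 m, pow_add 2 ((m + 1).choose 2 + m * (r - 1)),
            pow_add 2 ((m + 1).choose 2)]
          ring
  have hmain : (univ.filter fun b : Sym2 α → Bool => (matQ b).rank + r = n).card *
        2 ^ (n - r + 2).choose 2 * 2 ^ (r - 1) ≤
      n.choose (r - 1) * N1 (Fin m) * 2 ^ Fintype.card (Sym2 α) := by
    calc _ ≤ (∑ J ∈ powersetCard m (univ : Finset α), (univ.filter (EvJ J)).card) *
          2 ^ (n - r + 2).choose 2 * 2 ^ (r - 1) :=
          Nat.mul_le_mul_right _ (Nat.mul_le_mul_right _ ((card_le_card hsub).trans card_biUnion_le))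
      _ = ∑ J ∈ powersetCard m (univ : Finset α),
            (univ.filter (EvJ J)).card * 2 ^ (n - r + 2).choose 2 * 2 ^ (r - 1) := by
          rw [sum_mul, sum_mul]
      _ ≤ ∑ J ∈ powersetCard m (univ : Finset α), N1 (Fin m) * 2 ^ Fintype.card (Sym2 α) :=
          sum_le_sum hJ
      _ = _ := by
          have hch : n.choose m = n.choose (r - 1) := by
            rw [← Nat.choose_symm hmn, hnm]
          rw [sum_const, card_powersetCard, smul_eq_mul, card_univ, ← hn, hch, ← mul_assoc]
  convert hmain

end cnt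

end Vale.Agent.P160.Half.CorOne
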