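import Vale.Agent.P160.Half.Corank
import Vale.Agent.P160.Half.WCount

/-! # P160, rate 1/2, final assembly: corank at least two

`pc n r` is the probability that the symmetric 0/1 matrix of size `n` has rational corank `r`.
`pc_succ` : `pc (n+1) (r+1) ≤ (n+1) 2^{-r} pc n r`.  `det_of_corank_one` : an exponential bound for
corank one gives the same bound for singularity. -/

set_option linter.unusedSectionVars false

open Finset Matrix Module

namespace Vale.Agent.P160.Half.CorRec

section LA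

variable {K : Type*} [Field K] {α : Type*} [Fintype α] [DecidableEq α]

/-- the principal submatrix without the index `i` -/
def del (M : Matrix α α K) (i : α) : Matrix {j // j ≠ i} {j // j ≠ i} K :=
  M.submatrix Subtype.val Subtype.val

theorem col_eq (M : Matrix α α K) (i : α) (w : α → K) (hwi : w i ≠ 0) (hw : M *ᵥ w = 0) (k : α) :
    M k i = ∑ j : {j // j ≠ i}, M k j * (-(w j) / w i) := by
  have h := congrFun hw k
  rw [mulVec, dotProduct, Fintype.sum_eq_add_sum_subtype_ne _ i] at h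
  simp only [Pi.zero_apply] at h
  have h2 : ∑ j : {j // j ≠ i}, M k j * (-(w j) / w i) =
      -(∑ j : {j // j ≠ i}, M k j * w j) / w i := by
    rw [neg_div, Finset.sum_div, ← Finset.sum_neg_distrib]
    refine sum_congr rfl fun j _ => ?_
    ring
  rw [h2, eq_div_iff hwi]
  linear_combination h

theorem del_spec (M : Matrix α α K) (hM : ∀ i j, M i j = M j i) (i : α) (w : α → K)
    (hwi : w i ≠ 0) (hw : M *ᵥ w = 0) :
    (del M i).rank = M.rank ∧
      ∃ u : {j // j ≠ i} → K, ∀ k : {j // j ≠ i}, M k i = (del M i *ᵥ u) k := by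
  set u : {j // j ≠ i} → K := fun j => -(w j) / w i with hu
  have hc := col_eq M i w hwi hw
  refine ⟨le_antisymm ?_ ?_, u, fun k => hc k⟩
  · let C : Matrix α {j // j ≠ i} K := Matrix.of fun k j => if k = j then 1 else 0
    have h1 : del M i = (Cᵀ * M) * C := by
      ext a b
      simp only [mul_apply, transpose_apply, C, del, submatrix_apply, of_apply, ite_mul, one_mul,
        zero_mul, mul_ite, mul_one, mul_zero, Finset.sum_ite_eq', Finset.mem_univ, ↓reduceIte]
    rw [h1]
    exact (rank_mul_le_left _ _).trans (rank_mul_le_right _ _)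
  · let B : Matrix {j // j ≠ i} α K :=
      Matrix.of fun j k => if k = i then u j else if (j : α) = k then 1 else 0
    have h1 : del M i * B = M.submatrix Subtype.val id := by
      ext a l
      rw [mul_apply, submatrix_apply, id]
      by_cases hl : l = i
      · subst hl
        rw [hc a]
        refine sum_congr rfl fun j _ => ?_
        simp [B, del, hu]
      · rw [Finset.sum_eq_single (⟨l, hl⟩ : {j // j ≠ i})]
        · simp [B, del, hl]
        · intro j _ hj
          have : (j : α) ≠ l := fun h => hj (Subtype.ext h)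
          simp [B, hl, this]
        · intro h; exact absurd (Finset.mem_univ _) h
    have h2 : Bᵀ * (del M i * B) = M := by
      rw [h1]
      ext k l
      rw [mul_apply]
      by_cases hk : k = i
      · subst hk
        rw [hM k l, hc l]
        refine sum_congr rfl fun j _ => ?_
        rw [hM l j]
        simp [B, hu, mul_comm]
      · rw [Finset.sum_eq_single (⟨k, hk⟩ : {j // j ≠ i})]
        · simp [B, hk]
        · intro j _ hj
          have : (j : α) ≠ k := fun h => hj (Subtype.ext h)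
          simp [B, hk, this]
        · intro h; exact absurd (Finset.mem_univ _) h
    calc M.rank = (Bᵀ * (del M i * B)).rank := by rw [h2]
      _ ≤ (del M i * B).rank := rank_mul_le_right _ _
      _ ≤ (del M i).rank := rank_mul_le_left _ _

end LA

section count

variable {α : Type*} [Fintype α] [DecidableEq α]

/-- the rational symmetric 0/1 matrix of a bit array -/
def matR (b : Sym2 α → Bool) : Matrix α α ℚ := (matZ b).map (Int.cast : ℤ → ℚ)

theorem matR_apply (b : Sym2 α → Bool) (i j : α) : matR b i j = if b s(i, j) then 1 else 0 := by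
  show ((matZ b i j : ℤ) : ℚ) = _
  unfold matZ
  split_ifs <;> simp

theorem matR_symm (b : Sym2 α → Bool) (i j : α) : matR b i j = matR b j i := by
  rw [matR_apply, matR_apply, Sym2.eq_swap]

/-- the number of bit arrays of corank `r` -/
noncomputable def nc (α : Type*) [Fintype α] [DecidableEq α] (r : ℕ) : ℕ :=
  (univ.filter fun b : Sym2 α → Bool => (matR b).rank + r = Fintype.card α).card

theorem nc_congr {β : Type*} [Fintype β] [DecidableEq β] (e : α ≃ β) (r : ℕ) :
    nc α r = nc β r := by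
  have key : ∀ b : Sym2 α → Bool, (matR (fun z : Sym2 β => b (z.map e.symm))).rank = (matR b).rank := by
    intro b
    have h : matR (fun z : Sym2 β => b (z.map e.symm)) = (matR b).submatrix e.symm e.symm := by
      ext i j
      rw [submatrix_apply, matR_apply, matR_apply]
      rfl
    rw [h, rank_submatrix]
  unfold nc
  refine Finset.card_bij (fun b _ => fun z => b (z.map e.symm)) ?_ ?_ ?_
  · intro b hb
    rw [mem_filter] at hb ⊢
    refine ⟨mem_univ _, ?_⟩
    rw [key, ← Fintype.card_congr e]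
    exact hb.2
  · intro b _ b' _ h
    funext z
    have := congrFun h (z.map e)
    simpa [Sym2.map_map] using this
  · intro b hb
    refine ⟨fun z => b (z.map e), ?_, ?_⟩
    · rw [mem_filter] at hb ⊢
      refine ⟨mem_univ _, ?_⟩
      have h1 := key (fun z => b (z.map e))
      rw [← h1]
      have h2 : (fun z : Sym2 β => b ((z.map e.symm).map e)) = b := by
        funext z
        simp [Sym2.map_map]
      rw [h2, Fintype.card_congr e]
      exact hb.2
    · funext z
      simp [Sym2.map_map]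

/-- restriction of a bit array -/
def res (i : α) (b : Sym2 α → Bool) : Sym2 {j // j ≠ i} → Bool := fun z => b (z.map Subtype.val)

theorem matR_res (i : α) (b : Sym2 α → Bool) : matR (res i b) = del (matR b) i := by
  ext p q
  rw [matR_apply]
  unfold del res
  rw [submatrix_apply, matR_apply]
  rfl

open Classical in
theorem step_i (i : α) (r : ℕ) :
    (univ.filter fun b : Sym2 α → Bool => (matR b).rank + (r + 1) = Fintype.card α ∧
      ∃ w : α → ℚ, w i ≠ 0 ∧ matR b *ᵥ w = 0).card * 2 ^ r ≤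
      nc {j // j ≠ i} r * 2 ^ Fintype.card α := by
  classical
  set S := (univ.filter fun b : Sym2 α → Bool => (matR b).rank + (r + 1) = Fintype.card α ∧
      ∃ w : α → ℚ, w i ≠ 0 ∧ matR b *ᵥ w = 0) with hS
  set F := (univ.filter fun b : Sym2 {j // j ≠ i} → Bool =>
    (matR b).rank + r = Fintype.card {j // j ≠ i}) with hF
  have hcard : Fintype.card {j // j ≠ i} + 1 = Fintype.card α := by
    have h1 := Fintype.card_subtype_compl (fun j => j = i)
    have h2 : Fintype.card {j // j = i} = 1 := Fintype.card_unique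
    have h3 : 0 < Fintype.card α := Fintype.card_pos_iff.2 ⟨i⟩
    have h4 : Fintype.card {j // j ≠ i} = Fintype.card {j // ¬ (j = i)} := rfl
    omega
  let T : Finset (Σ _ : Sym2 {j // j ≠ i} → Bool, ({j // j ≠ i} → Bool) × Bool) :=
    F.sigma fun b' => (pts (LinearMap.range (matR b').mulVecLin) 0) ×ˢ (univ : Finset Bool)
  have hmap : S.card ≤ T.card := by
    refine Finset.card_le_card_of_injOn
      (fun b => ⟨res i b, (fun j => b s((j : α), i), b s(i, i))⟩) ?_ ?_
    · intro b hb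
      have hb' : b ∈ S := hb
      rw [hS, mem_filter] at hb'
      obtain ⟨-, hr, w, hwi, hw⟩ := hb'
      obtain ⟨h1, u, hu⟩ := del_spec (matR b) (matR_symm b) i w hwi hw
      show _ ∈ T
      rw [Finset.mem_sigma, Finset.mem_product]
      refine ⟨?_, ?_, Finset.mem_univ _⟩
      · rw [hF, mem_filter]
        refine ⟨mem_univ _, ?_⟩
        show (matR (res i b)).rank + r = _
        rw [matR_res, h1]
        omega
      · rw [mem_pts, sub_zero]
        refine ⟨u, ?_⟩
        funext k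
        show (matR (res i b) *ᵥ u) k = _
        rw [matR_res, ← hu k, matR_apply]
        rfl
    · intro b _ b' _ h
      simp only [Sigma.mk.injEq, heq_eq_eq, Prod.mk.injEq] at h
      obtain ⟨h1, h2, h3⟩ := h
      funext z
      induction z using Sym2.ind with
      | _ p q =>
        by_cases hp : p = i
        · subst hp
          by_cases hq : q = p
          · subst hq; exact h3
          · rw [Sym2.eq_swap]
            exact congrFun h2 ⟨q, hq⟩
        · by_cases hq : q = i
          · subst hq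
            exact congrFun h2 ⟨p, hp⟩
          · exact congrFun h1 s(⟨p, hp⟩, ⟨q, hq⟩)
  have hT : T.card * 2 ^ r ≤ F.card * 2 ^ Fintype.card α := by
    rw [Finset.card_sigma, Finset.sum_mul]
    calc ∑ b' ∈ F, ((pts (LinearMap.range (matR b').mulVecLin) 0) ×ˢ (univ : Finset Bool)).card * 2 ^ r
        ≤ ∑ _b' ∈ F, 2 ^ Fintype.card α := by
          refine sum_le_sum fun b' hb' => ?_
          rw [hF, mem_filter] at hb'
          rw [Finset.card_product, Finset.card_univ, Fintype.card_bool]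
          have h1 := card_pts_le (LinearMap.range (matR b').mulVecLin) 0
          have h2 : finrank ℚ (LinearMap.range (matR b').mulVecLin) = (matR b').rank := rfl
          rw [h2] at h1
          calc _ ≤ 2 ^ (matR b').rank * 2 * 2 ^ r := by gcongr
            _ = 2 ^ ((matR b').rank + r + 1) := by ring
            _ = 2 ^ Fintype.card α := by rw [hb'.2, hcard]
      _ = F.card * 2 ^ Fintype.card α := by rw [sum_const, smul_eq_mul]
  calc S.card * 2 ^ r ≤ T.card * 2 ^ r := by gcongr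
    _ ≤ _ := hT

theorem rank_lt_iff (M : Matrix α α ℚ) : M.rank < Fintype.card α ↔ M.det = 0 := by
  constructor
  · intro h
    by_contra hd
    have h1 : IsUnit M := (Matrix.isUnit_iff_isUnit_det M).2 (isUnit_iff_ne_zero.2 hd)
    rw [rank_of_isUnit M h1] at h
    exact lt_irrefl _ h
  · intro h
    obtain ⟨v, hv0, hv⟩ := Matrix.exists_mulVec_eq_zero_iff.2 h
    have h1 := LinearMap.finrank_range_add_finrank_ker M.mulVecLin
    rw [Module.finrank_fintype_fun_eq_card] at h1
    have h2 : 0 < finrank ℚ (LinearMap.ker M.mulVecLin) := by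
      rw [Module.finrank_pos_iff_exists_ne_zero]
      refine ⟨⟨v, ?_⟩, fun h0 => hv0 (congrArg Subtype.val h0)⟩
      rw [LinearMap.mem_ker, Matrix.mulVecLin_apply, hv]
    have h3 : M.rank = finrank ℚ (LinearMap.range M.mulVecLin) := rfl
    omega

theorem nc_succ (n r : ℕ) :
    nc (Fin (n + 1)) (r + 1) * 2 ^ r ≤ (n + 1) * (nc (Fin n) r * 2 ^ (n + 1)) := by
  classical
  let S : Fin (n + 1) → Finset (Sym2 (Fin (n + 1)) → Bool) := fun i =>
    univ.filter fun b => (matR b).rank + (r + 1) = Fintype.card (Fin (n + 1)) ∧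
      ∃ w : Fin (n + 1) → ℚ, w i ≠ 0 ∧ matR b *ᵥ w = 0
  have h1 : nc (Fin (n + 1)) (r + 1) ≤ ∑ i, (S i).card := by
    refine le_trans (Finset.card_le_card ?_) Finset.card_biUnion_le
    intro b hb
    rw [mem_filter] at hb
    have h2 : (matR b).rank < Fintype.card (Fin (n + 1)) := by omega
    obtain ⟨v, hv0, hv⟩ := Matrix.exists_mulVec_eq_zero_iff.2 ((rank_lt_iff _).1 h2)
    obtain ⟨i, hi⟩ : ∃ i, v i ≠ 0 := by
      by_contra h
      push Not at h
      exact hv0 (funext h)
    rw [Finset.mem_biUnion]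
    exact ⟨i, mem_univ _, mem_filter.2 ⟨mem_univ _, hb.2, v, hi, hv⟩⟩
  have h2 : ∀ i, (S i).card * 2 ^ r ≤ nc (Fin n) r * 2 ^ (n + 1) := by
    intro i
    have h3 := step_i i r
    have hc : Fintype.card {j // j ≠ i} = Fintype.card (Fin n) := by
      have h4 := Fintype.card_subtype_compl (fun j => j = i)
      have h5 : Fintype.card {j // j = i} = 1 := Fintype.card_unique
      have h6 : Fintype.card {j // j ≠ i} = Fintype.card {j // ¬ (j = i)} := rfl
      rw [h6, h4, h5, Fintype.card_fin, Fintype.card_fin]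
      rfl
    rw [nc_congr (Fintype.equivOfCardEq hc) r] at h3
    calc (S i).card * 2 ^ r ≤ nc (Fin n) r * 2 ^ Fintype.card (Fin (n + 1)) := by
          refine le_trans (le_of_eq ?_) h3
          congr 2
      _ = _ := by rw [Fintype.card_fin]
  calc nc (Fin (n + 1)) (r + 1) * 2 ^ r ≤ (∑ i, (S i).card) * 2 ^ r := by gcongr
    _ = ∑ i, (S i).card * 2 ^ r := Finset.sum_mul _ _ _
    _ ≤ ∑ _i : Fin (n + 1), nc (Fin n) r * 2 ^ (n + 1) := sum_le_sum fun i _ => h2 i
    _ = _ := by rw [sum_const, card_univ, Fintype.card_fin, smul_eq_mul]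

end count

/-- the probability of corank `r` -/
noncomputable def pc (n r : ℕ) : ℝ := (nc (Fin n) r : ℝ) / 2 ^ Fintype.card (Sym2 (Fin n))

theorem pc_nonneg (n r : ℕ) : 0 ≤ pc n r := by unfold pc; positivity

theorem card_sym2_succ (n : ℕ) :
    Fintype.card (Sym2 (Fin (n + 1))) = Fintype.card (Sym2 (Fin n)) + (n + 1) := by
  rw [Sym2.card, Sym2.card, Fintype.card_fin, Fintype.card_fin, Nat.choose_succ_succ' (n + 1) 1,
    Nat.choose_one_right, add_comm]

theorem pc_succ (n r : ℕ) : pc (n + 1) (r + 1) ≤ (n + 1) / 2 ^ r * pc n r := by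
  have h : (nc (Fin (n + 1)) (r + 1) : ℝ) * 2 ^ r ≤ (n + 1) * (nc (Fin n) r * 2 ^ (n + 1)) := by
    exact_mod_cast nc_succ n r
  unfold pc
  rw [card_sym2_succ, pow_add, div_mul_div_comm, div_le_div_iff₀ (by positivity) (by positivity)]
  have hp : (0 : ℝ) < 2 ^ Fintype.card (Sym2 (Fin n)) := by positivity
  calc (nc (Fin (n + 1)) (r + 1) : ℝ) * (2 ^ r * 2 ^ Fintype.card (Sym2 (Fin n)))
      = (nc (Fin (n + 1)) (r + 1) * 2 ^ r) * 2 ^ Fintype.card (Sym2 (Fin n)) := by ring
    _ ≤ ((n + 1) * (nc (Fin n) r * 2 ^ (n + 1))) * 2 ^ Fintype.card (Sym2 (Fin n)) := by gcongr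
    _ = _ := by ring

theorem pc_le (m r : ℕ) :
    pc (m + r) (r + 1) ≤ ((m + r : ℕ) : ℝ) ^ r / 2 ^ (r + 1).choose 2 * pc m 1 := by
  induction r with
  | zero => simp
  | succ r ih =>
    have h1 := pc_succ (m + r) (r + 1)
    have hch : (r + 1 + 1).choose 2 = (r + 1) + (r + 1).choose 2 := by
      rw [Nat.choose_succ_succ' (r + 1) 1, Nat.choose_one_right]
    have h0 := pc_nonneg m 1
    calc pc (m + (r + 1)) (r + 1 + 1) = pc (m + r + 1) (r + 1 + 1) := rfl
      _ ≤ (((m + r : ℕ) : ℝ) + 1) / 2 ^ (r + 1) * pc (m + r) (r + 1) := h1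
      _ ≤ (((m + r : ℕ) : ℝ) + 1) / 2 ^ (r + 1) *
          (((m + r : ℕ) : ℝ) ^ r / 2 ^ (r + 1).choose 2 * pc m 1) := by gcongr
      _ ≤ (((m + r : ℕ) : ℝ) + 1) / 2 ^ (r + 1) *
          ((((m + r : ℕ) : ℝ) + 1) ^ r / 2 ^ (r + 1).choose 2 * pc m 1) := by
          gcongr
          linarith
      _ = ((m + (r + 1) : ℕ) : ℝ) ^ (r + 1) / 2 ^ (r + 1 + 1).choose 2 * pc m 1 := by
          rw [hch, pow_add]
          push_cast
          field_simp
          ring

/-- singular matrices, in terms of corank one -/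
theorem sing_le (n : ℕ) :
    ((univ.filter fun b : Sym2 (Fin n) → Bool => (matZ b).det = 0).card : ℝ) /
      2 ^ Fintype.card (Sym2 (Fin n)) ≤
    ∑ r ∈ range n, (n : ℝ) ^ r / 2 ^ (r + 1).choose 2 * pc (n - r) 1 := by
  classical
  have h1 : (univ.filter fun b : Sym2 (Fin n) → Bool => (matZ b).det = 0).card ≤
      ∑ r ∈ range n, nc (Fin n) (r + 1) := by
    refine le_trans (Finset.card_le_card (t := (range n).biUnion fun r =>
      univ.filter fun b : Sym2 (Fin n) → Bool => (matR b).rank + (r + 1) = Fintype.card (Fin n)) ?_)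
      Finset.card_biUnion_le
    intro b hb
    rw [mem_filter] at hb
    have h2 : (matR b).det = 0 := by
      have h3 : (matR b).det = (((matZ b).det : ℤ) : ℚ) := by
        unfold matR
        exact ((Int.castRingHom ℚ).map_det (matZ b)).symm
      rw [h3, hb.2, Int.cast_zero]
    have h4 := (rank_lt_iff _).2 h2
    rw [Fintype.card_fin] at h4
    rw [Finset.mem_biUnion]
    refine ⟨n - 1 - (matR b).rank, mem_range.2 (by omega), mem_filter.2 ⟨mem_univ _, ?_⟩⟩
    rw [Fintype.card_fin]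
    omega
  have h2 : ((univ.filter fun b : Sym2 (Fin n) → Bool => (matZ b).det = 0).card : ℝ) ≤
      ∑ r ∈ range n, (nc (Fin n) (r + 1) : ℝ) := by exact_mod_cast h1
  calc _ ≤ (∑ r ∈ range n, (nc (Fin n) (r + 1) : ℝ)) / 2 ^ Fintype.card (Sym2 (Fin n)) := by gcongr
    _ = ∑ r ∈ range n, pc n (r + 1) := by rw [Finset.sum_div]; rfl
    _ ≤ _ := by
        refine sum_le_sum fun r hr => ?_
        have hr' := mem_range.1 hr
        have h3 := pc_le (n - r) r
        rwa [Nat.sub_add_cancel hr'.le] at h3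

theorem pow_le_sq (n : ℕ) (hn : 0 < n) (r : ℕ) :
    (n : ℝ) ^ r / 2 ^ (r + 1).choose 2 * 2 ^ r ≤
      (2 : ℝ) ^ ((1 + Real.logb 2 n) ^ 2 / 2) := by
  set L := Real.logb 2 n with hL
  have hn' : (0 : ℝ) < n := by exact_mod_cast hn
  have h1 : (n : ℝ) ^ r = (2 : ℝ) ^ (L * r) := by
    rw [Real.rpow_mul (by norm_num), hL, Real.rpow_logb (by norm_num) (by norm_num) hn',
      Real.rpow_natCast]
  have h2 : (2 : ℝ) ^ (r + 1).choose 2 = (2 : ℝ) ^ (((r : ℝ) * (r + 1)) / 2) := by
    rw [← Real.rpow_natCast]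
    congr 1
    have h3 : (r + 1).choose 2 * 2 = (r + 1) * r := by
      rw [Nat.choose_two_right]
      have h4 : Even ((r + 1) * (r + 1 - 1)) := by
        rw [Nat.add_sub_cancel, mul_comm]; exact Nat.even_mul_succ_self r
      rw [Nat.div_mul_cancel h4.two_dvd, Nat.add_sub_cancel]
    have h5 : (((r + 1).choose 2 : ℕ) : ℝ) * 2 = (r + 1) * r := by exact_mod_cast h3
    linarith
  have h3 : (2 : ℝ) ^ r = (2 : ℝ) ^ (r : ℝ) := (Real.rpow_natCast _ _).symm
  rw [h1, h2, h3, ← Real.rpow_sub (by norm_num), ← Real.rpow_add (by norm_num)]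
  apply Real.rpow_le_rpow_of_exponent_le (by norm_num)
  have hr : (0 : ℝ) ≤ r := Nat.cast_nonneg r
  nlinarith [sq_nonneg (1 + L - r)]

theorem small_eventually (C ε : ℝ) (hε : 0 < ε) : ∃ n₀ : ℕ, ∀ n ≥ n₀,
    C + Real.logb 2 n + (1 + Real.logb 2 n) ^ 2 / 2 ≤ ε * n := by
  have h1 := (Real.isLittleO_pow_log_id_atTop (n := 2)).def (c := ε * (Real.log 2) ^ 2 / 8) (by
    have := Real.log_pos (by norm_num : (1 : ℝ) < 2)
    positivity)
  have h2 := (tendsto_natCast_atTop_atTop (R := ℝ)).eventually h1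
  have h3 : ∀ᶠ n : ℕ in Filter.atTop, 2 * (|C| + 2) / ε ≤ (n : ℝ) :=
    (tendsto_natCast_atTop_atTop (R := ℝ)).eventually_ge_atTop _
  obtain ⟨n₀, h⟩ := Filter.eventually_atTop.1 (h2.and h3)
  refine ⟨n₀, fun n hn => ?_⟩
  obtain ⟨ha, hb⟩ := h n hn
  have hl2 := Real.log_pos (by norm_num : (1 : ℝ) < 2)
  have hn0 : (0 : ℝ) ≤ n := Nat.cast_nonneg n
  rw [Real.norm_eq_abs, Real.norm_eq_abs, id, abs_of_nonneg (by positivity), abs_of_nonneg hn0] at ha
  have h4 : (Real.logb 2 n) ^ 2 ≤ ε / 8 * n := by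
    unfold Real.logb
    rw [div_pow, div_le_iff₀ (by positivity)]
    calc Real.log n ^ 2 ≤ ε * Real.log 2 ^ 2 / 8 * n := ha
      _ = _ := by ring
  rw [div_le_iff₀ hε] at hb
  have h5 := le_abs_self C
  nlinarith [sq_nonneg (Real.logb 2 n - 1), sq_nonneg (Real.logb 2 n + 1)]

/-- **Corank one suffices.** -/
theorem det_of_cor_one
    (h : ∀ ε : ℝ, 0 < ε → ∃ n₀ : ℕ, ∀ n ≥ n₀,
      ((univ.filter fun b : Sym2 (Fin n) → Bool =>
        ((matZ b).map (Int.cast : ℤ → ℚ)).rank + 1 = n).card : ℝ) ≤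
        (2 : ℝ) ^ (-((1 - ε) * n)) * 2 ^ Fintype.card (Sym2 (Fin n))) :
    ∀ ε : ℝ, 0 < ε → ∃ n₀ : ℕ, ∀ n ≥ n₀,
      ((univ.filter fun b : Sym2 (Fin n) → Bool => (matZ b).det = 0).card : ℝ) ≤
        (2 : ℝ) ^ (-((1 - ε) * n)) * 2 ^ Fintype.card (Sym2 (Fin n)) := by
  have hpc : ∀ ε : ℝ, 0 < ε → ∃ n₀ : ℕ, ∀ n ≥ n₀, pc n 1 ≤ (2 : ℝ) ^ (-((1 - ε) * n)) := by
    intro ε hε
    obtain ⟨n₀, h1⟩ := h ε hε
    refine ⟨n₀, fun n hn => ?_⟩
    have h2 := h1 n hn
    unfold pc nc matR
    rw [div_le_iff₀ (by positivity), Fintype.card_fin]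
    exact h2
  intro ε hε
  rcases le_or_gt 1 ε with h1ε | h1ε
  · refine ⟨0, fun n _ => ?_⟩
    have h1 : ((univ.filter fun b : Sym2 (Fin n) → Bool => (matZ b).det = 0).card : ℝ) ≤
        2 ^ Fintype.card (Sym2 (Fin n)) := by
      have := Finset.card_filter_le (univ : Finset (Sym2 (Fin n) → Bool))
        (fun b => (matZ b).det = 0)
      rw [card_univ, Fintype.card_fun, Fintype.card_bool] at this
      exact_mod_cast this
    have h2 : (1 : ℝ) ≤ (2 : ℝ) ^ (-((1 - ε) * n)) := by
      apply Real.one_le_rpow (by norm_num)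
      have : (0 : ℝ) ≤ n := Nat.cast_nonneg n
      nlinarith
    calc _ ≤ 1 * (2 : ℝ) ^ Fintype.card (Sym2 (Fin n)) := by rw [one_mul]; exact h1
      _ ≤ _ := by gcongr
  obtain ⟨m₀, hm⟩ := hpc (ε / 2) (by positivity)
  -- a constant valid for all sizes
  have hC : ∀ m : ℕ, pc m 1 ≤ (2 : ℝ) ^ (m₀ : ℝ) * (2 : ℝ) ^ (-((1 - ε / 2) * m)) := by
    intro m
    rcases le_or_gt m₀ m with h1 | h1
    · refine (hm m h1).trans ?_
      have h2 : (1 : ℝ) ≤ (2 : ℝ) ^ (m₀ : ℝ) := Real.one_le_rpow (by norm_num) (Nat.cast_nonneg _)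
      have h3 : (0 : ℝ) ≤ (2 : ℝ) ^ (-((1 - ε / 2) * m)) := by positivity
      nlinarith
    · have h2 : pc m 1 ≤ 1 := by
        unfold pc nc
        rw [div_le_one (by positivity)]
        have := Finset.card_filter_le (univ : Finset (Sym2 (Fin m) → Bool))
          (fun b => (matR b).rank + 1 = Fintype.card (Fin m))
        rw [card_univ, Fintype.card_fun, Fintype.card_bool] at this
        exact_mod_cast this
      refine h2.trans ?_
      rw [← Real.rpow_add (by norm_num)]
      apply Real.one_le_rpow (by norm_num)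
      have h3 : (m : ℝ) ≤ m₀ := by exact_mod_cast h1.le
      have h4 : (0 : ℝ) ≤ m := Nat.cast_nonneg m
      nlinarith
  obtain ⟨n₁, hn₁⟩ := small_eventually m₀ (ε / 2) (by positivity)
  refine ⟨max n₁ 1, fun n hn => ?_⟩
  have hn1 : n₁ ≤ n := (le_max_left _ _).trans hn
  have hnpos : 0 < n := (le_max_right n₁ 1).trans hn
  have hmain := sing_le n
  rw [div_le_iff₀ (by positivity)] at hmain
  refine hmain.trans ?_
  gcongr
  have hterm : ∀ r ∈ range n, (n : ℝ) ^ r / 2 ^ (r + 1).choose 2 * pc (n - r) 1 ≤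
      (2 : ℝ) ^ (m₀ : ℝ) * (2 : ℝ) ^ (-((1 - ε / 2) * n)) *
        (2 : ℝ) ^ ((1 + Real.logb 2 n) ^ 2 / 2) := by
    intro r hr
    have hr' := (mem_range.1 hr).le
    have h1 : (2 : ℝ) ^ (-((1 - ε / 2) * ((n - r : ℕ) : ℝ))) ≤
        (2 : ℝ) ^ (-((1 - ε / 2) * n)) * 2 ^ r := by
      rw [← Real.rpow_natCast 2 r, ← Real.rpow_add (by norm_num)]
      apply Real.rpow_le_rpow_of_exponent_le (by norm_num)
      rw [Nat.cast_sub hr']
      have : (0 : ℝ) ≤ r := Nat.cast_nonneg r
      nlinarith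
    have h2 := pow_le_sq n hnpos r
    calc (n : ℝ) ^ r / 2 ^ (r + 1).choose 2 * pc (n - r) 1
        ≤ (n : ℝ) ^ r / 2 ^ (r + 1).choose 2 *
          ((2 : ℝ) ^ (m₀ : ℝ) * ((2 : ℝ) ^ (-((1 - ε / 2) * n)) * 2 ^ r)) := by
          gcongr
          exact (hC _).trans (by gcongr)
      _ = (2 : ℝ) ^ (m₀ : ℝ) * (2 : ℝ) ^ (-((1 - ε / 2) * n)) *
          ((n : ℝ) ^ r / 2 ^ (r + 1).choose 2 * 2 ^ r) := by ring
      _ ≤ _ := by gcongr
  refine (sum_le_sum hterm).trans ?_
  rw [sum_const, card_range, nsmul_eq_mul]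
  have hnr : (n : ℝ) = (2 : ℝ) ^ (Real.logb 2 n) := by
    rw [Real.rpow_logb (by norm_num) (by norm_num) (by exact_mod_cast hnpos)]
  conv_lhs => rw [show (n : ℝ) * ((2 : ℝ) ^ (m₀ : ℝ) * (2 : ℝ) ^ (-((1 - ε / 2) * n)) *
    (2 : ℝ) ^ ((1 + Real.logb 2 n) ^ 2 / 2)) = (2 : ℝ) ^ (Real.logb 2 n) *
      ((2 : ℝ) ^ (m₀ : ℝ) * (2 : ℝ) ^ (-((1 - ε / 2) * n)) *
    (2 : ℝ) ^ ((1 + Real.logb 2 n) ^ 2 / 2)) by rw [← hnr]]
  rw [← Real.rpow_add (by norm_num), ← Real.rpow_add (by norm_num), ← Real.rpow_add (by norm_num)]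
  apply Real.rpow_le_rpow_of_exponent_le (by norm_num)
  have h5 := hn₁ n hn1
  linarith

end Vale.Agent.P160.Half.CorRec
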