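import Vale.Agent.P160.Half.Corank

/-! # P160, half rate: corank `≥ 2` reduces to corank exactly one (note 11180) -/

namespace Vale.Agent.P160.Half.CorTwo

open Finset Matrix

set_option linter.unusedSectionVars false

variable {α : Type*} [Fintype α] [DecidableEq α]

/-- restriction along an injection -/
theorem card_comp {A B : Type*} [Fintype A] [Fintype B] [DecidableEq A] [DecidableEq B] (f : A → B)
    (hf : Function.Injective f) (C : Finset (A → Bool)) :
    (univ.filter fun b : B → Bool => b ∘ f ∈ C).card * 2 ^ Fintype.card A =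
      C.card * 2 ^ Fintype.card B := by
  classical
  -- fibres
  have key : ∀ c : A → Bool, (univ.filter fun b : B → Bool => b ∘ f = c).card =
      2 ^ (Fintype.card B - Fintype.card A) := by
    intro c
    let e : {b : B → Bool // b ∘ f = c} ≃ ({x : B // x ∉ Set.range f} → Bool) :=
      { toFun := fun b x => b.1 x.1
        invFun := fun g => ⟨fun x => if h : x ∈ Set.range f then c (Classical.choose h) else g ⟨x, h⟩, by
          funext a
          have h : f a ∈ Set.range f := ⟨a, rfl⟩
          simp only [Function.comp, dif_pos h]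
          exact congrArg c (hf (Classical.choose_spec h))⟩
        left_inv := by
          rintro ⟨b, rfl⟩
          apply Subtype.ext
          funext x
          by_cases h : x ∈ Set.range f
          · simp only [dif_pos h, Function.comp]
            rw [Classical.choose_spec h]
          · simp only [dif_neg h]
        right_inv := by
          intro g
          funext x
          simp only [dif_neg x.2] }
    rw [← Fintype.card_subtype, Fintype.card_congr e, Fintype.card_fun, Fintype.card_bool]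
    congr 1
    rw [Fintype.card_subtype_compl, ← Fintype.card_congr (Equiv.ofInjective f hf)]
  have hle : Fintype.card A ≤ Fintype.card B := Fintype.card_le_of_injective f hf
  have h1 : (univ.filter fun b : B → Bool => b ∘ f ∈ C).card =
      ∑ c ∈ C, (univ.filter fun b : B → Bool => b ∘ f = c).card := by
    rw [Finset.card_eq_sum_card_fiberwise (f := fun b : B → Bool => b ∘ f) (t := C)]
    · refine sum_congr rfl fun c hc => ?_
      congr 1
      ext b
      simp only [mem_filter, mem_univ, true_and]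
      exact ⟨fun h => h.2, fun h => ⟨h ▸ hc, h⟩⟩
    · intro b hb
      simpa using hb
  rw [h1, sum_congr rfl fun c _ => key c, sum_const, smul_eq_mul, mul_assoc, ← pow_add,
    Nat.sub_add_cancel hle]

/-- the inclusion of pairs -/
def inc (T : Finset α) : Sym2 T → Sym2 α := Sym2.map Subtype.val

theorem inc_inj (T : Finset α) : Function.Injective (inc T) :=
  Sym2.map.injective Subtype.val_injective

theorem prin_matZ (b : Sym2 α → Bool) (T : Finset α) : prin (matZ b) T = matZ (b ∘ inc T) := rfl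

/-- rows outside `T` orthogonal to the vector `v` -/
def Orth (T : Finset α) (v : (Sym2 T → Bool) → T → ℚ) (b : Sym2 α → Bool) : Prop :=
  ∀ i, i ∉ T → ∑ t : T, (if b s(i, t.1) then v (b ∘ inc T) t else 0) = 0

/-- flip the bits `s(i, t)`, `i ∈ U` -/
def flip (T U : Finset α) (t : T) (b : Sym2 α → Bool) : Sym2 α → Bool := fun z =>
  if ∃ i ∈ U, z = s(i, t.1) then !(b z) else b z

theorem flip_inc {T U : Finset α} (hU : Disjoint U T) (t : T) (b : Sym2 α → Bool) :
    flip T U t b ∘ inc T = b ∘ inc T := by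
  classical
  funext z
  have hn : ¬ ∃ i ∈ U, inc T z = s(i, t.1) := by
    rintro ⟨i, hi, h⟩
    have hiT : i ∉ T := disjoint_left.1 hU hi
    induction z using Sym2.ind with
    | _ x y =>
      change s(x.1, y.1) = s(i, t.1) at h
      rcases Sym2.eq_iff.1 h with ⟨h1, -⟩ | ⟨-, h1⟩
      · exact hiT (h1 ▸ x.2)
      · exact hiT (h1 ▸ y.2)
  change (if ∃ i ∈ U, inc T z = s(i, t.1) then !(b (inc T z)) else b (inc T z)) = b (inc T z)
  rw [if_neg hn]

theorem flip_flip (T U : Finset α) (t : T) (b : Sym2 α → Bool) :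
    flip T U t (flip T U t b) = b := by
  classical
  funext z
  unfold flip
  by_cases h : ∃ i ∈ U, z = s(i, t.1)
  · simp only [if_pos h, Bool.not_not]
  · simp only [if_neg h]

theorem flip_row {T U : Finset α} (t : T) (b : Sym2 α → Bool) {i : α} (hi : i ∉ T)
    (s : T) : flip T U t b s(i, s.1) = if i ∈ U ∧ s = t then !(b s(i, s.1)) else b s(i, s.1) := by
  classical
  unfold flip
  have : (∃ j ∈ U, s(i, s.1) = s(j, t.1)) ↔ (i ∈ U ∧ s = t) := by
    constructor
    · rintro ⟨j, hj, h⟩
      rcases Sym2.eq_iff.1 h with ⟨h1, h2⟩ | ⟨h1, -⟩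
      · exact ⟨h1 ▸ hj, Subtype.ext h2⟩
      · exact absurd (h1 ▸ t.2) hi
    · rintro ⟨h1, rfl⟩
      exact ⟨i, h1, rfl⟩
  simp only [this]

/-- **The rows outside `T`**: each costs a factor `1/2`. -/
theorem card_orth (T : Finset α) (C : Finset (Sym2 T → Bool)) (v : (Sym2 T → Bool) → T → ℚ)
    (hv : ∀ c ∈ C, v c ≠ 0) (S : Finset (Sym2 α → Bool))
    (hS : ∀ b ∈ S, b ∘ inc T ∈ C ∧ Orth T v b) :
    S.card * 2 ^ (Fintype.card (Sym2 T) + (univ \ T).card) ≤ C.card * 2 ^ Fintype.card (Sym2 α) := by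
  classical
  have hne : ∀ c ∈ C, ∃ t, v c t ≠ 0 := fun c hc => Function.ne_iff.1 (hv c hc)
  rcases C.eq_empty_or_nonempty with hC0 | ⟨c0, hc0⟩
  · have : S = ∅ := by
      rw [eq_empty_iff_forall_notMem]
      intro b hb
      have := (hS b hb).1
      rw [hC0] at this
      exact notMem_empty _ this
    rw [this]; simp
  have : Nonempty T := ⟨(hne c0 hc0).choose⟩
  choose! τ hτ using hne
  have h1 : S.card * 2 ^ (univ \ T).card ≤ (univ.filter fun b : Sym2 α → Bool => b ∘ inc T ∈ C).card := by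
    rw [← card_powerset, ← card_product]
    refine card_le_card_of_injOn (fun x => flip T x.2 (τ (x.1 ∘ inc T)) x.1) ?_ ?_
    · rintro ⟨b, U⟩ hx
      simp only [coe_product, Set.mem_prod, mem_coe, mem_powerset] at hx
      have hU : Disjoint U T := by
        rw [disjoint_left]; intro i hi hT
        exact (mem_sdiff.1 (hx.2 hi)).2 hT
      simp only [mem_coe, mem_filter, mem_univ, true_and]
      rw [flip_inc hU]
      exact (hS b hx.1).1
    · rintro ⟨b, U⟩ hx ⟨b', U'⟩ hx' h
      simp only [coe_product, Set.mem_prod, mem_coe, mem_powerset] at hx hx'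
      have hd : ∀ {U : Finset α}, U ⊆ univ \ T → Disjoint U T := by
        intro U hU
        rw [disjoint_left]; intro i hi hT
        exact (mem_sdiff.1 (hU hi)).2 hT
      have hU := hd hx.2
      have hU' := hd hx'.2
      simp only at h
      have hr : b ∘ inc T = b' ∘ inc T := by
        rw [← flip_inc hU (τ (b ∘ inc T)) b, h, flip_inc hU']
      -- membership in U is visible
      have hmem : ∀ (b : Sym2 α → Bool) (U : Finset α), b ∈ S → Disjoint U T → ∀ i, i ∉ T →
          (i ∈ U ↔ ∑ t : T, (if flip T U (τ (b ∘ inc T)) b s(i, t.1) then v (b ∘ inc T) t else 0) ≠ 0) := by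
        intro b U hb hU i hi
        have ho := (hS b hb).2 i hi
        have hC := (hS b hb).1
        set t0 := τ (b ∘ inc T) with ht0
        have hsum : ∑ t : T, (if flip T U t0 b s(i, t.1) then v (b ∘ inc T) t else 0) =
            ∑ t : T, (if b s(i, t.1) then v (b ∘ inc T) t else 0) +
              if i ∈ U then (if b s(i, t0.1) then - v (b ∘ inc T) t0 else v (b ∘ inc T) t0) else 0 := by
          have e1 : ∀ t : T, (if flip T U t0 b s(i, t.1) then v (b ∘ inc T) t else 0) =
              (if b s(i, t.1) then v (b ∘ inc T) t else 0) + (if t = t0 then (if i ∈ U then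
                (if b s(i, t0.1) then - v (b ∘ inc T) t0 else v (b ∘ inc T) t0) else 0) else 0) := by
            intro t
            rw [flip_row t0 b hi t]
            by_cases h1 : t = t0
            · subst h1
              by_cases h2 : i ∈ U
              · simp only [h2, and_self, if_true]
                cases b s(i, t0.1) <;> simp
              · simp [h2]
            · simp [h1]
          rw [sum_congr rfl fun t _ => e1 t, sum_add_distrib, sum_ite_eq' univ t0]
          simp
        rw [hsum, ho, zero_add]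
        have hn := hτ _ hC
        rw [← ht0] at hn
        by_cases h2 : i ∈ U
        · simp only [h2, if_true, true_iff]
          split_ifs
          · exact neg_ne_zero.2 hn
          · exact hn
        · simp [h2]
      have hUU : U = U' := by
        ext i
        by_cases hi : i ∈ T
        · exact ⟨fun h => absurd hi (disjoint_left.1 hU h), fun h => absurd hi (disjoint_left.1 hU' h)⟩
        · rw [hmem b U hx.1 hU i hi, hmem b' U' hx'.1 hU' i hi, h, hr]
      subst hUU
      have : b = b' := by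
        rw [← flip_flip T U (τ (b ∘ inc T)) b, h, hr, flip_flip]
      rw [this]
  have h2 := card_comp (inc T) (inc_inj T) C
  calc S.card * 2 ^ (Fintype.card (Sym2 T) + (univ \ T).card)
      = S.card * 2 ^ (univ \ T).card * 2 ^ Fintype.card (Sym2 T) := by rw [pow_add]; ring
    _ ≤ (univ.filter fun b : Sym2 α → Bool => b ∘ inc T ∈ C).card * 2 ^ Fintype.card (Sym2 T) :=
        Nat.mul_le_mul_right _ h1
    _ = _ := h2


/-- rational rank -/
noncomputable def rk {β : Type*} [Fintype β] [DecidableEq β] (b : Sym2 β → Bool) : ℕ :=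
  ((matZ b).map (Int.cast : ℤ → ℚ)).rank

theorem map_prin {R : Type*} (g : ℤ → R) (b : Sym2 α → Bool) (T : Finset α) :
    prin ((matZ b).map g) T = (matZ (b ∘ inc T)).map g := rfl

theorem rk_le (b : Sym2 α → Bool) : rk b ≤ Fintype.card α := Matrix.rank_le_card_width _

theorem rk_lt {b : Sym2 α → Bool} (h : (matZ b).det = 0) : rk b < Fintype.card α := by
  classical
  have h1 : ((matZ b).map (Int.cast : ℤ → ℚ)).det = 0 := by
    have : ((matZ b).map (Int.cast : ℤ → ℚ)).det = ((matZ b).det : ℚ) := by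
      rw [Int.cast_det]
    rw [this, h, Int.cast_zero]
  rcases lt_or_eq_of_le (rk_le b) with h2 | h2
  · exact h2
  exfalso
  obtain ⟨w, hw, h3⟩ := Matrix.exists_mulVec_eq_zero_iff.2 h1
  have h4 : Function.Injective ((matZ b).map (Int.cast : ℤ → ℚ)).mulVecLin := by
    rw [← LinearMap.ker_eq_bot]
    have h5 := LinearMap.finrank_range_add_finrank_ker ((matZ b).map (Int.cast : ℤ → ℚ)).mulVecLin
    rw [Module.finrank_fintype_fun_eq_card] at h5
    have h6 : Module.finrank ℚ (LinearMap.range ((matZ b).map (Int.cast : ℤ → ℚ)).mulVecLin) =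
      Fintype.card α := h2
    rw [h6] at h5
    have h7 : Module.finrank ℚ (LinearMap.ker ((matZ b).map (Int.cast : ℤ → ℚ)).mulVecLin) = 0 := by
      omega
    exact Submodule.finrank_eq_zero.1 h7
  apply hw
  apply h4
  rw [map_zero]
  exact h3

/-- **The minor of corank one.** -/
theorem exists_minor (b : Sym2 α → Bool) (h : rk b < Fintype.card α) :
    ∃ T : Finset α, T.card = rk b + 1 ∧ rk (b ∘ inc T) + 1 = T.card ∧
      ∀ w : T → ℚ, (matZ (b ∘ inc T)).map (Int.cast : ℤ → ℚ) *ᵥ w = 0 →
        ∀ i, ∑ t : T, (if b s(i, t.1) then w t else 0) = 0 := by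
  classical
  set M : Matrix α α ℚ := (matZ b).map (Int.cast : ℤ → ℚ) with hM
  have hsym : ∀ i j, M i j = M j i := fun i j => by
    simp only [hM, Matrix.map_apply, matZ_symm b i j]
  obtain ⟨A, -, hA, hdet, hrow⟩ := exists_base M hsym univ
  have hru : (prin M univ).rank = rk b := by
    have h1 : prin M univ = M.submatrix (Equiv.subtypeUnivEquiv (fun x => mem_univ x))
      (Equiv.subtypeUnivEquiv (fun x => mem_univ x)) := rfl
    rw [h1, Matrix.rank_submatrix]; rfl
  rw [hru] at hA
  have hAn : A ≠ univ := by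
    intro h1
    rw [h1, card_univ] at hA
    omega
  obtain ⟨j, hj⟩ : ∃ j, j ∉ A := by
    by_contra hcon
    push Not at hcon
    exact hAn (eq_univ_iff_forall.2 hcon)
  have hcard : (insert j A).card = rk b + 1 := by rw [card_insert_of_notMem hj, hA]
  refine ⟨insert j A, hcard, ?_, ?_⟩
  · rw [hcard]
    congr 1
    apply le_antisymm
    · exact Matrix.rank_submatrix_le M (fun a : (insert j A : Finset α) => (a : α))
        (fun a : (insert j A : Finset α) => (a : α))
    · have h1 : (prin M A).rank = A.card := by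
        rw [Matrix.rank_of_isUnit _ ((Matrix.isUnit_iff_isUnit_det _).2 (isUnit_iff_ne_zero.2 hdet))]
        simp
      rw [← hA, ← h1]
      exact Matrix.rank_submatrix_le (prin M (insert j A))
        (fun a : A => (⟨a.1, mem_insert_of_mem a.2⟩ : (insert j A : Finset α)))
        (fun a : A => (⟨a.1, mem_insert_of_mem a.2⟩ : (insert j A : Finset α)))
  · intro w hw i
    have h1 : ∀ t : (insert j A : Finset α), (prin M A).det * M i t =
        ∑ a : A, ((fun a : A => M i a) ᵥ* (prin M A).adjugate) a * M a t := by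
      intro t
      rw [hrow i (mem_univ _) t (mem_univ _), schur, Matrix.dotProduct_mulVec]
      rfl
    have h2 : (prin M A).det * ∑ t : (insert j A : Finset α), M i t * w t = 0 := by
      rw [mul_sum]
      have h3 : ∀ t : (insert j A : Finset α), (prin M A).det * (M i t * w t) =
          ∑ a : A, ((fun a : A => M i a) ᵥ* (prin M A).adjugate) a * (M a t * w t) := by
        intro t
        rw [← mul_assoc, h1 t, sum_mul]
        exact sum_congr rfl fun a _ => by ring
      rw [sum_congr rfl fun t _ => h3 t, sum_comm]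
      refine sum_eq_zero fun a _ => ?_
      rw [← mul_sum]
      have h4 := congrFun hw ⟨a.1, mem_insert_of_mem a.2⟩
      have h5 : ∑ t : (insert j A : Finset α), M a t * w t = 0 := h4
      rw [h5, mul_zero]
    have h3 : ∑ t : (insert j A : Finset α), M i t * w t = 0 := by
      rcases mul_eq_zero.1 h2 with h | h
      · exact absurd h hdet
      · exact h
    refine Eq.trans (sum_congr rfl fun t _ => ?_) h3
    simp only [hM, Matrix.map_apply, matZ]
    by_cases h4 : b s(i, t.1) <;> simp [h4]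

/-- rank modulo a prime is at most the rational rank -/
theorem rank_mod_le (p : ℕ) [Fact p.Prime] (b : Sym2 α → Bool) :
    (prin ((matZ b).map (Int.cast : ℤ → ZMod p)) univ).rank ≤ rk b := by
  classical
  set M : Matrix α α (ZMod p) := (matZ b).map (Int.cast : ℤ → ZMod p) with hM
  have hsym : ∀ i j, M i j = M j i := fun i j => by
    simp only [hM, Matrix.map_apply, matZ_symm b i j]
  obtain ⟨A, -, hA, hdet, -⟩ := exists_base M hsym univ
  rw [← hA]
  have h1 : (prin (matZ b) A).det ≠ 0 := by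
    intro h0
    apply hdet
    have : (prin M A).det = (((prin (matZ b) A).det : ℤ) : ZMod p) := by
      rw [Int.cast_det]; rfl
    rw [this, h0, Int.cast_zero]
  have h2 : (prin ((matZ b).map (Int.cast : ℤ → ℚ)) A).det ≠ 0 := by
    have : (prin ((matZ b).map (Int.cast : ℤ → ℚ)) A).det = (((prin (matZ b) A).det : ℤ) : ℚ) := by
      rw [Int.cast_det]; rfl
    rw [this]
    exact_mod_cast h1
  have h3 : (prin ((matZ b).map (Int.cast : ℤ → ℚ)) A).rank = A.card := by
    rw [Matrix.rank_of_isUnit _ ((Matrix.isUnit_iff_isUnit_det _).2 (isUnit_iff_ne_zero.2 h2))]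
    simp
  rw [← h3]
  exact Matrix.rank_submatrix_le _ _ _


/-- number of arrays of corank exactly one -/
noncomputable def N1 (β : Type*) [Fintype β] [DecidableEq β] : ℕ :=
  Nat.card {b : Sym2 β → Bool // rk b + 1 = Fintype.card β}

/-- relabelling of pairs -/
def e2 {β γ : Type*} (e : β ≃ γ) : Sym2 β ≃ Sym2 γ where
  toFun := Sym2.map e
  invFun := Sym2.map e.symm
  left_inv z := by
    induction z using Sym2.ind with
    | _ x y => simp
  right_inv z := by
    induction z using Sym2.ind with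
    | _ x y => simp

theorem N1_congr {β γ : Type*} [Fintype β] [DecidableEq β] [Fintype γ] [DecidableEq γ] (e : β ≃ γ) :
    N1 β = N1 γ := by
  refine Nat.card_congr (Equiv.subtypeEquiv ((e2 e).arrowCongr (Equiv.refl Bool)) ?_)
  intro b
  have h1 : (matZ ((e2 e).arrowCongr (Equiv.refl Bool) b)).map (Int.cast : ℤ → ℚ) =
      ((matZ b).map (Int.cast : ℤ → ℚ)).submatrix e.symm e.symm := rfl
  rw [rk, rk, h1, Matrix.rank_submatrix, Fintype.card_congr e]

/-- bit arrays as a function of the minor `T` -/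
theorem card_T (T : Finset α) (S : Finset (Sym2 α → Bool))
    (hS : ∀ b ∈ S, rk (b ∘ inc T) + 1 = T.card ∧
      ∀ w : T → ℚ, (matZ (b ∘ inc T)).map (Int.cast : ℤ → ℚ) *ᵥ w = 0 →
        ∀ i, ∑ t : T, (if b s(i, t.1) then w t else 0) = 0) :
    S.card * 2 ^ (Fintype.card (Sym2 T) + (univ \ T).card) ≤ N1 T * 2 ^ Fintype.card (Sym2 α) := by
  classical
  set C : Finset (Sym2 T → Bool) := univ.filter fun c => rk c + 1 = Fintype.card T with hC
  have hcard : C.card = N1 T := by
    rw [N1, Nat.card_eq_fintype_card, Fintype.card_subtype]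
  have hex : ∀ c : Sym2 T → Bool, ∃ v : T → ℚ, c ∈ C →
      v ≠ 0 ∧ (matZ c).map (Int.cast : ℤ → ℚ) *ᵥ v = 0 := by
    intro c
    by_cases hc : c ∈ C
    · have h1 : rk c < Fintype.card T := by
        have := (mem_filter.1 hc).2
        omega
      have h2 : ((matZ c).map (Int.cast : ℤ → ℚ)).det = 0 := by
        by_contra h3
        have := Matrix.rank_of_isUnit _ ((Matrix.isUnit_iff_isUnit_det _).2 (isUnit_iff_ne_zero.2 h3))
        rw [rk, this] at h1
        exact lt_irrefl _ h1
      obtain ⟨v, hv, h3⟩ := Matrix.exists_mulVec_eq_zero_iff.2 h2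
      exact ⟨v, fun _ => ⟨hv, h3⟩⟩
    · exact ⟨0, fun h => absurd h hc⟩
  choose v hv using hex
  rw [← hcard]
  refine card_orth T C v (fun c hc => (hv c hc).1) S fun b hb => ?_
  have h1 : b ∘ inc T ∈ C := by
    rw [hC, mem_filter]
    exact ⟨mem_univ _, by rw [Fintype.card_coe]; exact (hS b hb).1⟩
  exact ⟨h1, fun i _ => (hS b hb).2 _ (hv _ h1).2 i⟩


theorem sum_choose_le (n k : ℕ) : ∑ j ∈ range k, n.choose j ≤ (n + 1) ^ k := by
  induction k with
  | zero => simp
  | succ k ih =>
    rw [sum_range_succ]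
    have h1 : n.choose k ≤ n ^ k := Nat.choose_le_pow n k
    have h2 : n ^ k ≤ (n + 1) ^ k := Nat.pow_le_pow_left (Nat.le_succ n) k
    rcases Nat.eq_zero_or_pos n with h0 | h0
    · subst h0
      rcases Nat.eq_zero_or_pos k with h | h
      · subst h; simp
      · have : (0 : ℕ).choose k = 0 := Nat.choose_eq_zero_of_lt h
        rw [this, zero_add, one_pow] at *
        simpa using ih
    · calc _ ≤ (n + 1) ^ k + (n + 1) ^ k := by omega
        _ = (n + 1) ^ k * 2 := by ring
        _ ≤ (n + 1) ^ k * (n + 1) := Nat.mul_le_mul_left _ (by omega)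
        _ = (n + 1) ^ (k + 1) := by rw [pow_succ]

/-- **Finite form.** -/
theorem card_det (n k : ℕ) (hn : 1 ≤ n) (hk : 26 * n ≤ k ^ 2) (δ : ℝ) (hδ : 0 ≤ δ)
    (h1 : ∀ m ≤ n, n ≤ m + k → (N1 (Fin m) : ℝ) ≤
      (2 : ℝ) ^ (-((1 - δ) * m)) * 2 ^ Fintype.card (Sym2 (Fin m))) :
    (((univ : Finset (Sym2 (Fin n) → Bool)).filter fun b => (matZ b).det = 0).card : ℝ) ≤
      (((n : ℝ) + 1) ^ k * (2 : ℝ) ^ (-((1 - δ) * n)) + 2 ^ (-(n : ℝ))) *
        2 ^ Fintype.card (Sym2 (Fin n)) := by
  classical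
  set B : Finset (Sym2 (Fin n) → Bool) :=
    univ.filter fun b : Sym2 (Fin n) → Bool => ∃ (p : ℕ) (_ : Fact p.Prime) (T : Finset (Fin n)),
      (prin ((matZ b).map (Int.cast : ℤ → ZMod p)) T).rank + k ≤ T.card with hB
  have hBc : (B.card : ℝ) ≤ 2 ^ (-(n : ℝ)) * 2 ^ Fintype.card (Sym2 (Fin n)) := by
    have h := card_corank_le_exp (α := Fin n) 1 k (by simpa using hn)
      (by rw [Fintype.card_fin]; omega)
    rw [Fintype.card_fin, one_mul] at h
    have h' : (B.card : ℝ) * 2 ^ n ≤ 2 ^ Fintype.card (Sym2 (Fin n)) := by exact_mod_cast h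
    rw [Real.rpow_neg (by norm_num), Real.rpow_natCast, ← div_eq_inv_mul,
      le_div_iff₀ (by positivity)]
    exact h'
  let Sf : Finset (Fin n) → Finset (Sym2 (Fin n) → Bool) := fun T => univ.filter fun b =>
    rk (b ∘ inc T) + 1 = T.card ∧
      ∀ w : T → ℚ, (matZ (b ∘ inc T)).map (Int.cast : ℤ → ℚ) *ᵥ w = 0 →
        ∀ i, ∑ t : T, (if b s(i, t.1) then w t else 0) = 0
  have hSf : ∀ T : Finset (Fin n), n ≤ T.card + k →
      ((Sf T).card : ℝ) ≤ (2 : ℝ) ^ (-((1 - δ) * n)) * 2 ^ Fintype.card (Sym2 (Fin n)) := by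
    intro T hT
    have hTn : T.card ≤ n := by simpa using card_le_univ T
    have h2 := card_T T (Sf T) fun b hb => (mem_filter.1 hb).2
    have h3 : N1 T = N1 (Fin T.card) := N1_congr T.equivFin
    have h4 : Fintype.card (Sym2 T) = Fintype.card (Sym2 (Fin T.card)) :=
      Fintype.card_congr (e2 T.equivFin)
    have h5 := h1 T.card hTn hT
    have h6 : ((univ : Finset (Fin n)) \ T).card = n - T.card := by
      rw [card_sdiff_of_subset (subset_univ T), card_univ, Fintype.card_fin]
    rw [h3, h4, h6] at h2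
    have h7 : ((Sf T).card : ℝ) * (2 ^ Fintype.card (Sym2 (Fin T.card)) * 2 ^ (n - T.card)) ≤
        N1 (Fin T.card) * 2 ^ Fintype.card (Sym2 (Fin n)) := by
      rw [← pow_add]; exact_mod_cast h2
    have h8 : (0 : ℝ) < 2 ^ Fintype.card (Sym2 (Fin T.card)) := by positivity
    have h9 : ((Sf T).card : ℝ) * 2 ^ (n - T.card) ≤
        (2 : ℝ) ^ (-((1 - δ) * T.card)) * 2 ^ Fintype.card (Sym2 (Fin n)) := by
      have : ((Sf T).card : ℝ) * 2 ^ (n - T.card) * 2 ^ Fintype.card (Sym2 (Fin T.card)) ≤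
          (2 : ℝ) ^ (-((1 - δ) * T.card)) * 2 ^ Fintype.card (Sym2 (Fin n)) *
            2 ^ Fintype.card (Sym2 (Fin T.card)) := by
        calc _ = ((Sf T).card : ℝ) * (2 ^ Fintype.card (Sym2 (Fin T.card)) * 2 ^ (n - T.card)) := by
              ring
          _ ≤ N1 (Fin T.card) * 2 ^ Fintype.card (Sym2 (Fin n)) := h7
          _ ≤ ((2 : ℝ) ^ (-((1 - δ) * T.card)) * 2 ^ Fintype.card (Sym2 (Fin T.card))) *
              2 ^ Fintype.card (Sym2 (Fin n)) := by gcongr
          _ = _ := by ring
      exact le_of_mul_le_mul_right this h8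
    have h10 : (2 : ℝ) ^ (-((1 - δ) * T.card)) ≤ (2 : ℝ) ^ (-((1 - δ) * n)) * 2 ^ (n - T.card) := by
      rw [← Real.rpow_natCast 2 (n - T.card), ← Real.rpow_add (by norm_num)]
      apply Real.rpow_le_rpow_of_exponent_le (by norm_num)
      rw [Nat.cast_sub hTn]
      have : (T.card : ℝ) ≤ n := by exact_mod_cast hTn
      nlinarith
    have h11 : (0 : ℝ) < 2 ^ (n - T.card) := by positivity
    refine le_of_mul_le_mul_right ?_ h11
    calc _ ≤ (2 : ℝ) ^ (-((1 - δ) * T.card)) * 2 ^ Fintype.card (Sym2 (Fin n)) := h9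
      _ ≤ ((2 : ℝ) ^ (-((1 - δ) * n)) * 2 ^ (n - T.card)) * 2 ^ Fintype.card (Sym2 (Fin n)) := by
          gcongr
      _ = _ := by ring
  have hcov : ((univ : Finset (Sym2 (Fin n) → Bool)).filter fun b => (matZ b).det = 0) ⊆
      B ∪ (range k).biUnion fun j => (powersetCard j (univ : Finset (Fin n))).biUnion
        fun D => Sf (univ \ D) := by
    intro b hb
    have hb0 := (mem_filter.1 hb).2
    have hlt := rk_lt hb0
    rw [Fintype.card_fin] at hlt
    by_cases hc : rk b + k ≤ n
    · apply mem_union_left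
      rw [hB, mem_filter]
      refine ⟨mem_univ _, 2, ⟨Nat.prime_two⟩, univ, ?_⟩
      have : Fact (Nat.Prime 2) := ⟨Nat.prime_two⟩
      have h2 := rank_mod_le 2 b
      rw [card_univ, Fintype.card_fin]
      omega
    · apply mem_union_right
      obtain ⟨T, hT, h2, h3⟩ := exists_minor b (by rw [Fintype.card_fin]; exact hlt)
      rw [mem_biUnion]
      refine ⟨n - T.card, mem_range.2 (by omega), ?_⟩
      rw [mem_biUnion]
      refine ⟨univ \ T, ?_, ?_⟩
      · rw [mem_powersetCard]
        exact ⟨subset_univ _, by rw [card_sdiff_of_subset (subset_univ T), card_univ, Fintype.card_fin]⟩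
      · rw [sdiff_sdiff_right_self]
        have : (univ : Finset (Fin n)) ⊓ T = T := by simp
        rw [this]
        exact mem_filter.2 ⟨mem_univ _, h2, h3⟩
  have hcard : (((univ : Finset (Sym2 (Fin n) → Bool)).filter fun b => (matZ b).det = 0).card : ℝ) ≤
      B.card + ∑ j ∈ range k, ∑ D ∈ powersetCard j (univ : Finset (Fin n)),
        ((Sf (univ \ D)).card : ℝ) := by
    have h2 := (card_le_card hcov).trans (card_union_le _ _)
    have h3 : ((range k).biUnion fun j => (powersetCard j (univ : Finset (Fin n))).biUnion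
        fun D => Sf (univ \ D)).card ≤ ∑ j ∈ range k, ∑ D ∈ powersetCard j (univ : Finset (Fin n)),
        (Sf (univ \ D)).card := card_biUnion_le.trans (sum_le_sum fun j _ => card_biUnion_le)
    have h4 := h2.trans (Nat.add_le_add_left h3 _)
    exact_mod_cast h4
  refine hcard.trans ?_
  have hsum : ∑ j ∈ range k, ∑ D ∈ powersetCard j (univ : Finset (Fin n)),
        ((Sf (univ \ D)).card : ℝ) ≤
      ((n : ℝ) + 1) ^ k * ((2 : ℝ) ^ (-((1 - δ) * n)) * 2 ^ Fintype.card (Sym2 (Fin n))) := by
    calc _ ≤ ∑ j ∈ range k, ∑ D ∈ powersetCard j (univ : Finset (Fin n)),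
          ((2 : ℝ) ^ (-((1 - δ) * n)) * 2 ^ Fintype.card (Sym2 (Fin n))) := by
          refine sum_le_sum fun j hj => sum_le_sum fun D hD => hSf _ ?_
          rw [card_sdiff_of_subset (subset_univ D), card_univ, Fintype.card_fin,
            (mem_powersetCard.1 hD).2]
          have := mem_range.1 hj
          omega
      _ = ((∑ j ∈ range k, n.choose j : ℕ) : ℝ) *
          ((2 : ℝ) ^ (-((1 - δ) * n)) * 2 ^ Fintype.card (Sym2 (Fin n))) := by
          rw [Nat.cast_sum, sum_mul]
          refine sum_congr rfl fun j _ => ?_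
          rw [sum_const, card_powersetCard, card_univ, Fintype.card_fin, nsmul_eq_mul]
      _ ≤ _ := by
          apply mul_le_mul_of_nonneg_right _ (by positivity)
          exact_mod_cast sum_choose_le n k
  rw [add_mul]
  nlinarith [hsum, hBc]


/-- **Corank at least two is negligible**: the bound for corank exactly one gives the bound for
singular matrices. -/
theorem det_of_cor_one
    (h1 : ∀ ε : ℝ, 0 < ε → ∃ n₀ : ℕ, ∀ n ≥ n₀, (N1 (Fin n) : ℝ) ≤
      (2 : ℝ) ^ (-((1 - ε) * n)) * 2 ^ Fintype.card (Sym2 (Fin n))) :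
    ∀ ε : ℝ, 0 < ε → ∃ n₀ : ℕ, ∀ n ≥ n₀,
      (((univ : Finset (Sym2 (Fin n) → Bool)).filter fun b => (matZ b).det = 0).card : ℝ) ≤
        (2 : ℝ) ^ (-((1 - ε) * n)) * 2 ^ Fintype.card (Sym2 (Fin n)) := by
  intro ε hε
  obtain ⟨n₀, h0⟩ := h1 (ε / 2) (by positivity)
  obtain ⟨n₁, hn₁⟩ := exists_nat_ge ((166 / ε) ^ 4 + 1 / ε + 1 + 4 * n₀ + 200)
  refine ⟨n₁, fun n hn => ?_⟩
  have hnR : (166 / ε) ^ 4 + 1 / ε + 1 + 4 * n₀ + 200 ≤ (n : ℝ) := hn₁.trans (by exact_mod_cast hn)
  have hp1 : (0 : ℝ) ≤ (166 / ε) ^ 4 := by positivity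
  have hp2 : (0 : ℝ) < 1 / ε := by positivity
  have hp3 : (0 : ℝ) ≤ (n₀ : ℝ) := Nat.cast_nonneg _
  have hn1 : (1 : ℝ) ≤ n := by linarith
  have hn1' : 1 ≤ n := by exact_mod_cast hn1
  -- t = n^(1/4)
  set t : ℝ := (n : ℝ) ^ ((1 : ℝ) / 4) with ht
  have ht0 : 0 ≤ t := by positivity
  have ht4 : t ^ 4 = n := by
    rw [ht, ← Real.rpow_natCast, ← Real.rpow_mul (by positivity)]
    norm_num
  have ht1 : 1 ≤ t := Real.one_le_rpow hn1 (by norm_num)
  have htε : 166 / ε ≤ t := by
    by_contra hcon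
    push Not at hcon
    have h2 : t ^ 4 < (166 / ε) ^ 4 := pow_lt_pow_left₀ hcon ht0 (by norm_num)
    linarith
  set k : ℕ := Nat.sqrt (26 * n) + 1 with hk
  have hk2 : 26 * n ≤ k ^ 2 := by
    have := Nat.lt_succ_sqrt (26 * n)
    rw [hk, pow_two]
    exact this.le
  have hkt : (k : ℝ) ≤ 7 * t ^ 2 := by
    have h2 : ((Nat.sqrt (26 * n) : ℕ) : ℝ) ^ 2 ≤ 26 * t ^ 4 := by
      have := Nat.sqrt_le' (26 * n)
      rw [ht4]
      exact_mod_cast this
    have h3 : ((Nat.sqrt (26 * n) : ℕ) : ℝ) ≤ 6 * t ^ 2 := by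
      apply le_of_sq_le_sq _ (by positivity)
      nlinarith [sq_nonneg (t ^ 2)]
    have h4 : (1 : ℝ) ≤ t ^ 2 := by nlinarith
    rw [hk]
    push_cast
    linarith
  have hkn : n₀ + k ≤ n := by
    have h2 : (n₀ : ℝ) + k ≤ n := by
      -- 7 t^2 ≤ n - n₀
      have h3 : (200 : ℝ) ≤ t ^ 4 := by rw [ht4]; linarith
      have h4 : (14 : ℝ) ≤ t ^ 2 := by
        by_contra hcon
        push Not at hcon
        nlinarith [sq_nonneg t]
      have h5 : 7 * t ^ 2 ≤ t ^ 4 / 2 := by nlinarith [sq_nonneg t]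
      rw [ht4] at h5
      linarith
    exact_mod_cast h2
  have hlog : Real.log ((n : ℝ) + 1) ≤ 8 * t := by
    have h2 : Real.log ((n : ℝ) + 1) ≤ ((n : ℝ) + 1) ^ ((1 : ℝ) / 4) / (1 / 4) :=
      Real.log_le_rpow_div (by positivity) (by norm_num)
    have h3 : ((n : ℝ) + 1) ^ ((1 : ℝ) / 4) ≤ 2 * t := by
      have h4 : ((n : ℝ) + 1) ^ ((1 : ℝ) / 4) ≤ (2 ^ 4 * n : ℝ) ^ ((1 : ℝ) / 4) :=
        Real.rpow_le_rpow (by positivity) (by linarith) (by norm_num)
      have h5 : (2 ^ 4 * n : ℝ) ^ ((1 : ℝ) / 4) = 2 * t := by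
        rw [Real.mul_rpow (by positivity) (by positivity), ht, ← Real.rpow_natCast 2 4,
          ← Real.rpow_mul (by norm_num)]
        norm_num
      linarith
    linarith
  have hpow : ((n : ℝ) + 1) ^ k ≤ (2 : ℝ) ^ (ε / 2 * n - 1) := by
    have h2 : ((n : ℝ) + 1) ^ k = Real.exp (k * Real.log ((n : ℝ) + 1)) := by
      rw [mul_comm, Real.exp_mul, Real.exp_log (by positivity), Real.rpow_natCast]
    have h3 : (2 : ℝ) ^ (ε / 2 * n - 1) = Real.exp (Real.log 2 * (ε / 2 * n - 1)) := by
      rw [Real.exp_mul, Real.exp_log (by norm_num)]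
    rw [h2, h3]
    apply Real.exp_le_exp.2
    have hl2 : (0.69 : ℝ) ≤ Real.log 2 := by have := Real.log_two_gt_d9; linarith
    have hl0 : 0 ≤ Real.log ((n : ℝ) + 1) := Real.log_nonneg (by linarith)
    have h4 : (k : ℝ) * Real.log ((n : ℝ) + 1) ≤ 56 * t ^ 3 := by
      calc (k : ℝ) * Real.log ((n : ℝ) + 1) ≤ (7 * t ^ 2) * (8 * t) :=
            mul_le_mul hkt hlog hl0 (by positivity)
        _ = 56 * t ^ 3 := by ring
    have h5 : 83 * t ^ 3 ≤ ε / 2 * n := by
      rw [← ht4]
      have : 166 ≤ ε * t := by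
        rw [div_le_iff₀ hε] at htε
        linarith
      have ht3 : 0 ≤ t ^ 3 := by positivity
      nlinarith
    have h6 : (1 : ℝ) ≤ t ^ 3 := one_le_pow₀ ht1
    nlinarith
  have hneg : (2 : ℝ) ^ (-(n : ℝ)) ≤ (2 : ℝ) ^ (-((1 - ε) * n)) / 2 := by
    have h2 : (2 : ℝ) ^ (-((1 - ε) * n)) / 2 = (2 : ℝ) ^ (-((1 - ε) * n) - 1) := by
      rw [Real.rpow_sub_one (by norm_num)]
    rw [h2]
    apply Real.rpow_le_rpow_of_exponent_le (by norm_num)
    have : 1 ≤ ε * n := by
      have h3 : 1 / ε ≤ n := by linarith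
      rw [div_le_iff₀ hε] at h3
      linarith
    nlinarith
  have hmain := card_det n k hn1' hk2 (ε / 2) (by positivity) (fun m _ hm => h0 m (by omega))
  refine hmain.trans ?_
  apply mul_le_mul_of_nonneg_right _ (by positivity)
  have h7 : ((n : ℝ) + 1) ^ k * (2 : ℝ) ^ (-((1 - ε / 2) * n)) ≤ (2 : ℝ) ^ (-((1 - ε) * n)) / 2 := by
    calc _ ≤ (2 : ℝ) ^ (ε / 2 * n - 1) * (2 : ℝ) ^ (-((1 - ε / 2) * n)) := by gcongr
      _ = (2 : ℝ) ^ (-((1 - ε) * n) - 1) := by
          rw [← Real.rpow_add (by norm_num)]; congr 1; ring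
      _ = _ := by rw [Real.rpow_sub_one (by norm_num)]
  linarith

end Vale.Agent.P160.Half.CorTwo
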