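import Vale.Agent.P160.Half.Corank

/-! # P160, half rate: the reduction to corank one

A symmetric matrix of corank `≥ 2` without kernel vectors with many zeros: for every index `i` in the
support of a kernel vector the principal submatrix without `i` is singular and orthogonality to a
fixed kernel vector holds for the deleted column.  Averaging over `i` gives
`q_(n+1) ≤ q'_(n+1) + (n+1)/(n+1-z) (1/2) q_n`. -/

open Finset Matrix

namespace Vale.Agent.P160.Half.CorTwo871

/-- the rational 0/1 matrix -/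
def mq {n : ℕ} (b : Sym2 (Fin n) → Bool) : Matrix (Fin n) (Fin n) ℚ := (matZ b).map (Int.cast : ℤ → ℚ)

theorem mq_apply {n : ℕ} (b : Sym2 (Fin n) → Bool) (i j : Fin n) :
    mq b i j = if b s(i, j) then 1 else 0 := by
  unfold mq
  rw [Matrix.map_apply]
  unfold matZ
  by_cases h : b s(i, j) = true <;> simp [h]

theorem mq_symm {n : ℕ} (b : Sym2 (Fin n) → Bool) (i j : Fin n) : mq b i j = mq b j i := by
  rw [mq_apply, mq_apply, Sym2.eq_swap]

theorem mq_det {n : ℕ} (b : Sym2 (Fin n) → Bool) : (mq b).det = ((matZ b).det : ℚ) := by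
  unfold mq
  exact ((Int.castRingHom ℚ).map_det (matZ b)).symm

/-- delete the index `i` -/
def del {n : ℕ} (i : Fin (n + 1)) (b : Sym2 (Fin (n + 1)) → Bool) : Sym2 (Fin n) → Bool :=
  fun z => b (z.map i.succAbove)

/-- the row `i` -/
def row {n : ℕ} (i : Fin (n + 1)) (b : Sym2 (Fin (n + 1)) → Bool) : Fin (n + 1) → Bool :=
  fun j => b s(i, j)

theorem mq_del {n : ℕ} (i : Fin (n + 1)) (b : Sym2 (Fin (n + 1)) → Bool) (j k : Fin n) :
    mq (del i b) j k = mq b (i.succAbove j) (i.succAbove k) := by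
  rw [mq_apply, mq_apply]; rfl

theorem del_row_injective {n : ℕ} (i : Fin (n + 1)) :
    Function.Injective fun b : Sym2 (Fin (n + 1)) → Bool => (del i b, row i b) := by
  intro b b' h
  have h1 : del i b = del i b' := congrArg Prod.fst h
  have h2 : row i b = row i b' := congrArg Prod.snd h
  funext z
  induction z using Sym2.ind with
  | _ j k =>
    rcases Fin.eq_self_or_eq_succAbove i j with rfl | ⟨j', rfl⟩
    · exact congrFun h2 k
    · rcases Fin.eq_self_or_eq_succAbove i k with rfl | ⟨k', rfl⟩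
      · rw [Sym2.eq_swap]; exact congrFun h2 _
      · exact congrFun h1 s(j', k')

/-- linear algebra: `v ∈ ker`, `v i ≠ 0` -/
theorem orth {n : ℕ} (i : Fin (n + 1)) (b : Sym2 (Fin (n + 1)) → Bool) (v : Fin (n + 1) → ℚ)
    (hv : mq b *ᵥ v = 0) (hvi : v i ≠ 0) (w : Fin n → ℚ) (hw : mq (del i b) *ᵥ w = 0) :
    ∑ j, (if row i b (i.succAbove j) then w j else 0) = 0 := by
  -- `W` extends `w` by zero
  set W : Fin (n + 1) → ℚ := i.insertNth 0 w with hW
  have hWi : W i = 0 := by rw [hW, Fin.insertNth_apply_same]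
  have hWs : ∀ j, W (i.succAbove j) = w j := by
    intro j; rw [hW, Fin.insertNth_apply_succAbove]
  have h1 : ∀ j : Fin n, (mq b *ᵥ W) (i.succAbove j) = 0 := by
    intro j
    have := congrFun hw j
    simp only [Matrix.mulVec, dotProduct, Pi.zero_apply] at this ⊢
    rw [Fin.sum_univ_succAbove _ i, hWi, mul_zero, zero_add, ← this]
    refine Finset.sum_congr rfl fun k _ => ?_
    rw [hWs, mq_del]
  have h2 : v ⬝ᵥ (mq b *ᵥ W) = 0 := by
    rw [Matrix.dotProduct_mulVec]
    have h3 : v ᵥ* mq b = 0 := by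
      funext k
      have := congrFun hv k
      simp only [Matrix.mulVec, Matrix.vecMul, dotProduct, Pi.zero_apply] at this ⊢
      rw [← this]
      refine Finset.sum_congr rfl fun l _ => ?_
      rw [mq_symm b l k, mul_comm]
    rw [h3, zero_dotProduct]
  have h4 : v i * (mq b *ᵥ W) i = 0 := by
    have h5 : v ⬝ᵥ (mq b *ᵥ W) = v i * (mq b *ᵥ W) i := by
      simp only [dotProduct]
      rw [Fin.sum_univ_succAbove _ i]
      rw [Finset.sum_eq_zero fun j _ => ?_, add_zero]
      rw [h1 j, mul_zero]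
    rw [← h5, h2]
  have h6 : (mq b *ᵥ W) i = 0 := (mul_eq_zero.1 h4).resolve_left hvi
  have h7 : ∑ j, (if row i b (i.succAbove j) then w j else 0) = (mq b *ᵥ W) i := by
    simp only [Matrix.mulVec, dotProduct]
    rw [Fin.sum_univ_succAbove _ i, hWi, mul_zero, zero_add]
    refine Finset.sum_congr rfl fun j _ => ?_
    rw [hWs, mq_apply]
    unfold row
    by_cases h : b s(i, i.succAbove j) = true <;> simp [h]
  rw [h7, h6]

/-- if the corank is `≥ 2` then every principal submatrix of size `n` is singular -/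
theorem det_del {n : ℕ} (i : Fin (n + 1)) (b : Sym2 (Fin (n + 1)) → Bool)
    (hr : (mq b).rank + 2 ≤ n + 1) : (matZ (del i b)).det = 0 := by
  -- a kernel vector with `u i = 0`
  have hk : 2 ≤ Module.finrank ℚ (LinearMap.ker (mq b).mulVecLin) := by
    have h1 := LinearMap.finrank_range_add_finrank_ker (mq b).mulVecLin
    rw [Module.finrank_fin_fun] at h1
    have h2 : (mq b).rank = Module.finrank ℚ (LinearMap.range (mq b).mulVecLin) := rfl
    omega
  let g : LinearMap.ker (mq b).mulVecLin →ₗ[ℚ] ℚ :=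
    (LinearMap.proj i).comp (LinearMap.ker (mq b).mulVecLin).subtype
  have hg : LinearMap.ker g ≠ ⊥ := by
    intro h0
    have h1 := LinearMap.finrank_range_add_finrank_ker g
    rw [h0, finrank_bot, add_zero] at h1
    have h2 : Module.finrank ℚ (LinearMap.range g) ≤ 1 := by
      have := Submodule.finrank_le (LinearMap.range g)
      rwa [Module.finrank_self] at this
    omega
  obtain ⟨u, hu, hu0⟩ := Submodule.exists_mem_ne_zero_of_ne_bot hg
  have hui : (u : Fin (n + 1) → ℚ) i = 0 := hu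
  have huk : mq b *ᵥ (u : Fin (n + 1) → ℚ) = 0 := u.2
  have hne : (u : Fin (n + 1) → ℚ) ≠ 0 := fun h => hu0 (Subtype.ext h)
  have hdet : (mq (del i b)).det = 0 := by
    apply Matrix.exists_mulVec_eq_zero_iff.1
    refine ⟨fun j => (u : Fin (n + 1) → ℚ) (i.succAbove j), ?_, ?_⟩
    · intro h
      apply hne
      funext k
      rcases Fin.eq_self_or_eq_succAbove i k with rfl | ⟨k', rfl⟩
      · exact hui
      · exact congrFun h k'
    · funext j
      have := congrFun huk (i.succAbove j)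
      simp only [Matrix.mulVec, dotProduct, Pi.zero_apply] at this ⊢
      rw [Fin.sum_univ_succAbove _ i, hui, mul_zero, zero_add] at this
      rw [← this]
      exact Finset.sum_congr rfl fun k _ => by rw [mq_del]
  rw [mq_det] at hdet
  exact_mod_cast hdet

/-- a nonzero vector is orthogonal to at most half of the 0/1 rows -/
theorem card_orth {n : ℕ} (i : Fin (n + 1)) (w : Fin n → ℚ) (hw : w ≠ 0) :
    ((univ : Finset (Fin (n + 1) → Bool)).filter fun r =>
      ∑ j, (if r (i.succAbove j) then w j else 0) = 0).card ≤ 2 ^ n := by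
  classical
  obtain ⟨k, hk⟩ : ∃ k, w k ≠ 0 := by
    by_contra h
    push Not at h
    exact hw (funext h)
  have hinj : ((univ : Finset (Fin (n + 1) → Bool)).filter fun r =>
      ∑ j, (if r (i.succAbove j) then w j else 0) = 0).card ≤
      (univ : Finset (Fin n → Bool)).card := by
    apply Finset.card_le_card_of_injOn
      (fun r (l : Fin n) => r ((i.succAbove k).succAbove l)) (fun _ _ => mem_coe.2 (mem_univ _))
    intro r hr r' hr' h
    have hr := (mem_filter.1 (mem_coe.1 hr)).2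
    have hr' := (mem_filter.1 (mem_coe.1 hr')).2
    have hoff : ∀ m, m ≠ i.succAbove k → r m = r' m := by
      intro m hm
      obtain ⟨l, rfl⟩ := Fin.exists_succAbove_eq hm
      exact congrFun h l
    funext m
    by_cases hm : m = i.succAbove k
    · subst hm
      rw [← Finset.add_sum_erase _ _ (mem_univ k)] at hr hr'
      have hs : (∑ x ∈ univ.erase k, (if r (i.succAbove x) then w x else 0)) =
          ∑ x ∈ univ.erase k, (if r' (i.succAbove x) then w x else 0) := by
        refine Finset.sum_congr rfl fun x hx => ?_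
        rw [hoff _ (fun h => (Finset.ne_of_mem_erase hx) (Fin.succAbove_right_injective h))]
      rw [hs] at hr
      have h3 : (if r (i.succAbove k) then w k else 0) = (if r' (i.succAbove k) then w k else 0) :=
        add_right_cancel (hr.trans hr'.symm)
      by_cases h1 : r (i.succAbove k) = true <;> by_cases h2 : r' (i.succAbove k) = true
      · rw [h1, h2]
      · simp only [h1, h2, if_true] at h3
        exact absurd h3 (by simpa using hk)
      · simp only [h1, h2, if_true] at h3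
        exact absurd h3.symm (by simpa using hk)
      · rw [Bool.not_eq_true] at h1 h2
        rw [h1, h2]
    · exact hoff m hm
  refine hinj.trans (le_of_eq ?_)
  simp

open Classical in
/-- the number of the bit arrays for which the index `i` is good -/
theorem card_good {n : ℕ} (i : Fin (n + 1)) :
    ((univ : Finset (Sym2 (Fin (n + 1)) → Bool)).filter fun b =>
      (mq b).rank + 2 ≤ n + 1 ∧ ∃ v : Fin (n + 1) → ℚ, mq b *ᵥ v = 0 ∧ v i ≠ 0).card ≤
    ((univ : Finset (Sym2 (Fin n) → Bool)).filter fun b => (matZ b).det = 0).card * 2 ^ n := by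
  classical
  have hex : ∀ b : Sym2 (Fin n) → Bool, ∃ w : Fin n → ℚ, (matZ b).det = 0 →
      w ≠ 0 ∧ mq b *ᵥ w = 0 := by
    intro b
    by_cases h : (matZ b).det = 0
    · have h1 : (mq b).det = 0 := by rw [mq_det, h, Int.cast_zero]
      obtain ⟨w, h2, h3⟩ := Matrix.exists_mulVec_eq_zero_iff.2 h1
      exact ⟨w, fun _ => ⟨h2, h3⟩⟩
    · exact ⟨0, fun h' => absurd h' h⟩
  choose w hw using hex
  set D : Finset (Sym2 (Fin n) → Bool) := univ.filter fun b => (matZ b).det = 0 with hD
  set R : Finset ((Sym2 (Fin n) → Bool) × (Fin (n + 1) → Bool)) :=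
    D.sigma (fun b => (univ : Finset (Fin (n + 1) → Bool)).filter fun r =>
      ∑ j, (if r (i.succAbove j) then w b j else 0) = 0) |>.image (fun x => (x.1, x.2)) with hR
  have hRc : R.card ≤ D.card * 2 ^ n := by
    refine Finset.card_image_le.trans ?_
    rw [Finset.card_sigma]
    refine (Finset.sum_le_card_nsmul D _ (2 ^ n) ?_).trans (le_of_eq (smul_eq_mul _ _))
    intro b hb
    exact card_orth i (w b) (hw b (mem_filter.1 hb).2).1
  refine le_trans ?_ hRc
  apply Finset.card_le_card_of_injOn (fun b => (del i b, row i b))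
  · intro b hb
    obtain ⟨hr, v, hv, hvi⟩ := (mem_filter.1 (mem_coe.1 hb)).2
    have hd : (matZ (del i b)).det = 0 := det_del i b hr
    rw [mem_coe, hR, Finset.mem_image]
    refine ⟨⟨del i b, row i b⟩, ?_, rfl⟩
    rw [Finset.mem_sigma]
    refine ⟨mem_filter.2 ⟨mem_univ _, hd⟩, mem_filter.2 ⟨mem_univ _, ?_⟩⟩
    exact orth i b v hv hvi _ (hw _ hd).2
  · exact (del_row_injective i).injOn

open Classical in
/-- **averaging over the deleted index** -/
theorem count_cor2 (n z : ℕ) :
    ((univ : Finset (Sym2 (Fin (n + 1)) → Bool)).filter fun b =>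
      (mq b).rank + 2 ≤ n + 1 ∧ ∀ v : Fin (n + 1) → ℚ, v ≠ 0 → mq b *ᵥ v = 0 →
        (univ.filter fun i => v i = 0).card ≤ z).card * (n + 1 - z) ≤
    (n + 1) * (((univ : Finset (Sym2 (Fin n) → Bool)).filter fun b => (matZ b).det = 0).card *
      2 ^ n) := by
  classical
  set A : Finset (Sym2 (Fin (n + 1)) → Bool) := univ.filter fun b =>
      (mq b).rank + 2 ≤ n + 1 ∧ ∀ v : Fin (n + 1) → ℚ, v ≠ 0 → mq b *ᵥ v = 0 →
        (univ.filter fun i => v i = 0).card ≤ z with hA
  have h1 : A.card * (n + 1 - z) ≤ ∑ i : Fin (n + 1), (A.filter fun b =>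
      ∃ v : Fin (n + 1) → ℚ, mq b *ᵥ v = 0 ∧ v i ≠ 0).card := by
    have h2 : ∑ i : Fin (n + 1), (A.filter fun b =>
        ∃ v : Fin (n + 1) → ℚ, mq b *ᵥ v = 0 ∧ v i ≠ 0).card =
        ∑ b ∈ A, (univ.filter fun i : Fin (n + 1) =>
          ∃ v : Fin (n + 1) → ℚ, mq b *ᵥ v = 0 ∧ v i ≠ 0).card := by
      simp_rw [Finset.card_filter]
      exact Finset.sum_comm
    rw [h2, ← smul_eq_mul]
    apply Finset.card_nsmul_le_sum
    intro b hb
    obtain ⟨hr, hz⟩ := (mem_filter.1 hb).2
    -- a nonzero kernel vector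
    have hk : 2 ≤ Module.finrank ℚ (LinearMap.ker (mq b).mulVecLin) := by
      have h1 := LinearMap.finrank_range_add_finrank_ker (mq b).mulVecLin
      rw [Module.finrank_fin_fun] at h1
      have h2 : (mq b).rank = Module.finrank ℚ (LinearMap.range (mq b).mulVecLin) := rfl
      omega
    have hne : LinearMap.ker (mq b).mulVecLin ≠ ⊥ := by
      intro h0
      rw [h0, finrank_bot] at hk
      omega
    obtain ⟨v, hv, hv0⟩ := Submodule.exists_mem_ne_zero_of_ne_bot hne
    have hv' : mq b *ᵥ v = 0 := hv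
    have h3 := hz v hv0 hv'
    have h4 : (univ.filter fun i => v i = 0).card + (univ.filter fun i => ¬ v i = 0).card = n + 1 := by
      have := Finset.card_filter_add_card_filter_not (s := (univ : Finset (Fin (n + 1))))
        (fun i => v i = 0)
      rw [this, card_univ, Fintype.card_fin]
    have h5 : (univ.filter fun i => ¬ v i = 0).card ≤ (univ.filter fun i : Fin (n + 1) =>
          ∃ v : Fin (n + 1) → ℚ, mq b *ᵥ v = 0 ∧ v i ≠ 0).card := by
      apply Finset.card_le_card
      intro i hi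
      exact mem_filter.2 ⟨mem_univ _, v, hv', (mem_filter.1 hi).2⟩
    omega
  refine h1.trans ?_
  calc ∑ i : Fin (n + 1), (A.filter fun b =>
      ∃ v : Fin (n + 1) → ℚ, mq b *ᵥ v = 0 ∧ v i ≠ 0).card
      ≤ ∑ _i : Fin (n + 1), (((univ : Finset (Sym2 (Fin n) → Bool)).filter fun b =>
          (matZ b).det = 0).card * 2 ^ n) := by
        apply Finset.sum_le_sum
        intro i _
        refine le_trans (Finset.card_le_card ?_) (card_good i)
        intro b hb
        obtain ⟨hb1, hb2⟩ := mem_filter.1 hb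
        exact mem_filter.2 ⟨mem_univ _, ((mem_filter.1 hb1).2).1, hb2⟩
    _ = _ := by
        rw [Finset.sum_const, card_univ, Fintype.card_fin, smul_eq_mul]

open Classical in
/-- density of an event -/
noncomputable def dn {n : ℕ} (A : (Sym2 (Fin n) → Bool) → Prop) : ℝ :=
  ((univ.filter A).card : ℝ) / 2 ^ Fintype.card (Sym2 (Fin n))

theorem dn_nonneg {n : ℕ} (A : (Sym2 (Fin n) → Bool) → Prop) : 0 ≤ dn A := by
  unfold dn; positivity

theorem dn_le_or3 {n : ℕ} (A B C D : (Sym2 (Fin n) → Bool) → Prop) (h : ∀ b, A b → B b ∨ C b ∨ D b) :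
    dn A ≤ dn B + dn C + dn D := by
  classical
  unfold dn
  rw [← add_div, ← add_div]
  apply div_le_div_of_nonneg_right _ (by positivity)
  have h1 : (univ.filter A) ⊆ (univ.filter B ∪ univ.filter C) ∪ univ.filter D := by
    intro b hb
    rcases h b (mem_filter.1 hb).2 with h | h | h
    · exact mem_union_left _ (mem_union_left _ (mem_filter.2 ⟨mem_univ _, h⟩))
    · exact mem_union_left _ (mem_union_right _ (mem_filter.2 ⟨mem_univ _, h⟩))
    · exact mem_union_right _ (mem_filter.2 ⟨mem_univ _, h⟩)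
  have h2 := (Finset.card_le_card h1).trans ((Finset.card_union_le _ _).trans
    (Nat.add_le_add_right (Finset.card_union_le _ _) _))
  exact_mod_cast h2

theorem card_sym2_succ (n : ℕ) :
    Fintype.card (Sym2 (Fin (n + 1))) = Fintype.card (Sym2 (Fin n)) + (n + 1) := by
  rw [Sym2.card, Sym2.card, Fintype.card_fin, Fintype.card_fin, Nat.choose_succ_succ' (n + 1) 1,
    Nat.choose_one_right, add_comm]

/-- the density of corank `≥ 2` without many zeros -/
theorem dn_cor2 (n : ℕ) {δ : ℝ} (hδ : 0 ≤ δ) (hδ1 : δ < 1) :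
    dn (n := n + 1) (fun b => (mq b).rank + 2 ≤ n + 1 ∧ ∀ v : Fin (n + 1) → ℚ, v ≠ 0 → mq b *ᵥ v = 0 →
        ((univ.filter fun i => v i = 0).card : ℝ) ≤ δ * ((n + 1 : ℕ) : ℝ)) ≤
      1 / (2 * (1 - δ)) * dn (n := n) (fun b => (matZ b).det = 0) := by
  classical
  set z : ℕ := ⌊δ * ((n + 1 : ℕ) : ℝ)⌋₊ with hz
  have hz1 : (z : ℝ) ≤ δ * ((n + 1 : ℕ) : ℝ) := Nat.floor_le (by positivity)
  have hzn : z ≤ n + 1 := by
    have : (z : ℝ) ≤ ((n + 1 : ℕ) : ℝ) := by
      refine hz1.trans ?_
      have : (0 : ℝ) ≤ ((n + 1 : ℕ) : ℝ) := by positivity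
      nlinarith
    exact_mod_cast this
  have h1 := count_cor2 n z
  set S : ℕ := ((univ : Finset (Sym2 (Fin n) → Bool)).filter fun b => (matZ b).det = 0).card with hS
  set A : ℕ := ((univ : Finset (Sym2 (Fin (n + 1)) → Bool)).filter fun b =>
      (mq b).rank + 2 ≤ n + 1 ∧ ∀ v : Fin (n + 1) → ℚ, v ≠ 0 → mq b *ᵥ v = 0 →
        (univ.filter fun i => v i = 0).card ≤ z).card with hA
  have h2 : (A : ℝ) * (((n + 1 : ℕ) : ℝ) - z) ≤ ((n + 1 : ℕ) : ℝ) * (S * 2 ^ n) := by
    rw [← Nat.cast_sub hzn]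
    exact_mod_cast h1
  have hpos : (0 : ℝ) < ((n + 1 : ℕ) : ℝ) := by positivity
  have h3 : (A : ℝ) * (1 - δ) ≤ S * 2 ^ n := by
    have h4 : (A : ℝ) * ((1 - δ) * ((n + 1 : ℕ) : ℝ)) ≤ ((n + 1 : ℕ) : ℝ) * (S * 2 ^ n) := by
      refine le_trans ?_ h2
      apply mul_le_mul_of_nonneg_left _ (Nat.cast_nonneg _)
      linarith
    have h5 : ((A : ℝ) * (1 - δ)) * ((n + 1 : ℕ) : ℝ) ≤ (S * 2 ^ n) * ((n + 1 : ℕ) : ℝ) := by
      linarith
    exact le_of_mul_le_mul_right h5 hpos
  have hA' : dn (n := n + 1) (fun b => (mq b).rank + 2 ≤ n + 1 ∧ ∀ v : Fin (n + 1) → ℚ, v ≠ 0 →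
      mq b *ᵥ v = 0 → ((univ.filter fun i => v i = 0).card : ℝ) ≤ δ * ((n + 1 : ℕ) : ℝ)) ≤
      (A : ℝ) / 2 ^ Fintype.card (Sym2 (Fin (n + 1))) := by
    unfold dn
    apply div_le_div_of_nonneg_right _ (by positivity)
    rw [hA]
    have : ∀ s t : Finset (Sym2 (Fin (n + 1)) → Bool), s ⊆ t → (s.card : ℝ) ≤ t.card := fun s t h =>
      by exact_mod_cast Finset.card_le_card h
    apply this
    intro b hb
    simp only [mem_filter, mem_univ, true_and] at hb ⊢
    exact ⟨hb.1, fun v hv hv' => Nat.le_floor (hb.2 v hv hv')⟩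
  refine hA'.trans ?_
  have hSn : dn (n := n) (fun b => (matZ b).det = 0) = (S : ℝ) / 2 ^ Fintype.card (Sym2 (Fin n)) := by
    unfold dn
    rw [hS]
    congr!
  rw [hSn, card_sym2_succ, pow_add, pow_succ]
  have h6 : (0 : ℝ) < 1 - δ := by linarith
  have h7 : (A : ℝ) ≤ S * 2 ^ n / (1 - δ) := by rw [le_div_iff₀ h6]; exact h3
  have hP : (0 : ℝ) < 2 ^ Fintype.card (Sym2 (Fin n)) := by positivity
  have hQ : (0 : ℝ) < 2 ^ n := by positivity
  calc (A : ℝ) / (2 ^ Fintype.card (Sym2 (Fin n)) * (2 ^ n * 2))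
      ≤ (S * 2 ^ n / (1 - δ)) / (2 ^ Fintype.card (Sym2 (Fin n)) * (2 ^ n * 2)) :=
        div_le_div_of_nonneg_right h7 (by positivity)
    _ = 1 / (2 * (1 - δ)) * (S / 2 ^ Fintype.card (Sym2 (Fin n))) := by
        field_simp

/-- recursion for real sequences -/
theorem rec_bound (q : ℕ → ℝ) {a m : ℝ} (ha : 0 < a) (ham : a < m) (n₀ : ℕ)
    (h : ∀ n ≥ n₀, q (n + 1) ≤ 2 * a ^ (n + 1) + a * q n) :
    ∃ C : ℝ, 0 < C ∧ ∀ n ≥ n₀, q n ≤ C * m ^ n := by
  have hm : 0 < m := ha.trans ham
  refine ⟨max (2 * a / (m - a)) (q n₀ / m ^ n₀), ?_, ?_⟩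
  · exact lt_max_of_lt_left (div_pos (by linarith) (by linarith))
  set C : ℝ := max (2 * a / (m - a)) (q n₀ / m ^ n₀) with hC
  have hC1 : 2 * a ≤ C * (m - a) := by
    rw [← div_le_iff₀ (by linarith)]
    exact le_max_left _ _
  intro n hn
  induction n, hn using Nat.le_induction with
  | base =>
    rw [← div_le_iff₀ (by positivity)]
    exact le_max_right _ _
  | succ n hn ih =>
    refine (h n hn).trans ?_
    have h1 : a ^ n ≤ m ^ n := pow_le_pow_left₀ ha.le ham.le n
    have h2 : 0 ≤ m ^ n := by positivity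
    calc 2 * a ^ (n + 1) + a * q n ≤ 2 * a * m ^ n + a * (C * m ^ n) := by
          rw [pow_succ]
          have h3 := mul_le_mul_of_nonneg_left h1 (by linarith : (0 : ℝ) ≤ 2 * a)
          have h4 := mul_le_mul_of_nonneg_left ih ha.le
          nlinarith
      _ ≤ C * (m - a) * m ^ n + a * (C * m ^ n) := by
          have := mul_le_mul_of_nonneg_right hC1 h2
          linarith
      _ = C * m ^ (n + 1) := by rw [pow_succ]; ring

open Filter in
/-- **Reduction to corank one.** -/
theorem of_corank_one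
    (h1 : ∀ lam : ℝ, 1 / 2 < lam → ∀ᶠ n : ℕ in atTop,
      dn (n := n) (fun b => (mq b).rank + 1 = n) ≤ lam ^ n)
    (h2 : ∀ δ : ℝ, 0 < δ → ∀ lam : ℝ, 1 / 2 < lam → ∀ᶠ n : ℕ in atTop,
      dn (n := n) (fun b => ∃ v : Fin n → ℚ, v ≠ 0 ∧ mq b *ᵥ v = 0 ∧
        δ * (n : ℝ) ≤ ((univ.filter fun i => v i = 0).card : ℝ)) ≤ lam ^ n) :
    ∀ lam : ℝ, 1 / 2 < lam → ∀ᶠ n : ℕ in atTop,
      dn (n := n) (fun b => (matZ b).det = 0) ≤ lam ^ n := by
  intro lam hlam
  obtain ⟨a, ha1, ha2⟩ : ∃ a : ℝ, 1 / 2 < a ∧ a < lam := exists_between hlam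
  obtain ⟨m, hm1, hm2⟩ : ∃ m : ℝ, a < m ∧ m < lam := exists_between ha2
  have ha0 : (0 : ℝ) < a := by linarith
  have hm0 : (0 : ℝ) < m := by linarith
  set δ : ℝ := 1 - 1 / (2 * a) with hδ
  have hδ0 : 0 < δ := by
    rw [hδ, sub_pos, div_lt_one (by linarith)]
    linarith
  have hδ1 : δ < 1 := by
    rw [hδ]
    have : 0 < 1 / (2 * a) := by positivity
    linarith
  have hδa : 1 / (2 * (1 - δ)) = a := by
    rw [hδ]
    field_simp
    ring
  have e1 := (tendsto_add_atTop_nat 1).eventually (h1 a ha1)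
  have e2 := (tendsto_add_atTop_nat 1).eventually (h2 δ hδ0 a ha1)
  obtain ⟨n₀, hn₀⟩ := eventually_atTop.1 (e1.and e2)
  have hrec : ∀ n ≥ n₀, dn (n := n + 1) (fun b => (matZ b).det = 0) ≤
      2 * a ^ (n + 1) + a * dn (n := n) (fun b => (matZ b).det = 0) := by
    intro n hn
    obtain ⟨f1, f2⟩ := hn₀ n hn
    have h3 := dn_cor2 n hδ0.le hδ1
    rw [hδa] at h3
    have h4 := dn_le_or3 (n := n + 1) (fun b => (matZ b).det = 0) (fun b => (mq b).rank + 1 = n + 1)
      (fun b => ∃ v : Fin (n + 1) → ℚ, v ≠ 0 ∧ mq b *ᵥ v = 0 ∧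
        δ * ((n + 1 : ℕ) : ℝ) ≤ ((univ.filter fun i => v i = 0).card : ℝ))
      (fun b => (mq b).rank + 2 ≤ n + 1 ∧ ∀ v : Fin (n + 1) → ℚ, v ≠ 0 → mq b *ᵥ v = 0 →
        ((univ.filter fun i => v i = 0).card : ℝ) ≤ δ * ((n + 1 : ℕ) : ℝ)) (by
        intro b hb
        by_cases hz : ∃ v : Fin (n + 1) → ℚ, v ≠ 0 ∧ mq b *ᵥ v = 0 ∧
            δ * ((n + 1 : ℕ) : ℝ) ≤ ((univ.filter fun i => v i = 0).card : ℝ)
        · exact Or.inr (Or.inl hz)
        push Not at hz
        -- the rank is at most `n`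
        have hdet : (mq b).det = 0 := by rw [mq_det, hb, Int.cast_zero]
        have hrk : (mq b).rank < n + 1 := by
          by_contra hcon
          push Not at hcon
          have h5 : (mq b).rank = Fintype.card (Fin (n + 1)) :=
            le_antisymm (Matrix.rank_le_card_width _) (by rw [Fintype.card_fin]; exact hcon)
          obtain ⟨w, hw0, hw⟩ := Matrix.exists_mulVec_eq_zero_iff.2 hdet
          have h6 := LinearMap.finrank_range_add_finrank_ker (mq b).mulVecLin
          rw [Module.finrank_fin_fun] at h6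
          have h7 : (mq b).rank = Module.finrank ℚ (LinearMap.range (mq b).mulVecLin) := rfl
          rw [Fintype.card_fin] at h5
          have h8 : Module.finrank ℚ (LinearMap.ker (mq b).mulVecLin) = 0 := by omega
          have h9 : LinearMap.ker (mq b).mulVecLin = ⊥ := Submodule.finrank_eq_zero.1 h8
          have h10 : w ∈ LinearMap.ker (mq b).mulVecLin := hw
          rw [h9] at h10
          exact hw0 ((Submodule.mem_bot ℚ).1 h10)
        rcases Nat.lt_or_ge ((mq b).rank + 1) (n + 1) with h | h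
        · exact Or.inr (Or.inr ⟨by omega, fun v hv hv' => (hz v hv hv').le⟩)
        · exact Or.inl (by omega))
    have f1' : dn (n := n + 1) (fun b => (mq b).rank + 1 = n + 1) ≤ a ^ (n + 1) := f1
    have f2' : dn (n := n + 1) (fun b => ∃ v : Fin (n + 1) → ℚ, v ≠ 0 ∧ mq b *ᵥ v = 0 ∧
        δ * ((n + 1 : ℕ) : ℝ) ≤ ((univ.filter fun i => v i = 0).card : ℝ)) ≤ a ^ (n + 1) := f2
    linarith
  obtain ⟨C, hC, hCb⟩ := rec_bound (fun n => dn (n := n) (fun b => (matZ b).det = 0)) ha0 hm1 n₀ hrec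
  have hlim : Tendsto (fun n : ℕ => (lam / m) ^ n) atTop atTop :=
    tendsto_pow_atTop_atTop_of_one_lt ((one_lt_div hm0).2 hm2)
  filter_upwards [hlim.eventually_ge_atTop C, eventually_ge_atTop n₀] with n hn hn'
  refine (hCb n hn').trans ?_
  have hmn : 0 < m ^ n := by positivity
  rw [div_pow, le_div_iff₀ hmn] at hn
  exact hn

end Vale.Agent.P160.Half.CorTwo871
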