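import Vale.Agent.P160.Half.Corank
import Vale.Agent.P160.Half.WCount

/-! # P160, half rate: it is enough to bound the probability of corank one

`dens_step` : if a symmetric 0/1 matrix of size `n + 1` has rank `k ≤ n` then some principal
submatrix of size `n` has rank `k` too and its missing column lies in its column space; hence
`dens (n+1) k ≤ (n + 1) * 2^(-(n-k)) * dens n k`.  `sing_of_corank_one` : the exponential rate of the
singularity probability is the one of the corank one probability. -/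

set_option linter.unusedSectionVars false

open Finset Matrix

namespace Vale.Agent.P160.Half.CO

/-- rational rank of the 0/1 matrix -/
noncomputable def rk {n : ℕ} (b : Sym2 (Fin n) → Bool) : ℕ :=
  ((matZ b).map (Int.cast : ℤ → ℚ)).rank

/-- delete the index `i` -/
def del {n : ℕ} (i : Fin (n + 1)) (b : Sym2 (Fin (n + 1)) → Bool) : Sym2 (Fin n) → Bool :=
  fun e => b (e.map i.succAbove)

/-- the deleted column -/
def colb {n : ℕ} (i : Fin (n + 1)) (b : Sym2 (Fin (n + 1)) → Bool) : Fin n → Bool :=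
  fun k => b s(i, i.succAbove k)

theorem del_mk {n : ℕ} (i : Fin (n + 1)) (b : Sym2 (Fin (n + 1)) → Bool) (x y : Fin n) :
    del i b s(x, y) = b s(i.succAbove x, i.succAbove y) := by
  simp [del, Sym2.map_mk]

theorem matZ_del {n : ℕ} (i : Fin (n + 1)) (b : Sym2 (Fin (n + 1)) → Bool) :
    matZ (del i b) = (matZ b).submatrix i.succAbove i.succAbove := by
  ext x y
  simp only [matZ, submatrix_apply, del_mk]

theorem ext_del {n : ℕ} (i : Fin (n + 1)) {b c : Sym2 (Fin (n + 1)) → Bool}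
    (h1 : del i b = del i c) (h2 : colb i b = colb i c) (h3 : b s(i, i) = c s(i, i)) : b = c := by
  funext e
  induction e using Sym2.ind with
  | _ x y =>
    rcases Fin.eq_self_or_eq_succAbove i x with rfl | ⟨x, rfl⟩
    · rcases Fin.eq_self_or_eq_succAbove x y with rfl | ⟨y, rfl⟩
      · exact h3
      · exact congrFun h2 y
    · rcases Fin.eq_self_or_eq_succAbove i y with rfl | ⟨y, rfl⟩
      · rw [Sym2.eq_swap]
        exact congrFun h2 x
      · exact (del_mk i b x y).symm.trans ((congrFun h1 s(x, y)).trans (del_mk i c x y))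

/-- rank `k` is kept by some deletion, and the deleted column is in the column space -/
theorem exists_del {n k : ℕ} (hk : k ≤ n) (b : Sym2 (Fin (n + 1)) → Bool) (hb : rk b = k) :
    ∃ i : Fin (n + 1), rk (del i b) = k ∧
      bq (colb i b) ∈ LinearMap.range ((matZ (del i b)).map (Int.cast : ℤ → ℚ)).mulVecLin := by
  classical
  set M : Matrix (Fin (n + 1)) (Fin (n + 1)) ℚ := (matZ b).map (Int.cast : ℤ → ℚ) with hM
  have hsymm : ∀ i j, M i j = M j i := by
    intro i j
    simp only [hM, map_apply]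
    rw [matZ_symm]
  obtain ⟨A, -, hcard, hdet, hbase⟩ := exists_base M hsymm univ
  have hr : (prin M univ).rank = M.rank := by
    apply le_antisymm
    · exact rank_submatrix_le _ _ _
    · have : M = (prin M univ).submatrix (fun i => ⟨i, mem_univ i⟩) (fun i => ⟨i, mem_univ i⟩) := by
        ext i j; rfl
      conv_lhs => rw [this]
      exact rank_submatrix_le _ _ _
  have hAk : A.card = k := by rw [hcard, hr]; exact hb
  -- an index outside `A`
  obtain ⟨i, hi⟩ : ∃ i : Fin (n + 1), i ∉ A := by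
    by_contra h
    push Not at h
    have : A = univ := eq_univ_iff_forall.2 h
    rw [this, card_univ, Fintype.card_fin] at hAk
    omega
  have hdel : (matZ (del i b)).map (Int.cast : ℤ → ℚ) = M.submatrix i.succAbove i.succAbove := by
    rw [matZ_del]; rfl
  refine ⟨i, ?_, ?_⟩
  · unfold rk
    rw [hdel]
    apply le_antisymm
    · exact (rank_submatrix_le _ _ _).trans hb.le
    · -- `A` embeds
      have hne : ∀ a : A, ∃ x : Fin n, i.succAbove x = a := by
        intro a
        have : (a : Fin (n + 1)) ≠ i := fun h => hi (h ▸ a.2)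
        exact Fin.exists_succAbove_eq this
      choose f hf using hne
      have hsub : prin M A = (M.submatrix i.succAbove i.succAbove).submatrix f f := by
        ext x y
        simp only [prin, submatrix_apply, hf]
      have h1 : (prin M A).rank = A.card := by
        rw [rank_of_det_ne_zero hdet, Fintype.card_coe]
      calc k = (prin M A).rank := by rw [h1, hAk]
        _ ≤ _ := by rw [hsub]; exact rank_submatrix_le _ _ _
  · rw [hdel]
    -- coefficients
    have hne : ∀ x : Fin (n + 1), x ∈ A → ∃ y : Fin n, i.succAbove y = x := by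
      intro a ha
      have : a ≠ i := fun h => hi (h ▸ ha)
      exact Fin.exists_succAbove_eq this
    let c : Fin n → ℚ := fun y => if h : i.succAbove y ∈ A then
      (prin M A).det⁻¹ * ((prin M A).adjugate *ᵥ (fun a : A => M a i)) ⟨i.succAbove y, h⟩ else 0
    refine ⟨c, ?_⟩
    funext x
    rw [mulVecLin_apply, mulVec, dotProduct]
    have h1 : bq (colb i b) x = M (i.succAbove x) i := by
      have h0 : b s(i.succAbove x, i) = b s(i, i.succAbove x) := by rw [Sym2.eq_swap]
      change (if b s(i, i.succAbove x) = true then (1 : ℚ) else 0) =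
        (((if b s(i.succAbove x, i) = true then (1 : ℤ) else 0) : ℤ) : ℚ)
      rw [h0]
      cases b s(i, i.succAbove x) <;> simp
    rw [h1]
    have h2 := hbase (i.succAbove x) (mem_univ _) i (mem_univ _)
    have h3 : M (i.succAbove x) i = (prin M A).det⁻¹ * schur M A (i.succAbove x) i := by
      rw [← h2, ← mul_assoc, inv_mul_cancel₀ hdet, one_mul]
    rw [h3]
    unfold schur
    rw [dotProduct, mul_sum]
    -- sum over `A`
    let G : Fin (n + 1) → ℚ := fun z => if h : z ∈ A then (prin M A).det⁻¹ * (M (i.succAbove x) z *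
          ((prin M A).adjugate *ᵥ fun a : A => M a i) ⟨z, h⟩) else 0
    have h4 : ∑ a : A, (prin M A).det⁻¹ * (M (i.succAbove x) a *
        ((prin M A).adjugate *ᵥ fun a : A => M a i) a) = ∑ z : Fin (n + 1), G z := by
      rw [← Finset.sum_subset (subset_univ A) (fun z _ hz => by simp only [G, dif_neg hz]),
        ← Finset.sum_coe_sort A G]
      refine sum_congr rfl fun a _ => ?_
      simp only [G, dif_pos a.2]
    rw [h4, Fin.sum_univ_succAbove G i]
    have h5 : G i = 0 := by simp only [G, dif_neg hi]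
    rw [h5, zero_add]
    refine sum_congr rfl fun y _ => ?_
    simp only [G, c, submatrix_apply]
    by_cases h : i.succAbove y ∈ A
    · rw [dif_pos h, dif_pos h]; ring
    · rw [dif_neg h, dif_neg h, mul_zero]

/-- number of arrays of rank `k` -/
noncomputable def cnt (n k : ℕ) : ℕ :=
  ((univ : Finset (Sym2 (Fin n) → Bool)).filter fun b => rk b = k).card

theorem cnt_step (n k : ℕ) (hk : k ≤ n) : cnt (n + 1) k ≤ (n + 1) * 2 ^ (k + 1) * cnt n k := by
  classical
  let S : Fin (n + 1) → Finset (Sym2 (Fin (n + 1)) → Bool) := fun i =>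
    univ.filter fun b => rk (del i b) = k ∧
      bq (colb i b) ∈ LinearMap.range ((matZ (del i b)).map (Int.cast : ℤ → ℚ)).mulVecLin
  have h1 : ((univ : Finset (Sym2 (Fin (n + 1)) → Bool)).filter fun b => rk b = k) ⊆
      univ.biUnion S := by
    intro b hb
    obtain ⟨i, h⟩ := exists_del hk b (mem_filter.1 hb).2
    exact mem_biUnion.2 ⟨i, mem_univ _, mem_filter.2 ⟨mem_univ _, h⟩⟩
  have h2 : ∀ i, (S i).card ≤ 2 ^ (k + 1) * cnt n k := by
    intro i
    have h3 : ∀ c ∈ ((univ : Finset (Sym2 (Fin n) → Bool)).filter fun b => rk b = k),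
        ((S i).filter fun b => del i b = c).card ≤ 2 ^ (k + 1) := by
      intro c hc
      set U := LinearMap.range ((matZ c).map (Int.cast : ℤ → ℚ)).mulVecLin with hU
      have hfin : Module.finrank ℚ U = k := (mem_filter.1 hc).2
      have h4 : ((S i).filter fun b => del i b = c).card ≤
          ((pts U 0) ×ˢ (univ : Finset Bool)).card := by
        apply Finset.card_le_card_of_injOn (fun b => (colb i b, b s(i, i)))
        · intro b hb
          have hb1 := mem_filter.1 (Finset.mem_coe.1 hb)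
          have hb2 := (mem_filter.1 hb1.1).2.2
          rw [hb1.2] at hb2
          refine mem_coe.2 (mem_product.2 ⟨?_, mem_univ _⟩)
          rw [mem_pts, sub_zero]
          exact hb2
        · intro b hb b' hb' heq
          have hb1 := mem_filter.1 (Finset.mem_coe.1 hb)
          have hb1' := mem_filter.1 (Finset.mem_coe.1 hb')
          have he := Prod.ext_iff.1 heq
          exact ext_del i (hb1.2.trans hb1'.2.symm) he.1 he.2
      refine h4.trans ?_
      rw [card_product, card_univ, Fintype.card_bool, pow_succ]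
      exact Nat.mul_le_mul_right 2 ((card_pts_le U 0).trans (by rw [hfin]))
    have h5 := Finset.card_eq_sum_card_fiberwise (s := S i) (f := del i)
      (t := (univ : Finset (Sym2 (Fin n) → Bool)).filter fun b => rk b = k) (by
        intro b hb
        exact mem_coe.2 (mem_filter.2 ⟨mem_univ _, (mem_filter.1 (mem_coe.1 hb)).2.1⟩))
    rw [h5]
    refine (sum_le_sum h3).trans ?_
    rw [sum_const, smul_eq_mul, mul_comm]
    exact le_of_eq (by simp only [cnt])
  calc cnt (n + 1) k ≤ (univ.biUnion S).card := card_le_card h1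
    _ ≤ ∑ i, (S i).card := card_biUnion_le
    _ ≤ ∑ _i : Fin (n + 1), 2 ^ (k + 1) * cnt n k := sum_le_sum fun i _ => h2 i
    _ = (n + 1) * 2 ^ (k + 1) * cnt n k := by
      rw [sum_const, card_univ, Fintype.card_fin, smul_eq_mul, mul_assoc]

/-- density of the arrays of rank `k` -/
noncomputable def D (n k : ℕ) : ℝ := (cnt n k : ℝ) / 2 ^ Fintype.card (Sym2 (Fin n))

theorem D_nonneg (n k : ℕ) : 0 ≤ D n k := by unfold D; positivity

theorem D_le_one (n k : ℕ) : D n k ≤ 1 := by
  classical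
  unfold D
  rw [div_le_one (by positivity)]
  have h : cnt n k ≤ 2 ^ Fintype.card (Sym2 (Fin n)) := by
    unfold cnt
    refine (card_filter_le _ _).trans ?_
    rw [card_univ, Fintype.card_fun, Fintype.card_bool]
  exact_mod_cast h

theorem card_sym (n : ℕ) : Fintype.card (Sym2 (Fin (n + 1))) = Fintype.card (Sym2 (Fin n)) + (n + 1) := by
  rw [Sym2.card, Sym2.card, Fintype.card_fin, Fintype.card_fin, Nat.choose_succ_succ' (n + 1) 1,
    Nat.choose_one_right, Nat.add_comm]

theorem D_step (n k : ℕ) (hk : k ≤ n) :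
    D (n + 1) k ≤ ((n : ℝ) + 1) * (1 / 2) ^ (n - k) * D n k := by
  unfold D
  rw [card_sym, pow_add, div_le_iff₀ (by positivity)]
  have h := cnt_step n k hk
  have h' : (cnt (n + 1) k : ℝ) ≤ ((n : ℝ) + 1) * 2 ^ (k + 1) * cnt n k := by exact_mod_cast h
  refine h'.trans (le_of_eq ?_)
  have h2 : (2 : ℝ) ^ (n + 1) = 2 ^ (n - k) * 2 ^ (k + 1) := by
    rw [← pow_add]; congr 1; omega
  rw [h2, one_div, inv_pow]
  field_simp

theorem D_iter (k N : ℕ) : ∀ m : ℕ, k + 1 + m ≤ N →
    D (k + 1 + m) k ≤ (∏ t ∈ range m, ((N : ℝ) * (1 / 2) ^ (t + 1))) * D (k + 1) k := by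
  intro m
  induction m with
  | zero => intro _; simp
  | succ m ih =>
    intro hN
    have h1 := D_step (k + 1 + m) k (by omega)
    have h2 := ih (by omega)
    rw [prod_range_succ]
    have h3 : k + 1 + m - k = m + 1 := by omega
    rw [h3] at h1
    have h4 : ((k + 1 + m : ℕ) : ℝ) + 1 ≤ N := by exact_mod_cast hN
    calc D (k + 1 + (m + 1)) k ≤ (((k + 1 + m : ℕ) : ℝ) + 1) * (1 / 2) ^ (m + 1) * D (k + 1 + m) k := h1
      _ ≤ ((N : ℝ) * (1 / 2) ^ (m + 1)) *
          ((∏ t ∈ range m, ((N : ℝ) * (1 / 2) ^ (t + 1))) * D (k + 1) k) := by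
        apply mul_le_mul (mul_le_mul_of_nonneg_right h4 (by positivity)) h2 (D_nonneg _ _) (by positivity)
      _ = _ := by ring

theorem prod_half_le (x : ℕ) (hx : 1 ≤ x) (m : ℕ) :
    ∏ t ∈ range m, ((x : ℝ) * (1 / 2) ^ (t + 1)) ≤ (x : ℝ) ^ Nat.log 2 x := by
  have hx' : (1 : ℝ) ≤ x := by exact_mod_cast hx
  have key : ∀ m : ℕ, ∏ t ∈ range m, ((x : ℝ) * (1 / 2) ^ (t + 1)) ≤ (x : ℝ) ^ (min m (Nat.log 2 x)) := by
    intro m
    induction m with
    | zero => simp
    | succ m ih =>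
      rw [prod_range_succ]
      rcases lt_or_ge m (Nat.log 2 x) with h | h
      · rw [min_eq_left h.le] at ih
        rw [min_eq_left (show m + 1 ≤ Nat.log 2 x from h), pow_succ]
        apply mul_le_mul ih _ (by positivity) (by positivity)
        have h0 : ((1 : ℝ) / 2) ^ (m + 1) ≤ 1 := pow_le_one₀ (by norm_num) (by norm_num)
        calc (x : ℝ) * (1 / 2) ^ (m + 1) ≤ x * 1 := mul_le_mul_of_nonneg_left h0 (by positivity)
          _ = x := mul_one _
      · rw [min_eq_right h] at ih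
        rw [min_eq_right (h.trans (Nat.le_succ m))]
        have h1 : x < 2 ^ (m + 1) :=
          (Nat.lt_pow_succ_log_self (by norm_num) x).trans_le
            (Nat.pow_le_pow_right (by norm_num) (Nat.succ_le_succ h))
        have h2 : (x : ℝ) * (1 / 2) ^ (m + 1) ≤ 1 := by
          rw [one_div, inv_pow, ← div_eq_mul_inv, div_le_one (by positivity)]
          exact_mod_cast h1.le
        calc _ ≤ (x : ℝ) ^ (Nat.log 2 x) * 1 :=
              mul_le_mul ih h2 (by positivity) (by positivity)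
          _ = _ := mul_one _
  exact (key m).trans (pow_le_pow_right₀ hx' (min_le_right _ _))

theorem growth (K δ : ℝ) (hK : 1 ≤ K) (hδ : 0 < δ) : ∃ n₁ : ℕ, ∀ n : ℕ, n₁ ≤ n →
    (n : ℝ) * K * ((2 * n : ℕ) : ℝ) ^ (Nat.log 2 (2 * n)) ≤ (2 : ℝ) ^ (δ * n) := by
  have hl2 : (0 : ℝ) < Real.log 2 := Real.log_pos (by norm_num)
  have hl2' : (1 : ℝ) / 2 < Real.log 2 := by
    have := Real.log_two_gt_d9
    linarith
  have hc : (0 : ℝ) < δ * Real.log 2 / 8 := by positivity
  have h1 := (Real.isLittleO_pow_log_id_atTop (n := 2)).bound hc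
  have h2 : ∀ᶠ x : ℝ in Filter.atTop, max 1 (Real.log K) ≤ Real.log x :=
    Real.tendsto_log_atTop.eventually_ge_atTop _
  obtain ⟨x₀, hx₀⟩ := Filter.eventually_atTop.1 (h1.and h2)
  refine ⟨⌈x₀⌉₊ + 1, fun n hn => ?_⟩
  have hn1 : (1 : ℝ) ≤ n := by exact_mod_cast (show 1 ≤ n by omega)
  have hx : x₀ ≤ ((2 * n : ℕ) : ℝ) := by
    have : x₀ ≤ (⌈x₀⌉₊ : ℝ) := Nat.le_ceil _
    have h' : ((⌈x₀⌉₊ : ℕ) : ℝ) ≤ n := by exact_mod_cast (show ⌈x₀⌉₊ ≤ n by omega)
    push_cast
    linarith
  obtain ⟨ha, hb⟩ := hx₀ _ hx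
  set y := Real.log ((2 * n : ℕ) : ℝ) with hy
  have hypos : (0 : ℝ) < ((2 * n : ℕ) : ℝ) := by push_cast; linarith
  have hy1 : 1 ≤ y := (le_max_left _ _).trans hb
  have hyK : Real.log K ≤ y := (le_max_right _ _).trans hb
  have ha' : y ^ 2 ≤ δ * Real.log 2 / 8 * (2 * n) := by
    have h3 := ha
    rw [Real.norm_eq_abs, abs_of_nonneg (by positivity)] at h3
    simp only [id, Real.norm_eq_abs] at h3
    rw [abs_of_pos hypos] at h3
    push_cast at h3 ⊢
    simpa [hy] using h3
  have hL : (Nat.log 2 (2 * n) : ℝ) ≤ y / Real.log 2 := by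
    have h4 := Real.natLog_le_logb (2 * n) 2
    simpa [Real.logb, hy] using h4
  have hnlog : Real.log n ≤ y := by
    rw [hy]
    apply Real.log_le_log (by linarith)
    push_cast
    linarith
  have hexp : (n : ℝ) * K * ((2 * n : ℕ) : ℝ) ^ (Nat.log 2 (2 * n)) =
      Real.exp (Real.log n + Real.log K + Nat.log 2 (2 * n) * y) := by
    rw [Real.exp_add, Real.exp_add, Real.exp_log (by linarith), Real.exp_log (by linarith),
      Real.exp_nat_mul, hy, Real.exp_log hypos]
  rw [hexp, Real.rpow_def_of_pos (by norm_num), Real.exp_le_exp]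
  have h5 : (Nat.log 2 (2 * n) : ℝ) * y ≤ 2 * y ^ 2 := by
    have h6 : y / Real.log 2 ≤ 2 * y := by
      rw [div_le_iff₀ hl2]
      nlinarith
    nlinarith
  nlinarith

theorem rk_lt {n : ℕ} (b : Sym2 (Fin n) → Bool) (h : (matZ b).det = 0) : rk b < n := by
  have h0 : ((matZ b).map (Int.cast : ℤ → ℚ)).det = 0 := by
    have := congrArg (Int.cast : ℤ → ℚ) h
    rw [Int.cast_zero] at this
    rw [← this]
    exact (RingHom.map_det (Int.castRingHom ℚ) (matZ b)).symm
  obtain ⟨v, hv, hv0⟩ := Matrix.exists_mulVec_eq_zero_iff.2 h0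
  set L := ((matZ b).map (Int.cast : ℤ → ℚ)).mulVecLin with hL
  have h1 := LinearMap.finrank_range_add_finrank_ker L
  rw [Module.finrank_fintype_fun_eq_card, Fintype.card_fin] at h1
  have h2 : 0 < Module.finrank ℚ (LinearMap.ker L) := by
    rw [Module.finrank_pos_iff_exists_ne_zero]
    exact ⟨⟨v, by rw [LinearMap.mem_ker]; exact hv0⟩, fun h => hv (congrArg Subtype.val h)⟩
  have h3 : rk b = Module.finrank ℚ (LinearMap.range L) := rfl
  omega

/-- **Reduction of the exponential rate to corank one.** -/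
theorem sing_of_corank_one (h : ∀ ε : ℝ, 0 < ε → ∃ n₀ : ℕ, ∀ n : ℕ, n₀ ≤ n →
      (((univ : Finset (Sym2 (Fin (n + 1)) → Bool)).filter fun b => rk b = n).card : ℝ) ≤
        (2 : ℝ) ^ (-((1 - ε) * ((n : ℝ) + 1))) * 2 ^ Fintype.card (Sym2 (Fin (n + 1)))) :
    ∀ ε : ℝ, 0 < ε → ∃ n₀ : ℕ, ∀ n : ℕ, n₀ ≤ n →
      (((univ : Finset (Sym2 (Fin n) → Bool)).filter fun b => (matZ b).det = 0).card : ℝ) ≤
        (2 : ℝ) ^ (-((1 - ε) * (n : ℝ))) * 2 ^ Fintype.card (Sym2 (Fin n)) := by
  intro ε hε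
  set δ : ℝ := min ε 1 / 4 with hδ
  have hδ0 : 0 < δ := by rw [hδ]; have : 0 < min ε 1 := lt_min hε one_pos; positivity
  have hδ1 : δ ≤ 1 / 4 := by rw [hδ]; have : min ε 1 ≤ 1 := min_le_right _ _; linarith
  have hδε : 2 * δ ≤ ε := by rw [hδ]; have : min ε 1 ≤ ε := min_le_left _ _; linarith
  obtain ⟨n₀, hn₀⟩ := h δ hδ0
  have hD : ∀ k : ℕ, D (k + 1) k ≤ 2 ^ (n₀ + 1) * (2 : ℝ) ^ (-((1 - δ) * ((k : ℝ) + 1))) := by
    intro k
    rcases le_or_gt n₀ k with hk | hk
    · have h1 := hn₀ k hk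
      have h2 : D (k + 1) k ≤ (2 : ℝ) ^ (-((1 - δ) * ((k : ℝ) + 1))) := by
        unfold D
        rw [div_le_iff₀ (by positivity)]
        refine le_trans (le_of_eq ?_) h1
        rfl
      refine h2.trans ?_
      have h3 : (1 : ℝ) ≤ 2 ^ (n₀ + 1) := one_le_pow₀ (by norm_num)
      have h4 : (0 : ℝ) < (2 : ℝ) ^ (-((1 - δ) * ((k : ℝ) + 1))) := by positivity
      nlinarith
    · refine (D_le_one _ _).trans ?_
      have h3 : (2 : ℝ) ^ (n₀ + 1) * (2 : ℝ) ^ (-((1 - δ) * ((k : ℝ) + 1))) =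
          (2 : ℝ) ^ ((n₀ : ℝ) + 1 - (1 - δ) * ((k : ℝ) + 1)) := by
        rw [← Real.rpow_natCast, ← Real.rpow_add (by norm_num)]
        congr 1
        push_cast
        ring
      rw [h3]
      apply Real.one_le_rpow (by norm_num)
      have h4 : (k : ℝ) + 1 ≤ n₀ := by exact_mod_cast hk
      have h5 : (0 : ℝ) ≤ k := Nat.cast_nonneg k
      nlinarith
  obtain ⟨n₁, hn₁⟩ := growth (2 ^ (n₀ + 1)) δ (one_le_pow₀ (by norm_num)) hδ0
  refine ⟨n₁ + 1, fun n hn => ?_⟩
  have hn0 : (1 : ℝ) ≤ n := by exact_mod_cast (show 1 ≤ n by omega)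
  -- every rank
  have hk : ∀ k ∈ range n, D n k ≤ 2 ^ (n₀ + 1) * (2 : ℝ) ^ (-((1 - δ) * (n : ℝ))) *
      ((2 * n : ℕ) : ℝ) ^ Nat.log 2 (2 * n) := by
    intro k hk
    obtain ⟨m, rfl⟩ : ∃ m, n = k + 1 + m := ⟨n - (k + 1), by have := mem_range.1 hk; omega⟩
    have h1 := D_iter k (k + 1 + m) m le_rfl
    have h2 := hD k
    have h3 := prod_half_le (2 * (k + 1 + m)) (by omega) m
    have h4 : ∏ t ∈ range m, (((2 * (k + 1 + m) : ℕ) : ℝ) * (1 / 2) ^ (t + 1)) =
        2 ^ m * ∏ t ∈ range m, (((k + 1 + m : ℕ) : ℝ) * (1 / 2) ^ (t + 1)) := by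
      rw [← Finset.card_range m, ← Finset.prod_const, Finset.card_range, ← Finset.prod_mul_distrib]
      refine prod_congr rfl fun t _ => ?_
      push_cast
      ring
    have hP : 0 ≤ ∏ t ∈ range m, (((k + 1 + m : ℕ) : ℝ) * (1 / 2) ^ (t + 1)) :=
      prod_nonneg fun t _ => by positivity
    have h5 : (2 : ℝ) ^ (-((1 - δ) * ((k : ℝ) + 1))) ≤
        (2 : ℝ) ^ (-((1 - δ) * ((k + 1 + m : ℕ) : ℝ))) * 2 ^ m := by
      rw [← Real.rpow_natCast 2 m, ← Real.rpow_add (by norm_num)]
      apply Real.rpow_le_rpow_of_exponent_le (by norm_num)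
      push_cast
      have : (0 : ℝ) ≤ m := Nat.cast_nonneg m
      nlinarith
    calc D (k + 1 + m) k ≤ (∏ t ∈ range m, (((k + 1 + m : ℕ) : ℝ) * (1 / 2) ^ (t + 1))) * D (k + 1) k := h1
      _ ≤ (∏ t ∈ range m, (((k + 1 + m : ℕ) : ℝ) * (1 / 2) ^ (t + 1))) *
          (2 ^ (n₀ + 1) * ((2 : ℝ) ^ (-((1 - δ) * ((k + 1 + m : ℕ) : ℝ))) * 2 ^ m)) := by
        apply mul_le_mul_of_nonneg_left _ hP
        exact h2.trans (mul_le_mul_of_nonneg_left h5 (by positivity))
      _ = 2 ^ (n₀ + 1) * (2 : ℝ) ^ (-((1 - δ) * ((k + 1 + m : ℕ) : ℝ))) *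
          (2 ^ m * ∏ t ∈ range m, (((k + 1 + m : ℕ) : ℝ) * (1 / 2) ^ (t + 1))) := by ring
      _ ≤ _ := by
        rw [← h4]
        exact mul_le_mul_of_nonneg_left h3 (by positivity)
  have hsub : ((univ : Finset (Sym2 (Fin n) → Bool)).filter fun b => (matZ b).det = 0) ⊆
      (range n).biUnion fun k => univ.filter fun b => rk b = k := by
    intro b hb
    exact mem_biUnion.2 ⟨rk b, mem_range.2 (rk_lt b (mem_filter.1 hb).2),
      mem_filter.2 ⟨mem_univ _, rfl⟩⟩
  have hcard : (((univ : Finset (Sym2 (Fin n) → Bool)).filter fun b => (matZ b).det = 0).card : ℝ) ≤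
      (∑ k ∈ range n, D n k) * 2 ^ Fintype.card (Sym2 (Fin n)) := by
    rw [sum_mul]
    have h1 := (card_le_card hsub).trans card_biUnion_le
    have h2 : ∀ k, D n k * 2 ^ Fintype.card (Sym2 (Fin n)) = (cnt n k : ℝ) := by
      intro k
      unfold D
      field_simp
    rw [sum_congr rfl fun k _ => h2 k, ← Nat.cast_sum]
    refine Nat.cast_le.2 (h1.trans (le_of_eq (sum_congr rfl fun k _ => ?_)))
    rfl
  refine hcard.trans (mul_le_mul_of_nonneg_right ?_ (by positivity))
  refine (sum_le_sum hk).trans ?_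
  rw [sum_const, card_range, nsmul_eq_mul]
  have h6 := hn₁ n (by omega)
  calc (n : ℝ) * (2 ^ (n₀ + 1) * (2 : ℝ) ^ (-((1 - δ) * (n : ℝ))) *
        ((2 * n : ℕ) : ℝ) ^ Nat.log 2 (2 * n)) =
        ((n : ℝ) * 2 ^ (n₀ + 1) * ((2 * n : ℕ) : ℝ) ^ Nat.log 2 (2 * n)) *
          (2 : ℝ) ^ (-((1 - δ) * (n : ℝ))) := by ring
    _ ≤ (2 : ℝ) ^ (δ * n) * (2 : ℝ) ^ (-((1 - δ) * (n : ℝ))) :=
        mul_le_mul_of_nonneg_right h6 (by positivity)
    _ = (2 : ℝ) ^ (-((1 - 2 * δ) * (n : ℝ))) := by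
        rw [← Real.rpow_add (by norm_num)]
        congr 1
        ring
    _ ≤ _ := by
        apply Real.rpow_le_rpow_of_exponent_le (by norm_num)
        nlinarith

end Vale.Agent.P160.Half.CO
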