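import Vale.Agent.P160.Half.GStmt2

/-! # P160, half rate, gap (G), leaves G2, G2': `core : RowsStmt → CoreStmt`, `core2 : RowsStmt2 → CoreStmt2` (helper572) -/

open Finset Matrix

namespace Vale.Agent.P160.Half.G.Core572

open Vale.Agent.P160.Half.G

/-- `bdot x` as a linear map -/
def bdotL {R ι : Type*} [CommRing R] [Fintype ι] (x : ι → Bool) : (ι → R) →ₗ[R] R where
  toFun := bdot x
  map_add' u v := by
    unfold bdot
    rw [← Finset.sum_add_distrib]
    refine Finset.sum_congr rfl fun i _ => ?_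
    split_ifs <;> simp
  map_smul' c u := by
    unfold bdot
    rw [RingHom.id_apply, smul_eq_mul, Finset.mul_sum]
    refine Finset.sum_congr rfl fun i _ => ?_
    split_ifs <;> simp

lemma bdotL_apply {R ι : Type*} [CommRing R] [Fintype ι] (x : ι → Bool) (w : ι → R) :
    bdotL x w = bdot x w := rfl

/-- greedy choice of at most `dim U` functionals without common zero on `U` -/
theorem greedy {K V ρ : Type*} [Field K] [AddCommGroup V] [Module K V] [FiniteDimensional K V]
    [DecidableEq ρ] (f : ρ → V →ₗ[K] K) (m : ℕ) : ∀ U : Submodule K V, Module.finrank K U ≤ m →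
    (∀ w ∈ U, (∀ s, f s w = 0) → w = 0) →
    ∃ S : Finset ρ, S.card ≤ m ∧ ∀ w ∈ U, (∀ s ∈ S, f s w = 0) → w = 0 := by
  induction m with
  | zero =>
    intro U hU _
    refine ⟨∅, by simp, fun w hw _ => ?_⟩
    have h0 : U = ⊥ := Submodule.finrank_eq_zero.1 (Nat.le_zero.1 hU)
    rw [h0] at hw
    simpa using hw
  | succ m ih =>
    intro U hU hz
    by_cases h0 : U = ⊥
    · refine ⟨∅, by simp, fun w hw _ => ?_⟩
      rw [h0] at hw
      simpa using hw
    · obtain ⟨w, hwU, hw0⟩ := U.ne_bot_iff.1 h0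
      have hs : ∃ s, f s w ≠ 0 := by
        by_contra hcon
        push Not at hcon
        exact hw0 (hz w hwU hcon)
      obtain ⟨s, hs⟩ := hs
      have hlt : U ⊓ LinearMap.ker (f s) < U := by
        refine lt_of_le_of_ne inf_le_left fun he => hs ?_
        have : w ∈ U ⊓ LinearMap.ker (f s) := by rw [he]; exact hwU
        exact this.2
      have hfr := Submodule.finrank_lt_finrank_of_lt hlt
      obtain ⟨S, hS, hS2⟩ := ih (U ⊓ LinearMap.ker (f s)) (by omega)
        (fun v hv h => hz v hv.1 h)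
      refine ⟨insert s S, (card_insert_le _ _).trans (by omega), fun v hv h => ?_⟩
      exact hS2 v ⟨hv, h s (mem_insert_self _ _)⟩ fun t ht => h t (mem_insert_of_mem ht)

/-- a bounded integer matrix with trivial rational kernel has nontrivial kernel modulo at most
`X n²` primes -/
theorem few_primes {ρ ι : Type} [Fintype ρ] [DecidableEq ρ] [Fintype ι] [DecidableEq ι]
    (M : Matrix ρ ι ℤ) (X : ℕ) (hM : ∀ i j, |M i j| ≤ X)
    (hk : ∀ w : ι → ℚ, M.map (Int.cast : ℤ → ℚ) *ᵥ w = 0 → w = 0) :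
    ∃ B : Finset ℕ, B.card ≤ X * Fintype.card ι ^ 2 ∧ (∀ p ∈ B, p.Prime) ∧
      ∀ p : ℕ, p.Prime → (∃ w : ι → ZMod p, w ≠ 0 ∧ M.map (Int.cast : ℤ → ZMod p) *ᵥ w = 0) →
        p ∈ B := by
  classical
  set n := Fintype.card ι with hn
  -- the functionals
  let f : ρ → (ι → ℚ) →ₗ[ℚ] ℚ := fun i =>
    (LinearMap.proj i).comp (M.map (Int.cast : ℤ → ℚ)).mulVecLin
  have hf : ∀ i w, f i w = (M.map (Int.cast : ℤ → ℚ) *ᵥ w) i := fun i w => rfl
  obtain ⟨S, hS, hS2⟩ := greedy f n ⊤ (by rw [finrank_top, Module.finrank_fintype_fun_eq_card])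
    (fun w _ h => hk w (funext fun i => by rw [← hf]; exact h i))
  have hS3 : ∀ w : ι → ℚ, (∀ s ∈ S, f s w = 0) → w = 0 := fun w h => hS2 w trivial h
  -- cardinality
  let g : (ι → ℚ) →ₗ[ℚ] (S → ℚ) := LinearMap.pi fun s : S => f s
  have hg : Function.Injective g := by
    rw [← LinearMap.ker_eq_bot, LinearMap.ker_eq_bot']
    intro w hw
    exact hS3 w fun s hs => by
      have := congrFun hw ⟨s, hs⟩
      exact this
  have hle : n ≤ S.card := by
    have := LinearMap.finrank_le_finrank_of_injective hg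
    rw [Module.finrank_fintype_fun_eq_card, Module.finrank_fintype_fun_eq_card, Fintype.card_coe]
      at this
    exact this
  have hcard : Fintype.card ι = Fintype.card S := by rw [Fintype.card_coe]; omega
  let e : ι ≃ S := Fintype.equivOfCardEq hcard
  let D : Matrix ι ι ℤ := M.submatrix (fun i => ((e i : S) : ρ)) id
  have hD0 : D.det ≠ 0 := by
    intro h0
    have h1 : (D.map (Int.cast : ℤ → ℚ)).det = 0 := by
      have := (Int.castRingHom ℚ).map_det D
      rw [h0, map_zero] at this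
      exact this.symm
    obtain ⟨v, hv, hv2⟩ := Matrix.exists_mulVec_eq_zero_iff.2 h1
    refine hv (hS3 v fun s hs => ?_)
    have h2 := congrFun hv2 (e.symm ⟨s, hs⟩)
    have h3 : (D.map (Int.cast : ℤ → ℚ) *ᵥ v) (e.symm ⟨s, hs⟩) =
        (M.map (Int.cast : ℤ → ℚ) *ᵥ v) s := by
      simp [D, Matrix.mulVec, dotProduct]
    rw [hf, ← h3, h2]; rfl
  have habs : D.det.natAbs ≤ 2 ^ (X * n ^ 2) := by
    have h1 := Matrix.det_le (A := D) (abv := AbsoluteValue.abs) (x := (X : ℤ)) (fun i j => by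
      change |D i j| ≤ X
      exact hM ((e i : S) : ρ) j)
    have h2 : ((D.det.natAbs : ℕ) : ℤ) ≤ (n.factorial : ℤ) * (X : ℤ) ^ n := by
      rw [Int.natCast_natAbs]
      simpa using h1
    have h3 : D.det.natAbs ≤ n.factorial * X ^ n := by exact_mod_cast h2
    refine h3.trans ((Nat.mul_le_mul_right _ (Nat.factorial_le_pow n)).trans ?_)
    rw [← mul_pow, show X * n ^ 2 = (n * X) * n by ring, pow_mul]
    exact Nat.pow_le_pow_left (Nat.lt_two_pow_self (n := n * X)).le n
  refine ⟨D.det.natAbs.primeFactors, ?_, fun p hp => Nat.prime_of_mem_primeFactors hp, ?_⟩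
  · have h1 : 2 ^ D.det.natAbs.primeFactors.card ≤ D.det.natAbs := by
      refine le_trans ?_ (Nat.le_of_dvd (Int.natAbs_pos.2 hD0)
        (Nat.prod_primeFactors_dvd D.det.natAbs))
      rw [← Finset.prod_const]
      exact Finset.prod_le_prod' fun p hp => (Nat.prime_of_mem_primeFactors hp).two_le
    exact (Nat.pow_le_pow_iff_right (by norm_num)).1 (h1.trans habs)
  · rintro p hp ⟨w, hw0, hw⟩
    have : Fact p.Prime := ⟨hp⟩
    have h1 : (D.map (Int.cast : ℤ → ZMod p)).det = 0 := by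
      refine Matrix.exists_mulVec_eq_zero_iff.1 ⟨w, hw0, ?_⟩
      funext i
      have h3 : (D.map (Int.cast : ℤ → ZMod p) *ᵥ w) i =
          (M.map (Int.cast : ℤ → ZMod p) *ᵥ w) ((e i : S) : ρ) := by
        simp [D, Matrix.mulVec, dotProduct]
      rw [h3, hw]; rfl
    have h2 : ((D.det : ℤ) : ZMod p) = 0 := by
      rw [← h1]
      exact (Int.castRingHom (ZMod p)).map_det D
    rw [ZMod.intCast_zmod_eq_zero_iff_dvd] at h2
    exact Nat.mem_primeFactors.2 ⟨hp, Int.natCast_dvd.1 h2, by simpa using hD0⟩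

/-- the union bound -/
theorem count {σ X : Type} [Fintype σ] [DecidableEq σ] [Fintype X] [DecidableEq X]
    (P : (σ → X) → Prop) (k N : ℕ) (C : ℝ) (hC : 0 ≤ C)
    (B : (S : Finset σ) → ({s // s ∈ S} → X) → Finset ℕ) (hB : ∀ S ξ, (B S ξ).card ≤ N)
    (Good : ℕ → Prop) (G : ℕ → (S : Finset σ) → ({s // s ∉ S} → X) → Prop)
    (hP : ∀ x, P x → ∃ S : Finset σ, S.card ≤ k ∧ ∃ p ∈ B S (fun s => x s), Good p ∧
      G p S (fun s => x s))
    (hG : ∀ p, Good p → ∀ S : Finset σ, S.card ≤ k →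
      (Nat.card {η // G p S η} : ℝ) ≤ C * (Fintype.card X : ℝ) ^ (Fintype.card σ - S.card)) :
    (Nat.card {x // P x} : ℝ) ≤
      N * 2 ^ Fintype.card σ * C * (Fintype.card X : ℝ) ^ Fintype.card σ := by
  classical
  let glue : (S : Finset σ) → ({s // s ∈ S} → X) → ({s // s ∉ S} → X) → (σ → X) :=
    fun S ξ η s => if h : s ∈ S then ξ ⟨s, h⟩ else η ⟨s, h⟩
  have hsub : univ.filter P ⊆
      (univ.filter fun S : Finset σ => S.card ≤ k).biUnion fun S =>
        (univ : Finset ({s // s ∈ S} → X)).biUnion fun ξ =>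
          ((B S ξ).filter Good).biUnion fun p =>
            (univ.filter (G p S)).image (glue S ξ) := by
    intro x hx
    rw [mem_filter] at hx
    obtain ⟨S, hS, p, hp, hg, hG⟩ := hP x hx.2
    simp only [mem_biUnion, mem_filter, mem_univ, true_and, mem_image]
    refine ⟨S, hS, fun s => x s, p, ⟨hp, hg⟩, fun s => x s, hG, ?_⟩
    funext s
    by_cases h : s ∈ S <;> simp [glue, h]
  have h1 : (univ.filter P).card ≤ ∑ S ∈ univ.filter (fun S : Finset σ => S.card ≤ k),
      ∑ ξ : {s // s ∈ S} → X, ∑ p ∈ (B S ξ).filter Good, (univ.filter (G p S)).card :=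
    (card_le_card hsub).trans (card_biUnion_le.trans (sum_le_sum fun S _ =>
      card_biUnion_le.trans (sum_le_sum fun ξ _ => card_biUnion_le.trans
        (sum_le_sum fun p _ => card_image_le))))
  have h2 : (Nat.card {x // P x} : ℝ) = ((univ.filter P).card : ℝ) := by
    rw [Nat.card_eq_fintype_card, Fintype.card_subtype]
  have h3 : ∀ p S, ((univ.filter (G p S)).card : ℝ) = Nat.card {η // G p S η} := by
    intro p S
    rw [Nat.card_eq_fintype_card, Fintype.card_subtype]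
  rw [h2]
  refine le_trans (by exact_mod_cast h1 : ((univ.filter P).card : ℝ) ≤
    ((∑ S ∈ univ.filter (fun S : Finset σ => S.card ≤ k),
      ∑ ξ : {s // s ∈ S} → X, ∑ p ∈ (B S ξ).filter Good, (univ.filter (G p S)).card : ℕ) : ℝ)) ?_
  push_cast
  have hT : (0 : ℝ) ≤ (Fintype.card X : ℝ) := Nat.cast_nonneg _
  have h4 : ∀ S ∈ univ.filter (fun S : Finset σ => S.card ≤ k),
      (∑ ξ : {s // s ∈ S} → X, ∑ p ∈ (B S ξ).filter Good, ((univ.filter (G p S)).card : ℝ)) ≤
      N * C * (Fintype.card X : ℝ) ^ Fintype.card σ := by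
    intro S hS
    rw [mem_filter] at hS
    have h5 : ∀ ξ : {s // s ∈ S} → X,
        (∑ p ∈ (B S ξ).filter Good, ((univ.filter (G p S)).card : ℝ)) ≤
          N * (C * (Fintype.card X : ℝ) ^ (Fintype.card σ - S.card)) := by
      intro ξ
      refine (sum_le_card_nsmul _ _ (C * (Fintype.card X : ℝ) ^ (Fintype.card σ - S.card))
        fun p hp => ?_).trans ?_
      · rw [mem_filter] at hp
        rw [h3]
        exact hG p hp.2 S hS.2
      · rw [nsmul_eq_mul]
        refine mul_le_mul_of_nonneg_right ?_ (by positivity)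
        exact_mod_cast (card_filter_le _ _).trans (hB S ξ)
    refine (sum_le_sum fun ξ _ => h5 ξ).trans (le_of_eq ?_)
    rw [sum_const, card_univ, nsmul_eq_mul, Fintype.card_fun, Fintype.card_coe]
    have h6 : S.card + (Fintype.card σ - S.card) = Fintype.card σ := by
      have := card_le_univ S
      omega
    have h7 : (Fintype.card X : ℝ) ^ Fintype.card σ =
        (Fintype.card X : ℝ) ^ S.card * (Fintype.card X : ℝ) ^ (Fintype.card σ - S.card) := by
      rw [← pow_add, h6]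
    rw [h7]
    push_cast
    ring
  refine (sum_le_card_nsmul _ _ _ h4).trans ?_
  rw [nsmul_eq_mul]
  have h8 : ((univ.filter (fun S : Finset σ => S.card ≤ k)).card : ℝ) ≤ 2 ^ Fintype.card σ := by
    have := card_filter_le (univ : Finset (Finset σ)) (fun S : Finset σ => S.card ≤ k)
    rw [card_univ, Fintype.card_finset] at this
    exact_mod_cast this
  calc _ ≤ (2 : ℝ) ^ Fintype.card σ * (N * C * (Fintype.card X : ℝ) ^ Fintype.card σ) :=
        mul_le_mul_of_nonneg_right h8 (by positivity)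
    _ = _ := by ring

/-- the row functional -/
def row {R ι β : Type*} [CommRing R] [Fintype ι] [Fintype β] (x : ι → Bool) (f : β → R)
    (w : ι ⊕ β → R) : R := bdot x (w ∘ Sum.inl) + ∑ j, f j * w (Sum.inr j)

/-- the row functional, linear -/
def rowL {R ι β : Type*} [CommRing R] [Fintype ι] [Fintype β] (x : ι → Bool) (f : β → R) :
    (ι ⊕ β → R) →ₗ[R] R where
  toFun := row x f
  map_add' u v := by
    have := (bdotL (R := R) x).map_add (u ∘ Sum.inl) (v ∘ Sum.inl)
    simp only [bdotL_apply] at this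
    unfold row
    rw [show (u + v) ∘ Sum.inl = u ∘ Sum.inl + v ∘ Sum.inl from rfl, this]
    simp only [Pi.add_apply, mul_add, Finset.sum_add_distrib]
    ring
  map_smul' c u := by
    have := (bdotL (R := R) x).map_smul c (u ∘ Sum.inl)
    simp only [bdotL_apply] at this
    unfold row
    rw [show (c • u) ∘ Sum.inl = c • (u ∘ Sum.inl) from rfl, this]
    simp only [Pi.smul_apply, smul_eq_mul, RingHom.id_apply, mul_add, Finset.mul_sum]
    congr 1
    exact Finset.sum_congr rfl fun j _ => by ring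

/-- the integer matrix `[E; x_S]` -/
def mat {τ ι β σ : Type} (E : Matrix τ (ι ⊕ β) ℤ) (f : σ → β → ℤ) (S : Finset σ)
    (ξ : {s // s ∈ S} → ι → Bool) : Matrix (τ ⊕ {s // s ∈ S}) (ι ⊕ β) ℤ :=
  Sum.elim (fun t => E t) (fun s => Sum.elim (fun i => if ξ s i then 1 else 0) (fun j => f s j))

lemma mat_inl {R τ ι β σ : Type} [CommRing R] [Fintype ι] [Fintype β]
    (E : Matrix τ (ι ⊕ β) ℤ) (f : σ → β → ℤ) (S : Finset σ)
    (ξ : {s // s ∈ S} → ι → Bool) (w : ι ⊕ β → R) (t : τ) :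
    ((mat E f S ξ).map (Int.cast : ℤ → R) *ᵥ w) (Sum.inl t) =
      (E.map (Int.cast : ℤ → R) *ᵥ w) t := rfl

lemma mat_inr {R τ ι β σ : Type} [CommRing R] [Fintype ι] [Fintype β]
    (E : Matrix τ (ι ⊕ β) ℤ) (f : σ → β → ℤ) (S : Finset σ)
    (ξ : {s // s ∈ S} → ι → Bool) (w : ι ⊕ β → R) (s : {s // s ∈ S}) :
    ((mat E f S ξ).map (Int.cast : ℤ → R) *ᵥ w) (Sum.inr s) =
      row (ξ s) (fun j => (f s j : R)) w := by
  have h1 : ∀ i, ((mat E f S ξ).map (Int.cast : ℤ → R)) (Sum.inr s) (Sum.inl i) =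
      if ξ s i then 1 else 0 := by
    intro i
    change (((if ξ s i then 1 else 0 : ℤ)) : R) = _
    split_ifs <;> simp
  have h2 : ∀ j, ((mat E f S ξ).map (Int.cast : ℤ → R)) (Sum.inr s) (Sum.inr j) = (f s j : R) :=
    fun j => rfl
  simp only [Matrix.mulVec, dotProduct, Fintype.sum_sum_type, h1, h2, row, bdot, ite_mul, one_mul,
    zero_mul, Function.comp_apply]

lemma ker_rank {K τ κ : Type} [Field K] [Fintype τ] [Fintype κ] [DecidableEq κ] (A : Matrix τ κ K) (k : ℕ)
    (h : Fintype.card κ ≤ A.rank + k) : Module.finrank K (LinearMap.ker A.mulVecLin) ≤ k := by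
  have h1 := LinearMap.finrank_range_add_finrank_ker A.mulVecLin
  rw [Module.finrank_fintype_fun_eq_card] at h1
  have h2 : A.rank = Module.finrank K (LinearMap.range A.mulVecLin) := rfl
  omega

theorem core2 (hR : RowsStmt2) : CoreStmt2 := by
  classical
  intro τ ι β σ _ _ _ _ _ _ _ _ E f X y k hv q hX hE hf hq0 hq1 hv0 hat hrk hrQ
  set n := Fintype.card ι + Fintype.card β with hn
  have hcard : Fintype.card (ι ⊕ β) = n := Fintype.card_sum
  -- the bad primes
  have hB : ∀ (S : Finset σ) (ξ : {s // s ∈ S} → ι → Bool), ∃ B : Finset ℕ,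
      B.card ≤ X * n ^ 2 ∧
      ((∀ w : ι ⊕ β → ℚ, (mat E f S ξ).map (Int.cast : ℤ → ℚ) *ᵥ w = 0 → w = 0) →
        ∀ p : ℕ, p.Prime → (∃ w : ι ⊕ β → ZMod p, w ≠ 0 ∧
          (mat E f S ξ).map (Int.cast : ℤ → ZMod p) *ᵥ w = 0) → p ∈ B) := by
    intro S ξ
    by_cases h : ∀ w : ι ⊕ β → ℚ, (mat E f S ξ).map (Int.cast : ℤ → ℚ) *ᵥ w = 0 → w = 0
    · obtain ⟨B, h1, -, h3⟩ := few_primes (mat E f S ξ) X (by
        rintro (i | s) (j | j)
        · exact hE i _
        · exact hE i _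
        · change |(if ξ s j then 1 else 0 : ℤ)| ≤ X
          split_ifs
          · simpa using hX
          · simp
        · exact hf s j) h
      rw [hcard] at h1
      exact ⟨B, h1, fun _ => h3⟩
    · exact ⟨∅, by simp, fun h' => absurd h' h⟩
  choose B hB1 hB2 using hB
  have hmain := count (σ := σ) (X := ι → Bool)
    (fun x => (∀ w : ι ⊕ β → ℚ, E.map (Int.cast : ℤ → ℚ) *ᵥ w = 0 →
      (∀ s, bdot (x s) (w ∘ Sum.inl) + ∑ j, (f s j : ℚ) * w (Sum.inr j) = 0) → w = 0) ∧
      ∃ p, p.Prime ∧ y ≤ p ∧ ∃ w : ι ⊕ β → ZMod p, hv p w ∧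
        E.map (Int.cast : ℤ → ZMod p) *ᵥ w = 0 ∧
        ∀ s, bdot (x s) (w ∘ Sum.inl) + ∑ j, (f s j : ZMod p) * w (Sum.inr j) = 0)
    k (X * n ^ 2) (2 ^ Fintype.card σ * q ^ (Fintype.card σ - 2 * k)) (by positivity) B hB1
    (fun p => p.Prime ∧ y ≤ p)
    (fun p S η => ∃ w : ι ⊕ β → ZMod p, hv p w ∧ E.map (Int.cast : ℤ → ZMod p) *ᵥ w = 0 ∧
      ∀ s : {s // s ∉ S}, row (η s) (fun j => (f s j : ZMod p)) w = 0)
    ?_ ?_
  · refine hmain.trans (le_of_eq ?_)
    rw [Fintype.card_fun, Fintype.card_bool, hn]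
    push_cast
    rw [← pow_mul, show (4 : ℝ) = 2 * 2 by norm_num, mul_pow]
    ring
  · rintro x ⟨hx, p, hp, hyp, w, hw, hEw, hxw⟩
    obtain ⟨S, hS, hS2⟩ := greedy (K := ℚ)
      (fun s => rowL (x s) (fun j => ((f s j : ℤ) : ℚ))) k
      (LinearMap.ker (E.map (Int.cast : ℤ → ℚ)).mulVecLin)
      (ker_rank _ _ (by rw [hcard]; exact hrQ))
      (fun v hv h => hx v (by simpa using hv) h)
    refine ⟨S, hS, p, ?_, ⟨hp, hyp⟩, w, hw, hEw, fun s => hxw s⟩
    refine hB2 S _ (fun v hv => ?_) p hp ⟨w, hv0 p w hw, ?_⟩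
    · refine hS2 v ?_ fun s hs => ?_
      · rw [LinearMap.mem_ker]
        funext t
        exact (mat_inl E f S (fun s => x s) v t).symm.trans (congrFun hv _)
      · exact (mat_inr E f S (fun s => x s) v ⟨s, hs⟩).symm.trans (congrFun hv _)
    · funext t
      rcases t with t | s
      · rw [mat_inl, hEw]; rfl
      · rw [mat_inr]; exact hxw s
  · rintro p ⟨hp, hyp⟩ S hS
    have : Fact p.Prime := ⟨hp⟩
    have h1 := hR (ZMod p) ι β {s // s ∉ S} (hv p)
      (fun U => Module.finrank (ZMod p) U) q (fun s j => (f s j : ZMod p))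
      (fun U V h => Submodule.finrank_lt_finrank_of_lt h) hq0 hq1 (hat p hp hyp)
      (LinearMap.ker (E.map (Int.cast : ℤ → ZMod p)).mulVecLin) k
      (ker_rank _ _ (by rw [hcard]; exact hrk p hp hyp))
    have h2 : Fintype.card {s // s ∉ S} = Fintype.card σ - S.card := by
      rw [Fintype.card_subtype_compl, Fintype.card_coe]
    rw [h2] at h1
    have h3 : Nat.card {η : {s // s ∉ S} → ι → Bool // ∃ w : ι ⊕ β → ZMod p, hv p w ∧
        E.map (Int.cast : ℤ → ZMod p) *ᵥ w = 0 ∧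
        ∀ s : {s // s ∉ S}, row (η s) (fun j => (f s j : ZMod p)) w = 0} =
      Nat.card {x : {s // s ∉ S} → ι → Bool //
        ∃ w ∈ LinearMap.ker (E.map (Int.cast : ℤ → ZMod p)).mulVecLin, hv p w ∧
          ∀ s, bdot (x s) (w ∘ Sum.inl) +
            ∑ j, (f s j : ZMod p) * w (Sum.inr j) = 0} := by
      refine Nat.card_congr (Equiv.subtypeEquivRight fun η => ?_)
      constructor
      · rintro ⟨w, h1, h2, h3⟩
        exact ⟨w, by simpa using h2, h1, h3⟩
      · rintro ⟨w, h1, h2, h3⟩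
        exact ⟨w, h2, by simpa using h1, h3⟩
    rw [h3]
    refine h1.trans ?_
    rw [Fintype.card_fun, Fintype.card_bool, pow_mul]
    push_cast
    refine mul_le_mul_of_nonneg_right ?_ (by positivity)
    refine mul_le_mul ?_ ?_ (by positivity) (by positivity)
    · exact pow_le_pow_right₀ (by norm_num) (by omega)
    · exact pow_le_pow_of_le_one hq0 hq1 (by omega)

/-- the integer matrix `[E; x_S]`, no fixed columns -/
def mat0 {τ ι σ : Type} (E : Matrix τ ι ℤ) (S : Finset σ)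
    (ξ : {s // s ∈ S} → ι → Bool) : Matrix (τ ⊕ {s // s ∈ S}) ι ℤ :=
  Sum.elim (fun t => E t) (fun s i => if ξ s i then 1 else 0)

lemma mat0_inl {R τ ι σ : Type} [CommRing R] [Fintype ι]
    (E : Matrix τ ι ℤ) (S : Finset σ) (ξ : {s // s ∈ S} → ι → Bool) (w : ι → R) (t : τ) :
    ((mat0 E S ξ).map (Int.cast : ℤ → R) *ᵥ w) (Sum.inl t) =
      (E.map (Int.cast : ℤ → R) *ᵥ w) t := rfl

lemma mat0_inr {R τ ι σ : Type} [CommRing R] [Fintype ι]
    (E : Matrix τ ι ℤ) (S : Finset σ) (ξ : {s // s ∈ S} → ι → Bool) (w : ι → R)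
    (s : {s // s ∈ S}) :
    ((mat0 E S ξ).map (Int.cast : ℤ → R) *ᵥ w) (Sum.inr s) = bdot (ξ s) w := by
  have h1 : ∀ i, ((mat0 E S ξ).map (Int.cast : ℤ → R)) (Sum.inr s) i =
      if ξ s i then 1 else 0 := by
    intro i
    change (((if ξ s i then 1 else 0 : ℤ)) : R) = _
    split_ifs <;> simp
  simp only [Matrix.mulVec, dotProduct, h1, bdot, ite_mul, one_mul, zero_mul]

theorem core (hR : RowsStmt) : CoreStmt := by
  classical
  intro τ ι σ _ _ _ _ _ _ E y k hv q hE hq0 hq1 hv0 hat hrk hrQ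
  set n := Fintype.card ι with hn
  -- the bad primes
  have hB : ∀ (S : Finset σ) (ξ : {s // s ∈ S} → ι → Bool), ∃ B : Finset ℕ,
      B.card ≤ n ^ 2 ∧
      ((∀ w : ι → ℚ, (mat0 E S ξ).map (Int.cast : ℤ → ℚ) *ᵥ w = 0 → w = 0) →
        ∀ p : ℕ, p.Prime → (∃ w : ι → ZMod p, w ≠ 0 ∧
          (mat0 E S ξ).map (Int.cast : ℤ → ZMod p) *ᵥ w = 0) → p ∈ B) := by
    intro S ξ
    by_cases h : ∀ w : ι → ℚ, (mat0 E S ξ).map (Int.cast : ℤ → ℚ) *ᵥ w = 0 → w = 0
    · obtain ⟨B, h1, -, h3⟩ := few_primes (mat0 E S ξ) 1 (by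
        rintro (i | s) j
        · change |E i j| ≤ 1
          rcases hE i j with h | h <;> simp [h]
        · change |(if ξ s j then 1 else 0 : ℤ)| ≤ 1
          split_ifs <;> simp) h
      rw [one_mul] at h1
      exact ⟨B, h1, fun _ => h3⟩
    · exact ⟨∅, by simp, fun h' => absurd h' h⟩
  choose B hB1 hB2 using hB
  have hmain := count (σ := σ) (X := ι → Bool)
    (fun x => (∀ w : ι → ℚ, E.map (Int.cast : ℤ → ℚ) *ᵥ w = 0 →
      (∀ s, bdot (x s) w = 0) → w = 0) ∧
      ∃ p, p.Prime ∧ y ≤ p ∧ ∃ w : ι → ZMod p, hv p w ∧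
        E.map (Int.cast : ℤ → ZMod p) *ᵥ w = 0 ∧ ∀ s, bdot (x s) w = 0)
    k (n ^ 2) (2 ^ Fintype.card σ * q ^ (Fintype.card σ - 2 * k)) (by positivity) B hB1
    (fun p => p.Prime ∧ y ≤ p)
    (fun p S η => ∃ w : ι → ZMod p, hv p w ∧ E.map (Int.cast : ℤ → ZMod p) *ᵥ w = 0 ∧
      ∀ s : {s // s ∉ S}, bdot (η s) w = 0)
    ?_ ?_
  · refine hmain.trans (le_of_eq ?_)
    rw [Fintype.card_fun, Fintype.card_bool, hn]
    push_cast
    rw [← pow_mul, show (4 : ℝ) = 2 * 2 by norm_num, mul_pow]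
    ring
  · rintro x ⟨hx, p, hp, hyp, w, hw, hEw, hxw⟩
    obtain ⟨S, hS, hS2⟩ := greedy (K := ℚ)
      (fun s => bdotL (x s)) k
      (LinearMap.ker (E.map (Int.cast : ℤ → ℚ)).mulVecLin)
      (ker_rank _ _ hrQ)
      (fun v hv h => hx v (by simpa using hv) h)
    refine ⟨S, hS, p, ?_, ⟨hp, hyp⟩, w, hw, hEw, fun s => hxw s⟩
    refine hB2 S _ (fun v hv => ?_) p hp ⟨w, hv0 p w hw, ?_⟩
    · refine hS2 v ?_ fun s hs => ?_
      · rw [LinearMap.mem_ker]
        funext t
        exact (mat0_inl E S (fun s => x s) v t).symm.trans (congrFun hv _)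
      · exact (mat0_inr E S (fun s => x s) v ⟨s, hs⟩).symm.trans (congrFun hv _)
    · funext t
      rcases t with t | s
      · rw [mat0_inl, hEw]; rfl
      · rw [mat0_inr]; exact hxw s
  · rintro p ⟨hp, hyp⟩ S hS
    have : Fact p.Prime := ⟨hp⟩
    have h1 := hR (ZMod p) ι {s // s ∉ S} (hv p)
      (fun U => Module.finrank (ZMod p) U) q
      (fun U V h => Submodule.finrank_lt_finrank_of_lt h) hq0 hq1 (hat p hp hyp)
      (LinearMap.ker (E.map (Int.cast : ℤ → ZMod p)).mulVecLin) k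
      (ker_rank _ _ (hrk p hp hyp))
    have h2 : Fintype.card {s // s ∉ S} = Fintype.card σ - S.card := by
      rw [Fintype.card_subtype_compl, Fintype.card_coe]
    rw [h2] at h1
    have h3 : Nat.card {η : {s // s ∉ S} → ι → Bool // ∃ w : ι → ZMod p, hv p w ∧
        E.map (Int.cast : ℤ → ZMod p) *ᵥ w = 0 ∧
        ∀ s : {s // s ∉ S}, bdot (η s) w = 0} =
      Nat.card {x : {s // s ∉ S} → ι → Bool //
        ∃ w ∈ LinearMap.ker (E.map (Int.cast : ℤ → ZMod p)).mulVecLin, hv p w ∧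
          ∀ s, bdot (x s) w = 0} := by
      refine Nat.card_congr (Equiv.subtypeEquivRight fun η => ?_)
      constructor
      · rintro ⟨w, h1, h2, h3⟩
        exact ⟨w, by simpa using h2, h1, h3⟩
      · rintro ⟨w, h1, h2, h3⟩
        exact ⟨w, h2, by simpa using h1, h3⟩
    rw [h3]
    refine h1.trans ?_
    rw [Fintype.card_fun, Fintype.card_bool, pow_mul]
    push_cast
    refine mul_le_mul_of_nonneg_right ?_ (by positivity)
    refine mul_le_mul ?_ ?_ (by positivity) (by positivity)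
    · exact pow_le_pow_right₀ (by norm_num) (by omega)
    · exact pow_le_pow_of_le_one hq0 hq1 (by omega)

end Vale.Agent.P160.Half.G.Core572

namespace Vale.Agent.P160.Half.G

/-- **G2** -/
theorem core : RowsStmt → CoreStmt := Core572.core

/-- **G2'** -/
theorem core2 : RowsStmt2 → CoreStmt2 := Core572.core2

end Vale.Agent.P160.Half.G
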