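import Mathlib

/-!
# Coranks modulo all primes, all principal blocks

`exists_principal` : a symmetric matrix of rank `r` over a field has a nonsingular principal
`r × r` block.  `card_corank` : uniform symmetric 0/1 matrices rarely have large corank modulo
any prime.
-/

set_option linter.unusedSectionVars false

namespace Vale.Agent.P160.Half.Cork

open Finset Matrix

section Field

variable {ι : Type*} [Fintype ι] [DecidableEq ι] {F : Type*} [Field F]

/-- a symmetric matrix of rank `r` has a nonsingular principal `r × r` block -/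
theorem exists_principal (P : Matrix ι ι F) (hs : P.IsSymm) :
    ∃ A : Finset ι, A.card = P.rank ∧
      (P.submatrix (Subtype.val : A → ι) (Subtype.val : A → ι)).det ≠ 0 := by
  classical
  obtain ⟨κ, a, ha, hspan, hli⟩ := exists_linearIndependent' F P.row
  have hfin : Finite κ := Finite.of_injective a ha
  have := Fintype.ofFinite κ
  have hcard : Fintype.card κ = P.rank := by
    rw [rank_eq_finrank_span_row, ← hspan, finrank_span_eq_card hli]
  -- the kernel argument
  have hker : ∀ x : κ → F, (P.submatrix a a) *ᵥ x = 0 → x = 0 := by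
    intro x hx
    set y : ι → F := ∑ k, x k • Pi.single (a k) 1 with hy
    have h1 : ∀ i, (P *ᵥ y) i = ∑ k, P i (a k) * x k := by
      intro i
      rw [hy, mulVec_sum, Finset.sum_apply]
      refine sum_congr rfl fun k _ => ?_
      rw [mulVec_smul, mulVec_single_one]
      simp [mul_comm]
    have h2 : ∀ k, (P *ᵥ y) (a k) = 0 := by
      intro k
      rw [h1]
      exact congrFun hx k
    -- all rows are combinations of the rows `a k`
    have h3 : ∀ i, (P *ᵥ y) i = 0 := by
      intro i
      have h4 : P.row i ∈ Submodule.span F (Set.range (P.row ∘ a)) := by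
        rw [hspan]; exact Submodule.subset_span ⟨i, rfl⟩
      let φ : (ι → F) →ₗ[F] F :=
        { toFun := fun r => r ⬝ᵥ y
          map_add' := fun r s => add_dotProduct r s y
          map_smul' := fun c r => smul_dotProduct c r y }
      have h5 : Submodule.span F (Set.range (P.row ∘ a)) ≤ LinearMap.ker φ := by
        rw [Submodule.span_le]
        rintro _ ⟨k, rfl⟩
        simp only [SetLike.mem_coe, LinearMap.mem_ker]
        exact h2 k
      exact h5 h4
    have h6 : ∑ k, x k • (P.row ∘ a) k = 0 := by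
      ext i
      rw [Finset.sum_apply]
      have h7 := h3 i
      rw [h1] at h7
      rw [Pi.zero_apply, ← h7]
      refine sum_congr rfl fun k _ => ?_
      show x k * P (a k) i = P i (a k) * x k
      rw [hs.apply i (a k), mul_comm]
    rw [Fintype.linearIndependent_iff] at hli
    funext k
    exact hli x h6 k
  have hdet : (P.submatrix a a).det ≠ 0 := by
    intro h0
    obtain ⟨x, hx0, hx⟩ := Matrix.exists_mulVec_eq_zero_iff.mpr h0
    exact hx0 (hker x hx)
  refine ⟨univ.image a, ?_, ?_⟩
  · rw [card_image_of_injective _ ha, card_univ, hcard]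
  · let e : κ ≃ (univ.image a : Finset ι) :=
      (Equiv.ofInjective a ha).trans (Equiv.subtypeEquivRight (by intro x; simp))
    have h8 : (P.submatrix (Subtype.val : ↥(univ.image a) → ι)
        (Subtype.val : ↥(univ.image a) → ι)).submatrix e e = P.submatrix a a := by
      ext i j; rfl
    rw [← Matrix.det_submatrix_equiv_self e, h8]
    exact hdet

end Field

section Int

variable {ι : Type*} [Fintype ι] [DecidableEq ι]

/-- the symmetric 0/1 matrix -/
def mz (b : Sym2 ι → Bool) : Matrix ι ι ℤ := fun i j => if b s(i, j) then 1 else 0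

theorem mz_symm (b : Sym2 ι → Bool) : (mz b).IsSymm := by
  ext i j
  simp only [transpose_apply, mz, Sym2.eq_swap]

/-- corank modulo `p` -/
noncomputable def corank (p : ℕ) (P : Matrix ι ι ℤ) : ℕ :=
  Fintype.card ι - (P.map (Int.cast : ℤ → ZMod p)).rank

/-- the bordered minor -/
def bm (A : Finset ι) (b : Sym2 ι → Bool) (i j : ι) : ℤ :=
  ((mz b).submatrix (Sum.elim (Subtype.val : A → ι) (fun _ : Unit => i))
    (Sum.elim (Subtype.val : A → ι) (fun _ : Unit => j))).det

/-- the principal minor -/
def pm (A : Finset ι) (b : Sym2 ι → Bool) : ℤ :=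
  ((mz b).submatrix (Subtype.val : A → ι) (Subtype.val : A → ι)).det

theorem pm_congr {A : Finset ι} {b b' : Sym2 ι → Bool}
    (h : ∀ x ∈ A, ∀ y, b s(x, y) = b' s(x, y)) : pm A b = pm A b' := by
  unfold pm
  congr 1
  ext x y
  simp only [submatrix_apply, mz, h x.1 x.2]

theorem bm_eq (A : Finset ι) (b b' : Sym2 ι → Bool) (i j : ι)
    (h : ∀ x ∈ A, ∀ y, b s(x, y) = b' s(x, y)) :
    bm A b i j - bm A b' i j = pm A b * (mz b i j - mz b' i j) := by
  have hb : ∀ c : Sym2 ι → Bool, (mz c).submatrix (Sum.elim (Subtype.val : A → ι)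
      (fun _ : Unit => i)) (Sum.elim (Subtype.val : A → ι) (fun _ : Unit => j))
      = fromBlocks ((mz c).submatrix (Subtype.val : A → ι) (Subtype.val : A → ι))
        (fun x _ => mz c x.1 j) (fun _ y => mz c i y.1) (fun _ _ => mz c i j) := by
    intro c
    ext (x | x) (y | y) <;> rfl
  have hlast : ∀ (M : Matrix A A ℤ) (u : Matrix A Unit ℤ) (w : Matrix Unit A ℤ) (d e : ℤ),
      (fromBlocks M u w (fun _ _ => d)).det - (fromBlocks M u w (fun _ _ => e)).det
        = M.det * (d - e) := by
    intro M u w d e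
    have h1 : fromBlocks M u w (fun _ _ => d) = (fromBlocks M u w (fun _ _ => e)).updateRow
        (Sum.inr ()) ((fromBlocks M u w (fun _ _ => e)) (Sum.inr ())
          + (fromBlocks M u 0 (fun _ _ => d - e)) (Sum.inr ())) := by
      ext (x | x) (y | y)
      · rw [updateRow_ne (by simp)]; rfl
      · rw [updateRow_ne (by simp)]; rfl
      · cases x; rw [updateRow_self]
        show w () y = w () y + 0
        ring
      · cases x; rw [updateRow_self]
        show d = e + (d - e)
        ring
    have h2 : (fromBlocks M u w (fun _ _ => e)).updateRow (Sum.inr ())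
        ((fromBlocks M u 0 (fun _ _ => d - e)) (Sum.inr ()))
        = fromBlocks M u 0 (fun _ _ => d - e) := by
      ext (x | x) (y | y)
      · rw [updateRow_ne (by simp)]; rfl
      · rw [updateRow_ne (by simp)]; rfl
      · cases x; rw [updateRow_self]
      · cases x; rw [updateRow_self]
    have h9 : (fromBlocks M u 0 (fun _ _ => d - e)).det = M.det * (d - e) := by
      refine (det_fromBlocks_zero₂₁ M u (fun _ _ => d - e)).trans ?_
      exact congrArg (M.det * ·) (det_unique _)
    rw [h1, det_updateRow_add, updateRow_eq_self, h2, h9]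
    ring
  unfold bm pm
  rw [hb b, hb b']
  have h3 : (mz b').submatrix (Subtype.val : A → ι) (Subtype.val : A → ι)
      = (mz b).submatrix (Subtype.val : A → ι) (Subtype.val : A → ι) := by
    ext x y
    simp only [submatrix_apply, mz, h x.1 x.2]
  have h4 : (fun (x : A) (_ : Unit) => mz b' x.1 j) = (fun (x : A) (_ : Unit) => mz b x.1 j) := by
    funext x _
    simp only [mz, h x.1 x.2]
  have h5 : (fun (_ : Unit) (y : A) => mz b' i y.1) = (fun (_ : Unit) (y : A) => mz b i y.1) := by
    funext _ y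
    simp only [mz]
    rw [Sym2.eq_swap, ← h y.1 y.2]
  rw [h3, h4, h5]
  exact hlast _ _ _ _ _

theorem bm_natAbs_le (A : Finset ι) (b : Sym2 ι → Bool) (i j : ι) :
    (bm A b i j).natAbs ≤ 2 ^ (Fintype.card ι + 1) ^ 2 := by
  have h1 : |bm A b i j| ≤ ((Fintype.card (A ⊕ Unit)).factorial : ℤ) := by
    have h0 := Matrix.det_le (abv := (AbsoluteValue.abs : AbsoluteValue ℤ ℤ)) (x := 1)
      (A := (mz b).submatrix (Sum.elim (Subtype.val : A → ι) (fun _ : Unit => i))
        (Sum.elim (Subtype.val : A → ι) (fun _ : Unit => j))) (by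
        intro x y
        show |(mz b) _ _| ≤ 1
        unfold mz
        split_ifs <;> simp)
    have h0' : |bm A b i j| ≤ (Fintype.card (A ⊕ Unit)).factorial •
        (1 : ℤ) ^ Fintype.card (A ⊕ Unit) := h0
    simpa using h0'
  have h2 : Fintype.card (A ⊕ Unit) ≤ Fintype.card ι + 1 := by
    rw [Fintype.card_sum, Fintype.card_coe, Fintype.card_unit]
    have := A.card_le_univ
    omega
  set m := Fintype.card ι + 1 with hm
  have h3 : (bm A b i j).natAbs ≤ (Fintype.card (A ⊕ Unit)).factorial := by
    have h4 := h1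
    rw [← Int.natCast_natAbs] at h4
    exact_mod_cast h4
  calc (bm A b i j).natAbs ≤ (Fintype.card (A ⊕ Unit)).factorial := h3
    _ ≤ m.factorial := Nat.factorial_le h2
    _ ≤ m ^ m := Nat.factorial_le_pow m
    _ ≤ (2 ^ m) ^ m := Nat.pow_le_pow_left (Nat.lt_two_pow_self).le m
    _ = 2 ^ m ^ 2 := by rw [← pow_mul, pow_two]

theorem card_primeFactors_le {n L : ℕ} (hn : n ≤ 2 ^ L) : n.primeFactors.card ≤ L := by
  rcases Nat.eq_zero_or_pos n with h | h
  · subst h; simp
  have h1 : 2 ^ n.primeFactors.card ≤ ∏ p ∈ n.primeFactors, p := by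
    rw [← Finset.prod_const]
    exact Finset.prod_le_prod' fun p hp => (Nat.prime_of_mem_primeFactors hp).two_le
  have h2 : ∏ p ∈ n.primeFactors, p ≤ n := Nat.le_of_dvd h (Nat.prod_primeFactors_dvd n)
  have h3 := (h1.trans h2).trans hn
  exact (Nat.pow_le_pow_iff_right (by norm_num)).mp h3

/-- the number of `b` with prescribed values on `D` -/
theorem card_agree {E : Type*} [Fintype E] [DecidableEq E] (D : Finset E) (g : E → Bool) :
    (univ.filter (fun b : E → Bool => ∀ e ∈ D, b e = g e)).card * 2 ^ D.card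
      = 2 ^ Fintype.card E := by
  classical
  have h1 : univ.filter (fun b : E → Bool => ∀ e ∈ D, b e = g e)
      = Fintype.piFinset (fun e => if e ∈ D then {g e} else (univ : Finset Bool)) := by
    ext b
    simp only [mem_filter, mem_univ, true_and, Fintype.mem_piFinset]
    constructor
    · intro h e
      split_ifs with he
      · simp [h e he]
      · simp
    · intro h e he
      have := h e
      simpa [he] using this
  rw [h1, Fintype.card_piFinset]
  have h2 : ∀ e : E, (if e ∈ D then {g e} else (univ : Finset Bool)).card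
      = if e ∈ D then 1 else 2 := by
    intro e; split_ifs <;> simp
  simp only [h2]
  rw [Finset.prod_ite, prod_const_one, one_mul, prod_const, ← pow_add]
  congr 1
  have h3 : univ.filter (fun e : E => e ∉ D) = Dᶜ := by ext e; simp
  rw [h3, Finset.card_compl]
  have := D.card_le_univ
  omega

/-- the bad event for a given principal block -/
def bad (A : Finset ι) (b : Sym2 ι → Bool) : Prop :=
  ∃ p : ℕ, p.Prime ∧ ¬ (p : ℤ) ∣ pm A b ∧ ∀ i ∈ Aᶜ, ∀ j ∈ Aᶜ, (p : ℤ) ∣ bm A b i j

theorem mem_sym2_compl {A : Finset ι} {x y : ι} :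
    s(x, y) ∈ (Aᶜ).sym2 ↔ x ∉ A ∧ y ∉ A := by
  rw [Finset.mk_mem_sym2_iff]; simp

theorem eq_of_dvd {A : Finset ι} {b b' : Sym2 ι → Bool} (h : ∀ e ∉ (Aᶜ).sym2, b e = b' e)
    {p : ℕ} (hp : p.Prime) (h0 : ¬ (p : ℤ) ∣ pm A b)
    (h1 : ∀ i ∈ Aᶜ, ∀ j ∈ Aᶜ, (p : ℤ) ∣ bm A b i j - bm A b' i j) : b = b' := by
  have hA : ∀ x ∈ A, ∀ y, b s(x, y) = b' s(x, y) := by
    intro x hx y
    apply h
    rw [mem_sym2_compl]
    exact fun hh => hh.1 hx
  funext e
  by_cases he : e ∈ (Aᶜ).sym2
  · induction e using Sym2.ind with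
    | _ i j =>
      rw [mem_sym2_compl] at he
      have h2 := h1 i (by simpa using he.1) j (by simpa using he.2)
      rw [bm_eq A b b' i j hA] at h2
      have h3 := (Nat.prime_iff_prime_int.mp hp).dvd_or_dvd h2
      rcases h3 with h3 | h3
      · exact absurd h3 h0
      · have hp2 : (2 : ℤ) ≤ p := by exact_mod_cast hp.two_le
        unfold mz at h3
        cases hb : b s(i, j) <;> cases hb' : b' s(i, j)
        · rfl
        · rw [hb, hb'] at h3
          have := Int.le_of_dvd (by norm_num) ((dvd_neg).mpr h3)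
          simp at this; omega
        · rw [hb, hb'] at h3
          have := Int.le_of_dvd (by norm_num) h3
          simp at this; omega
        · rfl
  · exact h e he

theorem fiber_card (A : Finset ι) (b0 : Sym2 ι → Bool) :
    by classical exact (univ.filter (fun b : Sym2 ι → Bool => bad A b ∧
      ∀ e ∉ (Aᶜ).sym2, b e = b0 e)).card
      ≤ 1 + 2 * Fintype.card ι ^ 2 * (Fintype.card ι + 1) ^ 2 := by
  classical
  set S := univ.filter (fun b : Sym2 ι → Bool => bad A b ∧ ∀ e ∉ (Aᶜ).sym2, b e = b0 e) with hS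
  set S0 := S.filter (fun b => ∀ i ∈ Aᶜ, ∀ j ∈ Aᶜ, bm A b i j = 0) with hS0
  set S1 := S.filter (fun b => ¬ ∀ i ∈ Aᶜ, ∀ j ∈ Aᶜ, bm A b i j = 0) with hS1
  let be : Bool → Sym2 ι → Bool := fun ε e => if e ∈ (Aᶜ).sym2 then ε else b0 e
  let PP : Finset ℕ := ((univ : Finset Bool) ×ˢ ((univ : Finset ι) ×ˢ (univ : Finset ι))).biUnion
    (fun t => (bm A (be t.1) t.2.1 t.2.2).natAbs.primeFactors)
  have hPP : PP.card ≤ 2 * Fintype.card ι ^ 2 * (Fintype.card ι + 1) ^ 2 := by
    refine (Finset.card_biUnion_le_card_mul _ _ _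
      (fun t _ => card_primeFactors_le (bm_natAbs_le A (be t.1) t.2.1 t.2.2))).trans ?_
    rw [card_product, card_product]
    simp only [card_univ, Fintype.card_bool]
    apply le_of_eq; ring
  have hagree : ∀ b ∈ S, ∀ b' ∈ S, ∀ e ∉ (Aᶜ).sym2, b e = b' e := by
    intro b hb b' hb' e he
    rw [hS, mem_filter] at hb hb'
    rw [hb.2.2 e he, hb'.2.2 e he]
  have h0 : S0.card ≤ 1 := by
    rw [Finset.card_le_one]
    intro b hb b' hb'
    rw [hS0, mem_filter] at hb hb'
    have hbS := hb.1
    rw [hS, mem_filter] at hbS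
    obtain ⟨p, hp, hp0, _⟩ := hbS.2.1
    refine eq_of_dvd (hagree b hb.1 b' hb'.1) hp hp0 ?_
    intro i hi j hj
    rw [hb.2 i hi j hj, hb'.2 i hi j hj, sub_zero]
    exact dvd_zero _
  have h1 : S1.card ≤ PP.card := by
    have hch : ∀ b ∈ S1, ∃ p ∈ PP, p.Prime ∧ ¬ (p : ℤ) ∣ pm A b ∧
        ∀ i ∈ Aᶜ, ∀ j ∈ Aᶜ, (p : ℤ) ∣ bm A b i j := by
      intro b hb
      rw [hS1, mem_filter] at hb
      have hbS := hb.1
      rw [hS, mem_filter] at hbS
      obtain ⟨p, hp, hp0, hpd⟩ := hbS.2.1
      refine ⟨p, ?_, hp, hp0, hpd⟩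
      have h2 := hb.2
      push Not at h2
      obtain ⟨i, hi, j, hj, hij⟩ := h2
      have hiA : i ∉ A := by simpa using hi
      have hjA : j ∉ A := by simpa using hj
      have h3 : bm A (be (b s(i, j))) i j = bm A b i j := by
        have h4 : ∀ x ∈ A, ∀ y, be (b s(i, j)) s(x, y) = b s(x, y) := by
          intro x hx y
          have h5 : s(x, y) ∉ (Aᶜ).sym2 := by
            rw [mem_sym2_compl]; exact fun hh => hh.1 hx
          simp only [be, h5, if_false]
          exact (hbS.2.2 _ h5).symm
        have h6 := bm_eq A (be (b s(i, j))) b i j h4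
        have h7 : mz (be (b s(i, j))) i j = mz b i j := by
          have h8 : s(i, j) ∈ (Aᶜ).sym2 := mem_sym2_compl.mpr ⟨hiA, hjA⟩
          simp only [mz, be, h8, if_true]
        rw [h7, sub_self, mul_zero] at h6
        exact sub_eq_zero.mp h6
      rw [Finset.mem_biUnion]
      refine ⟨(b s(i, j), i, j), by simp, ?_⟩
      rw [Nat.mem_primeFactors]
      refine ⟨hp, ?_, ?_⟩
      · rw [h3]; exact Int.natCast_dvd.mp (hpd i hi j hj)
      · rw [h3]; exact Int.natAbs_ne_zero.mpr hij
    choose! f hfP hfp hf0 hfd using hch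
    apply Finset.card_le_card_of_injOn f
    · intro b hb; exact hfP b hb
    · intro b hb b' hb' hbb
      have hb2 := (mem_filter.mp hb).1
      have hb2' := (mem_filter.mp hb').1
      refine eq_of_dvd (hagree b hb2 b' hb2') (hfp b hb) (hf0 b hb) ?_
      intro i hi j hj
      apply dvd_sub (hfd b hb i hi j hj)
      rw [hbb]
      exact hfd b' hb' i hi j hj
  have h2 : S.card = S0.card + S1.card := by
    rw [hS0, hS1]; exact (Finset.card_filter_add_card_filter_not _).symm
  rw [h2]
  omega

theorem bad_card (A : Finset ι) :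
    by classical exact (univ.filter (fun b : Sym2 ι → Bool => bad A b)).card
        * 2 ^ ((Aᶜ).card + 1).choose 2
      ≤ (1 + 2 * Fintype.card ι ^ 2 * (Fintype.card ι + 1) ^ 2) * 2 ^ Fintype.card (Sym2 ι) := by
  classical
  set X := univ.filter (fun b : Sym2 ι → Bool => bad A b) with hX
  set c0 := 1 + 2 * Fintype.card ι ^ 2 * (Fintype.card ι + 1) ^ 2 with hc0
  let f : (Sym2 ι → Bool) → (Sym2 ι → Bool) := fun b e => if e ∈ (Aᶜ).sym2 then false else b e
  have h1 : X.card ≤ c0 * (X.image f).card := by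
    apply Finset.card_le_mul_card_image
    intro c _
    refine le_trans (Finset.card_le_card ?_) (fiber_card A c)
    intro b hb
    rw [mem_filter] at hb
    rw [hX, mem_filter] at hb
    simp only [mem_filter, mem_univ, true_and]
    refine ⟨hb.1.2, ?_⟩
    intro e he
    rw [← hb.2]
    simp only [f, he, if_false]
  have h2 : (X.image f).card ≤
      (univ.filter (fun b : Sym2 ι → Bool => ∀ e ∈ (Aᶜ).sym2, b e = (fun _ => false) e)).card := by
    apply Finset.card_le_card
    intro c hc
    obtain ⟨b, _, rfl⟩ := Finset.mem_image.mp hc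
    simp only [mem_filter, mem_univ, true_and]
    intro e he
    simp only [f, he, if_true]
  have h3 := card_agree ((Aᶜ).sym2) (fun _ => false)
  rw [Finset.card_sym2] at h3
  calc X.card * 2 ^ ((Aᶜ).card + 1).choose 2
      ≤ (c0 * (univ.filter (fun b : Sym2 ι → Bool =>
          ∀ e ∈ (Aᶜ).sym2, b e = (fun _ => false) e)).card) * 2 ^ ((Aᶜ).card + 1).choose 2 :=
        Nat.mul_le_mul_right _ (h1.trans (Nat.mul_le_mul_left _ h2))
    _ = c0 * ((univ.filter (fun b : Sym2 ι → Bool =>
          ∀ e ∈ (Aᶜ).sym2, b e = (fun _ => false) e)).card * 2 ^ ((Aᶜ).card + 1).choose 2) := by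
        ring
    _ = c0 * 2 ^ Fintype.card (Sym2 ι) := by rw [h3]

/-- large corank modulo some prime gives a bad principal block -/
theorem exists_bad (b : Sym2 ι → Bool) {p k : ℕ} (hp : p.Prime) (hk : k ≤ corank p (mz b)) :
    ∃ A : Finset ι, k ≤ (Aᶜ).card ∧ bad A b := by
  classical
  have : Fact p.Prime := ⟨hp⟩
  set M : Matrix ι ι (ZMod p) := (mz b).map (Int.cast : ℤ → ZMod p) with hM
  have hs : M.IsSymm := by
    rw [hM]
    exact (mz_symm b).map _
  obtain ⟨A, hA, hdet⟩ := exists_principal M hs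
  refine ⟨A, ?_, p, hp, ?_, ?_⟩
  · rw [Finset.card_compl, hA]; exact hk
  · intro hd
    apply hdet
    have h1 : (M.submatrix (Subtype.val : A → ι) (Subtype.val : A → ι))
        = (Int.castRingHom (ZMod p)).mapMatrix
          ((mz b).submatrix (Subtype.val : A → ι) (Subtype.val : A → ι)) := by
      ext x y; rfl
    rw [h1, ← RingHom.map_det]
    exact (ZMod.intCast_zmod_eq_zero_iff_dvd _ _).mpr hd
  · intro i _ j _
    rw [← ZMod.intCast_zmod_eq_zero_iff_dvd]
    by_contra hne
    set Bm := (mz b).submatrix (Sum.elim (Subtype.val : A → ι) (fun _ : Unit => i))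
      (Sum.elim (Subtype.val : A → ι) (fun _ : Unit => j)) with hBm
    have h1 : (M.submatrix (Sum.elim (Subtype.val : A → ι) (fun _ : Unit => i))
        (Sum.elim (Subtype.val : A → ι) (fun _ : Unit => j)))
        = (Int.castRingHom (ZMod p)).mapMatrix Bm := by
      ext x y; rfl
    have h2 : (M.submatrix (Sum.elim (Subtype.val : A → ι) (fun _ : Unit => i))
        (Sum.elim (Subtype.val : A → ι) (fun _ : Unit => j))).det ≠ 0 := by
      rw [h1, ← RingHom.map_det]
      exact hne
    have h3 := Matrix.rank_of_isUnit _ ((Matrix.isUnit_iff_isUnit_det _).mpr (isUnit_iff_ne_zero.mpr h2))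
    have h4 := Matrix.rank_submatrix_le M (Sum.elim (Subtype.val : A → ι) (fun _ : Unit => i))
      (Sum.elim (Subtype.val : A → ι) (fun _ : Unit => j))
    rw [h3, Fintype.card_sum, Fintype.card_coe, Fintype.card_unit, hA] at h4
    omega

/-- **coranks**: large corank modulo some prime is rare -/
theorem card_corank (k : ℕ) :
    by classical exact (univ.filter (fun b : Sym2 ι → Bool =>
        ∃ p : ℕ, p.Prime ∧ k ≤ corank p (mz b))).card * 2 ^ (k + 1).choose 2
      ≤ 2 ^ Fintype.card ι * (1 + 2 * Fintype.card ι ^ 2 * (Fintype.card ι + 1) ^ 2)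
        * 2 ^ Fintype.card (Sym2 ι) := by
  classical
  set c0 := 1 + 2 * Fintype.card ι ^ 2 * (Fintype.card ι + 1) ^ 2 with hc0
  have h1 : (univ.filter (fun b : Sym2 ι → Bool => ∃ p : ℕ, p.Prime ∧ k ≤ corank p (mz b)))
      ⊆ ((univ : Finset (Finset ι)).filter (fun A => k ≤ (Aᶜ).card)).biUnion
        (fun A => univ.filter (fun b : Sym2 ι → Bool => bad A b)) := by
    intro b hb
    simp only [mem_filter, mem_univ, true_and] at hb
    obtain ⟨p, hp, hk⟩ := hb
    obtain ⟨A, hA, hbad⟩ := exists_bad b hp hk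
    simp only [mem_biUnion, mem_filter, mem_univ, true_and]
    exact ⟨A, hA, hbad⟩
  calc _ ≤ (∑ A ∈ (univ : Finset (Finset ι)).filter (fun A => k ≤ (Aᶜ).card),
        (univ.filter (fun b : Sym2 ι → Bool => bad A b)).card) * 2 ^ (k + 1).choose 2 :=
        Nat.mul_le_mul_right _ ((Finset.card_le_card h1).trans Finset.card_biUnion_le)
    _ = ∑ A ∈ (univ : Finset (Finset ι)).filter (fun A => k ≤ (Aᶜ).card),
        (univ.filter (fun b : Sym2 ι → Bool => bad A b)).card * 2 ^ (k + 1).choose 2 := by
        rw [sum_mul]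
    _ ≤ ∑ A ∈ (univ : Finset (Finset ι)).filter (fun A => k ≤ (Aᶜ).card),
        c0 * 2 ^ Fintype.card (Sym2 ι) := by
        apply Finset.sum_le_sum
        intro A hA
        rw [mem_filter] at hA
        refine le_trans (Nat.mul_le_mul_left _ ?_) (bad_card A)
        exact Nat.pow_le_pow_right (by norm_num) (Nat.choose_le_choose 2 (by omega))
    _ ≤ ∑ A ∈ (univ : Finset (Finset ι)), c0 * 2 ^ Fintype.card (Sym2 ι) := by
        apply Finset.sum_le_sum_of_subset
        exact Finset.filter_subset _ _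
    _ = 2 ^ Fintype.card ι * c0 * 2 ^ Fintype.card (Sym2 ι) := by
        rw [sum_const, card_univ, Fintype.card_finset, smul_eq_mul]; ring

/-- restriction of `b` to a block -/
def resT (T : Finset ι) (b : Sym2 ι → Bool) : Sym2 T → Bool := fun e => b (e.map Subtype.val)

theorem mz_resT (T : Finset ι) (b : Sym2 ι → Bool) :
    (mz b).submatrix (Subtype.val : T → ι) (Subtype.val : T → ι) = mz (resT T b) := by
  ext x y; rfl

/-- **coranks of all principal blocks**, modulo all primes, at once -/
theorem card_corank_all (k : ℕ) :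
    by classical exact (univ.filter (fun b : Sym2 ι → Bool => ∃ T : Finset ι,
        ∃ p : ℕ, p.Prime ∧ k ≤ corank p ((mz b).submatrix (Subtype.val : T → ι)
          (Subtype.val : T → ι)))).card * 2 ^ (k + 1).choose 2
      ≤ 2 ^ (2 * Fintype.card ι) * (1 + 2 * Fintype.card ι ^ 2 * (Fintype.card ι + 1) ^ 2)
        * 2 ^ Fintype.card (Sym2 ι) := by
  classical
  set n := Fintype.card ι with hn
  set c0 := 1 + 2 * n ^ 2 * (n + 1) ^ 2 with hc0
  -- one block
  have hone : ∀ T : Finset ι, (univ.filter (fun b : Sym2 ι → Bool =>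
      ∃ p : ℕ, p.Prime ∧ k ≤ corank p ((mz b).submatrix (Subtype.val : T → ι)
          (Subtype.val : T → ι)))).card * 2 ^ (k + 1).choose 2
      ≤ 2 ^ n * c0 * 2 ^ Fintype.card (Sym2 ι) := by
    intro T
    set X := univ.filter (fun b : Sym2 ι → Bool =>
      ∃ p : ℕ, p.Prime ∧ k ≤ corank p ((mz b).submatrix (Subtype.val : T → ι)
          (Subtype.val : T → ι))) with hX
    set Y := univ.filter (fun c : Sym2 T → Bool => ∃ p : ℕ, p.Prime ∧ k ≤ corank p (mz c)) with hY
    have hTn : T.card ≤ n := T.card_le_univ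
    have h1 : Y.card * 2 ^ (k + 1).choose 2 ≤ 2 ^ n * c0 * 2 ^ Fintype.card (Sym2 T) := by
      have h2 := card_corank (ι := T) k
      rw [Fintype.card_coe] at h2
      have h2' : 1 + 2 * T.card ^ 2 * (T.card + 1) ^ 2 ≤ c0 := by rw [hc0]; gcongr
      exact h2.trans (Nat.mul_le_mul_right _
        (Nat.mul_le_mul (Nat.pow_le_pow_right (by norm_num) hTn) h2'))
    -- fibres of the restriction
    have h3 : ∀ c ∈ X.image (resT T), (X.filter (fun b => resT T b = c)).card
        * 2 ^ Fintype.card (Sym2 T) ≤ 2 ^ Fintype.card (Sym2 ι) := by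
      intro c _
      rcases (X.filter (fun b => resT T b = c)).eq_empty_or_nonempty with h | ⟨b0, hb0⟩
      · rw [h]; simp
      have h4 : (X.filter (fun b => resT T b = c)) ⊆
          univ.filter (fun b : Sym2 ι → Bool => ∀ e ∈ T.sym2, b e = b0 e) := by
        intro b hb
        rw [mem_filter] at hb hb0
        simp only [mem_filter, mem_univ, true_and]
        intro e he
        induction e using Sym2.ind with
        | _ x y =>
          rw [Finset.mk_mem_sym2_iff] at he
          have h5 : resT T b s(⟨x, he.1⟩, ⟨y, he.2⟩) = resT T b0 s(⟨x, he.1⟩, ⟨y, he.2⟩) := by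
            rw [hb.2, hb0.2]
          exact h5
      have h6 := card_agree T.sym2 b0
      have h7 : Fintype.card (Sym2 T) = T.sym2.card := by
        rw [Sym2.card, Finset.card_sym2, Fintype.card_coe]
      rw [h7, ← h6]
      exact Nat.mul_le_mul_right _ (Finset.card_le_card h4)
    have h8 : X.card * 2 ^ Fintype.card (Sym2 T) ≤ Y.card * 2 ^ Fintype.card (Sym2 ι) := by
      have h9 : X.card = ∑ c ∈ X.image (resT T), (X.filter (fun b => resT T b = c)).card :=
        Finset.card_eq_sum_card_image _ _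
      rw [h9, sum_mul]
      calc _ ≤ ∑ c ∈ X.image (resT T), 2 ^ Fintype.card (Sym2 ι) := Finset.sum_le_sum h3
        _ = (X.image (resT T)).card * 2 ^ Fintype.card (Sym2 ι) := by
            rw [sum_const, smul_eq_mul]
        _ ≤ Y.card * 2 ^ Fintype.card (Sym2 ι) := by
            apply Nat.mul_le_mul_right
            apply Finset.card_le_card
            intro c hc
            obtain ⟨b, hb, rfl⟩ := Finset.mem_image.mp hc
            rw [hX, mem_filter] at hb
            obtain ⟨_, p, hp, hk⟩ := hb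
            rw [hY, mem_filter]
            rw [mz_resT] at hk
            exact ⟨mem_univ _, p, hp, hk⟩
    have hpos : 0 < 2 ^ Fintype.card (Sym2 T) := by positivity
    apply Nat.le_of_mul_le_mul_right _ hpos
    calc X.card * 2 ^ (k + 1).choose 2 * 2 ^ Fintype.card (Sym2 T)
        = (X.card * 2 ^ Fintype.card (Sym2 T)) * 2 ^ (k + 1).choose 2 := by ring
      _ ≤ (Y.card * 2 ^ Fintype.card (Sym2 ι)) * 2 ^ (k + 1).choose 2 :=
          Nat.mul_le_mul_right _ h8
      _ = (Y.card * 2 ^ (k + 1).choose 2) * 2 ^ Fintype.card (Sym2 ι) := by ring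
      _ ≤ (2 ^ n * c0 * 2 ^ Fintype.card (Sym2 T)) * 2 ^ Fintype.card (Sym2 ι) :=
          Nat.mul_le_mul_right _ h1
      _ = 2 ^ n * c0 * 2 ^ Fintype.card (Sym2 ι) * 2 ^ Fintype.card (Sym2 T) := by ring
  have h1 : (univ.filter (fun b : Sym2 ι → Bool => ∃ T : Finset ι,
        ∃ p : ℕ, p.Prime ∧ k ≤ corank p ((mz b).submatrix (Subtype.val : T → ι)
          (Subtype.val : T → ι))))
      ⊆ (univ : Finset (Finset ι)).biUnion (fun T => univ.filter (fun b : Sym2 ι → Bool =>
        ∃ p : ℕ, p.Prime ∧ k ≤ corank p ((mz b).submatrix (Subtype.val : T → ι)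
          (Subtype.val : T → ι)))) := by
    intro b hb
    simp only [mem_filter, mem_univ, true_and] at hb
    simp only [mem_biUnion, mem_filter, mem_univ, true_and]
    exact hb
  calc _ ≤ (∑ T : Finset ι, (univ.filter (fun b : Sym2 ι → Bool =>
        ∃ p : ℕ, p.Prime ∧ k ≤ corank p ((mz b).submatrix (Subtype.val : T → ι)
          (Subtype.val : T → ι)))).card) * 2 ^ (k + 1).choose 2 :=
        Nat.mul_le_mul_right _ ((Finset.card_le_card h1).trans Finset.card_biUnion_le)
    _ = ∑ T : Finset ι, (univ.filter (fun b : Sym2 ι → Bool =>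
        ∃ p : ℕ, p.Prime ∧ k ≤ corank p ((mz b).submatrix (Subtype.val : T → ι)
          (Subtype.val : T → ι)))).card * 2 ^ (k + 1).choose 2 := by rw [sum_mul]
    _ ≤ ∑ T : Finset ι, 2 ^ n * c0 * 2 ^ Fintype.card (Sym2 ι) :=
        Finset.sum_le_sum fun T _ => hone T
    _ = 2 ^ (2 * n) * c0 * 2 ^ Fintype.card (Sym2 ι) := by
        rw [sum_const, card_univ, Fintype.card_finset, smul_eq_mul, ← hn]; ring

end Int

end Vale.Agent.P160.Half.Cork
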