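import Vale.Agent.P160.Half.Corank
import Vale.Agent.P160.Union2

/-!
# Reduction of the corank `≥ 2` case to corank exactly one (note 11092 (1))

A symmetric matrix of rank `n - r`, `r ≥ 1`, has a nonsingular principal block of size `n - r`;
adding one more index gives a principal block of size `n - r + 1` and corank exactly one.
-/

set_option linter.unusedSectionVars false

namespace Vale.Agent.P160.Half.CO

open Finset Matrix Vale.Agent.P160

variable {α β : Type*} [Fintype α] [DecidableEq α] [Fintype β] [DecidableEq β]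

/-- the rank over the rationals of the symmetric 0/1 matrix of a bit array -/
noncomputable def rkQ (b : Sym2 α → Bool) : ℕ := ((matZ b).map (Int.cast : ℤ → ℚ)).rank

theorem rkQ_le (b : Sym2 α → Bool) : rkQ b ≤ Fintype.card α := by
  unfold rkQ
  exact (rank_le_card_width _)

/-- restricting a bit array along a map of the index sets -/
def res (f : β → α) (b : Sym2 α → Bool) : Sym2 β → Bool := fun z => b (z.map f)

theorem matZ_res (f : β → α) (b : Sym2 α → Bool) : matZ (res f b) = (matZ b).submatrix f f := by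
  ext i j
  simp only [matZ, res, Sym2.map_mk, submatrix_apply]
  congr

/-- restriction to a subset of the coordinates preserves proportions -/
theorem card_res {ε ε' : Type*} [Fintype ε] [DecidableEq ε] [Fintype ε'] [DecidableEq ε']
    (g : ε' → ε) (hg : Function.Injective g) (Q : (ε' → Bool) → Prop) [DecidablePred Q]
    [DecidablePred fun b : ε → Bool => Q (b ∘ g)] :
    (univ.filter fun b : ε → Bool => Q (b ∘ g)).card * 2 ^ Fintype.card ε' =
      (univ.filter fun b : ε' → Bool => Q b).card * 2 ^ Fintype.card ε := by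
  classical
  let e1 : (ε → Bool) ≃ ({x // x ∈ Set.range g} → Bool) × ({x // ¬ x ∈ Set.range g} → Bool) :=
    Equiv.piEquivPiSubtypeProd (fun x => x ∈ Set.range g) (fun _ => Bool)
  let e2 : ({x // x ∈ Set.range g} → Bool) ≃ (ε' → Bool) :=
    Equiv.arrowCongr (Equiv.ofInjective g hg).symm (Equiv.refl Bool)
  let e : (ε → Bool) ≃ (ε' → Bool) × ({x // ¬ x ∈ Set.range g} → Bool) :=
    e1.trans (Equiv.prodCongr e2 (Equiv.refl _))
  have he : ∀ b, (e b).1 = b ∘ g := by
    intro b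
    funext x
    simp [e, e1, e2, Equiv.piEquivPiSubtypeProd, Equiv.arrowCongr]
  have h1 : (univ.filter fun b : ε → Bool => Q (b ∘ g)).card =
      (univ.filter fun b : ε' → Bool => Q b).card *
        Fintype.card ({x // ¬ x ∈ Set.range g} → Bool) := by
    rw [← Finset.card_univ, ← Finset.card_product]
    refine Finset.card_bij (fun b _ => e b) ?_ ?_ ?_
    · intro b hb
      simp only [mem_filter, mem_univ, true_and] at hb
      rw [mem_product]
      refine ⟨?_, mem_univ _⟩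
      rw [mem_filter, he]
      exact ⟨mem_univ _, hb⟩
    · intro b _ b' _ h
      exact e.injective h
    · intro y hy
      rw [mem_product, mem_filter] at hy
      refine ⟨e.symm y, ?_, e.apply_symm_apply y⟩
      rw [mem_filter]
      refine ⟨mem_univ _, ?_⟩
      rw [← he, e.apply_symm_apply]
      exact hy.1.2
  have h2 : 2 ^ Fintype.card ε = 2 ^ Fintype.card ε' *
      Fintype.card ({x // ¬ x ∈ Set.range g} → Bool) := by
    have h3 := Fintype.card_congr e
    rw [Fintype.card_prod, Fintype.card_fun, Fintype.card_fun (α := ε'), Fintype.card_bool] at h3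
    exact h3
  rw [h1, h2]
  ring

theorem sym2_map_injective {f : β → α} (hf : Function.Injective f) :
    Function.Injective (Sym2.map f) := Sym2.map.injective hf

/-- the `Sym2` version -/
theorem card_res_sym (f : β → α) (hf : Function.Injective f) (Q : (Sym2 β → Bool) → Prop)
    [DecidablePred Q] [DecidablePred fun b : Sym2 α → Bool => Q (res f b)] :
    (univ.filter fun b : Sym2 α → Bool => Q (res f b)).card * 2 ^ Fintype.card (Sym2 β) =
      (univ.filter fun b : Sym2 β → Bool => Q b).card * 2 ^ Fintype.card (Sym2 α) := by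
  classical
  have h := card_res (Sym2.map f) (sym2_map_injective hf) Q
  convert h using 3
  ext b
  simp only [mem_filter]
  rfl

/-- in probabilities -/
theorem Pb_res {n m : ℕ} (f : Fin m → Fin n) (hf : Function.Injective f)
    (Q : (Sym2 (Fin m) → Bool) → Prop) :
    Pb (fun b : Sym2 (Fin n) → Bool => Q (res f b)) = Pb Q := by
  classical
  have h := card_res_sym f hf Q
  unfold Pb
  rw [div_eq_div_iff (by positivity) (by positivity)]
  have h' : ((univ.filter fun b : Sym2 (Fin n) → Bool => Q (res f b)).card : ℝ) *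
      2 ^ Fintype.card (Sym2 (Fin m)) =
      ((univ.filter fun b : Sym2 (Fin m) → Bool => Q b).card : ℝ) *
        2 ^ Fintype.card (Sym2 (Fin n)) := by exact_mod_cast h
  convert h' using 3

/-- A symmetric matrix of corank `r ≥ 1` contains a principal block of size `n - r + 1` and corank
exactly one. -/
theorem exists_corank_one {n r : ℕ} (hr : 1 ≤ r) (b : Sym2 (Fin n) → Bool) (hb : rkQ b + r = n) :
    ∃ T : Finset (Fin n), T.card = n - r + 1 ∧
      (prin ((matZ b).map (Int.cast : ℤ → ℚ)) T).rank + 1 = n - r + 1 := by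
  classical
  set M := (matZ b).map (Int.cast : ℤ → ℚ) with hM
  have hs : ∀ i j, M i j = M j i := by
    intro i j
    simp only [hM, map_apply]
    rw [matZ_symm]
  obtain ⟨A, -, hA1, hA2, -⟩ := exists_base M hs univ
  have hA3 : (prin M (univ : Finset (Fin n))).rank = M.rank := by
    have e : ((univ : Finset (Fin n)) : Type) ≃ Fin n := Equiv.subtypeUnivEquiv (by simp)
    have h1 : prin M (univ : Finset (Fin n)) = M.submatrix
        (Equiv.subtypeUnivEquiv (p := fun x => x ∈ (univ : Finset (Fin n))) (by simp))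
        (Equiv.subtypeUnivEquiv (p := fun x => x ∈ (univ : Finset (Fin n))) (by simp)) := by
      ext i j; rfl
    rw [h1, rank_submatrix]
  have hA4 : A.card = n - r := by
    rw [hA1, hA3]
    have : rkQ b = M.rank := rfl
    omega
  have h5 : A ≠ univ := by
    intro h
    rw [h, card_univ, Fintype.card_fin] at hA4
    omega
  obtain ⟨i, hi⟩ : ∃ i, i ∉ A := by
    by_contra hcon
    push Not at hcon
    exact h5 (eq_univ_iff_forall.2 hcon)
  refine ⟨insert i A, by rw [card_insert_of_notMem hi, hA4], ?_⟩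
  have h6 : (prin M (insert i A)).rank ≤ n - r := by
    have h7 : (prin M (insert i A)).rank ≤ M.rank := rank_submatrix_le _ _ _
    have : rkQ b = M.rank := rfl
    omega
  have h8 : n - r ≤ (prin M (insert i A)).rank := by
    have h9 : (prin M A).rank = A.card := by
      rw [rank_of_isUnit _ ((isUnit_iff_isUnit_det _).2 (isUnit_iff_ne_zero.2 hA2)),
        Fintype.card_coe]
    have h10 : prin M A = (prin M (insert i A)).submatrix
        (fun x : A => (⟨x, mem_insert_of_mem x.2⟩ : (insert i A : Finset (Fin n))))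
        (fun x : A => (⟨x, mem_insert_of_mem x.2⟩ : (insert i A : Finset (Fin n)))) := by
      ext x y; rfl
    have h11 : (prin M A).rank ≤ (prin M (insert i A)).rank := by
      conv_lhs => rw [h10]
      exact rank_submatrix_le _ _ _
    omega
  omega

/-- **Reduction to corank one.** -/
theorem Pb_corank_le {n r : ℕ} (hr : 1 ≤ r) :
    Pb (fun b : Sym2 (Fin n) → Bool => rkQ b + r = n) ≤
      (n.choose (n - r + 1) : ℝ) *
        Pb (fun b : Sym2 (Fin (n - r + 1)) → Bool => rkQ b + 1 = n - r + 1) := by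
  classical
  have h1 : Pb (fun b : Sym2 (Fin n) → Bool => rkQ b + r = n) ≤
      Pb (fun b : Sym2 (Fin n) → Bool => ∃ T ∈ powersetCard (n - r + 1) (univ : Finset (Fin n)),
        (prin ((matZ b).map (Int.cast : ℤ → ℚ)) T).rank + 1 = n - r + 1) := by
    refine Pb_mono fun b hb => ?_
    obtain ⟨T, hT1, hT2⟩ := exists_corank_one hr b hb
    exact ⟨T, mem_powersetCard.2 ⟨subset_univ _, hT1⟩, hT2⟩
  refine h1.trans ((Pb_exists _ _).trans ?_)
  have h2 : ∀ T ∈ powersetCard (n - r + 1) (univ : Finset (Fin n)),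
      Pb (fun b : Sym2 (Fin n) → Bool =>
        (prin ((matZ b).map (Int.cast : ℤ → ℚ)) T).rank + 1 = n - r + 1) =
      Pb (fun b : Sym2 (Fin (n - r + 1)) → Bool => rkQ b + 1 = n - r + 1) := by
    intro T hT
    rw [mem_powersetCard] at hT
    let e : Fin (n - r + 1) ≃ T := (T.equivFinOfCardEq hT.2).symm
    let f : Fin (n - r + 1) → Fin n := fun i => (e i : Fin n)
    have hf : Function.Injective f := Subtype.val_injective.comp e.injective
    rw [← Pb_res f hf]
    congr 1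
    funext b
    congr 2
    unfold rkQ
    rw [matZ_res]
    have : ((matZ b).submatrix f f).map (Int.cast : ℤ → ℚ) =
        (prin ((matZ b).map (Int.cast : ℤ → ℚ)) T).submatrix e e := by
      ext i j; rfl
    rw [this, rank_submatrix]
  rw [sum_congr rfl h2, sum_const, card_powersetCard, card_univ, Fintype.card_fin, nsmul_eq_mul]

theorem det_zero_iff {n : ℕ} (b : Sym2 (Fin n) → Bool) : (matZ b).det = 0 ↔ rkQ b < n := by
  have h1 : (matZ b).det = 0 ↔ ((matZ b).map (Int.cast : ℤ → ℚ)).det = 0 := by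
    have : ((matZ b).map (Int.cast : ℤ → ℚ)).det = ((matZ b).det : ℚ) := by
      have := (Int.castRingHom ℚ).map_det (matZ b)
      simpa using this.symm
    rw [this]
    norm_cast
  rw [h1]
  constructor
  · intro h
    by_contra hcon
    have h2 : rkQ b = Fintype.card (Fin n) := le_antisymm (rkQ_le b) (by simpa using hcon)
    have h3 : IsUnit ((matZ b).map (Int.cast : ℤ → ℚ)) := by
      rw [← Matrix.linearIndependent_rows_iff_isUnit]
      rw [linearIndependent_iff_card_eq_finrank_span, Set.finrank, ← rank_eq_finrank_span_row]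
      exact h2.symm
    exact ((isUnit_iff_isUnit_det _).1 h3).ne_zero h
  · intro h
    by_contra hcon
    have h2 := rank_of_isUnit _ ((isUnit_iff_isUnit_det _).2 (isUnit_iff_ne_zero.2 hcon))
    rw [Fintype.card_fin] at h2
    unfold rkQ at h
    omega

/-- all coranks -/
theorem Pb_det_le (n : ℕ) :
    Pb (fun b : Sym2 (Fin n) → Bool => (matZ b).det = 0) ≤
      ∑ r ∈ Icc 1 n, (n.choose (n - r + 1) : ℝ) *
        Pb (fun b : Sym2 (Fin (n - r + 1)) → Bool => rkQ b + 1 = n - r + 1) := by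
  have h1 : Pb (fun b : Sym2 (Fin n) → Bool => (matZ b).det = 0) ≤
      Pb (fun b : Sym2 (Fin n) → Bool => ∃ r ∈ Icc 1 n, rkQ b + r = n) := by
    refine Pb_mono fun b hb => ?_
    rw [det_zero_iff] at hb
    exact ⟨n - rkQ b, mem_Icc.2 ⟨by omega, by omega⟩, by omega⟩
  refine h1.trans ((Pb_exists _ _).trans (sum_le_sum fun r hr => ?_))
  rw [mem_Icc] at hr
  exact Pb_corank_le hr.1

/-- the rank modulo a prime is at most the rational rank -/
theorem rank_mod_le {n : ℕ} (b : Sym2 (Fin n) → Bool) (p : ℕ) [Fact p.Prime] :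
    ((matZ b).map (Int.cast : ℤ → ZMod p)).rank ≤ rkQ b := by
  classical
  set M := (matZ b).map (Int.cast : ℤ → ZMod p) with hM
  have hs : ∀ i j, M i j = M j i := by
    intro i j
    simp only [hM, map_apply]
    rw [matZ_symm]
  obtain ⟨A, -, hA1, hA2, -⟩ := exists_base M hs univ
  have hA3 : (prin M (univ : Finset (Fin n))).rank = M.rank := by
    have h1 : prin M (univ : Finset (Fin n)) = M.submatrix
        (Equiv.subtypeUnivEquiv (p := fun x => x ∈ (univ : Finset (Fin n))) (by simp))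
        (Equiv.subtypeUnivEquiv (p := fun x => x ∈ (univ : Finset (Fin n))) (by simp)) := by
      ext i j; rfl
    rw [h1, rank_submatrix]
  have h4 : (prin (matZ b) A).det ≠ 0 := by
    intro h
    apply hA2
    have h5 : prin M A = (prin (matZ b) A).map (Int.castRingHom (ZMod p)) := by
      ext i j; rfl
    have h6 := (Int.castRingHom (ZMod p)).map_det (prin (matZ b) A)
    rw [h5]
    rw [h, map_zero] at h6
    exact h6.symm
  have h7 : (prin ((matZ b).map (Int.cast : ℤ → ℚ)) A).det ≠ 0 := by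
    have h5 : prin ((matZ b).map (Int.cast : ℤ → ℚ)) A =
        (prin (matZ b) A).map (Int.castRingHom ℚ) := by
      ext i j; rfl
    have h6 := (Int.castRingHom ℚ).map_det (prin (matZ b) A)
    rw [h5]
    intro h8
    apply h4
    have h9 : (Int.castRingHom ℚ) (prin (matZ b) A).det = 0 := h6.trans h8
    simpa using h9
  have h9 : (prin ((matZ b).map (Int.cast : ℤ → ℚ)) A).rank = A.card := by
    rw [rank_of_isUnit _ ((isUnit_iff_isUnit_det _).2 (isUnit_iff_ne_zero.2 h7)),
      Fintype.card_coe]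
  have h10 : (prin ((matZ b).map (Int.cast : ℤ → ℚ)) A).rank ≤ rkQ b := rank_submatrix_le _ _ _
  omega

/-- large coranks are rare: corank `≥ k`, `k² ≥ 26 n`, has probability `≤ 2^{-n}` -/
theorem Pb_large_corank {n k : ℕ} (hn : 1 ≤ n) (hk : 26 * n ≤ k ^ 2) :
    Pb (fun b : Sym2 (Fin n) → Bool => rkQ b + k ≤ n) ≤ (1 / 2) ^ n := by
  classical
  have h1 := card_corank_le_exp (α := Fin n) 1 k (by simpa using hn) (by simpa using hk)
  have h2 : Pb (fun b : Sym2 (Fin n) → Bool => rkQ b + k ≤ n) ≤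
      Pb (fun b : Sym2 (Fin n) → Bool => ∃ (p : ℕ) (_ : Fact p.Prime) (T : Finset (Fin n)),
      (prin ((matZ b).map (Int.cast : ℤ → ZMod p)) T).rank + k ≤ T.card) := by
    refine Pb_mono fun b hb => ⟨2, ⟨Nat.prime_two⟩, univ, ?_⟩
    have : Fact (Nat.Prime 2) := ⟨Nat.prime_two⟩
    have h3 := rank_mod_le b 2
    have h4 : (prin ((matZ b).map (Int.cast : ℤ → ZMod 2)) (univ : Finset (Fin n))).rank ≤
        ((matZ b).map (Int.cast : ℤ → ZMod 2)).rank := rank_submatrix_le _ _ _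
    rw [card_univ, Fintype.card_fin]
    omega
  refine h2.trans ?_
  unfold Pb
  rw [div_le_iff₀ (by positivity)]
  have h3 : ((univ.filter fun b : Sym2 (Fin n) → Bool => ∃ (p : ℕ) (_ : Fact p.Prime)
      (T : Finset (Fin n)), (prin ((matZ b).map (Int.cast : ℤ → ZMod p)) T).rank + k ≤ T.card).card
      : ℝ) * 2 ^ n ≤ 2 ^ Fintype.card (Sym2 (Fin n)) := by
    have := h1
    rw [one_mul, Fintype.card_fin] at this
    exact_mod_cast this
  rw [one_div, inv_pow, inv_mul_eq_div, le_div_iff₀ (by positivity)]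
  convert h3 using 3

/-- the subexponential loss of the reduction -/
theorem loss (δ : ℝ) (hδ : 0 < δ) : ∃ n0 : ℕ, ∀ n ≥ n0,
    ((Nat.sqrt (26 * n) + 1 : ℕ) : ℝ) * (n : ℝ) ^ (Nat.sqrt (26 * n) + 1) *
      2 ^ (Nat.sqrt (26 * n) + 1) + 1 ≤ (2 : ℝ) ^ (δ * n) := by
  have h1 := (isLittleO_log_rpow_atTop (r := 1 / 2) (by norm_num)).bound
    (c := δ * Real.log 2 / 17) (by positivity)
  have h2 := tendsto_natCast_atTop_atTop (R := ℝ) |>.eventually h1
  obtain ⟨n1, hn1⟩ := Filter.eventually_atTop.1 h2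
  refine ⟨max n1 9, fun n hn => ?_⟩
  have hn9 : 9 ≤ n := le_trans (le_max_right _ _) hn
  have h3 := hn1 n (le_trans (le_max_left _ _) hn)
  have hn0 : (0 : ℝ) < n := by exact_mod_cast (by omega : 0 < n)
  have hn9' : (9 : ℝ) ≤ n := by exact_mod_cast hn9
  have hlog : 0 ≤ Real.log n := Real.log_nonneg (by linarith)
  rw [Real.norm_of_nonneg hlog, Real.norm_of_nonneg (by positivity), ← Real.sqrt_eq_rpow] at h3
  set k := Nat.sqrt (26 * n) + 1 with hk
  have hsq : (Real.sqrt n) ^ 2 = n := Real.sq_sqrt hn0.le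
  have hs3 : 3 ≤ Real.sqrt n := by
    rw [Real.le_sqrt (by norm_num) hn0.le]; linarith
  have hk1 : ((Nat.sqrt (26 * n) : ℕ) : ℝ) ≤ 6 * Real.sqrt n := by
    have h4 : ((Nat.sqrt (26 * n) : ℕ) : ℝ) ^ 2 ≤ 26 * n := by
      exact_mod_cast Nat.sqrt_le' (26 * n)
    have h5 : ((Nat.sqrt (26 * n) : ℕ) : ℝ) ^ 2 ≤ (6 * Real.sqrt n) ^ 2 := by
      rw [mul_pow, hsq]; linarith
    exact abs_le_of_sq_le_sq' h5 (by positivity) |>.2
  have hk2 : (k : ℝ) ≤ 7 * Real.sqrt n := by
    rw [hk]; push_cast; linarith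
  have hk3 : ((2 * k + 3 : ℕ) : ℝ) ≤ 17 * Real.sqrt n := by
    push_cast; linarith
  have hk4 : (k : ℝ) ≤ (n : ℝ) ^ 2 := by
    nlinarith
  have hn1' : (1 : ℝ) ≤ n := by linarith
  have h6 : (k : ℝ) * (n : ℝ) ^ k * 2 ^ k + 1 ≤ (n : ℝ) ^ (2 * k + 3) := by
    have h7 : (2 : ℝ) ^ k ≤ (n : ℝ) ^ k := pow_le_pow_left₀ (by norm_num) (by linarith) k
    have h8 : (k : ℝ) * (n : ℝ) ^ k * 2 ^ k ≤ (n : ℝ) ^ 2 * (n : ℝ) ^ k * (n : ℝ) ^ k := by
      gcongr
    have h9 : (n : ℝ) ^ 2 * (n : ℝ) ^ k * (n : ℝ) ^ k = (n : ℝ) ^ (2 * k + 2) := by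
      rw [← pow_add, ← pow_add]; congr 1; ring
    have h10 : (1 : ℝ) ≤ (n : ℝ) ^ (2 * k + 2) := one_le_pow₀ hn1'
    have h11 : (n : ℝ) ^ (2 * k + 3) = (n : ℝ) ^ (2 * k + 2) * n := pow_succ _ _
    rw [h11]
    nlinarith
  refine h6.trans ?_
  rw [← Real.rpow_natCast, Real.rpow_def_of_pos hn0, Real.rpow_def_of_pos (by norm_num : (0 : ℝ) < 2)]
  apply Real.exp_le_exp.2
  have h12 : Real.log n * ((2 * k + 3 : ℕ) : ℝ) ≤
      (δ * Real.log 2 / 17 * Real.sqrt n) * (17 * Real.sqrt n) := by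
    apply mul_le_mul h3 hk3 (by positivity) (by positivity)
  calc Real.log n * ((2 * k + 3 : ℕ) : ℝ) ≤ _ := h12
    _ = Real.log 2 * (δ * (Real.sqrt n) ^ 2) := by ring
    _ = Real.log 2 * (δ * n) := by rw [hsq]

/-- The corank one statement with rate `2^{-(1-lam)}`. -/
def CorankOneLam (lam : ℝ) : Prop := ∀ ε : ℝ, 0 < ε → ∃ m0 : ℕ, ∀ m ≥ m0,
  Pb (fun b : Sym2 (Fin m) → Bool => rkQ b + 1 = m) ≤ (2 : ℝ) ^ (-(1 - lam - ε) * m)

/-- The corank one statement with the sharp rate. -/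
def CorankOneStmt : Prop := ∀ ε : ℝ, 0 < ε → ∃ m0 : ℕ, ∀ m ≥ m0,
  Pb (fun b : Sym2 (Fin m) → Bool => rkQ b + 1 = m) ≤ (2 : ℝ) ^ (-(1 - ε) * m)

/-- One exponent: an eventual bound `2^{-(1-κ) m}` for corank one gives `2^{-(1-κ-δ) n}` for all
singular matrices. -/
theorem sing_of_one (κ : ℝ) (hκ0 : 0 ≤ κ) (hκ1 : κ ≤ 1)
    (h : ∃ m0 : ℕ, ∀ m ≥ m0,
      Pb (fun b : Sym2 (Fin m) → Bool => rkQ b + 1 = m) ≤ (2 : ℝ) ^ (-(1 - κ) * m))
    (δ : ℝ) (hδ : 0 < δ) : ∃ n0 : ℕ, ∀ n ≥ n0,
    Pb (fun b : Sym2 (Fin n) → Bool => (matZ b).det = 0) ≤ (2 : ℝ) ^ (-(1 - κ - δ) * n) := by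
  classical
  obtain ⟨m0, hm0⟩ := h
  obtain ⟨n1, hn1⟩ := loss δ hδ
  refine ⟨max (2 * m0 + 112) n1, fun n hn => ?_⟩
  have hn2 : 2 * m0 + 112 ≤ n := le_trans (le_max_left _ _) hn
  have h1 := hn1 n (le_trans (le_max_right _ _) hn)
  set k := Nat.sqrt (26 * n) + 1 with hk
  have hk26 : 26 * n ≤ k ^ 2 := (Nat.lt_succ_sqrt' (26 * n)).le
  have hkn : 2 * k ≤ n := by
    have h3 : Nat.sqrt (26 * n) ^ 2 ≤ 26 * n := Nat.sqrt_le' _
    have h4 : 112 ≤ n := by omega
    by_contra hcon
    push Not at hcon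
    have h5 : n ≤ 2 * Nat.sqrt (26 * n) + 1 := by omega
    nlinarith
  have h2 : Pb (fun b : Sym2 (Fin n) → Bool => (matZ b).det = 0) ≤
      Pb (fun b : Sym2 (Fin n) → Bool => (∃ r ∈ Icc 1 k, rkQ b + r = n) ∨ rkQ b + k ≤ n) := by
    refine Pb_mono fun b hb => ?_
    rw [det_zero_iff] at hb
    by_cases h3 : rkQ b + k ≤ n
    · exact Or.inr h3
    · exact Or.inl ⟨n - rkQ b, mem_Icc.2 ⟨by omega, by omega⟩, by omega⟩
  have h3 := Pb_large_corank (n := n) (k := k) (by omega) hk26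
  have h4 : Pb (fun b : Sym2 (Fin n) → Bool => ∃ r ∈ Icc 1 k, rkQ b + r = n) ≤
      (k : ℝ) * ((n : ℝ) ^ k * (2 : ℝ) ^ (-(1 - κ) * (n - k : ℝ))) := by
    refine (Pb_exists _ _).trans ?_
    have h5 : ∀ r ∈ Icc 1 k, Pb (fun b : Sym2 (Fin n) → Bool => rkQ b + r = n) ≤
        (n : ℝ) ^ k * (2 : ℝ) ^ (-(1 - κ) * (n - k : ℝ)) := by
      intro r hr
      rw [mem_Icc] at hr
      refine (Pb_corank_le hr.1).trans ?_
      have h6 : (n.choose (n - r + 1) : ℝ) ≤ (n : ℝ) ^ k := by
        have h7 : n.choose (n - r + 1) = n.choose (r - 1) := by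
          rw [← Nat.choose_symm (by omega : r - 1 ≤ n)]
          congr 1
          omega
        rw [h7]
        have h8 : n.choose (r - 1) ≤ n ^ (r - 1) := Nat.choose_le_pow n (r - 1)
        have h9 : n ^ (r - 1) ≤ n ^ k := Nat.pow_le_pow_right (by omega) (by omega)
        exact_mod_cast h8.trans h9
      have h7 := hm0 (n - r + 1) (by omega)
      have h8 : (2 : ℝ) ^ (-(1 - κ) * ((n - r + 1 : ℕ) : ℝ)) ≤
          (2 : ℝ) ^ (-(1 - κ) * (n - k : ℝ)) := by
        apply Real.rpow_le_rpow_of_exponent_le (by norm_num)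
        have h9 : (n : ℝ) - k ≤ ((n - r + 1 : ℕ) : ℝ) := by
          have h10 : n ≤ (n - r + 1) + k := by omega
          have h11 : (n : ℝ) ≤ ((n - r + 1 : ℕ) : ℝ) + k := by exact_mod_cast h10
          linarith
        nlinarith
      exact mul_le_mul h6 (h7.trans h8) (Pb_nonneg _) (by positivity)
    refine (sum_le_sum h5).trans ?_
    rw [sum_const, Nat.card_Icc, nsmul_eq_mul, Nat.add_sub_cancel]
  refine h2.trans ((Pb_or _ _).trans ((add_le_add h4 h3).trans ?_))
  have h5 : (2 : ℝ) ^ (-(1 - κ) * (n - k : ℝ)) ≤ 2 ^ k * (2 : ℝ) ^ (-(1 - κ) * (n : ℝ)) := by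
    rw [← Real.rpow_natCast, ← Real.rpow_add (by norm_num)]
    apply Real.rpow_le_rpow_of_exponent_le (by norm_num)
    have : (0 : ℝ) ≤ k := Nat.cast_nonneg k
    nlinarith
  have h6 : (1 / 2 : ℝ) ^ n ≤ (2 : ℝ) ^ (-(1 - κ) * (n : ℝ)) := by
    rw [one_div, inv_pow, ← Real.rpow_natCast, ← Real.rpow_neg (by norm_num)]
    apply Real.rpow_le_rpow_of_exponent_le (by norm_num)
    have : (0 : ℝ) ≤ n := Nat.cast_nonneg n
    nlinarith
  have h7 : 0 < (2 : ℝ) ^ (-(1 - κ) * (n : ℝ)) := by positivity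
  calc (k : ℝ) * ((n : ℝ) ^ k * (2 : ℝ) ^ (-(1 - κ) * (n - k : ℝ))) + (1 / 2) ^ n
      ≤ (k : ℝ) * ((n : ℝ) ^ k * (2 ^ k * (2 : ℝ) ^ (-(1 - κ) * (n : ℝ)))) +
        (2 : ℝ) ^ (-(1 - κ) * (n : ℝ)) := by gcongr
    _ = ((k : ℝ) * (n : ℝ) ^ k * 2 ^ k + 1) * (2 : ℝ) ^ (-(1 - κ) * (n : ℝ)) := by ring
    _ ≤ (2 : ℝ) ^ (δ * n) * (2 : ℝ) ^ (-(1 - κ) * (n : ℝ)) :=
        mul_le_mul_of_nonneg_right h1 h7.le
    _ = (2 : ℝ) ^ (-(1 - κ - δ) * n) := by
        rw [← Real.rpow_add (by norm_num)]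
        congr 1
        ring

/-- **The corank one bound implies the bound for all singular matrices** (any rate). -/
theorem sing_of_corankOneLam (lam : ℝ) (h0 : 0 ≤ lam) (h : CorankOneLam lam) (ε : ℝ)
    (hε : 0 < ε) : ∃ n0 : ℕ, ∀ n ≥ n0,
    Pb (fun b : Sym2 (Fin n) → Bool => (matZ b).det = 0) ≤ (2 : ℝ) ^ (-(1 - lam - ε) * n) := by
  classical
  by_cases h1 : lam + ε / 2 ≤ 1
  · obtain ⟨m0, hm0⟩ := h (ε / 2) (by linarith)
    obtain ⟨n0, hn0⟩ := sing_of_one (lam + ε / 2) (by linarith) h1 ⟨m0, fun m hm => by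
      have := hm0 m hm
      rwa [show 1 - (lam + ε / 2) = 1 - lam - ε / 2 by ring]⟩ (ε / 2) (by linarith)
    refine ⟨n0, fun n hn => ?_⟩
    have := hn0 n hn
    rwa [show 1 - (lam + ε / 2) - ε / 2 = 1 - lam - ε by ring] at this
  · refine ⟨0, fun n _ => ?_⟩
    push Not at h1
    have h2 : Pb (fun b : Sym2 (Fin n) → Bool => (matZ b).det = 0) ≤ 1 := by
      unfold Pb
      rw [div_le_one (by positivity)]
      have h3 : ((univ.filter fun b : Sym2 (Fin n) → Bool => (matZ b).det = 0).card : ℝ) ≤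
          ((univ : Finset (Sym2 (Fin n) → Bool)).card : ℝ) := by
        exact_mod_cast card_le_card (filter_subset _ _)
      rw [card_univ, Fintype.card_fun, Fintype.card_bool] at h3
      push_cast at h3
      refine le_trans (le_of_eq ?_) h3
      congr
    refine h2.trans (Real.one_le_rpow (by norm_num) ?_)
    have : (0 : ℝ) ≤ n := Nat.cast_nonneg n
    nlinarith

/-- **The corank one bound implies the bound for all singular matrices.** -/
theorem sing_of_corankOne (h : CorankOneStmt) (ε : ℝ) (hε : 0 < ε) : ∃ n0 : ℕ, ∀ n ≥ n0,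
    Pb (fun b : Sym2 (Fin n) → Bool => (matZ b).det = 0) ≤ (2 : ℝ) ^ (-(1 - ε) * n) := by
  obtain ⟨n0, hn0⟩ := sing_of_corankOneLam 0 le_rfl (fun ε hε => by
    obtain ⟨m0, hm0⟩ := h ε hε
    exact ⟨m0, fun m hm => by rw [sub_zero]; exact hm0 m hm⟩) ε hε
  exact ⟨n0, fun n hn => by have := hn0 n hn; rwa [sub_zero] at this⟩

end Vale.Agent.P160.Half.CO
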