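import Mathlib

/-! # P160 (M): counting structured vectors over a finite abelian group, part (B) of note 11105.

Chord metric `ch s v = ‖s v - 1‖` for characters `s : AddChar Γ ℂ`. -/

namespace Vale.Agent.P160.Half.CountB

variable {Γ : Type*} [AddCommGroup Γ]

/-- chord distance of a character value to `1` -/
noncomputable def ch (s : AddChar Γ ℂ) (v : Γ) : ℝ := ‖s v - 1‖

theorem ch_nonneg (s : AddChar Γ ℂ) (v : Γ) : 0 ≤ ch s v := norm_nonneg _

theorem ch_zero (s : AddChar Γ ℂ) : ch s 0 = 0 := by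
  simp [ch]

theorem ch_add [Finite Γ] (s : AddChar Γ ℂ) (v w : Γ) : ch s (v + w) ≤ ch s v + ch s w := by
  unfold ch
  have h : s (v + w) - 1 = s v * (s w - 1) + (s v - 1) := by
    rw [AddChar.map_add_eq_mul]; ring
  rw [h]
  refine (norm_add_le _ _).trans ?_
  rw [norm_mul, AddChar.norm_apply, one_mul, add_comm]

theorem ch_neg [Finite Γ] (s : AddChar Γ ℂ) (v : Γ) : ch s (-v) = ch s v := by
  unfold ch
  have h1 : s (-v) * s v = 1 := by
    rw [← AddChar.map_add_eq_mul]; simp
  have h : s (-v) - 1 = -(s (-v) * (s v - 1)) := by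
    rw [mul_sub, h1]; ring
  rw [h, norm_neg, norm_mul, AddChar.norm_apply, one_mul]

/-- no small subgroups of the circle -/
theorem exists_pow (z : ℂ) (hz : ‖z‖ = 1) (h1 : z ≠ 1) : ∃ m : ℕ, 1 < ‖z ^ m - 1‖ := by
  by_contra hcon
  push Not at hcon
  have hpos : 0 < ‖z - 1‖ := norm_pos_iff.2 (sub_ne_zero.2 h1)
  have step : ∀ w : ℂ, ‖w‖ = 1 → ‖w - 1‖ ≤ 1 → (3 / 2 : ℝ) * ‖w - 1‖ ≤ ‖w ^ 2 - 1‖ := by
    intro w hw hw1
    have h2 : w ^ 2 - 1 = (w - 1) * (w + 1) := by ring
    rw [h2, norm_mul, mul_comm]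
    refine mul_le_mul_of_nonneg_left ?_ (norm_nonneg _)
    have hp : ‖w - 1‖ ^ 2 + ‖w + 1‖ ^ 2 = 4 := by
      have := parallelogram_law_with_norm ℝ w 1
      rw [hw, norm_one] at this
      nlinarith [this]
    have h3 : (3 / 2 : ℝ) ^ 2 ≤ ‖w + 1‖ ^ 2 := by nlinarith [norm_nonneg (w - 1)]
    exact le_of_sq_le_sq h3 (norm_nonneg _) |>.trans le_rfl
  have grow : ∀ n : ℕ, (3 / 2 : ℝ) ^ n * ‖z - 1‖ ≤ ‖z ^ (2 ^ n) - 1‖ := by
    intro n
    induction n with
    | zero => simp
    | succ n ih =>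
      have h4 := step (z ^ (2 ^ n)) (by rw [norm_pow, hz, one_pow]) (hcon _)
      rw [← pow_mul, ← pow_succ] at h4
      calc (3 / 2 : ℝ) ^ (n + 1) * ‖z - 1‖ = (3 / 2) * ((3 / 2 : ℝ) ^ n * ‖z - 1‖) := by ring
        _ ≤ (3 / 2) * ‖z ^ (2 ^ n) - 1‖ := by linarith
        _ ≤ _ := h4
  obtain ⟨n, hn⟩ := pow_unbounded_of_one_lt (1 / ‖z - 1‖) (by norm_num : (1 : ℝ) < 3 / 2)
  have h5 := grow n
  have h6 := hcon (2 ^ n)
  have h7 : 1 < (3 / 2 : ℝ) ^ n * ‖z - 1‖ := by
    rw [div_lt_iff₀ hpos] at hn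
    exact hn
  linarith

/-- the growth lemma for a length function without small subgroups -/
theorem growth [Fintype Γ] [DecidableEq Γ] (f : Γ → ℝ) (h0 : f 0 = 0)
    (hadd : ∀ v w, f (v + w) ≤ f v + f w) (hneg : ∀ v, f (-v) = f v)
    (hsub : ∀ v, 0 < f v → ∃ m : ℕ, 1 < f (m • v)) {ρ D : ℝ} (hρ : 0 < ρ) (hD : D ≤ 1)
    (J : ℕ) (hJ : 3 * J * ρ ≤ D) (v0 : Γ) (hv0 : 0 < f v0) (hv1 : f v0 ≤ ρ) :
    J * (Finset.univ.filter (fun v => f v ≤ ρ)).card ≤
      (Finset.univ.filter (fun v => f v ≤ D)).card := by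
  classical
  have hex : ∀ j : Fin J, ∃ w : Γ, 3 * (j : ℝ) * ρ < f w ∧ f w ≤ 3 * (j : ℝ) * ρ + ρ := by
    intro j
    have hj : 3 * (j : ℝ) * ρ ≤ 1 := by
      have : (j : ℝ) ≤ J := by exact_mod_cast j.2.le
      nlinarith
    obtain ⟨m, hm⟩ := hsub v0 hv0
    have hP : ∃ m : ℕ, 3 * (j : ℝ) * ρ < f (m • v0) := ⟨m, hj.trans_lt hm⟩
    refine ⟨Nat.find hP • v0, Nat.find_spec hP, ?_⟩
    have hpos : Nat.find hP ≠ 0 := by
      intro h
      have := Nat.find_spec hP
      rw [h, zero_smul, h0] at this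
      have : (0 : ℝ) ≤ 3 * (j : ℝ) * ρ := by positivity
      linarith
    obtain ⟨q, hq⟩ := Nat.exists_eq_succ_of_ne_zero hpos
    have hlt : ¬ 3 * (j : ℝ) * ρ < f (q • v0) := Nat.find_min hP (by omega)
    rw [hq, succ_nsmul]
    have := hadd (q • v0) v0
    linarith
  choose w hw1 hw2 using hex
  have hcard : J * (Finset.univ.filter (fun v => f v ≤ ρ)).card =
      ((Finset.univ : Finset (Fin J)) ×ˢ (Finset.univ.filter (fun v => f v ≤ ρ))).card := by
    rw [Finset.card_product]; simp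
  rw [hcard]
  refine Finset.card_le_card_of_injOn (fun p => w p.1 + p.2) ?_ ?_
  · intro p hp
    simp only [Finset.coe_product, Set.mem_prod, Finset.mem_coe, Finset.mem_filter,
      Finset.mem_univ, true_and] at hp ⊢
    have h1 := hadd (w p.1) p.2
    have h2 := hw2 p.1
    have h3 : ((p.1 : ℕ) : ℝ) + 1 ≤ J := by exact_mod_cast p.1.2
    nlinarith
  · have key : ∀ (i j : Fin J) (v v' : Γ), f v ≤ ρ → f v' ≤ ρ → w i + v = w j + v' → ¬ i < j := by
      intro i j v v' hv hv' he hij
      have h1 : w j = w i + (v + -v') := by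
        have : w j = w i + v - v' := by rw [he]; abel
        rw [this]; abel
      have h2 := hadd (w i) (v + -v')
      have h3 := hadd v (-v')
      rw [hneg] at h3
      rw [← h1] at h2
      have h4 := hw1 j
      have h5 := hw2 i
      have h6 : ((i : ℕ) : ℝ) + 1 ≤ (j : ℕ) := by exact_mod_cast hij
      nlinarith
    rintro ⟨i, v⟩ hp ⟨j, v'⟩ hp' he
    simp only [Finset.coe_product, Set.mem_prod, Finset.mem_coe, Finset.mem_filter,
      Finset.mem_univ, true_and] at hp hp' he
    have hij : i = j := by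
      rcases lt_trichotomy i j with h | h | h
      · exact absurd h (key i j v v' hp hp' he)
      · exact h
      · exact absurd h (key j i v' v hp' hp he.symm)
    subst hij
    have := add_left_cancel he
    rw [this]

/-- the growth lemma for several characters -/
theorem growth_ch [Fintype Γ] [DecidableEq Γ] {L : ℕ} (hL : 1 ≤ L) (S : Fin L → AddChar Γ ℂ)
    {ρ D : ℝ} (hρ : 0 < ρ) (hD : D ≤ 1) (J : ℕ) (hJ : 3 * J * (L * ρ) ≤ D) (v0 : Γ)
    (hv0 : ∃ b, S b v0 ≠ 1) (hv1 : ∀ b, ch (S b) v0 ≤ ρ) :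
    J * (Finset.univ.filter (fun v => ∀ b, ch (S b) v ≤ ρ)).card ≤
      (Finset.univ.filter (fun v => ∀ b, ch (S b) v ≤ D)).card := by
  classical
  set f : Γ → ℝ := fun v => ∑ b, ch (S b) v with hf
  have hle : ∀ v, (∀ b, ch (S b) v ≤ ρ) → f v ≤ L * ρ := by
    intro v hv
    have := Finset.sum_le_sum (s := Finset.univ) (fun b _ => hv b)
    simpa [hf] using this
  have hone : ∀ b v, ch (S b) v ≤ f v := fun b v =>
    Finset.single_le_sum (f := fun b => ch (S b) v) (fun b _ => ch_nonneg _ _) (Finset.mem_univ b)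
  have hLρ : 0 < (L : ℝ) * ρ := by
    have : (0 : ℝ) < L := by exact_mod_cast hL
    positivity
  have hpos : ∀ v, 0 < f v → ∃ b, S b v ≠ 1 := by
    intro v hv
    by_contra hcon
    push Not at hcon
    have : f v = 0 := by
      simp [hf, ch, hcon]
    linarith
  have hg := growth f (by simp [hf, ch_zero])
    (by
      intro v w
      simp only [hf]
      rw [← Finset.sum_add_distrib]
      exact Finset.sum_le_sum fun b _ => ch_add _ _ _)
    (by intro v; simp only [hf, ch_neg])
    (by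
      intro v hv
      obtain ⟨b, hb⟩ := hpos v hv
      obtain ⟨m, hm⟩ := exists_pow (S b v) (AddChar.norm_apply _ _) hb
      refine ⟨m, hm.trans_le ?_⟩
      have := hone b (m • v)
      rwa [ch, AddChar.map_nsmul_eq_pow] at this)
    hLρ hD J hJ v0
    (by
      obtain ⟨b, hb⟩ := hv0
      have h1 : 0 < ch (S b) v0 := norm_pos_iff.2 (sub_ne_zero.2 hb)
      exact h1.trans_le (hone b v0))
    (hle v0 hv1)
  refine le_trans (Nat.mul_le_mul_left J (Finset.card_le_card ?_)) (hg.trans (Finset.card_le_card ?_))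
  · intro v hv
    simp only [Finset.mem_filter, Finset.mem_univ, true_and] at hv ⊢
    exact hle v hv
  · intro v hv
    simp only [Finset.mem_filter, Finset.mem_univ, true_and] at hv ⊢
    exact fun b => (hone b v).trans hv

/-- the Fejer-Parseval input: `Lam` with many close values on `B` is small -/
def Fej (Γ : Type*) [AddCommGroup Γ] [Fintype Γ] (β D : ℝ) : Prop :=
  ∀ (Lam : Finset (AddChar Γ ℂ)) (B : Finset Γ),
    (∀ s ∈ Lam, β * (B.card : ℝ) ≤ ((B.filter (fun v => ch s v ≤ D)).card : ℝ)) →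
    (Lam.card : ℝ) * B.card * β ^ 2 ≤ 256 * Fintype.card Γ

/-- the greedy choice -/
theorem greedy [Fintype Γ] [DecidableEq Γ] (Lam : Finset (AddChar Γ ℂ)) (hne : Lam.Nonempty)
    {β D : ℝ} (hβ : 0 < β) (hF : Fej Γ β D) (L : ℕ) :
    ∃ S : Fin L → AddChar Γ ℂ, (∀ b, S b ∈ Lam) ∧
      ((Finset.univ.filter (fun v => ∀ b, ch (S b) v ≤ D)).card : ℝ) ≤
        max (β ^ L) (256 / (β ^ 2 * Lam.card)) * Fintype.card Γ := by
  classical
  have hLam : (0 : ℝ) < Lam.card := by exact_mod_cast hne.card_pos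
  have hG : (0 : ℝ) ≤ Fintype.card Γ := by positivity
  induction L with
  | zero =>
    refine ⟨fun b => b.elim0, fun b => b.elim0, ?_⟩
    have h1 : ((Finset.univ.filter (fun v : Γ => ∀ b : Fin 0,
        ch (b.elim0 : AddChar Γ ℂ) v ≤ D)).card : ℝ) ≤ Fintype.card Γ := by
      exact_mod_cast Finset.card_le_univ _
    refine h1.trans ?_
    have h2 : (1 : ℝ) ≤ max (β ^ 0) (256 / (β ^ 2 * Lam.card)) := by simp
    nlinarith
  | succ L ih =>
    obtain ⟨S, hS, hc⟩ := ih
    set B := Finset.univ.filter (fun v => ∀ b, ch (S b) v ≤ D) with hB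
    have hset : ∀ s : AddChar Γ ℂ,
        (Finset.univ.filter (fun v => ∀ b, ch ((Fin.snoc S s : Fin (L + 1) → AddChar Γ ℂ) b) v ≤ D))
          = B.filter (fun v => ch s v ≤ D) := by
      intro s
      ext v
      simp only [Finset.mem_filter, Finset.mem_univ, true_and, hB]
      rw [Fin.forall_fin_succ']
      simp
    have hmem : ∀ s ∈ Lam, ∀ b, (Fin.snoc S s : Fin (L + 1) → AddChar Γ ℂ) b ∈ Lam := by
      intro s hs
      rw [Fin.forall_fin_succ']
      simp only [Fin.snoc_castSucc, Fin.snoc_last]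
      exact ⟨hS, hs⟩
    by_cases hcase : (B.card : ℝ) ≤ 256 / (β ^ 2 * Lam.card) * Fintype.card Γ
    · obtain ⟨s, hs⟩ := hne
      refine ⟨Fin.snoc S s, hmem s hs, ?_⟩
      rw [hset]
      have h1 : ((B.filter (fun v => ch s v ≤ D)).card : ℝ) ≤ B.card := by
        exact_mod_cast Finset.card_filter_le _ _
      exact (h1.trans hcase).trans (mul_le_mul_of_nonneg_right (le_max_right _ _) hG)
    · have hex : ∃ s ∈ Lam, ((B.filter (fun v => ch s v ≤ D)).card : ℝ) < β * B.card := by
        by_contra hcon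
        push Not at hcon
        have h1 := hF Lam B hcon
        apply hcase
        rw [div_mul_eq_mul_div, le_div_iff₀ (by positivity)]
        linarith
      obtain ⟨s, hs, hlt⟩ := hex
      refine ⟨Fin.snoc S s, hmem s hs, ?_⟩
      rw [hset]
      have h2 : (B.card : ℝ) ≤ β ^ L * Fintype.card Γ := by
        rcases le_max_iff.1 (le_refl (max (β ^ L) (256 / (β ^ 2 * Lam.card)))) with h | h
        · exact hc.trans (mul_le_mul_of_nonneg_right h hG)
        · exact absurd (hc.trans (mul_le_mul_of_nonneg_right h hG)) hcase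
      have h3 : β * (B.card : ℝ) ≤ β ^ (L + 1) * Fintype.card Γ := by
        calc β * (B.card : ℝ) ≤ β * (β ^ L * Fintype.card Γ) := by nlinarith
          _ = _ := by ring
      exact (hlt.le.trans h3).trans (mul_le_mul_of_nonneg_right (le_max_left _ _) hG)

/-- vectors with few coordinates outside `B` -/
theorem card_few [Fintype Γ] [DecidableEq Γ] {m E : ℕ} (hE : E ≤ m) (B : Finset Γ) {U : ℝ}
    (hBU : (B.card : ℝ) ≤ U) (hU : U ≤ Fintype.card Γ) :
    ((Finset.univ.filter (fun y : Fin m → Γ =>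
        (Finset.univ.filter (fun c => y c ∉ B)).card ≤ E)).card : ℝ) ≤
      2 ^ m * (Fintype.card Γ ^ E * U ^ (m - E)) := by
  classical
  have hU0 : 0 ≤ U := le_trans (by positivity) hBU
  obtain ⟨G, hG⟩ : ∃ G : ℝ, G = (Fintype.card Γ : ℝ) := ⟨_, rfl⟩
  have hG0 : 0 ≤ G := by rw [hG]; positivity
  rw [← hG] at hU ⊢
  have hsub : Finset.univ.filter (fun y : Fin m → Γ =>
      (Finset.univ.filter (fun c => y c ∉ B)).card ≤ E) ⊆
      ((Finset.univ : Finset (Finset (Fin m))).filter (fun T => T.card ≤ E)).biUnion (fun T =>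
        Fintype.piFinset (fun c => if c ∈ T then (Finset.univ : Finset Γ) else B)) := by
    intro y hy
    simp only [Finset.mem_filter, Finset.mem_univ, true_and] at hy
    rw [Finset.mem_biUnion]
    refine ⟨Finset.univ.filter (fun c => y c ∉ B), by simpa using hy, ?_⟩
    rw [Fintype.mem_piFinset]
    intro c
    by_cases hc : y c ∈ B
    · simp [hc]
    · simp [hc]
  have hT : ∀ T ∈ (Finset.univ : Finset (Finset (Fin m))).filter (fun T => T.card ≤ E),
      ((Fintype.piFinset (fun c => if c ∈ T then (Finset.univ : Finset Γ) else B)).card : ℝ) ≤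
        G ^ E * U ^ (m - E) := by
    intro T hT
    simp only [Finset.mem_filter, Finset.mem_univ, true_and] at hT
    rw [Fintype.card_piFinset]
    push_cast
    have h1 : ∏ c : Fin m, (((if c ∈ T then (Finset.univ : Finset Γ) else B).card : ℕ) : ℝ) =
        G ^ T.card * (B.card : ℝ) ^ (m - T.card) := by
      have h2 : ∀ c : Fin m, (((if c ∈ T then (Finset.univ : Finset Γ) else B).card : ℕ) : ℝ) =
          if c ∈ T then G else (B.card : ℝ) := by
        intro c
        split_ifs
        · rw [hG, Finset.card_univ]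
        · rfl
      rw [Finset.prod_congr rfl (fun c _ => h2 c), Finset.prod_ite]
      simp only [Finset.prod_const]
      have h3 : (Finset.univ.filter (fun c => c ∈ T)).card = T.card := by
        congr 1; ext c; simp
      have h4 : (Finset.univ.filter (fun c => c ∉ T)).card = m - T.card := by
        have : Finset.univ.filter (fun c => c ∉ T) = Tᶜ := by ext c; simp
        rw [this, Finset.card_compl, Fintype.card_fin]
      rw [h3, h4]
    rw [h1]
    have hB0 : (0 : ℝ) ≤ B.card := Nat.cast_nonneg _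
    have e1 : (B.card : ℝ) ^ (m - T.card) ≤ U ^ (m - T.card) := pow_le_pow_left₀ hB0 hBU _
    have e2 : U ^ (E - T.card) ≤ G ^ (E - T.card) := pow_le_pow_left₀ hU0 hU _
    have e3 : U ^ (m - T.card) = U ^ (m - E) * U ^ (E - T.card) := by
      rw [← pow_add]; congr 1; omega
    have e4 : G ^ T.card * G ^ (E - T.card) = G ^ E := by
      rw [← pow_add]; congr 1; omega
    calc G ^ T.card * (B.card : ℝ) ^ (m - T.card) ≤ G ^ T.card * U ^ (m - T.card) :=
          mul_le_mul_of_nonneg_left e1 (pow_nonneg hG0 _)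
      _ = G ^ T.card * (U ^ (m - E) * U ^ (E - T.card)) := by rw [e3]
      _ ≤ G ^ T.card * (U ^ (m - E) * G ^ (E - T.card)) :=
          mul_le_mul_of_nonneg_left (mul_le_mul_of_nonneg_left e2 (pow_nonneg hU0 _))
            (pow_nonneg hG0 _)
      _ = G ^ T.card * G ^ (E - T.card) * U ^ (m - E) := by ring
      _ = G ^ E * U ^ (m - E) := by rw [e4]
  calc ((Finset.univ.filter (fun y : Fin m → Γ =>
        (Finset.univ.filter (fun c => y c ∉ B)).card ≤ E)).card : ℝ)
      ≤ ((((Finset.univ : Finset (Finset (Fin m))).filter (fun T => T.card ≤ E)).biUnion (fun T =>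
        Fintype.piFinset (fun c => if c ∈ T then (Finset.univ : Finset Γ) else B))).card : ℝ) := by
        exact_mod_cast Finset.card_le_card hsub
    _ ≤ ∑ T ∈ (Finset.univ : Finset (Finset (Fin m))).filter (fun T => T.card ≤ E),
        ((Fintype.piFinset (fun c => if c ∈ T then (Finset.univ : Finset Γ) else B)).card : ℝ) := by
        exact_mod_cast Finset.card_biUnion_le
    _ ≤ ∑ T ∈ (Finset.univ : Finset (Finset (Fin m))).filter (fun T => T.card ≤ E),
        G ^ E * U ^ (m - E) := Finset.sum_le_sum hT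
    _ = ((Finset.univ : Finset (Finset (Fin m))).filter (fun T => T.card ≤ E)).card *
        (G ^ E * U ^ (m - E)) := by rw [Finset.sum_const, nsmul_eq_mul]
    _ ≤ 2 ^ m * (G ^ E * U ^ (m - E)) := by
        gcongr
        have h5 : ((Finset.univ : Finset (Finset (Fin m))).filter (fun T => T.card ≤ E)).card ≤
            2 ^ m := by
          refine (Finset.card_filter_le _ _).trans ?_
          simp
        exact_mod_cast h5

/-- `y` is not sparse: every nontrivial character is nontrivial on more than `E` coordinates -/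
def NS {m : ℕ} (E : ℕ) (y : Fin m → Γ) : Prop :=
  ∀ s : AddChar Γ ℂ, s ≠ 0 → E < (Finset.univ.filter (fun c => s (y c) ≠ 1)).card

/-- `y` has `≥ K` nontrivial characters of energy `≤ τ` -/
def Str {m : ℕ} (K τ : ℝ) (y : Fin m → Γ) : Prop :=
  ∃ Lam : Finset (AddChar Γ ℂ), K ≤ (Lam.card : ℝ) ∧
    ∀ s ∈ Lam, s ≠ 0 ∧ ∑ c, ch s (y c) ^ 2 ≤ τ

open Classical in
/-- **the count (B)**: structured nonsparse vectors are few -/
theorem countB [Fintype Γ] {m L E J : ℕ} (hL : 1 ≤ L) (hE : E ≤ m) (hJ1 : 1 ≤ J)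
    {β D ρ τ K U : ℝ} (hβ : 0 < β) (hρ : 0 < ρ) (hD : D ≤ 1) (hK : 0 < K)
    (hF : Fej Γ β D) (hJ : 3 * J * (L * ρ) ≤ D) (hEτ : L * (τ / ρ ^ 2) ≤ E)
    (hU : max (β ^ L) (256 / (β ^ 2 * K)) * Fintype.card Γ ≤ J * U) (hUG : U ≤ Fintype.card Γ) :
    ((Finset.univ.filter (fun y : Fin m → Γ => NS E y ∧ Str K τ y)).card : ℝ) ≤
      Fintype.card Γ ^ L * (2 ^ m * (Fintype.card Γ ^ E * U ^ (m - E))) := by
  have hU0 : 0 ≤ U := by
    have hJ0 : (0 : ℝ) < J := by exact_mod_cast hJ1
    have h1 : 0 ≤ max (β ^ L) (256 / (β ^ 2 * K)) * Fintype.card Γ := by positivity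
    exact nonneg_of_mul_nonneg_right (h1.trans hU) hJ0
  have key : ∀ y : Fin m → Γ, NS E y → Str K τ y →
      ∃ S : Fin L → AddChar Γ ℂ,
        ((Finset.univ.filter (fun v => ∀ b, ch (S b) v ≤ ρ)).card : ℝ) ≤ U ∧
        (Finset.univ.filter (fun c => y c ∉
          Finset.univ.filter (fun v => ∀ b, ch (S b) v ≤ ρ))).card ≤ E := by
    intro y hy hs
    obtain ⟨Lam, hLK, hLam⟩ := hs
    have hLam0 : (0 : ℝ) < Lam.card := hK.trans_le hLK
    have hne : Lam.Nonempty := Finset.card_pos.1 (by exact_mod_cast hLam0)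
    obtain ⟨S, hS, hc⟩ := greedy Lam hne hβ hF L
    -- exceptional coordinates
    have hexc : (Finset.univ.filter (fun c => y c ∉
          Finset.univ.filter (fun v => ∀ b, ch (S b) v ≤ ρ))).card ≤ E := by
      have hsub : (Finset.univ.filter (fun c => y c ∉
          Finset.univ.filter (fun v => ∀ b, ch (S b) v ≤ ρ))) ⊆
          (Finset.univ : Finset (Fin L)).biUnion (fun b =>
            Finset.univ.filter (fun c => ρ < ch (S b) (y c))) := by
        intro c hc'
        simp only [Finset.mem_filter, Finset.mem_univ, true_and, not_forall, not_le] at hc'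
        obtain ⟨b, hb⟩ := hc'
        rw [Finset.mem_biUnion]
        exact ⟨b, Finset.mem_univ b, by simpa using hb⟩
      have hcheb : ∀ b : Fin L,
          ((Finset.univ.filter (fun c => ρ < ch (S b) (y c))).card : ℝ) ≤ τ / ρ ^ 2 := by
        intro b
        rw [le_div_iff₀ (by positivity)]
        have h1 := (hLam (S b) (hS b)).2
        calc ((Finset.univ.filter (fun c => ρ < ch (S b) (y c))).card : ℝ) * ρ ^ 2
            = ∑ c ∈ Finset.univ.filter (fun c => ρ < ch (S b) (y c)), ρ ^ 2 := by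
              rw [Finset.sum_const, nsmul_eq_mul]
          _ ≤ ∑ c ∈ Finset.univ.filter (fun c => ρ < ch (S b) (y c)), ch (S b) (y c) ^ 2 := by
              refine Finset.sum_le_sum fun c hc => ?_
              have := (Finset.mem_filter.1 hc).2
              gcongr
          _ ≤ ∑ c, ch (S b) (y c) ^ 2 :=
              Finset.sum_le_sum_of_subset_of_nonneg (Finset.filter_subset _ _)
                (fun c _ _ => sq_nonneg _)
          _ ≤ τ := h1
      have h2 : (((Finset.univ : Finset (Fin L)).biUnion (fun b =>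
            Finset.univ.filter (fun c => ρ < ch (S b) (y c)))).card : ℝ) ≤ L * (τ / ρ ^ 2) := by
        calc (((Finset.univ : Finset (Fin L)).biUnion (fun b =>
              Finset.univ.filter (fun c => ρ < ch (S b) (y c)))).card : ℝ)
            ≤ ∑ b : Fin L, ((Finset.univ.filter (fun c => ρ < ch (S b) (y c))).card : ℝ) := by
              exact_mod_cast Finset.card_biUnion_le
          _ ≤ ∑ _b : Fin L, τ / ρ ^ 2 := Finset.sum_le_sum fun b _ => hcheb b
          _ = L * (τ / ρ ^ 2) := by simp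
      have h3 : (((Finset.univ.filter (fun c => y c ∉
          Finset.univ.filter (fun v => ∀ b, ch (S b) v ≤ ρ))).card : ℕ) : ℝ) ≤ (E : ℝ) :=
        le_trans (by exact_mod_cast Finset.card_le_card hsub) (h2.trans hEτ)
      exact_mod_cast h3
    refine ⟨S, ?_, hexc⟩
    -- a vector of the small set on which some character is nontrivial
    have hv0 : ∃ v0, (∀ b, ch (S b) v0 ≤ ρ) ∧ ∃ b, S b v0 ≠ 1 := by
      by_contra hcon
      push Not at hcon
      have h1 := hy (S ⟨0, hL⟩) (hLam _ (hS _)).1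
      have h2 : (Finset.univ.filter (fun c => S ⟨0, hL⟩ (y c) ≠ 1)) ⊆
          (Finset.univ.filter (fun c => y c ∉
            Finset.univ.filter (fun v => ∀ b, ch (S b) v ≤ ρ))) := by
        intro c hc'
        simp only [Finset.mem_filter, Finset.mem_univ, true_and] at hc' ⊢
        intro hall
        exact hc' (hcon (y c) hall _)
      exact absurd (h1.trans_le (Finset.card_le_card h2)) (not_lt.2 hexc)
    obtain ⟨v0, hv1, hv2⟩ := hv0
    have hg := growth_ch hL S hρ hD J hJ v0 hv2 hv1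
    have hJ0 : (0 : ℝ) < J := by exact_mod_cast hJ1
    have h4 : (J : ℝ) * ((Finset.univ.filter (fun v => ∀ b, ch (S b) v ≤ ρ)).card : ℝ) ≤ J * U := by
      have h5 : (J : ℝ) * ((Finset.univ.filter (fun v => ∀ b, ch (S b) v ≤ ρ)).card : ℝ) ≤
          ((Finset.univ.filter (fun v => ∀ b, ch (S b) v ≤ D)).card : ℝ) := by
        exact_mod_cast hg
      have h6 : max (β ^ L) (256 / (β ^ 2 * (Lam.card : ℝ))) ≤
          max (β ^ L) (256 / (β ^ 2 * K)) := by
        refine max_le_max le_rfl ?_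
        gcongr
      have h7 : max (β ^ L) (256 / (β ^ 2 * (Lam.card : ℝ))) * Fintype.card Γ ≤
          max (β ^ L) (256 / (β ^ 2 * K)) * Fintype.card Γ := by gcongr
      exact (h5.trans hc).trans (h7.trans hU)
    exact le_of_mul_le_mul_left h4 hJ0
  -- the union bound
  set F : (Fin L → AddChar Γ ℂ) → Finset (Fin m → Γ) := fun S =>
    Finset.univ.filter (fun y : Fin m → Γ => (Finset.univ.filter (fun c => y c ∉
      Finset.univ.filter (fun v => ∀ b, ch (S b) v ≤ ρ))).card ≤ E) with hFdef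
  set Sg : Finset (Fin L → AddChar Γ ℂ) := Finset.univ.filter (fun S =>
    ((Finset.univ.filter (fun v => ∀ b, ch (S b) v ≤ ρ)).card : ℝ) ≤ U) with hSg
  have hsub : (Finset.univ.filter (fun y : Fin m → Γ => NS E y ∧ Str K τ y)) ⊆ Sg.biUnion F := by
    intro y hy
    simp only [Finset.mem_filter, Finset.mem_univ, true_and] at hy
    obtain ⟨S, hS1, hS2⟩ := key y hy.1 hy.2
    rw [Finset.mem_biUnion]
    exact ⟨S, by simpa [hSg] using hS1, by simpa [hFdef] using hS2⟩
  have hcardS : (Sg.card : ℝ) ≤ (Fintype.card Γ : ℝ) ^ L := by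
    have h1 : Sg.card ≤ Fintype.card (Fin L → AddChar Γ ℂ) := Finset.card_le_univ _
    rw [Fintype.card_fun, Fintype.card_fin] at h1
    have h2 : Fintype.card (AddChar Γ ℂ) = Fintype.card Γ := AddChar.card_eq
    rw [h2] at h1
    exact_mod_cast h1
  calc ((Finset.univ.filter (fun y : Fin m → Γ => NS E y ∧ Str K τ y)).card : ℝ)
      ≤ ((Sg.biUnion F).card : ℝ) := by exact_mod_cast Finset.card_le_card hsub
    _ ≤ ∑ S ∈ Sg, ((F S).card : ℝ) := by exact_mod_cast Finset.card_biUnion_le
    _ ≤ ∑ _S ∈ Sg, (2 ^ m * ((Fintype.card Γ : ℝ) ^ E * U ^ (m - E))) := by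
        refine Finset.sum_le_sum fun S hS => ?_
        have hS' := (Finset.mem_filter.1 hS).2
        exact card_few hE _ hS' hUG
    _ = Sg.card * (2 ^ m * ((Fintype.card Γ : ℝ) ^ E * U ^ (m - E))) := by
        rw [Finset.sum_const, nsmul_eq_mul]
    _ ≤ _ := by gcongr

end Vale.Agent.P160.Half.CountB
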