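import Vale.Agent.P160.Half.CountB549

/-! # P160 (M), LEMMA MC of note 11331: the last paragraph (COUNT), helper549.

`countC`: vectors with many characters that are close to `1` on most coordinates are few. -/

namespace Vale.Agent.P160.Half.CountC

open Finset Vale.Agent.P160.Half.CountB

variable {Γ : Type*} [AddCommGroup Γ]

/-- `≥ K` characters, each at distance `> D` from `1` on at most `E` coordinates -/
def Str2 {m : ℕ} (K D : ℝ) (E : ℕ) (y : Fin m → Γ) : Prop :=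
  ∃ Lam : Finset (AddChar Γ ℂ), K ≤ (Lam.card : ℝ) ∧
    ∀ s ∈ Lam, (Finset.univ.filter (fun c => D < ch s (y c))).card ≤ E

open Classical in
/-- **the count**, non-asymptotic -/
theorem countC [Fintype Γ] {m L E : ℕ} {β D K U : ℝ} (hβ : 0 < β) (hK : 0 < K)
    (hF : Fej Γ β D) (hLE : L * E ≤ m)
    (hU : max (β ^ L) (256 / (β ^ 2 * K)) * Fintype.card Γ ≤ U) (hUG : U ≤ Fintype.card Γ) :
    ((Finset.univ.filter (fun y : Fin m → Γ => Str2 K D E y)).card : ℝ) ≤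
      Fintype.card Γ ^ L * (2 ^ m * (Fintype.card Γ ^ (L * E) * U ^ (m - L * E))) := by
  have hU0 : 0 ≤ U := by
    have h1 : 0 ≤ max (β ^ L) (256 / (β ^ 2 * K)) * Fintype.card Γ := by positivity
    exact h1.trans hU
  have key : ∀ y : Fin m → Γ, Str2 K D E y →
      ∃ S : Fin L → AddChar Γ ℂ,
        ((Finset.univ.filter (fun v => ∀ b, ch (S b) v ≤ D)).card : ℝ) ≤ U ∧
        (Finset.univ.filter (fun c => y c ∉
          Finset.univ.filter (fun v => ∀ b, ch (S b) v ≤ D))).card ≤ L * E := by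
    intro y hs
    obtain ⟨Lam, hLK, hLam⟩ := hs
    have hLam0 : (0 : ℝ) < Lam.card := hK.trans_le hLK
    have hne : Lam.Nonempty := Finset.card_pos.1 (by exact_mod_cast hLam0)
    obtain ⟨S, hS, hc⟩ := greedy Lam hne hβ hF L
    refine ⟨S, ?_, ?_⟩
    · have h6 : max (β ^ L) (256 / (β ^ 2 * (Lam.card : ℝ))) ≤
          max (β ^ L) (256 / (β ^ 2 * K)) := by
        refine max_le_max le_rfl ?_
        gcongr
      have h7 : max (β ^ L) (256 / (β ^ 2 * (Lam.card : ℝ))) * Fintype.card Γ ≤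
          max (β ^ L) (256 / (β ^ 2 * K)) * Fintype.card Γ := by gcongr
      exact hc.trans (h7.trans hU)
    · have hsub : (Finset.univ.filter (fun c => y c ∉
          Finset.univ.filter (fun v => ∀ b, ch (S b) v ≤ D))) ⊆
          (Finset.univ : Finset (Fin L)).biUnion (fun b =>
            Finset.univ.filter (fun c => D < ch (S b) (y c))) := by
        intro c hc'
        simp only [Finset.mem_filter, Finset.mem_univ, true_and, not_forall, not_le] at hc'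
        obtain ⟨b, hb⟩ := hc'
        rw [Finset.mem_biUnion]
        exact ⟨b, Finset.mem_univ b, by simpa using hb⟩
      refine (Finset.card_le_card hsub).trans (Finset.card_biUnion_le.trans ?_)
      calc ∑ b : Fin L, (Finset.univ.filter (fun c => D < ch (S b) (y c))).card
          ≤ ∑ _b : Fin L, E := Finset.sum_le_sum fun b _ => hLam (S b) (hS b)
        _ = L * E := by simp
  set F : (Fin L → AddChar Γ ℂ) → Finset (Fin m → Γ) := fun S =>
    Finset.univ.filter (fun y : Fin m → Γ => (Finset.univ.filter (fun c => y c ∉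
      Finset.univ.filter (fun v => ∀ b, ch (S b) v ≤ D))).card ≤ L * E) with hFdef
  set Sg : Finset (Fin L → AddChar Γ ℂ) := Finset.univ.filter (fun S =>
    ((Finset.univ.filter (fun v => ∀ b, ch (S b) v ≤ D)).card : ℝ) ≤ U) with hSg
  have hsub : (Finset.univ.filter (fun y : Fin m → Γ => Str2 K D E y)) ⊆ Sg.biUnion F := by
    intro y hy
    simp only [Finset.mem_filter, Finset.mem_univ, true_and] at hy
    obtain ⟨S, hS1, hS2⟩ := key y hy
    rw [Finset.mem_biUnion]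
    exact ⟨S, by simpa [hSg] using hS1, by simpa [hFdef] using hS2⟩
  have hcardS : (Sg.card : ℝ) ≤ (Fintype.card Γ : ℝ) ^ L := by
    have h1 : Sg.card ≤ Fintype.card (Fin L → AddChar Γ ℂ) := Finset.card_le_univ _
    rw [Fintype.card_fun, Fintype.card_fin] at h1
    have h2 : Fintype.card (AddChar Γ ℂ) = Fintype.card Γ := AddChar.card_eq
    rw [h2] at h1
    exact_mod_cast h1
  calc ((Finset.univ.filter (fun y : Fin m → Γ => Str2 K D E y)).card : ℝ)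
      ≤ ((Sg.biUnion F).card : ℝ) := by exact_mod_cast Finset.card_le_card hsub
    _ ≤ ∑ S ∈ Sg, ((F S).card : ℝ) := by exact_mod_cast Finset.card_biUnion_le
    _ ≤ ∑ _S ∈ Sg, (2 ^ m * ((Fintype.card Γ : ℝ) ^ (L * E) * U ^ (m - L * E))) := by
        refine Finset.sum_le_sum fun S hS => ?_
        have hS' := (Finset.mem_filter.1 hS).2
        exact card_few hLE _ hS' hUG
    _ = Sg.card * (2 ^ m * ((Fintype.card Γ : ℝ) ^ (L * E) * U ^ (m - L * E))) := by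
        rw [Finset.sum_const, nsmul_eq_mul]
    _ ≤ _ := by gcongr

/-- the asymptotic conditions -/
theorem params (ε C L : ℝ) (hε : 0 < ε) (hε1 : ε ≤ 1) :
    ∀ᶠ x : ℝ in Filter.atTop, 1 ≤ x ∧ 9 * x ^ (ε / 8) ≤ x ∧ 9 ≤ x ^ (ε / 8) ∧
      2 * L ≤ x ^ ε ∧ 2 * C * L * Real.log x ≤ x ^ ε ∧
      4 ^ L * 512 * Real.exp 1 ≤ x ^ (3 * ε / 4) ∧ 256 ≤ x ^ (3 * ε / 4) := by
  have hge : ∀ s : ℝ, 0 < s → ∀ b : ℝ, ∀ᶠ x : ℝ in Filter.atTop, b ≤ x ^ s := fun s hs b =>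
    (tendsto_rpow_atTop hs).eventually_ge_atTop b
  have hlog : ∀ s : ℝ, 0 < s → ∀ b : ℝ, 0 < b → ∀ᶠ x : ℝ in Filter.atTop,
      |Real.log x| ≤ b * x ^ s := by
    intro s hs b hb
    filter_upwards [(isLittleO_log_rpow_atTop hs).bound hb, Filter.eventually_gt_atTop 0] with x hx h0
    rwa [Real.norm_eq_abs, Real.norm_eq_abs, abs_of_pos (Real.rpow_pos_of_pos h0 s)] at hx
  have hb2 : 0 < 1 / (|2 * C * L| + 1) := by positivity
  filter_upwards [Filter.eventually_ge_atTop 1, hge (1 - ε / 8) (by linarith) 9,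
    hge (ε / 8) (by linarith) 9, hge ε hε (2 * L), hlog ε hε _ hb2,
    hge (3 * ε / 4) (by linarith) (4 ^ L * 512 * Real.exp 1), hge (3 * ε / 4) (by linarith) 256]
    with x h1 h2 h3 h4 h8 h5 h6
  have hx0 : 0 < x := by linarith
  refine ⟨h1, ?_, h3, h4, ?_, h5, h6⟩
  · have e1 : x = x ^ (1 - ε / 8) * x ^ (ε / 8) := by
      rw [← Real.rpow_add hx0]; norm_num
    have e2 : 0 < x ^ (ε / 8) := Real.rpow_pos_of_pos hx0 _
    calc 9 * x ^ (ε / 8) ≤ x ^ (1 - ε / 8) * x ^ (ε / 8) :=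
          mul_le_mul_of_nonneg_right h2 e2.le
      _ = x := e1.symm
  · have hl0 : 0 ≤ Real.log x := Real.log_nonneg h1
    rw [abs_of_nonneg hl0] at h8
    have e4 : (|2 * C * L| + 1) * Real.log x ≤
        (|2 * C * L| + 1) * (1 / (|2 * C * L| + 1) * x ^ ε) :=
      mul_le_mul_of_nonneg_left h8 (by positivity)
    have e5 : (|2 * C * L| + 1) * (1 / (|2 * C * L| + 1) * x ^ ε) = x ^ ε := by
      field_simp
    have e6 : 2 * C * L * Real.log x ≤ (|2 * C * L| + 1) * Real.log x :=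
      mul_le_mul_of_nonneg_right (by linarith [le_abs_self (2 * C * L)]) hl0
    linarith

/-- the final numerical comparison -/
theorem final {ε C x K Gc : ℝ} {L m E k : ℕ} (hx1 : 1 ≤ x)
    (hK1 : 1 ≤ K) (hKC : K ≤ x ^ C) (hG1 : 1 ≤ Gc) (hG : Gc ≤ 2 ^ k)
    (hkm : k ≤ 2 * m) (hxk : x = k) (hEm : E ≤ m) (hEx : (E : ℝ) ≤ L * x ^ (1 - ε))
    (hC0 : 0 ≤ C) (hε : 0 < ε)
    (h7 : 2 * C * L * Real.log x ≤ x ^ ε)
    (h8 : (4 : ℝ) ^ (L : ℝ) * 512 * Real.exp 1 ≤ x ^ (3 * ε / 4)) :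
    Gc ^ L * (2 ^ m * (Gc ^ E * (256 * x ^ (ε / 4) / K * Gc) ^ (m - E))) ≤
      Gc ^ m * (x ^ ε / K) ^ m := by
  have hx0 : 0 < x := by linarith
  have hM0 : 0 < K := by linarith
  have hG0 : 0 < Gc := by linarith
  obtain ⟨u, hu⟩ : ∃ u : ℝ, u = 256 * x ^ (ε / 4) / K := ⟨_, rfl⟩
  obtain ⟨v, hv⟩ : ∃ v : ℝ, v = x ^ ε / K := ⟨_, rfl⟩
  rw [← hu, ← hv]
  have hu0 : 0 < u := by rw [hu]; positivity
  have hv0 : 0 < v := by rw [hv]; positivity
  have huv : u = 256 * x ^ (-(3 * ε / 4)) * v := by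
    rw [hu, hv]
    have : x ^ (ε / 4) = x ^ (-(3 * ε / 4)) * x ^ ε := by
      rw [← Real.rpow_add hx0]; congr 1; ring
    rw [this]; ring
  have hux : 1 ≤ u * x ^ C := by
    have e1 : u * x ^ C = 256 * x ^ (ε / 4) * (x ^ C / K) := by
      rw [hu]; ring
    rw [e1]
    have e2 : 1 ≤ x ^ (ε / 4) := Real.one_le_rpow hx1 (by positivity)
    have e3 : 1 ≤ x ^ C / K := by rw [le_div_iff₀ hM0]; linarith
    exact one_le_mul_of_one_le_of_one_le (by linarith) e3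
  have hpow : u ^ (m - E) ≤ u ^ m * Real.exp m := by
    have e1 : 1 ≤ (u * x ^ C) ^ E := one_le_pow₀ hux
    have e2 : u ^ (m - E) * (u * x ^ C) ^ E = u ^ m * (x ^ C) ^ E := by
      rw [mul_pow, ← mul_assoc, ← pow_add, Nat.sub_add_cancel hEm]
    have e3 : (x ^ C) ^ E ≤ Real.exp m := by
      have e4 : (x ^ C) ^ E = Real.exp (C * Real.log x * E) := by
        rw [Real.rpow_def_of_pos hx0, ← Real.exp_nat_mul]; congr 1; ring
      rw [e4]
      apply Real.exp_le_exp.2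
      have hl0 : 0 ≤ Real.log x := Real.log_nonneg hx1
      have e5 : C * Real.log x * E ≤ C * Real.log x * (L * x ^ (1 - ε)) :=
        mul_le_mul_of_nonneg_left hEx (by positivity)
      have e6 : x ^ (1 - ε) * x ^ ε = x := by
        rw [← Real.rpow_add hx0]; norm_num
      have e7 : 0 < x ^ (1 - ε) := Real.rpow_pos_of_pos hx0 _
      have e8 : 2 * C * L * Real.log x * x ^ (1 - ε) ≤ x := by
        calc 2 * C * L * Real.log x * x ^ (1 - ε) ≤ x ^ ε * x ^ (1 - ε) :=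
              mul_le_mul_of_nonneg_right h7 e7.le
          _ = x := by rw [mul_comm]; exact e6
      have e9 : x ≤ 2 * m := by rw [hxk]; exact_mod_cast hkm
      linarith
    calc u ^ (m - E) ≤ u ^ (m - E) * (u * x ^ C) ^ E :=
          le_mul_of_one_le_right (by positivity) e1
      _ = u ^ m * (x ^ C) ^ E := e2
      _ ≤ _ := mul_le_mul_of_nonneg_left e3 (by positivity)
  have hGL : Gc ^ L ≤ ((4 : ℝ) ^ L) ^ m := by
    calc Gc ^ L ≤ (2 ^ k) ^ L := pow_le_pow_left₀ hG0.le hG _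
      _ ≤ (2 ^ (2 * m)) ^ L := by
          refine pow_le_pow_left₀ (by positivity) ?_ _
          exact pow_le_pow_right₀ (by norm_num) hkm
      _ = ((4 : ℝ) ^ L) ^ m := by
          have h4 : (4 : ℝ) = 2 ^ 2 := by norm_num
          rw [h4, ← pow_mul, ← pow_mul, ← pow_mul]
          congr 1
          ring
  have hexp : Real.exp m = Real.exp 1 ^ m := by
    rw [← Real.exp_nat_mul, mul_one]
  have h8' : (4 : ℝ) ^ L * 2 * Real.exp 1 * (256 * x ^ (-(3 * ε / 4))) ≤ 1 := by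
    rw [Real.rpow_natCast] at h8
    have e1 : 0 < x ^ (3 * ε / 4) := Real.rpow_pos_of_pos hx0 _
    rw [Real.rpow_neg hx0.le]
    have e2 : (4 : ℝ) ^ L * 2 * Real.exp 1 * (256 * (x ^ (3 * ε / 4))⁻¹) =
        ((4 : ℝ) ^ L * 512 * Real.exp 1) / x ^ (3 * ε / 4) := by
      rw [div_eq_mul_inv]; ring
    rw [e2, div_le_one e1]
    exact h8
  calc Gc ^ L * (2 ^ m * (Gc ^ E * (u * Gc) ^ (m - E)))
      = Gc ^ L * (2 ^ m * (Gc ^ m * u ^ (m - E))) := by
        have : Gc ^ E * (u * Gc) ^ (m - E) = Gc ^ m * u ^ (m - E) := by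
          rw [mul_pow, mul_comm (u ^ (m - E)), ← mul_assoc, ← pow_add, Nat.add_sub_cancel' hEm]
        rw [this]
    _ ≤ ((4 : ℝ) ^ L) ^ m * (2 ^ m * (Gc ^ m * (u ^ m * Real.exp m))) := by
        gcongr
    _ = Gc ^ m * (((4 : ℝ) ^ L * 2 * Real.exp 1 * (256 * x ^ (-(3 * ε / 4)))) ^ m * v ^ m) := by
        rw [huv, hexp]
        simp only [mul_pow]
        ring
    _ ≤ Gc ^ m * (1 * v ^ m) := by
        have e0 : 0 ≤ (4 : ℝ) ^ L * 2 * Real.exp 1 * (256 * x ^ (-(3 * ε / 4))) := by positivity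
        have e1 := pow_le_one₀ (n := m) e0 h8'
        gcongr
    _ = Gc ^ m * v ^ m := by rw [one_mul]

/-- the Fejer input with `J` coprime to the order -/
def Split : Prop :=
  ∀ (G : Type) [AddCommGroup G] [Fintype G] (Λ : Finset (AddChar G ℂ)) (B : Finset G) (J : ℕ)
    (θ : ℝ), 8 ≤ θ * J → (∀ p : ℕ, p.Prime → p ∣ Fintype.card G → J ≤ p) →
    (∀ ψ ∈ Λ, θ * B.card ≤ ((B.filter fun v => ‖ψ v - 1‖ ≤ 1 / J).card : ℝ)) →
    (Λ.card : ℝ) * B.card * θ ^ 2 ≤ 256 * Fintype.card G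

open Classical in
/-- **the count**, asymptotic form: `≥ K` characters, each `k^(-ε/4)`-close to `1` on all but
`k^(1-ε)` coordinates -/
theorem countC_asymp (hs : Split) (ε C : ℝ) (hε : 0 < ε) (hε1 : ε ≤ 1) (hC : 0 < C) :
    ∃ k₀ : ℕ, ∀ k : ℕ, k₀ ≤ k → ∀ (G : Type) [AddCommGroup G] [Fintype G] (m : ℕ),
      (k : ℝ) ≤ 2 * m → (∀ p : ℕ, p.Prime → p ∣ Fintype.card G → k ≤ p) →
      (Fintype.card G : ℝ) ≤ 2 ^ k → ∀ K : ℝ, 1 ≤ K → K ≤ (k : ℝ) ^ C →
      ((univ.filter fun y : Fin m → G => ∃ Lam : Finset (AddChar G ℂ), K ≤ (Lam.card : ℝ) ∧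
        ∀ s ∈ Lam, ((univ.filter fun c => (k : ℝ) ^ (-(ε / 4)) < ‖s (y c) - 1‖).card : ℝ) ≤
          (k : ℝ) ^ (1 - ε)).card : ℝ) ≤
      (Fintype.card G : ℝ) ^ m * ((k : ℝ) ^ ε / K) ^ m := by
  obtain ⟨L, hL1, hLε⟩ : ∃ L : ℕ, 1 ≤ L ∧ 8 * C ≤ ε * L := by
    refine ⟨⌈8 * C / ε⌉₊ + 1, by omega, ?_⟩
    have h1 : 8 * C / ε ≤ ⌈8 * C / ε⌉₊ := Nat.le_ceil _
    rw [div_le_iff₀ hε] at h1
    push_cast
    rw [mul_add, mul_comm ε]
    linarith
  have hL0 : (1 : ℝ) ≤ L := by exact_mod_cast hL1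
  obtain ⟨k₀, hk₀⟩ := Filter.eventually_atTop.1 (tendsto_natCast_atTop_atTop.eventually
    (params ε C L hε hε1))
  refine ⟨k₀, fun k hk G _ _ m hkm hp hG K hK1 hKC => ?_⟩
  obtain ⟨hx1, hx2, hx3, hx4, hx5, hx6, hx7⟩ := hk₀ k hk
  obtain ⟨x, hxk⟩ : ∃ x : ℝ, x = (k : ℝ) := ⟨_, rfl⟩
  rw [← hxk] at hx1 hx2 hx3 hx4 hx5 hx6 hx7 hkm hKC ⊢
  have hx0 : 0 < x := by linarith
  have hK0 : 0 < K := by linarith
  have hG1 : (1 : ℝ) ≤ Fintype.card G := by exact_mod_cast Fintype.card_pos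
  have hG0 : (0 : ℝ) ≤ Fintype.card G := by linarith
  rcases lt_or_ge 1 (256 * x ^ (ε / 4) / K) with hbig | hsmall
  · -- trivial case
    have h1 : 1 ≤ x ^ ε / K := by
      rw [lt_div_iff₀ hK0] at hbig
      rw [le_div_iff₀ hK0]
      have e1 : x ^ ε = x ^ (3 * ε / 4) * x ^ (ε / 4) := by
        rw [← Real.rpow_add hx0]; congr 1; ring
      have e2 : 0 < x ^ (ε / 4) := Real.rpow_pos_of_pos hx0 _
      rw [e1]
      have e3 := mul_le_mul_of_nonneg_right hx7 e2.le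
      linarith
    have h2 : ((univ.filter fun y : Fin m → G => ∃ Lam : Finset (AddChar G ℂ),
        K ≤ (Lam.card : ℝ) ∧ ∀ s ∈ Lam,
          ((univ.filter fun c => x ^ (-(ε / 4)) < ‖s (y c) - 1‖).card : ℝ) ≤
          x ^ (1 - ε)).card : ℝ) ≤ (Fintype.card G : ℝ) ^ m := by
      have h3 := Finset.card_le_univ (univ.filter fun y : Fin m → G =>
        ∃ Lam : Finset (AddChar G ℂ), K ≤ (Lam.card : ℝ) ∧ ∀ s ∈ Lam,
          ((univ.filter fun c => x ^ (-(ε / 4)) < ‖s (y c) - 1‖).card : ℝ) ≤ x ^ (1 - ε))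
      rw [Fintype.card_fun, Fintype.card_fin] at h3
      exact_mod_cast h3
    calc _ ≤ (Fintype.card G : ℝ) ^ m := h2
      _ = (Fintype.card G : ℝ) ^ m * 1 := (mul_one _).symm
      _ ≤ (Fintype.card G : ℝ) ^ m * (x ^ ε / K) ^ m :=
          mul_le_mul_of_nonneg_left (one_le_pow₀ h1) (pow_nonneg hG0 _)
  -- the main case
  obtain ⟨q, hq⟩ : ∃ q : ℝ, q = x ^ (ε / 8) := ⟨_, rfl⟩
  rw [← hq] at hx2 hx3
  have hβq : x ^ (-(ε / 8)) * q = 1 := by rw [hq, ← Real.rpow_add hx0]; norm_num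
  have hβ0 : 0 < x ^ (-(ε / 8)) := Real.rpow_pos_of_pos hx0 _
  obtain ⟨J0, hJ0⟩ : ∃ J0 : ℕ, J0 = ⌈8 * q⌉₊ := ⟨_, rfl⟩
  have hJ0a : 8 * q ≤ J0 := by rw [hJ0]; exact Nat.le_ceil _
  have hJ0b : (J0 : ℝ) ≤ 9 * q := by
    have := Nat.ceil_lt_add_one (show 0 ≤ 8 * q by linarith)
    rw [← hJ0] at this
    linarith
  have hJ0pos : (0 : ℝ) < J0 := by linarith
  have hJ0k : J0 ≤ k := by
    have h1 : (J0 : ℝ) ≤ k := by
      rw [← hxk]
      linarith
    exact_mod_cast h1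
  have hF : Fej G (x ^ (-(ε / 8))) (1 / (J0 : ℝ)) := by
    intro Lam' B hB
    have h8 : 8 ≤ x ^ (-(ε / 8)) * J0 := by
      have e1 := mul_le_mul_of_nonneg_left hJ0a hβ0.le
      have e2 : x ^ (-(ε / 8)) * (8 * q) = 8 := by
        rw [← mul_assoc, mul_comm (x ^ (-(ε / 8))) 8, mul_assoc, hβq, mul_one]
      linarith
    exact hs G Lam' B J0 _ h8 (fun p hp1 hp2 => hJ0k.trans (hp p hp1 hp2)) hB
  have hDD : x ^ (-(ε / 4)) ≤ 1 / (J0 : ℝ) := by
    have e1 : x ^ (-(ε / 4)) * (q * q) = 1 := by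
      rw [hq, ← Real.rpow_add hx0, ← Real.rpow_add hx0]
      have : -(ε / 4) + (ε / 8 + ε / 8) = 0 := by ring
      rw [this, Real.rpow_zero]
    rw [le_div_iff₀ hJ0pos]
    have e2 : 0 < x ^ (-(ε / 4)) := Real.rpow_pos_of_pos hx0 _
    calc x ^ (-(ε / 4)) * J0 ≤ x ^ (-(ε / 4)) * (q * q) := by
          apply mul_le_mul_of_nonneg_left _ e2.le
          exact hJ0b.trans (mul_le_mul_of_nonneg_right hx3 (by linarith))
      _ = 1 := e1
  obtain ⟨E, hE⟩ : ∃ E : ℕ, E = ⌊x ^ (1 - ε)⌋₊ := ⟨_, rfl⟩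
  have hy0 : 0 ≤ x ^ (1 - ε) := Real.rpow_nonneg hx0.le _
  have hEx : (E : ℝ) ≤ x ^ (1 - ε) := by rw [hE]; exact Nat.floor_le hy0
  have hLEx : ((L * E : ℕ) : ℝ) ≤ L * x ^ (1 - ε) := by
    push_cast
    exact mul_le_mul_of_nonneg_left hEx (by linarith)
  have hLEm : L * E ≤ m := by
    have e1 : x ^ (1 - ε) * x ^ ε = x := by rw [← Real.rpow_add hx0]; norm_num
    have e2 : x ^ (1 - ε) * (2 * L) ≤ x ^ (1 - ε) * x ^ ε := mul_le_mul_of_nonneg_left hx4 hy0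
    have e3 : ((L * E : ℕ) : ℝ) ≤ m := by linarith
    exact_mod_cast e3
  have hmax : max ((x ^ (-(ε / 8))) ^ L) (256 / ((x ^ (-(ε / 8))) ^ 2 * K)) ≤
      256 * x ^ (ε / 4) / K := by
    apply max_le
    · have e1 : (x ^ (-(ε / 8))) ^ L ≤ x ^ (-C) := by
        rw [← Real.rpow_natCast, ← Real.rpow_mul hx0.le]
        apply Real.rpow_le_rpow_of_exponent_le hx1
        have e0 : -(ε / 8) * (L : ℝ) = -(ε * L) / 8 := by ring
        rw [e0]
        linarith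
      have e2 : x ^ (-C) ≤ 1 / K := by
        rw [Real.rpow_neg hx0.le, one_div]
        exact inv_anti₀ hK0 hKC
      refine (e1.trans e2).trans ?_
      gcongr
      have : 1 ≤ x ^ (ε / 4) := Real.one_le_rpow hx1 (by positivity)
      linarith
    · have e3 : 256 / ((x ^ (-(ε / 8))) ^ 2 * K) = 256 * x ^ (ε / 4) / K := by
        have e4 : (x ^ (-(ε / 8))) ^ 2 * x ^ (ε / 4) = 1 := by
          rw [← Real.rpow_natCast, ← Real.rpow_mul hx0.le, ← Real.rpow_add hx0]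
          have : -(ε / 8) * ((2 : ℕ) : ℝ) + ε / 4 = 0 := by push_cast; ring
          rw [this, Real.rpow_zero]
        rw [div_eq_div_iff (by positivity) (by positivity)]
        linear_combination (-256 * K) * e4
      rw [e3]
  have hcount := countC (Γ := G) (m := m) (L := L) (E := E) (K := K)
    (U := 256 * x ^ (ε / 4) / K * Fintype.card G) hβ0 hK0 hF hLEm
    (mul_le_mul_of_nonneg_right hmax hG0)
    (by
      calc 256 * x ^ (ε / 4) / K * (Fintype.card G : ℝ) ≤ 1 * Fintype.card G :=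
            mul_le_mul_of_nonneg_right hsmall hG0
        _ = Fintype.card G := one_mul _)
  have hsub : (univ.filter fun y : Fin m → G => ∃ Lam : Finset (AddChar G ℂ),
      K ≤ (Lam.card : ℝ) ∧ ∀ s ∈ Lam,
        ((univ.filter fun c => x ^ (-(ε / 4)) < ‖s (y c) - 1‖).card : ℝ) ≤ x ^ (1 - ε)) ⊆
      (univ.filter fun y : Fin m → G => Str2 K (1 / (J0 : ℝ)) E y) := by
    intro y hy
    simp only [Finset.mem_filter, Finset.mem_univ, true_and] at hy ⊢
    obtain ⟨Lam, h1, h2⟩ := hy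
    refine ⟨Lam, h1, fun s hs' => ?_⟩
    rw [hE]
    apply Nat.le_floor
    refine le_trans ?_ (h2 s hs')
    have h3 : (univ.filter fun c => 1 / (J0 : ℝ) < ch s (y c)) ⊆
        (univ.filter fun c => x ^ (-(ε / 4)) < ‖s (y c) - 1‖) := by
      intro c hc
      simp only [Finset.mem_filter, Finset.mem_univ, true_and] at hc ⊢
      exact hDD.trans_lt hc
    exact_mod_cast Finset.card_le_card h3
  have hmono := Finset.card_le_card hsub
  have hkm' : k ≤ 2 * m := by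
    rw [hxk] at hkm
    exact_mod_cast hkm
  have hfin := final (L := L) (m := m) (E := L * E) (k := k) (ε := ε) (C := C) hx1 hK1 hKC hG1
    hG hkm' hxk hLEm hLEx hC.le hε hx5 hx6
  refine le_trans ?_ (hcount.trans hfin)
  exact_mod_cast hmono

open Classical in
/-- **the count**, asymptotic form with separate parameters: `≥ K` characters, each
`k^(-ε')`-close to `1` on all but `k^(1-ε)` coordinates -/
theorem countC_asymp3 (hs : Split) (η ε' ε C : ℝ) (hη : 0 < η) (hε' : 0 < ε') (hε : 0 < ε)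
    (hC : 0 < C) :
    ∃ k₀ : ℕ, ∀ k : ℕ, k₀ ≤ k → ∀ (G : Type) [AddCommGroup G] [Fintype G] (m : ℕ),
      (k : ℝ) ≤ 2 * m → (∀ p : ℕ, p.Prime → p ∣ Fintype.card G → k ≤ p) →
      (Fintype.card G : ℝ) ≤ 2 ^ k → ∀ K : ℝ, 1 ≤ K → K ≤ (k : ℝ) ^ C →
      ((univ.filter fun y : Fin m → G => ∃ Lam : Finset (AddChar G ℂ), K ≤ (Lam.card : ℝ) ∧
        ∀ s ∈ Lam, ((univ.filter fun c => (k : ℝ) ^ (-ε') < ‖s (y c) - 1‖).card : ℝ) ≤
          (k : ℝ) ^ (1 - ε)).card : ℝ) ≤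
      (Fintype.card G : ℝ) ^ m * ((k : ℝ) ^ η / K) ^ m := by
  obtain ⟨ζ, hζ0, hζ1, hζη, hζε', hζε⟩ : ∃ ζ : ℝ, 0 < ζ ∧ ζ ≤ 1 ∧ ζ ≤ η ∧ ζ ≤ ε' ∧ ζ ≤ ε :=
    ⟨min (min 1 η) (min ε' ε), by positivity, (min_le_left _ _).trans (min_le_left _ _),
      (min_le_left _ _).trans (min_le_right _ _), (min_le_right _ _).trans (min_le_left _ _),
      (min_le_right _ _).trans (min_le_right _ _)⟩
  obtain ⟨k₀, hk₀⟩ := countC_asymp hs ζ C hζ0 hζ1 hC
  refine ⟨max k₀ 1, fun k hk G _ _ m hkm hp hG K hK1 hKC => ?_⟩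
  have hk1 : (1 : ℝ) ≤ k := by exact_mod_cast (le_max_right k₀ 1).trans hk
  have h := hk₀ k ((le_max_left k₀ 1).trans hk) G m hkm hp hG K hK1 hKC
  have hG0 : (0 : ℝ) ≤ Fintype.card G := by positivity
  have hsub : (univ.filter fun y : Fin m → G => ∃ Lam : Finset (AddChar G ℂ),
      K ≤ (Lam.card : ℝ) ∧ ∀ s ∈ Lam,
        ((univ.filter fun c => (k : ℝ) ^ (-ε') < ‖s (y c) - 1‖).card : ℝ) ≤
          (k : ℝ) ^ (1 - ε)) ⊆
      (univ.filter fun y : Fin m → G => ∃ Lam : Finset (AddChar G ℂ),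
      K ≤ (Lam.card : ℝ) ∧ ∀ s ∈ Lam,
        ((univ.filter fun c => (k : ℝ) ^ (-(ζ / 4)) < ‖s (y c) - 1‖).card : ℝ) ≤
          (k : ℝ) ^ (1 - ζ)) := by
    intro y hy
    simp only [Finset.mem_filter, Finset.mem_univ, true_and] at hy ⊢
    obtain ⟨Lam, h1, h2⟩ := hy
    refine ⟨Lam, h1, fun s hs' => ?_⟩
    have e1 : (k : ℝ) ^ (-ε') ≤ (k : ℝ) ^ (-(ζ / 4)) :=
      Real.rpow_le_rpow_of_exponent_le hk1 (by linarith)
    have e2 : (k : ℝ) ^ (1 - ε) ≤ (k : ℝ) ^ (1 - ζ) :=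
      Real.rpow_le_rpow_of_exponent_le hk1 (by linarith)
    have e3 : (univ.filter fun c => (k : ℝ) ^ (-(ζ / 4)) < ‖s (y c) - 1‖) ⊆
        (univ.filter fun c => (k : ℝ) ^ (-ε') < ‖s (y c) - 1‖) := by
      intro c hc
      simp only [Finset.mem_filter, Finset.mem_univ, true_and] at hc ⊢
      exact e1.trans_lt hc
    have e4 : ((univ.filter fun c => (k : ℝ) ^ (-(ζ / 4)) < ‖s (y c) - 1‖).card : ℝ) ≤
        ((univ.filter fun c => (k : ℝ) ^ (-ε') < ‖s (y c) - 1‖).card : ℝ) := by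
      exact_mod_cast Finset.card_le_card e3
    exact (e4.trans (h2 s hs')).trans e2
  have h1 : ((univ.filter fun y : Fin m → G => ∃ Lam : Finset (AddChar G ℂ),
      K ≤ (Lam.card : ℝ) ∧ ∀ s ∈ Lam,
        ((univ.filter fun c => (k : ℝ) ^ (-ε') < ‖s (y c) - 1‖).card : ℝ) ≤
          (k : ℝ) ^ (1 - ε)).card : ℝ) ≤
      ((univ.filter fun y : Fin m → G => ∃ Lam : Finset (AddChar G ℂ),
      K ≤ (Lam.card : ℝ) ∧ ∀ s ∈ Lam,
        ((univ.filter fun c => (k : ℝ) ^ (-(ζ / 4)) < ‖s (y c) - 1‖).card : ℝ) ≤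
          (k : ℝ) ^ (1 - ζ)).card : ℝ) := by
    exact_mod_cast Finset.card_le_card hsub
  have h2 : ((k : ℝ) ^ ζ / K) ^ m ≤ ((k : ℝ) ^ η / K) ^ m := by
    have e5 : (k : ℝ) ^ ζ ≤ (k : ℝ) ^ η := Real.rpow_le_rpow_of_exponent_le hk1 hζη
    have hK0 : 0 < K := by linarith
    gcongr
  exact (h1.trans h).trans (mul_le_mul_of_nonneg_left h2 (pow_nonneg hG0 _))

end Vale.Agent.P160.Half.CountC
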