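import Mathlib

/-! P160, COUNT (note 11105): the two harmonic lemmas for every finite abelian group. -/

open Finset
open scoped ComplexConjugate

set_option linter.unusedSectionVars false

namespace Vale.Agent.P160.Half.CH

variable {G : Type*} [AddCommGroup G] [Fintype G] [DecidableEq G]

/-- Fourier coefficient of the indicator of `B` at `s` -/
noncomputable def hatB (B : Finset G) (s : AddChar G ℂ) : ℂ := ∑ v ∈ B, s v

theorem conj_char (s : AddChar G ℂ) (v : G) : conj (s v) = s (-v) :=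
  (AddChar.map_neg_eq_conj s v).symm

theorem norm_char (s : AddChar G ℂ) (v : G) : ‖s v‖ = 1 := AddChar.norm_apply s v

/-- Parseval -/
theorem parseval (B : Finset G) :
    ∑ s : AddChar G ℂ, ‖hatB B s‖ ^ 2 = (Fintype.card G : ℝ) * B.card := by
  have h : ∀ s : AddChar G ℂ, ((‖hatB B s‖ ^ 2 : ℝ) : ℂ) = ∑ v ∈ B, ∑ w ∈ B, s (v - w) := by
    intro s
    rw [Complex.ofReal_pow, ← Complex.mul_conj' (hatB B s)]
    unfold hatB
    rw [map_sum, Finset.sum_mul_sum]
    refine Finset.sum_congr rfl fun v _ => Finset.sum_congr rfl fun w _ => ?_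
    rw [conj_char, ← AddChar.map_add_eq_mul, sub_eq_add_neg]
  have h2 : ((∑ s : AddChar G ℂ, ‖hatB B s‖ ^ 2 : ℝ) : ℂ) = ((Fintype.card G : ℝ) * B.card : ℝ) := by
    rw [Complex.ofReal_sum]
    simp_rw [h]
    rw [Finset.sum_comm]
    have : ∀ v ∈ B, ∑ s : AddChar G ℂ, ∑ w ∈ B, s (v - w) = (Fintype.card G : ℂ) := by
      intro v hv
      rw [Finset.sum_comm]
      simp_rw [AddChar.sum_apply_eq_ite, sub_eq_zero]
      simp [hv]
    rw [Finset.sum_congr rfl this]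
    simp [mul_comm]
  exact_mod_cast h2

theorem pow_inj {j : ℕ} (hj : Nat.Coprime (Fintype.card G) j) :
    Function.Injective (fun s : AddChar G ℂ => s ^ j) := by
  have hc : (Nat.card (AddChar G ℂ)).Coprime j := by
    rw [Nat.card_eq_fintype_card, AddChar.card_eq]
    exact hj
  exact (powCoprime hc).injective

/-- sum over a set of characters of the coefficients at the `d`-th powers -/
theorem sum_pow_le (B : Finset G) (L : Finset (AddChar G ℂ)) {d : ℕ}
    (hd : Nat.Coprime (Fintype.card G) d) :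
    ∑ s ∈ L, ‖hatB B (s ^ d)‖ ≤ Real.sqrt (L.card * ((Fintype.card G : ℝ) * B.card)) := by
  have h1 : (∑ s ∈ L, ‖hatB B (s ^ d)‖) ^ 2 ≤ L.card * ((Fintype.card G : ℝ) * B.card) := by
    calc (∑ s ∈ L, ‖hatB B (s ^ d)‖) ^ 2 ≤ L.card * ∑ s ∈ L, ‖hatB B (s ^ d)‖ ^ 2 :=
          sq_sum_le_card_mul_sum_sq
      _ ≤ L.card * ((Fintype.card G : ℝ) * B.card) := by
          refine mul_le_mul_of_nonneg_left ?_ (Nat.cast_nonneg _)
          rw [← parseval B]
          calc ∑ s ∈ L, ‖hatB B (s ^ d)‖ ^ 2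
              = ∑ t ∈ L.map ⟨fun s : AddChar G ℂ => s ^ d, pow_inj hd⟩, ‖hatB B t‖ ^ 2 := by
                rw [Finset.sum_map]; rfl
            _ ≤ ∑ t : AddChar G ℂ, ‖hatB B t‖ ^ 2 :=
                Finset.sum_le_sum_of_subset_of_nonneg (Finset.subset_univ _) fun _ _ _ => by positivity
  exact Real.le_sqrt_of_sq_le h1

theorem norm_pow_sub_one_le {z : ℂ} (hz : ‖z‖ = 1) (j : ℕ) : ‖z ^ j - 1‖ ≤ j * ‖z - 1‖ := by
  induction j with
  | zero => simp
  | succ j ih =>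
    have : z ^ (j + 1) - 1 = z * (z ^ j - 1) + (z - 1) := by ring
    rw [this]
    calc ‖z * (z ^ j - 1) + (z - 1)‖ ≤ ‖z * (z ^ j - 1)‖ + ‖z - 1‖ := norm_add_le _ _
      _ = ‖z ^ j - 1‖ + ‖z - 1‖ := by rw [norm_mul, hz, one_mul]
      _ ≤ j * ‖z - 1‖ + ‖z - 1‖ := by linarith
      _ = ((j + 1 : ℕ) : ℝ) * ‖z - 1‖ := by push_cast; ring

/-- near `1` the Dirichlet kernel is large -/
theorem kernel_large {z : ℂ} (hz : ‖z‖ = 1) {J : ℕ} (h : J * ‖z - 1‖ ≤ 1) :
    (J : ℝ) / 2 ≤ ‖∑ j ∈ range J, z ^ j‖ := by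
  have h1 : ‖(∑ j ∈ range J, z ^ j) - J‖ ≤ J / 2 := by
    have : (∑ j ∈ range J, z ^ j) - J = ∑ j ∈ range J, (z ^ j - 1) := by
      rw [Finset.sum_sub_distrib]; simp
    rw [this]
    calc ‖∑ j ∈ range J, (z ^ j - 1)‖ ≤ ∑ j ∈ range J, ‖z ^ j - 1‖ := norm_sum_le _ _
      _ ≤ ∑ j ∈ range J, (j : ℝ) * ‖z - 1‖ := Finset.sum_le_sum fun j _ => norm_pow_sub_one_le hz j
      _ = (∑ j ∈ range J, (j : ℝ)) * ‖z - 1‖ := by rw [Finset.sum_mul]
      _ ≤ (J * J / 2) * ‖z - 1‖ := by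
          refine mul_le_mul_of_nonneg_right ?_ (norm_nonneg _)
          have h2 := Finset.sum_range_id_mul_two J
          have h3 : (∑ j ∈ range J, (j : ℝ)) * 2 = (J : ℝ) * ((J - 1 : ℕ) : ℝ) := by
            rw [← Nat.cast_mul, ← h2]; push_cast; ring
          have h4 : (((J - 1 : ℕ)) : ℝ) ≤ J := by exact_mod_cast Nat.sub_le J 1
          nlinarith [Nat.cast_nonneg (α := ℝ) J]
      _ = J / 2 * (J * ‖z - 1‖) := by ring
      _ ≤ J / 2 * 1 := by
          refine mul_le_mul_of_nonneg_left h (by positivity)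
      _ = J / 2 := by ring
  have h2 : ‖(J : ℂ)‖ ≤ ‖∑ j ∈ range J, z ^ j‖ + ‖(∑ j ∈ range J, z ^ j) - J‖ := by
    have := norm_sub_le (∑ j ∈ range J, z ^ j) ((∑ j ∈ range J, z ^ j) - J)
    simpa using this
  have h3 : ‖(J : ℂ)‖ = J := by simp
  rw [h3] at h2
  linarith

/-- `∑_{j, j' < J} g |j - j'| ≤ J g 0 + 2 J ∑_{1 ≤ d < J} g d` -/
theorem sum_dist_le {g : ℕ → ℝ} (hg : ∀ d, 0 ≤ g d) (J : ℕ) :
    ∑ j ∈ range J, ∑ i ∈ range J, g (Nat.dist j i) ≤ J * g 0 + 2 * J * ∑ d ∈ Ico 1 J, g d := by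
  have key : ∀ j ∈ range J, ∑ i ∈ range J, g (Nat.dist j i) ≤ g 0 + 2 * ∑ d ∈ Ico 1 J, g d := by
    intro j hj
    have hj' := Finset.mem_range.1 hj
    have hsplit : ∑ i ∈ range J, g (Nat.dist j i)
        = ∑ i ∈ range (j + 1), g (Nat.dist j i) + ∑ i ∈ Ico (j + 1) J, g (Nat.dist j i) := by
      rw [Finset.range_eq_Ico, ← Finset.sum_Ico_consecutive _ (Nat.zero_le (j + 1)) hj', Finset.range_eq_Ico]
    rw [hsplit]
    have h1 : ∑ i ∈ range (j + 1), g (Nat.dist j i) ≤ g 0 + ∑ d ∈ Ico 1 J, g d := by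
      have e1 : ∑ i ∈ range (j + 1), g (Nat.dist j i) = ∑ d ∈ range (j + 1), g d := by
        rw [← Finset.sum_range_reflect]
        refine Finset.sum_congr rfl fun i hi => ?_
        have := Finset.mem_range.1 hi
        congr 1
        rw [Nat.dist_comm, Nat.dist_eq_sub_of_le (by omega)]
        omega
      rw [e1, Finset.sum_range_succ', add_comm]
      refine add_le_add le_rfl ?_
      rw [Finset.sum_Ico_eq_sum_range]
      calc ∑ d ∈ range j, g (d + 1) ≤ ∑ d ∈ range (J - 1), g (d + 1) :=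
            Finset.sum_le_sum_of_subset_of_nonneg (Finset.range_mono (by omega)) fun _ _ _ => hg _
        _ = ∑ d ∈ range (J - 1), g (1 + d) := by simp_rw [add_comm]
    have h2 : ∑ i ∈ Ico (j + 1) J, g (Nat.dist j i) ≤ ∑ d ∈ Ico 1 J, g d := by
      rw [Finset.sum_Ico_eq_sum_range, Finset.sum_Ico_eq_sum_range]
      calc ∑ i ∈ range (J - (j + 1)), g (Nat.dist j (j + 1 + i))
          = ∑ i ∈ range (J - (j + 1)), g (1 + i) := by
            refine Finset.sum_congr rfl fun i _ => ?_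
            congr 1
            rw [Nat.dist_eq_sub_of_le (by omega)]; omega
        _ ≤ ∑ d ∈ range (J - 1), g (1 + d) :=
            Finset.sum_le_sum_of_subset_of_nonneg (Finset.range_mono (by omega)) fun _ _ _ => hg _
    linarith
  calc ∑ j ∈ range J, ∑ i ∈ range J, g (Nat.dist j i)
      ≤ ∑ j ∈ range J, (g 0 + 2 * ∑ d ∈ Ico 1 J, g d) := Finset.sum_le_sum key
    _ = J * g 0 + 2 * J * ∑ d ∈ Ico 1 J, g d := by
        rw [Finset.sum_const, card_range, nsmul_eq_mul]; ring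

/-- lower bound for one character -/
theorem one_char (B : Finset G) (s : AddChar G ℂ) {J : ℕ} {β : ℝ}
    (h : β * B.card ≤ ((B.filter fun v => (J : ℝ) * ‖s v - 1‖ ≤ 1).card : ℝ)) :
    β * B.card * (J ^ 2 / 4) ≤ J * B.card + 2 * J * ∑ d ∈ Ico 1 J, ‖hatB B (s ^ d)‖ := by
  have h1 : β * B.card * (J ^ 2 / 4) ≤ ∑ v ∈ B, ‖∑ j ∈ range J, (s v) ^ j‖ ^ 2 := by
    calc β * B.card * (J ^ 2 / 4)
        ≤ ((B.filter fun v => (J : ℝ) * ‖s v - 1‖ ≤ 1).card : ℝ) * (J ^ 2 / 4) :=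
          mul_le_mul_of_nonneg_right h (by positivity)
      _ = ∑ v ∈ B.filter (fun v => (J : ℝ) * ‖s v - 1‖ ≤ 1), ((J : ℝ) ^ 2 / 4) := by
          rw [Finset.sum_const, nsmul_eq_mul]
      _ ≤ ∑ v ∈ B.filter (fun v => (J : ℝ) * ‖s v - 1‖ ≤ 1), ‖∑ j ∈ range J, (s v) ^ j‖ ^ 2 := by
          refine Finset.sum_le_sum fun v hv => ?_
          have h2 := kernel_large (norm_char s v) (Finset.mem_filter.1 hv).2
          have h3 : ((J : ℝ) / 2) ^ 2 ≤ ‖∑ j ∈ range J, (s v) ^ j‖ ^ 2 :=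
            pow_le_pow_left₀ (by positivity) h2 2
          calc (J : ℝ) ^ 2 / 4 = (J / 2) ^ 2 := by ring
            _ ≤ _ := h3
      _ ≤ ∑ v ∈ B, ‖∑ j ∈ range J, (s v) ^ j‖ ^ 2 :=
          Finset.sum_le_sum_of_subset_of_nonneg (Finset.filter_subset _ _) fun _ _ _ => by positivity
  have h2 : ∑ v ∈ B, ‖∑ j ∈ range J, (s v) ^ j‖ ^ 2
      ≤ ∑ j ∈ range J, ∑ i ∈ range J, ‖hatB B (s ^ Nat.dist j i)‖ := by
    have e : ((∑ v ∈ B, ‖∑ j ∈ range J, (s v) ^ j‖ ^ 2 : ℝ) : ℂ)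
        = ∑ j ∈ range J, ∑ i ∈ range J, ∑ v ∈ B, (s v) ^ j * conj ((s v) ^ i) := by
      push_cast
      have : ∀ v ∈ B, ((‖∑ j ∈ range J, (s v) ^ j‖ : ℂ)) ^ 2
          = ∑ j ∈ range J, ∑ i ∈ range J, (s v) ^ j * conj ((s v) ^ i) := by
        intro v _
        rw [← Complex.mul_conj', map_sum, Finset.sum_mul_sum]
      rw [Finset.sum_congr rfl this, Finset.sum_comm]
      refine Finset.sum_congr rfl fun j _ => ?_
      rw [Finset.sum_comm]
    have hn : (∑ v ∈ B, ‖∑ j ∈ range J, (s v) ^ j‖ ^ 2 : ℝ)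
        = ‖((∑ v ∈ B, ‖∑ j ∈ range J, (s v) ^ j‖ ^ 2 : ℝ) : ℂ)‖ := by
      rw [Complex.norm_real, Real.norm_of_nonneg (Finset.sum_nonneg fun _ _ => by positivity)]
    rw [hn, e]
    refine (norm_sum_le _ _).trans (Finset.sum_le_sum fun j _ => ?_)
    refine (norm_sum_le _ _).trans (Finset.sum_le_sum fun i _ => ?_)
    rcases le_total i j with hij | hij
    · have : ∀ v ∈ B, (s v) ^ j * conj ((s v) ^ i) = (s ^ Nat.dist j i) v := by
        intro v _
        have hz : (s v) * conj (s v) = 1 := by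
          rw [Complex.mul_conj', norm_char]; simp
        have hd : Nat.dist j i = j - i := by rw [Nat.dist_comm, Nat.dist_eq_sub_of_le hij]
        rw [hd, AddChar.pow_apply, map_pow]
        calc (s v) ^ j * (conj (s v)) ^ i = (s v) ^ (j - i) * ((s v) ^ i * (conj (s v)) ^ i) := by
              rw [← mul_assoc, ← pow_add, Nat.sub_add_cancel hij]
          _ = (s v) ^ (j - i) := by rw [← mul_pow, hz, one_pow, mul_one]
      rw [Finset.sum_congr rfl this]; rfl
    · have : ∀ v ∈ B, (s v) ^ j * conj ((s v) ^ i) = conj ((s ^ Nat.dist j i) v) := by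
        intro v _
        have hz : (s v) * conj (s v) = 1 := by
          rw [Complex.mul_conj', norm_char]; simp
        have hd : Nat.dist j i = i - j := Nat.dist_eq_sub_of_le hij
        rw [hd, AddChar.pow_apply, map_pow, map_pow]
        calc (s v) ^ j * (conj (s v)) ^ i = ((s v) ^ j * (conj (s v)) ^ j) * (conj (s v)) ^ (i - j) := by
              rw [mul_assoc, ← pow_add, Nat.add_sub_cancel' hij]
          _ = (conj (s v)) ^ (i - j) := by rw [← mul_pow, hz, one_pow, one_mul]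
      rw [Finset.sum_congr rfl this, ← map_sum, Complex.norm_conj]; rfl
  have h3 := sum_dist_le (g := fun d => ‖hatB B (s ^ d)‖) (fun _ => norm_nonneg _) J
  have h4 : ‖hatB B (s ^ 0)‖ = B.card := by simp [hatB]
  simp only [h4] at h3
  linarith

/-- **(F)** few characters are large on a positive part of a set -/
theorem large_card (B : Finset G) (L : Finset (AddChar G ℂ)) {J : ℕ} {β : ℝ} (hβ : 8 ≤ β * J)
    (hco : ∀ j, 0 < j → j < J → Nat.Coprime (Fintype.card G) j)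
    (h : ∀ s ∈ L, β * B.card ≤ ((B.filter fun v => (J : ℝ) * ‖s v - 1‖ ≤ 1).card : ℝ)) :
    (L.card : ℝ) * B.card * β ^ 2 ≤ 256 * Fintype.card G := by
  rcases Nat.eq_zero_or_pos J with hJ | hJ
  · subst hJ; simp at hβ; linarith
  have hJ' : (0 : ℝ) < J := by exact_mod_cast hJ
  have hβ0 : 0 < β := by
    by_contra hneg
    push Not at hneg
    nlinarith
  have h1 : ∑ s ∈ L, β * B.card * (J ^ 2 / 4)
      ≤ ∑ s ∈ L, (J * B.card + 2 * J * ∑ d ∈ Ico 1 J, ‖hatB B (s ^ d)‖) :=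
    Finset.sum_le_sum fun s hs => one_char B s (h s hs)
  rw [Finset.sum_const, nsmul_eq_mul, Finset.sum_add_distrib, Finset.sum_const, nsmul_eq_mul,
    ← Finset.mul_sum, Finset.sum_comm] at h1
  set Q : ℝ := L.card * ((Fintype.card G : ℝ) * B.card) with hQ
  have hQ0 : 0 ≤ Q := by positivity
  have h2 : ∑ d ∈ Ico 1 J, ∑ s ∈ L, ‖hatB B (s ^ d)‖ ≤ J * Real.sqrt Q := by
    calc ∑ d ∈ Ico 1 J, ∑ s ∈ L, ‖hatB B (s ^ d)‖ ≤ ∑ d ∈ Ico 1 J, Real.sqrt Q := by
          refine Finset.sum_le_sum fun d hd => ?_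
          obtain ⟨hd1, hd2⟩ := Finset.mem_Ico.1 hd
          exact sum_pow_le B L (hco d (by omega) hd2)
      _ = ((J - 1 : ℕ) : ℝ) * Real.sqrt Q := by
          rw [Finset.sum_const, Nat.card_Ico, nsmul_eq_mul]
      _ ≤ J * Real.sqrt Q := by
          refine mul_le_mul_of_nonneg_right ?_ (Real.sqrt_nonneg _)
          exact_mod_cast Nat.sub_le J 1
  -- `|L| |B| β J / 16 ≤ J √Q`
  have h3 : (L.card : ℝ) * B.card * β ≤ 16 * Real.sqrt Q := by
    set l : ℝ := (L.card : ℝ)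
    set b : ℝ := (B.card : ℝ)
    have hlb : 0 ≤ l * b := by positivity
    have h4 : l * (β * b * (J ^ 2 / 4)) ≤ l * (J * b) + 2 * J * (J * Real.sqrt Q) := by
      have := mul_le_mul_of_nonneg_left h2 (by positivity : (0 : ℝ) ≤ 2 * J)
      linarith
    have h5 : (l * b) * J * 8 ≤ (l * b) * J * (β * J) := mul_le_mul_of_nonneg_left hβ (by positivity)
    have h6 : J ^ 2 * (l * b * β) ≤ J ^ 2 * (16 * Real.sqrt Q) := by nlinarith
    exact le_of_mul_le_mul_left h6 (by positivity)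
  have h4 : ((L.card : ℝ) * B.card * β) ^ 2 ≤ 256 * Q := by
    calc ((L.card : ℝ) * B.card * β) ^ 2 ≤ (16 * Real.sqrt Q) ^ 2 :=
          pow_le_pow_left₀ (by positivity) h3 2
      _ = 256 * Q := by rw [mul_pow, Real.sq_sqrt hQ0]; norm_num
  rcases Nat.eq_zero_or_pos L.card with hL | hL
  · rw [hL]; simp
  rcases Nat.eq_zero_or_pos B.card with hB | hB
  · rw [hB]; simp
  have hL' : (0 : ℝ) < L.card := by exact_mod_cast hL
  have hB' : (0 : ℝ) < B.card := by exact_mod_cast hB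
  have h5 : ((L.card : ℝ) * B.card) * ((L.card : ℝ) * B.card * β ^ 2)
      ≤ ((L.card : ℝ) * B.card) * (256 * Fintype.card G) := by
    rw [hQ] at h4
    nlinarith
  exact le_of_mul_le_mul_left h5 (by positivity)

end Vale.Agent.P160.Half.CH
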