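import Vale.Agent.P160.Half.GStmt4
import Vale.Agent.P160.Half.Cnt404

/-! # P160, half rate, gap (G): COUNT, the number of labels (`countL : CountStmt`) -/

namespace Vale.Agent.P160.Half.G.H404

open Finset Matrix A Labels

/-! ### torsion of the cokernel -/

theorem card_kill {G : Type*} [AddCommGroup G] [Finite G] (p e : ℕ) :
    Nat.card (nsmulAddMonoidHom (p ^ e) : G →+ G).ker
      ≤ Nat.card (nsmulAddMonoidHom p : G →+ G).ker ^ e := by
  induction e with
  | zero =>
    rw [pow_zero, pow_zero]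
    have : (nsmulAddMonoidHom 1 : G →+ G).ker = ⊥ := by
      ext x; simp [AddMonoidHom.mem_ker]
    rw [this]; simp
  | succ e ih =>
    let f : (nsmulAddMonoidHom (p ^ (e + 1)) : G →+ G).ker →+
        (nsmulAddMonoidHom (p ^ e) : G →+ G).ker :=
      ((nsmulAddMonoidHom p : G →+ G).comp (AddSubgroup.subtype _)).codRestrict _ (by
        intro x
        rw [AddMonoidHom.mem_ker]
        show p ^ e • (p • (x : G)) = 0
        rw [← mul_smul, ← pow_succ]; exact x.2)
    have h1 : Nat.card (nsmulAddMonoidHom (p ^ (e + 1)) : G →+ G).ker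
        = Nat.card f.ker * Nat.card f.range := by
      rw [AddSubgroup.card_eq_card_quotient_mul_card_addSubgroup f.ker, mul_comm]
      congr 1
      exact Nat.card_congr (QuotientAddGroup.quotientKerEquivRange f).toEquiv
    have h2 : Nat.card f.ker ≤ Nat.card (nsmulAddMonoidHom p : G →+ G).ker := by
      apply Nat.card_le_card_of_injective (fun x : f.ker =>
        (⟨x.1.1, congrArg Subtype.val (AddMonoidHom.mem_ker.mp x.2)⟩ :
          (nsmulAddMonoidHom p : G →+ G).ker))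
      intro x y h
      have h' : x.1.1 = y.1.1 :=
        congrArg (fun t : (nsmulAddMonoidHom p : G →+ G).ker => (t : G)) h
      exact Subtype.ext (Subtype.ext h')
    have h3 : Nat.card f.range ≤ Nat.card (nsmulAddMonoidHom (p ^ e) : G →+ G).ker :=
      Nat.card_le_card_of_injective _ Subtype.val_injective
    calc Nat.card (nsmulAddMonoidHom (p ^ (e + 1)) : G →+ G).ker
        = Nat.card f.range * Nat.card f.ker := by rw [h1, mul_comm]
      _ ≤ Nat.card (nsmulAddMonoidHom p : G →+ G).ker ^ e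
          * Nat.card (nsmulAddMonoidHom p : G →+ G).ker := Nat.mul_le_mul (h3.trans ih) h2
      _ = _ := (pow_succ _ _).symm

theorem finite_coker {n : ℕ} {M : Matrix (Fin n) (Fin n) ℤ} (hd : M.det ≠ 0) :
    Finite (Coker M) := by
  apply Nat.finite_of_card_ne_zero
  rw [card_coker M hd]
  exact Int.natAbs_ne_zero.mpr hd

theorem card_kill_coker {n : ℕ} {M : Matrix (Fin n) (Fin n) ℤ} (hd : M.det ≠ 0) {p : ℕ}
    (hp : p.Prime) {k : ℕ} (hk : n ≤ (M.map (Int.cast : ℤ → ZMod p)).rank + k) :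
    Nat.card (nsmulAddMonoidHom p : Coker M →+ Coker M).ker ≤ p ^ k := by
  classical
  have : Fact p.Prime := ⟨hp⟩
  have := finite_coker hd
  set Mp : Matrix (Fin n) (Fin n) (ZMod p) := M.map (Int.cast : ℤ → ZMod p) with hMp
  have h0 : ∀ x : (nsmulAddMonoidHom p : Coker M →+ Coker M).ker, ∃ w z : Fin n → ℤ,
      (QuotientAddGroup.mk w : Coker M) = x.1 ∧ M *ᵥ z = p • w := by
    rintro ⟨x, hx⟩
    obtain ⟨w, rfl⟩ := QuotientAddGroup.mk_surjective x
    have h1 : (QuotientAddGroup.mk (p • w) : Coker M) = 0 := hx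
    rw [QuotientAddGroup.eq_zero_iff, mem_lat] at h1
    obtain ⟨z, hz⟩ := h1
    exact ⟨w, z, rfl, hz⟩
  choose w z hw hz using h0
  have hcast : ∀ u : Fin n → ℤ, Mp *ᵥ (fun j => (u j : ZMod p)) = fun j => ((M *ᵥ u) j : ZMod p) := by
    intro u
    ext j
    simp [hMp, Matrix.mulVec, dotProduct]
  have hker : ∀ x, (fun j => (z x j : ZMod p)) ∈ LinearMap.ker Mp.mulVecLin := by
    intro x
    rw [LinearMap.mem_ker, Matrix.mulVecLin_apply, hcast, hz]
    ext j
    simp
  have hinj : Function.Injective (fun x => (⟨fun j => (z x j : ZMod p), hker x⟩ :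
      LinearMap.ker Mp.mulVecLin)) := by
    intro x x' h
    have h1 : ∀ j, ((z x j : ℤ) : ZMod p) = ((z x' j : ℤ) : ZMod p) := fun j =>
      congrFun (congrArg Subtype.val h) j
    have h2 : ∀ j, ∃ u : ℤ, z x j - z x' j = p * u := by
      intro j
      have h3 : (p : ℤ) ∣ z x j - z x' j := by
        rw [← ZMod.intCast_zmod_eq_zero_iff_dvd]
        push_cast
        rw [h1 j, sub_self]
      exact h3
    choose u hu using h2
    have h4 : (p : ℤ) • (M *ᵥ u) = (p : ℤ) • (w x - w x') := by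
      have h5 : (p : ℤ) • u = z x - z x' := by
        ext j
        rw [Pi.smul_apply, smul_eq_mul, Pi.sub_apply, hu j]
      rw [← mulVec_smul, h5, mulVec_sub, hz, hz, smul_sub]
      simp
    have hp0 : (p : ℤ) ≠ 0 := by exact_mod_cast hp.ne_zero
    have h6 : M *ᵥ u = w x - w x' := smul_right_injective _ hp0 h4
    apply Subtype.ext
    rw [← hw x, ← hw x', QuotientAddGroup.eq, mem_lat]
    refine ⟨-u, ?_⟩
    rw [mulVec_neg, h6]
    abel
  have h7 := Nat.card_le_card_of_injective _ hinj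
  refine h7.trans ?_
  have h8 : Nat.card (LinearMap.ker Mp.mulVecLin)
      = p ^ Module.finrank (ZMod p) (LinearMap.ker Mp.mulVecLin) := by
    rw [Module.natCard_eq_pow_finrank (K := ZMod p), Nat.card_zmod]
  rw [h8]
  apply Nat.pow_le_pow_right hp.pos
  have h9 := LinearMap.finrank_range_add_finrank_ker Mp.mulVecLin
  have h10 : Module.finrank (ZMod p) (LinearMap.range Mp.mulVecLin) = Mp.rank := rfl
  rw [h10, Module.finrank_fin_fun] at h9
  omega

theorem tor_card_le {n : ℕ} {M : Matrix (Fin n) (Fin n) ℤ} (hd : M.det ≠ 0) {p : ℕ}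
    (hp : p.Prime) {k : ℕ} (hk : n ≤ (M.map (Int.cast : ℤ → ZMod p)).rank + k) (e : ℕ) :
    Nat.card (Cnt.tor (Coker M) p e) ≤ p ^ (e * k) := by
  have := finite_coker hd
  have h1 : Nat.card (Cnt.tor (Coker M) p e)
      ≤ Nat.card (nsmulAddMonoidHom (p ^ e) : Coker M →+ Coker M).ker :=
    Nat.card_le_card_of_injective (fun x => (⟨x.1, x.2.2⟩ :
      (nsmulAddMonoidHom (p ^ e) : Coker M →+ Coker M).ker)) (by
        intro x y h
        have h' : x.1 = y.1 := congrArg
          (fun t : (nsmulAddMonoidHom (p ^ e) : Coker M →+ Coker M).ker => (t : Coker M)) h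
        exact Subtype.ext h')
  calc _ ≤ _ := h1
    _ ≤ _ := card_kill p e
    _ ≤ (p ^ k) ^ e := Nat.pow_le_pow_left (card_kill_coker hd hp hk) e
    _ = _ := by rw [← pow_mul, mul_comm]

/-! ### the image of the lattice -/

theorem mem_of_QL {n : ℕ} {M : Matrix (Fin n) (Fin n) ℤ} (hd : M.det ≠ 0)
    {L : Submodule ℤ (Fin n → ℚ)} (hstd : ∀ z : Fin n → ℤ, (fun j => (z j : ℚ)) ∈ L)
    {v : Fin n → ℚ} {w : Fin n → ℤ} (hv : M.map (Int.cast : ℤ → ℚ) *ᵥ v = fun j => (w j : ℚ))
    (hw : (QuotientAddGroup.mk w : Coker M) ∈ QL M L) : v ∈ L := by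
  obtain ⟨w', hww, v', hv', h'⟩ := hw
  rw [QuotientAddGroup.eq, mem_lat] at hww
  obtain ⟨z, hz⟩ := hww
  have hdq : (M.map (Int.cast : ℤ → ℚ)).det ≠ 0 := by
    have : (M.map (Int.cast : ℤ → ℚ)).det = ((M.det : ℤ) : ℚ) :=
      ((Int.castRingHom ℚ).map_det M).symm
    rw [this]
    exact_mod_cast hd
  have hz' : M.map (Int.cast : ℤ → ℚ) *ᵥ (fun j => (z j : ℚ)) = fun j => ((-w j + w' j : ℤ) : ℚ) := by
    ext j
    have : (M *ᵥ z) j = -w j + w' j := by rw [hz]; rfl
    rw [← this]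
    simp [Matrix.mulVec, dotProduct]
  have h1 : M.map (Int.cast : ℤ → ℚ) *ᵥ (v' - fun j => (z j : ℚ)) = M.map (Int.cast : ℤ → ℚ) *ᵥ v := by
    rw [mulVec_sub, hz', h', hv]
    ext j
    simp
  have h2 : v' - (fun j => (z j : ℚ)) = v := by
    have := (M.map (Int.cast : ℤ → ℚ)).mulVec_injective_of_isUnit
      ((Matrix.isUnit_iff_isUnit_det _).mpr (isUnit_iff_ne_zero.mpr hdq))
    exact this h1
  rw [← h2]
  exact L.sub_mem hv' (hstd z)

theorem int_mulVec {n : ℕ} {M : Matrix (Fin n) (Fin n) ℤ}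
    {L : Submodule ℤ (Fin n → ℚ)} (hstd : ∀ z : Fin n → ℤ, (fun j => (z j : ℚ)) ∈ L)
    (hint : ∀ v ∈ L, ∀ w ∈ L, ∃ m : ℤ, v ⬝ᵥ (M.map (Int.cast : ℤ → ℚ) *ᵥ w) = m)
    {v : Fin n → ℚ} (hv : v ∈ L) : ∃ w : Fin n → ℤ,
    M.map (Int.cast : ℤ → ℚ) *ᵥ v = fun j => (w j : ℚ) := by
  classical
  have h1 : ∀ j, ∃ m : ℤ, (M.map (Int.cast : ℤ → ℚ) *ᵥ v) j = m := by
    intro j
    obtain ⟨m, hm⟩ := hint (fun i => ((Pi.single j (1 : ℤ) : Fin n → ℤ) i : ℚ)) (hstd _) v hv
    refine ⟨m, ?_⟩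
    rw [← hm, dotProduct]
    simp [Pi.single_apply]
  choose w hw using h1
  exact ⟨w, funext hw⟩

theorem QL_inj {n : ℕ} {M : Matrix (Fin n) (Fin n) ℤ} (hd : M.det ≠ 0)
    {L L' : Submodule ℤ (Fin n → ℚ)} (hstd : ∀ z : Fin n → ℤ, (fun j => (z j : ℚ)) ∈ L)
    (hint : ∀ v ∈ L, ∀ w ∈ L, ∃ m : ℤ, v ⬝ᵥ (M.map (Int.cast : ℤ → ℚ) *ᵥ w) = m)
    (hstd' : ∀ z : Fin n → ℤ, (fun j => (z j : ℚ)) ∈ L')
    (h : QL M L = QL M L') : L ≤ L' := by
  intro v hv
  obtain ⟨w, hw⟩ := int_mulVec hstd hint hv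
  have h1 : (QuotientAddGroup.mk w : Coker M) ∈ QL M L := ⟨w, rfl, v, hv, hw⟩
  rw [h] at h1
  exact mem_of_QL hd hstd' hw h1

theorem QL_iso {n : ℕ} {M : Matrix (Fin n) (Fin n) ℤ} (hsym : M.transpose = M)
    {L : Submodule ℤ (Fin n → ℚ)}
    (hint : ∀ v ∈ L, ∀ w ∈ L, ∃ m : ℤ, v ⬝ᵥ (M.map (Int.cast : ℤ → ℚ) *ᵥ w) = m)
    {x y : Coker M} (hx : x ∈ QL M L) (hy : y ∈ QL M L) : cokPair M hsym x y = 0 := by
  obtain ⟨w, rfl, v, hv, hw⟩ := hx
  obtain ⟨w', rfl, v', hv', hw'⟩ := hy
  rw [cokPair_mk, ZMod.intCast_zmod_eq_zero_iff_dvd, Int.natAbs_dvd]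
  obtain ⟨m, hm⟩ := hint v hv v' hv'
  refine ⟨m, ?_⟩
  have hsq : (M.map (Int.cast : ℤ → ℚ)).transpose = M.map (Int.cast : ℤ → ℚ) := by
    rw [← transpose_map, hsym]
  have hdet : (M.map (Int.cast : ℤ → ℚ)).det = ((M.det : ℤ) : ℚ) :=
    ((Int.castRingHom ℚ).map_det M).symm
  have hadj : (M.adjugate).map (Int.cast : ℤ → ℚ) = (M.map (Int.cast : ℤ → ℚ)).adjugate :=
    (Int.castRingHom ℚ).map_adjugate M
  have h1 : ((w ⬝ᵥ (M.adjugate *ᵥ w') : ℤ) : ℚ)
      = (fun j => (w j : ℚ)) ⬝ᵥ ((M.adjugate).map (Int.cast : ℤ → ℚ) *ᵥ (fun j => (w' j : ℚ))) := by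
    simp [dotProduct, Matrix.mulVec]
  have h2 : ((w ⬝ᵥ (M.adjugate *ᵥ w') : ℤ) : ℚ) = ((M.det * m : ℤ) : ℚ) := by
    rw [h1, hadj, ← hw, ← hw', mulVec_mulVec, adjugate_mul, smul_mulVec, one_mulVec,
      dotProduct_smul, smul_eq_mul, hdet]
    push_cast
    rw [← hm]
    congr 1
    rw [dotProduct_mulVec, ← mulVec_transpose, hsq]
  exact_mod_cast h2

/-! ### weights -/

theorem logb_nonneg' {x : ℝ} (hx : 1 ≤ x) : 0 ≤ Real.logb 2 x := Real.logb_nonneg (by norm_num) hx

theorem wt_le {G : Type*} [AddCommGroup G] [Fintype G] {p : ℕ} (hp : p.Prime) (ρ e : ℕ)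
    (H Q : AddSubgroup G) :
    Cnt.wt ρ p e H Q ≤ cst ρ p e H Q
      + (2 * Real.logb 2 ((Nat.card G).factorization p + 1) + 3) := by
  classical
  have hlog : 0 ≤ Real.logb 2 ((Nat.card G).factorization p + 1 : ℝ) :=
    logb_nonneg' (by
      have : (0 : ℝ) ≤ ((Nat.card G).factorization p : ℝ) := Nat.cast_nonneg _
      linarith)
  have hlp : 0 ≤ Real.logb 2 (p : ℝ) := logb_nonneg' (by exact_mod_cast hp.one_lt.le)
  rw [Cnt.wt, Cnt.w0, cst]
  by_cases h : pp p e Q = pp p e H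
  · rw [if_pos (show Cnt.pp p e Q = Cnt.pp p e H from h), if_pos h]
    positivity
  · rw [if_neg (show ¬ Cnt.pp p e Q = Cnt.pp p e H from h), if_neg h]
    have hle : Cnt.pp p e Q ≤ prim G p := by
      rintro _ ⟨x, hx, rfl⟩
      exact (prim G p).nsmul_mem hx.2 _
    obtain ⟨hc, -⟩ := Cnt.card_pow_of_le hp hle
    have h1 : Nat.log p (Nat.card (Cnt.pp p e Q)) = (Nat.card (pp p e Q)).factorization p := by
      have h2 : Nat.card (pp p e Q) = Nat.card (Cnt.pp p e Q) := rfl
      rw [h2]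
      conv_rhs => rw [hc]
      rw [hp.factorization_pow]
      simp
    rw [h1]
    apply le_of_eq
    show ((ρ : ℝ) + 1) * (((Nat.card G).factorization p : ℝ) - 2 * ((Nat.card (pp p e Q)).factorization p : ℕ)
      + 2 * Rev.bb p (pp p e Q ⧸ (pp p e H).addSubgroupOf (pp p e Q))) * Real.logb 2 p
      + 2 * Real.logb 2 ((Nat.card G).factorization p + 1) + 3 = _
    ring

theorem twelve_le (v : ℕ) (hv : 1 ≤ v) : 12 * ((v : ℝ) + 1) ^ 2 ≤ (2 : ℝ) ^ (6 * (v : ℝ)) := by
  have h1 : (2 : ℝ) ^ (6 * (v : ℝ)) = 64 ^ v := by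
    rw [Real.rpow_mul (by norm_num), Real.rpow_natCast]
    norm_num
  rw [h1]
  induction v, hv using Nat.le_induction with
  | base => norm_num
  | succ v hv ih =>
    have ih' := ih (by
      rw [Real.rpow_mul (by norm_num), Real.rpow_natCast]
      norm_num)
    have hv' : (1 : ℝ) ≤ v := by exact_mod_cast hv
    have h5 : (64 : ℝ) ^ (v + 1) = 64 ^ v * 64 := pow_succ _ _
    rw [h5]
    push_cast
    nlinarith

theorem sum_log_eq (D : ℕ) (hD : D ≠ 0) :
    ∑ p ∈ D.primeFactors, (D.factorization p : ℝ) * Real.logb 2 p = Real.logb 2 D := by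
  conv_rhs => rw [← Nat.prod_factorization_pow_eq_self hD]
  rw [Finsupp.prod, Nat.support_factorization]
  push_cast
  rw [Real.logb_prod]
  · apply Finset.sum_congr rfl
    intro p _
    rw [Real.logb_pow]
  · intro p hp
    have := (Nat.prime_of_mem_primeFactors hp).pos
    positivity

theorem countL : CountStmt := by
  classical
  intro n s ρ y a k Dt X M' h hy ha hX hDt
  rcases (LabSet n s ρ y a k Dt X M' h).eq_empty_or_nonempty with h0 | ⟨L₀, hL₀⟩
  · rw [h0]
    refine ⟨Set.finite_empty, ?_⟩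
    rw [Set.ncard_empty]
    push_cast
    positivity
  obtain ⟨M, hz, hM, hsym, hd, hDet, hrk, hh, -⟩ := hL₀
  subst hM
  have := finite_coker hd
  have := Fintype.ofFinite (Coker M)
  have : Fintype (AddSubgroup (Coker M)) := Fintype.ofFinite _
  have hNZ : NeZero M.det.natAbs := ⟨Int.natAbs_ne_zero.mpr hd⟩
  set D := M.det.natAbs with hD
  have hD0 : D ≠ 0 := hNZ.out
  have hcard : Nat.card (Coker M) = D := card_coker M hd
  set H : AddSubgroup (Coker M) :=
    AddSubgroup.closure (Set.range fun t => (QuotientAddGroup.mk (hz t) : Coker M)) with hH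
  set e : ℕ → ℕ := fun p => if y ≤ p then 0 else ρ * (a - 1) with he
  set S : Finset (AddSubgroup (Coker M)) := univ.filter (fun Q =>
    (∀ x ∈ Q, ∀ y ∈ Q, cokPair M hsym x y = 0) ∧ H ≤ Q ∧
    (∃ g : Fin ρ → Coker M, Q = AddSubgroup.closure (Set.range g)) ∧
    ∑ p ∈ D.primeFactors, cst ρ p (e p) H Q ≤ X) with hS
  have key : ∀ L ∈ LabSet n s ρ y a k Dt X (M.map (Int.cast : ℤ → ℚ)) h,
      (∀ z : Fin n → ℤ, (fun j => (z j : ℚ)) ∈ L) ∧
      (∀ v ∈ L, ∀ w ∈ L, ∃ m : ℤ, v ⬝ᵥ (M.map (Int.cast : ℤ → ℚ) *ᵥ w) = m) ∧ QL M L ∈ S := by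
    rintro L ⟨M₁, hz₁, hM₁, hsym₁, hd₁, hDet₁, hrk₁, hh₁, hstd, hint, hHQ, hg, hc⟩
    have e1 : M₁ = M := Matrix.map_injective Int.cast_injective hM₁
    subst e1
    have e2 : hz₁ = hz := by
      funext t j
      have := (hh₁ t j).symm.trans (hh t j)
      exact_mod_cast this
    subst e2
    refine ⟨hstd, hint, ?_⟩
    rw [hS, mem_filter]
    exact ⟨mem_univ _, fun x hx y hy => QL_iso hsym hint hx hy, hHQ, hg, hc⟩
  have hinj : Set.InjOn (QL M) (LabSet n s ρ y a k Dt X (M.map (Int.cast : ℤ → ℚ)) h) := by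
    intro L hL L' hL' hLL
    obtain ⟨h1, h2, -⟩ := key L hL
    obtain ⟨h1', h2', -⟩ := key L' hL'
    exact le_antisymm (QL_inj hd h1 h2 h1' hLL) (QL_inj hd h1' h2' h1 hLL.symm)
  have hmaps : Set.MapsTo (QL M) (LabSet n s ρ y a k Dt X (M.map (Int.cast : ℤ → ℚ)) h)
      (S : Set (AddSubgroup (Coker M))) := fun L hL => (key L hL).2.2
  refine ⟨Set.Finite.of_injOn hmaps hinj S.finite_toSet, ?_⟩
  have hnc : (LabSet n s ρ y a k Dt X (M.map (Int.cast : ℤ → ℚ)) h).ncard ≤ S.card := by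
    have := Set.ncard_le_ncard_of_injOn (QL M) hmaps hinj S.finite_toSet
    rwa [Set.ncard_coe_finset] at this
  have hnc' : (((LabSet n s ρ y a k Dt X (M.map (Int.cast : ℤ → ℚ)) h).ncard : ℕ) : ℝ) ≤ S.card := by
    exact_mod_cast hnc
  refine hnc'.trans ?_
  -- the count
  have hSm : ∀ Q ∈ S, (∀ x ∈ Q, ∀ y ∈ Q, cokPair M hsym x y = 0) ∧ H ≤ Q ∧
      (∃ g : Fin ρ → Coker M, Q = AddSubgroup.closure (Set.range g)) ∧
      ∑ p ∈ D.primeFactors, cst ρ p (e p) H Q ≤ X := by
    intro Q hQ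
    rw [hS, mem_filter] at hQ
    exact hQ.2
  have hcount := Cnt.count (cokPair M hsym) (cokPair_symm M hsym) (cokPair_nondeg M hsym hd) ρ e H
    (X + ∑ p ∈ D.primeFactors, (2 * Real.logb 2 ((D.factorization p : ℝ) + 1) + 3)) S
    (fun Q hQ => (hSm Q hQ).1) (fun Q hQ => (hSm Q hQ).2.1) (fun Q hQ => (hSm Q hQ).2.2.1)
    (fun Q hQ => by
      rw [hcard]
      calc ∑ p ∈ D.primeFactors, Cnt.wt ρ p (e p) H Q
          ≤ ∑ p ∈ D.primeFactors, (cst ρ p (e p) H Q
            + (2 * Real.logb 2 ((D.factorization p : ℝ) + 1) + 3)) := by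
            apply Finset.sum_le_sum
            intro p hp
            have h3 := wt_le (Nat.prime_of_mem_primeFactors hp) ρ (e p) H Q
            rwa [hcard] at h3
        _ = ∑ p ∈ D.primeFactors, cst ρ p (e p) H Q
            + ∑ p ∈ D.primeFactors, (2 * Real.logb 2 ((D.factorization p : ℝ) + 1) + 3) :=
            Finset.sum_add_distrib
        _ ≤ _ := by linarith [(hSm Q hQ).2.2.2])
  rw [hcard] at hcount
  refine hcount.trans ?_
  -- numbers
  have hy' : (2 : ℝ) ≤ y := by exact_mod_cast hy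
  have hly : 1 ≤ Real.logb 2 y := by
    rw [Real.le_logb_iff_rpow_le (by norm_num) (by linarith)]
    simpa using hy'
  have hlD1 : 0 ≤ Real.logb 2 (Dt + 1) := logb_nonneg' (by linarith)
  have hlogD : Real.logb 2 (D : ℝ) ≤ Dt := by
    have : ((D : ℕ) : ℝ) = |(M.det : ℝ)| := by
      rw [hD, Nat.cast_natAbs]; push_cast; rfl
    rw [this]; exact hDet
  set Z : ℝ := 4 + 2 * Real.logb 2 (Dt + 1) + 2 * ρ * (ρ * a) * k * Real.logb 2 y with hZ
  have hZ0 : 0 ≤ Z := by positivity
  set τ : ℕ → ℝ := fun p => if y ≤ p then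
    6 / Real.logb 2 y * ((D.factorization p : ℝ) * Real.logb 2 p) else Z with hτ
  rw [Real.rpow_add (by norm_num), Real.rpow_sum_of_pos (by norm_num), mul_assoc,
    ← Finset.prod_mul_distrib]
  have hfac : ∀ p ∈ D.primeFactors, (1 : ℝ) ≤ D.factorization p ∧
      (D.factorization p : ℝ) * Real.logb 2 p ≤ Dt := by
    intro p hp
    constructor
    · have hpp := Nat.prime_of_mem_primeFactors hp
      have : 1 ≤ D.factorization p :=
        hpp.factorization_pos_of_dvd hD0 (Nat.dvd_of_mem_primeFactors hp)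
      exact_mod_cast this
    · have h4 := sum_log_eq D hD0
      have h5 : (D.factorization p : ℝ) * Real.logb 2 p
          ≤ ∑ p ∈ D.primeFactors, (D.factorization p : ℝ) * Real.logb 2 p := by
        apply Finset.single_le_sum (f := fun p : ℕ => (D.factorization p : ℝ) * Real.logb 2 p) _ hp
        intro q hq
        have := logb_nonneg' (x := (q : ℝ))
          (by exact_mod_cast (Nat.prime_of_mem_primeFactors hq).one_lt.le)
        positivity
      linarith
  have hprime : ∀ p ∈ D.primeFactors, (2 : ℝ) ^ (2 * Real.logb 2 ((D.factorization p : ℝ) + 1) + 3)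
      * (3 / 2 * (Nat.card (Cnt.tor (Coker M) p (e p)) : ℝ) ^ (2 * ρ)) ≤ (2 : ℝ) ^ (τ p) := by
    intro p hp
    have hpp := Nat.prime_of_mem_primeFactors hp
    obtain ⟨hv1, hv2⟩ := hfac p hp
    have hp2 : (2 : ℝ) ≤ p := by exact_mod_cast hpp.two_le
    have hlp : 1 ≤ Real.logb 2 p := by
      rw [Real.le_logb_iff_rpow_le (by norm_num) (by linarith)]
      simpa using hp2
    have h6 : (2 : ℝ) ^ (2 * Real.logb 2 ((D.factorization p : ℝ) + 1) + 3)
        = 8 * ((D.factorization p : ℝ) + 1) ^ 2 := by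
      rw [Real.rpow_add (by norm_num), mul_comm (2 : ℝ) (Real.logb 2 _),
        Real.rpow_mul (by norm_num), Real.rpow_logb (by norm_num) (by norm_num) (by positivity)]
      rw [Real.rpow_ofNat]
      norm_num
      ring
    rw [h6]
    have htor := tor_card_le hd hpp (hrk p hpp) (e p)
    by_cases hyp : y ≤ p
    · have he0 : e p = 0 := if_pos hyp
      rw [he0, Nat.zero_mul, pow_zero] at htor
      have hτp : τ p = 6 / Real.logb 2 y * ((D.factorization p : ℝ) * Real.logb 2 p) := if_pos hyp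
      rw [hτp, he0]
      have htor' : (Nat.card (Cnt.tor (Coker M) p 0) : ℝ) ≤ 1 := by exact_mod_cast htor
      have h7 : (Nat.card (Cnt.tor (Coker M) p 0) : ℝ) ^ (2 * ρ) ≤ 1 :=
        pow_le_one₀ (Nat.cast_nonneg _) htor'
      have h8 : 12 * ((D.factorization p : ℝ) + 1) ^ 2
          ≤ (2 : ℝ) ^ (6 * (D.factorization p : ℝ)) := twelve_le _ (by exact_mod_cast hv1)
      have h9 : (2 : ℝ) ^ (6 * (D.factorization p : ℝ)) ≤
          (2 : ℝ) ^ (6 / Real.logb 2 y * ((D.factorization p : ℝ) * Real.logb 2 p)) := by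
        apply Real.rpow_le_rpow_of_exponent_le (by norm_num)
        have hyp' : Real.logb 2 y ≤ Real.logb 2 p :=
          Real.logb_le_logb_of_le (by norm_num) (by linarith) (by exact_mod_cast hyp)
        have h10 : 1 ≤ Real.logb 2 p / Real.logb 2 y := by
          rw [le_div_iff₀ (by linarith)]; linarith
        calc 6 * (D.factorization p : ℝ) = 6 * (D.factorization p : ℝ) * 1 := by ring
          _ ≤ 6 * (D.factorization p : ℝ) * (Real.logb 2 p / Real.logb 2 y) := by gcongr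
          _ = _ := by ring
      calc 8 * ((D.factorization p : ℝ) + 1) ^ 2
            * (3 / 2 * (Nat.card (Cnt.tor (Coker M) p 0) : ℝ) ^ (2 * ρ))
          ≤ 8 * ((D.factorization p : ℝ) + 1) ^ 2 * (3 / 2 * 1) := by gcongr
        _ = 12 * ((D.factorization p : ℝ) + 1) ^ 2 := by ring
        _ ≤ _ := h8.trans h9
    · have he1 : e p = ρ * (a - 1) := if_neg hyp
      have hτp : τ p = Z := if_neg hyp
      rw [hτp]
      push Not at hyp
      have hlpy : Real.logb 2 p ≤ Real.logb 2 y :=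
        Real.logb_le_logb_of_le (by norm_num) (by linarith) (by exact_mod_cast hyp.le)
      have h11 : (Nat.card (Cnt.tor (Coker M) p (e p)) : ℝ) ≤ (p : ℝ) ^ (e p * k) := by
        exact_mod_cast htor
      have h12 : (Nat.card (Cnt.tor (Coker M) p (e p)) : ℝ) ^ (2 * ρ)
          ≤ (2 : ℝ) ^ (2 * ρ * (ρ * a) * k * Real.logb 2 y) := by
        calc (Nat.card (Cnt.tor (Coker M) p (e p)) : ℝ) ^ (2 * ρ)
            ≤ ((p : ℝ) ^ (e p * k)) ^ (2 * ρ) := by gcongr
          _ = (2 : ℝ) ^ (Real.logb 2 p * ((e p * k * (2 * ρ) : ℕ) : ℝ)) := by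
              rw [Real.rpow_mul (by norm_num), Real.rpow_logb (by norm_num) (by norm_num)
                (by linarith), Real.rpow_natCast, ← pow_mul]
          _ ≤ _ := by
              apply Real.rpow_le_rpow_of_exponent_le (by norm_num)
              have h13 : (e p : ℝ) ≤ ρ * a := by
                rw [he1]
                have : (((a - 1 : ℕ) : ℕ) : ℝ) ≤ a := by exact_mod_cast Nat.sub_le a 1
                push_cast
                gcongr
              push_cast
              calc Real.logb 2 p * ((e p : ℝ) * k * (2 * ρ))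
                  ≤ Real.logb 2 y * ((ρ * a : ℝ) * k * (2 * ρ)) := by gcongr
                _ = _ := by ring
      have h14 : (D.factorization p : ℝ) + 1 ≤ Dt + 1 := by
        have : (D.factorization p : ℝ) ≤ (D.factorization p : ℝ) * Real.logb 2 p := by
          calc (D.factorization p : ℝ) = (D.factorization p : ℝ) * 1 := by ring
            _ ≤ _ := by gcongr
        linarith
      have h15 : (2 : ℝ) ^ Z = 16 * (Dt + 1) ^ 2
          * (2 : ℝ) ^ (2 * ρ * (ρ * a) * k * Real.logb 2 y) := by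
        rw [hZ, Real.rpow_add (by norm_num), Real.rpow_add (by norm_num),
          mul_comm (2 : ℝ) (Real.logb 2 (Dt + 1)), Real.rpow_mul (by norm_num) (Real.logb 2 _),
          Real.rpow_logb (by norm_num) (by norm_num) (by positivity)]
        norm_num
      rw [h15]
      calc 8 * ((D.factorization p : ℝ) + 1) ^ 2
            * (3 / 2 * (Nat.card (Cnt.tor (Coker M) p (e p)) : ℝ) ^ (2 * ρ))
          ≤ 8 * (Dt + 1) ^ 2
            * (2 * (2 : ℝ) ^ (2 * ρ * (ρ * a) * k * Real.logb 2 y)) := by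
            gcongr
            norm_num
        _ = _ := by ring
  have hτsum : ∑ p ∈ D.primeFactors, τ p ≤ 6 * Dt / Real.logb 2 y + y * Z := by
    rw [← Finset.sum_filter_add_sum_filter_not D.primeFactors (fun p => y ≤ p)]
    have hA : ∑ p ∈ D.primeFactors.filter (fun p => y ≤ p), τ p ≤ 6 * Dt / Real.logb 2 y := by
      calc ∑ p ∈ D.primeFactors.filter (fun p => y ≤ p), τ p
          = ∑ p ∈ D.primeFactors.filter (fun p => y ≤ p),
            6 / Real.logb 2 y * ((D.factorization p : ℝ) * Real.logb 2 p) := by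
            apply Finset.sum_congr rfl
            intro p hp
            exact if_pos (mem_filter.mp hp).2
        _ ≤ ∑ p ∈ D.primeFactors, 6 / Real.logb 2 y * ((D.factorization p : ℝ) * Real.logb 2 p) := by
            apply Finset.sum_le_sum_of_subset_of_nonneg (Finset.filter_subset _ _)
            intro q hq _
            have := logb_nonneg' (x := (q : ℝ))
              (by exact_mod_cast (Nat.prime_of_mem_primeFactors hq).one_lt.le)
            positivity
        _ = 6 / Real.logb 2 y * Real.logb 2 D := by rw [← Finset.mul_sum, sum_log_eq D hD0]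
        _ ≤ 6 / Real.logb 2 y * Dt := by gcongr
        _ = _ := by ring
    have hB : ∑ p ∈ D.primeFactors.filter (fun p => ¬ y ≤ p), τ p ≤ y * Z := by
      calc ∑ p ∈ D.primeFactors.filter (fun p => ¬ y ≤ p), τ p
          = ∑ p ∈ D.primeFactors.filter (fun p => ¬ y ≤ p), Z := by
            apply Finset.sum_congr rfl
            intro p hp
            exact if_neg (mem_filter.mp hp).2
        _ = ((D.primeFactors.filter (fun p => ¬ y ≤ p)).card : ℝ) * Z := by
            rw [sum_const, nsmul_eq_mul]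
        _ ≤ y * Z := by
            apply mul_le_mul_of_nonneg_right _ hZ0
            have : (D.primeFactors.filter (fun p => ¬ y ≤ p)).card ≤ (range y).card := by
              apply Finset.card_le_card
              intro p hp
              rw [mem_range]
              exact not_le.mp (mem_filter.mp hp).2
            rw [card_range] at this
            exact_mod_cast this
    linarith
  calc (2 : ℝ) ^ X * ∏ p ∈ D.primeFactors, ((2 : ℝ) ^ (2 * Real.logb 2 ((D.factorization p : ℝ) + 1) + 3)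
      * (3 / 2 * (Nat.card (Cnt.tor (Coker M) p (e p)) : ℝ) ^ (2 * ρ)))
      ≤ (2 : ℝ) ^ X * ∏ p ∈ D.primeFactors, (2 : ℝ) ^ (τ p) := by
        apply mul_le_mul_of_nonneg_left _ (by positivity)
        apply Finset.prod_le_prod
        · intro p _; positivity
        · exact hprime
    _ = (2 : ℝ) ^ (X + ∑ p ∈ D.primeFactors, τ p) := by
        rw [Real.rpow_add (by norm_num), Real.rpow_sum_of_pos (by norm_num)]
    _ ≤ _ := by
        apply Real.rpow_le_rpow_of_exponent_le (by norm_num)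
        rw [hZ] at hτsum
        linarith

end Vale.Agent.P160.Half.G.H404

/-- **COUNT** -/
theorem Vale.Agent.P160.Half.G.countL : Vale.Agent.P160.Half.G.CountStmt :=
  Vale.Agent.P160.Half.G.H404.countL
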