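import Vale.Agent.P160.Half.FlatS
import Vale.Agent.P160.Half.FlatL

/-! P160-HALF, COUNT: big levels (helper986). -/

open Finset

namespace Vale.Agent.P160.Half.Flat.Big

open Vale.Agent.P160 Vale.Agent.P160.Half.Flat

theorem eventually_log_le (a b : ℝ) (hb : 0 < b) :
    ∃ k₀ : ℕ, ∀ k : ℕ, k₀ ≤ k → a * Real.log k ≤ b * k := by
  have h1 : (fun x : ℝ => a * Real.log x) =o[Filter.atTop] (fun x : ℝ => x) := by
    exact Real.isLittleO_log_id_atTop.const_mul_left a
  have h2 := (h1.def hb)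
  have h3 : ∀ᶠ k : ℕ in Filter.atTop, ‖a * Real.log (k : ℝ)‖ ≤ b * ‖(k : ℝ)‖ :=
    tendsto_natCast_atTop_atTop.eventually h2
  obtain ⟨k₀, hk₀⟩ := Filter.eventually_atTop.1 h3
  refine ⟨k₀, fun k hk => ?_⟩
  have h4 := hk₀ k hk
  rw [Real.norm_of_nonneg (Nat.cast_nonneg k)] at h4
  exact (le_abs_self _).trans h4

theorem stmtBig : StmtBig := by
  intro c C₀ C₁ hc hC₀ hC₁
  set D : ℝ := (1 + 2 * C₀) / c with hD
  have hD0 : 0 < D := by positivity
  have hlog2 : 0 < Real.log 2 := Real.log_pos (by norm_num)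
  set A : ℝ := (5 + C₁ + 3 * D) / Real.log 2 with hA
  have hA0 : 0 < A := by positivity
  obtain ⟨k₁, hk₁⟩ := eventually_log_le (C₁ + 4) (c / 2) (by positivity)
  refine ⟨A, hA0, max k₁ 8, ?_⟩
  intro k hk G _ _ m hmk hcard T hT1 hT2 i hi him
  classical
  have hk8 : 8 ≤ k := (le_max_right _ _).trans hk
  have hk8' : (8 : ℝ) ≤ k := by exact_mod_cast hk8
  have hkpos : (0 : ℝ) < k := by linarith
  have hkk := hk₁ k ((le_max_left _ _).trans hk)
  set x : ℝ := Real.log k with hx
  have hx1 : 2 ≤ x := by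
    have : Real.log 8 ≤ x := Real.log_le_log (by norm_num) hk8'
    have h8 : Real.log 8 = 3 * Real.log 2 := by
      rw [show (8 : ℝ) = 2 ^ 3 by norm_num, Real.log_pow]; norm_num
    have := Real.log_two_gt_d9
    linarith
  have hrp : ∀ a : ℝ, (k : ℝ) ^ a = Real.exp (a * x) := by
    intro a
    rw [Real.rpow_def_of_pos hkpos, mul_comm]
  rw [hrp] at hT1 hT2
  rw [hrp]
  have hT0 : 0 < T := (Real.exp_pos _).trans_le hT1
  -- the number of steps
  set l : ℕ := ⌈D * x⌉₊ with hl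
  have hl1 : D * x ≤ l := Nat.le_ceil _
  have hl2 : (l : ℝ) < D * x + 1 := Nat.ceil_lt_add_one (by positivity)
  -- bounds for i
  have hik : ((i : ℝ) + 1) * (i + 2) * 4 ≤ Real.exp (4 * x) := by
    have h1 : (i : ℝ) ≤ k := by exact_mod_cast him.trans hmk
    have h2 : Real.exp (4 * x) = (k : ℝ) ^ 4 := by
      rw [show (4 : ℝ) * x = ((4 : ℕ) : ℝ) * x by norm_num, Real.exp_nat_mul, hx,
        Real.exp_log hkpos]
    rw [h2]
    have h3 : ((i : ℝ) + 1) * (i + 2) ≤ (k + 1) * (k + 2) := by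
      exact mul_le_mul (by linarith) (by linarith) (by positivity) (by positivity)
    nlinarith [mul_nonneg hkpos.le hkpos.le, mul_nonneg (mul_nonneg hkpos.le hkpos.le) hkpos.le,
      mul_nonneg (mul_nonneg (mul_nonneg hkpos.le hkpos.le) hkpos.le) (by linarith : (0:ℝ) ≤ k - 8)]
  set q : ℝ := ((i : ℝ) + 1) * (i + 2) with hq
  have hq0 : 0 < q := by positivity
  set K : ℝ := (2 : ℝ) ^ i * T / q with hK
  set t : ℝ := (1 / 2 : ℝ) ^ (i + 1) with ht
  have ht0 : 0 < t := by positivity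
  have hKt : K / 2 * t = T / (4 * q) := by
    rw [hK, ht, pow_succ]
    have : (2 : ℝ) ^ i * (1 / 2) ^ i = 1 := by rw [← mul_pow]; norm_num
    field_simp
    nlinarith
  -- 8 ^ l ≤ K
  have h8l : (8 : ℝ) ^ l ≤ K := by
    have h1 : (8 : ℝ) ^ l ≤ Real.exp (3 * D * x + 3) := by
      have h2 : (8 : ℝ) ≤ Real.exp 3 := by
        have := Real.exp_one_gt_d9
        have h3 : Real.exp 3 = Real.exp 1 ^ 3 := by rw [← Real.exp_nat_mul]; norm_num
        rw [h3]
        calc (8 : ℝ) = 2 ^ 3 := by norm_num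
          _ ≤ _ := pow_le_pow_left₀ (by norm_num) (by linarith) 3
      calc (8 : ℝ) ^ l ≤ (Real.exp 3) ^ l := pow_le_pow_left₀ (by norm_num) h2 l
        _ = Real.exp (l * 3) := by rw [← Real.exp_nat_mul]
        _ ≤ _ := Real.exp_le_exp.2 (by nlinarith)
    have h2 : Real.exp ((5 + C₁ + 3 * D) * x) ≤ (2 : ℝ) ^ i := by
      have h3 : (2 : ℝ) ^ i = Real.exp (i * Real.log 2) := by
        rw [Real.exp_nat_mul, Real.exp_log (by norm_num)]
      rw [h3]
      apply Real.exp_le_exp.2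
      have h4 : A * x * Real.log 2 = (5 + C₁ + 3 * D) * x := by
        rw [hA]; field_simp
      rw [← h4]
      exact mul_le_mul_of_nonneg_right hi.le hlog2.le
    rw [hK, le_div_iff₀ hq0]
    have h5 : q ≤ Real.exp (4 * x) / 4 := by linarith
    have h6 : Real.exp (3 : ℝ) ≤ 4 * Real.exp x := by
      have h7 : Real.exp 3 = Real.exp 1 * Real.exp 2 := by rw [← Real.exp_add]; norm_num
      have h8 : Real.exp 2 ≤ Real.exp x := Real.exp_le_exp.2 hx1
      have := Real.exp_one_lt_d9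
      rw [h7]
      have h9 : 0 < Real.exp 2 := Real.exp_pos _
      nlinarith
    calc (8 : ℝ) ^ l * q ≤ Real.exp (3 * D * x + 3) * (Real.exp (4 * x) / 4) :=
          mul_le_mul h1 h5 hq0.le (Real.exp_pos _).le
      _ = Real.exp 3 * (Real.exp (3 * D * x) * Real.exp (4 * x) / 4) := by
          rw [Real.exp_add]; ring
      _ ≤ (4 * Real.exp x) * (Real.exp (3 * D * x) * Real.exp (4 * x) / 4) :=
          mul_le_mul_of_nonneg_right h6 (by positivity)
      _ = Real.exp x * Real.exp (3 * D * x) * Real.exp (4 * x) := by ring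
      _ = Real.exp ((5 + C₁ + 3 * D) * x) * Real.exp (-C₁ * x) := by
          rw [← Real.exp_add, ← Real.exp_add, ← Real.exp_add]
          congr 1
          ring
      _ ≤ (2 : ℝ) ^ i * T := mul_le_mul h2 hT1 (Real.exp_pos _).le (by positivity)
  have hmain := stmtLarge G m l K t ht0 h8l
  set N : ℝ := ((univ.filter fun y : Fin m → G => K ≤ (Lam y t).card).card : ℝ) with hN
  set g : ℝ := (Fintype.card G : ℝ) with hg
  have hg0 : 0 < g := by rw [hg]; exact_mod_cast Fintype.card_pos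
  have hmain2 : N * (T / (4 * q)) ^ l ≤ g ^ m * (Real.exp (-c * k)) ^ l := by
    calc N * (T / (4 * q)) ^ l = N * ((K / 2) ^ l * t ^ l) := by rw [← mul_pow, hKt]
      _ ≤ g ^ l * (g * (3 / 4) ^ l) ^ m := hmain
      _ = g ^ m * (g * (3 / 4) ^ m) ^ l := by
          rw [mul_pow, mul_pow, ← pow_mul, ← pow_mul, mul_comm l m]; ring
      _ ≤ g ^ m * (Real.exp (-c * k)) ^ l := by
          apply mul_le_mul_of_nonneg_left _ (by positivity)
          exact pow_le_pow_left₀ (by positivity) hcard l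
  -- compare
  have h1 : Real.exp (-c * k) ≤ Real.exp (-(c / 2) * k) * (T / (4 * q)) := by
    have h2 : Real.exp (-(C₁ + 4) * x) ≤ T / (4 * q) := by
      rw [le_div_iff₀ (by positivity)]
      calc Real.exp (-(C₁ + 4) * x) * (4 * q) ≤ Real.exp (-(C₁ + 4) * x) * Real.exp (4 * x) := by
            apply mul_le_mul_of_nonneg_left _ (Real.exp_pos _).le
            linarith
        _ = Real.exp (-C₁ * x) := by rw [← Real.exp_add]; congr 1; ring
        _ ≤ T := hT1
    calc Real.exp (-c * k) ≤ Real.exp (-(c / 2) * k + -(C₁ + 4) * x) := by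
          apply Real.exp_le_exp.2
          linarith
      _ = Real.exp (-(c / 2) * k) * Real.exp (-(C₁ + 4) * x) := Real.exp_add _ _
      _ ≤ _ := mul_le_mul_of_nonneg_left h2 (Real.exp_pos _).le
  have h2 : N * (T / (4 * q)) ^ l ≤ g ^ m * Real.exp (-(c / 2) * k) ^ l * (T / (4 * q)) ^ l := by
    calc N * (T / (4 * q)) ^ l ≤ g ^ m * (Real.exp (-c * k)) ^ l := hmain2
      _ ≤ g ^ m * (Real.exp (-(c / 2) * k) * (T / (4 * q))) ^ l := by
          apply mul_le_mul_of_nonneg_left _ (by positivity)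
          exact pow_le_pow_left₀ (Real.exp_pos _).le h1 l
      _ = _ := by rw [mul_pow]; ring
  have h3 : N ≤ g ^ m * Real.exp (-(c / 2) * k) ^ l :=
    le_of_mul_le_mul_right h2 (by positivity)
  refine h3.trans ?_
  apply mul_le_mul_of_nonneg_left _ (by positivity)
  -- final comparison
  have h4 : Real.exp (-(1 / 2 + C₀) * x) ≤ Real.exp (-(1 / 2) * x) / max 1 T := by
    have h5 : max 1 T ≤ Real.exp (C₀ * x) := by
      apply max_le _ hT2
      exact Real.one_le_exp (by positivity)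
    have h6 : (0 : ℝ) < max 1 T := lt_of_lt_of_le one_pos (le_max_left _ _)
    rw [le_div_iff₀ h6]
    calc Real.exp (-(1 / 2 + C₀) * x) * max 1 T ≤ Real.exp (-(1 / 2 + C₀) * x) * Real.exp (C₀ * x) :=
          mul_le_mul_of_nonneg_left h5 (Real.exp_pos _).le
      _ = _ := by rw [← Real.exp_add]; congr 1; ring
  calc Real.exp (-(c / 2) * k) ^ l = Real.exp (l * (-(c / 2) * k)) := by rw [← Real.exp_nat_mul]
    _ ≤ Real.exp (m * (-(1 / 2 + C₀) * x)) := by
        apply Real.exp_le_exp.2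
        have h5 : (m : ℝ) ≤ k := by exact_mod_cast hmk
        have h6 : (m : ℝ) * ((1 / 2 + C₀) * x) ≤ k * ((1 / 2 + C₀) * x) :=
          mul_le_mul_of_nonneg_right h5 (by positivity)
        have h7 : (D * x) * (c / 2 * k) ≤ l * (c / 2 * k) :=
          mul_le_mul_of_nonneg_right hl1 (by positivity)
        have h8 : (D * x) * (c / 2 * k) = k * ((1 / 2 + C₀) * x) := by
          rw [hD]; field_simp
        linarith
    _ = Real.exp (-(1 / 2 + C₀) * x) ^ m := by rw [← Real.exp_nat_mul]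
    _ ≤ _ := pow_le_pow_left₀ (Real.exp_pos _).le h4 m

end Vale.Agent.P160.Half.Flat.Big
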