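import Vale.Agent.P160.Half.FlatSmM
import Vale.Agent.P160.Half.FlatBig
import Vale.Agent.P160.Half.CntAM

/-! # P160-HALF, COUNT for `cf M`, `4 ≤ M ≤ 8`: big levels and assembly (helper549). -/

open Finset

namespace Vale.Agent.P160.Half.Flat.CountM

open Vale.Agent.P160 Vale.Agent.P160.Half Vale.Agent.P160.Half.Flat
  Vale.Agent.P160.Half.Flat.SmM

theorem gP_eq {G : Type} [AddCommGroup G] [Fintype G] {m : ℕ} (M : ℕ) (y : Fin m → G)
    (ψ : AddChar G ℂ) : gP M y ψ = CntM.PPi (1 / M) y ψ := by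
  unfold gP CntM.PPi
  refine prod_congr rfl fun e _ => ?_
  unfold cf CntM.hh
  ring

/-- many tiny characters, law `M` -/
theorem largeM {M : ℕ} (hM : 4 ≤ M) (G : Type) [AddCommGroup G] [Fintype G] (m l : ℕ) (K t : ℝ)
    (ht : 0 < t) (hK : (8 : ℝ) ^ l ≤ K) (hl : 1 ≤ l) :
    ((univ.filter fun y : Fin m → G => K ≤ (LamM M y t).card).card : ℝ) * ((K / 2) ^ l * t ^ l) ≤
      (Fintype.card G : ℝ) ^ l * (Fintype.card G * (1 - 2 / M) ^ l) ^ m := by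
  classical
  have hM' : (4 : ℝ) ≤ M := by exact_mod_cast hM
  have hb0 : (0 : ℝ) ≤ 1 / M := by positivity
  have hb4 : (1 : ℝ) / M ≤ 1 / 4 := one_div_le_one_div_of_le (by norm_num) hM'
  have hK0 : 0 < K := lt_of_lt_of_le (by positivity) hK
  have hK2 : 2 * 3 ^ l ≤ ⌈K⌉₊ := by
    have h1 : ((2 * 3 ^ l : ℕ) : ℝ) ≤ (⌈K⌉₊ : ℝ) := by
      push_cast
      refine le_trans ?_ (hK.trans (Nat.le_ceil K))
      obtain ⟨q, rfl⟩ := Nat.exists_eq_add_of_le hl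
      rw [pow_add, pow_add]
      have : (3 : ℝ) ^ q ≤ 8 ^ q := pow_le_pow_left₀ (by norm_num) (by norm_num) q
      have h3 : (0 : ℝ) < 3 ^ q := by positivity
      linarith
    exact_mod_cast h1
  have h := CntM.card_tiny (G := G) (ι := Fin m) hb0 hb4 ht hK2
  rw [Fintype.card_fin] at h
  have hset : (univ.filter fun y : Fin m → G => K ≤ (LamM M y t).card) =
      (univ.filter fun y : Fin m → G => ⌈K⌉₊ ≤ (CntM.Lam (1 / M) y t).card) := by
    ext y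
    simp only [mem_filter, mem_univ, true_and]
    rw [Nat.ceil_le]
    have : LamM M y t = CntM.Lam (1 / M) y t := by
      ext ψ
      unfold LamM CntM.Lam
      simp only [mem_filter, mem_univ, true_and, gP_eq, AddChar.one_eq_zero]
    rw [this]
  have hb : 1 - 2 / (M : ℝ) = 1 - 2 * (1 / M) := by ring
  rw [hset, hb]
  refine le_trans ?_ h
  apply mul_le_mul_of_nonneg_left _ (Nat.cast_nonneg _)
  rw [← mul_pow]
  apply pow_le_pow_left₀ (by positivity)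
  have := Nat.le_ceil K
  have h4 : K / 2 * t = K * t / 2 := by ring
  rw [h4]
  gcongr

/-- the number of steps is admissible -/
theorem num8 {A C₁ D x T q K : ℝ} {i l : ℕ} (hD0 : 0 < D) (hx1 : 2 ≤ x)
    (hA : A = (5 + C₁ + 3 * D) / Real.log 2) (hi : A * x < (i : ℝ))
    (hl2 : (l : ℝ) < D * x + 1) (hq0 : 0 < q) (hik : q * 4 ≤ Real.exp (4 * x))
    (hT1 : Real.exp (-C₁ * x) ≤ T) (hK : K = (2 : ℝ) ^ i * T / q) :
    (8 : ℝ) ^ l ≤ K := by
  have hlog2 : 0 < Real.log 2 := Real.log_pos (by norm_num)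
  have h1 : (8 : ℝ) ^ l ≤ Real.exp (3 * D * x + 3) := by
    have h2 : (8 : ℝ) ≤ Real.exp 3 := by
      have := Real.exp_one_gt_d9
      have h3 : Real.exp 3 = Real.exp 1 ^ 3 := by rw [← Real.exp_nat_mul]; norm_num
      rw [h3]
      calc (8 : ℝ) = 2 ^ 3 := by norm_num
        _ ≤ _ := pow_le_pow_left₀ (by norm_num) (by linarith) 3
    calc (8 : ℝ) ^ l ≤ (Real.exp 3) ^ l := pow_le_pow_left₀ (by norm_num) h2 l
      _ = Real.exp (l * 3) := by rw [← Real.exp_nat_mul]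
      _ ≤ _ := Real.exp_le_exp.2 (by linarith)
  have h2 : Real.exp ((5 + C₁ + 3 * D) * x) ≤ (2 : ℝ) ^ i := by
    have h3 : (2 : ℝ) ^ i = Real.exp (i * Real.log 2) := by
      rw [Real.exp_nat_mul, Real.exp_log (by norm_num)]
    rw [h3]
    apply Real.exp_le_exp.2
    have h4 : A * x * Real.log 2 = (5 + C₁ + 3 * D) * x := by
      rw [hA]; field_simp
    rw [← h4]
    exact mul_le_mul_of_nonneg_right hi.le hlog2.le
  rw [hK, le_div_iff₀ hq0]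
  have h5 : q ≤ Real.exp (4 * x) / 4 := by linarith
  have h6 : Real.exp (3 : ℝ) ≤ 4 * Real.exp x := by
    have h7 : Real.exp 3 = Real.exp 1 * Real.exp 2 := by rw [← Real.exp_add]; norm_num
    have h8 : Real.exp 2 ≤ Real.exp x := Real.exp_le_exp.2 hx1
    have := Real.exp_one_lt_d9
    rw [h7]
    have h9 : 0 < Real.exp 2 := Real.exp_pos _
    nlinarith
  calc (8 : ℝ) ^ l * q ≤ Real.exp (3 * D * x + 3) * (Real.exp (4 * x) / 4) :=
        mul_le_mul h1 h5 hq0.le (Real.exp_pos _).le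
    _ = Real.exp 3 * (Real.exp (3 * D * x) * Real.exp (4 * x) / 4) := by
        rw [Real.exp_add]; ring
    _ ≤ (4 * Real.exp x) * (Real.exp (3 * D * x) * Real.exp (4 * x) / 4) :=
        mul_le_mul_of_nonneg_right h6 (by positivity)
    _ = Real.exp x * Real.exp (3 * D * x) * Real.exp (4 * x) := by ring
    _ = Real.exp ((5 + C₁ + 3 * D) * x) * Real.exp (-C₁ * x) := by
        rw [← Real.exp_add, ← Real.exp_add, ← Real.exp_add]
        congr 1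
        ring
    _ ≤ (2 : ℝ) ^ i * T := mul_le_mul h2 hT1 (Real.exp_pos _).le (by positivity)

/-- the final comparison -/
theorem numEnd {N g q c C₀ C₁ D x T κ : ℝ} {l m : ℕ} (hg0 : 0 < g) (hq0 : 0 < q) (hc : 0 < c)
    (hκ : 0 < κ) (hC₀ : 0 < C₀) (hx0 : 0 < x) (hD : D = (1 + 2 * C₀) / c)
    (hmain2 : N * (T / (4 * q)) ^ l ≤ g ^ m * (Real.exp (-c * κ)) ^ l)
    (hkk : (C₁ + 4) * x ≤ c / 2 * κ) (hik : q * 4 ≤ Real.exp (4 * x))
    (hl1 : D * x ≤ l) (hmκ : (m : ℝ) ≤ κ) (hT1 : Real.exp (-C₁ * x) ≤ T)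
    (hT2 : T ≤ Real.exp (C₀ * x)) :
    N ≤ g ^ m * (Real.exp (-(1 / 2) * x) / max 1 T) ^ m := by
  have hT0 : 0 < T := (Real.exp_pos _).trans_le hT1
  have h1 : Real.exp (-c * κ) ≤ Real.exp (-(c / 2) * κ) * (T / (4 * q)) := by
    have h2 : Real.exp (-(C₁ + 4) * x) ≤ T / (4 * q) := by
      rw [le_div_iff₀ (by positivity)]
      calc Real.exp (-(C₁ + 4) * x) * (4 * q) ≤ Real.exp (-(C₁ + 4) * x) * Real.exp (4 * x) := by
            apply mul_le_mul_of_nonneg_left _ (Real.exp_pos _).le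
            linarith
        _ = Real.exp (-C₁ * x) := by rw [← Real.exp_add]; congr 1; ring
        _ ≤ T := hT1
    calc Real.exp (-c * κ) ≤ Real.exp (-(c / 2) * κ + -(C₁ + 4) * x) := by
          apply Real.exp_le_exp.2
          linarith
      _ = Real.exp (-(c / 2) * κ) * Real.exp (-(C₁ + 4) * x) := Real.exp_add _ _
      _ ≤ _ := mul_le_mul_of_nonneg_left h2 (Real.exp_pos _).le
  have h2 : N * (T / (4 * q)) ^ l ≤ g ^ m * Real.exp (-(c / 2) * κ) ^ l * (T / (4 * q)) ^ l := by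
    calc N * (T / (4 * q)) ^ l ≤ g ^ m * (Real.exp (-c * κ)) ^ l := hmain2
      _ ≤ g ^ m * (Real.exp (-(c / 2) * κ) * (T / (4 * q))) ^ l := by
          apply mul_le_mul_of_nonneg_left _ (by positivity)
          exact pow_le_pow_left₀ (Real.exp_pos _).le h1 l
      _ = _ := by rw [mul_pow]; ring
  have h3 : N ≤ g ^ m * Real.exp (-(c / 2) * κ) ^ l :=
    le_of_mul_le_mul_right h2 (by positivity)
  refine h3.trans ?_
  apply mul_le_mul_of_nonneg_left _ (by positivity)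
  have h4 : Real.exp (-(1 / 2 + C₀) * x) ≤ Real.exp (-(1 / 2) * x) / max 1 T := by
    have h5 : max 1 T ≤ Real.exp (C₀ * x) := by
      apply max_le _ hT2
      exact Real.one_le_exp (by positivity)
    have h6 : (0 : ℝ) < max 1 T := lt_of_lt_of_le one_pos (le_max_left _ _)
    rw [le_div_iff₀ h6]
    calc Real.exp (-(1 / 2 + C₀) * x) * max 1 T
        ≤ Real.exp (-(1 / 2 + C₀) * x) * Real.exp (C₀ * x) :=
          mul_le_mul_of_nonneg_left h5 (Real.exp_pos _).le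
      _ = _ := by rw [← Real.exp_add]; congr 1; ring
  calc Real.exp (-(c / 2) * κ) ^ l = Real.exp (l * (-(c / 2) * κ)) := by rw [← Real.exp_nat_mul]
    _ ≤ Real.exp (m * (-(1 / 2 + C₀) * x)) := by
        apply Real.exp_le_exp.2
        have h6 : (m : ℝ) * ((1 / 2 + C₀) * x) ≤ κ * ((1 / 2 + C₀) * x) :=
          mul_le_mul_of_nonneg_right hmκ (by positivity)
        have h7 : (D * x) * (c / 2 * κ) ≤ l * (c / 2 * κ) :=
          mul_le_mul_of_nonneg_right hl1 (by positivity)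
        have h8 : (D * x) * (c / 2 * κ) = κ * ((1 / 2 + C₀) * x) := by
          rw [hD]; field_simp
        linarith
    _ = Real.exp (-(1 / 2 + C₀) * x) ^ m := by rw [← Real.exp_nat_mul]
    _ ≤ _ := pow_le_pow_left₀ (Real.exp_pos _).le h4 m

open scoped Classical in
/-- big levels -/
theorem bigM {M : ℕ} (hM : 4 ≤ M) :
  ∀ c C₀ C₁ : ℝ, 0 < c → 0 < C₀ → 0 < C₁ → ∃ A : ℝ, 0 < A ∧ ∃ k₀ : ℕ, ∀ k : ℕ, k₀ ≤ k →
    ∀ (G : Type) [AddCommGroup G] [Fintype G] (m : ℕ), m ≤ k →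
    (Fintype.card G : ℝ) * (1 - 2 / M) ^ m ≤ Real.exp (-c * k) →
    ∀ T : ℝ, (k : ℝ) ^ (-C₁) ≤ T → T ≤ (k : ℝ) ^ C₀ → ∀ i : ℕ, A * Real.log k < (i : ℝ) →
    i ≤ 2 * k →
    ((univ.filter fun y : Fin m → G =>
        (2 : ℝ) ^ i * T / ((i + 1) * (i + 2)) ≤ (LamM M y ((1 / 2) ^ (i + 1))).card).card : ℝ) ≤
      (Fintype.card G : ℝ) ^ m * ((k : ℝ) ^ (-(1 / 2 : ℝ)) / max 1 T) ^ m := by
  intro c C₀ C₁ hc hC₀ hC₁
  obtain ⟨D, hD⟩ : ∃ D : ℝ, D = (1 + 2 * C₀) / c := ⟨_, rfl⟩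
  have hD0 : 0 < D := by rw [hD]; positivity
  have hlog2 : 0 < Real.log 2 := Real.log_pos (by norm_num)
  obtain ⟨A, hA⟩ : ∃ A : ℝ, A = (5 + C₁ + 3 * D) / Real.log 2 := ⟨_, rfl⟩
  have hA0 : 0 < A := by rw [hA]; positivity
  obtain ⟨k₁, hk₁⟩ := Big.eventually_log_le (C₁ + 4) (c / 2) (by positivity)
  refine ⟨A, hA0, max k₁ 8, ?_⟩
  intro k hk G _ _ m hmk hcard T hT1 hT2 i hi him
  have hk8 : 8 ≤ k := (le_max_right _ _).trans hk
  have hk8' : (8 : ℝ) ≤ k := by exact_mod_cast hk8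
  have hkpos : (0 : ℝ) < k := by linarith
  have hkk := hk₁ k ((le_max_left _ _).trans hk)
  obtain ⟨x, hx⟩ : ∃ x : ℝ, x = Real.log k := ⟨_, rfl⟩
  rw [← hx] at hkk hi
  have hx1 : 2 ≤ x := by
    have : Real.log 8 ≤ x := by rw [hx]; exact Real.log_le_log (by norm_num) hk8'
    have h8 : Real.log 8 = 3 * Real.log 2 := by
      rw [show (8 : ℝ) = 2 ^ 3 by norm_num, Real.log_pow]; norm_num
    have := Real.log_two_gt_d9
    linarith
  have hrp : ∀ a : ℝ, (k : ℝ) ^ a = Real.exp (a * x) := by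
    intro a
    rw [Real.rpow_def_of_pos hkpos, mul_comm, hx]
  rw [hrp] at hT1 hT2
  rw [hrp]
  have hT0 : 0 < T := (Real.exp_pos _).trans_le hT1
  obtain ⟨l, hl⟩ : ∃ l : ℕ, l = ⌈D * x⌉₊ := ⟨_, rfl⟩
  have hl1 : D * x ≤ l := by rw [hl]; exact Nat.le_ceil _
  have hl2 : (l : ℝ) < D * x + 1 := by rw [hl]; exact Nat.ceil_lt_add_one (by positivity)
  have hl3 : 1 ≤ l := by
    have h1 : (0 : ℝ) < l := lt_of_lt_of_le (by positivity) hl1
    have h2 : 0 < l := by exact_mod_cast h1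
    exact h2
  have hik : ((i : ℝ) + 1) * (i + 2) * 4 ≤ Real.exp (4 * x) := by
    have h1 : (i : ℝ) ≤ 2 * k := by exact_mod_cast him
    have h2 : Real.exp (4 * x) = (k : ℝ) ^ 4 := by
      rw [show (4 : ℝ) * x = ((4 : ℕ) : ℝ) * x by norm_num, Real.exp_nat_mul, hx,
        Real.exp_log hkpos]
    rw [h2]
    have h3 : ((i : ℝ) + 1) * (i + 2) ≤ (2 * k + 1) * (2 * k + 2) := by
      exact mul_le_mul (by linarith) (by linarith) (by positivity) (by positivity)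
    have h5 : (64 : ℝ) ≤ k ^ 2 := by nlinarith
    have h6 : ((2 : ℝ) * k + 1) * (2 * k + 2) ≤ 6 * k ^ 2 := by nlinarith
    have h7 : (64 : ℝ) * k ^ 2 ≤ k ^ 2 * k ^ 2 := mul_le_mul_of_nonneg_right h5 (sq_nonneg _)
    have h8 : (k : ℝ) ^ 4 = k ^ 2 * k ^ 2 := by ring
    have h9 : (0 : ℝ) ≤ (k : ℝ) ^ 2 := sq_nonneg _
    linarith
  obtain ⟨q, hq⟩ : ∃ q : ℝ, q = ((i : ℝ) + 1) * (i + 2) := ⟨_, rfl⟩
  rw [← hq] at hik ⊢
  have hq0 : 0 < q := by rw [hq]; positivity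
  obtain ⟨K, hK⟩ : ∃ K : ℝ, K = (2 : ℝ) ^ i * T / q := ⟨_, rfl⟩
  obtain ⟨t, ht⟩ : ∃ t : ℝ, t = (1 / 2 : ℝ) ^ (i + 1) := ⟨_, rfl⟩
  rw [← hK, ← ht]
  have ht0 : 0 < t := by rw [ht]; positivity
  have hKt : K / 2 * t = T / (4 * q) := by
    have h1 : (2 : ℝ) ^ i * (1 / 2) ^ i = 1 := by rw [← mul_pow]; norm_num
    have h2 : K / 2 * t = ((2 : ℝ) ^ i * (1 / 2) ^ i) * (T / (4 * q)) := by
      rw [hK, ht, pow_succ]; field_simp; ring
    rw [h2, h1, one_mul]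
  have h8l : (8 : ℝ) ^ l ≤ K := num8 hD0 hx1 hA hi hl2 hq0 hik hT1 hK
  have hmain := largeM hM G m l K t ht0 h8l hl3
  have hg0 : (0 : ℝ) < (Fintype.card G : ℝ) := by exact_mod_cast Fintype.card_pos
  have hM' : (4 : ℝ) ≤ M := by exact_mod_cast hM
  have hbr : (0 : ℝ) ≤ 1 - 2 / M := by
    have : (2 : ℝ) / M ≤ 1 := by rw [div_le_one (by linarith)]; linarith
    linarith
  refine numEnd hg0 hq0 hc hkpos hC₀ (by linarith) hD ?_ hkk hik hl1 (by exact_mod_cast hmk)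
    hT1 hT2
  generalize ((univ.filter fun y : Fin m → G => K ≤ (LamM M y t).card).card : ℝ) = N at hmain ⊢
  generalize (Fintype.card G : ℝ) = g at hmain hcard hg0 ⊢
  calc N * (T / (4 * q)) ^ l = N * ((K / 2) ^ l * t ^ l) := by rw [← mul_pow, hKt]
    _ ≤ g ^ l * (g * (1 - 2 / M) ^ l) ^ m := hmain
    _ = g ^ m * (g * (1 - 2 / M) ^ m) ^ l := by
        rw [mul_pow, mul_pow, ← pow_mul, ← pow_mul, mul_comm l m]; ring
    _ ≤ g ^ m * (Real.exp (-c * k)) ^ l := by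
        apply mul_le_mul_of_nonneg_left _ (by positivity)
        exact pow_le_pow_left₀ (by positivity) hcard l

open scoped Classical in
/-- COUNT for the law `M`, thresholds `k^(-C₁) ≤ T ≤ k^C₀` and `δ ≤ 1`. -/
def StmtCountGM (M : ℕ) : Prop :=
  ∀ δ c C₀ C₁ : ℝ, 0 < δ → δ ≤ 1 → 0 < c → 0 < C₀ → 0 < C₁ → ∃ k₀ : ℕ, ∀ k : ℕ, k₀ ≤ k →
    ∀ (G : Type) [AddCommGroup G] [Fintype G] (m : ℕ), m ≤ k → (k : ℝ) ≤ 2 * m →
    (∀ p : ℕ, p.Prime → p ∣ Fintype.card G → k ≤ p) →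
    (Fintype.card G : ℝ) * (1 - 2 / M) ^ m ≤ Real.exp (-c * k) →
    ∀ T : ℝ, (k : ℝ) ^ (-C₁) ≤ T → T ≤ (k : ℝ) ^ C₀ →
    ((univ.filter fun y : Fin m → G =>
      NonSp ((k : ℝ) ^ (1 - δ / 4)) y ∧ 1 + T ≤ gZ M y).card : ℝ) ≤
      (Fintype.card G : ℝ) ^ m * ((k : ℝ) ^ (-(1 / 2) + δ) / max 1 T) ^ m

/-- number of levels -/
theorem levels (C₁ : ℝ) (hC₁ : 0 < C₁) : ∃ k₀ : ℕ, ∀ k : ℕ, k₀ ≤ k → ∀ g T : ℝ, 0 < T →
    (k : ℝ) ^ (-C₁) ≤ T → g ≤ 2 ^ k → ∀ i : ℕ, (2 : ℝ) ^ i ≤ 4 * g / T → i ≤ 2 * k := by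
  obtain ⟨k₁, hk₁⟩ := Big.eventually_log_le (C₁ + 2) (1 / 2) (by norm_num)
  refine ⟨max k₁ 2, fun k hk g T hT0 hT hg i hi => ?_⟩
  have hk2 : 2 ≤ k := (le_max_right _ _).trans hk
  have hk2' : (2 : ℝ) ≤ k := by exact_mod_cast hk2
  have hkpos : (0 : ℝ) < k := by linarith
  have hkk := hk₁ k ((le_max_left _ _).trans hk)
  have h1 : 4 * g / T ≤ 2 ^ (2 * k) := by
    rw [div_le_iff₀ hT0]
    have h2 : (4 : ℝ) ≤ 2 ^ k * T := by
      have h3 : (4 : ℝ) ≤ (k : ℝ) ^ (2 : ℝ) := by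
        rw [show (2 : ℝ) = ((2 : ℕ) : ℝ) by norm_num, Real.rpow_natCast]
        nlinarith
      have h4 : (k : ℝ) ^ (C₁ + 2) ≤ 2 ^ k := by
        have h5 : (2 : ℝ) ^ k = Real.exp (k * Real.log 2) := by
          rw [Real.exp_nat_mul, Real.exp_log (by norm_num)]
        rw [h5, Real.rpow_def_of_pos hkpos]
        apply Real.exp_le_exp.2
        have := Real.log_two_gt_d9
        nlinarith
      calc (4 : ℝ) ≤ (k : ℝ) ^ (2 : ℝ) := h3
        _ = (k : ℝ) ^ (C₁ + 2) * (k : ℝ) ^ (-C₁) := by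
            rw [← Real.rpow_add hkpos]; congr 1; ring
        _ ≤ 2 ^ k * T := mul_le_mul h4 hT (Real.rpow_nonneg hkpos.le _) (by positivity)
    calc 4 * g ≤ (2 ^ k * T) * 2 ^ k := by
          have h6 : (0 : ℝ) < 2 ^ k := by positivity
          nlinarith
      _ = 2 ^ (2 * k) * T := by rw [two_mul, pow_add]; ring
  have h2 := hi.trans h1
  exact (pow_le_pow_iff_right₀ (by norm_num : (1 : ℝ) < 2)).1 h2

theorem countGM (hs : StmtSplit) {M : ℕ} (hM4 : 4 ≤ M) (hM8 : M ≤ 8) : StmtCountGM M := by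
  intro δ c C₀ C₁ hδ hδ1 hc hC₀ hC₁
  obtain ⟨A, hA, k₁, hk₁⟩ := bigM hM4 c C₀ (C₁ + 1) hc hC₀ (by linarith)
  obtain ⟨k₂, hk₂⟩ := stmtSmallM hs hM4 hM8 δ A C₀ hδ hδ1 hA hC₀
  obtain ⟨k₃, hk₃⟩ := levels C₁ hC₁
  refine ⟨max (max k₁ k₂) (max (max 2 k₃) (max ⌈32 / δ⌉₊ ⌈(2 : ℝ) ^ (8 / δ)⌉₊)), ?_⟩
  intro k hk G _ _ m hmk hkm hp hcard T hT1 hT2
  classical
  have hkk1 : k₁ ≤ k := ((le_max_left _ _).trans (le_max_left _ _)).trans hk
  have hkk2 : k₂ ≤ k := ((le_max_right _ _).trans (le_max_left _ _)).trans hk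
  have hk2 : 2 ≤ k :=
    (((le_max_left _ _).trans (le_max_left _ _)).trans (le_max_right _ _)).trans hk
  have hkk3 : k₃ ≤ k :=
    (((le_max_right _ _).trans (le_max_left _ _)).trans (le_max_right _ _)).trans hk
  have hkδ' : ⌈32 / δ⌉₊ ≤ k :=
    (((le_max_left _ _).trans (le_max_right _ _)).trans (le_max_right _ _)).trans hk
  have hk8' : ⌈(2 : ℝ) ^ (8 / δ)⌉₊ ≤ k :=
    (((le_max_right _ _).trans (le_max_right _ _)).trans (le_max_right _ _)).trans hk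
  have hkδ : 32 / δ ≤ k := (Nat.le_ceil _).trans (by exact_mod_cast hkδ')
  have hk8 : (2 : ℝ) ^ (8 / δ) ≤ k := (Nat.le_ceil _).trans (by exact_mod_cast hk8')
  have hk2' : (2 : ℝ) ≤ k := by exact_mod_cast hk2
  have hkpos : (0 : ℝ) < k := by linarith
  have hk1 : (1 : ℝ) ≤ k := by linarith
  have hT0 : 0 < T := (Real.rpow_pos_of_pos hkpos _).trans_le hT1
  have hM' : (4 : ℝ) ≤ M := by exact_mod_cast hM4
  have hbr : (1 / 2 : ℝ) ≤ 1 - 2 / M := by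
    have : (2 : ℝ) / M ≤ 1 / 2 := by rw [div_le_iff₀ (by linarith)]; linarith
    linarith
  obtain ⟨g, hg⟩ : ∃ g : ℝ, g = (Fintype.card G : ℝ) := ⟨_, rfl⟩
  have hg0 : 0 < g := by rw [hg]; exact_mod_cast Fintype.card_pos
  have hg2 : g ≤ 2 ^ k := by
    have h1 : g * (1 - 2 / M) ^ m ≤ 1 := by
      rw [hg]
      refine hcard.trans ?_
      apply Real.exp_le_one_iff.2
      nlinarith
    have h2 : (1 / 2 : ℝ) ^ m ≤ (1 - 2 / M) ^ m := pow_le_pow_left₀ (by norm_num) hbr m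
    have h3 : g * (1 / 2) ^ m ≤ 1 := (mul_le_mul_of_nonneg_left h2 hg0.le).trans h1
    have h4 : (1 / 2 : ℝ) ^ m * 2 ^ m = 1 := by rw [← mul_pow]; norm_num
    calc g = g * (1 / 2) ^ m * 2 ^ m := by rw [mul_assoc, h4, mul_one]
      _ ≤ 1 * 2 ^ m := mul_le_mul_of_nonneg_right h3 (by positivity)
      _ = 2 ^ m := one_mul _
      _ ≤ 2 ^ k := pow_le_pow_right₀ (by norm_num) hmk
  have hT1' : (k : ℝ) ^ (-(C₁ + 1)) ≤ T / 2 := by
    have h1 : (k : ℝ) ^ (-(C₁ + 1)) = (k : ℝ) ^ (-C₁) * (k : ℝ) ^ (-1 : ℝ) := by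
      rw [← Real.rpow_add hkpos]; congr 1; ring
    rw [h1, Real.rpow_neg_one]
    have h2 : ((k : ℝ))⁻¹ ≤ 1 / 2 := by rw [one_div]; exact inv_anti₀ (by norm_num) hk2'
    have h3 : 0 < (k : ℝ) ^ (-C₁) := Real.rpow_pos_of_pos hkpos _
    nlinarith
  have hT2' : T / 2 ≤ (k : ℝ) ^ C₀ := by linarith
  obtain ⟨B, hB⟩ : ∃ B : ℝ,
      B = g ^ m * ((k : ℝ) ^ (-(1 / 2) + 3 * δ / 4) / max 1 (T / 2)) ^ m := ⟨_, rfl⟩
  have hmax : (0 : ℝ) < max 1 T := lt_of_lt_of_le one_pos (le_max_left _ _)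
  have hmax2 : (0 : ℝ) < max 1 (T / 2) := lt_of_lt_of_le one_pos (le_max_left _ _)
  obtain ⟨F, hF⟩ : ∃ F : ℕ → Finset (Fin m → G), F = fun i : ℕ => univ.filter fun y : Fin m → G =>
      NonSp ((k : ℝ) ^ (1 - δ / 4)) y ∧
        (2 : ℝ) ^ i * (T / 2) / ((i + 1) * (i + 2)) ≤ (LamM M y ((1 / 2) ^ (i + 1))).card :=
    ⟨_, rfl⟩
  have hFi : ∀ i ∈ range (2 * k + 1), ((F i).card : ℝ) ≤ B := by
    intro i hi
    have him : i ≤ 2 * k := by rw [mem_range] at hi; omega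
    by_cases hiA : (i : ℝ) ≤ A * Real.log k
    · rw [hF, hB, hg]
      exact hk₂ k hkk2 G m hmk hkm hp (hg ▸ hg2) (T / 2) (by linarith) hT2' i hiA
    · have h1 := hk₁ k hkk1 G m hmk hcard (T / 2) hT1' hT2' i (not_le.1 hiA) him
      have h2 : ((F i).card : ℝ) ≤ ((univ.filter fun y : Fin m → G =>
          (2 : ℝ) ^ i * (T / 2) / ((i + 1) * (i + 2)) ≤
            (LamM M y ((1 / 2) ^ (i + 1))).card).card : ℝ) := by
        have : F i ⊆ univ.filter fun y : Fin m → G =>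
          (2 : ℝ) ^ i * (T / 2) / ((i + 1) * (i + 2)) ≤
            (LamM M y ((1 / 2) ^ (i + 1))).card := by
          intro y hy
          rw [hF, mem_filter] at hy
          rw [mem_filter]
          exact ⟨mem_univ _, hy.2.2⟩
        exact_mod_cast card_le_card this
      refine h2.trans (h1.trans ?_)
      rw [hB, ← hg]
      apply mul_le_mul_of_nonneg_left _ (by positivity)
      apply pow_le_pow_left₀ (by positivity)
      apply div_le_div_of_nonneg_right _ hmax2.le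
      apply Real.rpow_le_rpow_of_exponent_le hk1
      linarith
  have hsub : (univ.filter fun y : Fin m → G =>
      NonSp ((k : ℝ) ^ (1 - δ / 4)) y ∧ 1 + T ≤ gZ M y) ⊆ (range (2 * k + 1)).biUnion F := by
    intro y hy
    rw [mem_filter] at hy
    obtain ⟨i, him, hi⟩ := stmtDyadicM hM4 G m y T hT0 hy.2.2
    have him2 := hk₃ k hkk3 _ T hT0 hT1 (hg ▸ hg2) i him
    rw [mem_biUnion]
    refine ⟨i, by rw [mem_range]; omega, ?_⟩
    rw [hF, mem_filter]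
    exact ⟨mem_univ _, hy.2.1, hi⟩
  have h1 : ((univ.filter fun y : Fin m → G =>
      NonSp ((k : ℝ) ^ (1 - δ / 4)) y ∧ 1 + T ≤ gZ M y).card : ℝ) ≤ (2 * k + 1) * B := by
    calc _ ≤ (((range (2 * k + 1)).biUnion F).card : ℝ) := by exact_mod_cast card_le_card hsub
      _ ≤ ∑ i ∈ range (2 * k + 1), ((F i).card : ℝ) := by exact_mod_cast card_biUnion_le
      _ ≤ ∑ i ∈ range (2 * k + 1), B := sum_le_sum hFi
      _ = (2 * k + 1) * B := by rw [sum_const, card_range, nsmul_eq_mul]; push_cast; ring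
  refine h1.trans ?_
  have hmm : (1 : ℝ) ≤ m := by
    have : (1 : ℝ) ≤ m := by linarith
    exact this
  have h2 : ((2 : ℝ) * k + 1) ≤ ((k : ℝ) ^ (δ / 8)) ^ m := by
    have h4 : ((k : ℝ) ^ (δ / 8)) ^ m = (k : ℝ) ^ (δ / 8 * m) := by
      rw [← Real.rpow_natCast, ← Real.rpow_mul hkpos.le]
    rw [h4]
    have h5 : (2 : ℝ) ≤ δ / 8 * m := by
      have h6 : 32 ≤ k * δ := by
        rw [div_le_iff₀ hδ] at hkδ; exact hkδ
      have h7 : (k : ℝ) * δ ≤ 2 * m * δ := mul_le_mul_of_nonneg_right hkm hδ.le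
      linarith
    have hk32 : (32 : ℝ) ≤ k := by
      refine le_trans ?_ hkδ
      rw [le_div_iff₀ hδ]
      linarith
    calc (2 : ℝ) * k + 1 ≤ k * k := by nlinarith
      _ = (k : ℝ) ^ (2 : ℝ) := by
          rw [show (2 : ℝ) = ((2 : ℕ) : ℝ) by norm_num, Real.rpow_natCast]; ring
      _ ≤ (k : ℝ) ^ (δ / 8 * m) := Real.rpow_le_rpow_of_exponent_le hk1 h5
  have h7 : (2 : ℝ) ≤ (k : ℝ) ^ (δ / 8) := by
    calc (2 : ℝ) = ((2 : ℝ) ^ (8 / δ)) ^ (δ / 8) := by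
          rw [← Real.rpow_mul (by norm_num)]
          have : 8 / δ * (δ / 8) = 1 := by field_simp
          rw [this, Real.rpow_one]
      _ ≤ (k : ℝ) ^ (δ / 8) := Real.rpow_le_rpow (by positivity) hk8 (by positivity)
  have h8 : (k : ℝ) ^ (-(1 / 2) + 3 * δ / 4) / max 1 (T / 2) ≤
      (k : ℝ) ^ (δ / 8) * ((k : ℝ) ^ (-(1 / 2) + 3 * δ / 4) / max 1 T) := by
    have h9 : max 1 T ≤ 2 * max 1 (T / 2) := by
      apply max_le
      · have := le_max_left 1 (T / 2); linarith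
      · have := le_max_right 1 (T / 2); linarith
    have h10 : 0 < (k : ℝ) ^ (-(1 / 2) + 3 * δ / 4) := Real.rpow_pos_of_pos hkpos _
    rw [mul_div_assoc', div_le_div_iff₀ hmax2 hmax]
    calc (k : ℝ) ^ (-(1 / 2) + 3 * δ / 4) * max 1 T
        ≤ (k : ℝ) ^ (-(1 / 2) + 3 * δ / 4) * (2 * max 1 (T / 2)) :=
          mul_le_mul_of_nonneg_left h9 h10.le
      _ = 2 * (k : ℝ) ^ (-(1 / 2) + 3 * δ / 4) * max 1 (T / 2) := by ring
      _ ≤ (k : ℝ) ^ (δ / 8) * (k : ℝ) ^ (-(1 / 2) + 3 * δ / 4) * max 1 (T / 2) := by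
          apply mul_le_mul_of_nonneg_right _ hmax2.le
          exact mul_le_mul_of_nonneg_right h7 h10.le
  have hBle : B ≤ g ^ m * (((k : ℝ) ^ (δ / 8)) ^ m *
      ((k : ℝ) ^ (-(1 / 2) + 3 * δ / 4) / max 1 T) ^ m) := by
    rw [hB, ← mul_pow ((k : ℝ) ^ (δ / 8))]
    apply mul_le_mul_of_nonneg_left _ (by positivity)
    exact pow_le_pow_left₀ (by positivity) h8 m
  have hB0 : 0 ≤ B := by rw [hB]; positivity
  calc ((2 : ℝ) * k + 1) * B ≤ ((k : ℝ) ^ (δ / 8)) ^ m * (g ^ m * (((k : ℝ) ^ (δ / 8)) ^ m *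
        ((k : ℝ) ^ (-(1 / 2) + 3 * δ / 4) / max 1 T) ^ m)) :=
        mul_le_mul h2 hBle hB0 (by positivity)
    _ = (Fintype.card G : ℝ) ^ m * ((k : ℝ) ^ (-(1 / 2) + δ) / max 1 T) ^ m := by
        have h3 : (k : ℝ) ^ (-(1 / 2) + δ) = (k : ℝ) ^ (δ / 8) * (k : ℝ) ^ (δ / 8) *
            (k : ℝ) ^ (-(1 / 2) + 3 * δ / 4) := by
          rw [← Real.rpow_add hkpos, ← Real.rpow_add hkpos]
          congr 1
          ring
        rw [h3, mul_div_assoc ((k : ℝ) ^ (δ / 8) * (k : ℝ) ^ (δ / 8)), mul_pow, mul_pow, ← hg]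
        ring

end Vale.Agent.P160.Half.Flat.CountM
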