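import Vale.Agent.P160.Half.M8Def

/-! # P160/Half: `even : KeyStmt → EvenStmt` (first moment of the bad kernel vectors, even size). -/

set_option linter.unusedSectionVars false

namespace Vale.Agent.P160.Half.M8

open Finset Vale.Agent.P160 Vale.Agent.P160.Half

section reindex

variable {α β α' β' : Type*} [Fintype α] [Fintype β] [Fintype α'] [Fintype β']

lemma bdot_comp {R : Type*} [CommRing R] (e : α ≃ α') (x : α' → Bool) (w : α' → R) :
    G.bdot (fun a => x (e a)) (fun a => w (e a)) = G.bdot x w := by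
  unfold G.bdot
  exact Fintype.sum_equiv e _ _ fun a => rfl

lemma atomLe_comp (e : α ≃ α') {N : ℕ} {K : ℝ} (w : α' → ZMod N) :
    AtomLe N K (fun a => w (e a)) ↔ AtomLe N K w := by
  have h : ∀ a : ZMod N, Nat.card {x : α → Bool // G.bdot x (fun a => w (e a)) = a} =
      Nat.card {x : α' → Bool // G.bdot x w = a} := by
    intro a
    refine Nat.card_congr ⟨fun x => ⟨fun b => x.1 (e.symm b), ?_⟩,
      fun x => ⟨fun b => x.1 (e b), ?_⟩, ?_, ?_⟩
    · have h1 := bdot_comp e (fun b => x.1 (e.symm b)) w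
      refine h1.symm.trans ?_
      simpa using x.2
    · exact (bdot_comp e x.1 w).trans x.2
    · intro x
      simp
    · intro x
      simp
  unfold AtomLe
  simp only [h, Fintype.card_congr e]

lemma unim_comp (e : α ≃ α') {N : ℕ} (w : α' → ZMod N) :
    Unim N (fun a => w (e a)) ↔ Unim N w := by
  unfold Unim
  constructor
  · intro h p hp hpN
    obtain ⟨i, hi⟩ := h p hp hpN
    exact ⟨e i, hi⟩
  · intro h p hp hpN
    obtain ⟨i, hi⟩ := h p hp hpN
    refine ⟨e.symm i, ?_⟩
    change (((w (e (e.symm i)))).cast : ZMod p) ≠ 0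
    rwa [e.apply_symm_apply]

lemma flatX_comp_of (e : α ≃ α') (f : β ≃ β') {N L M : ℕ} (ω : β' → α' → Fin M)
    (h : FlatX N L ω) : FlatX N L (fun b a => ω (f b) (e a)) := by
  intro q hq w hw hk
  have h1 := h q hq (fun a => w (e.symm a)) ((unim_comp e.symm w).2 hw) ?_
  · exact (atomLe_comp e.symm w).1 h1
  · intro i
    have h2 : gwL L (fun a => ω (f (f.symm i)) (e a)) w = 0 := hk (f.symm i)
    rw [f.apply_symm_apply] at h2
    rw [← gwL_comp e L (ω i) (fun a => w (e.symm a))]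
    simpa using h2

lemma flatX_comp (e : α ≃ α') (f : β ≃ β') {N L M : ℕ} (ω : β' → α' → Fin M) :
    FlatX N L (fun b a => ω (f b) (e a)) ↔ FlatX N L ω := by
  refine ⟨fun h => ?_, flatX_comp_of e f ω⟩
  have h1 := flatX_comp_of e.symm f.symm _ h
  simpa using h1

lemma kerN_comp (e : α ≃ α') (f : β ≃ β') {N L M : ℕ} (ω : β' → α' → Fin M) :
    kerN N L (fun b a => ω (f b) (e a)) = kerN N L ω := by
  unfold kerN
  refine Nat.card_congr ⟨fun x => ⟨fun a => x.1 (e.symm a), ?_⟩,
    fun x => ⟨fun a => x.1 (e a), ?_⟩, ?_, ?_⟩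
  · intro i
    have h : gwL L (fun a => ω (f (f.symm i)) (e a)) x.1 = 0 := x.2 (f.symm i)
    rw [f.apply_symm_apply] at h
    rw [← gwL_comp e L (ω i) (fun a => x.1 (e.symm a))]
    simpa using h
  · intro i
    change gwL L (fun a => ω (f i) (e a)) (fun a => x.1 (e a)) = 0
    rw [gwL_comp e L (ω (f i)) x.1]
    exact x.2 _
  · intro x; simp
  · intro x; simp

open Classical in
/-- the square of the kernel number on the non-flat event -/
noncomputable def badSq (N L : ℕ) {M : ℕ} (ω : β → α → Fin M) : ℝ :=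
  if ¬ (FlatX N L ω ∧ FlatX N L (fun i j => ω j i)) then (kerN N L ω : ℝ) ^ 2 else 0

lemma badSq_comp (e : α ≃ α') (f : β ≃ β') {N L M : ℕ} (ω : β' → α' → Fin M) :
    badSq N L (fun b a => ω (f b) (e a)) = badSq N L ω := by
  unfold badSq
  rw [kerN_comp e f, flatX_comp e f ω, flatX_comp f e (fun i j => ω j i)]

end reindex

lemma sum_badSq {α β : Type*} [Fintype α] [Fintype β] [DecidableEq α] [DecidableEq β] (k : ℕ)
    (hα : Fintype.card α = k) (hβ : Fintype.card β = k) (N L M : ℕ) :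
    ∑ ω : β → α → Fin M, badSq N L ω = ∑ ω : Fin k → Fin k → Fin M, badSq N L ω := by
  let e : α ≃ Fin k := Fintype.equivFinOfCardEq hα
  let f : β ≃ Fin k := Fintype.equivFinOfCardEq hβ
  symm
  refine Fintype.sum_equiv (Equiv.arrowCongr f.symm (Equiv.arrowCongr e.symm (Equiv.refl _))) _ _
    fun ω => ?_
  rw [← badSq_comp e f ω]
  rfl

lemma kerN_eq {α β : Type*} [Fintype α] [Fintype β] [DecidableEq α] (N L : ℕ) [NeZero N] {M : ℕ}
    (ω : β → α → Fin M) :
    kerN N L ω = (univ.filter fun x : α → ZMod N => ∀ i, gwL L (ω i) x = 0).card := by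
  classical
  unfold kerN
  rw [Nat.card_eq_fintype_card, Fintype.card_subtype]

open Classical in
/-- summed form of the balanced cuts, arbitrary right-hand sides -/
theorem sum_SprA_le_bal' {A ι : Type*} [AddCommGroup A] [Fintype A] [DecidableEq A] [Fintype ι]
    [DecidableEq ι] (k : ℕ) (hk : 0 < k) (hι : Fintype.card ι = 2 * k) (V : Finset (ι → A))
    (w : (ι → A) → ι → A) :
    ∑ v ∈ V, SprA v (w v) ≤ (∑ D : Cut ι k,
      (∑ ω : {i // i ∉ D.1} → {i // i ∈ D.1} → Fin (8 * k),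
        ((V.filter fun v => (∀ i, gwL (2 * k - 1) (ω i) (fun j : {i // i ∈ D.1} => v j) = 0) ∧
          ∀ j, gwL (2 * k - 1) (fun i => ω i j) (fun i : {i // i ∉ D.1} => v i) = 0).card : ℝ)) /
        ((8 * k : ℕ) : ℝ) ^ (k * k)) / Nat.centralBinom k := by
  have h1 : ∑ v ∈ V, SprA v (w v) ≤ ∑ v ∈ V, (∑ D : Cut ι k, BprL (2 * k - 1) (8 * k)
      (fun j : {i // i ∈ D.1} => v j) (fun i : {i // i ∉ D.1} => v i)) / Nat.centralBinom k :=
    sum_le_sum fun v _ => SprA_le_bal k hk hι v (w v)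
  refine h1.trans (le_of_eq ?_)
  rw [← sum_div, sum_comm]
  congr 1
  refine sum_congr rfl fun D _ => ?_
  unfold BprL
  rw [← sum_div]
  have hc1 : Fintype.card {i // i ∈ D.1} = k := by rw [Fintype.card_coe, D.2]
  have hc2 : Fintype.card {i // i ∉ D.1} = k := by
    rw [Fintype.card_subtype_compl, hι, hc1]; omega
  rw [hc1, hc2]
  congr 1
  have h3 : ∀ v : ι → A,
      ((univ.filter (fun ω : {i // i ∉ D.1} → {i // i ∈ D.1} → Fin (8 * k) =>
        (∀ i, gwL (2 * k - 1) (ω i) (fun j : {i // i ∈ D.1} => v j) = 0) ∧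
          ∀ j, gwL (2 * k - 1) (fun i => ω i j) (fun i : {i // i ∉ D.1} => v i) = 0)).card : ℝ) =
      ∑ ω : {i // i ∉ D.1} → {i // i ∈ D.1} → Fin (8 * k),
        if (∀ i, gwL (2 * k - 1) (ω i) (fun j : {i // i ∈ D.1} => v j) = 0) ∧
          (∀ j, gwL (2 * k - 1) (fun i => ω i j) (fun i : {i // i ∉ D.1} => v i) = 0)
        then (1 : ℝ) else 0 := by
    intro v
    rw [Finset.sum_boole]
  rw [sum_congr rfl fun v _ => h3 v, sum_comm]
  refine sum_congr rfl fun ω _ => ?_
  rw [Finset.sum_boole]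

theorem even (hkey : KeyStmt) : EvenStmt := by
  classical
  intro k N hk hN _ W hW ι _ _ hι w
  have hT : (0 : ℝ) < Nat.centralBinom k := by exact_mod_cast Nat.centralBinom_pos k
  have hM : (0 : ℝ) < ((8 * k : ℕ) : ℝ) ^ (k * k) := by
    have : (0 : ℝ) < ((8 * k : ℕ) : ℝ) := by exact_mod_cast (by omega : 0 < 8 * k)
    positivity
  have hW' : ∑ ω : Fin k → Fin k → Fin (8 * k), badSq N (2 * k - 1) ω ≤
      W * ((8 * k : ℕ) : ℝ) ^ (k * k) := by
    refine le_trans (le_of_eq ?_) hW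
    rw [sum_filter]
    refine sum_congr rfl fun ω _ => ?_
    unfold badSq
    congr 1
  set V := univ.filter (fun u : ι → ZMod N => Unim N u ∧ ¬ AtomLe N 4 u) with hV
  have hgoal := sum_SprA_le_bal' k hk hι V w
  have hD : ∀ D : Cut ι k, (∑ ω : {i // i ∉ D.1} → {i // i ∈ D.1} → Fin (8 * k),
        ((V.filter fun v =>
          (∀ i, gwL (2 * k - 1) (ω i) (fun j : {i // i ∈ D.1} => v j) = 0) ∧
          ∀ j, gwL (2 * k - 1) (fun i => ω i j) (fun i : {i // i ∉ D.1} => v i) = 0).card : ℝ)) /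
        ((8 * k : ℕ) : ℝ) ^ (k * k) ≤ W := by
    intro D
    rw [div_le_iff₀ hM]
    have hc1 : Fintype.card {i // i ∈ D.1} = k := by rw [Fintype.card_coe, D.2]
    have hc2 : Fintype.card {i // i ∉ D.1} = k := by
      rw [Fintype.card_subtype_compl, hι, hc1]; omega
    have h1 : ∀ ω : {i // i ∉ D.1} → {i // i ∈ D.1} → Fin (8 * k),
        ((V.filter fun v =>
          (∀ i, gwL (2 * k - 1) (ω i) (fun j : {i // i ∈ D.1} => v j) = 0) ∧
          ∀ j, gwL (2 * k - 1) (fun i => ω i j) (fun i : {i // i ∉ D.1} => v i) = 0).card : ℝ) ≤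
        (badSq N (2 * k - 1) ω + badSq N (2 * k - 1) (fun j i => ω i j)) / 2 := by
      intro ω
      by_cases hfl : FlatX N (2 * k - 1) ω ∧ FlatX N (2 * k - 1) (fun i j => ω j i)
      · have h0 : (V.filter fun v =>
          (∀ i, gwL (2 * k - 1) (ω i) (fun j : {i // i ∈ D.1} => v j) = 0) ∧
          ∀ j, gwL (2 * k - 1) (fun i => ω i j) (fun i : {i // i ∉ D.1} => v i) = 0) = ∅ := by
          rw [filter_eq_empty_iff]
          intro v hv hcon
          rw [hV, mem_filter] at hv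
          exact hv.2.2 (hkey ι D.1 N (2 * k - 1) (8 * k) hN ω hfl.1 hfl.2 v hv.2.1 hcon.1 hcon.2)
        rw [h0, card_empty, Nat.cast_zero]
        unfold badSq
        split_ifs <;> positivity
      · have hfl' : ¬ (FlatX N (2 * k - 1) (fun j i => ω i j) ∧
            FlatX N (2 * k - 1) (fun i j => (fun j i => ω i j) j i)) := fun h => hfl ⟨h.2, h.1⟩
        unfold badSq
        rw [if_pos hfl, if_pos hfl']
        have h2 : (V.filter fun v =>
          (∀ i, gwL (2 * k - 1) (ω i) (fun j : {i // i ∈ D.1} => v j) = 0) ∧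
          ∀ j, gwL (2 * k - 1) (fun i => ω i j) (fun i : {i // i ∉ D.1} => v i) = 0).card ≤
            kerN N (2 * k - 1) ω * kerN N (2 * k - 1) (fun j i => ω i j) := by
          rw [kerN_eq, kerN_eq, ← card_product]
          refine card_le_card_of_injOn (fun v => splitE D.1 v) ?_ ?_
          · intro v hv
            rw [mem_coe, mem_filter] at hv
            rw [mem_coe, mem_product, mem_filter, mem_filter]
            exact ⟨⟨mem_univ _, hv.2.1⟩, mem_univ _, hv.2.2⟩
          · intro v _ v' _ h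
            exact (splitE D.1).injective h
        have h3 : ((V.filter fun v =>
          (∀ i, gwL (2 * k - 1) (ω i) (fun j : {i // i ∈ D.1} => v j) = 0) ∧
          ∀ j, gwL (2 * k - 1) (fun i => ω i j) (fun i : {i // i ∉ D.1} => v i) = 0).card : ℝ) ≤
            (kerN N (2 * k - 1) ω : ℝ) * (kerN N (2 * k - 1) (fun j i => ω i j) : ℝ) := by
          exact_mod_cast h2
        nlinarith [sq_nonneg ((kerN N (2 * k - 1) ω : ℝ) -
          (kerN N (2 * k - 1) (fun j i => ω i j) : ℝ))]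
    have h2 : ∑ ω : {i // i ∉ D.1} → {i // i ∈ D.1} → Fin (8 * k),
        badSq N (2 * k - 1) (fun j i => ω i j) =
        ∑ ω : {i // i ∈ D.1} → {i // i ∉ D.1} → Fin (8 * k), badSq N (2 * k - 1) ω :=
      Fintype.sum_equiv (Equiv.piComm _) _ _ fun ω => rfl
    refine (sum_le_sum fun ω _ => h1 ω).trans ?_
    rw [← sum_div, sum_add_distrib, h2, sum_badSq k hc1 hc2, sum_badSq k hc2 hc1]
    linarith
  refine hgoal.trans ?_
  rw [div_le_iff₀ hT]
  refine (sum_le_sum fun D _ => hD D).trans (le_of_eq ?_)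
  rw [sum_const, card_univ, card_cut k hι, nsmul_eq_mul]
  ring

end Vale.Agent.P160.Half.M8
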