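import Mathlib

/-! # P160/Half: generic form of the key step of M8 (11023 (5)). -/

namespace Vale.Agent.P160.Half.M8Gen

open Finset

/-- `x . (u, v) = a` forces `x_T . g v = g a` (as `g u = 0`) and then `x_S . f u = f a - x_T . f v`: the atoms of the whole
vector are at most the product of the atoms of `f u` and of `g v`. -/
theorem atom_mul {S T A Q R : Type*} [Fintype S] [DecidableEq S] [Fintype T] [DecidableEq T]
    [AddCommGroup A] [AddCommGroup Q] [AddCommGroup R] [DecidableEq A] [DecidableEq Q] [DecidableEq R]
    (f : A →+ Q) (g : A →+ R) (u : S → A) (v : T → A) (hu : ∀ j, g (u j) = 0) (C D q r : ℕ)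
    (hS : ∀ a : Q, (univ.filter (fun x : S → Bool => (∑ j, if x j then f (u j) else 0) = a)).card * q ≤ C)
    (hT : ∀ a : R, (univ.filter (fun x : T → Bool => (∑ j, if x j then g (v j) else 0) = a)).card * r ≤ D)
    (a : A) :
    (univ.filter (fun z : (S → Bool) × (T → Bool) =>
      (∑ j, if z.1 j then u j else 0) + (∑ j, if z.2 j then v j else 0) = a)).card * (q * r) ≤ C * D := by
  classical
  have hcnt : (univ.filter (fun z : (S → Bool) × (T → Bool) =>
      (∑ j, if z.1 j then u j else 0) + (∑ j, if z.2 j then v j else 0) = a)).card ≤
      ∑ y ∈ univ.filter (fun y : T → Bool => (∑ j, if y j then g (v j) else 0) = g a),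
        (univ.filter (fun x : S → Bool => (∑ j, if x j then f (u j) else 0) =
          f a - ∑ j, if y j then f (v j) else 0)).card := by
    rw [← card_sigma]
    refine card_le_card_of_injOn (fun z => ⟨z.2, z.1⟩) ?_ ?_
    · rintro ⟨x, y⟩ hz
      rw [mem_coe, mem_filter] at hz
      have h1 : (∑ j, if x j then u j else 0) + (∑ j, if y j then v j else 0) = a := hz.2
      rw [mem_coe, mem_sigma, mem_filter, mem_filter]
      refine ⟨⟨mem_univ _, ?_⟩, mem_univ _, ?_⟩
      · have h2 := congrArg g h1
        rw [map_add, map_sum, map_sum] at h2
        have h3 : (∑ j, g (if x j then u j else 0)) = 0 := by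
          refine sum_eq_zero fun j _ => ?_
          split_ifs
          · exact hu j
          · exact map_zero g
        rw [h3, zero_add] at h2
        rw [← h2]
        refine sum_congr rfl fun j _ => ?_
        change (if y j then g (v j) else 0) = _
        split_ifs
        · rfl
        · exact (map_zero g).symm
      · have h2 := congrArg f h1
        rw [map_add, map_sum, map_sum] at h2
        refine eq_sub_of_add_eq ?_
        rw [← h2]
        congr 1
        · refine sum_congr rfl fun j _ => ?_
          change (if x j then f (u j) else 0) = _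
          split_ifs
          · rfl
          · exact (map_zero f).symm
        · refine sum_congr rfl fun j _ => ?_
          change (if y j then f (v j) else 0) = _
          split_ifs
          · rfl
          · exact (map_zero f).symm
    · rintro ⟨x, y⟩ _ ⟨x', y'⟩ _ h
      have h1 : y = y' := congrArg Sigma.fst h
      have h2 : x = x' := congrArg (fun w : (Σ _ : T → Bool, S → Bool) => w.2) h
      rw [h1, h2]
  calc (univ.filter (fun z : (S → Bool) × (T → Bool) =>
      (∑ j, if z.1 j then u j else 0) + (∑ j, if z.2 j then v j else 0) = a)).card * (q * r)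
      ≤ (∑ y ∈ univ.filter (fun y : T → Bool => (∑ j, if y j then g (v j) else 0) = g a),
        (univ.filter (fun x : S → Bool => (∑ j, if x j then f (u j) else 0) =
          f a - ∑ j, if y j then f (v j) else 0)).card) * (q * r) := Nat.mul_le_mul_right _ hcnt
    _ = ∑ y ∈ univ.filter (fun y : T → Bool => (∑ j, if y j then g (v j) else 0) = g a),
        ((univ.filter (fun x : S → Bool => (∑ j, if x j then f (u j) else 0) =
          f a - ∑ j, if y j then f (v j) else 0)).card * q) * r := by
        rw [sum_mul]
        exact sum_congr rfl fun y _ => by ring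
    _ ≤ ∑ y ∈ univ.filter (fun y : T → Bool => (∑ j, if y j then g (v j) else 0) = g a), C * r :=
        sum_le_sum fun y _ => Nat.mul_le_mul_right _ (hS _)
    _ = C * ((univ.filter (fun y : T → Bool => (∑ j, if y j then g (v j) else 0) = g a)).card * r) := by
        rw [sum_const, smul_eq_mul]
        ring
    _ ≤ C * D := Nat.mul_le_mul_left _ (hT _)

end Vale.Agent.P160.Half.M8Gen
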