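import Vale.Agent.P160.Half.M8Def
import Vale.Agent.P160.Half.M8Gen604

/-! # P160/Half: `key : KeyStmt` (11023 (5)). -/

namespace Vale.Agent.P160.Half.M8

open Finset

theorem split_zmod {S : Type*} [Fintype S] {N : ℕ} (hN : Squarefree N) (u : S → ZMod N) :
    ∃ q r : ℕ, q * r = N ∧ (∀ j, r ∣ (u j).val) ∧
      ∀ p : ℕ, p.Prime → p ∣ q → ∃ j, ¬ p ∣ (u j).val := by
  obtain ⟨r, hr⟩ : ∃ r, r = Nat.gcd N (univ.gcd fun j => (u j).val) := ⟨_, rfl⟩
  have hrN : r ∣ N := by rw [hr]; exact Nat.gcd_dvd_left _ _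
  obtain ⟨q, hq⟩ := hrN
  refine ⟨q, r, by rw [hq, mul_comm], ?_, ?_⟩
  · intro j
    have h1 : r ∣ univ.gcd fun j => (u j).val := by rw [hr]; exact Nat.gcd_dvd_right _ _
    exact h1.trans (Finset.gcd_dvd (mem_univ j))
  · intro p hp hpq
    by_contra hcon
    push Not at hcon
    have h1 : p ∣ univ.gcd fun j => (u j).val := Finset.dvd_gcd fun j _ => hcon j
    have h2 : p ∣ r := by
      rw [hr]
      refine Nat.dvd_gcd ?_ h1
      rw [hq]
      exact hpq.mul_left r
    have h3 : p * p ∣ N := by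
      rw [hq]
      exact mul_dvd_mul h2 hpq
    exact hp.one_lt.ne' (Nat.isUnit_iff.1 (hN p h3))

lemma cast_eq_zero_iff' {N : ℕ} [NeZero N] (p : ℕ) (x : ZMod N) :
    ((x.cast : ZMod p)) = 0 ↔ p ∣ x.val := by
  rw [ZMod.cast_eq_val, ZMod.natCast_eq_zero_iff]

lemma castHom_cast {N q p : ℕ} [NeZero N] (hq : q ∣ N) (hp : p ∣ q) (x : ZMod N) :
    ((ZMod.castHom hq (ZMod q) x).cast : ZMod p) = (x.cast : ZMod p) := by
  obtain ⟨n, rfl⟩ : ∃ n : ℕ, (n : ZMod N) = x := ⟨x.val, ZMod.natCast_zmod_val x⟩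
  rw [map_natCast, ZMod.cast_natCast hp, ZMod.cast_natCast (hp.trans hq)]

lemma gwL_map {G H E : Type*} [AddCommGroup G] [AddCommGroup H] [Fintype E] (f : G →+ H) (L : ℕ)
    {M : ℕ} (ω : E → Fin M) (c : E → G) : gwL L ω (fun e => f (c e)) = f (gwL L ω c) := by
  unfold gwL
  rw [map_sum]
  exact sum_congr rfl fun e _ => (map_zsmul f _ _).symm

lemma sum_split {ι A : Type*} [Fintype ι] [DecidableEq ι] [AddCommMonoid A] (D : Finset ι)
    (g : ι → A) : ∑ i, g i = (∑ j : {i // i ∈ D}, g j) + ∑ j : {i // i ∉ D}, g j := by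
  rw [← Fintype.sum_subtype_add_sum_subtype (fun i => i ∈ D) g]
  refine congrArg₂ (· + ·) ?_ ?_
  · exact Finset.sum_congr (by ext x; simp only [Finset.mem_univ]) (fun _ _ => rfl)
  · exact Finset.sum_congr (by ext x; simp only [Finset.mem_univ]) (fun _ _ => rfl)

/-- half of the argument: the part of `u` on one side, reduced modulo a divisor where it is unimodular -/
lemma side {S R : Type} [Fintype S] [Fintype R] {N L M q : ℕ} [NeZero N] (hq : q ∣ N)
    (ω : R → S → Fin M) (hfl : FlatX N L ω) (u : S → ZMod N)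
    (hun : ∀ p : ℕ, p.Prime → p ∣ q → ∃ j, ¬ p ∣ (u j).val)
    (hker : ∀ i, gwL L (ω i) u = 0) (a : ZMod q) :
    Nat.card {x : S → Bool // G.bdot x (fun j => ZMod.castHom hq (ZMod q) (u j)) = a} * q ≤
      2 * 2 ^ Fintype.card S := by
  have h := hfl q hq (fun j => ZMod.castHom hq (ZMod q) (u j)) ?_ ?_ a
  · exact_mod_cast h
  · intro p hp hpq
    obtain ⟨j, hj⟩ := hun p hp hpq
    refine ⟨j, ?_⟩
    rw [castHom_cast hq hpq, Ne, cast_eq_zero_iff']
    exact hj
  · intro i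
    have h1 := gwL_map (ZMod.castHom hq (ZMod q)).toAddMonoidHom L (ω i) u
    rw [hker i, map_zero] at h1
    exact h1

theorem key : KeyStmt := by
  classical
  intro ι _ _ D N L M hN ω h1 h2 u hu hk1 hk2 a
  have _ : NeZero N := ⟨hN.ne_zero⟩
  obtain ⟨q, r, hqr, hr, hq⟩ := split_zmod hN (fun j : {i // i ∈ D} => u j)
  have hqN : q ∣ N := ⟨r, hqr.symm⟩
  have hrN : r ∣ N := ⟨q, by rw [mul_comm]; exact hqr.symm⟩
  have hS := side (S := {i // i ∈ D}) (R := {i // i ∉ D}) hqN ω h1 (fun j => u j) hq hk1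
  have hT := side (S := {i // i ∉ D}) (R := {i // i ∈ D}) hrN (fun i j => ω j i) h2
    (fun j => u j) (by
      intro p hp hpr
      obtain ⟨i, hi⟩ := hu p hp (hpr.trans hrN)
      rw [Ne, cast_eq_zero_iff'] at hi
      have hiD : i ∉ D := fun hiD => hi (hpr.trans (hr ⟨i, hiD⟩))
      exact ⟨⟨i, hiD⟩, hi⟩) hk2
  have h0 : ∀ j : {i // i ∈ D}, (ZMod.castHom hrN (ZMod r)).toAddMonoidHom (u j) = 0 := by
    intro j
    change ZMod.castHom hrN (ZMod r) (u j) = 0
    obtain ⟨n, hn⟩ : ∃ n : ℕ, (n : ZMod N) = u j := ⟨(u j).val, ZMod.natCast_zmod_val (u j)⟩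
    have h3 : r ∣ (u j).val := hr j
    rw [← ZMod.natCast_zmod_val (u j), map_natCast, ZMod.natCast_eq_zero_iff]
    exact h3
  have hmain := M8Gen.atom_mul (S := {i // i ∈ D}) (T := {i // i ∉ D})
    (ZMod.castHom hqN (ZMod q)).toAddMonoidHom (ZMod.castHom hrN (ZMod r)).toAddMonoidHom
    (fun j => u j) (fun j => u j) h0 (2 * 2 ^ Fintype.card {i // i ∈ D})
    (2 * 2 ^ Fintype.card {i // i ∉ D}) q r
    (by
      intro b
      have h3 := hS b
      rw [Nat.card_eq_fintype_card, Fintype.card_subtype] at h3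
      exact h3)
    (by
      intro b
      have h3 := hT b
      rw [Nat.card_eq_fintype_card, Fintype.card_subtype] at h3
      exact h3) a
  have hcard : Nat.card {x : ι → Bool // G.bdot x u = a} =
      (univ.filter (fun z : ({i // i ∈ D} → Bool) × ({i // i ∉ D} → Bool) =>
        (∑ j, if z.1 j then u j else 0) + (∑ j, if z.2 j then u j else 0) = a)).card := by
    rw [Nat.card_eq_fintype_card, Fintype.card_subtype]
    refine card_bij (fun x _ => (Equiv.piEquivPiSubtypeProd (fun i => i ∈ D) (fun _ => Bool)) x) ?_ ?_ ?_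
    · intro x hx
      rw [mem_filter] at hx ⊢
      refine ⟨mem_univ _, ?_⟩
      rw [← hx.2]
      unfold G.bdot
      rw [sum_split D (fun i => if x i then u i else 0)]
      rfl
    · intro x _ y _ h
      exact (Equiv.piEquivPiSubtypeProd (fun i => i ∈ D) (fun _ => Bool)).injective h
    · intro z hz
      refine ⟨(Equiv.piEquivPiSubtypeProd (fun i => i ∈ D) (fun _ => Bool)).symm z, ?_,
        Equiv.apply_symm_apply _ _⟩
      rw [mem_filter] at hz ⊢
      refine ⟨mem_univ _, ?_⟩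
      obtain ⟨x, rfl⟩ := (Equiv.piEquivPiSubtypeProd (fun i => i ∈ D) (fun _ => Bool)).surjective z
      rw [Equiv.symm_apply_apply, ← hz.2]
      unfold G.bdot
      rw [sum_split D (fun i => if x i then u i else 0)]
      rfl
  have hpow : 2 ^ Fintype.card {i // i ∈ D} * 2 ^ Fintype.card {i // i ∉ D} =
      2 ^ Fintype.card ι := by
    rw [← pow_add, ← Fintype.card_sum]
    congr 1
    exact Fintype.card_congr (Equiv.sumCompl (fun i => i ∈ D))
  have hfin : Nat.card {x : ι → Bool // G.bdot x u = a} * N ≤ 4 * 2 ^ Fintype.card ι := by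
    rw [hcard, ← hpow]
    calc _ = _ * (q * r) := by rw [hqr]
      _ ≤ _ := hmain
      _ = _ := by ring
  exact_mod_cast hfin

end Vale.Agent.P160.Half.M8
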