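import Vale.Agent.P160.Half.M8Def

/-! # P160, half rate, block (M), part M8: `mom : EvenStmt → MomStmt`

Even size: the `φ(N)` unit multiples of one bad kernel vector. Odd size: one additional index with
coordinate `0`. -/

set_option linter.unusedSectionVars false

namespace Vale.Agent.P160.Half.M8.Mom228

open Finset Matrix Vale.Agent.P160 Vale.Agent.P160.Half

section base

variable {ι : Type} [Fintype ι] [DecidableEq ι] {N : ℕ}

/-- the multiple of a vector -/
def tm (t : ZMod N) (u : ι → ZMod N) : ι → ZMod N := fun i => t * u i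

lemma smul2_tm (b : Sym2 ι → Bool) (t : ZMod N) (u : ι → ZMod N) (h : smul2 b u = 0) :
    smul2 b (tm t u) = 0 := by
  funext i
  have h1 := congrFun h i
  unfold smul2 at h1
  unfold smul2 tm
  simp only [Pi.zero_apply] at h1 ⊢
  have h2 : ∑ j, (if b s(i, j) then t * u j else 0) = t * ∑ j, (if b s(i, j) then u j else 0) := by
    rw [mul_sum]
    refine sum_congr rfl fun j _ => ?_
    split_ifs <;> simp
  rw [h2, h1, mul_zero]

lemma bdot_tm (x : ι → Bool) (t : ZMod N) (u : ι → ZMod N) :
    G.bdot x (tm t u) = t * G.bdot x u := by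
  unfold G.bdot tm
  rw [mul_sum]
  refine sum_congr rfl fun j _ => ?_
  split_ifs <;> simp

lemma unim_tm (t : (ZMod N)ˣ) (u : ι → ZMod N) (h : Unim N u) : Unim N (tm (t : ZMod N) u) := by
  intro p hp hd
  have : Fact p.Prime := ⟨hp⟩
  obtain ⟨i, hi⟩ := h p hp hd
  refine ⟨i, ?_⟩
  unfold tm
  rw [ZMod.cast_mul hd]
  refine mul_ne_zero ?_ hi
  have h1 : ((t : ZMod N).cast : ZMod p) = ZMod.castHom hd (ZMod p) (t : ZMod N) := rfl
  rw [h1]
  exact (t.isUnit.map (ZMod.castHom hd (ZMod p))).ne_zero

lemma tm_inj [NeZero N] (hN : Squarefree N) (u : ι → ZMod N) (h : Unim N u) {t t' : ZMod N}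
    (e : tm t u = tm t' u) : t = t' := by
  have h0 : t - t' = 0 := by
    have hd : N ∣ (t - t').val := by
      have h1 : ∏ p ∈ N.primeFactors, p ∣ (t - t').val := by
        refine Finset.prod_primes_dvd _ (fun p hp => (Nat.prime_of_mem_primeFactors hp).prime) ?_
        intro p hp
        have hp1 := Nat.prime_of_mem_primeFactors hp
        have hp2 := Nat.dvd_of_mem_primeFactors hp
        have : Fact p.Prime := ⟨hp1⟩
        obtain ⟨i, hi⟩ := h p hp1 hp2
        have h2 : (t - t') * u i = 0 := by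
          have := congrFun e i
          unfold tm at this
          rw [sub_mul, this, sub_self]
        have h3 : ((t - t').cast : ZMod p) * ((u i).cast : ZMod p) = 0 := by
          rw [← ZMod.cast_mul hp2, h2, ZMod.cast_zero]
        have h4 : ((t - t').cast : ZMod p) = 0 := (mul_eq_zero.1 h3).resolve_right hi
        rw [ZMod.cast_eq_val] at h4
        exact (ZMod.natCast_eq_zero_iff _ _).1 h4
      rwa [Nat.prod_primeFactors_of_squarefree hN] at h1
    have h5 : (t - t').val = 0 := Nat.eq_zero_of_dvd_of_lt hd (ZMod.val_lt _)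
    exact (ZMod.val_eq_zero _).1 h5
  exact sub_eq_zero.1 h0

lemma atom_tm (K : ℝ) (t : (ZMod N)ˣ) (u : ι → ZMod N) (h : AtomLe N K (tm (t : ZMod N) u)) :
    AtomLe N K u := by
  intro a
  have h1 := h (t * a)
  have h2 : Nat.card {x : ι → Bool // G.bdot x (tm (t : ZMod N) u) = t * a} =
      Nat.card {x : ι → Bool // G.bdot x u = a} := by
    refine Nat.card_congr (Equiv.subtypeEquivRight fun x => ?_)
    rw [bdot_tm]
    exact t.mul_right_inj
  rw [h2] at h1
  exact h1

open Classical in
/-- bad vectors -/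
noncomputable def bad (ι : Type) [Fintype ι] [DecidableEq ι] (N : ℕ) [NeZero N] : Finset (ι → ZMod N) :=
  univ.filter (fun u : ι → ZMod N => Unim N u ∧ ¬ AtomLe N 4 u)

lemma mem_bad [NeZero N] (u : ι → ZMod N) : u ∈ bad ι N ↔ Unim N u ∧ ¬ AtomLe N 4 u := by
  unfold bad
  simp

lemma main [NeZero N] (hN : Squarefree N) (C : ℝ) (h : ∑ u ∈ bad ι N, SprA u 0 ≤ C) :
    (Nat.card {b : Sym2 ι → Bool // ¬ GoodSym N b} : ℝ) * Nat.totient N ≤
      C * 2 ^ Fintype.card (Sym2 ι) := by
  classical
  have hB : Nat.card {b : Sym2 ι → Bool // ¬ GoodSym N b} =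
      (univ.filter fun b : Sym2 ι → Bool => ¬ GoodSym N b).card := by
    rw [Nat.card_eq_fintype_card, Fintype.card_subtype]
  rw [hB]
  have h1 : (univ.filter fun b : Sym2 ι → Bool => ¬ GoodSym N b).card * Nat.totient N ≤
      ∑ b : Sym2 ι → Bool, ((bad ι N).filter fun u => smul2 b u = 0).card := by
    rw [← smul_eq_mul, ← sum_const]
    refine (sum_le_sum fun b hb => ?_).trans (sum_le_sum_of_subset (filter_subset _ _))
    rw [mem_filter] at hb
    have h2 := hb.2
    unfold GoodSym at h2
    push Not at h2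
    obtain ⟨u, hu1, hu2, hu3⟩ := h2
    rw [← ZMod.card_units_eq_totient N, ← card_univ]
    refine card_le_card_of_injOn (fun t : (ZMod N)ˣ => tm (t : ZMod N) u) (fun t _ => ?_) ?_
    · rw [mem_coe, mem_filter, mem_bad]
      exact ⟨⟨unim_tm t u hu1, fun hh => hu3 (atom_tm 4 t u hh)⟩, smul2_tm b _ u hu2⟩
    · intro t _ t' _ e
      exact Units.ext (tm_inj hN u hu1 e)
  have h2 : ∑ b : Sym2 ι → Bool, ((bad ι N).filter fun u => smul2 b u = 0).card =
      ∑ u ∈ bad ι N, (univ.filter fun b : Sym2 ι → Bool => smul2 b u = 0).card := by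
    simp only [card_filter]
    rw [sum_comm]
  have h3 : ∀ u : ι → ZMod N, (((univ.filter fun b : Sym2 ι → Bool => smul2 b u = 0).card : ℕ) : ℝ) =
      SprA u 0 * 2 ^ Fintype.card (Sym2 ι) := by
    intro u
    unfold SprA
    rw [div_mul_cancel₀ _ (by positivity)]
  have h4 : ((univ.filter fun b : Sym2 ι → Bool => ¬ GoodSym N b).card : ℝ) * Nat.totient N ≤
      ∑ u ∈ bad ι N, SprA u 0 * 2 ^ Fintype.card (Sym2 ι) := by
    rw [h2] at h1
    have h5 : (((univ.filter fun b : Sym2 ι → Bool => ¬ GoodSym N b).card * Nat.totient N : ℕ) : ℝ) ≤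
        ((∑ u ∈ bad ι N, (univ.filter fun b : Sym2 ι → Bool => smul2 b u = 0).card : ℕ) : ℝ) := by
      exact_mod_cast h1
    push_cast at h5
    refine h5.trans (le_of_eq ?_)
    exact sum_congr rfl fun u _ => h3 u
  refine h4.trans ?_
  rw [← sum_mul]
  exact mul_le_mul_of_nonneg_right h (by positivity)

/-- extension by `0` -/
def ext (u : ι → ZMod N) : Option ι → ZMod N := fun o => o.elim 0 u

/-- the bits of the matrix with one additional index -/
def eb (c : Bool) (x : ι → Bool) (b : Sym2 ι → Bool) : Sym2 (Option ι) → Bool :=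
  Sym2.lift ⟨fun o o' => match o, o' with
    | none, none => c
    | none, some i => x i
    | some i, none => x i
    | some i, some j => b s(i, j), by
      intro o o'
      cases o <;> cases o' <;> simp [Sym2.eq_swap]⟩

lemma eb_nn (c : Bool) (x : ι → Bool) (b : Sym2 ι → Bool) : eb c x b s(none, none) = c := rfl

lemma eb_ns (c : Bool) (x : ι → Bool) (b : Sym2 ι → Bool) (i : ι) : eb c x b s(none, some i) = x i := rfl

lemma eb_sn (c : Bool) (x : ι → Bool) (b : Sym2 ι → Bool) (i : ι) : eb c x b s(some i, none) = x i := rfl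

lemma eb_ss (c : Bool) (x : ι → Bool) (b : Sym2 ι → Bool) (i j : ι) :
    eb c x b s(some i, some j) = b s(i, j) := rfl

lemma smul2_eb (c : Bool) (x : ι → Bool) (b : Sym2 ι → Bool) (u : ι → ZMod N) (a : ZMod N)
    (hx : G.bdot x u = a) (hb : smul2 b u = 0) :
    smul2 (eb c x b) (ext u) = fun o => o.elim a (fun _ => 0) := by
  funext o
  have hz : ∀ q : Bool, (if q then (0 : ZMod N) else 0) = 0 := fun q => by split_ifs <;> rfl
  cases o with
  | none =>
    have e1 : smul2 (eb c x b) (ext u) none = (if c then (0 : ZMod N) else 0) + G.bdot x u := by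
      unfold smul2 G.bdot
      rw [Fintype.sum_option]
      rfl
    rw [e1, hz, zero_add]
    exact hx
  | some i =>
    have e1 : smul2 (eb c x b) (ext u) (some i) = (if x i then (0 : ZMod N) else 0) + smul2 b u i := by
      unfold smul2
      rw [Fintype.sum_option]
      rfl
    rw [e1, hz, zero_add, hb]
    rfl

lemma unim_ext (u : ι → ZMod N) (h : Unim N u) : Unim N (ext u) := by
  intro p hp hd
  obtain ⟨i, hi⟩ := h p hp hd
  exact ⟨some i, hi⟩

lemma bdot_ext (c : Bool) (x : ι → Bool) (u : ι → ZMod N) :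
    G.bdot (fun o : Option ι => o.elim c x) (ext u) = G.bdot x u := by
  have e1 : G.bdot (fun o : Option ι => o.elim c x) (ext u) = (if c then (0 : ZMod N) else 0) + G.bdot x u := by
    unfold G.bdot
    rw [Fintype.sum_option]
    rfl
  rw [e1]
  split_ifs <;> rw [zero_add]

lemma atom_ext [NeZero N] (u : ι → ZMod N) (h : ¬ AtomLe N 4 u) : ¬ AtomLe N 4 (ext u) := by
  classical
  intro hh
  apply h
  intro a
  have h1 := hh a
  have h2 : 2 * Nat.card {x : ι → Bool // G.bdot x u = a} ≤
      Nat.card {x : Option ι → Bool // G.bdot x (ext u) = a} := by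
    have h3 : Nat.card (Bool × {x : ι → Bool // G.bdot x u = a}) =
        2 * Nat.card {x : ι → Bool // G.bdot x u = a} := by
      rw [Nat.card_prod]
      simp
    rw [← h3]
    refine Nat.card_le_card_of_injective
      (fun q : Bool × {x : ι → Bool // G.bdot x u = a} =>
        (⟨fun o : Option ι => o.elim q.1 q.2.1, by rw [bdot_ext]; exact q.2.2⟩ :
          {x : Option ι → Bool // G.bdot x (ext u) = a})) ?_
    intro q q' e
    have e1 := congrArg Subtype.val e
    have e2 := congrFun e1 none
    have e3 : ∀ i, q.2.1 i = q'.2.1 i := fun i => congrFun e1 (some i)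
    exact Prod.ext e2 (Subtype.ext (funext e3))
  have h3 : Fintype.card (Option ι) = Fintype.card ι + 1 := Fintype.card_option
  rw [h3, pow_succ] at h1
  have h4 : (2 : ℝ) * Nat.card {x : ι → Bool // G.bdot x u = a} ≤
      Nat.card {x : Option ι → Bool // G.bdot x (ext u) = a} := by exact_mod_cast h2
  have hN : (0 : ℝ) ≤ N := Nat.cast_nonneg _
  nlinarith [mul_le_mul_of_nonneg_right h4 hN]

lemma card_sym2_option : Fintype.card (Sym2 (Option ι)) = Fintype.card (Sym2 ι) + Fintype.card ι + 1 := by
  rw [Sym2.card, Sym2.card, Fintype.card_option, Nat.choose_succ_succ' (Fintype.card ι + 1) 1, Nat.choose_one_right]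
  ring

lemma spr_ext [NeZero N] (u : ι → ZMod N) (a : ZMod N)
    (ha : (4 : ℝ) * 2 ^ Fintype.card ι < (Nat.card {x : ι → Bool // G.bdot x u = a} : ℝ) * N) :
    4 * SprA u 0 ≤ N * SprA (ext u) (fun o => o.elim a (fun _ => 0)) := by
  classical
  have hcard : 2 * Nat.card {x : ι → Bool // G.bdot x u = a} *
      (univ.filter fun b : Sym2 ι → Bool => smul2 b u = 0).card ≤
      (univ.filter fun b : Sym2 (Option ι) → Bool => smul2 b (ext u) = fun o => o.elim a (fun _ => 0)).card := by
    have h1 : Nat.card {x : ι → Bool // G.bdot x u = a} =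
        (univ.filter fun x : ι → Bool => G.bdot x u = a).card := by
      rw [Nat.card_eq_fintype_card, Fintype.card_subtype]
    have h2 : 2 * Nat.card {x : ι → Bool // G.bdot x u = a} *
        (univ.filter fun b : Sym2 ι → Bool => smul2 b u = 0).card =
        ((univ : Finset Bool) ×ˢ ((univ.filter fun x : ι → Bool => G.bdot x u = a) ×ˢ
          (univ.filter fun b : Sym2 ι → Bool => smul2 b u = 0))).card := by
      rw [card_product, card_product, h1, card_univ, Fintype.card_bool, mul_assoc]
    rw [h2]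
    refine card_le_card_of_injOn (fun q => eb q.1 q.2.1 q.2.2) ?_ ?_
    · rintro ⟨c, x, b⟩ hq
      simp only [coe_product, coe_univ, Set.mem_prod, mem_coe, mem_filter, mem_univ, true_and,
        Set.mem_univ] at hq
      rw [mem_coe, mem_filter]
      exact ⟨mem_univ _, smul2_eb c x b u a hq.1 hq.2⟩
    · rintro ⟨c, x, b⟩ _ ⟨c', x', b'⟩ _ e
      simp only at e
      have e1 : c = c' := congrFun e s(none, none)
      have e2 : x = x' := funext fun i => congrFun e s(none, some i)
      have e3 : b = b' := by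
        funext z
        induction z using Sym2.ind with
        | _ i j => exact congrFun e s(some i, some j)
      rw [e1, e2, e3]
  unfold SprA
  rw [card_sym2_option]
  set A := Nat.card {x : ι → Bool // G.bdot x u = a}
  set B := (univ.filter fun b : Sym2 ι → Bool => smul2 b u = 0).card
  have h5 : (2 : ℝ) * A * B ≤ ((univ.filter fun b : Sym2 (Option ι) → Bool =>
      smul2 b (ext u) = fun o => o.elim a (fun _ => 0)).card : ℝ) := by exact_mod_cast hcard
  have h6 : (0 : ℝ) < 2 ^ Fintype.card (Sym2 ι) := by positivity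
  have h7 : (0 : ℝ) < 2 ^ Fintype.card ι := by positivity
  have h8 : (0 : ℝ) ≤ N := Nat.cast_nonneg _
  have h9 : (0 : ℝ) ≤ B := Nat.cast_nonneg _
  have h10 : (N : ℝ) * (2 * A * B / 2 ^ (Fintype.card (Sym2 ι) + Fintype.card ι + 1)) =
      (A * N / 2 ^ Fintype.card ι) * (B / 2 ^ Fintype.card (Sym2 ι)) := by
    rw [pow_succ, pow_add]
    field_simp
  calc (4 : ℝ) * (B / 2 ^ Fintype.card (Sym2 ι))
      ≤ (A * N / 2 ^ Fintype.card ι) * (B / 2 ^ Fintype.card (Sym2 ι)) := by
        refine mul_le_mul_of_nonneg_right ?_ (by positivity)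
        rw [le_div_iff₀ h7]
        exact ha.le
    _ = (N : ℝ) * (2 * A * B / 2 ^ (Fintype.card (Sym2 ι) + Fintype.card ι + 1)) := h10.symm
    _ ≤ _ := by
        refine mul_le_mul_of_nonneg_left ?_ h8
        gcongr

lemma odd [NeZero N] (W : ℝ)
    (h : ∀ w : (Option ι → ZMod N) → Option ι → ZMod N, ∑ u ∈ bad (Option ι) N, SprA u (w u) ≤ W) :
    ∑ u ∈ bad ι N, SprA u 0 ≤ N * W / 4 := by
  classical
  have hex : ∀ u : ι → ZMod N, ∃ a : ZMod N, ¬ AtomLe N 4 u →
      (4 : ℝ) * 2 ^ Fintype.card ι < (Nat.card {x : ι → Bool // G.bdot x u = a} : ℝ) * N := by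
    intro u
    by_cases hu : AtomLe N 4 u
    · exact ⟨0, fun h => absurd hu h⟩
    · have h2 := hu
      unfold AtomLe at h2
      push Not at h2
      obtain ⟨a, ha⟩ := h2
      exact ⟨a, fun _ => ha⟩
  choose af haf using hex
  set w : (Option ι → ZMod N) → Option ι → ZMod N :=
    fun v o => o.elim (af (fun i => v (some i))) (fun _ => 0) with hw
  have h1 := h w
  have hinj : Function.Injective (ext : (ι → ZMod N) → Option ι → ZMod N) := by
    intro u u' e
    funext i
    exact congrFun e (some i)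
  have h2 : ∑ u ∈ bad ι N, SprA (ext u) (w (ext u)) ≤ W := by
    refine le_trans ?_ h1
    rw [← sum_image (f := fun v => SprA v (w v)) (g := ext) (fun x _ y _ e => hinj e)]
    refine sum_le_sum_of_subset_of_nonneg ?_ (fun v _ _ => ?_)
    · intro v hv
      rw [mem_image] at hv
      obtain ⟨u, hu, rfl⟩ := hv
      rw [mem_bad] at hu ⊢
      exact ⟨unim_ext u hu.1, atom_ext u hu.2⟩
    · unfold SprA
      positivity
  have h3 : ∀ u ∈ bad ι N, 4 * SprA u 0 ≤ N * SprA (ext u) (w (ext u)) := by
    intro u hu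
    rw [mem_bad] at hu
    have h4 : w (ext u) = fun o => o.elim (af u) (fun _ => 0) := rfl
    rw [h4]
    exact spr_ext u (af u) (haf u hu.2)
  have h4 : 4 * ∑ u ∈ bad ι N, SprA u 0 ≤ N * W := by
    rw [mul_sum]
    refine (sum_le_sum h3).trans ?_
    rw [← mul_sum]
    exact mul_le_mul_of_nonneg_left h2 (Nat.cast_nonneg _)
  linarith

end base

end Vale.Agent.P160.Half.M8.Mom228

namespace Vale.Agent.P160.Half.M8

open Finset Matrix Vale.Agent.P160 Vale.Agent.P160.Half

/-- every size from the even sizes -/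
theorem mom : EvenStmt → MomStmt := by
  classical
  intro hE k N hk hN _ W hW hX ι _ _ hc
  have hN1 : (1 : ℝ) ≤ N := by exact_mod_cast Nat.one_le_iff_ne_zero.2 (NeZero.ne N)
  rcases hc with hc | hc
  · have h1 : ∑ u ∈ Mom228.bad ι N, SprA u 0 ≤ W := by
      have := hE k N hk hN W hX ι hc (fun _ => 0)
      unfold Mom228.bad
      convert this
    refine (Mom228.main hN W h1).trans ?_
    have : W ≤ N * W := by nlinarith
    gcongr
  · have h1 : ∑ u ∈ Mom228.bad ι N, SprA u 0 ≤ N * W / 4 := by
      refine Mom228.odd W fun w => ?_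
      have := hE k N hk hN W hX (Option ι) (by rw [Fintype.card_option]; exact hc) w
      unfold Mom228.bad
      convert this
    refine (Mom228.main hN _ h1).trans ?_
    have : N * W / 4 ≤ N * W := by
      have : 0 ≤ (N : ℝ) * W := by positivity
      linarith
    gcongr

end Vale.Agent.P160.Half.M8
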