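import Vale.Agent.P160.Half.M8Def

/-! # P160, half rate, block M8: union over the moduli `N` -/

set_option linter.unusedVariables false

namespace Vale.Agent.P160.Half.M8

open Finset Matrix Filter Topology Vale.Agent.P160 Vale.Agent.P160.Half

/-- polynomial against exponential -/
theorem pow_le_two (B δ : ℝ) (hδ : 0 < δ) : ∀ᶠ n : ℕ in atTop, 4 * (n : ℝ) ^ B ≤ (2 : ℝ) ^ (δ * n) := by
  have h := tendsto_rpow_mul_exp_neg_mul_atTop_nhds_zero B (Real.log 2 * δ)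
    (mul_pos (Real.log_pos (by norm_num)) hδ)
  have h2 := (h.comp tendsto_natCast_atTop_atTop).eventually (gt_mem_nhds (show (0 : ℝ) < 1 / 4 by norm_num))
  filter_upwards [h2] with n hn
  simp only [Function.comp] at hn
  have e : (2 : ℝ) ^ (δ * n) = Real.exp (Real.log 2 * δ * n) := by
    rw [Real.rpow_def_of_pos (by norm_num)]
    congr 1
    ring
  rw [e]
  have h3 : Real.exp (-(Real.log 2 * δ) * n) = (Real.exp (Real.log 2 * δ * n))⁻¹ := by
    rw [← Real.exp_neg]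
    congr 1
    ring
  rw [h3] at hn
  have hp := Real.exp_pos (Real.log 2 * δ * n)
  have h4 : (n : ℝ) ^ B < 1 / 4 * Real.exp (Real.log 2 * δ * n) := by
    have := mul_lt_mul_of_pos_right hn hp
    rwa [mul_assoc, inv_mul_cancel₀ hp.ne', mul_one] at this
  linarith

theorem card_pf_le (m E : ℕ) (hm : m ≠ 0) (h : m ≤ 2 ^ E) : m.primeFactors.card ≤ E := by
  have h1 : 2 ^ m.primeFactors.card ≤ m := by
    calc 2 ^ m.primeFactors.card = ∏ _p ∈ m.primeFactors, 2 := by rw [prod_const]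
      _ ≤ ∏ p ∈ m.primeFactors, p := prod_le_prod' fun p hp => (Nat.prime_of_mem_primeFactors hp).two_le
      _ ≤ m := Nat.le_of_dvd (Nat.pos_of_ne_zero hm) (Nat.prod_primeFactors_dvd m)
  exact (Nat.pow_le_pow_iff_right (by norm_num)).1 (h1.trans h)

theorem one_sub_sum_le (s : Finset ℕ) (a : ℕ → ℝ) (h0 : ∀ p ∈ s, 0 ≤ a p) (h1 : ∀ p ∈ s, a p ≤ 1) :
    1 - ∑ p ∈ s, a p ≤ ∏ p ∈ s, (1 - a p) ∧ ∏ p ∈ s, (1 - a p) ≤ 1 ∧ 0 ≤ ∏ p ∈ s, (1 - a p) := by
  induction s using Finset.induction_on with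
  | empty => simp
  | insert x s hx ih =>
    obtain ⟨i1, i2, i3⟩ := ih (fun p hp => h0 p (mem_insert_of_mem hp)) (fun p hp => h1 p (mem_insert_of_mem hp))
    have j0 := h0 x (mem_insert_self x s)
    have j1 := h1 x (mem_insert_self x s)
    rw [sum_insert hx, prod_insert hx]
    refine ⟨?_, ?_, mul_nonneg (by linarith) i3⟩
    · nlinarith
    · nlinarith

/-- `N ≤ 2 φ(N)` when all primes are `≥ y` and there are at most `y/2` of them -/
theorem le_two_totient (N : ℕ) (y : ℝ) (hy : 0 < y) (hN : Squarefree N) (hp : ∀ p, p.Prime → p ∣ N → y ≤ p)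
    (ht : 2 * (N.primeFactors.card : ℝ) ≤ y) : (N : ℝ) ≤ 2 * Nat.totient N := by
  have hN0 : N ≠ 0 := hN.ne_zero
  have h1 : (Nat.totient N : ℝ) = N * ∏ p ∈ N.primeFactors, (1 - (p : ℝ)⁻¹) := by
    have h := Nat.totient_eq_mul_prod_factors N
    have h' : ((Nat.totient N : ℚ) : ℝ) = ((N * ∏ p ∈ N.primeFactors, (1 - (p : ℚ)⁻¹) : ℚ) : ℝ) := by rw [h]
    push_cast at h'
    exact h'
  have h2 : 1 - ∑ p ∈ N.primeFactors, (p : ℝ)⁻¹ ≤ ∏ p ∈ N.primeFactors, (1 - (p : ℝ)⁻¹) := by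
    refine (one_sub_sum_le _ _ (fun p hp' => by positivity) (fun p hp' => ?_)).1
    have := (Nat.prime_of_mem_primeFactors hp').one_lt
    have h : (1 : ℝ) ≤ p := by exact_mod_cast this.le
    exact inv_le_one_of_one_le₀ h
  have h3 : ∑ p ∈ N.primeFactors, (p : ℝ)⁻¹ ≤ 1 / 2 := by
    calc ∑ p ∈ N.primeFactors, (p : ℝ)⁻¹ ≤ ∑ _p ∈ N.primeFactors, y⁻¹ := by
          refine sum_le_sum fun p hp' => ?_
          exact inv_anti₀ hy (hp p (Nat.prime_of_mem_primeFactors hp') (Nat.dvd_of_mem_primeFactors hp'))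
      _ = N.primeFactors.card * y⁻¹ := by rw [sum_const, nsmul_eq_mul]
      _ ≤ 1 / 2 := by
          rw [← div_eq_mul_inv, div_le_div_iff₀ hy (by norm_num)]
          linarith
  rw [h1]
  have h5 : (1 / 2 : ℝ) ≤ ∏ p ∈ N.primeFactors, (1 - (p : ℝ)⁻¹) := by linarith
  have h6 : (0 : ℝ) ≤ N := by positivity
  nlinarith

theorem notGood (hmom : MomStmt) : NotGoodStmt := by
  classical
  intro b₁ β c B δ hb hβ hc hB hδ hXi
  obtain ⟨k₀, hk₀⟩ := hXi
  have ev1 := pow_le_two B (δ / 2) (by positivity)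
  have ev2 := pow_le_two B δ hδ
  -- number of primes
  have ev3 : ∀ᶠ n : ℕ in atTop, 2 * ((β + δ) * n + 1) ≤ (n : ℝ) ^ b₁ := by
    have h : Tendsto (fun n : ℕ => (n : ℝ)) atTop atTop := tendsto_natCast_atTop_atTop
    have h' : Tendsto (fun n : ℕ => (n : ℝ) ^ (b₁ - 1)) atTop atTop :=
      (tendsto_rpow_atTop (by linarith : 0 < b₁ - 1)).comp h
    filter_upwards [h'.eventually_ge_atTop (2 * (β + δ) + 2), h.eventually_ge_atTop 1] with n h1 h2
    have h3 : (n : ℝ) ^ b₁ = (n : ℝ) ^ (b₁ - 1) * n := by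
      rw [← Real.rpow_add_one (by linarith)]
      congr 1
      ring
    rw [h3]
    nlinarith
  have ev4 : ∀ᶠ n : ℕ in atTop, (2 : ℝ) * 2 ^ B ≤ n := by
    have h : Tendsto (fun n : ℕ => (n : ℝ)) atTop atTop := tendsto_natCast_atTop_atTop
    exact h.eventually_ge_atTop _
  obtain ⟨n₀, hn₀⟩ := eventually_atTop.1 (((ev1.and ev2).and (ev3.and ev4)).and (eventually_ge_atTop (2 * k₀ + 2)))
  refine ⟨n₀, fun n hn ι _ _ hcard => ?_⟩
  obtain ⟨⟨⟨e1, e2⟩, e3, e4⟩, e5⟩ := hn₀ n hn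
  set k := (n + 1) / 2 with hk
  have hkpos : 0 < k := by omega
  have hk0 : k₀ ≤ k := by omega
  have hk2 : n ≤ 2 * k := by omega
  have hkn : k ≤ n := by omega
  have hn1 : 1 ≤ n := by omega
  have hnR : (1 : ℝ) ≤ n := by exact_mod_cast hn1
  have hnk : (n : ℝ) ≤ 2 * k := by exact_mod_cast hk2
  have hsize : Fintype.card ι = 2 * k ∨ Fintype.card ι + 1 = 2 * k := by omega
  have hkR : (1 : ℝ) ≤ k := by exact_mod_cast hkpos
  set X : ℝ := (2 : ℝ) ^ (β * n) * (n : ℝ) ^ B with hX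
  have hX0 : 0 < X := by positivity
  set W : ℝ := (2 : ℝ) ^ (-(c * k)) with hW
  have hW0 : 0 < W := by positivity
  have hWn : W ≤ (2 : ℝ) ^ (-(c / 2 * n)) := by
    refine Real.rpow_le_rpow_of_exponent_le (by norm_num) ?_
    nlinarith
  -- the window
  let Q : ℕ → Prop := fun N => Squarefree N ∧ (∀ p, p.Prime → p ∣ N → (n : ℝ) ^ b₁ ≤ p ∧ (p : ℝ) ≤ (n : ℝ) ^ B) ∧
      (2 : ℝ) ^ (β * n) ≤ N ∧ (N : ℝ) ≤ X
  have hone : ∀ N, Q N → (Nat.card {b : Sym2 ι → Bool // ¬ GoodSym N b} : ℝ) ≤ 2 * W * 2 ^ Fintype.card (Sym2 ι) := by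
    intro N hQ
    obtain ⟨hsf, hpr, hlo, hhi⟩ := hQ
    have hN0 : N ≠ 0 := hsf.ne_zero
    have : NeZero N := ⟨hN0⟩
    have hNX : (N : ℝ) ≤ (2 : ℝ) ^ ((2 * β + δ) * k) := by
      refine hhi.trans ?_
      have h1 : (n : ℝ) ^ B ≤ (2 : ℝ) ^ (δ / 2 * n) := by
        have : 0 ≤ (n : ℝ) ^ B := by positivity
        linarith
      calc X ≤ (2 : ℝ) ^ (β * n) * (2 : ℝ) ^ (δ / 2 * n) := mul_le_mul_of_nonneg_left h1 (by positivity)
        _ = (2 : ℝ) ^ (β * n + δ / 2 * n) := by rw [← Real.rpow_add (by norm_num)]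
        _ ≤ _ := by
          refine Real.rpow_le_rpow_of_exponent_le (by norm_num) ?_
          nlinarith
    have hpr' : ∀ p, p.Prime → p ∣ N → (k : ℝ) ^ b₁ ≤ p ∧ (p : ℝ) ≤ (k : ℝ) ^ (B + 1) := by
      intro p hp hpN
      obtain ⟨h1, h2⟩ := hpr p hp hpN
      have hknR : (k : ℝ) ≤ n := by exact_mod_cast hkn
      refine ⟨(Real.rpow_le_rpow (by positivity) hknR (by linarith)).trans h1, h2.trans ?_⟩
      have h3 : (n : ℝ) ^ B ≤ (2 * k : ℝ) ^ B := Real.rpow_le_rpow (by positivity) hnk (by linarith)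
      refine h3.trans ?_
      rw [Real.mul_rpow (by norm_num) (by positivity), Real.rpow_add (by positivity), Real.rpow_one, mul_comm]
      refine mul_le_mul_of_nonneg_left ?_ (by positivity)
      have : (n : ℝ) ≤ 2 * k := hnk
      linarith
    have h1 := hk₀ k hk0 N hsf hpr' hNX
    have h2 := hmom k N hkpos hsf W hW0.le h1 ι hsize
    have hE : N.primeFactors.card ≤ ⌈(β + δ) * n⌉₊ := by
      refine card_pf_le N _ hN0 ?_
      have h3 : (N : ℝ) ≤ (2 : ℝ) ^ ((β + δ) * n) := by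
        refine hhi.trans ?_
        have h4 : (n : ℝ) ^ B ≤ (2 : ℝ) ^ (δ * n) := by
          have : 0 ≤ (n : ℝ) ^ B := by positivity
          linarith
        calc X ≤ (2 : ℝ) ^ (β * n) * (2 : ℝ) ^ (δ * n) := mul_le_mul_of_nonneg_left h4 (by positivity)
          _ = _ := by rw [← Real.rpow_add (by norm_num)]; congr 1; ring
      have h5 : (N : ℝ) ≤ (2 : ℝ) ^ (⌈(β + δ) * n⌉₊ : ℝ) :=
        h3.trans (Real.rpow_le_rpow_of_exponent_le (by norm_num) (Nat.le_ceil _))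
      rw [Real.rpow_natCast] at h5
      exact_mod_cast h5
    have ht : 2 * (N.primeFactors.card : ℝ) ≤ (n : ℝ) ^ b₁ := by
      have h6 : (⌈(β + δ) * n⌉₊ : ℝ) < (β + δ) * n + 1 := Nat.ceil_lt_add_one (by positivity)
      have h7 : ((N.primeFactors.card : ℕ) : ℝ) ≤ (⌈(β + δ) * n⌉₊ : ℝ) := by exact_mod_cast hE
      linarith
    have hphi := le_two_totient N _ (by positivity) hsf (fun p hp hpN => (hpr p hp hpN).1) ht
    have hNpos : (0 : ℝ) < N := by exact_mod_cast Nat.pos_of_ne_zero hN0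
    have hφ : (0 : ℝ) < Nat.totient N := by linarith
    have hT : (0 : ℝ) < 2 ^ Fintype.card (Sym2 ι) := by positivity
    refine le_of_mul_le_mul_right (h2.trans ?_) hφ
    have : (N : ℝ) * (W * 2 ^ Fintype.card (Sym2 ι)) ≤ 2 * Nat.totient N * (W * 2 ^ Fintype.card (Sym2 ι)) :=
      mul_le_mul_of_nonneg_right hphi (by positivity)
    nlinarith
  -- union
  let Wd : Finset ℕ := (range (⌊X⌋₊ + 1)).filter Q
  have hsub : (Nat.card {b : Sym2 ι → Bool // ∃ N : ℕ, Squarefree N ∧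
      (∀ p, p.Prime → p ∣ N → (n : ℝ) ^ b₁ ≤ p ∧ (p : ℝ) ≤ (n : ℝ) ^ B) ∧
      (2 : ℝ) ^ (β * n) ≤ N ∧ (N : ℝ) ≤ (2 : ℝ) ^ (β * n) * (n : ℝ) ^ B ∧ ¬ GoodSym N b}) ≤
      ∑ N ∈ Wd, Nat.card {b : Sym2 ι → Bool // ¬ GoodSym N b} := by
    simp only [Nat.card_eq_fintype_card, Fintype.card_subtype]
    refine le_trans (card_le_card ?_) card_biUnion_le
    intro b hb
    simp only [mem_filter, mem_univ, true_and, mem_biUnion] at hb ⊢
    obtain ⟨N, h1, h2, h3, h4, h5⟩ := hb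
    refine ⟨N, ?_, h5⟩
    simp only [Wd, mem_filter, mem_range]
    exact ⟨Nat.lt_succ_of_le (Nat.le_floor h4), h1, h2, h3, h4⟩
  have hcardW : ((Wd.card : ℕ) : ℝ) ≤ X + 1 := by
    have h1 : Wd.card ≤ ⌊X⌋₊ + 1 := (card_filter_le _ _).trans (by rw [card_range])
    have h2 : ((Wd.card : ℕ) : ℝ) ≤ (⌊X⌋₊ : ℝ) + 1 := by exact_mod_cast h1
    have h3 : (⌊X⌋₊ : ℝ) ≤ X := Nat.floor_le hX0.le
    linarith
  have hfin : ((Nat.card {b : Sym2 ι → Bool // ∃ N : ℕ, Squarefree N ∧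
      (∀ p, p.Prime → p ∣ N → (n : ℝ) ^ b₁ ≤ p ∧ (p : ℝ) ≤ (n : ℝ) ^ B) ∧
      (2 : ℝ) ^ (β * n) ≤ N ∧ (N : ℝ) ≤ (2 : ℝ) ^ (β * n) * (n : ℝ) ^ B ∧ ¬ GoodSym N b} : ℕ) : ℝ) ≤
      (X + 1) * (2 * W * 2 ^ Fintype.card (Sym2 ι)) := by
    calc _ ≤ ((∑ N ∈ Wd, Nat.card {b : Sym2 ι → Bool // ¬ GoodSym N b} : ℕ) : ℝ) := by exact_mod_cast hsub
      _ = ∑ N ∈ Wd, (Nat.card {b : Sym2 ι → Bool // ¬ GoodSym N b} : ℝ) := by push_cast; rfl
      _ ≤ ∑ _N ∈ Wd, 2 * W * 2 ^ Fintype.card (Sym2 ι) := by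
          refine sum_le_sum fun N hN => hone N ?_
          exact (mem_filter.1 hN).2
      _ = Wd.card * (2 * W * 2 ^ Fintype.card (Sym2 ι)) := by rw [sum_const, nsmul_eq_mul]
      _ ≤ _ := mul_le_mul_of_nonneg_right hcardW (by positivity)
  refine hfin.trans ?_
  have hX1 : (1 : ℝ) ≤ X := by
    have h1 : (1 : ℝ) ≤ (2 : ℝ) ^ (β * n) := Real.one_le_rpow (by norm_num) (by positivity)
    have h2 : (1 : ℝ) ≤ (n : ℝ) ^ B := Real.one_le_rpow hnR (by linarith)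
    nlinarith
  have hfac : (X + 1) * 2 ≤ (2 : ℝ) ^ ((β + δ) * n) := by
    calc (X + 1) * 2 ≤ 4 * X := by linarith
      _ = (2 : ℝ) ^ (β * n) * (4 * (n : ℝ) ^ B) := by rw [hX]; ring
      _ ≤ (2 : ℝ) ^ (β * n) * (2 : ℝ) ^ (δ * n) := mul_le_mul_of_nonneg_left e2 (by positivity)
      _ = _ := by rw [← Real.rpow_add (by norm_num)]; congr 1; ring
  calc (X + 1) * (2 * W * 2 ^ Fintype.card (Sym2 ι)) = ((X + 1) * 2) * W * 2 ^ Fintype.card (Sym2 ι) := by ring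
    _ ≤ ((2 : ℝ) ^ ((β + δ) * n) * (2 : ℝ) ^ (-(c / 2 * n))) * 2 ^ Fintype.card (Sym2 ι) := by
        refine mul_le_mul_of_nonneg_right ?_ (by positivity)
        exact mul_le_mul hfac hWn hW0.le (by positivity)
    _ = _ := by
        rw [← Real.rpow_add (by norm_num)]
        congr 2
        ring

end Vale.Agent.P160.Half.M8
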