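import Vale.Agent.P160.Half.Corank

/-! # P160, rate 1/2: outer shell, part 1

If few symmetric 0/1 matrices have corank exactly one (over `ℚ`), then few are singular. -/

set_option linter.unusedSectionVars false

namespace Vale.Agent.P160.Half.Shell

open Finset Matrix Vale.Agent.P160.Half Filter

/-- the rational matrix of a bit array -/
def matQ {α : Type*} (b : Sym2 α → Bool) : Matrix α α ℚ := (matZ b).map (Int.cast : ℤ → ℚ)

open Classical in
/-- few symmetric 0/1 matrices have corank exactly one -/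
def Cor1Small : Prop := ∀ ε : ℝ, 0 < ε → ∃ n₀ : ℕ, ∀ n ≥ n₀,
  (((univ : Finset (Sym2 (Fin n) → Bool)).filter fun b => (matQ b).rank + 1 = n).card : ℝ) ≤
    (2 : ℝ) ^ (-((1 - ε) * n)) * 2 ^ Fintype.card (Sym2 (Fin n))

open Classical in
/-- few symmetric 0/1 matrices are singular -/
def SingSmall : Prop := ∀ ε : ℝ, 0 < ε → ∃ n₀ : ℕ, ∀ n ≥ n₀,
  (((univ : Finset (Sym2 (Fin n) → Bool)).filter fun b => (matZ b).det = 0).card : ℝ) ≤
    (2 : ℝ) ^ (-((1 - ε) * n)) * 2 ^ Fintype.card (Sym2 (Fin n))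

theorem card_comp_le {S U : Type*} [Fintype S] [DecidableEq S] [Fintype U] [DecidableEq U]
    (ι : S → U) (hι : Function.Injective ι) (P : (S → Bool) → Prop) [DecidablePred P]
    [DecidablePred fun f : U → Bool => P (f ∘ ι)] :
    (univ.filter fun f : U → Bool => P (f ∘ ι)).card * 2 ^ Fintype.card S ≤
      (univ.filter P).card * 2 ^ Fintype.card U := by
  classical
  have h1 : (univ.filter fun f : U → Bool => P (f ∘ ι)).card ≤
      ((univ.filter P) ×ˢ (univ : Finset ({x : U // x ∉ Set.range ι} → Bool))).card := by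
    refine card_le_card_of_injOn (fun f => (f ∘ ι, fun x => f x)) ?_ ?_
    · intro f hf
      have hf' := (mem_filter.1 hf).2
      exact mem_coe.2 (mem_product.2 ⟨mem_filter.2 ⟨mem_univ _, hf'⟩, mem_univ _⟩)
    · intro f _ g _ h
      have h1 := (Prod.mk.inj h).1
      have h2 := (Prod.mk.inj h).2
      funext x
      by_cases hx : x ∈ Set.range ι
      · obtain ⟨s, rfl⟩ := hx
        exact congrFun h1 s
      · exact congrFun h2 ⟨x, hx⟩
  have h2 : Fintype.card {x : U // x ∉ Set.range ι} + Fintype.card S = Fintype.card U := by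
    have h3 : Fintype.card {x : U // x ∈ Set.range ι} = Fintype.card S :=
      Fintype.card_congr (Equiv.ofInjective ι hι).symm
    have h4 := Fintype.card_subtype_compl (fun x : U => x ∈ Set.range ι)
    have h5 : Fintype.card {x : U // x ∈ Set.range ι} ≤ Fintype.card U := Fintype.card_subtype_le _
    rw [h4, h3]
    omega
  rw [card_product, card_univ, Fintype.card_fun, Fintype.card_bool] at h1
  calc (univ.filter fun f : U → Bool => P (f ∘ ι)).card * 2 ^ Fintype.card S
      ≤ ((univ.filter P).card * 2 ^ Fintype.card {x : U // x ∉ Set.range ι}) *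
        2 ^ Fintype.card S := Nat.mul_le_mul_right _ h1
    _ = (univ.filter P).card * 2 ^ Fintype.card U := by
        rw [mul_assoc, ← pow_add, h2]

theorem rank_submatrix_le' {F : Type*} [Field F] {α β γ δ : Type*} [Fintype α] [DecidableEq α]
    [Fintype β] [DecidableEq β] [Fintype γ] [DecidableEq γ] [Fintype δ] [DecidableEq δ]
    (M : Matrix α β F) (f : γ → α) (g : δ → β) : (M.submatrix f g).rank ≤ M.rank := by
  have h : M.submatrix f g = (1 : Matrix α α F).submatrix f id * M * (1 : Matrix β β F).submatrix id g := by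
    ext i j
    simp [Matrix.mul_apply, Matrix.one_apply]
  rw [h]
  exact (Matrix.rank_mul_le_left _ _).trans (Matrix.rank_mul_le_right _ _)

section corank

variable {α : Type*} [Fintype α] [DecidableEq α]

theorem matQ_symm (b : Sym2 α → Bool) (i j : α) : matQ b i j = matQ b j i := by
  rw [matQ, map_apply, map_apply, matZ_symm]

theorem det_prin_matQ (b : Sym2 α → Bool) (A : Finset α) :
    (prin (matQ b) A).det = ((prin (matZ b) A).det : ℚ) := by
  have h1 : prin (matQ b) A = (Int.castRingHom ℚ).mapMatrix (prin (matZ b) A) := rfl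
  rw [h1, ← RingHom.map_det]
  rfl

theorem card_le_rank_of_det {F : Type*} [Field F] (M : Matrix α α F) (A : Finset α)
    (h : (prin M A).det ≠ 0) : A.card ≤ M.rank := by
  have h1 : (prin M A).rank = A.card := by
    rw [Matrix.rank_of_isUnit _ ((Matrix.isUnit_iff_isUnit_det _).2 (isUnit_iff_ne_zero.2 h)),
      Fintype.card_coe]
  rw [← h1]
  exact rank_submatrix_le' M _ _

theorem rank_prin_univ {F : Type*} [Field F] (M : Matrix α α F) :
    (prin M univ).rank = M.rank := by
  apply le_antisymm (rank_submatrix_le' M _ _)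
  have h : M = (prin M univ).submatrix (fun i => ⟨i, mem_univ i⟩) (fun i => ⟨i, mem_univ i⟩) := rfl
  conv_lhs => rw [h]
  exact rank_submatrix_le' (prin M univ) _ _

/-- the rank mod `p` is at most the rank over `ℚ` -/
theorem rank_modp_le (b : Sym2 α → Bool) (p : ℕ) [Fact p.Prime] :
    (prin ((matZ b).map (Int.cast : ℤ → ZMod p)) univ).rank ≤ (matQ b).rank := by
  obtain ⟨A, -, hc, hdet, -⟩ := exists_base ((matZ b).map (Int.cast : ℤ → ZMod p))
    (fun i j => by rw [map_apply, map_apply, matZ_symm]) univ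
  rw [← hc]
  apply card_le_rank_of_det
  rw [det_prin_matQ]
  have hm1 : (prin ((matZ b).map (Int.cast : ℤ → ZMod p)) A).det =
      ((prin (matZ b) A).det : ZMod p) := by
    have h1 : prin ((matZ b).map (Int.cast : ℤ → ZMod p)) A =
      (Int.castRingHom (ZMod p)).mapMatrix (prin (matZ b) A) := rfl
    rw [h1, ← RingHom.map_det]
    rfl
  rw [hm1] at hdet
  intro h0
  apply hdet
  have h1 : (prin (matZ b) A).det = 0 := by exact_mod_cast h0
  rw [h1, Int.cast_zero]

/-- a singular symmetric matrix has a principal submatrix of corank exactly one -/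
theorem exists_corank_one (b : Sym2 α → Bool) (h : (matQ b).rank < Fintype.card α) :
    ∃ T : Finset α, T.card = (matQ b).rank + 1 ∧ (prin (matQ b) T).rank + 1 = T.card := by
  obtain ⟨A, -, hc, hdet, -⟩ := exists_base (matQ b) (matQ_symm b) univ
  rw [rank_prin_univ] at hc
  have h1 : ∃ i, i ∉ A := by
    by_contra hcon
    push Not at hcon
    have : A = univ := eq_univ_iff_forall.2 hcon
    rw [this, card_univ] at hc
    omega
  obtain ⟨i, hi⟩ := h1
  refine ⟨insert i A, ?_, ?_⟩
  · rw [card_insert_of_notMem hi, hc]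
  · rw [card_insert_of_notMem hi]
    congr 1
    apply le_antisymm
    · rw [hc]
      exact rank_submatrix_le' (matQ b) _ _
    · have h2 : (prin (matQ b) A).rank = A.card := by
        rw [Matrix.rank_of_isUnit _ ((Matrix.isUnit_iff_isUnit_det _).2
          (isUnit_iff_ne_zero.2 hdet)), Fintype.card_coe]
      rw [← h2]
      have h3 : prin (matQ b) A = (prin (matQ b) (insert i A)).submatrix
          (fun a : A => ⟨(a : α), mem_insert_of_mem a.2⟩)
          (fun a : A => ⟨(a : α), mem_insert_of_mem a.2⟩) := rfl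
      conv_lhs => rw [h3]
      exact rank_submatrix_le' _ _ _

end corank

open Classical in
/-- principal submatrix events have the density of the smaller model -/
theorem card_prin_le {n : ℕ} (T : Finset (Fin n)) :
    (univ.filter fun b : Sym2 (Fin n) → Bool => (prin (matQ b) T).rank + 1 = T.card).card *
        2 ^ Fintype.card (Sym2 (Fin T.card)) ≤
      (univ.filter fun b : Sym2 (Fin T.card) → Bool => (matQ b).rank + 1 = T.card).card *
        2 ^ Fintype.card (Sym2 (Fin n)) := by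
  let e : Fin T.card ≃ T := T.equivFin.symm
  have hinj : Function.Injective (Sym2.map fun i : Fin T.card => ((e i : T) : Fin n)) :=
    Sym2.map.injective (Subtype.val_injective.comp e.injective)
  have h1 := card_comp_le (Sym2.map fun i : Fin T.card => ((e i : T) : Fin n)) hinj
    (fun b : Sym2 (Fin T.card) → Bool => (matQ b).rank + 1 = T.card)
  refine le_trans (le_of_eq ?_) h1
  congr 2
  apply filter_congr
  intro b _
  have h2 : matQ (b ∘ Sym2.map fun i : Fin T.card => ((e i : T) : Fin n)) =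
      (prin (matQ b) T).submatrix e e := by
    ext i j
    rfl
  rw [h2, Matrix.rank_submatrix]

theorem sum_pow_le (n : ℕ) (hn : 1 ≤ n) (k : ℕ) : ∑ i ∈ range k, n ^ i ≤ (n + 1) ^ k := by
  induction k with
  | zero => simp
  | succ k ih =>
    rw [sum_range_succ, pow_succ, mul_add, mul_one]
    have h1 : n ^ k ≤ (n + 1) ^ k * n := by
      calc n ^ k ≤ (n + 1) ^ k := Nat.pow_le_pow_left (Nat.le_succ n) k
        _ = (n + 1) ^ k * 1 := (mul_one _).symm
        _ ≤ (n + 1) ^ k * n := Nat.mul_le_mul_left _ hn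
    omega

theorem card_large_sets (n : ℕ) (hn : 1 ≤ n) (k : ℕ) :
    (univ.filter fun T : Finset (Fin n) => n < T.card + k).card ≤ (n + 1) ^ k := by
  calc (univ.filter fun T : Finset (Fin n) => n < T.card + k).card
      ≤ ((range k).biUnion fun i => powersetCard i (univ : Finset (Fin n))).card := by
        refine card_le_card_of_injOn (fun T => Tᶜ) ?_ (compl_injective.injOn)
        intro T hT
        have h1 := (mem_filter.1 hT).2
        have h2 : T.card ≤ n := by simpa using card_le_univ T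
        refine mem_coe.2 (mem_biUnion.2 ⟨(Tᶜ).card, ?_, ?_⟩)
        · rw [mem_range, card_compl, Fintype.card_fin]
          omega
        · rw [mem_powersetCard]
          exact ⟨subset_univ _, rfl⟩
    _ ≤ ∑ i ∈ range k, (powersetCard i (univ : Finset (Fin n))).card := card_biUnion_le
    _ = ∑ i ∈ range k, n.choose i := by
        refine sum_congr rfl fun i _ => ?_
        rw [card_powersetCard, card_univ, Fintype.card_fin]
    _ ≤ ∑ i ∈ range k, n ^ i := sum_le_sum fun i _ => Nat.choose_le_pow n i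
    _ ≤ (n + 1) ^ k := sum_pow_le n hn k

open Classical in
theorem card_large_corank (n k : ℕ) (hn : 1 ≤ n) (hk : 26 * n ≤ k ^ 2) :
    (univ.filter fun b : Sym2 (Fin n) → Bool => (matQ b).rank + k ≤ n).card * 2 ^ n ≤
      2 ^ Fintype.card (Sym2 (Fin n)) := by
  have h1 := card_corank_le_exp (α := Fin n) 1 k (by simpa using hn) (by
    rw [Fintype.card_fin]; omega)
  rw [Fintype.card_fin, one_mul] at h1
  refine le_trans (Nat.mul_le_mul_right _ (card_le_card ?_)) h1
  intro b hb
  have hb' := (mem_filter.1 hb).2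
  refine mem_filter.2 ⟨mem_univ _, 2, ⟨Nat.prime_two⟩, univ, ?_⟩
  have : Fact (Nat.Prime 2) := ⟨Nat.prime_two⟩
  have h2 := rank_modp_le b 2
  rw [card_univ, Fintype.card_fin]
  omega

/-- the number of exceptional coranks is subexponential -/
theorem ev_num {ε : ℝ} (hε : 0 < ε) : ∃ n₀ : ℕ, ∀ n ≥ n₀, ∀ k : ℕ, (k : ℝ) ≤ 6 * Real.sqrt n + 1 →
    ((n : ℝ) + 1) ^ k * 2 ^ (k : ℝ) * 2 ≤ (2 : ℝ) ^ (ε * n) := by
  have h1 := (isLittleO_log_rpow_atTop (r := 1 / 2) (by norm_num)).def (c := ε / 100) (by positivity)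
  have h2 : ∀ᶠ x : ℝ in atTop, ‖Real.log x‖ ≤ ε / 100 * ‖x ^ (1 / 2 : ℝ)‖ := h1
  have h3 : ∀ᶠ n : ℕ in atTop, ‖Real.log ((n : ℝ) + 1)‖ ≤ ε / 100 * ‖((n : ℝ) + 1) ^ (1 / 2 : ℝ)‖ := by
    have h4 : Tendsto (fun n : ℕ => (n : ℝ) + 1) atTop atTop :=
      tendsto_natCast_atTop_atTop.atTop_add tendsto_const_nhds
    exact h4.eventually h2
  have h5 : ∀ᶠ n : ℕ in atTop, (200 / ε) ^ 2 + 1 ≤ (n : ℝ) :=
    tendsto_natCast_atTop_atTop.eventually_ge_atTop _
  obtain ⟨n₀, hn₀⟩ := eventually_atTop.1 (h3.and h5)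
  refine ⟨n₀, fun n hn k hk => ?_⟩
  obtain ⟨h6, h7⟩ := hn₀ n hn
  have hn1 : (1 : ℝ) ≤ n := by nlinarith [sq_nonneg (200 / ε)]
  set s := Real.sqrt n with hs
  have hs0 : 0 ≤ s := Real.sqrt_nonneg _
  have hss : s * s = n := Real.mul_self_sqrt (by linarith)
  have hs1 : 1 ≤ s := by
    rw [hs]; exact Real.one_le_sqrt.2 hn1
  have hs2 : 200 / ε ≤ s := by
    rw [hs]; apply Real.le_sqrt_of_sq_le; linarith
  have hlog : Real.log ((n : ℝ) + 1) ≤ ε / 100 * (2 * s) := by
    have h8 : 0 ≤ Real.log ((n : ℝ) + 1) := Real.log_nonneg (by linarith)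
    rw [Real.norm_eq_abs, abs_of_nonneg h8, Real.norm_eq_abs, abs_of_nonneg (by positivity)] at h6
    refine h6.trans (mul_le_mul_of_nonneg_left ?_ (by positivity))
    rw [← Real.sqrt_eq_rpow]
    rw [Real.sqrt_le_left (by positivity)]
    nlinarith
  have hk' : (k : ℝ) ≤ 7 * s := by linarith
  have hk0 : (0 : ℝ) ≤ k := Nat.cast_nonneg k
  have e1 : ((n : ℝ) + 1) ^ k = (2 : ℝ) ^ (Real.log ((n : ℝ) + 1) / Real.log 2 * k) := by
    rw [Real.rpow_mul (by norm_num), Real.rpow_natCast]
    congr 1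
    rw [Real.log_div_log, Real.rpow_logb (by norm_num) (by norm_num) (by linarith)]
  rw [e1, ← Real.rpow_add (by norm_num)]
  have e2 : (2 : ℝ) ^ (Real.log ((n : ℝ) + 1) / Real.log 2 * k + k) * 2 =
      (2 : ℝ) ^ (Real.log ((n : ℝ) + 1) / Real.log 2 * k + k + 1) := by
    rw [Real.rpow_add (by norm_num) _ 1, Real.rpow_one]
  rw [e2]
  apply Real.rpow_le_rpow_of_exponent_le (by norm_num)
  have hl2 : (1 / 2 : ℝ) ≤ Real.log 2 := by have := Real.log_two_gt_d9; linarith
  have h9 : Real.log ((n : ℝ) + 1) / Real.log 2 ≤ 2 * (ε / 100 * (2 * s)) := by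
    rw [div_le_iff₀ (by linarith)]
    have : 0 ≤ ε / 100 * (2 * s) := by positivity
    nlinarith
  have h10 : Real.log ((n : ℝ) + 1) / Real.log 2 * k ≤ 2 * (ε / 100 * (2 * s)) * (7 * s) :=
    mul_le_mul h9 hk' hk0 (by positivity)
  have h11 : 2 * (ε / 100 * (2 * s)) * (7 * s) = 28 / 100 * ε * n := by
    rw [← hss]; ring
  have h12 : 7 * s ≤ 7 / 200 * ε * n := by
    rw [← hss]
    have : 200 ≤ s * ε := (div_le_iff₀ hε).1 hs2
    nlinarith
  have h13 : (1 : ℝ) ≤ 1 / 200 * ε * n := by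
    rw [← hss]
    have : 200 ≤ s * ε := (div_le_iff₀ hε).1 hs2
    nlinarith
  nlinarith

open Classical in
/-- few singular matrices if there are few of corank exactly one, with rates `ε' < ε` -/
theorem sing_step (ε' ε : ℝ) (hε' : 0 ≤ ε') (hεε : ε' < ε)
    (h : ∃ n₀ : ℕ, ∀ n ≥ n₀,
      (((univ : Finset (Sym2 (Fin n) → Bool)).filter fun b => (matQ b).rank + 1 = n).card : ℝ) ≤
        (2 : ℝ) ^ (-((1 - ε') * n)) * 2 ^ Fintype.card (Sym2 (Fin n))) :
    ∃ n₀ : ℕ, ∀ n ≥ n₀,
      (((univ : Finset (Sym2 (Fin n) → Bool)).filter fun b => (matZ b).det = 0).card : ℝ) ≤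
        (2 : ℝ) ^ (-((1 - ε) * n)) * 2 ^ Fintype.card (Sym2 (Fin n)) := by
  have hε : 0 < ε := lt_of_le_of_lt hε' hεε
  obtain ⟨n₁, hn₁⟩ := h
  obtain ⟨n₂, hn₂⟩ := ev_num (ε := ε - ε') (by linarith)
  have h3 : ∀ᶠ n : ℕ in atTop, 1 / ε + 1 ≤ (n : ℝ) ∧ ((n₁ : ℝ) + 1 + 100) * 2 ≤ n :=
    (tendsto_natCast_atTop_atTop.eventually_ge_atTop _).and
      (tendsto_natCast_atTop_atTop.eventually_ge_atTop _)
  obtain ⟨n₃, hn₃⟩ := eventually_atTop.1 h3
  refine ⟨max n₂ n₃, fun n hn => ?_⟩
  have hn2 := hn₂ n (le_trans (le_max_left _ _) hn)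
  obtain ⟨hn3, hn4⟩ := hn₃ n (le_trans (le_max_right _ _) hn)
  have hnR : (1 : ℝ) ≤ n := by have : 0 < 1 / ε := by positivity
                               linarith
  have hn1 : 1 ≤ n := by exact_mod_cast hnR
  set k := Nat.sqrt (26 * n) + 1 with hk
  have hk1 : 26 * n ≤ k ^ 2 := by
    have := Nat.lt_succ_sqrt (26 * n)
    rw [hk, sq]
    exact this.le
  set s := Real.sqrt n with hs
  have hs0 : 0 ≤ s := Real.sqrt_nonneg _
  have hss : s * s = n := Real.mul_self_sqrt (by linarith)
  have hk2 : (k : ℝ) ≤ 6 * s + 1 := by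
    have h1 : ((Nat.sqrt (26 * n) : ℕ) : ℝ) ≤ 6 * s := by
      have h2 : ((Nat.sqrt (26 * n) : ℕ) : ℝ) * ((Nat.sqrt (26 * n) : ℕ) : ℝ) ≤ 26 * n := by
        exact_mod_cast Nat.sqrt_le (26 * n)
      have h3 : (0 : ℝ) ≤ ((Nat.sqrt (26 * n) : ℕ) : ℝ) := Nat.cast_nonneg _
      nlinarith
    rw [hk]
    push_cast
    linarith
  have hn6 := hn2 k hk2
  have hs13 : 13 ≤ s := by
    have : (0 : ℝ) ≤ n₁ := Nat.cast_nonneg _
    rw [hs]; apply Real.le_sqrt_of_sq_le; linarith
  have hkn : (k : ℝ) ≤ n / 2 := by nlinarith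
  set tot : ℝ := 2 ^ Fintype.card (Sym2 (Fin n)) with htot
  have htot0 : 0 < tot := by positivity
  -- large corank
  have hA : ((univ.filter fun b : Sym2 (Fin n) → Bool => (matQ b).rank + k ≤ n).card : ℝ) ≤
      (2 : ℝ) ^ (-(n : ℝ)) * tot := by
    have h1 : ((univ.filter fun b : Sym2 (Fin n) → Bool => (matQ b).rank + k ≤ n).card : ℝ) *
        2 ^ n ≤ tot := by
      rw [htot]
      exact_mod_cast card_large_corank n k hn1 hk1
    rw [Real.rpow_neg (by norm_num), Real.rpow_natCast, inv_mul_eq_div, le_div_iff₀ (by positivity)]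
    exact h1
  -- principal minors
  have hB : ∀ T ∈ univ.filter (fun T : Finset (Fin n) => n < T.card + k),
      ((univ.filter fun b : Sym2 (Fin n) → Bool =>
        (prin (matQ b) T).rank + 1 = T.card).card : ℝ) ≤
        (2 : ℝ) ^ (-((1 - ε') * n)) * 2 ^ (k : ℝ) * tot := by
    intro T hT
    have hTk : n < T.card + k := (mem_filter.1 hT).2
    have hTn : T.card ≤ n := by simpa using card_le_univ T
    have hTkR : (n : ℝ) < T.card + k := by exact_mod_cast hTk
    have hTnR : (T.card : ℝ) ≤ n := by exact_mod_cast hTn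
    have hT1 : n₁ ≤ T.card := by
      have : (n₁ : ℝ) ≤ T.card := by linarith
      exact_mod_cast this
    have h1 := hn₁ T.card hT1
    have h2 : ((univ.filter fun b : Sym2 (Fin n) → Bool =>
        (prin (matQ b) T).rank + 1 = T.card).card : ℝ) * 2 ^ Fintype.card (Sym2 (Fin T.card)) ≤
        ((univ.filter fun b : Sym2 (Fin T.card) → Bool => (matQ b).rank + 1 = T.card).card : ℝ) *
        tot := by
      rw [htot]
      exact_mod_cast card_prin_le T
    have h3 : (0 : ℝ) < 2 ^ Fintype.card (Sym2 (Fin T.card)) := by positivity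
    have h4 : ((univ.filter fun b : Sym2 (Fin n) → Bool =>
        (prin (matQ b) T).rank + 1 = T.card).card : ℝ) ≤
        (2 : ℝ) ^ (-((1 - ε') * T.card)) * tot := by
      refine le_of_mul_le_mul_right ?_ h3
      calc ((univ.filter fun b : Sym2 (Fin n) → Bool =>
        (prin (matQ b) T).rank + 1 = T.card).card : ℝ) * 2 ^ Fintype.card (Sym2 (Fin T.card))
          ≤ _ := h2
        _ ≤ ((2 : ℝ) ^ (-((1 - ε') * T.card)) * 2 ^ Fintype.card (Sym2 (Fin T.card))) * tot :=
            mul_le_mul_of_nonneg_right h1 htot0.le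
        _ = _ := by ring
    refine h4.trans (mul_le_mul_of_nonneg_right ?_ htot0.le)
    rw [← Real.rpow_add (by norm_num)]
    apply Real.rpow_le_rpow_of_exponent_le (by norm_num)
    nlinarith
  -- union
  have hU : (univ.filter fun b : Sym2 (Fin n) → Bool => (matZ b).det = 0) ⊆
      (univ.filter fun b : Sym2 (Fin n) → Bool => (matQ b).rank + k ≤ n) ∪
      (univ.filter (fun T : Finset (Fin n) => n < T.card + k)).biUnion fun T =>
        univ.filter fun b : Sym2 (Fin n) → Bool => (prin (matQ b) T).rank + 1 = T.card := by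
    intro b hb
    have hdet := (mem_filter.1 hb).2
    have hlt : (matQ b).rank < n := by
      by_contra hcon
      push Not at hcon
      have h1 : (matQ b).rank = Fintype.card (Fin n) :=
        le_antisymm (Matrix.rank_le_card_width _) (by simpa using hcon)
      have h2 : (matQ b).det = ((matZ b).det : ℚ) := by
        have h1 : matQ b = (Int.castRingHom ℚ).mapMatrix (matZ b) := rfl
        rw [h1, ← RingHom.map_det]
        rfl
      have h3 : (matQ b).det = 0 := by rw [h2, hdet, Int.cast_zero]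
      obtain ⟨v, hv, hv0⟩ := Matrix.exists_mulVec_eq_zero_iff.2 h3
      have h4 : LinearIndependent ℚ (matQ b).col := by
        rw [linearIndependent_iff_card_eq_finrank_span, Set.finrank,
          ← Matrix.rank_eq_finrank_span_cols, h1]
      have h5 := Matrix.mulVec_injective_iff.2 h4
      exact hv (h5 (by rw [hv0, Matrix.mulVec_zero]))
    by_cases hc : (matQ b).rank + k ≤ n
    · exact mem_union_left _ (mem_filter.2 ⟨mem_univ _, hc⟩)
    · obtain ⟨T, hT1, hT2⟩ := exists_corank_one b (by simpa using hlt)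
      refine mem_union_right _ (mem_biUnion.2 ⟨T, mem_filter.2 ⟨mem_univ _, ?_⟩,
        mem_filter.2 ⟨mem_univ _, hT2⟩⟩)
      omega
  have hfin : ((univ.filter fun b : Sym2 (Fin n) → Bool => (matZ b).det = 0).card : ℝ) ≤
      (2 : ℝ) ^ (-(n : ℝ)) * tot + ((n : ℝ) + 1) ^ k *
        ((2 : ℝ) ^ (-((1 - ε') * n)) * 2 ^ (k : ℝ) * tot) := by
    have h1 := (card_le_card hU).trans (card_union_le _ _)
    have h2 : ((univ.filter fun b : Sym2 (Fin n) → Bool => (matZ b).det = 0).card : ℝ) ≤
      ((univ.filter fun b : Sym2 (Fin n) → Bool => (matQ b).rank + k ≤ n).card : ℝ) +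
      (((univ.filter (fun T : Finset (Fin n) => n < T.card + k)).biUnion fun T =>
        univ.filter fun b : Sym2 (Fin n) → Bool => (prin (matQ b) T).rank + 1 = T.card).card : ℝ) := by
      exact_mod_cast h1
    refine h2.trans (add_le_add hA ?_)
    have h3 : (((univ.filter (fun T : Finset (Fin n) => n < T.card + k)).biUnion fun T =>
        univ.filter fun b : Sym2 (Fin n) → Bool => (prin (matQ b) T).rank + 1 = T.card).card : ℝ) ≤
        ∑ T ∈ univ.filter (fun T : Finset (Fin n) => n < T.card + k),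
          ((univ.filter fun b : Sym2 (Fin n) → Bool =>
            (prin (matQ b) T).rank + 1 = T.card).card : ℝ) := by
      exact_mod_cast card_biUnion_le
    refine h3.trans ((sum_le_sum hB).trans ?_)
    rw [sum_const, nsmul_eq_mul]
    refine mul_le_mul_of_nonneg_right ?_ (by positivity)
    exact_mod_cast card_large_sets n hn1 k
  refine hfin.trans ?_
  have e1 : (2 : ℝ) ^ (-(n : ℝ)) ≤ 1 / 2 * (2 : ℝ) ^ (-((1 - ε) * n)) := by
    have h1 : (1 / 2 : ℝ) = (2 : ℝ) ^ (-1 : ℝ) := by rw [Real.rpow_neg_one]; norm_num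
    rw [h1, ← Real.rpow_add (by norm_num)]
    apply Real.rpow_le_rpow_of_exponent_le (by norm_num)
    have h2 : 1 ≤ ε * n := by
      have h3 : 1 / ε ≤ n := by linarith
      rw [div_le_iff₀ hε] at h3
      linarith
    nlinarith
  have e2 : ((n : ℝ) + 1) ^ k * ((2 : ℝ) ^ (-((1 - ε') * n)) * 2 ^ (k : ℝ)) ≤
      1 / 2 * (2 : ℝ) ^ (-((1 - ε) * n)) := by
    have h1 : (2 : ℝ) ^ (-((1 - ε) * n)) = (2 : ℝ) ^ ((ε - ε') * n) * (2 : ℝ) ^ (-((1 - ε') * n)) := by
      rw [← Real.rpow_add (by norm_num)]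
      congr 1
      ring
    rw [h1]
    have h2 : (0 : ℝ) < (2 : ℝ) ^ (-((1 - ε') * n)) := by positivity
    nlinarith [mul_le_mul_of_nonneg_right hn6 h2.le]
  calc (2 : ℝ) ^ (-(n : ℝ)) * tot + ((n : ℝ) + 1) ^ k *
        ((2 : ℝ) ^ (-((1 - ε') * n)) * 2 ^ (k : ℝ) * tot)
      = ((2 : ℝ) ^ (-(n : ℝ)) + ((n : ℝ) + 1) ^ k *
        ((2 : ℝ) ^ (-((1 - ε') * n)) * 2 ^ (k : ℝ))) * tot := by ring
    _ ≤ (1 / 2 * (2 : ℝ) ^ (-((1 - ε) * n)) + 1 / 2 * (2 : ℝ) ^ (-((1 - ε) * n))) * tot :=
        mul_le_mul_of_nonneg_right (add_le_add e1 e2) htot0.le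
    _ = (2 : ℝ) ^ (-((1 - ε) * n)) * tot := by ring

/-- **few singular matrices** if there are few of corank exactly one -/
theorem sing_of_cor1 (h : Cor1Small) : SingSmall := fun ε hε =>
  sing_step (ε / 2) ε (by positivity) (by linarith) (h (ε / 2) (by positivity))

open Classical in
/-- few matrices of corank exactly one, rate `2 ^ (-(1 - lam))` -/
def Cor1Lam (lam : ℝ) : Prop := ∀ ε : ℝ, 0 < ε → ∃ n₀ : ℕ, ∀ n ≥ n₀,
  (((univ : Finset (Sym2 (Fin n) → Bool)).filter fun b => (matQ b).rank + 1 = n).card : ℝ) ≤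
    (2 : ℝ) ^ (-((1 - lam - ε) * n)) * 2 ^ Fintype.card (Sym2 (Fin n))

open Classical in
/-- few singular matrices, rate `2 ^ (-(1 - lam))` -/
def SingLam (lam : ℝ) : Prop := ∀ ε : ℝ, 0 < ε → ∃ n₀ : ℕ, ∀ n ≥ n₀,
  (((univ : Finset (Sym2 (Fin n) → Bool)).filter fun b => (matZ b).det = 0).card : ℝ) ≤
    (2 : ℝ) ^ (-((1 - lam - ε) * n)) * 2 ^ Fintype.card (Sym2 (Fin n))

theorem sing_of_cor1_lam {lam : ℝ} (hlam : 0 ≤ lam) (h : Cor1Lam lam) : SingLam lam := by
  intro ε hε
  have h1 := sing_step (lam + ε / 2) (lam + ε) (by positivity) (by linarith)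
    (by simpa only [sub_sub] using h (ε / 2) (by positivity))
  simpa only [sub_sub] using h1

end Vale.Agent.P160.Half.Shell
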