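import Vale.Agent.P160.Half.RowHyp428
import Vale.Agent.P160.Half.Shell
import Vale.Agent.P160.Half.Fin.FStmt
import Vale.Agent.P160.Half.M8Key
import Vale.Agent.P160.Half.M8Even
import Vale.Agent.P160.Half.M8Mom
import Vale.Agent.P160.Half.M8NG

/-! # P160, rate 1/2: few singular matrices from `F.Cor1 lam`, without the `1/√2` chain (helper428)

`rowHyp` : `RowHyp b₁` from `F.Cor1 (1/4)` (`F.Top.cor1_quarter`) and the i.i.d. input; no import of `ST12`. -/

open Finset

namespace Vale.Agent.P160.Half.DetCor428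

open Vale.Agent.P160.Half Vale.Agent.P160.Half.M8Asy

/-- few singular matrices on any index type, rate `κ < 1 - lam` -/
theorem det_of_cor (lam κ : ℝ) (h0 : 0 ≤ lam) (hκ : κ < 1 - lam) (h : F.Cor1 lam) :
    ∃ n₀ : ℕ, ∀ n ≥ n₀, ∀ (ι : Type) [Fintype ι] [DecidableEq ι], Fintype.card ι = n →
    (Nat.card {b : Sym2 ι → Bool // (matZ b).det = 0} : ℝ) ≤ (2 : ℝ) ^ (-(κ * n)) * 2 ^ Fintype.card (Sym2 ι) := by
  classical
  have hc : Shell.Cor1Lam lam := fun ε hε => h ε hε
  obtain ⟨n₀, h⟩ := Shell.sing_of_cor1_lam h0 hc (1 - lam - κ) (by linarith)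
  refine ⟨n₀, fun n hn ι _ _ hc => ?_⟩
  subst hc
  let e : ι ≃ Fin (Fintype.card ι) := Fintype.equivFin ι
  have h1 : Fintype.card (Sym2 ι) = Fintype.card (Sym2 (Fin (Fintype.card ι))) :=
    Fintype.card_congr (s2e e)
  have h2 := h _ hn
  have h3 : Nat.card {b : Sym2 ι → Bool // (matZ b).det = 0} ≤
      ((univ : Finset (Sym2 (Fin (Fintype.card ι)) → Bool)).filter fun b => (matZ b).det = 0).card := by
    rw [← Fintype.card_subtype, ← Nat.card_eq_fintype_card]
    refine Nat.card_le_card_of_injective (fun b => ⟨relab e b.1, ?_⟩) ?_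
    · have h4 : matZ (relab e b.1) = (matZ b.1).submatrix e.symm e.symm := by
        ext i j
        rfl
      rw [h4, Matrix.det_submatrix_equiv_self]
      exact b.2
    · intro b b' hb
      exact Subtype.ext ((relab e).injective (congrArg Subtype.val hb))
  calc (Nat.card {b : Sym2 ι → Bool // (matZ b).det = 0} : ℝ)
      ≤ (((univ : Finset (Sym2 (Fin (Fintype.card ι)) → Bool)).filter fun b => (matZ b).det = 0).card : ℝ) := by
        exact_mod_cast h3
    _ ≤ _ := h2
    _ = _ := by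
        rw [h1]
        congr 3
        ring

/-- **The one-row hypothesis**, from `F.Cor1 (1/4)` and the i.i.d. input. -/
theorem rowHyp (hcor : F.Cor1 (1 / 4)) (b₁ : ℝ) (hb : 199 / 100 ≤ b₁)
    (hXi : ∀ B : ℝ, 2 ≤ B → M8.StmtXi b₁ (1 / 8) (3 / 5) B) : MProd.RowHyp b₁ :=
  RowHyp428.rowHyp_of (M8.notGood (M8.mom (M8.even M8.key)))
    (det_of_cor (1 / 4) (2 / 5) (by norm_num) (by norm_num) hcor) b₁ hb hXi

end Vale.Agent.P160.Half.DetCor428
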