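import Mathlib

/-!
# P160: determinant of a product of two `{-1, 0, 1}` matrices, `det (A B) ^ 2 ≤ 3 ^ r * a ^ (2 r)`
(Hadamard applied to a block matrix; replaces Cauchy-Binet).
-/

namespace Vale.Agent.P160.Half.DetMul

open Finset Matrix

/-- Hadamard's inequality -/
theorem hadamard_fin {k : ℕ} (N : Matrix (Fin k) (Fin k) ℝ) :
    N.det ^ 2 ≤ ∏ i, ∑ j, N i j ^ 2 := by
  classical
  let E := EuclideanSpace ℝ (Fin k)
  have : Fact (Module.finrank ℝ E = k) := ⟨by simp [E]⟩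
  let b : OrthonormalBasis (Fin k) ℝ E := EuclideanSpace.basisFun (Fin k) ℝ
  let o : Orientation ℝ E (Fin k) := b.toBasis.orientation
  let v : Fin k → E := fun i => WithLp.toLp 2 (fun j => N i j)
  have h1 : |o.volumeForm v| ≤ ∏ i : Fin k, ‖v i‖ := o.abs_volumeForm_apply_le v
  have h2 : o.volumeForm v = N.det := by
    rw [o.volumeForm_robust b rfl, Module.Basis.det_apply]
    have h3 : b.toBasis.toMatrix v = Nᵀ := by
      ext i j
      rw [Module.Basis.toMatrix_apply, OrthonormalBasis.coe_toBasis_repr_apply,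
        EuclideanSpace.basisFun_repr]
      rfl
    rw [h3, det_transpose]
  have h4 : ∀ i, ‖v i‖ ^ 2 = ∑ j, N i j ^ 2 := by
    intro i
    rw [EuclideanSpace.norm_sq_eq]
    exact Finset.sum_congr rfl fun j _ => by simp [v]
  rw [h2] at h1
  calc N.det ^ 2 = |N.det| ^ 2 := (sq_abs _).symm
    _ ≤ (∏ i : Fin k, ‖v i‖) ^ 2 := by gcongr
    _ = ∏ i : Fin k, ‖v i‖ ^ 2 := (Finset.prod_pow _ _ _).symm
    _ = ∏ i, ∑ j, N i j ^ 2 := Finset.prod_congr rfl fun i _ => h4 i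

theorem hadamard_real {m : Type*} [Fintype m] [DecidableEq m] (N : Matrix m m ℝ) :
    N.det ^ 2 ≤ ∏ i, ∑ j, N i j ^ 2 := by
  classical
  let e := Fintype.equivFin m
  have h := hadamard_fin (N.submatrix e.symm e.symm)
  rw [det_submatrix_equiv_self] at h
  refine h.trans (le_of_eq ?_)
  rw [← e.symm.prod_comp]
  refine Finset.prod_congr rfl fun i _ => ?_
  rw [← e.symm.sum_comp]
  rfl

theorem one_add_pow_le {a r : ℕ} (ha : 0 < a) : ((a : ℝ) + r) ^ a ≤ (a : ℝ) ^ a * 3 ^ r := by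
  have ha' : (0 : ℝ) < a := by exact_mod_cast ha
  have h1 : (a : ℝ) + r = a * (1 + r / a) := by field_simp
  rw [h1, mul_pow]
  refine mul_le_mul_of_nonneg_left ?_ (by positivity)
  have h2 : (1 + (r : ℝ) / a) ≤ Real.exp (r / a) := by
    have := Real.add_one_le_exp ((r : ℝ) / a)
    linarith
  calc (1 + (r : ℝ) / a) ^ a ≤ (Real.exp (r / a)) ^ a := by gcongr
    _ = Real.exp 1 ^ r := by
        rw [← Real.exp_nat_mul, ← Real.exp_nat_mul]
        congr 1
        field_simp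
    _ ≤ 3 ^ r := by
        have := Real.exp_one_lt_d9
        gcongr
        linarith

theorem det_mul_sq_le {m ι : Type*} [Fintype m] [DecidableEq m] [Fintype ι] [DecidableEq ι]
    (A : Matrix m ι ℝ) (B : Matrix ι m ℝ) (hA : ∀ i j, A i j ^ 2 ≤ 1) (hB : ∀ i j, B i j ^ 2 ≤ 1)
    (hr : Fintype.card m ≤ Fintype.card ι) :
    (A * B).det ^ 2 ≤ 3 ^ Fintype.card m * (Fintype.card ι : ℝ) ^ (2 * Fintype.card m) := by
  classical
  set r := Fintype.card m with hrdef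
  set a := Fintype.card ι with hadef
  rcases Nat.eq_zero_or_pos a with h0 | hpos
  · have hr0 : r = 0 := by omega
    have : IsEmpty m := Fintype.card_eq_zero_iff.1 hr0
    rw [hr0, det_isEmpty]
    simp
  have ha : (0 : ℝ) < a := by exact_mod_cast hpos
  set t : ℝ := Real.sqrt a with ht
  have ht0 : 0 < t := Real.sqrt_pos.2 ha
  have ht2 : t ^ 2 = a := Real.sq_sqrt ha.le
  have hinv : Invertible (t • (1 : Matrix ι ι ℝ)) := by
    refine ⟨t⁻¹ • (1 : Matrix ι ι ℝ), ?_, ?_⟩ <;> simp [smul_smul, ht0.ne']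
  have hinv' : ⅟(t • (1 : Matrix ι ι ℝ)) = t⁻¹ • (1 : Matrix ι ι ℝ) := by
    apply invOf_eq_right_inv
    simp [smul_smul, ht0.ne']
  have hdet : (fromBlocks (t • (1 : Matrix ι ι ℝ)) B A 0).det =
      t ^ a * ((-t⁻¹) ^ r * (A * B).det) := by
    rw [det_fromBlocks₁₁, hinv', det_smul, det_one, mul_one]
    congr 1
    have : (0 : Matrix m m ℝ) - A * (t⁻¹ • (1 : Matrix ι ι ℝ)) * B = (-t⁻¹) • (A * B) := by
      simp
    rw [this, det_smul]
  have hH := hadamard_real (fromBlocks (t • (1 : Matrix ι ι ℝ)) B A 0)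
  rw [hdet, Fintype.prod_sum_type] at hH
  have hR1 : ∏ i : ι, ∑ j : ι ⊕ m, fromBlocks (t • (1 : Matrix ι ι ℝ)) B A 0 (Sum.inl i) j ^ 2 ≤
      ((a : ℝ) + r) ^ a := by
    rw [hadef, ← Finset.card_univ, ← Finset.prod_const]
    refine Finset.prod_le_prod (fun i _ => Finset.sum_nonneg fun j _ => sq_nonneg _) fun i _ => ?_
    rw [Fintype.sum_sum_type]
    have e1 : ∑ j : ι, fromBlocks (t • (1 : Matrix ι ι ℝ)) B A 0 (Sum.inl i) (Sum.inl j) ^ 2 =
        (a : ℝ) := by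
      rw [Finset.sum_eq_single i]
      · simp [ht2]
      · intro j _ hj
        simp [Matrix.one_apply, hj.symm]
      · intro h; exact absurd (mem_univ _) h
    have e2 : ∑ j : m, fromBlocks (t • (1 : Matrix ι ι ℝ)) B A 0 (Sum.inl i) (Sum.inr j) ^ 2 ≤
        (r : ℝ) := by
      refine (Finset.sum_le_sum (g := fun _ => (1 : ℝ)) fun j _ => ?_).trans ?_
      · simpa using hB i j
      · simp [hrdef]
    rw [e1]
    have e3 : ((Finset.univ : Finset ι).card : ℝ) = a := by simp [hadef]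
    linarith
  have hR2 : ∏ i : m, ∑ j : ι ⊕ m, fromBlocks (t • (1 : Matrix ι ι ℝ)) B A 0 (Sum.inr i) j ^ 2 ≤
      (a : ℝ) ^ r := by
    rw [hrdef, ← Finset.card_univ, ← Finset.prod_const]
    refine Finset.prod_le_prod (fun i _ => Finset.sum_nonneg fun j _ => sq_nonneg _) fun i _ => ?_
    rw [Fintype.sum_sum_type]
    have e1 : ∑ j : ι, fromBlocks (t • (1 : Matrix ι ι ℝ)) B A 0 (Sum.inr i) (Sum.inl j) ^ 2 ≤
        (a : ℝ) := by
      refine (Finset.sum_le_sum (g := fun _ => (1 : ℝ)) fun j _ => ?_).trans ?_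
      · simpa using hA i j
      · simp [hadef]
    have e2 : ∑ j : m, fromBlocks (t • (1 : Matrix ι ι ℝ)) B A 0 (Sum.inr i) (Sum.inr j) ^ 2 =
        0 := by
      simp
    rw [e2, add_zero]
    exact e1
  have hH2 : (t ^ a * ((-t⁻¹) ^ r * (A * B).det)) ^ 2 ≤ ((a : ℝ) ^ a * 3 ^ r) * (a : ℝ) ^ r := by
    refine hH.trans ?_
    refine mul_le_mul (hR1.trans (one_add_pow_le hpos)) hR2
      (Finset.prod_nonneg fun i _ => Finset.sum_nonneg fun j _ => sq_nonneg _) (by positivity)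
  have hL : (t ^ a * ((-t⁻¹) ^ r * (A * B).det)) ^ 2 = (a : ℝ) ^ a * (((a : ℝ) ^ r)⁻¹ *
      (A * B).det ^ 2) := by
    have e1 : (t ^ a) ^ 2 = (a : ℝ) ^ a := by rw [← pow_mul, mul_comm, pow_mul, ht2]
    have e2 : ((-t⁻¹) ^ r) ^ 2 = ((a : ℝ) ^ r)⁻¹ := by
      rw [← pow_mul, mul_comm, pow_mul, neg_sq, inv_pow, ht2, inv_pow]
    rw [mul_pow, mul_pow, e1, e2]
  rw [hL] at hH2
  have haa : (0 : ℝ) < (a : ℝ) ^ a := by positivity
  have har : (0 : ℝ) < (a : ℝ) ^ r := by positivity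
  have h5 : ((a : ℝ) ^ r)⁻¹ * (A * B).det ^ 2 ≤ 3 ^ r * (a : ℝ) ^ r := by
    have : (a : ℝ) ^ a * (((a : ℝ) ^ r)⁻¹ * (A * B).det ^ 2) ≤ (a : ℝ) ^ a * (3 ^ r * (a : ℝ) ^ r) := by
      calc _ ≤ ((a : ℝ) ^ a * 3 ^ r) * (a : ℝ) ^ r := hH2
        _ = _ := by ring
    exact le_of_mul_le_mul_left this haa
  calc (A * B).det ^ 2 = (a : ℝ) ^ r * (((a : ℝ) ^ r)⁻¹ * (A * B).det ^ 2) := by
        field_simp
    _ ≤ (a : ℝ) ^ r * (3 ^ r * (a : ℝ) ^ r) := by gcongr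
    _ = 3 ^ r * (a : ℝ) ^ (2 * r) := by ring

end Vale.Agent.P160.Half.DetMul
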