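import Vale.Agent.P160.Half.M8Def

/-!
# P160-HALF, block M8: the last row

`b` good for all `N` in the window made of primes of `P0` (primes with a nonzero kernel): few rows kill
the kernels of many primes of `P0`.
-/

set_option linter.unusedSectionVars false

namespace Vale.Agent.P160.Half.M8Row

open Finset Matrix Vale.Agent.P160.Half.M8

section crt

variable {ι : Type*} [Fintype ι] [DecidableEq ι]

theorem cast_cast_of_dvd {p N : ℕ} (h : p ∣ N) (k : ℕ) : (((k : ZMod N)).cast : ZMod p) = (k : ZMod p) :=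
  ZMod.cast_natCast h k

/-- simultaneous lift of residues modulo the primes of `B` -/
theorem exists_lift (B : Finset ℕ) (hB : ∀ p ∈ B, p.Prime) (w : ∀ p : ℕ, ι → ZMod p) :
    ∃ k : ι → ℕ, ∀ p ∈ B, ∀ i, ((k i : ℕ) : ZMod p) = w p i := by
  classical
  have h : ∀ i, ∃ k : ℕ, ∀ p ∈ B, ((k : ℕ) : ZMod p) = w p i := by
    intro i
    obtain ⟨k, hk⟩ := Nat.chineseRemainderOfFinset (fun p => (w p i).val) (fun p => p) B
      (fun p hp => (hB p hp).ne_zero)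
      (fun p hp q hq hpq => (Nat.coprime_primes (hB p hp) (hB q hq)).2 hpq)
    refine ⟨k, fun p hp => ?_⟩
    have : NeZero p := ⟨(hB p hp).ne_zero⟩
    have h1 := (ZMod.natCast_eq_natCast_iff _ _ _).2 (hk p hp)
    rw [h1, ZMod.natCast_zmod_val]
  choose k hk using h
  exact ⟨k, fun p hp i => hk i p hp⟩

theorem natCast_prod_eq_zero (B : Finset ℕ) (hB : ∀ p ∈ B, p.Prime) (z : ℕ)
    (h : ∀ p ∈ B, ((z : ℕ) : ZMod p) = 0) : ((z : ℕ) : ZMod (∏ p ∈ B, p)) = 0 := by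
  rw [ZMod.natCast_eq_zero_iff]
  refine Finset.prod_primes_dvd z (fun p hp => (hB p hp).prime) fun p hp => ?_
  exact (ZMod.natCast_eq_zero_iff _ _).1 (h p hp)

theorem smul2_natCast {R : Type*} [CommRing R] (b : Sym2 ι → Bool) (k : ι → ℕ) (i : ι) :
    smul2 b (fun j => ((k j : ℕ) : R)) i = ((∑ j, if b s(i, j) then k j else 0 : ℕ) : R) := by
  unfold smul2
  rw [Nat.cast_sum]
  refine sum_congr rfl fun j _ => ?_
  split_ifs <;> simp

theorem bdot_natCast {R : Type*} [CommRing R] (x : ι → Bool) (k : ι → ℕ) :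
    G.bdot x (fun j => ((k j : ℕ) : R)) = ((∑ j, if x j then k j else 0 : ℕ) : R) := by
  unfold G.bdot
  rw [Nat.cast_sum]
  refine sum_congr rfl fun j _ => ?_
  split_ifs <;> simp

/-- the rows killing chosen kernel vectors modulo all `p ∈ B` are few if `b` is good modulo `∏ B` -/
theorem card_kill_le (b : Sym2 ι → Bool) (B : Finset ℕ) (hB : ∀ p ∈ B, p.Prime)
    (hker : ∀ p ∈ B, ∃ w : ι → ZMod p, w ≠ 0 ∧ smul2 b w = 0) (hg : GoodSym (∏ p ∈ B, p) b) :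
    (Nat.card {x : ι → Bool // ∀ p ∈ B, ∀ w : ι → ZMod p, smul2 b w = 0 → G.bdot x w = 0} : ℝ) *
      ((∏ p ∈ B, p : ℕ) : ℝ) ≤ 4 * 2 ^ Fintype.card ι := by
  classical
  have hw : ∀ p : ℕ, ∃ w : ι → ZMod p, p ∈ B → (w ≠ 0 ∧ smul2 b w = 0) := by
    intro p
    by_cases hp : p ∈ B
    · obtain ⟨w, h⟩ := hker p hp
      exact ⟨w, fun _ => h⟩
    · exact ⟨0, fun h => absurd h hp⟩
  choose w hw using hw
  obtain ⟨k, hk⟩ := exists_lift B hB w
  set N := ∏ p ∈ B, p with hN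
  have hkw : ∀ p ∈ B, (fun j => ((k j : ℕ) : ZMod p)) = w p := fun p hp => funext fun i => hk p hp i
  have hker' : smul2 b (fun j => ((k j : ℕ) : ZMod N)) = 0 := by
    funext i
    rw [smul2_natCast]
    refine natCast_prod_eq_zero B hB _ fun p hp => ?_
    rw [← smul2_natCast, hkw p hp, (hw p hp).2]
    rfl
  have hun : Unim N (fun j => ((k j : ℕ) : ZMod N)) := by
    intro p hp hpN
    have hpB : p ∈ B := by
      obtain ⟨q, hq, hpq⟩ := (Prime.dvd_finsetProd_iff hp.prime _).1 hpN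
      rwa [(Nat.prime_dvd_prime_iff_eq hp (hB q hq)).1 hpq]
    have hne := (hw p hpB).1
    obtain ⟨i, hi⟩ := Function.ne_iff.1 hne
    refine ⟨i, ?_⟩
    rw [cast_cast_of_dvd hpN, hk p hpB]
    exact hi
  have h := hg _ hun hker' 0
  refine le_trans ?_ h
  refine mul_le_mul_of_nonneg_right ?_ (Nat.cast_nonneg _)
  rw [Nat.cast_le]
  refine Nat.card_le_card_of_injective (fun x => ⟨x.1, ?_⟩) ?_
  · rw [bdot_natCast]
    refine natCast_prod_eq_zero B hB _ fun p hp => ?_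
    rw [← bdot_natCast, hkw p hp]
    exact x.2 p hp _ (hw p hp).2
  · intro x x' h
    apply Subtype.ext
    exact congrArg (fun z : {x : ι → Bool // G.bdot x (fun j => ((k j : ℕ) : ZMod N)) = 0} => z.1) h

end crt

/-- a set of primes with large product has a subset with product in the window -/
theorem exists_window (Q : Finset ℕ) (lo y Y : ℝ) (t : ℕ) (hlo : 1 < lo) (hy : 1 ≤ y)
    (hQ : ∀ p ∈ Q, y ≤ p ∧ (p : ℝ) ≤ Y) (ht : lo ≤ y ^ t) (hc : t ≤ Q.card) :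
    ∃ B ⊆ Q, B.card ≤ t ∧ lo ≤ ((∏ p ∈ B, p : ℕ) : ℝ) ∧ ((∏ p ∈ B, p : ℕ) : ℝ) ≤ lo * Y := by
  classical
  have hprod : ∀ B ⊆ Q, y ^ B.card ≤ ((∏ p ∈ B, p : ℕ) : ℝ) := by
    intro B hB
    rw [Nat.cast_prod, ← prod_const]
    exact prod_le_prod (fun _ _ => by linarith) fun p hp => (hQ p (hB hp)).1
  -- a subset of minimal cardinality with large product
  have hex : ∃ n, ∃ B ⊆ Q, B.card = n ∧ lo ≤ ((∏ p ∈ B, p : ℕ) : ℝ) := by
    refine ⟨Q.card, Q, Subset.rfl, rfl, ht.trans (le_trans ?_ (hprod Q Subset.rfl))⟩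
    exact pow_le_pow_right₀ hy hc
  obtain ⟨B, hBQ, hBc, hBlo⟩ := Nat.find_spec hex
  have hmin : ∀ m < Nat.find hex, ¬ ∃ B ⊆ Q, B.card = m ∧ lo ≤ ((∏ p ∈ B, p : ℕ) : ℝ) :=
    fun m hm => Nat.find_min hex hm
  have hne : B.Nonempty := by
    rw [nonempty_iff_ne_empty]
    intro h
    rw [h, prod_empty, Nat.cast_one] at hBlo
    linarith
  obtain ⟨p, hp⟩ := hne
  have hlt : ((∏ q ∈ B.erase p, q : ℕ) : ℝ) < lo := by
    by_contra hcon
    refine hmin (B.erase p).card ?_ ⟨B.erase p, (erase_subset _ _).trans hBQ, rfl, not_lt.1 hcon⟩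
    rw [← hBc, card_erase_of_mem hp]
    have := card_pos.2 ⟨p, hp⟩
    omega
  refine ⟨B, hBQ, ?_, hBlo, ?_⟩
  · by_contra hcon
    have h1 := hprod (B.erase p) ((erase_subset _ _).trans hBQ)
    rw [card_erase_of_mem hp] at h1
    have h2 : y ^ t ≤ y ^ (B.card - 1) := pow_le_pow_right₀ hy (by omega)
    linarith
  · rw [← mul_prod_erase B (fun q => q) hp, Nat.cast_mul]
    have h1 := (hQ p (hBQ hp)).2
    have h0 : (0 : ℝ) ≤ p := Nat.cast_nonneg _
    calc (p : ℝ) * ((∏ q ∈ B.erase p, q : ℕ) : ℝ) ≤ Y * lo := by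
          apply mul_le_mul h1 hlt.le (Nat.cast_nonneg _)
          linarith
      _ = lo * Y := mul_comm _ _

open Classical in
/-- **Last row.** -/
theorem row_count {ι : Type*} [Fintype ι] [DecidableEq ι] (b : Sym2 ι → Bool) (P0 : Finset ℕ)
    (hP : ∀ p ∈ P0, p.Prime) (hker : ∀ p ∈ P0, ∃ w : ι → ZMod p, w ≠ 0 ∧ smul2 b w = 0)
    (lo y Y : ℝ) (t : ℕ) (hlo : 1 < lo) (hy : 1 ≤ y) (hyY : ∀ p ∈ P0, y ≤ p ∧ (p : ℝ) ≤ Y)
    (ht : lo ≤ y ^ t)
    (hgood : ∀ N : ℕ, Squarefree N → (∀ p, p.Prime → p ∣ N → p ∈ P0) → lo ≤ N → (N : ℝ) ≤ lo * Y →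
      GoodSym N b) :
    (Nat.card {x : ι → Bool // t ≤ (P0.filter (fun p => ∀ w : ι → ZMod p, smul2 b w = 0 →
      G.bdot x w = 0)).card} : ℝ) ≤
      ((∑ j ∈ range (t + 1), P0.card.choose j : ℕ) : ℝ) * (4 / lo * 2 ^ Fintype.card ι) := by
  set 𝓑 : Finset (Finset ℕ) := P0.powerset.filter fun B => B.card ≤ t ∧
    lo ≤ ((∏ p ∈ B, p : ℕ) : ℝ) ∧ ((∏ p ∈ B, p : ℕ) : ℝ) ≤ lo * Y with h𝓑
  let E : Finset ℕ → Finset (ι → Bool) := fun B => univ.filter fun x =>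
    ∀ p ∈ B, ∀ w : ι → ZMod p, smul2 b w = 0 → G.bdot x w = 0
  have h1 : Nat.card {x : ι → Bool // t ≤ (P0.filter (fun p => ∀ w : ι → ZMod p, smul2 b w = 0 →
      G.bdot x w = 0)).card} ≤ (𝓑.biUnion E).card := by
    rw [Nat.card_eq_fintype_card, Fintype.card_subtype]
    refine card_le_card fun x hx => ?_
    have hx := (mem_filter.1 hx).2
    obtain ⟨B, hB, hBt, hB1, hB2⟩ := exists_window _ lo y Y t hlo hy
      (fun p hp => hyY p (mem_filter.1 hp).1) ht hx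
    refine mem_biUnion.2 ⟨B, mem_filter.2 ⟨mem_powerset.2 (hB.trans (filter_subset _ _)), hBt, hB1, hB2⟩,
      mem_filter.2 ⟨mem_univ _, fun p hp => ?_⟩⟩
    exact (mem_filter.1 (hB hp)).2
  have h2 : ∀ B ∈ 𝓑, ((E B).card : ℝ) ≤ 4 / lo * 2 ^ Fintype.card ι := by
    intro B hB
    obtain ⟨hB0, hBt, hB1, hB2⟩ := mem_filter.1 hB
    have hB0 := mem_powerset.1 hB0
    have hsq : Squarefree (∏ p ∈ B, p) := by
      refine Finset.squarefree_prod_of_pairwise_isCoprime ?_ fun p hp => (hP p (hB0 hp)).squarefree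
      intro p hp q hq hpq
      exact Nat.coprime_iff_isRelPrime.1 ((Nat.coprime_primes (hP p (hB0 hp)) (hP q (hB0 hq))).2 hpq)
    have hmem : ∀ p, p.Prime → p ∣ ∏ p ∈ B, p → p ∈ P0 := by
      intro p hp hpN
      obtain ⟨q, hq, hpq⟩ := (Prime.dvd_finsetProd_iff hp.prime _).1 hpN
      rw [(Nat.prime_dvd_prime_iff_eq hp (hP q (hB0 hq))).1 hpq]
      exact hB0 hq
    have h3 := card_kill_le b B (fun p hp => hP p (hB0 hp)) (fun p hp => hker p (hB0 hp))
      (hgood _ hsq hmem hB1 hB2)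
    rw [Nat.card_eq_fintype_card, Fintype.card_subtype] at h3
    have hlo0 : 0 < lo := by linarith
    rw [div_mul_eq_mul_div, le_div_iff₀ hlo0]
    refine le_trans ?_ h3
    exact mul_le_mul_of_nonneg_left hB1 (Nat.cast_nonneg _)
  have h3 : 𝓑.card ≤ ∑ j ∈ range (t + 1), P0.card.choose j := by
    have hsub : 𝓑 ⊆ (range (t + 1)).biUnion fun j => P0.powersetCard j := by
      intro B hB
      obtain ⟨hB0, hBt, -, -⟩ := mem_filter.1 hB
      exact mem_biUnion.2 ⟨B.card, mem_range.2 (by omega), mem_powersetCard.2 ⟨mem_powerset.1 hB0, rfl⟩⟩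
    refine (card_le_card hsub).trans (card_biUnion_le.trans (le_of_eq ?_))
    exact sum_congr rfl fun j _ => card_powersetCard _ _
  calc (Nat.card {x : ι → Bool // t ≤ (P0.filter (fun p => ∀ w : ι → ZMod p, smul2 b w = 0 →
      G.bdot x w = 0)).card} : ℝ) ≤ ((𝓑.biUnion E).card : ℝ) := by exact_mod_cast h1
    _ ≤ ((∑ B ∈ 𝓑, (E B).card : ℕ) : ℝ) := by exact_mod_cast card_biUnion_le
    _ = ∑ B ∈ 𝓑, ((E B).card : ℝ) := by push_cast; rfl
    _ ≤ ∑ B ∈ 𝓑, 4 / lo * 2 ^ Fintype.card ι := sum_le_sum h2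
    _ = (𝓑.card : ℝ) * (4 / lo * 2 ^ Fintype.card ι) := by rw [sum_const, nsmul_eq_mul]
    _ ≤ _ := by
        have hlo0 : 0 < lo := by linarith
        refine mul_le_mul_of_nonneg_right (by exact_mod_cast h3) (by positivity)

end Vale.Agent.P160.Half.M8Row
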