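import Vale.Agent.P160.Half.M8Incl
import Vale.Agent.P160.Half.M8Row

/-!
# P160-HALF, block M8: restriction to a principal submatrix and one row, and numerical facts
-/

set_option linter.unusedSectionVars false

namespace Vale.Agent.P160.Half.M8Asy

open Finset Matrix Vale.Agent.P160.Half.M8Incl Vale.Agent.P160.Half.MTop Vale.Agent.P160.Half.HadN

/-- restriction along an injection -/
theorem card_comp {A B : Type*} [Fintype A] [Fintype B] (j : A → B) (hj : Function.Injective j)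
    (Q : (A → Bool) → Prop) :
    Nat.card {b : B → Bool // Q (fun a => b (j a))} * 2 ^ Fintype.card A =
      Nat.card {c : A → Bool // Q c} * 2 ^ Fintype.card B := by
  classical
  let eB : A ⊕ ↥(Set.range j)ᶜ ≃ B :=
    (Equiv.sumCongr (Equiv.ofInjective j hj) (Equiv.refl _)).trans (Equiv.Set.sumCompl (Set.range j))
  have heB : ∀ a, eB (Sum.inl a) = j a := fun a => rfl
  let e : (B → Bool) ≃ (A → Bool) × (↥(Set.range j)ᶜ → Bool) :=
    (Equiv.arrowCongr eB.symm (Equiv.refl Bool)).trans (Equiv.sumArrowEquivProdArrow _ _ _)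
  have he : ∀ b, (e b).1 = fun a => b (j a) := fun b => rfl
  have e2 : {b : B → Bool // Q (fun a => b (j a))} ≃ {c : A → Bool // Q c} × (↥(Set.range j)ᶜ → Bool) :=
    (e.subtypeEquiv (q := fun p => Q p.1) fun b => Iff.rfl).trans
      { toFun := fun p => (⟨p.1.1, p.2⟩, p.1.2)
        invFun := fun p => ⟨(p.1.1, p.2), p.1.2⟩
        left_inv := fun _ => rfl
        right_inv := fun _ => rfl }
  have h1 : Fintype.card B = Fintype.card A + Fintype.card ↥(Set.range j)ᶜ := by
    rw [← Fintype.card_sum]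
    exact (Fintype.card_congr eB).symm
  rw [Nat.card_congr e2, Nat.card_prod, Nat.card_fun, h1, pow_add]
  simp only [Nat.card_eq_fintype_card, Fintype.card_bool]
  ring

section restr

variable {α : Type} [Fintype α] [DecidableEq α]

/-- the bits of `prin T` and of the row `i` -/
def jj (T : Finset α) (i : α) : Sym2 T ⊕ T → Sym2 α
  | Sum.inl e => e.map (fun a : T => (a : α))
  | Sum.inr a => s((a : α), i)

theorem jj_injective {T : Finset α} {i : α} (hi : i ∉ T) : Function.Injective (jj T i) := by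
  have hmem : ∀ e : Sym2 T, i ∉ e.map (fun a : T => (a : α)) := by
    intro e h
    obtain ⟨a, -, ha⟩ := Sym2.mem_map.1 h
    exact hi (ha ▸ a.2)
  rintro (e | a) (e' | a') h
  · exact congrArg Sum.inl (Sym2.map.injective Subtype.val_injective h)
  · exfalso
    apply hmem e
    have h' : e.map (fun a : T => (a : α)) = s((a' : α), i) := h
    rw [h']
    exact Sym2.mem_mk_right _ _
  · exfalso
    apply hmem e'
    have h' : s((a : α), i) = e'.map (fun a : T => (a : α)) := h
    rw [← h']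
    exact Sym2.mem_mk_right _ _
  · have h' : s((a : α), i) = s((a' : α), i) := h
    rcases Sym2.eq_iff.1 h' with h2 | h2
    · exact congrArg Sum.inr (Subtype.ext h2.1)
    · exfalso
      exact hi (h2.1 ▸ a.2)

theorem card_restr (T : Finset α) (i : α) (hi : i ∉ T) (R : (Sym2 T → Bool) → (T → Bool) → Prop) :
    Nat.card {b : Sym2 α → Bool // R (bT b T) (rw_ b T i)} * 2 ^ (Fintype.card (Sym2 T) + T.card) =
      Nat.card {c : (Sym2 T → Bool) × (T → Bool) // R c.1 c.2} * 2 ^ Fintype.card (Sym2 α) := by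
  classical
  have h := card_comp (jj T i) (jj_injective hi) (fun c => R (fun e => c (Sum.inl e)) (fun a => c (Sum.inr a)))
  rw [Fintype.card_sum, Fintype.card_coe] at h
  have h2 : Nat.card {c : Sym2 T ⊕ T → Bool // R (fun e => c (Sum.inl e)) (fun a => c (Sum.inr a))} =
      Nat.card {c : (Sym2 T → Bool) × (T → Bool) // R c.1 c.2} :=
    Nat.card_congr ((Equiv.sumArrowEquivProdArrow _ _ _).subtypeEquiv fun c => Iff.rfl)
  rw [h2] at h
  exact h

/-- **Conditioning on the principal submatrix.** -/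
theorem dens_le (T : Finset α) (i : α) (hi : i ∉ T) (Pr : (Sym2 T → Bool) → Prop)
    (R : (Sym2 T → Bool) → (T → Bool) → Prop) (hR : ∀ b' x, R b' x → Pr b') (c : ℝ) (_hc : 0 ≤ c)
    (hM : ∀ b', Pr b' → (Nat.card {x : T → Bool // R b' x} : ℝ) ≤ c * 2 ^ T.card) :
    (Nat.card {b : Sym2 α → Bool // R (bT b T) (rw_ b T i)} : ℝ) ≤
      (Nat.card {b' : Sym2 T → Bool // Pr b'} : ℝ) / 2 ^ Fintype.card (Sym2 T) * c *
        2 ^ Fintype.card (Sym2 α) := by
  classical
  have h1 := card_restr T i hi R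
  have h2 : (Nat.card {c : (Sym2 T → Bool) × (T → Bool) // R c.1 c.2} : ℝ) ≤
      (Nat.card {b' : Sym2 T → Bool // Pr b'} : ℝ) * (c * 2 ^ T.card) := by
    have e1 : Nat.card {c : (Sym2 T → Bool) × (T → Bool) // R c.1 c.2} =
        ∑ b' : Sym2 T → Bool, Nat.card {x : T → Bool // R b' x} := by
      have e2 : {c : (Sym2 T → Bool) × (T → Bool) // R c.1 c.2} ≃ Σ b' : Sym2 T → Bool, {x : T → Bool // R b' x} :=
        { toFun := fun c => ⟨c.1.1, ⟨c.1.2, c.2⟩⟩
          invFun := fun c => ⟨(c.1, c.2.1), c.2.2⟩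
          left_inv := fun _ => rfl
          right_inv := fun _ => rfl }
      rw [Nat.card_congr e2, Nat.card_sigma]
    have e3 : Nat.card {b' : Sym2 T → Bool // Pr b'} = (univ.filter fun b' => Pr b').card := by
      rw [Nat.card_eq_fintype_card, Fintype.card_subtype]
    rw [e1, e3, Nat.cast_sum, ← nsmul_eq_mul, ← sum_const, sum_filter]
    refine sum_le_sum fun b' _ => ?_
    split_ifs with h
    · exact hM b' h
    · have : IsEmpty {x : T → Bool // R b' x} := ⟨fun x => h (hR b' x.1 x.2)⟩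
      rw [Nat.card_of_isEmpty, Nat.cast_zero]
  have h3 : (0 : ℝ) < 2 ^ (Fintype.card (Sym2 T) + T.card) := by positivity
  have h4 : (Nat.card {b : Sym2 α → Bool // R (bT b T) (rw_ b T i)} : ℝ) *
      2 ^ (Fintype.card (Sym2 T) + T.card) ≤
      ((Nat.card {b' : Sym2 T → Bool // Pr b'} : ℝ) / 2 ^ Fintype.card (Sym2 T) * c *
        2 ^ Fintype.card (Sym2 α)) * 2 ^ (Fintype.card (Sym2 T) + T.card) := by
    have h5 : (Nat.card {b : Sym2 α → Bool // R (bT b T) (rw_ b T i)} : ℝ) *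
      2 ^ (Fintype.card (Sym2 T) + T.card) =
      (Nat.card {c : (Sym2 T → Bool) × (T → Bool) // R c.1 c.2} : ℝ) * 2 ^ Fintype.card (Sym2 α) := by
      exact_mod_cast h1
    rw [h5]
    calc (Nat.card {c : (Sym2 T → Bool) × (T → Bool) // R c.1 c.2} : ℝ) * 2 ^ Fintype.card (Sym2 α) ≤
        ((Nat.card {b' : Sym2 T → Bool // Pr b'} : ℝ) * (c * 2 ^ T.card)) * 2 ^ Fintype.card (Sym2 α) :=
          mul_le_mul_of_nonneg_right h2 (by positivity)
      _ = _ := by
          rw [pow_add]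
          field_simp
  exact le_of_mul_le_mul_right h4 h3

/-- events of the principal submatrix alone -/
theorem dens_eq (T : Finset α) (Pr : (Sym2 T → Bool) → Prop) :
    (Nat.card {b : Sym2 α → Bool // Pr (bT b T)} : ℝ) =
      (Nat.card {b' : Sym2 T → Bool // Pr b'} : ℝ) / 2 ^ Fintype.card (Sym2 T) *
        2 ^ Fintype.card (Sym2 α) := by
  classical
  have h := card_comp (fun e : Sym2 T => e.map (fun a : T => (a : α)))
    (Sym2.map.injective Subtype.val_injective) Pr
  have h2 : (0 : ℝ) < 2 ^ Fintype.card (Sym2 T) := by positivity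
  have h3 : (Nat.card {b : Sym2 α → Bool // Pr (bT b T)} : ℝ) * 2 ^ Fintype.card (Sym2 T) =
      (Nat.card {b' : Sym2 T → Bool // Pr b'} : ℝ) * 2 ^ Fintype.card (Sym2 α) := by
    exact_mod_cast h
  rw [div_mul_eq_mul_div, eq_div_iff h2.ne']
  exact h3

end restr

section reindex

/-- relabelling of unordered pairs -/
def s2e {α β : Type*} (e : α ≃ β) : Sym2 α ≃ Sym2 β where
  toFun := Sym2.map e
  invFun := Sym2.map e.symm
  left_inv := fun x => by
    induction x using Sym2.ind with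
    | _ i j => simp
  right_inv := fun x => by
    induction x using Sym2.ind with
    | _ i j => simp

/-- relabelling of the index type -/
def relab {α β : Type*} (e : α ≃ β) : (Sym2 α → Bool) ≃ (Sym2 β → Bool) :=
  Equiv.arrowCongr (s2e e) (Equiv.refl Bool)

theorem relab_mk {α β : Type*} (e : α ≃ β) (b : Sym2 α → Bool) (i j : β) :
    relab e b s(i, j) = b s(e.symm i, e.symm j) := rfl

theorem kill_relab {α β : Type*} [Fintype α] [Fintype β] [DecidableEq α] [DecidableEq β] (e : α ≃ β)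
    (Qs : ℕ → Prop) (t z : ℕ) (b : Sym2 α → Bool) (h : Kill Qs t z (matZ b)) :
    Kill Qs t z (matZ (relab e b)) := by
  rcases h with h | ⟨q, hq, u, h1, h2, h3⟩
  · exact Or.inl h
  · right
    refine ⟨q, hq, fun j => u (e.symm j), ?_, ?_, ?_⟩
    · rwa [Nat.card_congr (e.symm.subtypeEquiv (p := fun j => IsUnit (u (e.symm j))) (q := fun i => IsUnit (u i))
        fun _ => Iff.rfl)]
    · funext j
      have h4 := congrFun h2 (e.symm j)
      rw [Pi.zero_apply] at h4 ⊢
      rw [← h4]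
      exact Equiv.sum_comp e.symm (fun i => ((matZ b).map (Int.cast : ℤ → ZMod q)) (e.symm j) i * u i)
    · rwa [Nat.card_congr (e.symm.subtypeEquiv (p := fun j => u (e.symm j) = 0) (q := fun i => u i = 0)
        fun _ => Iff.rfl)]

/-- density of the zero event on any index type -/
theorem kden_le {α : Type*} [Fintype α] [DecidableEq α] (Qs : ℕ → Prop) (t z : ℕ) :
    (Nat.card {b : Sym2 α → Bool // Kill Qs t z (matZ b)} : ℝ) / 2 ^ Fintype.card (Sym2 α) ≤
      kden (Fintype.card α) Qs t z := by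
  classical
  let e : α ≃ Fin (Fintype.card α) := Fintype.equivFin α
  have h1 : Fintype.card (Sym2 α) = Fintype.card (Sym2 (Fin (Fintype.card α))) :=
    Fintype.card_congr (s2e e)
  unfold kden
  rw [h1]
  refine div_le_div_of_nonneg_right ?_ (by positivity)
  rw [Nat.cast_le]
  refine Nat.card_le_card_of_injective (fun b => ⟨relab e b.1, kill_relab e Qs t z b.1 b.2⟩) ?_
  intro b b' h
  exact Subtype.ext ((relab e).injective (congrArg Subtype.val h))

end reindex

/-- few primes with a nonzero kernel -/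
theorem card_KP_le {ι : Type*} [Fintype ι] [DecidableEq ι] (b : Sym2 ι → Bool) (hdet : (matZ b).det ≠ 0)
    (y Y : ℝ) (hy : (Fintype.card ι : ℝ) ≤ y) (h2 : 2 ≤ Fintype.card ι) :
    (KP b y Y).card ≤ Fintype.card ι := by
  classical
  have hr : rQ (matZ b) = Fintype.card ι := by
    have h : ((matZ b).map (Int.cast : ℤ → ℚ)).det ≠ 0 := by
      have h2 := RingHom.map_det (Int.castRingHom ℚ) (matZ b)
      have h3 : ((matZ b).map (Int.cast : ℤ → ℚ)).det = ((matZ b).det : ℚ) := by simpa using h2.symm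
      rw [h3]
      exact_mod_cast hdet
    exact Matrix.rank_of_det_ne_zero h
  have hS : ∀ p ∈ KP b y Y, p.Prime ∧ y ≤ p ∧ rP p (matZ b) < Fintype.card ι := by
    intro p hp
    unfold KP at hp
    obtain ⟨-, hp1, hp2, w, hw, hk⟩ := mem_filter.1 hp
    refine ⟨hp1, hp2, ?_⟩
    have hfact : Fact p.Prime := ⟨hp1⟩
    have h3 : ((matZ b).map (Int.cast : ℤ → ZMod p)) *ᵥ w = 0 := by
      funext i
      have h4 := congrFun hk i
      rw [← h4]
      unfold smul2
      refine sum_congr rfl fun j _ => ?_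
      change ((matZ b i j : ℤ) : ZMod p) * w j = _
      unfold matZ
      split_ifs <;> simp
    have h5 : Module.finrank (ZMod p) (LinearMap.ker ((matZ b).map (Int.cast : ℤ → ZMod p)).mulVecLin) ≠ 0 := by
      intro h0
      have h6 := Submodule.finrank_eq_zero.1 h0
      have h7 : w ∈ LinearMap.ker ((matZ b).map (Int.cast : ℤ → ZMod p)).mulVecLin := by
        rw [LinearMap.mem_ker, Matrix.mulVecLin_apply]; exact h3
      rw [h6, Submodule.mem_bot] at h7
      exact hw h7
    have h8 := LinearMap.finrank_range_add_finrank_ker ((matZ b).map (Int.cast : ℤ → ZMod p)).mulVecLin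
    rw [Module.finrank_fintype_fun_eq_card] at h8
    have h9 : rP p (matZ b) = Module.finrank (ZMod p)
      (LinearMap.range ((matZ b).map (Int.cast : ℤ → ZMod p)).mulVecLin) := rfl
    omega
  have h3 := HadN.prod_pow_dvd (matZ b) (KP b y Y) (fun p hp => (hS p hp).1) (matZ_abs b)
  rw [hr] at h3
  have hy0 : (0 : ℝ) ≤ y := le_trans (Nat.cast_nonneg _) hy
  have h4 : y ^ (KP b y Y).card ≤ ((∏ p ∈ KP b y Y, p ^ (Fintype.card ι - rP p (matZ b)) : ℕ) : ℝ) := by
    rw [Nat.cast_prod, ← prod_const]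
    refine prod_le_prod (fun _ _ => hy0) fun p hp => ?_
    obtain ⟨hp1, hp2, hp3⟩ := hS p hp
    rw [Nat.cast_pow]
    have hp1' : (1 : ℝ) ≤ p := by exact_mod_cast hp1.one_lt.le
    exact hp2.trans (le_self_pow₀ hp1' (by omega))
  have h5 : (Fintype.card ι : ℝ) ^ (2 * (KP b y Y).card) ≤ (Fintype.card ι : ℝ) ^ Fintype.card ι := by
    calc (Fintype.card ι : ℝ) ^ (2 * (KP b y Y).card) ≤ y ^ (2 * (KP b y Y).card) :=
          pow_le_pow_left₀ (by positivity) hy _
      _ = (y ^ (KP b y Y).card) ^ 2 := by rw [← pow_mul]; ring_nf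
      _ ≤ ((∏ p ∈ KP b y Y, p ^ (Fintype.card ι - rP p (matZ b)) : ℕ) : ℝ) ^ 2 :=
          pow_le_pow_left₀ (by positivity) h4 2
      _ ≤ _ := by exact_mod_cast h3
  have h6 : 2 * (KP b y Y).card ≤ Fintype.card ι :=
    (pow_le_pow_iff_right₀ (by exact_mod_cast (by omega : 1 < Fintype.card ι))).1 h5
  omega

/-- partial sums of binomial coefficients -/
theorem sum_choose_le (n t : ℕ) (x : ℝ) (hx : 0 < x) (hx1 : x ≤ 1) :
    ((∑ j ∈ range (t + 1), n.choose j : ℕ) : ℝ) * x ^ t ≤ Real.exp (x * n) := by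
  have h1 : ∀ j ∈ range (t + 1), (n.choose j : ℝ) * x ^ t ≤ (n.choose j : ℝ) * x ^ j := by
    intro j hj
    refine mul_le_mul_of_nonneg_left ?_ (Nat.cast_nonneg _)
    exact pow_le_pow_of_le_one hx.le hx1 (Nat.lt_succ_iff.1 (mem_range.1 hj))
  have h2 : ∑ j ∈ range (t + 1), (n.choose j : ℝ) * x ^ j ≤ (1 + x) ^ n := by
    rw [show (1 + x) = x + 1 by ring, add_pow]
    have h3 : ∀ j, (n.choose j : ℝ) * x ^ j = x ^ j * 1 ^ (n - j) * (n.choose j) := by
      intro j; rw [one_pow]; ring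
    rw [sum_congr rfl fun j _ => h3 j]
    rcases Nat.lt_or_ge n (t + 1) with h | h
    · have h4 : ∑ j ∈ range (t + 1), x ^ j * 1 ^ (n - j) * (n.choose j : ℝ) =
          ∑ j ∈ range (n + 1), x ^ j * 1 ^ (n - j) * (n.choose j : ℝ) := by
        symm
        refine sum_subset (range_subset_range.2 (by omega)) fun j _ hj => ?_
        rw [Nat.choose_eq_zero_of_lt (by simpa using hj), Nat.cast_zero, mul_zero]
      rw [h4]
    · exact sum_le_sum_of_subset_of_nonneg (range_subset_range.2 (by omega)) fun j _ _ => by positivity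
  calc ((∑ j ∈ range (t + 1), n.choose j : ℕ) : ℝ) * x ^ t =
      ∑ j ∈ range (t + 1), (n.choose j : ℝ) * x ^ t := by rw [Nat.cast_sum, sum_mul]
    _ ≤ ∑ j ∈ range (t + 1), (n.choose j : ℝ) * x ^ j := sum_le_sum h1
    _ ≤ (1 + x) ^ n := h2
    _ ≤ (Real.exp x) ^ n := pow_le_pow_left₀ (by linarith) (by linarith [Real.add_one_le_exp x]) _
    _ = Real.exp (x * n) := by rw [← Real.exp_nat_mul]; ring_nf

/-- **Numerical lemma.** -/
theorem exists_t (b₁ g ε ε' : ℝ) (hb : 0 < b₁) (_hg : 0 ≤ g) (hε : 0 < ε) (hε' : 0 < ε') :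
    ∃ n₀ : ℕ, ∀ n : ℕ, n₀ ≤ n → ∃ t : ℕ, (2 : ℝ) ^ (g * n) ≤ ((n : ℝ) ^ b₁) ^ t ∧ (t : ℝ) ≤ ε' * n ∧
      ((∑ j ∈ range (t + 1), n.choose j : ℕ) : ℝ) ≤ (2 : ℝ) ^ (ε * n) := by
  have hl2 : 0 < Real.log 2 := Real.log_pos (by norm_num)
  set x : ℝ := min 1 (ε * Real.log 2 / 2) with hx
  have hx0 : 0 < x := lt_min one_pos (by positivity)
  have hx1 : x ≤ 1 := min_le_left _ _
  have hx2 : x ≤ ε * Real.log 2 / 2 := min_le_right _ _
  have hlx : 0 ≤ -Real.log x := by
    have := Real.log_nonpos hx0.le hx1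
    linarith
  set δ : ℝ := min ε' (ε * Real.log 2 / 2 / (1 - Real.log x)) with hδ
  have hδ0 : 0 < δ := lt_min hε' (by
    have : 0 < 1 - Real.log x := by linarith
    positivity)
  have hδ1 : δ ≤ ε' := min_le_left _ _
  have hδ2 : δ * (1 - Real.log x) ≤ ε * Real.log 2 / 2 := by
    have : 0 < 1 - Real.log x := by linarith
    rw [← le_div_iff₀ this]
    exact min_le_right _ _
  have hlog : Filter.Tendsto (fun n : ℕ => Real.log n) Filter.atTop Filter.atTop :=
    Real.tendsto_log_atTop.comp tendsto_natCast_atTop_atTop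
  obtain ⟨n₁, hn₁⟩ := Filter.eventually_atTop.1 (hlog.eventually_ge_atTop (2 * g * Real.log 2 / (b₁ * δ)))
  obtain ⟨n₂, hn₂⟩ := exists_nat_gt (2 / δ)
  refine ⟨max (max n₁ n₂) 1, fun n hn => ?_⟩
  have hn1 : n₁ ≤ n := (le_max_left _ _).trans ((le_max_left _ _).trans hn)
  have hn2 : n₂ ≤ n := (le_max_right _ _).trans ((le_max_left _ _).trans hn)
  have hn3 : 1 ≤ n := (le_max_right _ _).trans hn
  have hn0 : (0 : ℝ) < n := by exact_mod_cast hn3
  have hL := hn₁ n hn1
  have hL0 : 0 ≤ Real.log n := Real.log_nonneg (by exact_mod_cast hn3)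
  have hδn : 2 ≤ δ * n := by
    have h1 : (n₂ : ℝ) ≤ n := by exact_mod_cast hn2
    have h2 : 2 / δ < n := hn₂.trans_le h1
    rw [div_lt_iff₀ hδ0] at h2
    linarith
  have hfl : δ * n / 2 ≤ (⌊δ * n⌋₊ : ℝ) := by
    have := Nat.lt_floor_add_one (δ * n)
    linarith
  have hfl2 : (⌊δ * n⌋₊ : ℝ) ≤ δ * n := Nat.floor_le (by positivity)
  refine ⟨⌊δ * n⌋₊, ?_, hfl2.trans (mul_le_mul_of_nonneg_right hδ1 hn0.le), ?_⟩
  · have h1 : ((n : ℝ) ^ b₁) ^ ⌊δ * n⌋₊ = Real.exp (Real.log n * b₁ * ⌊δ * n⌋₊) := by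
      rw [← Real.rpow_natCast, ← Real.rpow_mul hn0.le, Real.rpow_def_of_pos hn0]
      ring_nf
    have h2 : (2 : ℝ) ^ (g * n) = Real.exp (Real.log 2 * (g * n)) :=
      Real.rpow_def_of_pos (by norm_num) _
    rw [h1, h2, Real.exp_le_exp]
    rw [div_le_iff₀ (by positivity)] at hL
    have h3 : Real.log n * b₁ * (δ * n / 2) ≤ Real.log n * b₁ * ⌊δ * n⌋₊ :=
      mul_le_mul_of_nonneg_left hfl (by positivity)
    have h4 : 2 * g * Real.log 2 * (n / 2) ≤ Real.log n * (b₁ * δ) * (n / 2) :=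
      mul_le_mul_of_nonneg_right hL (by positivity)
    nlinarith
  · have h1 := sum_choose_le n ⌊δ * n⌋₊ x hx0 hx1
    have h2 : x ^ ⌊δ * n⌋₊ = Real.exp (Real.log x * ⌊δ * n⌋₊) := by
      rw [← Real.rpow_natCast, Real.rpow_def_of_pos hx0]
    have h3 : (0 : ℝ) < x ^ ⌊δ * n⌋₊ := pow_pos hx0 _
    rw [← le_div_iff₀ h3, h2, ← Real.exp_sub] at h1
    refine h1.trans ?_
    rw [Real.rpow_def_of_pos (by norm_num : (0 : ℝ) < 2), Real.exp_le_exp]
    have h4 : -Real.log x * ⌊δ * n⌋₊ ≤ -Real.log x * (δ * n) := mul_le_mul_of_nonneg_left hfl2 hlx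
    have h5 : -Real.log x * (δ * n) ≤ (δ * (1 - Real.log x)) * n := by nlinarith
    have h6 : (δ * (1 - Real.log x)) * n ≤ ε * Real.log 2 / 2 * n := mul_le_mul_of_nonneg_right hδ2 hn0.le
    have h7 : x * n ≤ ε * Real.log 2 / 2 * n := mul_le_mul_of_nonneg_right hx2 hn0.le
    nlinarith

end Vale.Agent.P160.Half.M8Asy
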