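import Vale.Agent.P160.Half.Corank

/-! # P160: from symmetric sign matrices of size `n + 1` to symmetric 0/1 matrices of size `n` -/

set_option linter.unusedSectionVars false

namespace Vale.Agent.P160.Half.SgnRed

open Finset Matrix Vale.Agent.P160.Half

/-- the symmetric sign matrix with the bits `b` -/
def sgM {n : ℕ} (b : Sym2 (Fin n) → Bool) : Matrix (Fin n) (Fin n) ℤ :=
  fun i j => if b s(i, j) then -1 else 1

/-- the sign of a bit -/
def sg (x : Bool) : ℤ := if x then -1 else 1

theorem sg_mul (x y : Bool) : sg x * sg y = sg (xor x y) := by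
  cases x <;> cases y <;> simp [sg]

theorem sg_sq (x : Bool) : sg x * sg x = 1 := by
  cases x <;> simp [sg]

theorem det_schur {n : ℕ} (A : Matrix (Fin (n + 1)) (Fin (n + 1)) ℤ) (ha : A 0 0 * A 0 0 = 1) :
    A.det = A 0 0 * (Matrix.of fun i j : Fin n =>
      A i.succ j.succ - A 0 0 * A i.succ 0 * A 0 j.succ).det := by
  set B : Matrix (Fin (n + 1)) (Fin (n + 1)) ℤ := fun i j =>
    if i = 0 then A 0 j else A i j - A 0 0 * A i 0 * A 0 j with hB
  have h1 : A.det = B.det := by
    refine Matrix.det_eq_of_forall_row_eq_smul_add_const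
      (fun i => if i = 0 then 0 else A 0 0 * A i 0) 0 (by simp) (fun i j => ?_)
    simp only [hB]
    by_cases hi : i = 0
    · subst hi
      simp
    · simp only [hi, if_false, if_true]
      ring
  rw [h1, Matrix.det_succ_column_zero, Fin.sum_univ_succ]
  have h2 : ∀ i : Fin n, B i.succ 0 = 0 := by
    intro i
    simp only [hB, Fin.succ_ne_zero, if_false]
    have : A 0 0 * A i.succ 0 * A 0 0 = A i.succ 0 * (A 0 0 * A 0 0) := by ring
    rw [this, ha]
    ring
  have h3 : ∑ i : Fin n, (-1 : ℤ) ^ (i.succ : ℕ) * B i.succ 0 *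
      (B.submatrix (Fin.succAbove i.succ) Fin.succ).det = 0 := by
    refine Finset.sum_eq_zero fun i _ => ?_
    rw [h2 i]
    ring
  rw [h3, add_zero]
  have h4 : B.submatrix (Fin.succAbove 0) Fin.succ = Matrix.of fun i j : Fin n =>
      A i.succ j.succ - A 0 0 * A i.succ 0 * A 0 j.succ := by
    ext i j
    rw [Fin.succAbove_zero]
    show (if i.succ = 0 then A 0 j.succ else
      A i.succ j.succ - A 0 0 * A i.succ 0 * A 0 j.succ) = _
    rw [if_neg (Fin.succ_ne_zero i)]
    rfl
  have h5 : B 0 0 = A 0 0 := by simp [hB]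
  rw [h4, h5]
  simp

/-- the twist of the inner bits by the first row -/
def tw {n : ℕ} (r : Fin (n + 1) → Bool) : Sym2 (Fin n) → Bool :=
  Sym2.lift ⟨fun i j => xor (r 0) (xor (r i.succ) (r j.succ)), fun i j => by
    show xor (r 0) (xor (r i.succ) (r j.succ)) = xor (r 0) (xor (r j.succ) (r i.succ))
    rw [Bool.xor_comm (r i.succ)]⟩

theorem tw_mk {n : ℕ} (r : Fin (n + 1) → Bool) (i j : Fin n) :
    tw r s(i, j) = xor (r 0) (xor (r i.succ) (r j.succ)) := rfl

/-- the inner bits of the 0/1 matrix -/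
def inn {n : ℕ} (b : Sym2 (Fin (n + 1)) → Bool) (z : Sym2 (Fin n)) : Bool :=
  xor (tw (fun i => b s(0, i)) z) (b (z.map Fin.succ))

theorem det_sgM {n : ℕ} (b : Sym2 (Fin (n + 1)) → Bool) :
    (sgM b).det = 0 ↔ (matZ (inn b)).det = 0 := by
  set r : Fin (n + 1) → Bool := fun i => b s(0, i) with hr
  have h00 : sgM b 0 0 = sg (r 0) := rfl
  rw [det_schur (sgM b) (by rw [h00]; exact sg_sq _)]
  have h1 : (Matrix.of fun i j : Fin n =>
      sgM b i.succ j.succ - sgM b 0 0 * sgM b i.succ 0 * sgM b 0 j.succ) =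
      Matrix.diagonal (fun i : Fin n => -2 * sg (r 0) * sg (r i.succ)) * matZ (inn b) *
        Matrix.diagonal (fun j : Fin n => sg (r j.succ)) := by
    ext i j
    rw [Matrix.mul_diagonal, Matrix.diagonal_mul, Matrix.of_apply]
    have e1 : sgM b i.succ j.succ = sg (b s(i.succ, j.succ)) := rfl
    have e2 : sgM b i.succ 0 = sg (r i.succ) := by
      show (if b s(i.succ, 0) then (-1 : ℤ) else 1) = sg (r i.succ)
      rw [Sym2.eq_swap]
      rfl
    have e3 : sgM b 0 j.succ = sg (r j.succ) := rfl
    have e4 : matZ (inn b) i j = if xor (xor (r 0) (xor (r i.succ) (r j.succ)))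
      (b s(i.succ, j.succ)) then 1 else 0 := rfl
    rw [e1, e2, e3, e4, h00]
    cases r 0 <;> cases r i.succ <;> cases r j.succ <;> cases b s(i.succ, j.succ) <;>
      simp [sg]
  rw [h1, Matrix.det_mul, Matrix.det_mul, Matrix.det_diagonal, Matrix.det_diagonal]
  have hs : ∀ x : Bool, sg x ≠ 0 := by
    intro x
    cases x <;> simp [sg]
  have h2 : ∏ i : Fin n, (-2 * sg (r 0) * sg (r i.succ)) ≠ 0 :=
    Finset.prod_ne_zero_iff.2 fun i _ => mul_ne_zero (mul_ne_zero (by norm_num) (hs _)) (hs _)
  have h3 : ∏ j : Fin n, sg (r j.succ) ≠ 0 := Finset.prod_ne_zero_iff.2 fun j _ => hs _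
  rw [h00]
  constructor
  · intro h
    rcases mul_eq_zero.1 h with h | h
    · exact absurd h (hs _)
    · rcases mul_eq_zero.1 h with h | h
      · rcases mul_eq_zero.1 h with h | h
        · exact absurd h h2
        · exact h
      · exact absurd h h3
  · intro h
    rw [h]
    ring

/-! ## The bijection of the bits -/

/-- first row and inner entries -/
def inj {n : ℕ} : Fin (n + 1) ⊕ Sym2 (Fin n) → Sym2 (Fin (n + 1)) :=
  Sum.elim (fun i => s(0, i)) (Sym2.map Fin.succ)

theorem zero_not_mem {n : ℕ} (z : Sym2 (Fin n)) : (0 : Fin (n + 1)) ∉ z.map Fin.succ := by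
  intro h
  rw [Sym2.mem_map] at h
  obtain ⟨a, -, ha⟩ := h
  exact Fin.succ_ne_zero a ha

theorem inj_bij {n : ℕ} : Function.Bijective (inj (n := n)) := by
  constructor
  · rintro (i | z) (j | w) h
    · have h' : s((0 : Fin (n + 1)), i) = s(0, j) := h
      rw [Sym2.congr_right] at h'
      rw [h']
    · exfalso
      have h' : s((0 : Fin (n + 1)), i) = w.map Fin.succ := h
      exact zero_not_mem w (h' ▸ Sym2.mem_mk_left 0 i)
    · exfalso
      have h' : z.map Fin.succ = s((0 : Fin (n + 1)), j) := h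
      exact zero_not_mem z (h' ▸ Sym2.mem_mk_left 0 j)
    · have h' : z.map Fin.succ = w.map Fin.succ := h
      rw [Sym2.map.injective (Fin.succ_injective n) h']
  · intro z
    induction z using Sym2.ind with
    | _ a c =>
      rcases Fin.eq_zero_or_eq_succ a with rfl | ⟨a', rfl⟩
      · exact ⟨Sum.inl c, rfl⟩
      · rcases Fin.eq_zero_or_eq_succ c with rfl | ⟨c', rfl⟩
        · exact ⟨Sum.inl a'.succ, Sym2.eq_swap⟩
        · exact ⟨Sum.inr s(a', c'), rfl⟩

/-- the bijection: bits of the big matrix, bits of the first row and of the reduced matrix -/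
noncomputable def eqv (n : ℕ) :
    (Sym2 (Fin (n + 1)) → Bool) ≃ (Fin (n + 1) → Bool) × (Sym2 (Fin n) → Bool) where
  toFun b := (fun i => b s(0, i), inn b)
  invFun p := fun z => Sum.elim p.1 (fun w => xor (tw p.1 w) (p.2 w))
    ((Equiv.ofBijective _ (inj_bij (n := n))).symm z)
  left_inv b := by
    funext z
    obtain ⟨x, rfl⟩ := (inj_bij (n := n)).2 z
    have h : (Equiv.ofBijective _ (inj_bij (n := n))).symm (inj x) = x :=
      (Equiv.ofBijective _ (inj_bij (n := n))).symm_apply_apply x
    simp only [h]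
    rcases x with i | w
    · rfl
    · simp only [Sum.elim_inr, inn]
      rw [← Bool.xor_assoc, Bool.xor_self, Bool.false_xor]
      rfl
  right_inv p := by
    obtain ⟨r, c⟩ := p
    have h : ∀ x, (Equiv.ofBijective _ (inj_bij (n := n))).symm (inj x) = x := fun x =>
      (Equiv.ofBijective _ (inj_bij (n := n))).symm_apply_apply x
    have h1 : ∀ i : Fin (n + 1), (Equiv.ofBijective _ (inj_bij (n := n))).symm s(0, i) =
        Sum.inl i := fun i => h (Sum.inl i)
    have h2 : ∀ w : Sym2 (Fin n), (Equiv.ofBijective _ (inj_bij (n := n))).symm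
        (w.map Fin.succ) = Sum.inr w := fun w => h (Sum.inr w)
    refine Prod.ext ?_ ?_
    · funext i
      simp only [h1, Sum.elim_inl]
    · funext w
      simp only [inn, h1, h2, Sum.elim_inl, Sum.elim_inr]
      rw [← Bool.xor_assoc, Bool.xor_self, Bool.false_xor]

theorem card_sgM (n : ℕ) :
    (univ.filter fun b : Sym2 (Fin (n + 1)) → Bool => (sgM b).det = 0).card =
      2 ^ (n + 1) * (univ.filter fun c : Sym2 (Fin n) → Bool => (matZ c).det = 0).card := by
  classical
  have h1 : (univ.filter fun b : Sym2 (Fin (n + 1)) → Bool => (sgM b).det = 0).card =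
      ((univ : Finset (Fin (n + 1) → Bool)) ×ˢ
        (univ.filter fun c : Sym2 (Fin n) → Bool => (matZ c).det = 0)).card := by
    refine Finset.card_equiv (eqv n) fun b => ?_
    simp only [mem_filter, mem_univ, true_and, mem_product]
    exact det_sgM b
  rw [h1, card_product, card_univ, Fintype.card_fun, Fintype.card_bool, Fintype.card_fin]

theorem card_bits (n : ℕ) :
    2 ^ Fintype.card (Sym2 (Fin (n + 1))) = 2 ^ (n + 1) * 2 ^ Fintype.card (Sym2 (Fin n)) := by
  classical
  have h := Fintype.card_congr (eqv n)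
  rw [Fintype.card_prod, Fintype.card_fun, Fintype.card_fun, Fintype.card_fun, Fintype.card_bool,
    Fintype.card_fin] at h
  exact h

/-- **Exact reduction**: the probability that a symmetric sign matrix of size `n + 1` is singular
is the probability that a symmetric 0/1 matrix of size `n` is singular. -/
theorem prob_sgM (n : ℕ) :
    ((univ.filter fun b : Sym2 (Fin (n + 1)) → Bool => (sgM b).det = 0).card : ℝ) /
        2 ^ Fintype.card (Sym2 (Fin (n + 1))) =
      ((univ.filter fun c : Sym2 (Fin n) → Bool => (matZ c).det = 0).card : ℝ) /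
        2 ^ Fintype.card (Sym2 (Fin n)) := by
  have h1 : (2 : ℝ) ^ Fintype.card (Sym2 (Fin (n + 1))) =
      2 ^ (n + 1) * 2 ^ Fintype.card (Sym2 (Fin n)) := by
    exact_mod_cast card_bits n
  rw [card_sgM, h1]
  push_cast
  rw [mul_div_mul_left _ _ (by positivity)]

end Vale.Agent.P160.Half.SgnRed
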