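import Vale.Agent.P160.ST12
import Vale.Agent.P160.Half.SgnRed
import Vale.Agent.P160.Half.M8Asy

/-! # P160, rate 1/2: the landed rate `1 / √2` for symmetric 0/1 matrices on any index type (helper428) -/

open Finset Filter

namespace Vale.Agent.P160.Half.DetSmall428

open Vale.Agent.P160.Half.M8Asy

/-- size `n`, `Fin n` -/
theorem det_fin (κ : ℝ) (hκ0 : 0 < κ) (hκ : κ < 1 / 2) : ∀ᶠ n : ℕ in atTop,
    (((univ : Finset (Sym2 (Fin n) → Bool)).filter fun b => (matZ b).det = 0).card : ℝ) ≤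
      (2 : ℝ) ^ (-(κ * n)) * 2 ^ Fintype.card (Sym2 (Fin n)) := by
  have hlam : 1 / Real.sqrt 2 < (2 : ℝ) ^ (-κ) := by
    rw [Real.sqrt_eq_rpow, one_div, ← Real.rpow_neg (by norm_num)]
    exact Real.rpow_lt_rpow_of_exponent_lt (by norm_num) (by linarith)
  have h := Vale.Agent.P160.eventually_le6 hlam
  have h2 := (tendsto_add_atTop_nat 1).eventually h
  filter_upwards [h2] with n hn
  have e1 : Pb (fun b : Sym2 (Fin (n + 1)) → Bool => (signM b).det = 0) =
      ((univ.filter fun c : Sym2 (Fin n) → Bool => (matZ c).det = 0).card : ℝ) /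
        2 ^ Fintype.card (Sym2 (Fin n)) := by
    rw [← SgnRed.prob_sgM]
    unfold Pb
    congr!
  rw [e1, div_le_iff₀ (by positivity)] at hn
  refine hn.trans (mul_le_mul_of_nonneg_right ?_ (by positivity))
  rw [← Real.rpow_natCast, ← Real.rpow_mul (by norm_num)]
  refine Real.rpow_le_rpow_of_exponent_le (by norm_num) ?_
  push_cast
  nlinarith

/-- **Few singular matrices**, any index type. -/
theorem det_small (κ : ℝ) (hκ : κ < 1 / 2) : ∃ n₀ : ℕ, ∀ n ≥ n₀, ∀ (ι : Type) [Fintype ι] [DecidableEq ι],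
    Fintype.card ι = n →
    (Nat.card {b : Sym2 ι → Bool // (matZ b).det = 0} : ℝ) ≤ (2 : ℝ) ^ (-(κ * n)) * 2 ^ Fintype.card (Sym2 ι) := by
  classical
  obtain ⟨n₀, h⟩ := eventually_atTop.1 (det_fin (max κ (1 / 4)) (by positivity) (max_lt hκ (by norm_num)))
  refine ⟨n₀, fun n hn ι _ _ hc => ?_⟩
  subst hc
  let e : ι ≃ Fin (Fintype.card ι) := Fintype.equivFin ι
  have h1 : Fintype.card (Sym2 ι) = Fintype.card (Sym2 (Fin (Fintype.card ι))) :=
    Fintype.card_congr (s2e e)
  have h2 := h _ hn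
  have h3 : Nat.card {b : Sym2 ι → Bool // (matZ b).det = 0} ≤
      ((univ : Finset (Sym2 (Fin (Fintype.card ι)) → Bool)).filter fun b => (matZ b).det = 0).card := by
    rw [← Fintype.card_subtype, ← Nat.card_eq_fintype_card]
    refine Nat.card_le_card_of_injective (fun b => ⟨relab e b.1, ?_⟩) ?_
    · have h4 : matZ (relab e b.1) = (matZ b.1).submatrix e.symm e.symm := by
        ext i j
        rfl
      rw [h4, Matrix.det_submatrix_equiv_self]
      exact b.2
    · intro b b' hb
      exact Subtype.ext ((relab e).injective (congrArg Subtype.val hb))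
  have h5 : (2 : ℝ) ^ (-(max κ (1 / 4) * (Fintype.card ι : ℝ))) ≤ (2 : ℝ) ^ (-(κ * (Fintype.card ι : ℝ))) := by
    refine Real.rpow_le_rpow_of_exponent_le (by norm_num) (neg_le_neg ?_)
    exact mul_le_mul_of_nonneg_right (le_max_left _ _) (Nat.cast_nonneg _)
  calc (Nat.card {b : Sym2 ι → Bool // (matZ b).det = 0} : ℝ)
      ≤ (((univ : Finset (Sym2 (Fin (Fintype.card ι)) → Bool)).filter fun b => (matZ b).det = 0).card : ℝ) := by
        exact_mod_cast h3
    _ ≤ _ := h2
    _ ≤ _ := by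
        rw [h1]
        exact mul_le_mul_of_nonneg_right h5 (by positivity)

end Vale.Agent.P160.Half.DetSmall428
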