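import Mathlib

/-!
Exchange of columns in a bordered symmetric matrix (deterministic linear algebra).

`P` is a nonsingular symmetric matrix with index set `α ⊕ β`, `F` a matrix with rows `α ⊕ β` and
columns `β`, `G = P⁻¹ F`.  The vectors `e_j` (`j ∈ α`) and the columns of `G` form a basis when
the square block `G₂` is nonsingular; its Gram matrix is `M' = [[P₁₁, F₁], [F₁ᵀ, Fᵀ P⁻¹ F]]`.
-/

namespace Vale.Agent.P160.Half

open Matrix

set_option linter.unusedSectionVars false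

variable {α β : Type*} [Fintype α] [DecidableEq α] [Fintype β] [DecidableEq β]

/-- The change of basis matrix: columns `e_j` for `j ∈ α`, and the columns of `G`. -/
def cob (G : Matrix (α ⊕ β) β ℚ) : Matrix (α ⊕ β) (α ⊕ β) ℚ :=
  fromBlocks 1 G.toRows₁ 0 G.toRows₂

/-- The matrix after the exchange. -/
noncomputable def exch (P : Matrix (α ⊕ β) (α ⊕ β) ℚ) (F : Matrix (α ⊕ β) β ℚ) :
    Matrix (α ⊕ β) (α ⊕ β) ℚ :=
  fromBlocks P.toBlocks₁₁ F.toRows₁ F.toRows₁ᵀ (Fᵀ * (P⁻¹ * F))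

theorem det_cob (G : Matrix (α ⊕ β) β ℚ) : (cob G).det = G.toRows₂.det := by
  unfold cob
  rw [det_fromBlocks_zero₂₁, det_one, one_mul]

theorem mul_inv_mul (P : Matrix (α ⊕ β) (α ⊕ β) ℚ) (hP : P.det ≠ 0) (F : Matrix (α ⊕ β) β ℚ) :
    P * (P⁻¹ * F) = F := by
  rw [← Matrix.mul_assoc, mul_nonsing_inv P (isUnit_iff_ne_zero.2 hP), Matrix.one_mul]

theorem mul_cob (P : Matrix (α ⊕ β) (α ⊕ β) ℚ) (hP : P.det ≠ 0) (F : Matrix (α ⊕ β) β ℚ) :
    P * cob (P⁻¹ * F) = fromBlocks P.toBlocks₁₁ F.toRows₁ P.toBlocks₂₁ F.toRows₂ := by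
  have hPG := mul_inv_mul P hP F
  ext i j
  cases j with
  | inl j =>
    have h1 : (P * cob (P⁻¹ * F)) i (Sum.inl j) = P i (Sum.inl j) := by
      simp [mul_apply, cob, Fintype.sum_sum_type, one_apply]
    rw [h1]
    cases i <;> rfl
  | inr j =>
    have h1 : (P * cob (P⁻¹ * F)) i (Sum.inr j) = (P * (P⁻¹ * F)) i j := by
      simp only [mul_apply (M := P), cob, Fintype.sum_sum_type, fromBlocks_apply₁₂,
        fromBlocks_apply₂₂]
      rfl
    rw [h1, hPG]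
    cases i <;> rfl

theorem cob_gram (P : Matrix (α ⊕ β) (α ⊕ β) ℚ) (hs : P.IsSymm) (hP : P.det ≠ 0)
    (F : Matrix (α ⊕ β) β ℚ) :
    (cob (P⁻¹ * F))ᵀ * P * cob (P⁻¹ * F) = exch P F := by
  have h1 : (cob (P⁻¹ * F))ᵀ * P = (P * cob (P⁻¹ * F))ᵀ := by
    rw [transpose_mul, hs.eq]
  have hPG := mul_inv_mul P hP F
  rw [h1, mul_cob P hP F]
  unfold cob exch
  rw [fromBlocks_transpose, fromBlocks_multiply]
  have e11 : (P.toBlocks₁₁)ᵀ = P.toBlocks₁₁ := by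
    ext i j
    exact hs.apply _ _
  have e12 : (P.toBlocks₁₁) * (P⁻¹ * F).toRows₁ + (P.toBlocks₂₁)ᵀ * (P⁻¹ * F).toRows₂ =
      F.toRows₁ := by
    ext i j
    have h2 := congrFun (congrFun hPG (Sum.inl i)) j
    rw [mul_apply, Fintype.sum_sum_type] at h2
    rw [toRows₁_apply, ← h2, Matrix.add_apply, mul_apply, mul_apply]
    congr 1
    refine Finset.sum_congr rfl fun x _ => ?_
    rw [toRows₂_apply, transpose_apply]
    congr 1
    exact hs.apply _ _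
  have e22 : (F.toRows₁)ᵀ * (P⁻¹ * F).toRows₁ + (F.toRows₂)ᵀ * (P⁻¹ * F).toRows₂ =
      Fᵀ * (P⁻¹ * F) := by
    ext i j
    rw [Matrix.add_apply, mul_apply, mul_apply, mul_apply (M := Fᵀ), Fintype.sum_sum_type]
    rfl
  simp only [e11, Matrix.mul_one, Matrix.mul_zero, add_zero, e12, e22]

theorem det_exch (P : Matrix (α ⊕ β) (α ⊕ β) ℚ) (hs : P.IsSymm) (hP : P.det ≠ 0)
    (F : Matrix (α ⊕ β) β ℚ) :
    (exch P F).det = P.det * ((P⁻¹ * F).toRows₂.det) ^ 2 := by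
  rw [← cob_gram P hs hP F, det_mul, det_mul, det_transpose, det_cob]
  ring

theorem isSymm_exch (P : Matrix (α ⊕ β) (α ⊕ β) ℚ) (hs : P.IsSymm) (hP : P.det ≠ 0)
    (F : Matrix (α ⊕ β) β ℚ) : (exch P F).IsSymm := by
  rw [← cob_gram P hs hP F]
  unfold Matrix.IsSymm
  rw [transpose_mul, transpose_mul, transpose_transpose, hs.eq, Matrix.mul_assoc]

/-- Pairing vector with respect to the new basis, from the pairing vector `x` with the old one. -/
def tr (G : Matrix (α ⊕ β) β ℚ) (x : α ⊕ β → ℚ) : α ⊕ β → ℚ := (cob G)ᵀ *ᵥ x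

theorem tr_inl (G : Matrix (α ⊕ β) β ℚ) (x : α ⊕ β → ℚ) (a : α) :
    tr G x (Sum.inl a) = x (Sum.inl a) := by
  simp [tr, mulVec, dotProduct, cob, Fintype.sum_sum_type, one_apply]

theorem tr_inr (G : Matrix (α ⊕ β) β ℚ) (x : α ⊕ β → ℚ) (b : β) :
    tr G x (Sum.inr b) = ∑ i, G i b * x i := by
  simp only [tr, mulVec, dotProduct, cob, Fintype.sum_sum_type, transpose_apply,
    fromBlocks_apply₁₂, fromBlocks_apply₂₂]
  rfl

theorem isUnit_det_cob (G : Matrix (α ⊕ β) β ℚ) (hG : G.toRows₂.det ≠ 0) :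
    IsUnit (cob G).det := by
  rw [det_cob]
  exact isUnit_iff_ne_zero.2 hG

/-- The vector with pairing vector `x` has the new coordinates `(cob G)⁻¹ (P⁻¹ x)`. -/
theorem exch_inv_tr (P : Matrix (α ⊕ β) (α ⊕ β) ℚ) (hs : P.IsSymm) (hP : P.det ≠ 0)
    (F : Matrix (α ⊕ β) β ℚ) (hG : (P⁻¹ * F).toRows₂.det ≠ 0) (x : α ⊕ β → ℚ) :
    (exch P F)⁻¹ *ᵥ (tr (P⁻¹ * F) x) = (cob (P⁻¹ * F))⁻¹ *ᵥ (P⁻¹ *ᵥ x) := by
  have hu : IsUnit P.det := isUnit_iff_ne_zero.2 hP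
  have hc := isUnit_det_cob _ hG
  have hct : IsUnit ((cob (P⁻¹ * F))ᵀ).det := by rwa [det_transpose]
  rw [← cob_gram P hs hP F, Matrix.mul_inv_rev, Matrix.mul_inv_rev, tr, mulVec_mulVec, Matrix.mul_assoc,
    Matrix.mul_assoc, nonsing_inv_mul _ hct, Matrix.mul_one, mulVec_mulVec]

/-- The form is the same in both coordinate systems. -/
theorem form_tr (P : Matrix (α ⊕ β) (α ⊕ β) ℚ) (hs : P.IsSymm) (hP : P.det ≠ 0)
    (F : Matrix (α ⊕ β) β ℚ) (hG : (P⁻¹ * F).toRows₂.det ≠ 0) (x y : α ⊕ β → ℚ) :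
    tr (P⁻¹ * F) x ⬝ᵥ ((exch P F)⁻¹ *ᵥ (tr (P⁻¹ * F) y)) = x ⬝ᵥ (P⁻¹ *ᵥ y) := by
  have hc := isUnit_det_cob _ hG
  rw [exch_inv_tr P hs hP F hG, tr]
  rw [mulVec_transpose, ← dotProduct_mulVec, mulVec_mulVec, mul_nonsing_inv _ hc, one_mulVec]

/-- The pairing vector of a removed basis vector `e_r`, `r ∈ β`, with the new basis. -/
def rem (P : Matrix (α ⊕ β) (α ⊕ β) ℚ) (F : Matrix (α ⊕ β) β ℚ) (r : β) : α ⊕ β → ℚ :=
  Sum.elim (fun a => P (Sum.inl a) (Sum.inr r)) (fun b => F (Sum.inr r) b)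

theorem tr_col (P : Matrix (α ⊕ β) (α ⊕ β) ℚ) (hs : P.IsSymm) (hP : P.det ≠ 0)
    (F : Matrix (α ⊕ β) β ℚ) (r : β) :
    tr (P⁻¹ * F) (fun i => P i (Sum.inr r)) = rem P F r := by
  funext i
  cases i with
  | inl a => rw [tr_inl]; rfl
  | inr b =>
    rw [tr_inr]
    have h := congrFun (congrFun (mul_inv_mul P hP F) (Sum.inr r)) b
    rw [mul_apply] at h
    simp only [rem, Sum.elim_inr]
    rw [← h]
    refine Finset.sum_congr rfl fun x _ => ?_
    rw [mul_comm, hs.apply]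

theorem inv_mulVec_col (P : Matrix (α ⊕ β) (α ⊕ β) ℚ) (hP : P.det ≠ 0) (j : α ⊕ β) :
    P⁻¹ *ᵥ (fun i => P i j) = Pi.single j 1 := by
  have h : P⁻¹ * P = 1 := nonsing_inv_mul P (isUnit_iff_ne_zero.2 hP)
  funext i
  have := congrFun (congrFun h i) j
  rw [mul_apply] at this
  rw [mulVec, dotProduct]
  rw [this, one_apply, Pi.single_apply]

/-- The entries of `P` in the removed block are the values of the form. -/
theorem rem_form (P : Matrix (α ⊕ β) (α ⊕ β) ℚ) (hs : P.IsSymm) (hP : P.det ≠ 0)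
    (F : Matrix (α ⊕ β) β ℚ) (hG : (P⁻¹ * F).toRows₂.det ≠ 0) (r s : β) :
    rem P F r ⬝ᵥ ((exch P F)⁻¹ *ᵥ (rem P F s)) = P (Sum.inr r) (Sum.inr s) := by
  rw [← tr_col P hs hP F r, ← tr_col P hs hP F s, form_tr P hs hP F hG, inv_mulVec_col P hP]
  rw [dotProduct_single, mul_one]
  exact hs.apply _ _

/-- `(P, F)` can be recovered from the exchanged matrix and the removed vectors. -/
theorem exch_injective (P P' : Matrix (α ⊕ β) (α ⊕ β) ℚ) (hs : P.IsSymm) (hs' : P'.IsSymm)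
    (hP : P.det ≠ 0) (hP' : P'.det ≠ 0) (F F' : Matrix (α ⊕ β) β ℚ)
    (hG : (P⁻¹ * F).toRows₂.det ≠ 0) (hG' : (P'⁻¹ * F').toRows₂.det ≠ 0)
    (h1 : exch P F = exch P' F') (h2 : ∀ r, rem P F r = rem P' F' r) : P = P' ∧ F = F' := by
  have h11 : ∀ a a' : α, P (Sum.inl a) (Sum.inl a') = P' (Sum.inl a) (Sum.inl a') := by
    intro a a'
    exact congrFun (congrFun h1 (Sum.inl a)) (Sum.inl a')
  have h12 : ∀ (a : α) (b : β), F (Sum.inl a) b = F' (Sum.inl a) b := by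
    intro a b
    exact congrFun (congrFun h1 (Sum.inl a)) (Sum.inr b)
  have h21 : ∀ (a : α) (r : β), P (Sum.inl a) (Sum.inr r) = P' (Sum.inl a) (Sum.inr r) := by
    intro a r
    exact congrFun (h2 r) (Sum.inl a)
  have h22 : ∀ (r b : β), F (Sum.inr r) b = F' (Sum.inr r) b := by
    intro r b
    exact congrFun (h2 r) (Sum.inr b)
  have h3 : ∀ r s : β, P (Sum.inr r) (Sum.inr s) = P' (Sum.inr r) (Sum.inr s) := by
    intro r s
    rw [← rem_form P hs hP F hG r s, ← rem_form P' hs' hP' F' hG' r s, h1, h2, h2]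
  constructor
  · ext i j
    rcases i with a | r <;> rcases j with a' | s
    · exact h11 a a'
    · exact h21 a s
    · rw [← hs.apply, ← hs'.apply]
      exact h21 a' r
    · exact h3 r s
  · ext i j
    rcases i with a | r
    · exact h12 a j
    · exact h22 r j

end Vale.Agent.P160.Half
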