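import Mathlib

/-!
# Row exposure

Independent rows from a finite set `Ω`; the kernel either drops in dimension or the row kills a
canonical good vector.
-/

namespace Vale.Agent.P160.Half.Expo

open Finset

/-- the sum in the exposure bound -/
noncomputable def SS (θ : ℝ) (s d : ℕ) : ℝ :=
  ∑ j ∈ range (d + 1), (s.choose j : ℝ) * θ ^ (s - j)

theorem SS_nonneg {θ : ℝ} (h0 : 0 ≤ θ) (s d : ℕ) : 0 ≤ SS θ s d := by
  unfold SS; positivity

theorem SS_mono {θ : ℝ} (h0 : 0 ≤ θ) (s : ℕ) {d d' : ℕ} (h : d ≤ d') : SS θ s d ≤ SS θ s d' := by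
  unfold SS
  apply Finset.sum_le_sum_of_subset_of_nonneg
  · intro j hj; rw [mem_range] at *; omega
  · intro j _ _; positivity

theorem SS_zero {θ : ℝ} (d : ℕ) (h0 : 0 ≤ θ) : 1 ≤ SS θ 0 d := by
  unfold SS
  rw [Finset.sum_range_succ']
  have : 0 ≤ ∑ k ∈ range d, (((0 : ℕ).choose (k + 1) : ℕ) : ℝ) * θ ^ (0 - (k + 1)) := by positivity
  simp only [Nat.choose_zero_right, Nat.cast_one, Nat.sub_zero, pow_zero, mul_one]
  linarith

theorem mul_SS (θ : ℝ) (s d : ℕ) :
    θ * SS θ s d = ∑ j ∈ range (d + 1), (s.choose j : ℝ) * θ ^ (s + 1 - j) := by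
  unfold SS
  rw [Finset.mul_sum]
  refine sum_congr rfl fun j _ => ?_
  rcases Nat.lt_or_ge s j with h | h
  · rw [Nat.choose_eq_zero_of_lt h]; simp
  · have : s + 1 - j = (s - j) + 1 := by omega
    rw [this, pow_succ]; ring

theorem SS_succ_zero (θ : ℝ) (s : ℕ) : θ * SS θ s 0 = SS θ (s + 1) 0 := by
  unfold SS
  simp [pow_succ, mul_comm]

theorem SS_succ (θ : ℝ) (s d : ℕ) : θ * SS θ s (d + 1) + SS θ s d = SS θ (s + 1) (d + 1) := by
  rw [mul_SS]
  unfold SS
  rw [Finset.sum_range_succ' (fun j => ((s + 1).choose j : ℝ) * θ ^ (s + 1 - j)) (d + 1),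
    Finset.sum_range_succ' (fun j => (s.choose j : ℝ) * θ ^ (s + 1 - j)) (d + 1)]
  have h1 : ∀ j, (((s + 1).choose (j + 1) : ℕ) : ℝ) * θ ^ (s + 1 - (j + 1))
      = (s.choose j : ℝ) * θ ^ (s - j) + (s.choose (j + 1) : ℝ) * θ ^ (s + 1 - (j + 1)) := by
    intro j
    rw [Nat.choose_succ_succ]
    have : s + 1 - (j + 1) = s - j := by omega
    rw [this]; push_cast; ring
  simp only [h1, Finset.sum_add_distrib, Nat.choose_zero_right]
  ring

/-- crude bound -/
theorem SS_le {θ : ℝ} (h0 : 0 ≤ θ) (h1 : θ ≤ 1) (s d : ℕ) : SS θ s d ≤ 2 ^ s * θ ^ (s - d) := by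
  unfold SS
  calc ∑ j ∈ range (d + 1), (s.choose j : ℝ) * θ ^ (s - j)
      ≤ ∑ j ∈ range (d + 1), (s.choose j : ℝ) * θ ^ (s - d) := by
        apply Finset.sum_le_sum
        intro j hj
        rw [mem_range] at hj
        apply mul_le_mul_of_nonneg_left _ (by positivity)
        exact pow_le_pow_of_le_one h0 h1 (by omega)
    _ = (∑ j ∈ range (d + 1), (s.choose j : ℝ)) * θ ^ (s - d) := by rw [Finset.sum_mul]
    _ ≤ 2 ^ s * θ ^ (s - d) := by
        apply mul_le_mul_of_nonneg_right _ (by positivity)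
        have h2 : ∑ j ∈ range (d + 1), s.choose j ≤ 2 ^ s := by
          rw [← Nat.sum_range_choose s]
          rcases Nat.le_total d s with h | h
          · apply Finset.sum_le_sum_of_subset
            intro j hj; rw [mem_range] at *; omega
          · rw [← Finset.sum_subset (s₁ := range (s + 1)) (s₂ := range (d + 1))]
            · intro j hj; rw [mem_range] at *; omega
            · intro j _ hj
              rw [mem_range] at hj
              exact Nat.choose_eq_zero_of_lt (by omega)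
        exact_mod_cast h2

section

variable {K V W : Type*} [Field K] [AddCommGroup V] [Module K V]
  [AddCommGroup W] [Module K W] (pr : W →ₗ[K] V →ₗ[K] K)

open Classical in
/-- tuples of rows from `Ω` which all kill some good vector of `U` -/
noncomputable def surv (Ω : Finset W) (Good : Set V) (s : ℕ) (U : Submodule K V) :
    Finset (Fin s → W) :=
  (Fintype.piFinset (fun _ : Fin s => Ω)).filter
    (fun x => ∃ u ∈ Good, u ∈ U ∧ ∀ i, pr (x i) u = 0)

theorem mem_surv {Ω : Finset W} {Good : Set V} {s : ℕ} {U : Submodule K V} {x : Fin s → W} :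
    x ∈ surv pr Ω Good s U ↔ (∀ i, x i ∈ Ω) ∧ ∃ u ∈ Good, u ∈ U ∧ ∀ i, pr (x i) u = 0 := by
  classical
  rw [surv, mem_filter, Fintype.mem_piFinset]

theorem card_surv_succ (Ω : Finset W) (Good : Set V) (s : ℕ) (U : Submodule K V) :
    (surv pr Ω Good (s + 1) U).card
      ≤ ∑ x ∈ Ω, (surv pr Ω Good s (U ⊓ LinearMap.ker (pr x))).card := by
  classical
  have hmaps : ∀ x ∈ surv pr Ω Good (s + 1) U, x 0 ∈ Ω := by
    intro x hx
    exact ((mem_surv pr).mp hx).1 0
  rw [Finset.card_eq_sum_card_fiberwise hmaps]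
  apply Finset.sum_le_sum
  intro w _
  apply Finset.card_le_card_of_injOn Fin.tail
  · intro x hx
    rw [Finset.mem_coe, mem_filter, mem_surv] at hx
    obtain ⟨⟨h1, u, hu, huU, h2⟩, h3⟩ := hx
    rw [Finset.mem_coe, mem_surv]
    refine ⟨fun i => h1 i.succ, u, hu, ⟨huU, ?_⟩, fun i => h2 i.succ⟩
    rw [SetLike.mem_coe, LinearMap.mem_ker, ← h3]
    exact h2 0
  · intro x hx y hy hxy
    rw [Finset.mem_coe, mem_filter] at hx hy
    rw [← Fin.cons_self_tail x, ← Fin.cons_self_tail y, hx.2, hy.2, hxy]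

/-- **row exposure** -/
theorem card_surv (Ω : Finset W) (Good : Set V) (θ : ℝ) (h0 : 0 ≤ θ)
    (hθ : ∀ u ∈ Good, ((by classical exact (Ω.filter (fun x => pr x u = 0)).card : ℕ) : ℝ)
      ≤ θ * Ω.card) :
    ∀ (s d : ℕ) (U : Submodule K V), Module.Finite K U → Module.finrank K U ≤ d →
      ((surv pr Ω Good s U).card : ℝ) ≤ (Ω.card : ℝ) ^ s * SS θ s d := by
  classical
  intro s
  induction s with
  | zero =>
    intro d U _ _
    have hc : (surv pr Ω Good 0 U).card ≤ 1 := by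
      rw [Finset.card_le_one]
      intro a _ b _
      exact Subsingleton.elim _ _
    calc ((surv pr Ω Good 0 U).card : ℝ) ≤ 1 := by exact_mod_cast hc
      _ ≤ _ := by rw [pow_zero, one_mul]; exact SS_zero d h0
  | succ s ih =>
    intro d U hfin hd
    by_cases hgood : ∃ u ∈ Good, u ∈ U
    swap
    · have hempty : surv pr Ω Good (s + 1) U = ∅ := by
        rw [Finset.eq_empty_iff_forall_notMem]
        intro x hx
        obtain ⟨_, u, hu, huU, _⟩ := (mem_surv pr).mp hx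
        exact hgood ⟨u, hu, huU⟩
      rw [hempty, Finset.card_empty, Nat.cast_zero]
      exact mul_nonneg (by positivity) (SS_nonneg h0 _ _)
    obtain ⟨u0, hu0, hu0U⟩ := hgood
    set Ω0 := Ω.filter (fun x => U ≤ LinearMap.ker (pr x)) with hΩ0
    set Ω1 := Ω.filter (fun x => ¬ U ≤ LinearMap.ker (pr x)) with hΩ1
    have hsplit : ∑ x ∈ Ω, (surv pr Ω Good s (U ⊓ LinearMap.ker (pr x))).card
        = ∑ x ∈ Ω0, (surv pr Ω Good s (U ⊓ LinearMap.ker (pr x))).card
          + ∑ x ∈ Ω1, (surv pr Ω Good s (U ⊓ LinearMap.ker (pr x))).card :=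
      (Finset.sum_filter_add_sum_filter_not _ _ _).symm
    have hΩ0card : (Ω0.card : ℝ) ≤ θ * Ω.card := by
      refine le_trans ?_ (hθ u0 hu0)
      have : Ω0 ⊆ Ω.filter (fun x => pr x u0 = 0) := by
        intro x hx
        rw [hΩ0, mem_filter] at hx
        rw [mem_filter]
        exact ⟨hx.1, LinearMap.mem_ker.mp (hx.2 hu0U)⟩
      exact_mod_cast Finset.card_le_card this
    have hΩ1card : (Ω1.card : ℝ) ≤ Ω.card := by
      exact_mod_cast Finset.card_le_card (Finset.filter_subset _ _)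
    have hb0 : ∀ x ∈ Ω0, ((surv pr Ω Good s (U ⊓ LinearMap.ker (pr x))).card : ℝ)
        ≤ (Ω.card : ℝ) ^ s * SS θ s d := by
      intro x hx
      rw [hΩ0, mem_filter] at hx
      rw [inf_eq_left.mpr hx.2]
      exact ih d U hfin hd
    have hb1 : ∀ x ∈ Ω1, 1 ≤ d ∧ ((surv pr Ω Good s (U ⊓ LinearMap.ker (pr x))).card : ℝ)
        ≤ (Ω.card : ℝ) ^ s * SS θ s (d - 1) := by
      intro x hx
      rw [hΩ1, mem_filter] at hx
      have hlt : U ⊓ LinearMap.ker (pr x) < U := by
        refine lt_of_le_of_ne inf_le_left ?_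
        intro h
        exact hx.2 (inf_eq_left.mp h)
      have h3 := Submodule.finrank_lt_finrank_of_lt hlt
      have hfin' : Module.Finite K ↥(U ⊓ LinearMap.ker (pr x)) :=
        Submodule.finiteDimensional_inf_left U (LinearMap.ker (pr x))
      refine ⟨by omega, ih (d - 1) _ hfin' (by omega)⟩
    have hΩpow : 0 ≤ (Ω.card : ℝ) ^ s := by positivity
    have hsum0 : ((∑ x ∈ Ω0, (surv pr Ω Good s (U ⊓ LinearMap.ker (pr x))).card : ℕ) : ℝ)
        ≤ θ * Ω.card * ((Ω.card : ℝ) ^ s * SS θ s d) := by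
      push_cast
      calc _ ≤ ∑ x ∈ Ω0, (Ω.card : ℝ) ^ s * SS θ s d := Finset.sum_le_sum hb0
        _ = Ω0.card * ((Ω.card : ℝ) ^ s * SS θ s d) := by rw [sum_const, nsmul_eq_mul]
        _ ≤ _ := mul_le_mul_of_nonneg_right hΩ0card
            (mul_nonneg hΩpow (SS_nonneg h0 _ _))
    have hmain := card_surv_succ pr Ω Good s U
    rw [hsplit] at hmain
    have hmain' : ((surv pr Ω Good (s + 1) U).card : ℝ)
        ≤ ((∑ x ∈ Ω0, (surv pr Ω Good s (U ⊓ LinearMap.ker (pr x))).card : ℕ) : ℝ)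
          + ((∑ x ∈ Ω1, (surv pr Ω Good s (U ⊓ LinearMap.ker (pr x))).card : ℕ) : ℝ) := by
      exact_mod_cast hmain
    rcases Ω1.eq_empty_or_nonempty with h | ⟨x1, hx1⟩
    · rw [h, Finset.sum_empty, Nat.cast_zero, add_zero] at hmain'
      refine (hmain'.trans hsum0).trans ?_
      have h5 : θ * SS θ s d ≤ SS θ (s + 1) d := by
        cases d with
        | zero => exact (SS_succ_zero θ s).le
        | succ d =>
          rw [← SS_succ]
          linarith [SS_nonneg h0 s d]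
      calc θ * Ω.card * ((Ω.card : ℝ) ^ s * SS θ s d)
          = (Ω.card : ℝ) ^ (s + 1) * (θ * SS θ s d) := by ring
        _ ≤ (Ω.card : ℝ) ^ (s + 1) * SS θ (s + 1) d :=
            mul_le_mul_of_nonneg_left h5 (by positivity)
    · have hd1 := (hb1 x1 hx1).1
      obtain ⟨d', rfl⟩ : ∃ d', d = d' + 1 := ⟨d - 1, by omega⟩
      have hsum1 : ((∑ x ∈ Ω1, (surv pr Ω Good s (U ⊓ LinearMap.ker (pr x))).card : ℕ) : ℝ)
          ≤ Ω.card * ((Ω.card : ℝ) ^ s * SS θ s d') := by
        push_cast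
        calc _ ≤ ∑ x ∈ Ω1, (Ω.card : ℝ) ^ s * SS θ s d' :=
              Finset.sum_le_sum fun x hx => (hb1 x hx).2
          _ = Ω1.card * ((Ω.card : ℝ) ^ s * SS θ s d') := by rw [sum_const, nsmul_eq_mul]
          _ ≤ _ := mul_le_mul_of_nonneg_right hΩ1card
              (mul_nonneg hΩpow (SS_nonneg h0 _ _))
      calc ((surv pr Ω Good (s + 1) U).card : ℝ)
          ≤ θ * Ω.card * ((Ω.card : ℝ) ^ s * SS θ s (d' + 1))
            + Ω.card * ((Ω.card : ℝ) ^ s * SS θ s d') :=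
            hmain'.trans (add_le_add hsum0 hsum1)
        _ = (Ω.card : ℝ) ^ (s + 1) * (θ * SS θ s (d' + 1) + SS θ s d') := by ring
        _ = (Ω.card : ℝ) ^ (s + 1) * SS θ (s + 1) (d' + 1) := by rw [SS_succ]

/-- **row exposure**, crude form -/
theorem card_surv_le (Ω : Finset W) (Good : Set V) (θ : ℝ) (h0 : 0 ≤ θ) (h1 : θ ≤ 1)
    (hθ : ∀ u ∈ Good, ((by classical exact (Ω.filter (fun x => pr x u = 0)).card : ℕ) : ℝ)
      ≤ θ * Ω.card)
    (s d : ℕ) (U : Submodule K V) (hfin : Module.Finite K U) (hd : Module.finrank K U ≤ d) :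
      ((surv pr Ω Good s U).card : ℝ) ≤ (Ω.card : ℝ) ^ s * (2 ^ s * θ ^ (s - d)) :=
  (card_surv pr Ω Good θ h0 hθ s d U hfin hd).trans
    (mul_le_mul_of_nonneg_left (SS_le h0 h1 s d) (by positivity))

end

end Vale.Agent.P160.Half.Expo
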