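import Mathlib

/-! # P160-HALF (M): exposure of the columns (helper370), abstract form of 832's note 11023 (1)-(3).

`Y` = columns, `e j x p` = excess of `p` after the columns `x`, `inc j x y p` = the column `y`
increments `p`.  Good period: the increments of a set `B` of primes cost `2 ∏ v_p^(-min (k-j+e_p, 3))`;
always: `∏ c_p(e_p)`; bad profiles are rare: `η ∏ v_p^(-3 e_p)`.  Then
`E ∏ v_p^(2 e_p) ≤ ∏ (9 (1 + 2/v_p)^k v_p) + k η ∏ S_p`. -/

open Finset

namespace Vale.Agent.P160.Half.X370

section general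

open Classical in
/-- one step -/
theorem prod_step {Ω ι : Type*} [Fintype Ω] [DecidableEq ι] (P : Finset ι) (I : ι → Ω → Prop)
    (a b q : ι → ℝ) (ha : ∀ p ∈ P, 0 ≤ a p) (hb : ∀ p ∈ P, 0 ≤ b p)
    (hq : ∀ B ⊆ P, (((univ : Finset Ω).filter fun ω => ∀ p ∈ B, I p ω).card : ℝ) ≤
      (∏ p ∈ B, q p) * Fintype.card Ω) :
    ∑ ω, ∏ p ∈ P, (a p + if I p ω then b p else 0) ≤
      (∏ p ∈ P, (a p + q p * b p)) * Fintype.card Ω := by
  have h1 : ∀ ω, ∏ p ∈ P, (a p + if I p ω then b p else 0) =
      ∑ B ∈ P.powerset, (∏ p ∈ B, b p) * (∏ p ∈ P \ B, a p) *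
        (if ∀ p ∈ B, I p ω then 1 else 0) := by
    intro ω
    have h2 : ∏ p ∈ P, (a p + if I p ω then b p else 0) =
        ∏ p ∈ P, ((if I p ω then b p else 0) + a p) := prod_congr rfl fun p _ => add_comm _ _
    rw [h2, prod_add]
    refine sum_congr rfl fun B _ => ?_
    by_cases h : ∀ p ∈ B, I p ω
    · rw [if_pos h, mul_one]
      congr 1
      exact prod_congr rfl fun p hp => by rw [if_pos (h p hp)]
    · rw [if_neg h, mul_zero]
      push Not at h
      obtain ⟨p, hp, hI⟩ := h
      rw [prod_eq_zero hp (by rw [if_neg hI]), zero_mul]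
  have h3 : ∏ p ∈ P, (a p + q p * b p) =
      ∑ B ∈ P.powerset, (∏ p ∈ B, b p) * (∏ p ∈ P \ B, a p) * ∏ p ∈ B, q p := by
    have h4 : ∏ p ∈ P, (a p + q p * b p) = ∏ p ∈ P, (q p * b p + a p) :=
      prod_congr rfl fun p _ => add_comm _ _
    rw [h4, prod_add]
    refine sum_congr rfl fun B _ => ?_
    rw [prod_mul_distrib]
    ring
  simp only [h1]
  rw [sum_comm, h3, sum_mul]
  refine sum_le_sum fun B hB => ?_
  rw [mem_powerset] at hB
  rw [← mul_sum, mul_assoc ((∏ p ∈ B, b p) * ∏ p ∈ P \ B, a p)]
  refine mul_le_mul_of_nonneg_left ?_ (mul_nonneg (prod_nonneg fun p hp => hb p (hB hp))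
    (prod_nonneg fun p hp => ha p (mem_sdiff.1 hp).1))
  have := hq B hB
  rw [sum_boole]
  exact_mod_cast this

theorem sum_snoc {Y : Type*} [Fintype Y] (j : ℕ) (F : (Fin (j + 1) → Y) → ℝ) :
    ∑ x : Fin (j + 1) → Y, F x = ∑ x : Fin j → Y, ∑ y : Y, F (Fin.snoc x y) := by
  rw [← (Fin.snocEquiv fun _ => Y).sum_comp, Fintype.sum_prod_type, sum_comm]
  rfl

/-- iteration with an additive error -/
theorem iter {Y : Type*} [Fintype Y] (k : ℕ) (f g : (j : ℕ) → (Fin j → Y) → ℝ)
    (hf : ∀ j < k, ∀ x : Fin j → Y,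
      ∑ y, f (j + 1) (Fin.snoc x y) ≤ Fintype.card Y * (f j x + g j x)) :
    ∀ j ≤ k, ∑ x : Fin j → Y, f j x ≤ (Fintype.card Y : ℝ) ^ j * f 0 Fin.elim0 +
      ∑ i ∈ range j, (Fintype.card Y : ℝ) ^ (j - i) * ∑ x : Fin i → Y, g i x := by
  intro j
  induction j with
  | zero =>
      intro _
      rw [pow_zero, one_mul, Fintype.sum_subsingleton _ Fin.elim0, range_zero, sum_empty, add_zero]
  | succ j ih =>
      intro hj
      have h1 := ih (by omega)
      rw [sum_snoc]
      calc ∑ x : Fin j → Y, ∑ y : Y, f (j + 1) (Fin.snoc x y)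
          ≤ ∑ x : Fin j → Y, Fintype.card Y * (f j x + g j x) :=
            sum_le_sum fun x _ => hf j (by omega) x
        _ = Fintype.card Y * ∑ x : Fin j → Y, f j x + Fintype.card Y * ∑ x : Fin j → Y, g j x := by
            rw [← mul_sum, sum_add_distrib, mul_add]
        _ ≤ Fintype.card Y * ((Fintype.card Y : ℝ) ^ j * f 0 Fin.elim0 +
              ∑ i ∈ range j, (Fintype.card Y : ℝ) ^ (j - i) * ∑ x : Fin i → Y, g i x) +
              Fintype.card Y * ∑ x : Fin j → Y, g j x := by
            have := mul_le_mul_of_nonneg_left h1 (Nat.cast_nonneg (α := ℝ) (Fintype.card Y))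
            linarith
        _ = _ := by
            rw [sum_range_succ, mul_add, mul_sum]
            have e1 : ∀ i ∈ range j, (Fintype.card Y : ℝ) * ((Fintype.card Y : ℝ) ^ (j - i) *
                ∑ x : Fin i → Y, g i x) =
                (Fintype.card Y : ℝ) ^ (j + 1 - i) * ∑ x : Fin i → Y, g i x := by
              intro i hi
              rw [mem_range] at hi
              rw [show j + 1 - i = (j - i) + 1 by omega, pow_succ]
              ring
            rw [sum_congr rfl e1, show j + 1 - j = 1 by omega, pow_one]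
            ring

end general

section potentials

/-- factor of the good period -/
noncomputable def gf (v : ℝ) (m : ℕ) : ℝ :=
  if m = 0 then 1 else if m = 1 then 3 * v else 9 * (1 + 2 / v) ^ m * v

/-- potential of the good period -/
noncomputable def psi (v : ℝ) (e m : ℕ) : ℝ := v ^ (2 * e) * gf v m

theorem gf_nonneg {v : ℝ} (hv : 1 ≤ v) (m : ℕ) : 0 ≤ gf v m := by
  unfold gf
  split_ifs <;> positivity

theorem psi_nonneg {v : ℝ} (hv : 1 ≤ v) (e m : ℕ) : 0 ≤ psi v e m :=
  mul_nonneg (by positivity) (gf_nonneg hv m)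

theorem gf_step {v : ℝ} (hv : 1 ≤ v) (m e : ℕ) :
    gf v m * (1 + 2 * (v ^ (min (m + 1 + e) 3))⁻¹ * v ^ 2) ≤ gf v (m + 1) := by
  have hv0 : 0 < v := by linarith
  rcases Nat.eq_zero_or_pos m with hm | hm
  · subst hm
    have h1 : gf v 0 = 1 := by simp [gf]
    have h2 : gf v 1 = 3 * v := by simp [gf]
    rw [h1, zero_add, h2, one_mul]
    have h3 : v ^ 1 ≤ v ^ (min (1 + e) 3) := pow_le_pow_right₀ hv (by omega)
    have h4 : (v ^ (min (1 + e) 3))⁻¹ ≤ (v ^ 1)⁻¹ := inv_anti₀ (by positivity) h3
    have h5 : 2 * (v ^ (min (1 + e) 3))⁻¹ * v ^ 2 ≤ 2 * (v ^ 1)⁻¹ * v ^ 2 := by gcongr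
    have h6 : 2 * (v ^ 1)⁻¹ * v ^ 2 = 2 * v := by field_simp
    linarith
  · rcases Nat.lt_or_ge m 2 with hm2 | hm2
    · have hm1 : m = 1 := by omega
      subst hm1
      have h1 : gf v 1 = 3 * v := by simp [gf]
      have h2 : gf v 2 = 9 * (1 + 2 / v) ^ 2 * v := by simp [gf]
      rw [h1, show 1 + 1 = 2 from rfl, h2]
      have h3 : v ^ 2 ≤ v ^ (min (2 + e) 3) := pow_le_pow_right₀ hv (by omega)
      have h4 : (v ^ (min (2 + e) 3))⁻¹ ≤ (v ^ 2)⁻¹ := inv_anti₀ (by positivity) h3
      have h5 : 2 * (v ^ (min (2 + e) 3))⁻¹ * v ^ 2 ≤ 2 * (v ^ 2)⁻¹ * v ^ 2 := by gcongr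
      have h6 : 2 * (v ^ 2)⁻¹ * v ^ 2 = 2 := by field_simp
      have h7 : (1 : ℝ) ≤ (1 + 2 / v) ^ 2 := one_le_pow₀ (by
        have : 0 ≤ 2 / v := by positivity
        linarith)
      calc 3 * v * (1 + 2 * (v ^ (min (2 + e) 3))⁻¹ * v ^ 2) ≤ 3 * v * (1 + 2) := by
            gcongr
            linarith
        _ = 9 * 1 * v := by ring
        _ ≤ 9 * (1 + 2 / v) ^ 2 * v := by gcongr
    · have h1 : gf v m = 9 * (1 + 2 / v) ^ m * v := by
        unfold gf; rw [if_neg (by omega), if_neg (by omega)]
      have h2 : gf v (m + 1) = 9 * (1 + 2 / v) ^ (m + 1) * v := by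
        unfold gf; rw [if_neg (by omega), if_neg (by omega)]
      rw [h1, h2]
      have h3 : min (m + 1 + e) 3 = 3 := by omega
      rw [h3]
      have h4 : 2 * (v ^ 3)⁻¹ * v ^ 2 = 2 / v := by field_simp
      rw [h4, pow_succ]
      apply le_of_eq
      ring

/-- potential of the bad period -/
noncomputable def phi (v : ℝ) (c : ℕ → ℝ) : ℕ → ℕ → ℝ
  | e, 0 => v ^ (2 * e)
  | e, m + 1 => phi v c e m + c e * phi v c (e + 1) m

theorem phi_nonneg {v : ℝ} (hv : 1 ≤ v) {c : ℕ → ℝ} (hc : ∀ e, 0 ≤ c e) (m : ℕ) :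
    ∀ e, 0 ≤ phi v c e m := by
  induction m with
  | zero => intro e; unfold phi; positivity
  | succ m ih => intro e; unfold phi; exact add_nonneg (ih e) (mul_nonneg (hc e) (ih (e + 1)))

theorem phi_mono {v : ℝ} (hv : 1 ≤ v) {c : ℕ → ℝ} (hc : ∀ e, 0 ≤ c e) {m m' : ℕ} (h : m ≤ m') (e : ℕ) :
    phi v c e m ≤ phi v c e m' := by
  induction m', h using Nat.le_induction with
  | base => exact le_refl _
  | succ n _ ih =>
      refine ih.trans ?_
      show phi v c e n ≤ phi v c e n + c e * phi v c (e + 1) n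
      have := mul_nonneg (hc e) (phi_nonneg hv hc n (e + 1))
      linarith

/-- closed form -/
theorem phi_eq (v : ℝ) (c : ℕ → ℝ) (m : ℕ) : ∀ e, phi v c e m =
    ∑ i ∈ range (m + 1), (m.choose i : ℝ) * (∏ r ∈ range i, c (e + r)) * v ^ (2 * (e + i)) := by
  induction m with
  | zero => intro e; simp [phi]
  | succ m ih =>
      intro e
      show phi v c e m + c e * phi v c (e + 1) m = _
      rw [ih e, ih (e + 1), sum_range_succ' _ (m + 1)]
      have h1 : ∀ i, ((m + 1).choose (i + 1) : ℝ) = (m.choose i : ℝ) + (m.choose (i + 1) : ℝ) := by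
        intro i; rw [Nat.choose_succ_succ]; push_cast; ring
      simp only [h1, add_mul, sum_add_distrib]
      have h2 : c e * ∑ i ∈ range (m + 1), (m.choose i : ℝ) * (∏ r ∈ range i, c (e + 1 + r)) *
          v ^ (2 * (e + 1 + i)) =
          ∑ i ∈ range (m + 1), (m.choose i : ℝ) * (∏ r ∈ range (i + 1), c (e + r)) *
            v ^ (2 * (e + (i + 1))) := by
        rw [mul_sum]
        refine sum_congr rfl fun i _ => ?_
        rw [prod_range_succ']
        have : ∏ r ∈ range i, c (e + 1 + r) = ∏ r ∈ range i, c (e + (r + 1)) :=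
          prod_congr rfl fun r _ => by congr 1; ring
        rw [this, show e + 1 + i = e + (i + 1) by ring, add_zero]
        ring
      have h3 : ∑ i ∈ range (m + 1), (m.choose (i + 1) : ℝ) * (∏ r ∈ range (i + 1), c (e + r)) *
          v ^ (2 * (e + (i + 1))) + (m.choose 0 : ℝ) * (∏ r ∈ range 0, c (e + r)) * v ^ (2 * (e + 0)) =
          ∑ i ∈ range (m + 1), (m.choose i : ℝ) * (∏ r ∈ range i, c (e + r)) * v ^ (2 * (e + i)) := by
        rw [← sum_range_succ' (fun i => (m.choose i : ℝ) * (∏ r ∈ range i, c (e + r)) *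
          v ^ (2 * (e + i))) (m + 1), sum_range_succ]
        rw [Nat.choose_succ_self]
        simp
      rw [h2, ← h3, Nat.choose_zero_right, Nat.choose_zero_right]
      ring

end potentials

section main

variable {Y ι : Type*} [Fintype Y] [Fintype ι] [DecidableEq ι]

/-- good at all earlier times -/
def gd {Y : Type*} (good : (j : ℕ) → (Fin j → Y) → Prop) : (j : ℕ) → (Fin j → Y) → Prop
  | 0, _ => True
  | j + 1, x => gd good j (Fin.init x) ∧ good j (Fin.init x)

/-- the abstract process -/
structure Proc (Y ι : Type*) (k : ℕ) where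
  e : (j : ℕ) → (Fin j → Y) → ι → ℕ
  inc : (j : ℕ) → (Fin j → Y) → Y → ι → Prop
  fl : (j : ℕ) → (Fin j → Y) → Prop
  he0 : ∀ x p, e 0 x p = 0
  he : ∀ j x y p, inc j x y p → e (j + 1) (Fin.snoc x y) p = e j x p + 1
  he' : ∀ j x y p, ¬ inc j x y p → e (j + 1) (Fin.snoc x y) p = e j x p
  hfl : ∀ j x y, fl (j + 1) (Fin.snoc x y) → fl j x

omit [Fintype Y] [Fintype ι] [DecidableEq ι] in
theorem Proc.e_le {k : ℕ} (D : Proc Y ι k) (p : ι) : ∀ j x, D.e j x p ≤ j := by
  intro j
  induction j with
  | zero => intro x; rw [D.he0]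
  | succ j ih =>
      intro x
      have h1 : x = Fin.snoc (Fin.init x) (x (Fin.last j)) := (Fin.snoc_init_self x).symm
      rw [h1]
      have h2 := ih (Fin.init x)
      by_cases h : D.inc j (Fin.init x) (x (Fin.last j)) p
      · rw [D.he _ _ _ _ h]; omega
      · rw [D.he' _ _ _ _ h]; omega

open Classical in
/-- **exposure of the columns** -/
theorem expose {k : ℕ} (D : Proc Y ι k) (v : ι → ℝ) (hv : ∀ p, 1 ≤ v p) (c : ι → ℕ → ℝ)
    (hc : ∀ p e, 0 ≤ c p e) (η : ℝ) (good : (j : ℕ) → (Fin j → Y) → Prop)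
    (H1 : ∀ j < k, ∀ x : Fin j → Y, D.fl j x → good j x → ∀ B : Finset ι, B.Nonempty →
      (((univ : Finset Y).filter fun y => ∀ p ∈ B, D.inc j x y p).card : ℝ) ≤
        2 * (∏ p ∈ B, (v p ^ (min (k - j + D.e j x p) 3))⁻¹) * Fintype.card Y)
    (H2 : ∀ j < k, ∀ x : Fin j → Y, D.fl j x → ∀ B : Finset ι,
      (((univ : Finset Y).filter fun y => ∀ p ∈ B, D.inc j x y p).card : ℝ) ≤
        (∏ p ∈ B, c p (D.e j x p)) * Fintype.card Y)
    (H3 : ∀ j < k, ∀ u : ι → ℕ,
      (((univ : Finset (Fin j → Y)).filter fun x => D.fl j x ∧ ¬ good j x ∧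
        ∀ p, D.e j x p = u p).card : ℝ) ≤
        η * (∏ p, (v p ^ (3 * u p))⁻¹) * (Fintype.card Y : ℝ) ^ j) :
    ∑ x : Fin k → Y, (if D.fl k x then ∏ p, v p ^ (2 * D.e k x p) else 0) ≤
      (∏ p, gf (v p) k + k * η * ∏ p, ∑ u ∈ range (k + 1),
        (v p ^ (3 * u))⁻¹ * phi (v p) (c p) u k) * (Fintype.card Y : ℝ) ^ k := by
  -- the potential and the error
  set f : (j : ℕ) → (Fin j → Y) → ℝ := fun j x =>
    if D.fl j x then (if gd good j x then ∏ p, psi (v p) (D.e j x p) (k - j)
      else ∏ p, phi (v p) (c p) (D.e j x p) (k - j)) else 0 with hf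
  set g : (j : ℕ) → (Fin j → Y) → ℝ := fun j x =>
    if D.fl j x ∧ ¬ good j x then ∏ p, phi (v p) (c p) (D.e j x p) (k - j) else 0 with hg
  have hpsi : ∀ p e m, 0 ≤ psi (v p) e m := fun p e m => psi_nonneg (hv p) e m
  have hphi : ∀ p e m, 0 ≤ phi (v p) (c p) e m := fun p e m => phi_nonneg (hv p) (hc p) m e
  have hf0 : ∀ j x, 0 ≤ f j x := by
    intro j x
    simp only [hf]
    split_ifs
    · exact prod_nonneg fun p _ => hpsi _ _ _
    · exact prod_nonneg fun p _ => hphi _ _ _
    · exact le_refl _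
  have hg0 : ∀ j x, 0 ≤ g j x := by
    intro j x
    simp only [hg]
    split_ifs
    · exact prod_nonneg fun p _ => hphi _ _ _
    · exact le_refl _
  have hY : (0 : ℝ) ≤ Fintype.card Y := Nat.cast_nonneg _
  -- bad step
  have hbad : ∀ j < k, ∀ x : Fin j → Y, D.fl j x →
      ∑ y, ∏ p, phi (v p) (c p) (D.e (j + 1) (Fin.snoc x y) p) (k - (j + 1)) ≤
        Fintype.card Y * ∏ p, phi (v p) (c p) (D.e j x p) (k - j) := by
    intro j hj x hx
    obtain ⟨m, hm⟩ : ∃ m, k - j = m + 1 := ⟨k - j - 1, by omega⟩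
    have hm' : k - (j + 1) = m := by omega
    rw [hm, hm']
    have h1 := prod_step (Ω := Y) (univ : Finset ι) (fun p y => D.inc j x y p)
      (fun p => phi (v p) (c p) (D.e j x p) m) (fun p => phi (v p) (c p) (D.e j x p + 1) m)
      (fun p => c p (D.e j x p)) (fun p _ => hphi _ _ _) (fun p _ => hphi _ _ _)
      (fun B _ => by convert H2 j hj x hx B)
    rw [mul_comm]
    refine le_trans (sum_le_sum fun y _ => prod_le_prod (fun p _ => hphi _ _ _) fun p _ => ?_) h1
    by_cases h : D.inc j x y p
    · rw [if_pos h, D.he _ _ _ _ h]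
      have := hphi p (D.e j x p) m
      linarith
    · rw [if_neg h, D.he' _ _ _ _ h, add_zero]
  -- good step
  have hgood : ∀ j < k, ∀ x : Fin j → Y, D.fl j x → good j x →
      ∑ y, ∏ p, psi (v p) (D.e (j + 1) (Fin.snoc x y) p) (k - (j + 1)) ≤
        Fintype.card Y * ∏ p, psi (v p) (D.e j x p) (k - j) := by
    intro j hj x hx hgx
    obtain ⟨m, hm⟩ : ∃ m, k - j = m + 1 := ⟨k - j - 1, by omega⟩
    have hm' : k - (j + 1) = m := by omega
    rw [hm, hm']
    have h1 := prod_step (Ω := Y) (univ : Finset ι) (fun p y => D.inc j x y p)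
      (fun p => psi (v p) (D.e j x p) m) (fun p => psi (v p) (D.e j x p + 1) m)
      (fun p => 2 * (v p ^ (min (m + 1 + D.e j x p) 3))⁻¹) (fun p _ => hpsi _ _ _)
      (fun p _ => hpsi _ _ _) (fun B _ => by
        rcases B.eq_empty_or_nonempty with hB | hB
        · subst hB; simp
        · refine le_trans (le_of_eq ?_) ((H1 j hj x hx hgx B hB).trans
            (b := 2 * (∏ p ∈ B, (v p ^ (min (k - j + D.e j x p) 3))⁻¹) * Fintype.card Y) ?_)
          · congr!
          refine mul_le_mul_of_nonneg_right ?_ hY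
          rw [prod_mul_distrib, hm]
          refine mul_le_mul_of_nonneg_right ?_ (prod_nonneg fun p _ => ?_)
          · rw [prod_const]
            calc (2 : ℝ) = 2 ^ 1 := (pow_one _).symm
              _ ≤ 2 ^ B.card := pow_le_pow_right₀ (by norm_num) hB.card_pos
          · have := hv p
            positivity)
    rw [mul_comm]
    refine le_trans (sum_le_sum fun y _ => prod_le_prod (fun p _ => hpsi _ _ _) fun p _ => ?_)
      (h1.trans ?_)
    · by_cases h : D.inc j x y p
      · rw [if_pos h, D.he _ _ _ _ h]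
        have := hpsi p (D.e j x p) m
        linarith
      · rw [if_neg h, D.he' _ _ _ _ h, add_zero]
    · refine mul_le_mul_of_nonneg_right (prod_le_prod (fun p _ => ?_) fun p _ => ?_) hY
      · have h2 := hpsi p (D.e j x p) m
        have h3 := hpsi p (D.e j x p + 1) m
        have h4 := hv p
        positivity
      · have h2 := gf_step (hv p) m (D.e j x p)
        have h3 : 0 ≤ v p ^ (2 * D.e j x p) := by have := hv p; positivity
        unfold psi
        calc v p ^ (2 * D.e j x p) * gf (v p) m + 2 * (v p ^ (min (m + 1 + D.e j x p) 3))⁻¹ *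
              (v p ^ (2 * (D.e j x p + 1)) * gf (v p) m)
            = v p ^ (2 * D.e j x p) * (gf (v p) m *
              (1 + 2 * (v p ^ (min (m + 1 + D.e j x p) 3))⁻¹ * v p ^ 2)) := by ring
          _ ≤ _ := mul_le_mul_of_nonneg_left h2 h3
  -- the step
  have hstep : ∀ j < k, ∀ x : Fin j → Y,
      ∑ y, f (j + 1) (Fin.snoc x y) ≤ Fintype.card Y * (f j x + g j x) := by
    intro j hj x
    by_cases hx : D.fl j x
    · by_cases hgx : gd good j x
      · by_cases hgo : good j x
        · -- good
          have h1 : ∀ y, f (j + 1) (Fin.snoc x y) ≤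
              ∏ p, psi (v p) (D.e (j + 1) (Fin.snoc x y) p) (k - (j + 1)) := by
            intro y
            have h2 : gd good (j + 1) (Fin.snoc x y : Fin (j + 1) → Y) := by
              unfold gd
              rw [Fin.init_snoc]
              exact ⟨hgx, hgo⟩
            simp only [hf]
            rw [if_pos h2]
            split_ifs
            · exact le_refl _
            · exact prod_nonneg fun p _ => hpsi _ _ _
          refine (sum_le_sum fun y _ => h1 y).trans ((hgood j hj x hx hgo).trans ?_)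
          refine mul_le_mul_of_nonneg_left ?_ hY
          have h3 : f j x = ∏ p, psi (v p) (D.e j x p) (k - j) := by
            simp only [hf]; rw [if_pos hx, if_pos hgx]
          rw [h3]
          have := hg0 j x
          linarith
        · have h1 : ∀ y, f (j + 1) (Fin.snoc x y) ≤
              ∏ p, phi (v p) (c p) (D.e (j + 1) (Fin.snoc x y) p) (k - (j + 1)) := by
            intro y
            have h2 : ¬ gd good (j + 1) (Fin.snoc x y : Fin (j + 1) → Y) := by
              unfold gd
              rw [Fin.init_snoc]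
              exact fun h => hgo h.2
            simp only [hf]
            rw [if_neg h2]
            split_ifs
            · exact le_refl _
            · exact prod_nonneg fun p _ => hphi _ _ _
          refine (sum_le_sum fun y _ => h1 y).trans ((hbad j hj x hx).trans ?_)
          refine mul_le_mul_of_nonneg_left ?_ hY
          have h3 : g j x = ∏ p, phi (v p) (c p) (D.e j x p) (k - j) := by
            simp only [hg]; rw [if_pos ⟨hx, hgo⟩]
          rw [h3]
          have := hf0 j x
          linarith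
      · have h1 : ∀ y, f (j + 1) (Fin.snoc x y) ≤
            ∏ p, phi (v p) (c p) (D.e (j + 1) (Fin.snoc x y) p) (k - (j + 1)) := by
          intro y
          have h2 : ¬ gd good (j + 1) (Fin.snoc x y : Fin (j + 1) → Y) := by
            unfold gd
            rw [Fin.init_snoc]
            exact fun h => hgx h.1
          simp only [hf]
          rw [if_neg h2]
          split_ifs
          · exact le_refl _
          · exact prod_nonneg fun p _ => hphi _ _ _
        refine (sum_le_sum fun y _ => h1 y).trans ((hbad j hj x hx).trans ?_)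
        refine mul_le_mul_of_nonneg_left ?_ hY
        have h3 : f j x = ∏ p, phi (v p) (c p) (D.e j x p) (k - j) := by
          simp only [hf]; rw [if_pos hx, if_neg hgx]
        rw [h3]
        have := hg0 j x
        linarith
    · have h1 : ∀ y, f (j + 1) (Fin.snoc x y) = 0 := by
        intro y
        simp only [hf]
        rw [if_neg fun h => hx (D.hfl _ _ _ h)]
      simp only [h1, sum_const_zero]
      exact mul_nonneg hY (add_nonneg (hf0 j x) (hg0 j x))
  have hmain := iter k f g hstep k le_rfl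
  -- the end
  have hend : ∑ x : Fin k → Y, (if D.fl k x then ∏ p, v p ^ (2 * D.e k x p) else 0) ≤
      ∑ x : Fin k → Y, f k x := by
    refine sum_le_sum fun x _ => ?_
    simp only [hf]
    by_cases hx : D.fl k x
    · rw [if_pos hx, if_pos hx]
      split_ifs
      · apply le_of_eq
        refine prod_congr rfl fun p _ => ?_
        unfold psi gf
        rw [Nat.sub_self, if_pos rfl, mul_one]
      · apply le_of_eq
        refine prod_congr rfl fun p _ => ?_
        rw [Nat.sub_self]
        rfl
    · rw [if_neg hx, if_neg hx]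
  refine hend.trans (hmain.trans ?_)
  rw [add_mul]
  refine add_le_add ?_ ?_
  · rw [mul_comm]
    refine mul_le_mul_of_nonneg_right ?_ (by positivity)
    simp only [hf]
    split_ifs with h1 h2
    · apply le_of_eq
      refine prod_congr rfl fun p _ => ?_
      unfold psi
      rw [D.he0, mul_zero, pow_zero, one_mul, Nat.sub_zero]
    · exact absurd trivial h2
    · exact prod_nonneg fun p _ => gf_nonneg (hv p) _
  · -- the errors
    have h1 : ∀ i ∈ range k, (Fintype.card Y : ℝ) ^ (k - i) * ∑ x : Fin i → Y, g i x ≤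
        (η * ∏ p, ∑ u ∈ range (k + 1), (v p ^ (3 * u))⁻¹ * phi (v p) (c p) u k) *
          (Fintype.card Y : ℝ) ^ k := by
      intro i hi
      rw [mem_range] at hi
      have h2 : ∑ x : Fin i → Y, g i x ≤
          ∑ u ∈ Fintype.piFinset fun _ : ι => range (k + 1),
            (η * (∏ p, (v p ^ (3 * u p))⁻¹) * (Fintype.card Y : ℝ) ^ i) *
              ∏ p, phi (v p) (c p) (u p) k := by
        calc ∑ x : Fin i → Y, g i x
            ≤ ∑ x : Fin i → Y, ∑ u ∈ Fintype.piFinset fun _ : ι => range (k + 1),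
              (if D.fl i x ∧ ¬ good i x ∧ (∀ p, D.e i x p = u p) then
                ∏ p, phi (v p) (c p) (u p) k else 0) := by
              refine sum_le_sum fun x _ => ?_
              have hmem : D.e i x ∈ Fintype.piFinset fun _ : ι => range (k + 1) := by
                rw [Fintype.mem_piFinset]
                intro p
                rw [mem_range]
                have := D.e_le p i x
                omega
              refine le_trans (b := if D.fl i x ∧ ¬ good i x ∧ (∀ p, D.e i x p = D.e i x p) then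
                ∏ p, phi (v p) (c p) (D.e i x p) k else 0) ?_ (single_le_sum (f := fun u : ι → ℕ =>
                (if D.fl i x ∧ ¬ good i x ∧ (∀ p, D.e i x p = u p) then
                ∏ p, phi (v p) (c p) (u p) k else 0)) (fun u _ => ?_) hmem)
              · by_cases h : D.fl i x ∧ ¬ good i x
                · have h5 : g i x = ∏ p, phi (v p) (c p) (D.e i x p) (k - i) := by
                    simp only [hg]; rw [if_pos h]
                  rw [h5, if_pos ⟨h.1, h.2, fun p => rfl⟩]
                  exact prod_le_prod (fun p _ => hphi _ _ _) fun p _ =>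
                    phi_mono (hv p) (hc p) (by omega) _
                · have h5 : g i x = 0 := by
                    simp only [hg]; rw [if_neg h]
                  rw [h5, if_neg fun h' => h ⟨h'.1, h'.2.1⟩]
              · split_ifs
                · exact prod_nonneg fun p _ => hphi _ _ _
                · exact le_refl _
          _ = ∑ u ∈ Fintype.piFinset fun _ : ι => range (k + 1),
              (((univ : Finset (Fin i → Y)).filter fun x => D.fl i x ∧ ¬ good i x ∧
                ∀ p, D.e i x p = u p).card : ℝ) * ∏ p, phi (v p) (c p) (u p) k := by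
              rw [sum_comm]
              refine sum_congr rfl fun u _ => ?_
              rw [← sum_filter, sum_const, nsmul_eq_mul]
          _ ≤ _ := sum_le_sum fun u _ => mul_le_mul_of_nonneg_right (H3 i hi u)
              (prod_nonneg fun p _ => hphi _ _ _)
      have h3 : ∑ u ∈ Fintype.piFinset fun _ : ι => range (k + 1),
            (η * (∏ p, (v p ^ (3 * u p))⁻¹) * (Fintype.card Y : ℝ) ^ i) *
              ∏ p, phi (v p) (c p) (u p) k =
          η * (Fintype.card Y : ℝ) ^ i *
            ∏ p, ∑ u ∈ range (k + 1), (v p ^ (3 * u))⁻¹ * phi (v p) (c p) u k := by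
        rw [prod_univ_sum, mul_sum]
        refine sum_congr rfl fun u _ => ?_
        rw [prod_mul_distrib]
        ring
      rw [h3] at h2
      calc (Fintype.card Y : ℝ) ^ (k - i) * ∑ x : Fin i → Y, g i x
          ≤ (Fintype.card Y : ℝ) ^ (k - i) * (η * (Fintype.card Y : ℝ) ^ i *
            ∏ p, ∑ u ∈ range (k + 1), (v p ^ (3 * u))⁻¹ * phi (v p) (c p) u k) :=
            mul_le_mul_of_nonneg_left h2 (by positivity)
        _ = _ := by
            have : (Fintype.card Y : ℝ) ^ k = (Fintype.card Y : ℝ) ^ (k - i) *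
                (Fintype.card Y : ℝ) ^ i := by rw [← pow_add]; congr 1; omega
            rw [this]; ring
    calc ∑ i ∈ range k, (Fintype.card Y : ℝ) ^ (k - i) * ∑ x : Fin i → Y, g i x
        ≤ ∑ i ∈ range k, (η * ∏ p, ∑ u ∈ range (k + 1),
          (v p ^ (3 * u))⁻¹ * phi (v p) (c p) u k) * (Fintype.card Y : ℝ) ^ k := sum_le_sum h1
      _ = _ := by
          rw [sum_const, card_range, nsmul_eq_mul]
          ring

end main

end Vale.Agent.P160.Half.X370
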