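import Vale.Agent.P160.Half.Fail

/-!
# Failures: counting over the rows (10294 (5)), part 1: abstract resampling
-/

namespace Vale.Agent.P160.Half.Fail

open Finset

section count

variable {α : Type*} [Fintype α] [DecidableEq α] {ρ : ℕ}

omit [DecidableEq α] in
/-- resampling one coordinate -/
theorem sum_update {β : Type*} [AddCommMonoid β] (t : Fin ρ) (Φ : (Fin ρ → α) → β) :
    ∑ R : Fin ρ → α, ∑ a : α, Φ (Function.update R t a) = Fintype.card α • ∑ R, Φ R := by
  rw [← Finset.sum_product' (univ) (univ) (fun R a => Φ (Function.update R t a))]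
  have h : ∑ x ∈ (univ : Finset (Fin ρ → α)) ×ˢ (univ : Finset α), Φ (Function.update x.1 t x.2)
      = ∑ x ∈ (univ : Finset (Fin ρ → α)) ×ˢ (univ : Finset α), Φ x.1 := by
    refine Finset.sum_nbij' (fun x => (Function.update x.1 t x.2, x.1 t))
      (fun x => (Function.update x.1 t x.2, x.1 t)) ?_ ?_ ?_ ?_ ?_
    · intro x _; simp
    · intro x _; simp
    · intro x _; simp
    · intro x _; simp
    · intro x _; rfl
  rw [h, Finset.sum_product]
  simp only [Finset.sum_const, Finset.card_univ]
  rw [Finset.smul_sum]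

omit [DecidableEq α] in
/-- `|T|` failures cost a factor `(K0/m)^|T|` -/
theorem sum_fail_le (F : Fin ρ → (Fin ρ → α) → Prop) [∀ t, DecidablePred (F t)] (K0 : ℕ)
    (hF : ∀ t s R a, t < s → (F t (Function.update R s a) ↔ F t R))
    (hK : ∀ t R, (univ.filter fun a => F t (Function.update R t a)).card ≤ K0)
    (T : Finset (Fin ρ)) (G : (Fin ρ → α) → ℝ) (hG0 : ∀ R, 0 ≤ G R)
    (hG : ∀ t ∈ T, ∀ R a, G (Function.update R t a) = G R) :
    (Fintype.card α : ℝ) ^ T.card * ∑ R, (if ∀ t ∈ T, F t R then G R else 0)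
      ≤ (K0 : ℝ) ^ T.card * ∑ R, G R := by
  classical
  induction T using Finset.induction_on_max with
  | empty => simp
  | insert t T hT ih =>
    have htT : t ∉ T := fun h => lt_irrefl _ (hT t h)
    have ih' := ih (fun s hs => hG s (mem_insert_of_mem hs))
    rw [card_insert_of_notMem htT, pow_succ, pow_succ]
    set H : (Fin ρ → α) → ℝ := fun R => if ∀ x ∈ T, F x R then G R else 0 with hH
    have hH0 : ∀ R, 0 ≤ H R := by
      intro R; simp only [hH]; split_ifs
      · exact hG0 R
      · exact le_rfl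
    have hHu : ∀ R a, H (Function.update R t a) = H R := by
      intro R a
      simp only [hH]
      rw [hG t (mem_insert_self _ _)]
      have : (∀ x ∈ T, F x (Function.update R t a)) ↔ (∀ x ∈ T, F x R) := by
        constructor
        · intro h x hx; exact (hF x t R a (hT x hx)).1 (h x hx)
        · intro h x hx; exact (hF x t R a (hT x hx)).2 (h x hx)
      simp only [this]
    have h1 : ∀ R, (if ∀ x ∈ insert t T, F x R then G R else 0) = if F t R then H R else 0 := by
      intro R
      simp only [hH, forall_mem_insert]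
      by_cases h1 : F t R <;> by_cases h2 : ∀ x ∈ T, F x R <;> simp [h1, h2]
    have h2 : (Fintype.card α : ℝ) * ∑ R, (if ∀ x ∈ insert t T, F x R then G R else 0)
        ≤ K0 * ∑ R, H R := by
      rw [← nsmul_eq_mul, sum_congr rfl fun R _ => h1 R, ← sum_update t, mul_sum]
      refine sum_le_sum fun R _ => ?_
      simp only [hHu]
      rw [← sum_filter, sum_const, nsmul_eq_mul]
      exact mul_le_mul_of_nonneg_right (by exact_mod_cast hK t R) (hH0 R)
    calc (Fintype.card α : ℝ) ^ T.card * (Fintype.card α : ℝ)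
          * ∑ R, (if ∀ x ∈ insert t T, F x R then G R else 0)
        = (Fintype.card α : ℝ) ^ T.card * ((Fintype.card α : ℝ)
          * ∑ R, (if ∀ x ∈ insert t T, F x R then G R else 0)) := by ring
      _ ≤ (Fintype.card α : ℝ) ^ T.card * (K0 * ∑ R, H R) :=
          mul_le_mul_of_nonneg_left h2 (by positivity)
      _ = K0 * ((Fintype.card α : ℝ) ^ T.card * ∑ R, H R) := by ring
      _ ≤ K0 * ((K0 : ℝ) ^ T.card * ∑ R, G R) :=
          mul_le_mul_of_nonneg_left ih' (by positivity)
      _ = (K0 : ℝ) ^ T.card * K0 * ∑ R, G R := by ring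

/-- `k` failures at unspecified places of `U` -/
theorem sum_fail_le' (F : Fin ρ → (Fin ρ → α) → Prop) (K0 : ℕ)
    (hF : ∀ t s R a, t < s → (F t (Function.update R s a) ↔ F t R))
    (hK : ∀ t R, {a | F t (Function.update R t a)}.ncard ≤ K0)
    (U : Finset (Fin ρ)) (k : ℕ) (G : (Fin ρ → α) → ℝ) (hG0 : ∀ R, 0 ≤ G R)
    (hG : ∀ t ∈ U, ∀ R a, G (Function.update R t a) = G R) (W : (Fin ρ → α) → Prop)
    [DecidablePred W]
    (hW : ∀ R, W R → ∃ T ⊆ U, T.card = k ∧ ∀ t ∈ T, F t R) :
    (Fintype.card α : ℝ) ^ k * ∑ R, (if W R then G R else 0)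
      ≤ ((ρ : ℝ) * K0) ^ k * ∑ R, G R := by
  classical
  have hK' : ∀ t R, (univ.filter fun a => F t (Function.update R t a)).card ≤ K0 := by
    intro t R
    have := hK t R
    rwa [Set.ncard_eq_toFinset_card' , Set.toFinset_ofPred] at this
  have h1 : ∀ R, (if W R then G R else 0)
      ≤ ∑ T ∈ powersetCard k U, (if ∀ t ∈ T, F t R then G R else 0) := by
    intro R
    by_cases h : W R
    · rw [if_pos h]
      obtain ⟨T, hTU, hTk, hT⟩ := hW R h
      have h2 : G R = (fun T : Finset (Fin ρ) => if ∀ t ∈ T, F t R then G R else 0) T := by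
        dsimp only
        rw [if_pos hT]
      refine h2.le.trans (single_le_sum (f := fun T : Finset (Fin ρ) =>
        if ∀ t ∈ T, F t R then G R else 0) ?_ (mem_powersetCard.2 ⟨hTU, hTk⟩))
      intro S _
      split_ifs
      · exact hG0 R
      · exact le_rfl
    · rw [if_neg h]
      refine sum_nonneg fun S _ => ?_
      split_ifs
      · exact hG0 R
      · exact le_rfl
  have h2 : (Fintype.card α : ℝ) ^ k * ∑ R, (if W R then G R else 0)
      ≤ ∑ T ∈ powersetCard k U, (Fintype.card α : ℝ) ^ k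
        * ∑ R, (if ∀ t ∈ T, F t R then G R else 0) := by
    rw [← mul_sum]
    refine mul_le_mul_of_nonneg_left ?_ (by positivity)
    rw [sum_comm]
    exact sum_le_sum fun R _ => h1 R
  refine h2.trans ?_
  have h3 : ∀ T ∈ powersetCard k U, (Fintype.card α : ℝ) ^ k
        * ∑ R, (if ∀ t ∈ T, F t R then G R else 0) ≤ (K0 : ℝ) ^ k * ∑ R, G R := by
    intro T hT
    obtain ⟨hTU, hTk⟩ := mem_powersetCard.1 hT
    have := sum_fail_le F K0 hF hK' T G hG0 (fun t ht => hG t (hTU ht))
    rwa [hTk] at this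
  refine (sum_le_sum h3).trans ?_
  rw [sum_const, nsmul_eq_mul, card_powersetCard, mul_pow, mul_assoc]
  refine mul_le_mul_of_nonneg_right ?_ ?_
  · have h4 : U.card.choose k ≤ ρ ^ k := by
      refine (Nat.choose_le_pow _ _).trans (Nat.pow_le_pow_left ?_ k)
      exact (card_le_univ U).trans (by simp)
    exact_mod_cast h4
  · exact mul_nonneg (by positivity) (sum_nonneg fun R _ => hG0 R)

/-- telescoping: `∑ log c_i` over the prefixes with product at most `B` -/
theorem sum_log_le {ρ : ℕ} (c : Fin ρ → ℕ) (B : ℝ) (hB : 1 ≤ B) :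
    ∑ i : Fin ρ, (if (∏ j ∈ univ.filter (· ≤ i), c j) ≠ 0 ∧
      ((∏ j ∈ univ.filter (· ≤ i), c j : ℕ) : ℝ) ≤ B then Real.log (c i) else 0) ≤ Real.log B := by
  classical
  have key : ∀ n : ℕ, n ≤ ρ →
      (∑ i ∈ univ.filter (fun i : Fin ρ => (i : ℕ) < n), (if (∏ j ∈ univ.filter (· ≤ i), c j) ≠ 0 ∧
      ((∏ j ∈ univ.filter (· ≤ i), c j : ℕ) : ℝ) ≤ B then Real.log (c i) else 0) ≤ Real.log B) ∧
      ((∏ j ∈ univ.filter (fun i : Fin ρ => (i : ℕ) < n), c j) ≠ 0 →
       ((∏ j ∈ univ.filter (fun i : Fin ρ => (i : ℕ) < n), c j : ℕ) : ℝ) ≤ B →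
       ∑ i ∈ univ.filter (fun i : Fin ρ => (i : ℕ) < n), (if (∏ j ∈ univ.filter (· ≤ i), c j) ≠ 0 ∧
      ((∏ j ∈ univ.filter (· ≤ i), c j : ℕ) : ℝ) ≤ B then Real.log (c i) else 0) ≤
        Real.log ((∏ j ∈ univ.filter (fun i : Fin ρ => (i : ℕ) < n), c j : ℕ) : ℝ)) := by
    intro n
    induction n with
    | zero =>
      intro _
      simp [Real.log_nonneg hB]
    | succ n ih =>
      intro hn
      obtain ⟨ih1, ih2⟩ := ih (by omega)
      let i : Fin ρ := ⟨n, by omega⟩
      have h1 : univ.filter (fun j : Fin ρ => (j : ℕ) < n + 1)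
          = insert i (univ.filter (fun j : Fin ρ => (j : ℕ) < n)) := by
        ext j
        simp only [mem_filter, mem_univ, true_and, mem_insert, i, Fin.ext_iff]
        omega
      have h2 : univ.filter (fun j : Fin ρ => j ≤ i)
          = insert i (univ.filter (fun j : Fin ρ => (j : ℕ) < n)) := by
        ext j
        simp only [mem_filter, mem_univ, true_and, mem_insert, i, Fin.ext_iff, Fin.le_def]
        omega
      have h3 : i ∉ univ.filter (fun j : Fin ρ => (j : ℕ) < n) := by simp [i]
      rw [h1, sum_insert h3, h2, prod_insert h3]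
      set P := ∏ j ∈ univ.filter (fun i : Fin ρ => (i : ℕ) < n), c j with hP
      by_cases hok : c i * P ≠ 0 ∧ ((c i * P : ℕ) : ℝ) ≤ B
      · rw [if_pos hok]
        obtain ⟨hne, hle⟩ := hok
        have hc : c i ≠ 0 := left_ne_zero_of_mul hne
        have hP0 : P ≠ 0 := right_ne_zero_of_mul hne
        have hPB : (P : ℝ) ≤ B := by
          refine le_trans ?_ hle
          exact_mod_cast Nat.le_mul_of_pos_left P (Nat.pos_of_ne_zero hc)
        have h4 := ih2 hP0 hPB
        have h5 : Real.log (c i) + Real.log P = Real.log ((c i * P : ℕ) : ℝ) := by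
          rw [Nat.cast_mul, Real.log_mul (by exact_mod_cast hc) (by exact_mod_cast hP0)]
        have h6 : Real.log ((c i * P : ℕ) : ℝ) ≤ Real.log B :=
          Real.log_le_log (by exact_mod_cast Nat.pos_of_ne_zero hne) hle
        constructor
        · linarith
        · intro _ _; linarith
      · rw [if_neg hok, zero_add]
        exact ⟨ih1, fun ha hb => absurd ⟨ha, hb⟩ hok⟩
  have := (key ρ le_rfl).1
  have h1 : univ.filter (fun i : Fin ρ => (i : ℕ) < ρ) = univ := by
    ext j; simp
  rwa [h1] at this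

theorem sum_primes_log_le (PP : Finset ℕ) (hPP : ∀ p ∈ PP, p.Prime) {c : ℕ} (hc : c ≠ 0) :
    ∑ p ∈ PP, (c.factorization p : ℝ) * Real.log p ≤ Real.log c := by
  classical
  have h1 : ∏ p ∈ PP, p ^ c.factorization p ≤ c := by
    have h2 : ∏ p ∈ PP ∪ c.factorization.support, p ^ c.factorization p = c := by
      conv_rhs => rw [← Nat.prod_factorization_pow_eq_self hc]
      rw [Finsupp.prod]
      symm
      refine prod_subset subset_union_right ?_
      intro x _ hx
      rw [Finsupp.notMem_support_iff.1 hx, pow_zero]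
    calc ∏ p ∈ PP, p ^ c.factorization p
        ≤ ∏ p ∈ PP ∪ c.factorization.support, p ^ c.factorization p := by
          refine prod_le_prod_of_subset_of_one_le' subset_union_left ?_
          intro p hp _
          refine Nat.one_le_pow _ _ ?_
          rcases mem_union.1 hp with h | h
          · exact (hPP p h).pos
          · exact (Nat.prime_of_mem_primeFactors (by simpa using h)).pos
      _ = c := h2
  have h3 : ∑ p ∈ PP, (c.factorization p : ℝ) * Real.log p
      = Real.log ((∏ p ∈ PP, p ^ c.factorization p : ℕ) : ℝ) := by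
    rw [Nat.cast_prod, Real.log_prod]
    · refine sum_congr rfl fun p _ => ?_
      rw [Nat.cast_pow, Real.log_pow]
    · intro p hp
      have := (hPP p hp).pos
      positivity
  rw [h3]
  refine Real.log_le_log ?_ (by exact_mod_cast h1)
  have : 0 < ∏ p ∈ PP, p ^ c.factorization p := prod_pos fun p hp => pow_pos (hPP p hp).pos _
  exact_mod_cast this

end count

end Vale.Agent.P160.Half.Fail
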