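import Vale.Agent.P160.Half.Fail2

/-!
# Failures: lattices (10294 (5)), part 2
-/

namespace Vale.Agent.P160.Half.Fail

open Finset

section lattice

variable {ρ : ℕ}

/-- vectors vanishing before `i` -/
def V (ρ : ℕ) (i : ℕ) : AddSubgroup (Fin ρ → ℤ) where
  carrier := {u | ∀ j : Fin ρ, (j : ℕ) < i → u j = 0}
  zero_mem' := fun _ _ => rfl
  add_mem' := fun ha hb j hj => by rw [Pi.add_apply, ha j hj, hb j hj, add_zero]
  neg_mem' := fun ha j hj => by rw [Pi.neg_apply, ha j hj, neg_zero]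

theorem mem_V {i : ℕ} {u : Fin ρ → ℤ} : u ∈ V ρ i ↔ ∀ j : Fin ρ, (j : ℕ) < i → u j = 0 := Iff.rfl

/-- content of coordinate `i` of the vectors of `L` vanishing before `i` -/
noncomputable def cnt (L : AddSubgroup (Fin ρ → ℤ)) (i : Fin ρ) : ℕ :=
  ((L ⊓ V ρ i).map (Pi.evalAddMonoidHom (fun _ : Fin ρ => ℤ) i)).index

theorem index_mem (H : AddSubgroup ℤ) : (H.index : ℤ) ∈ H := by
  obtain ⟨a, ha⟩ := Int.subgroup_cyclic H
  rw [← AddSubgroup.zmultiples_eq_closure] at ha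
  rw [ha, Int.index_zmultiples]
  rcases Int.natAbs_eq a with h | h
  · rw [← h]; exact AddSubgroup.mem_zmultiples a
  · rw [← neg_neg ((a.natAbs : ℤ)), ← h]
    exact AddSubgroup.neg_mem _ (AddSubgroup.mem_zmultiples a)

theorem index_dvd_of_mem (H : AddSubgroup ℤ) {z : ℤ} (hz : z ∈ H) : (H.index : ℤ) ∣ z := by
  obtain ⟨a, ha⟩ := Int.subgroup_cyclic H
  rw [← AddSubgroup.zmultiples_eq_closure] at ha
  rw [ha] at hz ⊢
  rw [Int.index_zmultiples]
  obtain ⟨k, rfl⟩ := AddSubgroup.mem_zmultiples_iff.1 hz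
  rw [Int.natAbs_dvd]
  exact ⟨k, by rw [smul_eq_mul, mul_comm]⟩

theorem exists_cnt (L : AddSubgroup (Fin ρ → ℤ)) (i : Fin ρ) :
    ∃ u ∈ L, u ∈ V ρ i ∧ u i = cnt L i := by
  obtain ⟨u, hu, h⟩ := index_mem ((L ⊓ V ρ i).map (Pi.evalAddMonoidHom (fun _ : Fin ρ => ℤ) i))
  exact ⟨u, hu.1, hu.2, h⟩

theorem cnt_dvd (L : AddSubgroup (Fin ρ → ℤ)) (i : Fin ρ) {u : Fin ρ → ℤ} (hu : u ∈ L)
    (hv : u ∈ V ρ i) : (cnt L i : ℤ) ∣ u i :=
  index_dvd_of_mem _ ⟨u, ⟨hu, hv⟩, rfl⟩

theorem relIndex_step (L : AddSubgroup (Fin ρ → ℤ)) (i : Fin ρ) :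
    L.relIndex (V ρ i) = cnt L i * L.relIndex (V ρ (i + 1)) := by
  set f : V ρ i →+ ℤ := (Pi.evalAddMonoidHom (fun _ : Fin ρ => ℤ) i).comp (V ρ i).subtype with hf
  have hsurj : Function.Surjective f := by
    intro z
    refine ⟨⟨Pi.single i z, ?_⟩, ?_⟩
    · intro j hj
      rw [Pi.single_eq_of_ne]
      intro h; rw [h] at hj; exact lt_irrefl _ hj
    · simp [hf]
  have hker : f.ker = (V ρ (i + 1)).addSubgroupOf (V ρ i) := by
    ext ⟨u, hu⟩
    rw [AddMonoidHom.mem_ker, AddSubgroup.mem_addSubgroupOf, mem_V]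
    constructor
    · intro h j hj
      rcases Nat.lt_succ_iff_lt_or_eq.1 hj with h1 | h1
      · exact hu j h1
      · rw [Fin.ext h1]; exact h
    · intro h; exact h i (Nat.lt_succ_self _)
  set H := L.addSubgroupOf (V ρ i) with hH
  have h1 : H.index = H.relIndex (H ⊔ f.ker) * (H ⊔ f.ker).index :=
    (AddSubgroup.relIndex_mul_index le_sup_left).symm
  have h2 : H.relIndex (H ⊔ f.ker) = H.relIndex f.ker := AddSubgroup.relIndex_sup_left ..
  have h3 : (H.map f).index = (H ⊔ f.ker).index := by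
    rw [AddSubgroup.index_map, AddMonoidHom.range_eq_top.2 hsurj, AddSubgroup.index_top, mul_one]
  have h4 : H.map f = (L ⊓ V ρ i).map (Pi.evalAddMonoidHom (fun _ : Fin ρ => ℤ) i) := by
    rw [hf, ← AddSubgroup.map_map, hH, AddSubgroup.addSubgroupOf_map_subtype]
  have hle : V ρ (i + 1) ≤ V ρ i := fun u hu j hj => hu j (by omega)
  have h5 : H.relIndex f.ker = L.relIndex (V ρ (i + 1)) := by
    rw [hker, hH, AddSubgroup.relIndex_addSubgroupOf hle]
  have h6 : L.relIndex (V ρ i) = H.index := rfl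
  rw [h6, h1, h2, h5, ← h3, h4, mul_comm]
  rfl

theorem V_zero : V ρ 0 = ⊤ := by
  rw [eq_top_iff]; intro u _ j hj; exact absurd hj (Nat.not_lt_zero _)

theorem V_last : V ρ ρ = ⊥ := by
  rw [eq_bot_iff]; intro u hu; rw [AddSubgroup.mem_bot]; funext j; exact hu j j.2

/-- the index is the product of the contents -/
theorem index_eq_prod (L : AddSubgroup (Fin ρ → ℤ)) : L.index = ∏ i, cnt L i := by
  classical
  have key : ∀ n : ℕ, n ≤ ρ → L.relIndex (V ρ (ρ - n))
      = ∏ i ∈ univ.filter (fun i : Fin ρ => ρ - n ≤ (i : ℕ)), cnt L i := by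
    intro n
    induction n with
    | zero =>
      intro _
      rw [Nat.sub_zero, V_last, AddSubgroup.relIndex_bot_right]
      have : univ.filter (fun i : Fin ρ => ρ ≤ (i : ℕ)) = ∅ := by
        rw [filter_eq_empty_iff]; intro i _; have := i.2; omega
      rw [this, prod_empty]
    | succ n ih =>
      intro hn
      have ih' := ih (by omega)
      let i : Fin ρ := ⟨ρ - (n + 1), by omega⟩
      have hi : (i : ℕ) + 1 = ρ - n := by simp only [i]; omega
      have hi0 : (i : ℕ) = ρ - (n + 1) := rfl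
      have h1 := relIndex_step L i
      rw [hi, hi0, ih'] at h1
      rw [h1]
      have h3 : univ.filter (fun j : Fin ρ => ρ - (n + 1) ≤ (j : ℕ))
          = insert i (univ.filter (fun j : Fin ρ => ρ - n ≤ (j : ℕ))) := by
        ext j
        simp only [mem_filter, mem_insert, mem_univ, true_and]
        constructor
        · intro h5
          by_cases h6 : j = i
          · exact Or.inl h6
          · right
            have : (j : ℕ) ≠ i := fun h => h6 (Fin.ext h)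
            omega
        · rintro (h | h)
          · rw [h]
          · omega
      rw [h3, prod_insert (by simp only [mem_filter, mem_univ, true_and]; omega)]
  have h := key ρ le_rfl
  rw [Nat.sub_self, V_zero, AddSubgroup.relIndex_top_right] at h
  rw [h]
  congr 1
  ext j; simp

variable {G : Type*} [AddCommGroup G]

theorem map_eq_sum (φ : (Fin ρ → ℤ) →+ G) (u : Fin ρ → ℤ) :
    φ u = ∑ j, u j • φ (Pi.single j 1) := by
  have h : u = ∑ j, u j • (Pi.single j 1 : Fin ρ → ℤ) := by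
    funext i
    simp [Finset.sum_apply, Pi.single_apply]
  conv_lhs => rw [h]
  rw [map_sum]
  exact sum_congr rfl fun j _ => by rw [map_zsmul]

/-- the relations in a quotient -/
theorem cnt_smul_mem (L : AddSubgroup (Fin ρ → ℤ)) (φ : (Fin ρ → ℤ) →+ G) (hL : L ≤ φ.ker)
    (i : Fin ρ) : cnt L i • φ (Pi.single i 1) ∈ tail (fun j => φ (Pi.single j 1)) (i + 1) := by
  classical
  obtain ⟨u, hu, hv, hi⟩ := exists_cnt L i
  have h0 : φ u = 0 := hL hu
  rw [map_eq_sum, ← add_sum_erase _ _ (mem_univ i), hi, natCast_zsmul] at h0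
  have h1 : cnt L i • φ (Pi.single i 1) = -∑ j ∈ univ.erase i, u j • φ (Pi.single j 1) :=
    eq_neg_of_add_eq_zero_left h0
  rw [h1]
  refine AddSubgroup.neg_mem _ (AddSubgroup.sum_mem _ fun j hj => ?_)
  rw [mem_erase] at hj
  by_cases h : (j : ℕ) < i
  · rw [hv j h, zero_smul]; exact AddSubgroup.zero_mem _
  · have h2 : (j : ℕ) ≠ i := fun h => hj.1 (Fin.ext h)
    have h3 : φ (Pi.single j 1) ∈ tail (fun j => φ (Pi.single j 1)) (i + 1) := by
      refine AddSubgroup.subset_closure ⟨j, ?_, rfl⟩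
      show (i : ℕ) + 1 ≤ j
      omega
    exact AddSubgroup.zsmul_mem _ h3 _

theorem closure_single (φ : (Fin ρ → ℤ) →+ G) (hφ : Function.Surjective φ) :
    AddSubgroup.closure (Set.range fun j => φ (Pi.single j 1)) = ⊤ := by
  rw [eq_top_iff]
  intro x _
  obtain ⟨u, rfl⟩ := hφ x
  rw [map_eq_sum]
  refine AddSubgroup.sum_mem _ fun j _ => ?_
  have h3 : φ (Pi.single j 1) ∈ AddSubgroup.closure (Set.range fun j => φ (Pi.single j 1)) :=
    AddSubgroup.subset_closure ⟨j, rfl⟩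
  exact AddSubgroup.zsmul_mem _ h3 _

end lattice

section KR

variable {α : Type*} {ρ : ℕ}

/-- restriction of the vectors of `K` to the rows `R` -/
def KR (K : AddSubgroup (α → ℤ)) (R : Fin ρ → α) : AddSubgroup (Fin ρ → ℤ) where
  carrier := {v | ∃ u ∈ K, v = u ∘ R}
  zero_mem' := ⟨0, K.zero_mem, rfl⟩
  add_mem' := by
    rintro _ _ ⟨u, hu, rfl⟩ ⟨v, hv, rfl⟩
    exact ⟨u + v, K.add_mem hu hv, rfl⟩
  neg_mem' := by
    rintro _ ⟨u, hu, rfl⟩
    exact ⟨-u, K.neg_mem hu, rfl⟩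

theorem mem_KR {K : AddSubgroup (α → ℤ)} {R : Fin ρ → α} {v : Fin ρ → ℤ} :
    v ∈ KR K R ↔ ∃ u ∈ K, v = u ∘ R := Iff.rfl

/-- the content of coordinate `i` depends only on the rows up to `i` -/
theorem cnt_congr (K : AddSubgroup (α → ℤ)) (R R' : Fin ρ → α) (i : Fin ρ)
    (h : ∀ j ≤ i, R j = R' j) : cnt (KR K R) i = cnt (KR K R') i := by
  have key : ∀ R R' : Fin ρ → α, (∀ j ≤ i, R j = R' j) →
      (KR K R ⊓ V ρ i).map (Pi.evalAddMonoidHom (fun _ : Fin ρ => ℤ) i)
      ≤ (KR K R' ⊓ V ρ i).map (Pi.evalAddMonoidHom (fun _ : Fin ρ => ℤ) i) := by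
    rintro R R' h _ ⟨_, ⟨⟨u, hu, rfl⟩, hv⟩, rfl⟩
    refine ⟨u ∘ R', ⟨⟨u, hu, rfl⟩, ?_⟩, ?_⟩
    · intro j hj
      have := hv j hj
      simp only [Function.comp] at this ⊢
      rw [← h j (by rw [Fin.le_def]; omega)]; exact this
    · simp only [Pi.evalAddMonoidHom_apply, Function.comp]
      rw [h i le_rfl]
  unfold cnt
  rw [le_antisymm (key R R' h) (key R' R fun j hj => (h j hj).symm)]

/-- failure at `t`: all vectors of `K` vanishing on the earlier rows are divisible by `q` at `R t` -/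
def Fl (K : AddSubgroup (α → ℤ)) (q : ℕ) (t : Fin ρ) (R : Fin ρ → α) : Prop :=
  (∃ u ∈ K, u ≠ 0 ∧ ∀ j < t, u (R j) = 0) ∧ ∀ u ∈ K, (∀ j < t, u (R j) = 0) → (q : ℤ) ∣ u (R t)

theorem Fl_update [DecidableEq (Fin ρ)] (K : AddSubgroup (α → ℤ)) (q : ℕ) (t s : Fin ρ) (R : Fin ρ → α) (a : α)
    (h : t < s) : Fl K q t (Function.update R s a) ↔ Fl K q t R := by
  have h1 : ∀ j < t, Function.update R s a j = R j := fun j hj =>
    Function.update_of_ne (ne_of_lt (hj.trans h)) _ _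
  have h2 : Function.update R s a t = R t := Function.update_of_ne (ne_of_lt h) _ _
  unfold Fl
  rw [h2]
  have h3 : ∀ u : α → ℤ, (∀ j < t, u (Function.update R s a j) = 0) ↔ (∀ j < t, u (R j) = 0) := by
    intro u
    constructor
    · intro h j hj; rw [← h1 j hj]; exact h j hj
    · intro h j hj; rw [h1 j hj]; exact h j hj
  simp only [h3]

/-- few rows fail -/
theorem card_Fl_le [Finite α] (K : AddSubgroup (α → ℤ)) (q K0 : ℕ)
    (hKZ : ∀ u ∈ K, u ≠ 0 → ∃ (s : ℤ) (u' : α → ℤ), u' ∈ K ∧ u = s • u' ∧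
      {j | (q : ℤ) ∣ u' j}.ncard ≤ K0) (t : Fin ρ) (R : Fin ρ → α) :
    {a | Fl K q t (Function.update R t a)}.ncard ≤ K0 := by
  classical
  by_cases h : ∃ u ∈ K, u ≠ 0 ∧ ∀ j < t, u (R j) = 0
  · obtain ⟨u, hu, hu0, hz⟩ := h
    obtain ⟨s, u', hu', hs, hc⟩ := hKZ u hu hu0
    refine (Set.ncard_le_ncard (t := {j | (q : ℤ) ∣ u' j}) ?_ (Set.toFinite _)).trans hc
    intro a ha
    have h2 := ha.2 u' hu' ?_
    · rwa [Function.update_self] at h2
    · intro j hj
      rw [Function.update_of_ne (ne_of_lt hj)]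
      have h3 := hz j hj
      rw [hs, Pi.smul_apply, smul_eq_mul] at h3
      rcases mul_eq_zero.1 h3 with h4 | h4
      · exact absurd (by rw [hs, h4, zero_smul]) hu0
      · exact h4
  · have : {a | Fl K q t (Function.update R t a)} = ∅ := by
      ext a
      simp only [Set.mem_ofPred_eq, Set.mem_empty_iff_false, iff_false]
      rintro ⟨⟨u, hu, hu0, hz⟩, _⟩
      refine h ⟨u, hu, hu0, fun j hj => ?_⟩
      have := hz j hj
      rwa [Function.update_of_ne (ne_of_lt hj)] at this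
    rw [this]; simp

/-- no failure: small exponent of the content -/
theorem not_Fl (K : AddSubgroup (α → ℤ)) {p b : ℕ} (hp : p.Prime) (t : Fin ρ) (R : Fin ρ → α)
    (h0 : cnt (KR K R) t ≠ 0) (h : ¬ Fl K (p ^ b) t R) :
    (cnt (KR K R) t).factorization p < b := by
  by_contra hb
  rw [not_lt] at hb
  apply h
  have h1 : p ^ b ∣ cnt (KR K R) t := (hp.pow_dvd_iff_le_factorization h0).2 hb
  constructor
  · obtain ⟨v, ⟨u, hu, rfl⟩, hv, hi⟩ := exists_cnt (KR K R) t
    refine ⟨u, hu, ?_, fun j hj => hv j hj⟩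
    intro hu0
    rw [hu0] at hi
    have h2 : (0 : ℤ) = cnt (KR K R) t := hi
    exact h0 (by exact_mod_cast h2.symm)
  · intro u hu hz
    have h2 := cnt_dvd (KR K R) t (u := u ∘ R) ⟨u, hu, rfl⟩ (fun j hj => hz j hj)
    exact (Int.natCast_dvd_natCast.2 h1).trans h2

end KR

end Vale.Agent.P160.Half.Fail
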