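import Vale.Agent.P160.Half.Fail4

/-!
# Failures: bridge to `Rev.lam`, and the groups `p^N G`
-/

namespace Vale.Agent.P160.Half.Fail

open Finset

section bridge

variable {A G : Type*} [AddCommGroup A] [AddCommGroup G]

theorem relIndex_map_dvd (f : A →+ G) (X Y : AddSubgroup A) :
    (X.map f).relIndex (Y.map f) ∣ X.relIndex Y := by
  rw [AddSubgroup.relIndex_map_map]
  have h2 : (X ⊔ f.ker).relIndex (Y ⊔ f.ker) = (X ⊔ f.ker).relIndex Y := by
    have h3 : (X ⊔ f.ker).relIndex (Y ⊔ (X ⊔ f.ker)) = (X ⊔ f.ker).relIndex Y :=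
      AddSubgroup.relIndex_sup_right ..
    have h4 : (X ⊔ f.ker).relIndex ((Y ⊔ f.ker) ⊔ (X ⊔ f.ker))
        = (X ⊔ f.ker).relIndex (Y ⊔ f.ker) := AddSubgroup.relIndex_sup_right ..
    rw [← h3, ← h4]
    congr 1
    rw [sup_assoc, sup_comm X f.ker, ← sup_assoc f.ker f.ker X, sup_idem]
  rw [h2]
  exact AddSubgroup.relIndex_dvd_of_le_left Y le_sup_left

theorem mul_map_surj (f : A →+ G) (hf : Function.Surjective f) (n : ℕ) :
    mul n G = (mul n A).map f := by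
  ext x
  constructor
  · intro hx
    obtain ⟨y, rfl⟩ := mem_mul.1 hx
    obtain ⟨a, rfl⟩ := hf y
    exact ⟨n • a, mem_mul.2 ⟨a, rfl⟩, by rw [map_nsmul]⟩
  · rintro ⟨z, hz, rfl⟩
    obtain ⟨a, rfl⟩ := mem_mul.1 hz
    exact mem_mul.2 ⟨f a, by rw [map_nsmul]⟩

theorem lay_ne_zero [Finite A] (p l : ℕ) : lay p l A ≠ 0 := by
  intro h
  have := card_mul_eq (G := A) p l
  rw [h, mul_zero] at this
  exact Nat.card_pos.ne' this.symm

/-- layers of a quotient are smaller -/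
theorem lay_le_of_surj [Finite A] (f : A →+ G) (hf : Function.Surjective f) (p l : ℕ) :
    lay p l G ≤ lay p l A := by
  unfold lay
  rw [mul_map_surj f hf, mul_map_surj f hf (p ^ l)]
  exact Nat.le_of_dvd (Nat.pos_of_ne_zero (lay_ne_zero p l)) (relIndex_map_dvd f _ _)

theorem set_finite [Finite A] {p k : ℕ} (hp : p.Prime) (hk : 1 ≤ k) :
    {l : ℕ | p ^ k ≤ lay p l A}.Finite :=
  (layers_finite (G := A) hp).subset fun l hl =>
    (Nat.le_self_pow (by omega : k ≠ 0) p).trans hl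

/-- exponents of a quotient are smaller -/
theorem lam_le_of_surj [Finite A] (f : A →+ G) (hf : Function.Surjective f) {p k : ℕ}
    (hp : p.Prime) (hk : 1 ≤ k) : lam p k G ≤ lam p k A :=
  Set.ncard_le_ncard (fun _ hl => le_trans hl (lay_le_of_surj f hf p _)) (set_finite hp hk)

theorem lay_succ_le [Finite A] (p l : ℕ) : lay p (l + 1) A ≤ lay p l A := by
  have h : ∀ n : ℕ, mul (p ^ (n + 1)) A = (mul (p ^ n) A).map (nsmulAddMonoidHom (α := A) p) := by
    intro n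
    ext x
    constructor
    · intro hx
      obtain ⟨y, rfl⟩ := mem_mul.1 hx
      exact ⟨p ^ n • y, mem_mul.2 ⟨y, rfl⟩, by simp [pow_succ', mul_smul]⟩
    · rintro ⟨z, hz, rfl⟩
      obtain ⟨y, rfl⟩ := mem_mul.1 hz
      exact mem_mul.2 ⟨y, by simp [pow_succ', mul_smul]⟩
  have h1 : lay p (l + 1) A = ((mul (p ^ (l + 1)) A).map (nsmulAddMonoidHom (α := A) p)).relIndex
      ((mul (p ^ l) A).map (nsmulAddMonoidHom (α := A) p)) := by
    unfold lay
    rw [h (l + 1), h l]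
  rw [h1]
  exact Nat.le_of_dvd (Nat.pos_of_ne_zero (lay_ne_zero p l)) (relIndex_map_dvd _ _ _)

theorem lay_anti [Finite A] (p : ℕ) : Antitone fun l => lay p l A :=
  antitone_nat_of_succ_le fun l => lay_succ_le p l

/-- the layers of `p^N A` -/
theorem lay_mul (p N l : ℕ) : lay p l (mul (p ^ N) A) = lay p (l + N) A := by
  have h : ∀ n : ℕ, (mul (p ^ n) (mul (p ^ N) A)).map (mul (p ^ N) A).subtype
      = mul (p ^ (n + N)) A := by
    intro n
    ext x
    constructor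
    · rintro ⟨z, hz, rfl⟩
      obtain ⟨⟨y, hy⟩, rfl⟩ := mem_mul.1 hz
      obtain ⟨w, rfl⟩ := mem_mul.1 hy
      exact mem_mul.2 ⟨w, by simp [pow_add, mul_smul]⟩
    · intro hx
      obtain ⟨w, rfl⟩ := mem_mul.1 hx
      exact ⟨p ^ n • ⟨p ^ N • w, mem_mul.2 ⟨w, rfl⟩⟩, mem_mul.2 ⟨_, rfl⟩,
        by simp [pow_add, mul_smul]⟩
  unfold lay
  rw [← AddSubgroup.relIndex_map_map_of_injective _ _ (mul (p ^ N) A).subtype_injective, h, h]
  congr 2
  ring_nf

/-- the exponents of `p^N A` -/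
theorem lam_mul_le [Finite A] {p k : ℕ} (hp : p.Prime) (hk : 1 ≤ k) (N : ℕ) :
    lam p k (mul (p ^ N) A) ≤ lam p k A - N := by
  have hf := set_finite (A := A) hp hk
  by_cases h0 : {l : ℕ | p ^ k ≤ lay p l (mul (p ^ N) A)} = ∅
  · unfold lam; rw [h0]; simp
  · have hne : {l : ℕ | p ^ k ≤ lay p l (mul (p ^ N) A)}.Nonempty :=
      Set.nonempty_iff_ne_empty.2 h0
    obtain ⟨l0, hl0⟩ := hne
    have hl0' : p ^ k ≤ lay p (l0 + N) A := by
      rw [← lay_mul]; exact hl0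
    -- the image under `+ N` and the first `N` levels
    have h1 : (fun l => l + N) '' {l : ℕ | p ^ k ≤ lay p l (mul (p ^ N) A)} ∪ Set.Iio N
        ⊆ {l : ℕ | p ^ k ≤ lay p l A} := by
      rintro x (⟨l, hl, rfl⟩ | hx)
      · have : p ^ k ≤ lay p l (mul (p ^ N) A) := hl
        rw [lay_mul] at this
        exact this
      · exact hl0'.trans (lay_anti (A := A) p (by
          have : x < N := hx
          omega))
    have h2 := Set.ncard_le_ncard h1 hf
    have hf' : {l : ℕ | p ^ k ≤ lay p l (mul (p ^ N) A)}.Finite := set_finite hp hk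
    rw [Set.ncard_union_eq ?_ (hf'.image _) (Set.finite_Iio N),
      Set.ncard_image_of_injective _ (fun a b h => by simpa using h)] at h2
    · have h3 : (Set.Iio N).ncard = N := by
        rw [← Finset.coe_Iio, Set.ncard_coe_finset, Nat.card_Iio]
      unfold lam
      omega
    · rw [Set.disjoint_left]
      rintro x ⟨l, _, rfl⟩ hx
      have : l + N < N := hx
      omega

/-- `Rev.lam` of a `p`-group -/
theorem rev_lam_le [Finite G] {p : ℕ} (hp : p.Prime) (hG : ∃ n, Nat.card G = p ^ n) {k : ℕ}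
    (hk : 1 ≤ k) : Rev.lam p G k ≤ lam p k G := by
  unfold Rev.lam lam
  rw [← Set.ncard_coe_finset]
  refine Set.ncard_le_ncard ?_ (set_finite hp hk)
  intro l hl
  rw [Finset.mem_coe, mem_filter] at hl
  have h1 : lay p l G = p ^ Rev.rk p G l := Rev.relIndex_pw hp hG l
  show p ^ k ≤ lay p l G
  rw [h1]
  exact Nat.pow_le_pow_right hp.pos hl.2

theorem one_le_lam [Finite G] {p : ℕ} (hp : p.Prime) (hG : ∃ n, Nat.card G = p ^ n) {k : ℕ}
    (hk : 1 ≤ k) (h : k ≤ Rev.rk p G 0) : 1 ≤ lam p k G := by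
  have h1 : (0 : ℕ) ∈ {l : ℕ | p ^ k ≤ lay p l G} := by
    show p ^ k ≤ lay p 0 G
    have h2 : lay p 0 G = p ^ Rev.rk p G 0 := Rev.relIndex_pw hp hG 0
    rw [h2]
    exact Nat.pow_le_pow_right hp.pos h
  exact (Set.ncard_pos (set_finite hp hk)).2 ⟨0, h1⟩

variable {α : Type*} {ρ : ℕ}

/-- **(Br)** `Rev.lam` of a `p`-group which is a quotient of `ℤ^ρ / K_R` -/
theorem rev_lam_QR [Finite G] (K : AddSubgroup (α → ℤ)) (R : Fin ρ → α)
    (h : (KR K R).index ≠ 0) (φ : (Fin ρ → ℤ) →+ G) (hφ : Function.Surjective φ)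
    (hK : KR K R ≤ φ.ker) {p : ℕ} (hp : p.Prime) (hG : ∃ n, Nat.card G = p ^ n) {k : ℕ}
    (hk : 1 ≤ k) : Rev.lam p G k ≤ lam p k (QR K R) := by
  have : Finite (QR K R) := finite_QR K R h
  refine (rev_lam_le hp hG hk).trans (lam_le_of_surj (QuotientAddGroup.lift (KR K R) φ hK) ?_ hp hk)
  intro x
  obtain ⟨u, rfl⟩ := hφ x
  exact ⟨(u : QR K R), by simp⟩

/-- **(Br')** the rank of a `p`-group which is a quotient of `ℤ^ρ / K_R` -/
theorem rev_rk_QR [Finite G] (K : AddSubgroup (α → ℤ)) (R : Fin ρ → α)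
    (h : (KR K R).index ≠ 0) (φ : (Fin ρ → ℤ) →+ G) (hφ : Function.Surjective φ)
    (hK : KR K R ≤ φ.ker) {p : ℕ} (hp : p.Prime) (hG : ∃ n, Nat.card G = p ^ n) {k : ℕ}
    (hk : 1 ≤ k) (hr : k ≤ Rev.rk p G 0) : 1 ≤ lam p k (QR K R) := by
  have : Finite (QR K R) := finite_QR K R h
  refine (one_le_lam hp hG hk hr).trans
    (lam_le_of_surj (QuotientAddGroup.lift (KR K R) φ hK) ?_ hp hk)
  intro x
  obtain ⟨u, rfl⟩ := hφ x
  exact ⟨(u : QR K R), by simp⟩

/-- **(Br-N)** `Rev.lam` of `p^N G` -/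
theorem rev_lam_mul_QR [Finite G] (K : AddSubgroup (α → ℤ)) (R : Fin ρ → α)
    (h : (KR K R).index ≠ 0) (φ : (Fin ρ → ℤ) →+ G) (hφ : Function.Surjective φ)
    (hK : KR K R ≤ φ.ker) {p : ℕ} (hp : p.Prime) (hG : ∃ n, Nat.card G = p ^ n) {k : ℕ}
    (hk : 1 ≤ k) (N : ℕ) : Rev.lam p (Rev.pw p G N) k ≤ lam p k (QR K R) - N := by
  have : Finite (QR K R) := finite_QR K R h
  have hG' : ∃ n, Nat.card (Rev.pw p G N) = p ^ n := by
    obtain ⟨n, hn⟩ := hG
    obtain ⟨m, _, hm⟩ := (Nat.dvd_prime_pow hp).1 (hn ▸ AddSubgroup.card_addSubgroup_dvd_card (Rev.pw p G N))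
    exact ⟨m, hm⟩
  refine (rev_lam_le hp hG' hk).trans ((lam_mul_le (A := G) hp hk N).trans ?_)
  refine Nat.sub_le_sub_right
    (lam_le_of_surj (QuotientAddGroup.lift (KR K R) φ hK) ?_ hp hk) N
  intro x
  obtain ⟨u, rfl⟩ := hφ x
  exact ⟨(u : QR K R), by simp⟩

end bridge

end Vale.Agent.P160.Half.Fail
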