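import Mathlib

/-! # P160, half rate: fibration over a set of rows (helper712)

The bits of a symmetric matrix and of a family of columns split into the bits off `S`, the bits on `S`
and the rows `S` (block `S × (Sᶜ ⊕ β)`), which are independent of the rest. -/

open Finset

namespace Vale.Agent.P160.Half.G

namespace Fib

variable {α β : Type*} [Fintype α] [DecidableEq α] [Fintype β] [DecidableEq β]

/-- bits on the complement of `S` -/
def offE (S : Finset α) (b : Sym2 α → Bool) : Sym2 {i // i ∉ S} → Bool := fun z => b (z.map Subtype.val)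

/-- bits on `S` -/
def onE (S : Finset α) (b : Sym2 α → Bool) : Sym2 {i // i ∈ S} → Bool := fun z => b (z.map Subtype.val)

/-- columns off `S` -/
def offF (S : Finset α) (f : α → β → Bool) : {i // i ∉ S} → β → Bool := fun i j => f i j

/-- rows `S` -/
def rows (S : Finset α) (b : Sym2 α → Bool) (f : α → β → Bool) : {i // i ∈ S} → ({i // i ∉ S} ⊕ β) → Bool :=
  fun s => Sum.elim (fun t => b s(s.1, t.1)) (f s.1)

theorem inj (S : Finset α) {b b' : Sym2 α → Bool} {f f' : α → β → Bool} (h1 : offE S b = offE S b')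
    (h2 : offF S f = offF S f') (h3 : onE S b = onE S b') (h4 : rows S b f = rows S b' f') : b = b' ∧ f = f' := by
  constructor
  · funext z
    induction z using Sym2.inductionOn with
    | _ i j =>
      by_cases hi : i ∈ S
      · by_cases hj : j ∈ S
        · exact congrFun h3 s(⟨i, hi⟩, ⟨j, hj⟩)
        · exact congrFun (congrFun h4 ⟨i, hi⟩) (Sum.inl ⟨j, hj⟩)
      · by_cases hj : j ∈ S
        · have := congrFun (congrFun h4 ⟨j, hj⟩) (Sum.inl ⟨i, hi⟩)
          rw [Sym2.eq_swap]
          exact this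
        · exact congrFun h1 s(⟨i, hi⟩, ⟨j, hj⟩)
  · funext i j
    by_cases hi : i ∈ S
    · exact congrFun (congrFun h4 ⟨i, hi⟩) (Sum.inr j)
    · exact congrFun (congrFun h2 ⟨i, hi⟩) j

theorem choose_add (s t : ℕ) : (s + t + 1).choose 2 = (t + 1).choose 2 + (s + 1).choose 2 + t * s := by
  induction s with
  | zero => simp
  | succ s ih =>
    rw [show s + 1 + t + 1 = (s + t + 1) + 1 by ring, Nat.choose_succ_succ' (s + t + 1) 1, ih,
      Nat.choose_succ_succ' (s + 1) 1, Nat.choose_one_right, Nat.choose_one_right]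
    ring

theorem card_split (S : Finset α) :
    Fintype.card (Sym2 α) + Fintype.card α * Fintype.card β =
      (Fintype.card (Sym2 {i // i ∉ S}) + Fintype.card {i // i ∉ S} * Fintype.card β +
        Fintype.card (Sym2 {i // i ∈ S})) + (Fintype.card {i // i ∉ S} + Fintype.card β) * S.card := by
  have hs : Fintype.card {i // i ∈ S} = S.card := Fintype.card_coe S
  have ht : Fintype.card α = S.card + Fintype.card {i // i ∉ S} := by
    rw [Fintype.card_subtype_compl, hs]
    have := S.card_le_univ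
    omega
  rw [Sym2.card, Sym2.card, Sym2.card, hs, ht, choose_add]
  ring

/-- **Fibration.** If for all bits off `S` at most `C 2^(block)` values of the rows `S` are good, then at most `C 2^(all)`
bits are good. -/
theorem fib (S : Finset α)
    (Good : (Sym2 {i // i ∉ S} → Bool) → ({i // i ∉ S} → β → Bool) → ({i // i ∈ S} → ({i // i ∉ S} ⊕ β) → Bool) → Prop)
    (C : ℝ)
    (h : ∀ E F, (Nat.card {x // Good E F x} : ℝ) ≤ C * 2 ^ ((Fintype.card {i // i ∉ S} + Fintype.card β) * S.card)) :
    (Nat.card {bf : (Sym2 α → Bool) × (α → β → Bool) // Good (offE S bf.1) (offF S bf.2) (rows S bf.1 bf.2)} : ℝ) ≤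
      C * 2 ^ (Fintype.card (Sym2 α) + Fintype.card α * Fintype.card β) := by
  classical
  let J := (Sym2 {i // i ∉ S} → Bool) × ({i // i ∉ S} → β → Bool) × (Sym2 {i // i ∈ S} → Bool)
  have h1 : Nat.card {bf : (Sym2 α → Bool) × (α → β → Bool) // Good (offE S bf.1) (offF S bf.2) (rows S bf.1 bf.2)} ≤
      Nat.card (Σ e : J, {x // Good e.1 e.2.1 x}) := by
    apply Nat.card_le_card_of_injective
      (fun bf => (⟨(offE S bf.1.1, offF S bf.1.2, onE S bf.1.1), ⟨rows S bf.1.1 bf.1.2, bf.2⟩⟩ :
        Σ e : J, {x // Good e.1 e.2.1 x}))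
    rintro ⟨⟨b, f⟩, hb⟩ ⟨⟨b', f'⟩, hb'⟩ heq
    rw [Sigma.mk.injEq] at heq
    obtain ⟨h1, h2⟩ := heq
    have h3 : offE S b = offE S b' := congrArg Prod.fst h1
    have h4 : offF S f = offF S f' := congrArg (fun e => e.2.1) h1
    have h5 : onE S b = onE S b' := congrArg (fun e => e.2.2) h1
    have h6 : rows S b f = rows S b' f' := by
      have : HEq (rows S b f) (rows S b' f') := by
        have h7 : ∀ (e e' : J) (x : {x // Good e.1 e.2.1 x}) (x' : {x // Good e'.1 e'.2.1 x}), e = e' → HEq x x' →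
            x.1 = x'.1 := by
          rintro e e' x x' rfl hx
          rw [eq_of_heq hx]
        exact heq_of_eq (h7 (offE S b, offF S f, onE S b) (offE S b', offF S f', onE S b') ⟨rows S b f, hb⟩
          ⟨rows S b' f', hb'⟩ (by rw [h3, h4, h5]) h2)
      exact eq_of_heq this
    obtain ⟨h8, h9⟩ := inj S h3 h4 h5 h6
    subst h8
    subst h9
    rfl
  have h2 : (Nat.card (Σ e : J, {x // Good e.1 e.2.1 x}) : ℝ) ≤
      Fintype.card J * (C * 2 ^ ((Fintype.card {i // i ∉ S} + Fintype.card β) * S.card)) := by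
    rw [Nat.card_sigma, Nat.cast_sum]
    calc (∑ e : J, (Nat.card {x // Good e.1 e.2.1 x} : ℝ))
        ≤ ∑ _e : J, C * 2 ^ ((Fintype.card {i // i ∉ S} + Fintype.card β) * S.card) :=
          Finset.sum_le_sum fun e _ => h e.1 e.2.1
      _ = _ := by rw [Finset.sum_const, Finset.card_univ, nsmul_eq_mul]
  have h3 : (Fintype.card J : ℝ) = 2 ^ (Fintype.card (Sym2 {i // i ∉ S}) + Fintype.card {i // i ∉ S} * Fintype.card β +
        Fintype.card (Sym2 {i // i ∈ S})) := by
    have : Fintype.card J = 2 ^ (Fintype.card (Sym2 {i // i ∉ S}) + Fintype.card {i // i ∉ S} * Fintype.card β +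
        Fintype.card (Sym2 {i // i ∈ S})) := by
      simp only [J, Fintype.card_prod, Fintype.card_pi, Fintype.card_bool, Finset.prod_const, Finset.card_univ]
      rw [← pow_mul, pow_add, pow_add, mul_comm (Fintype.card {i // i ∉ S}), mul_assoc]
    rw [this]
    push_cast
    rfl
  calc (Nat.card {bf : (Sym2 α → Bool) × (α → β → Bool) // Good (offE S bf.1) (offF S bf.2) (rows S bf.1 bf.2)} : ℝ)
      ≤ (Nat.card (Σ e : J, {x // Good e.1 e.2.1 x}) : ℝ) := by exact_mod_cast h1
    _ ≤ _ := h2
    _ = _ := by rw [h3, card_split S, pow_add]; ring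

/-- fibration and union over all sets `S` -/
theorem fib_union
    (Good : ∀ S : Finset α, (Sym2 {i // i ∉ S} → Bool) → ({i // i ∉ S} → β → Bool) →
      ({i // i ∈ S} → ({i // i ∉ S} ⊕ β) → Bool) → Prop)
    (C : ℝ) (hC : 0 ≤ C) (𝒮 : Finset (Finset α))
    (h : ∀ S ∈ 𝒮, ∀ E F, (Nat.card {x // Good S E F x} : ℝ) ≤
      C * 2 ^ ((Fintype.card {i // i ∉ S} + Fintype.card β) * S.card)) :
    (Nat.card {bf : (Sym2 α → Bool) × (α → β → Bool) // ∃ S ∈ 𝒮, Good S (offE S bf.1) (offF S bf.2) (rows S bf.1 bf.2)} : ℝ) ≤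
      2 ^ Fintype.card α * C * 2 ^ (Fintype.card (Sym2 α) + Fintype.card α * Fintype.card β) := by
  classical
  have h1 : Nat.card {bf : (Sym2 α → Bool) × (α → β → Bool) // ∃ S ∈ 𝒮, Good S (offE S bf.1) (offF S bf.2) (rows S bf.1 bf.2)} ≤
      ∑ S ∈ 𝒮, Nat.card {bf : (Sym2 α → Bool) × (α → β → Bool) // Good S (offE S bf.1) (offF S bf.2) (rows S bf.1 bf.2)} := by
    simp only [Nat.card_eq_fintype_card, Fintype.card_subtype]
    calc _ ≤ (𝒮.biUnion fun S => univ.filter fun bf : (Sym2 α → Bool) × (α → β → Bool) =>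
          Good S (offE S bf.1) (offF S bf.2) (rows S bf.1 bf.2)).card := by
          apply Finset.card_le_card
          intro bf hbf
          simp only [Finset.mem_filter, Finset.mem_univ, true_and] at hbf
          simp only [Finset.mem_biUnion, Finset.mem_filter, Finset.mem_univ, true_and]
          exact hbf
      _ ≤ _ := Finset.card_biUnion_le
  calc (Nat.card {bf : (Sym2 α → Bool) × (α → β → Bool) // ∃ S ∈ 𝒮, Good S (offE S bf.1) (offF S bf.2) (rows S bf.1 bf.2)} : ℝ)
      ≤ ∑ S ∈ 𝒮, (Nat.card {bf : (Sym2 α → Bool) × (α → β → Bool) // Good S (offE S bf.1) (offF S bf.2) (rows S bf.1 bf.2)} : ℝ) := by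
        exact_mod_cast h1
    _ ≤ ∑ _S ∈ 𝒮, C * 2 ^ (Fintype.card (Sym2 α) + Fintype.card α * Fintype.card β) :=
        Finset.sum_le_sum fun S hS => fib S (Good S) C (h S hS)
    _ = 𝒮.card * (C * 2 ^ (Fintype.card (Sym2 α) + Fintype.card α * Fintype.card β)) := by
        rw [Finset.sum_const, nsmul_eq_mul]
    _ ≤ 2 ^ Fintype.card α * (C * 2 ^ (Fintype.card (Sym2 α) + Fintype.card α * Fintype.card β)) := by
        apply mul_le_mul_of_nonneg_right _ (by positivity)
        have : 𝒮.card ≤ 2 ^ Fintype.card α := by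
          rw [← Fintype.card_finset]
          exact Finset.card_le_univ 𝒮
        exact_mod_cast this
    _ = _ := by ring

end Fib

end Vale.Agent.P160.Half.G
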