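import Vale.Agent.P160.Half.Corank

/-! # P160, half rate: fibration of the bits of `P` over the rows `S × Sᶜ` -/

set_option linter.unusedSectionVars false

open Finset Matrix

namespace Vale.Agent.P160.Half.Fib

open Vale.Agent.P160.Half

variable {α : Type*} [Fintype α] [DecidableEq α]

/-- the random rows -/
abbrev Rw (S : Finset α) := {i // i ∈ S} → {i // i ∉ S} → Bool

/-- reading the rows -/
def rd (S : Finset α) (b : Sym2 α → Bool) : Rw S := fun s t => b s(s.1, t.1)

/-- auxiliary symmetric function -/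
def mixf (S : Finset α) (b : Sym2 α → Bool) (x : Rw S) (i j : α) : Bool :=
  if h : i ∈ S ∧ j ∉ S then x ⟨i, h.1⟩ ⟨j, h.2⟩
  else if h' : j ∈ S ∧ i ∉ S then x ⟨j, h'.1⟩ ⟨i, h'.2⟩ else b s(i, j)

lemma mixf_symm (S : Finset α) (b : Sym2 α → Bool) (x : Rw S) (i j : α) :
    mixf S b x i j = mixf S b x j i := by
  unfold mixf
  by_cases h : i ∈ S ∧ j ∉ S
  · have h' : ¬ (j ∈ S ∧ i ∉ S) := fun h2 => h2.2 h.1
    rw [dif_pos h, dif_neg h', dif_pos h]
  · by_cases h' : j ∈ S ∧ i ∉ S
    · rw [dif_neg h, dif_pos h', dif_pos h']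
    · rw [dif_neg h, dif_neg h', dif_neg h', dif_neg h, Sym2.eq_swap]

/-- replacing the rows -/
def repl (S : Finset α) (b : Sym2 α → Bool) (x : Rw S) : Sym2 α → Bool :=
  Sym2.lift ⟨mixf S b x, mixf_symm S b x⟩

lemma repl_mk (S : Finset α) (b : Sym2 α → Bool) (x : Rw S) (i j : α) :
    repl S b x s(i, j) = mixf S b x i j := rfl

lemma repl_ST (S : Finset α) (b : Sym2 α → Bool) (x : Rw S) {i j : α} (hi : i ∈ S) (hj : j ∉ S) :
    repl S b x s(i, j) = x ⟨i, hi⟩ ⟨j, hj⟩ := by
  rw [repl_mk, mixf, dif_pos ⟨hi, hj⟩]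

/-- the bits outside the rows are not changed -/
lemma repl_TT (S : Finset α) (b : Sym2 α → Bool) (x : Rw S) {i j : α} (hi : i ∉ S) (hj : j ∉ S) :
    repl S b x s(i, j) = b s(i, j) := by
  rw [repl_mk, mixf, dif_neg (fun h => hi h.1), dif_neg (fun h => hj h.1)]

lemma repl_SS (S : Finset α) (b : Sym2 α → Bool) (x : Rw S) {i j : α} (hi : i ∈ S) (hj : j ∈ S) :
    repl S b x s(i, j) = b s(i, j) := by
  rw [repl_mk, mixf, dif_neg (fun h => h.2 hj), dif_neg (fun h => h.2 hi)]

lemma rd_repl (S : Finset α) (b : Sym2 α → Bool) (x : Rw S) : rd S (repl S b x) = x := by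
  funext s t
  show repl S b x s(s.1, t.1) = _
  rw [repl_mk, mixf, dif_pos ⟨s.2, t.2⟩]

lemma repl_repl_rd (S : Finset α) (b : Sym2 α → Bool) (x : Rw S) :
    repl S (repl S b x) (rd S b) = b := by
  funext e
  induction e with
  | _ i j =>
    rw [repl_mk, mixf]
    by_cases h : i ∈ S ∧ j ∉ S
    · rw [dif_pos h]; rfl
    · by_cases h' : j ∈ S ∧ i ∉ S
      · rw [dif_neg h, dif_pos h']
        show b s(j, i) = _
        rw [Sym2.eq_swap]
      · rw [dif_neg h, dif_neg h', repl_mk, mixf, dif_neg h, dif_neg h']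

/-- the involution -/
def inv (S : Finset α) : (Sym2 α → Bool) × Rw S ≃ (Sym2 α → Bool) × Rw S where
  toFun q := (repl S q.1 q.2, rd S q.1)
  invFun q := (repl S q.1 q.2, rd S q.1)
  left_inv q := Prod.ext (repl_repl_rd S q.1 q.2) (rd_repl S q.1 q.2)
  right_inv q := Prod.ext (repl_repl_rd S q.1 q.2) (rd_repl S q.1 q.2)

lemma card_Rw (S : Finset α) : Nat.card (Rw S) = 2 ^ (S.card * Fintype.card {i // i ∉ S}) := by
  rw [Nat.card_eq_fintype_card, Fintype.card_fun, Fintype.card_fun, Fintype.card_bool, ← pow_mul,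
    Fintype.card_coe, mul_comm]

/-- **fibration**: if for all values of the other bits at most `N` rows are bad, then
`#Bad * 2^(rows) ≤ N * 2^(bits)` -/
theorem fib (S : Finset α) (Bad : (Sym2 α → Bool) → Prop) (N : ℝ)
    (h : ∀ b, (Nat.card {x : Rw S // Bad (repl S b x)} : ℝ) ≤ N) :
    (Nat.card {b // Bad b} : ℝ) * 2 ^ (S.card * Fintype.card {i // i ∉ S}) ≤
      N * 2 ^ Fintype.card (Sym2 α) := by
  classical
  have e1 : Nat.card {q : (Sym2 α → Bool) × Rw S // Bad (repl S q.1 q.2)} =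
      Nat.card {c // Bad c} * Nat.card (Rw S) := by
    rw [← Nat.card_prod]
    refine Nat.card_congr ?_
    refine ((inv S).subtypeEquiv (q := fun q => Bad q.1) (fun q => Iff.rfl)).trans ?_
    exact { toFun := fun q => (⟨q.1.1, q.2⟩, q.1.2)
            invFun := fun q => ⟨(q.1.1, q.2), q.1.2⟩
            left_inv := fun q => rfl
            right_inv := fun q => rfl }
  have e2 : Nat.card {q : (Sym2 α → Bool) × Rw S // Bad (repl S q.1 q.2)} =
      ∑ c : (Sym2 α → Bool), Nat.card {x : Rw S // Bad (repl S c x)} := by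
    have e3 : Nat.card {q : (Sym2 α → Bool) × Rw S // Bad (repl S q.1 q.2)} =
        Nat.card (Σ c : (Sym2 α → Bool), {x : Rw S // Bad (repl S c x)}) := by
      refine Nat.card_congr ?_
      exact { toFun := fun q => ⟨q.1.1, q.1.2, q.2⟩
              invFun := fun q => ⟨(q.1, q.2.1), q.2.2⟩
              left_inv := fun q => rfl
              right_inv := fun q => rfl }
    rw [e3, Nat.card_sigma]
  have h1 : ((Nat.card {c // Bad c} * Nat.card (Rw S) : ℕ) : ℝ) ≤
      N * Nat.card (Sym2 α → Bool) := by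
    rw [← e1, e2]
    push_cast
    refine (Finset.sum_le_sum fun c _ => h c).trans ?_
    rw [Finset.sum_const, nsmul_eq_mul, Finset.card_univ, Nat.card_eq_fintype_card, mul_comm]
  rw [card_Rw] at h1
  have e4 : Nat.card (Sym2 α → Bool) = 2 ^ Fintype.card (Sym2 α) := by
    rw [Nat.card_eq_fintype_card, Fintype.card_fun, Fintype.card_bool]
  rw [e4] at h1
  push_cast at h1
  exact h1

/-- union over a finite family -/
theorem card_union_le {ι Ω : Type*} [Finite Ω] (I : Finset ι) (Bad : ι → Ω → Prop) (N : ℝ)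
    (P : Ω → Prop) (hP : ∀ w, P w → ∃ i ∈ I, Bad i w)
    (h : ∀ i ∈ I, (Nat.card {w // Bad i w} : ℝ) ≤ N) : (Nat.card {w // P w} : ℝ) ≤ I.card * N := by
  classical
  have : Fintype Ω := Fintype.ofFinite Ω
  have h1 : Nat.card {w // P w} ≤ ∑ i ∈ I, Nat.card {w // Bad i w} := by
    have e : ∀ Q : Ω → Prop, Nat.card {w // Q w} = (univ.filter Q).card := by
      intro Q
      rw [Nat.card_eq_fintype_card, Fintype.card_subtype]
    simp only [e]
    refine (card_le_card (t := I.biUnion fun i => univ.filter (Bad i)) ?_).trans card_biUnion_le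
    intro w hw
    rw [mem_filter] at hw
    obtain ⟨i, hi, hb⟩ := hP w hw.2
    exact mem_biUnion.2 ⟨i, hi, mem_filter.2 ⟨mem_univ _, hb⟩⟩
  calc (Nat.card {w // P w} : ℝ) ≤ ((∑ i ∈ I, Nat.card {w // Bad i w} : ℕ) : ℝ) := by
        exact_mod_cast h1
    _ = ∑ i ∈ I, (Nat.card {w // Bad i w} : ℝ) := by push_cast; rfl
    _ ≤ ∑ _i ∈ I, N := Finset.sum_le_sum h
    _ = I.card * N := by rw [Finset.sum_const, nsmul_eq_mul]

end Vale.Agent.P160.Half.Fib
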