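import Mathlib

/-! # P160, half rate, gap (G): fibration of the bits over the rows in a block `S × (Sᶜ ⊕ β)`. -/

open Finset

namespace Vale.Agent.P160.Half.Fib801

section general

variable {I R : Type*} [Fintype I] [DecidableEq I] [Fintype R] [DecidableEq R]

/-- replace the bits with index in the range of `φ` by `x` -/
noncomputable def glue (φ : R → I) (b : I → Bool) (x : R → Bool) : I → Bool :=
  open Classical in fun i => if h : ∃ r, φ r = i then x h.choose else b i

theorem glue_apply {φ : R → I} (hφ : Function.Injective φ) (b : I → Bool) (x : R → Bool) (r : R) :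
    glue φ b x (φ r) = x r := by
  unfold glue
  have h : ∃ r', φ r' = φ r := ⟨r, rfl⟩
  rw [dif_pos h]
  exact congrArg x (hφ h.choose_spec)

theorem glue_not {φ : R → I} (b : I → Bool) (x : R → Bool) {i : I} (hi : ∀ r, φ r ≠ i) :
    glue φ b x i = b i := by
  unfold glue
  rw [dif_neg]
  rintro ⟨r, hr⟩
  exact hi r hr

/-- If for all frozen bits the number of bad rows is at most `K`, then the number of bad
configurations is at most `K 2^|I| / 2^|R|`. -/
theorem fib {φ : R → I} (hφ : Function.Injective φ) (Bad : (I → Bool) → Prop) {K : ℝ}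
    (hK : ∀ b : I → Bool, (Nat.card {x : R → Bool // Bad (glue φ b x)} : ℝ) ≤ K) :
    (Nat.card {b : I → Bool // Bad b} : ℝ) * 2 ^ Fintype.card R ≤ K * 2 ^ Fintype.card I := by
  classical
  -- `Bad × (R → Bool)` injects into `Σ b, {x | Bad (glue b x)}`
  let f : {b : I → Bool // Bad b} × (R → Bool) → Σ b : I → Bool, {x : R → Bool // Bad (glue φ b x)} :=
    fun p => ⟨glue φ p.1.1 p.2, ⟨fun r => p.1.1 (φ r), by
      have e : glue φ (glue φ p.1.1 p.2) (fun r => p.1.1 (φ r)) = p.1.1 := by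
        funext i
        by_cases hi : ∃ r, φ r = i
        · obtain ⟨r, rfl⟩ := hi
          rw [glue_apply hφ]
        · push Not at hi
          rw [glue_not _ _ hi, glue_not _ _ hi]
      rw [e]
      exact p.1.2⟩⟩
  have hf : Function.Injective f := by
    rintro ⟨⟨b, hb⟩, x⟩ ⟨⟨b', hb'⟩, x'⟩ h
    have h1 : glue φ b x = glue φ b' x' := congrArg (fun q => q.1) h
    have h2 : (fun r => b (φ r)) = fun r => b' (φ r) :=
      congrArg (fun q : Σ b : I → Bool, {x : R → Bool // Bad (glue φ b x)} => q.2.1) h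
    have hx : x = x' := by
      funext r
      have := congrFun h1 (φ r)
      rwa [glue_apply hφ, glue_apply hφ] at this
    have hbb : b = b' := by
      funext i
      by_cases hi : ∃ r, φ r = i
      · obtain ⟨r, rfl⟩ := hi
        exact congrFun h2 r
      · push Not at hi
        have := congrFun h1 i
        rwa [glue_not _ _ hi, glue_not _ _ hi] at this
    subst hx
    subst hbb
    rfl
  have h1 := Nat.card_le_card_of_injective f hf
  rw [Nat.card_prod, Nat.card_sigma] at h1
  have h2 : (Nat.card (R → Bool) : ℝ) = 2 ^ Fintype.card R := by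
    rw [Nat.card_eq_fintype_card]; simp
  calc (Nat.card {b : I → Bool // Bad b} : ℝ) * 2 ^ Fintype.card R
      = ((Nat.card {b : I → Bool // Bad b} * Nat.card (R → Bool) : ℕ) : ℝ) := by
        push_cast; rw [h2]
    _ ≤ ((∑ b : I → Bool, Nat.card {x : R → Bool // Bad (glue φ b x)} : ℕ) : ℝ) := by
        exact_mod_cast h1
    _ = ∑ b : I → Bool, (Nat.card {x : R → Bool // Bad (glue φ b x)} : ℝ) := by push_cast; rfl
    _ ≤ ∑ _b : I → Bool, K := Finset.sum_le_sum fun b _ => hK b
    _ = K * 2 ^ Fintype.card I := by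
        rw [Finset.sum_const, nsmul_eq_mul, Finset.card_univ]
        simp [mul_comm]

end general

section block

variable {α β : Type*} [Fintype α] [Fintype β] [DecidableEq α] [DecidableEq β]

/-- the index of the row bits -/
def rowIdx (S : Finset α) : (S × ({t // t ∉ S} ⊕ β)) → Sym2 α ⊕ (α × β)
  | (s, Sum.inl t) => Sum.inl s(s.1, t.1)
  | (s, Sum.inr j) => Sum.inr (s.1, j)

theorem rowIdx_injective (S : Finset α) : Function.Injective (rowIdx (β := β) S) := by
  rintro ⟨s, t | j⟩ ⟨s', t' | j'⟩ h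
  · simp only [rowIdx, Sum.inl.injEq, Sym2.eq_iff] at h
    rcases h with ⟨h1, h2⟩ | ⟨h1, h2⟩
    · rw [Subtype.ext h1, Subtype.ext h2]
    · exact absurd (h1 ▸ s.2) t'.2
  · simp [rowIdx] at h
  · simp [rowIdx] at h
  · simp only [rowIdx, Sum.inr.injEq, Prod.mk.injEq] at h
    rw [Subtype.ext h.1, h.2]

/-- all bits as one family -/
def flat (bf : (Sym2 α → Bool) × (α → β → Bool)) : Sym2 α ⊕ (α × β) → Bool
  | Sum.inl e => bf.1 e
  | Sum.inr p => bf.2 p.1 p.2

/-- inverse of `flat` -/
def unflat (c : Sym2 α ⊕ (α × β) → Bool) : (Sym2 α → Bool) × (α → β → Bool) :=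
  (fun e => c (Sum.inl e), fun i j => c (Sum.inr (i, j)))

theorem unflat_flat (bf : (Sym2 α → Bool) × (α → β → Bool)) : unflat (flat bf) = bf := rfl

theorem flat_unflat (c : Sym2 α ⊕ (α × β) → Bool) : flat (unflat c) = c := by
  funext i
  rcases i with e | ⟨i, j⟩ <;> rfl

/-- replace the rows `s ∈ S` (bits `b s(s,t)`, `t ∉ S`, and `F s j`) by `x` -/
noncomputable def glueS (S : Finset α) (bf : (Sym2 α → Bool) × (α → β → Bool))
    (x : S → ({t // t ∉ S} ⊕ β) → Bool) : (Sym2 α → Bool) × (α → β → Bool) :=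
  unflat (glue (rowIdx S) (flat bf) fun r => x r.1 r.2)

theorem glueS_row (S : Finset α) (bf : (Sym2 α → Bool) × (α → β → Bool))
    (x : S → ({t // t ∉ S} ⊕ β) → Bool) (s : S) (t : {t // t ∉ S}) :
    (glueS S bf x).1 s(s.1, t.1) = x s (Sum.inl t) :=
  glue_apply (rowIdx_injective S) (flat bf) (fun r => x r.1 r.2) (s, Sum.inl t)

theorem glueS_row' (S : Finset α) (bf : (Sym2 α → Bool) × (α → β → Bool))
    (x : S → ({t // t ∉ S} ⊕ β) → Bool) (s : S) (t : {t // t ∉ S}) :
    (glueS S bf x).1 s(t.1, s.1) = x s (Sum.inl t) := by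
  rw [Sym2.eq_swap]; exact glueS_row S bf x s t

theorem glueS_snd (S : Finset α) (bf : (Sym2 α → Bool) × (α → β → Bool))
    (x : S → ({t // t ∉ S} ⊕ β) → Bool) (s : S) (j : β) :
    (glueS S bf x).2 s.1 j = x s (Sum.inr j) :=
  glue_apply (rowIdx_injective S) (flat bf) (fun r => x r.1 r.2) (s, Sum.inr j)

theorem glueS_snd_not (S : Finset α) (bf : (Sym2 α → Bool) × (α → β → Bool))
    (x : S → ({t // t ∉ S} ⊕ β) → Bool) {t : α} (ht : t ∉ S) (j : β) :
    (glueS S bf x).2 t j = bf.2 t j := by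
  refine glue_not (φ := rowIdx S) (flat bf) (fun r => x r.1 r.2) (i := Sum.inr (t, j)) ?_
  rintro ⟨s, t' | j'⟩ h
  · simp [rowIdx] at h
  · simp only [rowIdx, Sum.inr.injEq, Prod.mk.injEq] at h
    exact ht (h.1 ▸ s.2)

theorem glueS_fst_TT (S : Finset α) (bf : (Sym2 α → Bool) × (α → β → Bool))
    (x : S → ({t // t ∉ S} ⊕ β) → Bool) {t t' : α} (ht : t ∉ S) (ht' : t' ∉ S) :
    (glueS S bf x).1 s(t, t') = bf.1 s(t, t') := by
  refine glue_not (φ := rowIdx S) (flat bf) (fun r => x r.1 r.2) (i := Sum.inl s(t, t')) ?_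
  rintro ⟨s, u | j'⟩ h
  · simp only [rowIdx, Sum.inl.injEq, Sym2.eq_iff] at h
    rcases h with ⟨h1, h2⟩ | ⟨h1, h2⟩
    · exact ht (h1 ▸ s.2)
    · exact ht' (h1 ▸ s.2)
  · simp [rowIdx] at h

theorem glueS_fst_SS (S : Finset α) (bf : (Sym2 α → Bool) × (α → β → Bool))
    (x : S → ({t // t ∉ S} ⊕ β) → Bool) {t t' : α} (ht : t ∈ S) (ht' : t' ∈ S) :
    (glueS S bf x).1 s(t, t') = bf.1 s(t, t') := by
  refine glue_not (φ := rowIdx S) (flat bf) (fun r => x r.1 r.2) (i := Sum.inl s(t, t')) ?_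
  rintro ⟨s, u | j'⟩ h
  · simp only [rowIdx, Sum.inl.injEq, Sym2.eq_iff] at h
    rcases h with ⟨h1, h2⟩ | ⟨h1, h2⟩
    · exact u.2 (h2 ▸ ht')
    · exact u.2 (h2 ▸ ht)
  · simp [rowIdx] at h

theorem card_row (S : Finset α) : Fintype.card (S × ({t // t ∉ S} ⊕ β)) =
    Fintype.card ({t // t ∉ S} ⊕ β) * Fintype.card S := by
  rw [Fintype.card_prod, mul_comm]

/-- **fibration, one block**: if for all frozen bits the number of bad rows is at most
`K 2^{|Sᶜ ⊕ β| |S|}`, then the number of bad configurations is at most `K 2^{|Sym2 α| + |α||β|}`. -/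
theorem fib_block (S : Finset α) (Bad : (Sym2 α → Bool) × (α → β → Bool) → Prop) {K : ℝ}
    (hK : ∀ bf : (Sym2 α → Bool) × (α → β → Bool),
      (Nat.card {x : S → ({t // t ∉ S} ⊕ β) → Bool // Bad (glueS S bf x)} : ℝ) ≤
        K * 2 ^ (Fintype.card ({t // t ∉ S} ⊕ β) * Fintype.card S)) :
    (Nat.card {bf : (Sym2 α → Bool) × (α → β → Bool) // Bad bf} : ℝ) ≤
      K * 2 ^ (Fintype.card (Sym2 α) + Fintype.card α * Fintype.card β) := by
  classical
  have h1 := fib (rowIdx_injective (β := β) S) (fun c => Bad (unflat c))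
    (K := K * 2 ^ (Fintype.card ({t // t ∉ S} ⊕ β) * Fintype.card S)) (by
      intro c
      have h2 := hK (unflat c)
      let e : {x : (S × ({t // t ∉ S} ⊕ β)) → Bool // Bad (unflat (glue (rowIdx S) c x))} ≃
          {x : S → ({t // t ∉ S} ⊕ β) → Bool // Bad (glueS S (unflat c) x)} :=
        (Equiv.curry S ({t // t ∉ S} ⊕ β) Bool).subtypeEquiv (fun x => by
          unfold glueS
          rw [flat_unflat]
          rfl)
      rw [Nat.card_congr e]
      exact h2)
  have e2 : Nat.card {c : Sym2 α ⊕ (α × β) → Bool // Bad (unflat c)} =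
      Nat.card {bf : (Sym2 α → Bool) × (α → β → Bool) // Bad bf} := by
    refine Nat.card_congr (Equiv.subtypeEquiv ⟨unflat, flat, flat_unflat, unflat_flat⟩ ?_)
    intro c
    rfl
  rw [e2, card_row] at h1
  have h3 : Fintype.card (Sym2 α ⊕ (α × β)) = Fintype.card (Sym2 α) + Fintype.card α * Fintype.card β := by
    rw [Fintype.card_sum, Fintype.card_prod]
  rw [h3] at h1
  have hpos : (0 : ℝ) < 2 ^ (Fintype.card ({t // t ∉ S} ⊕ β) * Fintype.card S) := by positivity
  refine le_of_mul_le_mul_right (h1.trans (le_of_eq ?_)) hpos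
  ring

/-- **fibration, union over the blocks**. -/
theorem fib_union (P : Finset α → Prop) (Bad : Finset α → (Sym2 α → Bool) × (α → β → Bool) → Prop)
    {K : ℝ} (hK0 : 0 ≤ K)
    (hK : ∀ S, P S → ∀ bf : (Sym2 α → Bool) × (α → β → Bool),
      (Nat.card {x : S → ({t // t ∉ S} ⊕ β) → Bool // Bad S (glueS S bf x)} : ℝ) ≤
        K * 2 ^ (Fintype.card ({t // t ∉ S} ⊕ β) * Fintype.card S)) :
    (Nat.card {bf : (Sym2 α → Bool) × (α → β → Bool) // ∃ S, P S ∧ Bad S bf} : ℝ) ≤
      2 ^ Fintype.card α * K * 2 ^ (Fintype.card (Sym2 α) + Fintype.card α * Fintype.card β) := by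
  classical
  have h1 : Nat.card {bf : (Sym2 α → Bool) × (α → β → Bool) // ∃ S, P S ∧ Bad S bf} ≤
      ∑ S : Finset α, Nat.card {bf : (Sym2 α → Bool) × (α → β → Bool) // P S ∧ Bad S bf} := by
    let f : {bf : (Sym2 α → Bool) × (α → β → Bool) // ∃ S, P S ∧ Bad S bf} →
        Σ S : Finset α, {bf : (Sym2 α → Bool) × (α → β → Bool) // P S ∧ Bad S bf} :=
      fun q => ⟨q.2.choose, ⟨q.1, q.2.choose_spec⟩⟩
    have hf : Function.Injective f := by
      intro q q' h
      have h2 : (f q).2.1 = (f q').2.1 := by rw [h]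
      exact Subtype.ext h2
    have := Nat.card_le_card_of_injective f hf
    rwa [Nat.card_sigma] at this
  calc (Nat.card {bf : (Sym2 α → Bool) × (α → β → Bool) // ∃ S, P S ∧ Bad S bf} : ℝ)
      ≤ ((∑ S : Finset α, Nat.card {bf : (Sym2 α → Bool) × (α → β → Bool) // P S ∧ Bad S bf} : ℕ) : ℝ) := by
        exact_mod_cast h1
    _ = ∑ S : Finset α, (Nat.card {bf : (Sym2 α → Bool) × (α → β → Bool) // P S ∧ Bad S bf} : ℝ) := by
        push_cast; rfl
    _ ≤ ∑ _S : Finset α, K * 2 ^ (Fintype.card (Sym2 α) + Fintype.card α * Fintype.card β) := by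
        refine Finset.sum_le_sum fun S _ => ?_
        by_cases hS : P S
        · simp only [hS, true_and]
          exact fib_block S (Bad S) (hK S hS)
        · simp only [hS, false_and]
          have : Nat.card {bf : (Sym2 α → Bool) × (α → β → Bool) // False} = 0 := by
            rw [Nat.card_eq_zero]; left; exact ⟨fun q => q.2⟩
          rw [this]
          push_cast
          positivity
    _ = _ := by
        rw [Finset.sum_const, nsmul_eq_mul, Finset.card_univ, Fintype.card_finset]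
        push_cast
        ring

end block

end Vale.Agent.P160.Half.Fib801
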