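import Vale.Agent.P160.Half.LabTwo

/-!
# The number of labels

`G` finite abelian group with a symmetric nondegenerate pairing; the number of isotropic cyclic
subgroups of order `v` is at most the product over the primes of `v` of local factors.
-/

namespace Vale.Agent.P160.Half.LabAll

open Finset Vale.Agent.P160.Half.Labels Vale.Agent.P160.Half.LabTwo

variable {G : Type*} [AddCommGroup G] [Fintype G] {N : ℕ} [NeZero N] (b : G →+ G →+ ZMod N)

/-- elements killed by `n` -/
def kil (n : ℕ) (G : Type*) [AddCommGroup G] : AddSubgroup G := (nsmulAddMonoidHom n : G →+ G).ker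

omit [Fintype G] in
theorem mem_kil {n : ℕ} {x : G} : x ∈ kil n G ↔ n • x = 0 := by
  rw [kil, AddMonoidHom.mem_ker]; rfl

theorem card_kil_succ (p a : ℕ) :
    Nat.card (kil (p ^ (a + 1)) G) ≤ Nat.card (kil p G) * Nat.card (kil (p ^ a) G) := by
  classical
  let f : kil (p ^ (a + 1)) G →+ kil (p ^ a) G :=
    AddMonoidHom.mk' (fun x => ⟨p • x.1, by
      rw [mem_kil, ← mul_smul, ← pow_succ]; exact mem_kil.mp x.2⟩) (by
      intro x y; apply Subtype.ext; simp)
  have h1 : Nat.card (kil (p ^ (a + 1)) G) = Nat.card f.ker * Nat.card f.range := by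
    rw [AddSubgroup.card_eq_card_quotient_mul_card_addSubgroup f.ker, mul_comm]
    congr 1
    exact Nat.card_congr (QuotientAddGroup.quotientKerEquivRange f).toEquiv
  rw [h1]
  apply Nat.mul_le_mul
  · let g : f.ker → kil p G := fun x => ⟨x.1.1, by
      rw [mem_kil]
      have := x.2
      rw [AddMonoidHom.mem_ker] at this
      exact congrArg Subtype.val this⟩
    apply Nat.card_le_card_of_injective g
    intro x y hxy
    apply Subtype.ext; apply Subtype.ext
    have h2 : (g x).1 = (g y).1 := congrArg Subtype.val hxy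
    exact h2
  · exact Nat.card_le_card_of_injective _ Subtype.val_injective

theorem card_kil_pow {p : ℕ} (hk : Nat.card (kil p G) ≤ p) (a : ℕ) :
    Nat.card (kil (p ^ a) G) ≤ p ^ a := by
  induction a with
  | zero =>
    have : kil (p ^ 0) G = ⊥ := by
      ext x; rw [mem_kil]; simp
    rw [this]; simp
  | succ a ih =>
    calc _ ≤ Nat.card (kil p G) * Nat.card (kil (p ^ a) G) := card_kil_succ p a
      _ ≤ p * p ^ a := Nat.mul_le_mul hk ih
      _ = p ^ (a + 1) := by rw [pow_succ]; ring

/-- cyclic `p`-part: the subgroup generated by an element of order `p ^ a` is unique -/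
theorem cyc_unique {p : ℕ} (hk : Nat.card (kil p G) ≤ p) {a : ℕ} {h : G}
    (ho : addOrderOf h = p ^ a) : AddSubgroup.zmultiples h = kil (p ^ a) G := by
  apply AddSubgroup.eq_of_le_of_card_ge
  · rw [AddSubgroup.zmultiples_le, mem_kil, ← ho]; exact addOrderOf_nsmul_eq_zero h
  · rw [Nat.card_zmultiples, ho]; exact card_kil_pow hk a

/-- the local label set -/
def loc (v p : ℕ) : Set (AddSubgroup G) :=
  {Q | Q ≤ prim G p ∧ ∃ h : G, addOrderOf h = p ^ v.factorization p ∧ b h h = 0 ∧
    Q = AddSubgroup.zmultiples h}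

/-- the global label set -/
def glob (v : ℕ) : Set (AddSubgroup G) :=
  {Q | ∃ h : G, addOrderOf h = v ∧ b h h = 0 ∧ Q = AddSubgroup.zmultiples h}

/-- the local bound -/
noncomputable def mloc (G : Type*) [AddCommGroup G] (v p : ℕ) : ℕ :=
  if Nat.card (kil p G) ≤ p then 1
  else if p ≠ 2 ∧ (Nat.card G).factorization p ≤ 2 * v.factorization p then 2
  else 4 * (v.factorization p + 1) * p ^ ((Nat.card G).factorization p - 2 * v.factorization p)

theorem loc_card (hs : ∀ x y, b x y = b y x) (hn : ∀ x, (∀ y, b x y = 0) → x = 0) (v : ℕ)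
    {p : ℕ} (hp : p.Prime) : (loc b v p).ncard ≤ mloc G v p := by
  classical
  have hfin : (loc b v p).Finite := Set.toFinite _
  rw [Set.ncard_eq_toFinset_card _ hfin]
  set S := hfin.toFinset with hSdef
  have hS : ∀ Q ∈ S, Q ≤ prim G p ∧ ∃ h : G, addOrderOf h = p ^ v.factorization p ∧ b h h = 0 ∧
    Q = AddSubgroup.zmultiples h := by
    intro Q hQ
    rw [hSdef, Set.Finite.mem_toFinset] at hQ; exact hQ
  set a := v.factorization p with ha
  unfold mloc
  split_ifs with h1 h2
  · rw [Finset.card_le_one]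
    intro Q hQ Q' hQ'
    obtain ⟨-, h, ho, -, rfl⟩ := hS Q hQ
    obtain ⟨-, h', ho', -, rfl⟩ := hS Q' hQ'
    rw [cyc_unique h1 ho, cyc_unique h1 ho']
  · -- two Lagrangians in the primary part
    set A := prim G p with hA
    let S' : Finset (AddSubgroup A) := S.image (fun Q => Q.addSubgroupOf A)
    have hinj : Set.InjOn (fun Q : AddSubgroup G => Q.addSubgroupOf A) S := by
      intro Q hQ Q' hQ' hQQ
      have h1 : (Q.addSubgroupOf A).map A.subtype = (Q'.addSubgroupOf A).map A.subtype := by
        simp only at hQQ; rw [hQQ]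
      rw [AddSubgroup.addSubgroupOf_map_subtype, AddSubgroup.addSubgroupOf_map_subtype,
        inf_eq_left.mpr (hS Q hQ).1, inf_eq_left.mpr (hS Q' hQ').1] at h1
      exact h1
    have hcard : S'.card = S.card := Finset.card_image_of_injOn hinj
    rw [← hcard]
    apply two_lag (G := A) (resPair b A) (fun x y => by simp [hs x.1 y.1])
      (prim_nondeg b hp hn) hp h2.1 (a := a)
    · rw [← pow_add]
      refine (prim_card_le hp).trans (Nat.pow_le_pow_right hp.pos ?_)
      have := h2.2; omega
    · intro Q' hQ'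
      obtain ⟨Q, hQ, rfl⟩ := Finset.mem_image.mp hQ'
      obtain ⟨hle, h, ho, hi, rfl⟩ := hS Q hQ
      have hmem : h ∈ A := hle (AddSubgroup.mem_zmultiples h)
      refine ⟨⟨h, hmem⟩, ?_, ?_, ?_⟩
      · rw [← ho]
        exact (addOrderOf_injective A.subtype A.subtype_injective ⟨h, hmem⟩).symm
      · rw [resPair_apply]; exact hi
      · ext x
        rw [AddSubgroup.mem_addSubgroupOf, AddSubgroup.mem_zmultiples_iff,
          AddSubgroup.mem_zmultiples_iff]
        constructor
        · rintro ⟨k, hk⟩; exact ⟨k, by apply Subtype.ext; simpa using hk⟩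
        · rintro ⟨k, hk⟩; exact ⟨k, by rw [← hk]; simp⟩
  · have key := lab_count_prime b hs hn hp a 0 S (by
      intro Q hQ
      obtain ⟨-, h, -, hi, rfl⟩ := hS Q hQ
      exact iso_zmultiples b hi) (fun Q hQ => (hS Q hQ).1) (by
      intro Q hQ
      obtain ⟨-, h, ho, -, rfl⟩ := hS Q hQ
      refine ⟨h, ho, fun _ => 0, ?_⟩
      rw [Set.range_eq_empty, insert_empty_eq, AddSubgroup.zmultiples_eq_closure])
    rw [zero_add, pow_one, pow_one] at key
    rcases le_or_gt (2 * a) ((Nat.card G).factorization p) with hle | hlt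
    · have hsplit : p ^ (Nat.card G).factorization p
          = p ^ ((Nat.card G).factorization p - 2 * a) * p ^ (2 * a) := by
        rw [← pow_add]; congr 1; omega
      rw [hsplit, ← mul_assoc] at key
      exact Nat.le_of_mul_le_mul_right key (pow_pos hp.pos _)
    · rw [Nat.sub_eq_zero_of_le hlt.le, pow_zero, mul_one]
      have h3 : 4 * (a + 1) * p ^ (Nat.card G).factorization p ≤ 4 * (a + 1) * p ^ (2 * a) :=
        Nat.mul_le_mul_left _ (Nat.pow_le_pow_right hp.pos hlt.le)
      exact Nat.le_of_mul_le_mul_right (key.trans h3) (pow_pos hp.pos _)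

theorem inf_prim {v p : ℕ} (hp : p.Prime) {h : G} (ho : addOrderOf h = v) :
    AddSubgroup.zmultiples h ⊓ prim G p
      = AddSubgroup.zmultiples ((v / p ^ v.factorization p) • h) ∧
      addOrderOf ((v / p ^ v.factorization p) • h) = p ^ v.factorization p := by
  classical
  have hvpos : v ≠ 0 := by rw [← ho]; exact (addOrderOf_pos h).ne'
  set a := v.factorization p with ha
  set m := v / p ^ a with hm
  have hvm : p ^ a * m = v := Nat.ordProj_mul_ordCompl_eq_self v p
  have hmpos : 0 < m := Nat.pos_of_ne_zero (by rintro h0; rw [h0, mul_zero] at hvm; exact hvpos hvm.symm)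
  have hcop : Nat.Coprime p m := Nat.coprime_ordCompl hp hvpos
  have hord : addOrderOf (m • h) = p ^ a := by
    rw [addOrderOf_nsmul (x := h) (n := m) |>.trans ?_]
    rw [ho]
    have : Nat.gcd v m = m := Nat.gcd_eq_right ⟨p ^ a, by rw [← hvm]; ring⟩
    rw [this]
    exact Nat.div_eq_of_eq_mul_left hmpos (by rw [← hvm])
  refine ⟨?_, hord⟩
  have hdvd : v ∣ Nat.card G := by rw [← ho]; exact addOrderOf_dvd_natCard h
  have hale : a ≤ (Nat.card G).factorization p := by
    rw [ha]
    exact (Nat.factorization_le_iff_dvd hvpos Nat.card_pos.ne').mpr hdvd p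
  apply le_antisymm
  · intro x hx
    obtain ⟨hx1, hx2⟩ := AddSubgroup.mem_inf.mp hx
    obtain ⟨k, rfl⟩ := AddSubgroup.mem_zmultiples_iff.mp hx1
    rw [mem_prim, ← natCast_zsmul, smul_smul, ← addOrderOf_dvd_iff_zsmul_eq_zero, ho] at hx2
    have h1 : (m : ℤ) ∣ (p : ℤ) ^ (Nat.card G).factorization p * k := by
      refine dvd_trans ?_ (by exact_mod_cast hx2)
      exact Int.natCast_dvd_natCast.mpr ⟨p ^ a, by rw [← hvm]; ring⟩
    have h2 : (m : ℤ) ∣ k := by
      refine IsCoprime.dvd_of_dvd_mul_left ?_ h1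
      apply IsCoprime.pow_right
      exact (Nat.isCoprime_iff_coprime.mpr hcop).symm
    obtain ⟨l, rfl⟩ := h2
    rw [AddSubgroup.mem_zmultiples_iff]
    exact ⟨l, by rw [← natCast_zsmul, smul_smul]; congr 1; ring⟩
  · rw [AddSubgroup.zmultiples_le, AddSubgroup.mem_inf]
    refine ⟨AddSubgroup.nsmul_mem _ (AddSubgroup.mem_zmultiples h) _, ?_⟩
    rw [mem_prim, ← addOrderOf_dvd_iff_nsmul_eq_zero, hord]
    exact pow_dvd_pow p hale

omit [NeZero N] in
theorem glob_inj {v : ℕ} {Q Q' : AddSubgroup G} (hQ : Q ∈ glob b v)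
    (h : ∀ p ∈ v.primeFactors, Q ⊓ prim G p = Q' ⊓ prim G p) : Q ≤ Q' := by
  classical
  obtain ⟨g, ho, -, rfl⟩ := hQ
  have hvpos : v ≠ 0 := by rw [← ho]; exact (addOrderOf_pos g).ne'
  rw [AddSubgroup.zmultiples_le]
  set n := addOrderOf (QuotientAddGroup.mk g : G ⧸ Q') with hn
  have key : ∀ k : ℕ, k • g ∈ Q' → n ∣ k := by
    intro k hk
    rw [hn, addOrderOf_dvd_iff_nsmul_eq_zero]
    rw [← QuotientAddGroup.mk_nsmul, QuotientAddGroup.eq_zero_iff]; exact hk
  have hnv : n ∣ v := key v (by rw [← ho, addOrderOf_nsmul_eq_zero]; exact AddSubgroup.zero_mem _)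
  have hn1 : n = 1 := by
    by_contra hne
    obtain ⟨r, hr, hrn⟩ := Nat.exists_prime_and_dvd hne
    have hrv : r ∈ v.primeFactors := Nat.mem_primeFactors.mpr ⟨hr, hrn.trans hnv, hvpos⟩
    have h1 : (v / r ^ v.factorization r) • g ∈ Q' := by
      have h2 : (v / r ^ v.factorization r) • g ∈ AddSubgroup.zmultiples g ⊓ prim G r := by
        rw [(inf_prim hr ho).1]; exact AddSubgroup.mem_zmultiples _
      rw [h r hrv] at h2
      exact (AddSubgroup.mem_inf.mp h2).1
    exact Nat.not_dvd_ordCompl hr hvpos (hrn.trans (key _ h1))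
  rw [hn, AddMonoid.addOrderOf_eq_one_iff, QuotientAddGroup.eq_zero_iff] at hn1
  exact hn1

/-- **the number of labels** -/
theorem glob_card (hs : ∀ x y, b x y = b y x) (hn : ∀ x, (∀ y, b x y = 0) → x = 0) (v : ℕ) :
    (glob b v).ncard ≤ ∏ p ∈ v.primeFactors, mloc G v p := by
  classical
  have hfin : (glob b v).Finite := Set.toFinite _
  have hfl : ∀ p, (loc b v p).Finite := fun p => Set.toFinite _
  rw [Set.ncard_eq_toFinset_card _ hfin]
  calc hfin.toFinset.card
      ≤ (v.primeFactors.pi (fun p => (hfl p).toFinset)).card := by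
        apply Finset.card_le_card_of_injOn (fun Q p _ => Q ⊓ prim G p)
        · intro Q hQ
          rw [Finset.mem_coe, Set.Finite.mem_toFinset] at hQ
          rw [Finset.mem_coe, Finset.mem_pi]
          intro p hp
          rw [Set.Finite.mem_toFinset]
          obtain ⟨g, ho, hi, rfl⟩ := hQ
          have hp' := Nat.prime_of_mem_primeFactors hp
          refine ⟨inf_le_right, (v / p ^ v.factorization p) • g, (inf_prim hp' ho).2, ?_,
            (inf_prim hp' ho).1⟩
          rw [map_nsmul, map_nsmul, AddMonoidHom.nsmul_apply, hi]; simp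
        · intro Q hQ Q' hQ' hQQ
          rw [Finset.mem_coe, Set.Finite.mem_toFinset] at hQ hQ'
          have h1 : ∀ p ∈ v.primeFactors, Q ⊓ prim G p = Q' ⊓ prim G p := by
            intro p hp
            exact congrFun (congrFun hQQ p) hp
          exact le_antisymm (glob_inj b hQ h1) (glob_inj b hQ' (fun p hp => (h1 p hp).symm))
    _ = ∏ p ∈ v.primeFactors, (hfl p).toFinset.card := Finset.card_pi _ _
    _ ≤ ∏ p ∈ v.primeFactors, mloc G v p := by
        apply Finset.prod_le_prod' 
        intro p hp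
        rw [← Set.ncard_eq_toFinset_card _ (hfl p)]
        exact loc_card b hs hn v (Nat.prime_of_mem_primeFactors hp)

end Vale.Agent.P160.Half.LabAll
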