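import Vale.Agent.P160.Half.LabMax
import Vale.Agent.P160.Half.LabAll

/-! # P160, final assembly: count of vectors with few nontrivial hyperbolic primes (helper201)

`G` finite abelian with a symmetric nondegenerate pairing, `S` special primes, `T` primes at which the
vectors are trivial or generate a Lagrangian; outside `S ∪ T` the primary parts are cyclic. A vector which
is trivial at `p ∈ T` lies in all the (at most two) Lagrangians, so the trivial primes are free. -/

set_option linter.unusedSectionVars false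

namespace Vale.Agent.P160.Half.LabVec

open Finset Vale.Agent.P160.Half.Labels Vale.Agent.P160.Half.LabMax Vale.Agent.P160.Half.LabTwo
  Vale.Agent.P160.Half.LabAll

variable {G : Type*} [AddCommGroup G] [Fintype G] {N : ℕ} [NeZero N] (b : G →+ G →+ ZMod N)

/-- the subgroup of a choice -/
noncomputable def K (S : Finset ℕ) (hc : IsAddCyclic (Fr G S))
    (C : (p : ℕ) → p ∈ S → AddSubgroup G) : AddSubgroup G :=
  (S.attach.sup fun p => C p.1 p.2) ⊔ Iso b S hc

theorem K_iso (hs : ∀ x y, b x y = b y x) (S : Finset ℕ) (hS : ∀ p ∈ S, p.Prime)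
    (hc : IsAddCyclic (Fr G S)) (C : (p : ℕ) → p ∈ S → AddSubgroup G)
    (hC1 : ∀ p (hp : p ∈ S), C p hp ≤ prim G p)
    (hC2 : ∀ p (hp : p ∈ S), ∀ x ∈ C p hp, ∀ y ∈ C p hp, b x y = 0) :
    ∀ x ∈ K b S hc C, ∀ y ∈ K b S hc C, b x y = 0 := by
  classical
  have h1 : ∀ p (hp : p ∈ S) q (hq : q ∈ S), C p hp ≤ perp b (C q hq) := by
    intro p hp q hq x hx
    rw [mem_perp]
    intro y hy
    by_cases hpq : p = q
    · subst hpq
      exact hC2 p hp x hx y hy
    · have hx' := mem_prim.1 (hC1 p hp hx)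
      have hy' := mem_prim.1 (hC1 q hq hy)
      exact orth_of_coprime b (((Nat.coprime_primes (hS p hp) (hS q hq)).2 hpq).pow _ _) hx' hy'
  have h2 : ∀ p (hp : p ∈ S), C p hp ≤ perp b (Iso b S hc) := by
    intro p hp x hx
    rw [mem_perp]
    intro y hy
    have hx' := mem_prim.1 (hC1 p hp hx)
    have hy' := mem_Fr.1 hy.1 p hp
    exact orth_of_coprime b ((Nat.coprime_ordCompl (hS p hp) Nat.card_pos.ne').pow_left _) hx' hy'
  have h3 : Iso b S hc ≤ perp b (Iso b S hc) := by
    intro x hx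
    rw [mem_perp]
    intro y hy
    exact orth_of_cyclic b S hc hx.1 hy.1 hx.2 hy.2
  have hflip : ∀ A B : AddSubgroup G, A ≤ perp b B → B ≤ perp b A := by
    intro A B hAB y hy
    rw [mem_perp]
    intro x hx
    rw [hs]
    exact (mem_perp b).1 (hAB hx) y hy
  have h4 : ∀ q (hq : q ∈ S), K b S hc C ≤ perp b (C q hq) := by
    intro q hq
    refine sup_le (Finset.sup_le fun p _ => h1 p.1 p.2 q hq) (hflip _ _ (h2 q hq))
  have h5 : K b S hc C ≤ perp b (Iso b S hc) :=
    sup_le (Finset.sup_le fun p _ => h2 p.1 p.2) h3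
  have h6 : K b S hc C ≤ perp b (K b S hc C) :=
    sup_le (Finset.sup_le fun p _ => hflip _ _ (h4 p.1 p.2)) (hflip _ _ h5)
  intro x hx y hy
  exact (mem_perp b).1 (h6 hx) y hy

theorem mem_K (S : Finset ℕ) (hS : ∀ p ∈ S, p.Prime)
    (hc : IsAddCyclic (Fr G S)) (C : (p : ℕ) → p ∈ S → AddSubgroup G) {x : G} (hxx : b x x = 0)
    (k : ℕ → ℕ) (hk1 : ∀ p ∈ S, k p • x ∈ prim G p)
    (hk2 : ∀ p ∈ S, (Nat.card G / p ^ (Nat.card G).factorization p) • (x - k p • x) = 0)
    (hC : ∀ p (hp : p ∈ S), k p • x ∈ C p hp) : x ∈ K b S hc C := by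
  classical
  set w := x - ∑ p ∈ S, k p • x with hw
  have hwF : w ∈ Fr G S := by
    rw [mem_Fr]
    intro p hp
    have h1 : w = (x - k p • x) - ∑ q ∈ S.erase p, k q • x := by
      rw [hw, ← Finset.add_sum_erase S _ hp]; abel
    rw [h1, smul_sub, hk2 p hp, zero_sub, neg_eq_zero, Finset.smul_sum]
    refine sum_eq_zero fun q hq => ?_
    have hqS := mem_of_mem_erase hq
    have hqp := ne_of_mem_erase hq
    have h2 := mem_prim.1 (hk1 q hqS)
    have h3 : q ^ (Nat.card G).factorization q ∣ Nat.card G / p ^ (Nat.card G).factorization p := by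
      have h4 : q ^ (Nat.card G).factorization q ∣
          p ^ (Nat.card G).factorization p * (Nat.card G / p ^ (Nat.card G).factorization p) := by
        rw [Nat.ordProj_mul_ordCompl_eq_self]; exact Nat.ordProj_dvd _ _
      exact (((Nat.coprime_primes (hS q hqS) (hS p hp)).2 hqp).pow _ _).dvd_of_dvd_mul_left h4
    obtain ⟨c, hc'⟩ := h3
    rw [hc', mul_comm, mul_nsmul', h2, smul_zero]
  have hww : b w w = 0 := by
    have h1 : w = ((1 : ℤ) - ((∑ p ∈ S, k p : ℕ) : ℤ)) • x := by
      rw [hw, sub_smul, one_smul, natCast_zsmul, Finset.sum_smul]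
    rw [h1, map_zsmul, map_zsmul, AddMonoidHom.zsmul_apply, hxx, smul_zero, smul_zero]
  have hxw : x = (∑ p ∈ S.attach, k p.1 • x) + w := by
    rw [hw, Finset.sum_attach S (fun p => k p • x)]; abel
  rw [hxw]
  refine AddSubgroup.add_mem _ ?_ ?_
  · refine AddSubgroup.mem_sup_left ?_
    refine AddSubgroup.sum_mem _ fun p _ => ?_
    have : C p.1 p.2 ≤ S.attach.sup fun p => C p.1 p.2 :=
      Finset.le_sup (f := fun p : S => C p.1 p.2) (mem_attach S p)
    exact this (hC p.1 p.2)
  · exact AddSubgroup.mem_sup_right ⟨hwF, hww⟩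

/-- Lagrangian choices at `p` -/
noncomputable def Lag (p : ℕ) : Finset (AddSubgroup G) := by
  classical
  exact if p ≠ 2 ∧ (Nat.card G).factorization p = 2 * ((Nat.card G).factorization p / 2) ∧
    (Tp b p ((Nat.card G).factorization p / 2)).Nonempty then
      Tp b p ((Nat.card G).factorization p / 2) else {⊥}

theorem Tp_lag_card (hs : ∀ x y, b x y = b y x) (hn : ∀ x, (∀ y, b x y = 0) → x = 0) {p : ℕ}
    (hp : p.Prime) (hp2 : p ≠ 2) {a : ℕ} (ha : (Nat.card G).factorization p = 2 * a) :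
    (Tp b p a).card ≤ 2 := by
  classical
  set S := Tp b p a with hSdef
  have hS : ∀ Q ∈ S, Q ≤ prim G p ∧ ∃ h : G, addOrderOf h = p ^ a ∧ b h h = 0 ∧
    Q = AddSubgroup.zmultiples h := by
    intro Q hQ
    rw [hSdef] at hQ
    obtain ⟨h1, h2, h, ho, rfl⟩ := (mem_Tp b).1 hQ
    refine ⟨h1, h, ho, ?_, ?_⟩
    · exact h2 h (AddSubgroup.subset_closure rfl) h (AddSubgroup.subset_closure rfl)
    · rw [AddSubgroup.zmultiples_eq_closure]
  set A := prim G p with hA
  let S' : Finset (AddSubgroup A) := S.image (fun Q => Q.addSubgroupOf A)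
  have hinj : Set.InjOn (fun Q : AddSubgroup G => Q.addSubgroupOf A) S := by
    intro Q hQ Q' hQ' hQQ
    have h1 : (Q.addSubgroupOf A).map A.subtype = (Q'.addSubgroupOf A).map A.subtype := by
      simp only at hQQ; rw [hQQ]
    rw [AddSubgroup.addSubgroupOf_map_subtype, AddSubgroup.addSubgroupOf_map_subtype,
      inf_eq_left.mpr (hS Q hQ).1, inf_eq_left.mpr (hS Q' hQ').1] at h1
    exact h1
  have hcard : S'.card = S.card := Finset.card_image_of_injOn hinj
  rw [← hcard]
  apply two_lag (G := A) (resPair b A) (fun x y => by simp [hs x.1 y.1])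
    (prim_nondeg b hp hn) hp hp2 (a := a)
  · rw [← pow_add]
    refine (prim_card_le hp).trans (Nat.pow_le_pow_right hp.pos ?_)
    omega
  · intro Q' hQ'
    obtain ⟨Q, hQ, rfl⟩ := Finset.mem_image.mp hQ'
    obtain ⟨hle, h, ho, hi, rfl⟩ := hS Q hQ
    have hmem : h ∈ A := hle (AddSubgroup.mem_zmultiples h)
    refine ⟨⟨h, hmem⟩, ?_, ?_, ?_⟩
    · rw [← ho]
      exact (addOrderOf_injective A.subtype A.subtype_injective ⟨h, hmem⟩).symm
    · rw [resPair_apply]; exact hi
    · ext x
      rw [AddSubgroup.mem_addSubgroupOf, AddSubgroup.mem_zmultiples_iff,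
        AddSubgroup.mem_zmultiples_iff]
      constructor
      · rintro ⟨k, hk⟩; exact ⟨k, by apply Subtype.ext; simpa using hk⟩
      · rintro ⟨k, hk⟩; exact ⟨k, by rw [← hk]; simp⟩

theorem Lag_nonempty (p : ℕ) : (Lag b p).Nonempty := by
  classical
  unfold Lag
  split_ifs with h
  · exact h.2.2
  · exact ⟨⊥, mem_singleton_self _⟩

theorem Lag_card (hs : ∀ x y, b x y = b y x) (hn : ∀ x, (∀ y, b x y = 0) → x = 0) {p : ℕ}
    (hp : p.Prime) : (Lag b p).card ≤ 2 := by
  classical
  unfold Lag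
  split_ifs with h
  · exact Tp_lag_card b hs hn hp h.1 h.2.1
  · simp

theorem Lag_spec {p : ℕ} {Q : AddSubgroup G} (hQ : Q ∈ Lag b p) :
    Q ≤ prim G p ∧ ∀ x ∈ Q, ∀ y ∈ Q, b x y = 0 := by
  classical
  unfold Lag at hQ
  split_ifs at hQ with h
  · exact ⟨((mem_Tp b).1 hQ).1, ((mem_Tp b).1 hQ).2.1⟩
  · rw [mem_singleton] at hQ
    subst hQ
    refine ⟨bot_le, ?_⟩
    intro x hx y hy
    rw [AddSubgroup.mem_bot] at hx
    rw [hx]; simp

/-- **(7)** count of vectors. -/
theorem vec_count (hs : ∀ x y, b x y = b y x) (hn : ∀ x, (∀ y, b x y = 0) → x = 0)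
    (S T : Finset ℕ) (hST : Disjoint S T) (hS : ∀ p ∈ S ∪ T, p.Prime)
    (h : ∀ p : ℕ, p.Prime → p ∉ S ∪ T → Nat.card {x : G // p • x = 0} ≤ p)
    (a : ℕ → ℕ) (t M : ℕ) {α : Type*} (Y : Finset α) (g : α → G)
    (hM : ∀ L : AddSubgroup G, (∀ x ∈ L, ∀ y ∈ L, b x y = 0) →
      Nat.card {y : α // y ∈ Y ∧ g y ∈ L} ≤ M)
    (hiso : ∀ y ∈ Y, b (g y) (g y) = 0)
    (ha : ∀ y ∈ Y, ∀ p ∈ S, (addOrderOf (g y)).factorization p = a p)
    (hT : ∀ y ∈ Y, ∀ p ∈ T, p ∣ addOrderOf (g y) → p ≠ 2 ∧
      (Nat.card G).factorization p = 2 * (addOrderOf (g y)).factorization p)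
    (ht : ∀ y ∈ Y, (T.filter (fun p => p ∣ addOrderOf (g y))).card ≤ t) :
    Y.card ≤ 2 ^ t * (∏ p ∈ S, (Tp b p (a p)).card) * M := by
  classical
  have hc := Fr_cyclic (G := G) (S ∪ T) hS h
  rcases Y.eq_empty_or_nonempty with hYe | ⟨y0, hy0⟩
  · rw [hYe]; simp
  set D : ℕ → Finset (AddSubgroup G) := fun p => if p ∈ T then Lag b p else Tp b p (a p) with hD
  set CC := (S ∪ T).pi D with hCC
  -- components
  have hcomp : ∀ x : G, ∀ p ∈ S ∪ T, ∃ k : ℕ, k • x ∈ prim G p ∧
      (Nat.card G / p ^ (Nat.card G).factorization p) • (x - k • x) = 0 ∧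
      addOrderOf (k • x) = p ^ (addOrderOf x).factorization p :=
    fun x p hp => exists_comp (hS p hp) x
  choose! k hk1 hk2 hk3 using hcomp
  -- the cyclic group of the component is in `Tp`
  have hcl : ∀ x : G, b x x = 0 → ∀ p ∈ S ∪ T,
      AddSubgroup.closure {k x p • x} ∈ Tp b p ((addOrderOf x).factorization p) := by
    intro x hxx p hp
    rw [mem_Tp]
    have hxk : ∀ z ∈ AddSubgroup.closure ({k x p • x} : Set G), ∃ t : ℤ, z = t • x := by
      intro z hz
      rw [AddSubgroup.mem_closure_singleton] at hz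
      obtain ⟨t, rfl⟩ := hz
      exact ⟨t * k x p, by rw [mul_zsmul, natCast_zsmul]⟩
    refine ⟨?_, ?_, k x p • x, hk3 x p hp, rfl⟩
    · rw [AddSubgroup.closure_le]
      intro z hz
      rw [Set.mem_singleton_iff.1 hz]
      exact hk1 x p hp
    · intro y hy z hz
      obtain ⟨s, rfl⟩ := hxk y hy
      obtain ⟨t, rfl⟩ := hxk z hz
      rw [map_zsmul, map_zsmul, AddMonoidHom.zsmul_apply, hxx, smul_zero, smul_zero]
  set E : α → ℕ → Finset (AddSubgroup G) := fun y p =>
    if p ∈ T ∧ ¬ p ∣ addOrderOf (g y) then D p else {AddSubgroup.closure {k (g y) p • g y}} with hE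
  have hmemD : ∀ y ∈ Y, ∀ p ∈ S ∪ T, ¬ (p ∈ T ∧ ¬ p ∣ addOrderOf (g y)) →
      AddSubgroup.closure {k (g y) p • g y} ∈ D p := by
    intro y hy p hp hpe
    have h1 := hcl (g y) (hiso y hy) p hp
    simp only [hD]
    split_ifs with hpT
    · have hdvd : p ∣ addOrderOf (g y) := by
        by_contra hcon; exact hpe ⟨hpT, hcon⟩
      obtain ⟨hp2, hf⟩ := hT y hy p hpT hdvd
      have hhalf : (Nat.card G).factorization p / 2 = (addOrderOf (g y)).factorization p := by omega
      unfold Lag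
      rw [if_pos ⟨hp2, by omega, by rw [hhalf]; exact ⟨_, h1⟩⟩, hhalf]
      exact h1
    · have hpS : p ∈ S := by
        rcases mem_union.1 hp with h | h
        · exact h
        · exact absurd h hpT
      rw [← ha y hy p hpS]; exact h1
  -- lower bound for the number of choices
  have hlow : ∀ y ∈ Y, CC.card ≤ (CC.filter fun C => g y ∈ K b (S ∪ T) hc C).card *
      (2 ^ t * ∏ p ∈ S, (Tp b p (a p)).card) := by
    intro y hy
    have h1 : ((S ∪ T).pi (E y)).card ≤ (CC.filter fun C => g y ∈ K b (S ∪ T) hc C).card := by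
      apply Finset.card_le_card
      intro C hC
      rw [mem_pi] at hC
      rw [mem_filter]
      have hCD : ∀ p (hp : p ∈ S ∪ T), C p hp ∈ D p := by
        intro p hp
        have h2 := hC p hp
        simp only [hE] at h2
        split_ifs at h2 with h3
        · exact h2
        · rw [mem_singleton] at h2
          rw [h2]
          exact hmemD y hy p hp h3
      refine ⟨mem_pi.2 hCD, ?_⟩
      apply mem_K b (S ∪ T) hS hc C (hiso y hy) (k (g y)) (hk1 (g y)) (hk2 (g y))
      intro p hp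
      have h2 := hC p hp
      simp only [hE] at h2
      split_ifs at h2 with h3
      · -- trivial component
        have h4 : addOrderOf (k (g y) p • g y) = 1 := by
          rw [hk3 (g y) p hp, Nat.factorization_eq_zero_of_not_dvd h3.2, pow_zero]
        rw [AddMonoid.addOrderOf_eq_one_iff] at h4
        rw [h4]; exact AddSubgroup.zero_mem _
      · rw [mem_singleton] at h2
        rw [h2]; exact AddSubgroup.subset_closure rfl
    have h2 : CC.card ≤ ((S ∪ T).pi (E y)).card * (2 ^ t * ∏ p ∈ S, (Tp b p (a p)).card) := by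
      rw [hCC, card_pi, card_pi]
      set f : ℕ → ℕ := fun p => if p ∈ T then (if p ∣ addOrderOf (g y) then 2 else 1)
        else (Tp b p (a p)).card with hf
      have h3 : ∏ p ∈ S ∪ T, (D p).card ≤ ∏ p ∈ S ∪ T, ((E y p).card * f p) := by
        apply Finset.prod_le_prod'
        intro p hp
        simp only [hE, hf, hD]
        by_cases hpT : p ∈ T
        · by_cases hd : p ∣ addOrderOf (g y)
          · simp only [hpT, hd, not_true_eq_false, and_false, if_false, if_true, card_singleton,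
              one_mul]
            exact Lag_card b hs hn (hS p hp)
          · simp [hpT, hd]
        · simp [hpT]
      refine h3.trans ?_
      rw [prod_mul_distrib]
      apply Nat.mul_le_mul_left
      rw [prod_union hST, mul_comm]
      apply Nat.mul_le_mul
      · have h4 : ∏ p ∈ T, f p = ∏ p ∈ T, (if p ∣ addOrderOf (g y) then 2 else 1) := by
          apply prod_congr rfl
          intro p hp
          simp only [hf, hp, if_true]
        rw [h4, prod_ite, prod_const, prod_const, one_pow, mul_one]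
        exact Nat.pow_le_pow_right (by norm_num) (ht y hy)
      · apply le_of_eq
        apply prod_congr rfl
        intro p hp
        have : p ∉ T := fun h => (Finset.disjoint_left.1 hST hp) h
        simp only [hf, this, if_false]
    exact h2.trans (Nat.mul_le_mul_right _ h1)
  -- upper bound
  have hup : ∀ C ∈ CC, (Y.filter fun y => g y ∈ K b (S ∪ T) hc C).card ≤ M := by
    intro C hC
    rw [hCC, mem_pi] at hC
    have hsp : ∀ p (hp : p ∈ S ∪ T), C p hp ≤ prim G p ∧
        ∀ x ∈ C p hp, ∀ y ∈ C p hp, b x y = 0 := by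
      intro p hp
      have h2 := hC p hp
      simp only [hD] at h2
      split_ifs at h2 with h3
      · exact Lag_spec b h2
      · exact ⟨((mem_Tp b).1 h2).1, ((mem_Tp b).1 h2).2.1⟩
    have h3 := hM (K b (S ∪ T) hc C) (K_iso b hs (S ∪ T) hS hc C (fun p hp => (hsp p hp).1)
      (fun p hp => (hsp p hp).2))
    refine le_trans (le_of_eq ?_) h3
    have e : {y : α // y ∈ Y ∧ g y ∈ K b (S ∪ T) hc C} ≃
        (Y.filter fun y => g y ∈ K b (S ∪ T) hc C) :=
      Equiv.subtypeEquivRight (fun y => by rw [mem_filter])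
    rw [Nat.card_congr e, Nat.card_eq_fintype_card, Fintype.card_coe]
  have hsum : ∑ y ∈ Y, (CC.filter fun C => g y ∈ K b (S ∪ T) hc C).card
      = ∑ C ∈ CC, (Y.filter fun y => g y ∈ K b (S ∪ T) hc C).card := by
    exact Finset.sum_card_bipartiteAbove_eq_sum_card_bipartiteBelow _
  have hpos : 0 < CC.card := by
    have h1 := hlow y0 hy0
    rw [hCC, card_pi]
    apply Finset.prod_pos
    intro p hp
    rw [Finset.card_pos]
    by_cases hpe : p ∈ T ∧ ¬ p ∣ addOrderOf (g y0)
    · simp only [hD, hpe.1, if_true]; exact Lag_nonempty b p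
    · exact ⟨_, hmemD y0 hy0 p hp hpe⟩
  have hfin : Y.card * CC.card ≤ (2 ^ t * (∏ p ∈ S, (Tp b p (a p)).card) * M) * CC.card := by
    calc Y.card * CC.card = ∑ y ∈ Y, CC.card := by rw [sum_const, smul_eq_mul]
      _ ≤ ∑ y ∈ Y, (CC.filter fun C => g y ∈ K b (S ∪ T) hc C).card *
          (2 ^ t * ∏ p ∈ S, (Tp b p (a p)).card) := Finset.sum_le_sum hlow
      _ = (∑ C ∈ CC, (Y.filter fun y => g y ∈ K b (S ∪ T) hc C).card) *
          (2 ^ t * ∏ p ∈ S, (Tp b p (a p)).card) := by rw [← sum_mul, hsum]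
      _ ≤ (∑ C ∈ CC, M) * (2 ^ t * ∏ p ∈ S, (Tp b p (a p)).card) :=
          Nat.mul_le_mul_right _ (Finset.sum_le_sum hup)
      _ = (2 ^ t * (∏ p ∈ S, (Tp b p (a p)).card) * M) * CC.card := by
          rw [sum_const, smul_eq_mul]; ring
  exact Nat.le_of_mul_le_mul_right hfin hpos

end Vale.Agent.P160.Half.LabVec
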