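import Vale.Agent.P160.MathlibUsed

/-! # P160: selection of the index (notes 11086, 11109, 11137, 11138)

`Z p` = set of the indices at which the kernel vector vanishes modulo `p`, `w p = d_p log p`.
There is a good index `j` such that the total weight of the primes with `j ∈ Z p` is paid by the
zero count of ONE prime `p` with `j ∈ Z p`. -/

namespace Vale.Agent.P160.Half.Sel150

open Finset

variable {ι κ : Type*} [DecidableEq ι]

/-- **Selection lemma.** -/
theorem select (G : Finset ι) (hG : G.Nonempty) (P : Finset κ) (Z : κ → Finset ι) (w : κ → ℝ)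
    (hw : ∀ p ∈ P, 0 ≤ w p) {W : ℝ} (hW : ∑ p ∈ P, w p ≤ W) :
    ∃ j ∈ G, (∑ p ∈ P with j ∈ Z p, w p) = 0 ∨
      ∃ p ∈ P, j ∈ Z p ∧ 0 < w p ∧ (∀ q ∈ P, j ∈ Z q → 0 < w q → (Z q).card ≤ (Z p).card) ∧
        (∑ p ∈ P with j ∈ Z p, w p) * (G.card : ℝ) ≤ W * ((Z p).card : ℝ) := by
  classical
  by_contra hcon
  push Not at hcon
  have hGc : (0 : ℝ) < (G.card : ℝ) := by exact_mod_cast hG.card_pos
  -- for `j ∈ G` the maximal zero count
  have key : ∀ j ∈ G, W / (G.card : ℝ) < ∑ p ∈ P with j ∈ Z p, w p / ((Z p).card : ℝ) := by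
    intro j hj
    obtain ⟨h0, h1⟩ := hcon j hj
    -- the set of primes with positive weight through j
    have hne : (P.filter fun p => j ∈ Z p ∧ 0 < w p).Nonempty := by
      by_contra hemp
      rw [not_nonempty_iff_eq_empty] at hemp
      apply h0
      apply sum_eq_zero
      intro p hp
      rw [mem_filter] at hp
      by_contra hne
      have hpos : 0 < w p := lt_of_le_of_ne (hw p hp.1) (Ne.symm hne)
      have : p ∈ P.filter fun p => j ∈ Z p ∧ 0 < w p := by
        rw [mem_filter]; exact ⟨hp.1, hp.2, hpos⟩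
      rw [hemp] at this
      simp at this
    obtain ⟨p, hp, hmax⟩ := exists_max_image _ (fun p => (Z p).card) hne
    rw [mem_filter] at hp
    have hZp : 0 < ((Z p).card : ℝ) := by
      have : 0 < (Z p).card := card_pos.2 ⟨j, hp.2.1⟩
      exact_mod_cast this
    have h2 := h1 p hp.1 hp.2.1 hp.2.2 (by
      intro q hq hjq hwq
      exact hmax q (by rw [mem_filter]; exact ⟨hq, hjq, hwq⟩))
    have h3 : W / (G.card : ℝ) < (∑ p ∈ P with j ∈ Z p, w p) / ((Z p).card : ℝ) := by
      rw [div_lt_div_iff₀ hGc hZp]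
      linarith
    refine lt_of_lt_of_le h3 ?_
    rw [sum_div]
    apply sum_le_sum
    intro q hq
    rw [mem_filter] at hq
    have hZq : 0 < ((Z q).card : ℝ) := by
      have : 0 < (Z q).card := card_pos.2 ⟨j, hq.2⟩
      exact_mod_cast this
    rcases (hw q hq.1).eq_or_lt with h | h
    · rw [← h]; simp
    · have h4 : ((Z q).card : ℝ) ≤ ((Z p).card : ℝ) := by
        exact_mod_cast hmax q (by rw [mem_filter]; exact ⟨hq.1, hq.2, h⟩)
      exact div_le_div_of_nonneg_left h.le hZq h4
  have hsum : ∑ j ∈ G, W / (G.card : ℝ) < ∑ j ∈ G, ∑ p ∈ P with j ∈ Z p, w p / ((Z p).card : ℝ) :=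
    sum_lt_sum_of_nonempty hG key
  rw [sum_const, nsmul_eq_mul, mul_div_cancel₀ _ hGc.ne'] at hsum
  have hle : ∑ j ∈ G, ∑ p ∈ P with j ∈ Z p, w p / ((Z p).card : ℝ) ≤ ∑ p ∈ P, w p := by
    simp only [sum_filter]
    rw [sum_comm]
    apply sum_le_sum
    intro p hp
    rw [← sum_filter, sum_const, nsmul_eq_mul]
    by_cases hz : (Z p).card = 0
    · rw [hz]; simp; exact hw p hp
    · have hzp : 0 < ((Z p).card : ℝ) := by exact_mod_cast Nat.pos_of_ne_zero hz
      have hc : ((G.filter fun j => j ∈ Z p).card : ℝ) ≤ ((Z p).card : ℝ) := by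
        exact_mod_cast card_le_card (fun x hx => (mem_filter.1 hx).2)
      calc ((G.filter fun j => j ∈ Z p).card : ℝ) * (w p / ((Z p).card : ℝ))
          ≤ ((Z p).card : ℝ) * (w p / ((Z p).card : ℝ)) :=
            mul_le_mul_of_nonneg_right hc (div_nonneg (hw p hp) hzp.le)
        _ = w p := by field_simp
  linarith

end Vale.Agent.P160.Half.Sel150
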