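import Mathlib

/-! # P160: Hadamard's inequality, `p ^ corank` divides the determinant, nonzero minors, and
their combination over several primes. -/

set_option linter.all false

namespace Vale.Agent.P160.Half.Had797

open Matrix Finset


/-- Hadamard's inequality, crude form -/
theorem had {r : ℕ} (N : Matrix (Fin r) (Fin r) ℝ) (A : ℝ) (hA : 0 ≤ A) (h : ∀ i j, |N i j| ≤ A) :
    |N.det| ≤ (A * Real.sqrt r) ^ r := by
  rcases Nat.eq_zero_or_pos r with h0 | hr
  · subst h0
    simp
  have hr' : (0 : ℝ) < r := by exact_mod_cast hr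
  set M := Nᴴ * N with hM
  have hps : M.PosSemidef := posSemidef_conjTranspose_mul_self N
  set lam := hps.isHermitian.eigenvalues with hlam
  have hnn : ∀ i, 0 ≤ lam i := fun i => hps.eigenvalues_nonneg i
  have hdet : M.det = ∏ i, lam i := hps.isHermitian.det_eq_prod_eigenvalues
  have htr : M.trace = ∑ i, lam i := hps.isHermitian.trace_eq_sum_eigenvalues
  have hd2 : N.det ^ 2 = ∏ i, lam i := by
    rw [← hdet, hM, det_mul, det_conjTranspose]
    simp
    ring
  have htrle : M.trace ≤ r * (r * A ^ 2) := by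
    rw [hM]
    simp only [Matrix.trace, Matrix.diag, Matrix.mul_apply, conjTranspose_apply, star_trivial]
    calc ∑ i, ∑ k, N k i * N k i ≤ ∑ i : Fin r, ∑ k : Fin r, A ^ 2 := by
          refine Finset.sum_le_sum (fun i _ => Finset.sum_le_sum (fun k _ => ?_))
          have h1 := h k i
          have h2 : N k i * N k i = |N k i| ^ 2 := by rw [sq_abs]; ring
          rw [h2]
          exact pow_le_pow_left₀ (abs_nonneg _) h1 2
      _ = r * (r * A ^ 2) := by simp
  have hag := Real.geom_mean_le_arith_mean_weighted (Finset.univ : Finset (Fin r))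
    (fun _ => (1 : ℝ) / r) lam (fun i _ => by positivity) (by simp; field_simp) (fun i _ => hnn i)
  have hsum : ∑ i, (1 : ℝ) / r * lam i ≤ r * A ^ 2 := by
    rw [← Finset.mul_sum, ← htr, div_mul_eq_mul_div, one_mul, div_le_iff₀ hr']
    linarith
  have hprod : (∏ i, lam i ^ ((1 : ℝ) / r)) ^ r = ∏ i, lam i := by
    rw [← Finset.prod_pow]
    refine Finset.prod_congr rfl (fun i _ => ?_)
    rw [← Real.rpow_natCast, ← Real.rpow_mul (hnn i), one_div, inv_mul_cancel₀ hr'.ne', Real.rpow_one]
  have hfin : N.det ^ 2 ≤ (r * A ^ 2) ^ r := by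
    rw [hd2, ← hprod]
    refine pow_le_pow_left₀ ?_ (hag.trans hsum) r
    exact Finset.prod_nonneg (fun i _ => Real.rpow_nonneg (hnn i) _)
  have hsq : ((A * Real.sqrt r) ^ r) ^ 2 = (r * A ^ 2) ^ r := by
    rw [← pow_mul, mul_comm r 2, pow_mul, mul_pow, Real.sq_sqrt hr'.le]
    ring
  rw [← hsq] at hfin
  exact abs_le_of_sq_le_sq hfin (by positivity)



/-- `p ^ corank` divides the determinant -/
theorem dvd_of_rank {r p e : ℕ} [Fact p.Prime] (N : Matrix (Fin r) (Fin r) ℤ)
    (h : (N.map (Int.castRingHom (ZMod p))).rank + e ≤ r) : (p : ℤ) ^ e ∣ N.det := by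
  classical
  set Np := N.map (Int.castRingHom (ZMod p)) with hNp
  set K : Submodule (ZMod p) (Fin r → ZMod p) := LinearMap.ker Npᵀ.mulVecLin with hK
  have hKrank : Module.finrank (ZMod p) K + Np.rank = r := by
    have h1 : Module.finrank (ZMod p) (LinearMap.range Npᵀ.mulVecLin) +
        Module.finrank (ZMod p) K = Module.finrank (ZMod p) (Fin r → ZMod p) :=
      LinearMap.finrank_range_add_finrank_ker Npᵀ.mulVecLin
    have h2 : Npᵀ.rank = Np.rank := Matrix.rank_transpose Np
    have h3 : Npᵀ.rank = Module.finrank (ZMod p) (LinearMap.range Npᵀ.mulVecLin) := rfl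
    have h4 : Module.finrank (ZMod p) (Fin r → ZMod p) = r := by simp
    rw [h4, ← h3, h2] at h1
    omega
  obtain ⟨C, hC⟩ := Submodule.exists_isCompl K
  set k := Module.finrank (ZMod p) K with hk
  set m := Module.finrank (ZMod p) C with hm
  let B : Module.Basis (Fin k ⊕ Fin m) (ZMod p) (Fin r → ZMod p) :=
    ((Module.finBasis (ZMod p) K).prod (Module.finBasis (ZMod p) C)).map
      (Submodule.prodEquivOfIsCompl K C hC)
  have hBK : ∀ a : Fin k, B (Sum.inl a) ∈ K := by
    intro a
    simp only [B, Module.Basis.map_apply, Submodule.coe_prodEquivOfIsCompl',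
      Module.Basis.prod_apply_inl_fst, Module.Basis.prod_apply_inl_snd]
    simp
  have hcard : Fintype.card (Fin k ⊕ Fin m) = Fintype.card (Fin r) := by
    rw [← Module.finrank_eq_card_basis B]
    simp
  let σ : (Fin k ⊕ Fin m) ≃ Fin r := Fintype.equivOfCardEq hcard
  -- lift of the basis
  obtain ⟨W, hWent⟩ : ∃ W : Matrix (Fin r) (Fin r) ℤ,
      ∀ i j, ((W i j : ℤ) : ZMod p) = B (σ.symm i) j := by
    refine ⟨Matrix.of (fun i j => ((B (σ.symm i) j).val : ℤ)), fun i j => ?_⟩
    rw [Matrix.of_apply, Int.cast_natCast, ZMod.natCast_zmod_val]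
  have hWmap : W.map (Int.castRingHom (ZMod p)) = Matrix.of (fun i => B (σ.symm i)) := by
    ext i j
    rw [Matrix.map_apply, Matrix.of_apply, ← hWent]
    rfl
  have hWdet : ¬ (p : ℤ) ∣ W.det := by
    intro hdvd
    have h1 : ((W.det : ℤ) : ZMod p) = 0 := (ZMod.intCast_zmod_eq_zero_iff_dvd _ _).2 hdvd
    have h2 : (W.map (Int.castRingHom (ZMod p))).det = 0 := by
      rw [← RingHom.mapMatrix_apply, ← RingHom.map_det]
      exact h1
    rw [hWmap] at h2
    have h3 : LinearIndependent (ZMod p) (Matrix.of (fun i => B (σ.symm i))).row := by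
      exact B.linearIndependent.comp _ σ.symm.injective
    rw [Matrix.linearIndependent_rows_iff_isUnit, Matrix.isUnit_iff_isUnit_det, h2] at h3
    exact not_isUnit_zero h3
  -- the rows of `W N` in the kernel are divisible by `p`
  have hrow : ∀ (a : Fin k) (j : Fin r), (p : ℤ) ∣ (W * N) (σ (Sum.inl a)) j := by
    intro a j
    rw [← ZMod.intCast_zmod_eq_zero_iff_dvd]
    have h1 : Npᵀ.mulVec (B (Sum.inl a)) = 0 := LinearMap.mem_ker.1 (hBK a)
    have h2 := congrFun h1 j
    rw [Matrix.mul_apply]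
    push_cast
    refine Eq.trans ?_ h2
    simp only [Matrix.mulVec, dotProduct, Matrix.transpose_apply, hNp, Matrix.map_apply]
    refine Finset.sum_congr rfl (fun x _ => ?_)
    rw [hWent, Equiv.symm_apply_apply, mul_comm]
    rfl
  choose q hq using hrow
  let v : Fin r → ℤ := fun i => Sum.elim (fun _ => (p : ℤ)) (fun _ => 1) (σ.symm i)
  let A : Matrix (Fin r) (Fin r) ℤ := fun i j =>
    Sum.elim (fun a => q a j) (fun _ => (W * N) i j) (σ.symm i)
  have hWN : W * N = Matrix.of (fun i j => v i * A i j) := by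
    ext i j
    obtain ⟨s, rfl⟩ := σ.surjective i
    rcases s with a | b
    · simp only [Matrix.of_apply, v, A, Equiv.symm_apply_apply, Sum.elim_inl]
      exact hq a j
    · simp only [Matrix.of_apply, v, A, Equiv.symm_apply_apply, Sum.elim_inr, one_mul]
  have hdet : W.det * N.det = (p : ℤ) ^ k * A.det := by
    rw [← det_mul, hWN, det_mul_column]
    congr 1
    have : ∏ i, v i = ∏ s : Fin k ⊕ Fin m, v (σ s) := (Equiv.prod_comp σ v).symm
    rw [this, Fintype.prod_sum_type]
    simp [v]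
  have hcop : IsCoprime ((p : ℤ) ^ k) W.det := by
    apply IsCoprime.pow_left
    have hp : Prime (p : ℤ) := Nat.prime_iff_prime_int.1 (Fact.out)
    exact (hp.coprime_iff_not_dvd).2 hWdet
  have h5 : (p : ℤ) ^ k ∣ N.det := hcop.dvd_of_dvd_mul_left ⟨A.det, hdet⟩
  exact (pow_dvd_pow _ (by omega)).trans h5



/-- a nonzero minor of order the rank -/
theorem exists_minor {m n : Type} [Fintype m] [Fintype n] (M : Matrix m n ℚ) :
    ∃ (f : Fin M.rank → m) (g : Fin M.rank → n), (M.submatrix f g).det ≠ 0 := by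
  classical
  obtain ⟨κ, a, ha, hs, hli⟩ := exists_linearIndependent' ℚ M.col
  haveI : Finite κ := Finite.of_injective a ha
  haveI : Fintype κ := Fintype.ofFinite κ
  have hc : Fintype.card κ = M.rank := by
    rw [Matrix.rank_eq_finrank_span_cols, ← hs, finrank_span_eq_card hli]
  let e : Fin M.rank ≃ κ := (Fintype.equivOfCardEq (by rw [Fintype.card_fin, hc]))
  set g : Fin M.rank → n := fun i => a (e i) with hg
  have hli2 : LinearIndependent ℚ (fun i => M.col (g i)) := hli.comp _ e.injective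
  set M1 : Matrix m (Fin M.rank) ℚ := M.submatrix id g with hM1
  have hr1 : M1.rank = M.rank := by
    rw [← Matrix.rank_transpose]
    have h1 : LinearIndependent ℚ M1ᵀ.row := hli2
    rw [h1.rank_matrix, Fintype.card_fin]
  obtain ⟨κ', a', ha', hs', hli'⟩ := exists_linearIndependent' ℚ M1.row
  haveI : Finite κ' := Finite.of_injective a' ha'
  haveI : Fintype κ' := Fintype.ofFinite κ'
  have hc' : Fintype.card κ' = M.rank := by
    rw [← hr1, Matrix.rank_eq_finrank_span_row, ← hs', finrank_span_eq_card hli']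
  let e' : Fin M.rank ≃ κ' := (Fintype.equivOfCardEq (by rw [Fintype.card_fin, hc']))
  refine ⟨fun i => a' (e' i), g, ?_⟩
  have hli3 : LinearIndependent ℚ (M.submatrix (fun i => a' (e' i)) g).row :=
    hli'.comp _ e'.injective
  rw [Matrix.linearIndependent_rows_iff_isUnit, Matrix.isUnit_iff_isUnit_det] at hli3
  exact hli3.ne_zero


/-- the product over the primes of `p ^ (rank_ℚ - rank_p)` is at most the Hadamard bound -/
theorem prod_le {m n : Type} [Fintype m] [Fintype n] (M : Matrix m n ℤ) (A : ℝ) (hA : 0 ≤ A)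
    (hM : ∀ i j, |(M i j : ℝ)| ≤ A) (S : Finset ℕ) (hS : ∀ p ∈ S, p.Prime) (e : ℕ → ℕ)
    (he : ∀ p ∈ S, (M.map (Int.castRingHom (ZMod p))).rank + e p ≤
      (M.map (Int.cast : ℤ → ℚ)).rank) :
    (∏ p ∈ S, (p : ℝ) ^ e p) ≤
      (A * Real.sqrt ((M.map (Int.cast : ℤ → ℚ)).rank : ℝ)) ^ (M.map (Int.cast : ℤ → ℚ)).rank := by
  classical
  set r := (M.map (Int.cast : ℤ → ℚ)).rank with hr
  obtain ⟨f, g, hdet⟩ : ∃ (f : Fin r → m) (g : Fin r → n),
    ((M.map (Int.cast : ℤ → ℚ)).submatrix f g).det ≠ 0 := exists_minor _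
  set N : Matrix (Fin r) (Fin r) ℤ := M.submatrix f g with hN
  have hNdet : N.det ≠ 0 := by
    intro h0
    apply hdet
    have h1 : ((M.map (Int.cast : ℤ → ℚ)).submatrix f g).det = ((N.det : ℤ) : ℚ) := by
      have := (Int.castRingHom ℚ).map_det N
      exact this.symm
    rw [h1, h0, Int.cast_zero]
  have hdvd : ∀ p ∈ S, ((p : ℤ) ^ e p) ∣ N.det := by
    intro p hp
    haveI : Fact p.Prime := ⟨hS p hp⟩
    apply dvd_of_rank
    have h1 : N.map (Int.castRingHom (ZMod p)) =
        (M.map (Int.castRingHom (ZMod p))).submatrix f g := rfl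
    have h2 := Matrix.rank_submatrix_le (M.map (Int.castRingHom (ZMod p))) f g
    rw [h1]
    have := he p hp
    omega
  have hprod : (∏ p ∈ S, (p : ℤ) ^ e p) ∣ N.det := by
    apply Finset.prod_dvd_of_coprime
    · intro p hp q hq hpq
      apply IsCoprime.pow
      exact Nat.isCoprime_iff_coprime.2 ((Nat.coprime_primes (hS p hp) (hS q hq)).2 hpq)
    · exact hdvd
  have h3 : (∏ p ∈ S, (p : ℤ) ^ e p) ≤ |N.det| := by
    apply Int.le_of_dvd (abs_pos.2 hNdet)
    exact (dvd_abs _ _).2 hprod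
  have h4 : (∏ p ∈ S, (p : ℝ) ^ e p) ≤ |(N.det : ℝ)| := by
    calc (∏ p ∈ S, (p : ℝ) ^ e p) = (((∏ p ∈ S, (p : ℤ) ^ e p : ℤ)) : ℝ) := by
          rw [Int.cast_prod]
          refine Finset.prod_congr rfl (fun p _ => ?_)
          rw [Int.cast_pow, Int.cast_natCast]
      _ ≤ ((|N.det| : ℤ) : ℝ) := Int.cast_le.2 h3
      _ = |(N.det : ℝ)| := Int.cast_abs
  refine h4.trans ?_
  have h5 : (N.det : ℝ) = (N.map (Int.cast : ℤ → ℝ)).det := (Int.castRingHom ℝ).map_det N
  rw [h5]
  exact had _ A hA (fun i j => hM _ _)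

end Vale.Agent.P160.Half.Had797
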