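import Vale.Agent.P160.Half.GStmt

/-! # P160, half rate: gap (G), statements G1', G2', G4', G6' with FIXED columns `F` (helper667)

In (G) the extra columns are GIVEN (value columns `a_j`), only the bits of `P` are random. These statements REPLACE `RowsStmt`, `CoreStmt`, `KZ1Stmt`, `KZAStmt`
of `GStmt.lean` (G3, G3b, G5 stay; G3 may use `CoreStmt`, which is the case `β` empty of `CoreStmt2`). -/

open Finset Matrix

namespace Vale.Agent.P160.Half.G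

/-- **G1'** (file `Rows2.lean`, theorem `rows2 : RowsStmt2`): G1 with fixed entries `f` in the columns `β`. Same proof. -/
def RowsStmt2 : Prop := ∀ (R ι β σ : Type) [CommRing R] [Fintype ι] [DecidableEq ι] [Fintype β] [DecidableEq β] [Fintype σ] [DecidableEq σ]
  (hv : (ι ⊕ β → R) → Prop) (ℓ : Submodule R (ι ⊕ β → R) → ℕ) (q : ℝ) (f : σ → β → R), (∀ U V, V < U → ℓ V < ℓ U) → 0 ≤ q → q ≤ 1 →
  (∀ w, hv w → ∀ c : R, (Nat.card {x : ι → Bool // bdot x (w ∘ Sum.inl) = c} : ℝ) ≤ q * 2 ^ Fintype.card ι) →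
  ∀ (U : Submodule R (ι ⊕ β → R)) (k : ℕ), ℓ U ≤ k →
  (Nat.card {x : σ → ι → Bool // ∃ w ∈ U, hv w ∧ ∀ s, bdot (x s) (w ∘ Sum.inl) + ∑ j, f s j * w (Sum.inr j) = 0} : ℝ) ≤
    2 ^ Fintype.card σ * q ^ (Fintype.card σ - k) * 2 ^ (Fintype.card ι * Fintype.card σ)

/-- **G2'** (file `Core.lean`, theorem `core2 : RowsStmt2 → CoreStmt2`): as G2, entries of absolute value `≤ X`, fixed entries `f` in the columns `β`. A nonzero
minor of size `N = |ι| + |β|` is `≤ N! X^N ≤ (N X)^N`, so at most `X N²` primes divide it. -/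
def CoreStmt2 : Prop := ∀ (τ ι β σ : Type) [Fintype τ] [DecidableEq τ] [Fintype ι] [DecidableEq ι] [Fintype β] [DecidableEq β] [Fintype σ] [DecidableEq σ]
  (E : Matrix τ (ι ⊕ β) ℤ) (f : σ → β → ℤ) (X y k : ℕ) (hv : ∀ p : ℕ, (ι ⊕ β → ZMod p) → Prop) (q : ℝ), 1 ≤ X → (∀ i j, |E i j| ≤ (X : ℤ)) →
  (∀ s j, |f s j| ≤ (X : ℤ)) → 0 ≤ q → q ≤ 1 → (∀ p w, hv p w → w ≠ 0) →
  (∀ p, p.Prime → y ≤ p → ∀ w, hv p w → ∀ c : ZMod p, (Nat.card {x : ι → Bool // bdot x (w ∘ Sum.inl) = c} : ℝ) ≤ q * 2 ^ Fintype.card ι) →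
  (∀ p, p.Prime → y ≤ p → Fintype.card ι + Fintype.card β ≤ (E.map (Int.cast : ℤ → ZMod p)).rank + k) →
  Fintype.card ι + Fintype.card β ≤ (E.map (Int.cast : ℤ → ℚ)).rank + k →
  (Nat.card {x : σ → ι → Bool // (∀ w : ι ⊕ β → ℚ, E.map (Int.cast : ℤ → ℚ) *ᵥ w = 0 →
      (∀ s, bdot (x s) (w ∘ Sum.inl) + ∑ j, (f s j : ℚ) * w (Sum.inr j) = 0) → w = 0) ∧
    ∃ p, p.Prime ∧ y ≤ p ∧ ∃ w : ι ⊕ β → ZMod p, hv p w ∧ E.map (Int.cast : ℤ → ZMod p) *ᵥ w = 0 ∧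
      ∀ s, bdot (x s) (w ∘ Sum.inl) + ∑ j, (f s j : ZMod p) * w (Sum.inr j) = 0} : ℝ) ≤
    X * ((Fintype.card ι : ℝ) + Fintype.card β) ^ 2 * 4 ^ Fintype.card σ * q ^ (Fintype.card σ - 2 * k) * 2 ^ (Fintype.card ι * Fintype.card σ)

/-- **G4'** (file `KZ1.lean`, theorem `kz1 : RowsStmt2 → CoreStmt2 → NSZStmt → KZ1Stmt2`): as G4, but `F` is fixed, entries of absolute value `≤ X`, and only
the bits of `P` are counted. -/
def KZ1Stmt2 : Prop := ∀ (α β : Type) [Fintype α] [Fintype β] [DecidableEq α] [DecidableEq β] (F : Matrix α β ℤ) (X y t z k : ℕ) (q : ℝ), 1 ≤ X →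
  (∀ i j, |F i j| ≤ (X : ℤ)) → 2 ≤ y → q = 1 / y + 3 / 2 / Real.sqrt (t + 1) → q ≤ 1 →
  (Nat.card {b : Sym2 α → Bool // CorLt (matZ b) k ∧ NoSparse (matZ b) F y t ∧
    ∃ p, p.Prime ∧ y ≤ p ∧ ∃ (g : α → ZMod p) (c : β → ZMod p), Word _ (matZ b) F g c ∧ (g ≠ 0 ∨ c ≠ 0) ∧
      z ≤ (univ.filter fun i => g i = 0).card} : ℝ) ≤
    3 * X * ((Fintype.card α : ℝ) + Fintype.card β) ^ 2 * 8 ^ Fintype.card α * q ^ (z - 2 * (k + Fintype.card β)) * 2 ^ Fintype.card (Sym2 α)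

/-- **G6'** (file `KZA.lean`, theorem `kza : RowsStmt2 → LOppStmt → KZAStmt2`): as G6 with `F` fixed, entries of absolute value `≤ X`. -/
def KZAStmt2 : Prop := ∀ (α β : Type) [Fintype α] [Fintype β] [DecidableEq α] [DecidableEq β] (F : Matrix α β ℤ) (X y a s L t z k : ℕ) (q : ℝ), 1 ≤ X →
  (∀ i j, |F i j| ≤ (X : ℤ)) → s ≤ a → 1 ≤ L → 1 ≤ t → (t + Fintype.card β).factorial * X ^ (t + Fintype.card β) < 2 ^ (a - s) →
  q = max ((1 / 2) ^ L) (1 / (2 : ℝ) ^ s + 3 / 2 / Real.sqrt (t / L)) → q ≤ 1 →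
  (Nat.card {b : Sym2 α → Bool // CorLt (matZ b) k ∧ NoSparseZ (matZ b) F t ∧
    ∃ p, p.Prime ∧ p < y ∧ ∃ (g : α → ZMod (p ^ a)) (c : β → ZMod (p ^ a)), Word _ (matZ b) F g c ∧ Prim g c ∧
      z ≤ (univ.filter fun i => g i = 0).card} : ℝ) ≤
    y * 4 ^ Fintype.card α * q ^ (z - a * (k + Fintype.card β)) * 2 ^ Fintype.card (Sym2 α)

end Vale.Agent.P160.Half.G
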