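import Vale.Agent.P160.Half.Rows
import Vale.Agent.P160.Half.GStmt2

/-! # P160, half rate, G1': rows with fixed columns (proof of `RowsStmt2`) -/

open Finset Matrix

namespace Vale.Agent.P160.Half.G

/-- the affine row functional: 0/1 part `x` on `ι`, fixed part `f` on `β` -/
def bdotf {R ι β : Type*} [CommRing R] [Fintype ι] [Fintype β] (x : ι → Bool) (f : β → R)
    (w : ι ⊕ β → R) : R := bdot x (w ∘ Sum.inl) + ∑ j, f j * w (Sum.inr j)

theorem bdotf_add {R ι β : Type*} [CommRing R] [Fintype ι] [Fintype β] (x : ι → Bool) (f : β → R)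
    (a b : ι ⊕ β → R) : bdotf x f (a + b) = bdotf x f a + bdotf x f b := by
  have h1 : bdot x ((a + b) ∘ Sum.inl) = bdot x (a ∘ Sum.inl) + bdot x (b ∘ Sum.inl) := by
    unfold bdot
    rw [← Finset.sum_add_distrib]
    refine Finset.sum_congr rfl fun i _ => ?_
    by_cases h : x i <;> simp [h]
  have h2 : ∑ j, f j * (a + b) (Sum.inr j) = ∑ j, f j * a (Sum.inr j) + ∑ j, f j * b (Sum.inr j) := by
    rw [← Finset.sum_add_distrib]
    refine Finset.sum_congr rfl fun i _ => ?_
    simp [mul_add]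
  unfold bdotf
  rw [h1, h2]
  ring

theorem bdotf_smul {R ι β : Type*} [CommRing R] [Fintype ι] [Fintype β] (x : ι → Bool) (f : β → R)
    (c : R) (a : ι ⊕ β → R) : bdotf x f (c • a) = c * bdotf x f a := by
  have h1 : bdot x ((c • a) ∘ Sum.inl) = c * bdot x (a ∘ Sum.inl) := by
    unfold bdot
    rw [Finset.mul_sum]
    refine Finset.sum_congr rfl fun i _ => ?_
    by_cases h : x i <;> simp [h]
  have h2 : ∑ j, f j * (c • a) (Sum.inr j) = c * ∑ j, f j * a (Sum.inr j) := by
    rw [Finset.mul_sum]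
    refine Finset.sum_congr rfl fun i _ => ?_
    simp only [Pi.smul_apply, smul_eq_mul]
    ring
  unfold bdotf
  rw [h1, h2]
  ring

/-- the subspace of the vectors orthogonal to a row -/
def cutf {R ι β : Type*} [CommRing R] [Fintype ι] [Fintype β] (U : Submodule R (ι ⊕ β → R))
    (x : ι → Bool) (f : β → R) : Submodule R (ι ⊕ β → R) where
  carrier := {w | w ∈ U ∧ bdotf x f w = 0}
  zero_mem' := by
    refine ⟨U.zero_mem, ?_⟩
    simp [bdotf, bdot]
  add_mem' := by
    rintro a b ⟨ha, ha'⟩ ⟨hb, hb'⟩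
    refine ⟨U.add_mem ha hb, ?_⟩
    rw [bdotf_add, ha', hb', add_zero]
  smul_mem' := by
    rintro c a ⟨ha, ha'⟩
    refine ⟨U.smul_mem c ha, ?_⟩
    rw [bdotf_smul, ha', mul_zero]

theorem rows_fin2 (R ι β : Type) [CommRing R] [Fintype ι] [DecidableEq ι] [Fintype β] (hv : (ι ⊕ β → R) → Prop)
    (ℓ : Submodule R (ι ⊕ β → R) → ℕ) (q : ℝ) (hℓ : ∀ U V, V < U → ℓ V < ℓ U) (hq0 : 0 ≤ q)
    (hq1 : q ≤ 1)
    (hat : ∀ w, hv w → ∀ g : β → R, (Nat.card {x : ι → Bool // bdotf x g w = 0} : ℝ) ≤ q * 2 ^ Fintype.card ι)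
    (N : ℕ) : ∀ (f : Fin N → β → R) (U : Submodule R (ι ⊕ β → R)) (k : ℕ), ℓ U ≤ k →
    (Nat.card {x : Fin N → ι → Bool // ∃ w ∈ U, hv w ∧ ∀ s, bdotf (x s) (f s) w = 0} : ℝ) ≤
      2 ^ N * q ^ (N - k) * 2 ^ (Fintype.card ι * N) := by
  classical
  induction N with
  | zero =>
    intro f U k _
    have h1 : Nat.card {x : Fin 0 → ι → Bool // ∃ w ∈ U, hv w ∧ ∀ s, bdotf (x s) (f s) w = 0} ≤ 1 := by
      have := Finite.card_subtype_le
        (fun x : Fin 0 → ι → Bool => ∃ w ∈ U, hv w ∧ ∀ s, bdotf (x s) (f s) w = 0)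
      simpa using this
    have h2 : (Nat.card {x : Fin 0 → ι → Bool // ∃ w ∈ U, hv w ∧ ∀ s, bdotf (x s) (f s) w = 0} : ℝ) ≤ 1 := by
      exact_mod_cast h1
    simpa using h2
  | succ N ih =>
    intro f U k hk
    by_cases hw : ∃ w ∈ U, hv w
    · obtain ⟨w0, hw0, hvw0⟩ := hw
      rw [card_cons N]
      have hrow : ∀ x0 : ι → Bool,
          (Nat.card {y : Fin N → ι → Bool //
            ∃ w ∈ U, hv w ∧ ∀ s, bdotf ((Fin.cons x0 y : Fin (N + 1) → ι → Bool) s) (f s) w = 0} : ℝ) ≤
          (if bdotf x0 (f 0) w0 = 0 then 2 ^ N * q ^ (N - k) * 2 ^ (Fintype.card ι * N) else 0) +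
            2 ^ N * q ^ (N + 1 - k) * 2 ^ (Fintype.card ι * N) := by
        intro x0
        have hset : {y : Fin N → ι → Bool //
            ∃ w ∈ U, hv w ∧ ∀ s, bdotf ((Fin.cons x0 y : Fin (N + 1) → ι → Bool) s) (f s) w = 0} ≃
            {y : Fin N → ι → Bool // ∃ w ∈ cutf U x0 (f 0), hv w ∧ ∀ s, bdotf (y s) (f (Fin.succ s)) w = 0} := by
          refine Equiv.subtypeEquivRight fun y => ?_
          constructor
          · rintro ⟨w, hwU, hvw, hs⟩
            refine ⟨w, ⟨hwU, ?_⟩, hvw, fun s => ?_⟩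
            · simpa using hs 0
            · simpa using hs s.succ
          · rintro ⟨w, ⟨hwU, h0⟩, hvw, hs⟩
            refine ⟨w, hwU, hvw, fun s => ?_⟩
            refine Fin.cases ?_ (fun i => ?_) s
            · simpa using h0
            · simpa using hs i
        rw [Nat.card_congr hset]
        have hle : cutf U x0 (f 0) ≤ U := fun w hw => hw.1
        rcases eq_or_lt_of_le hle with heq | hlt
        · have h0 : bdotf x0 (f 0) w0 = 0 := by
            have : w0 ∈ cutf U x0 (f 0) := by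
              rw [heq]
              exact hw0
            exact this.2
          rw [if_pos h0, heq]
          have := ih (fun s => f s.succ) U k hk
          have hB : (0 : ℝ) ≤ 2 ^ N * q ^ (N + 1 - k) * 2 ^ (Fintype.card ι * N) := by positivity
          linarith
        · have hl := hℓ U _ hlt
          have hk1 : 1 ≤ k := by omega
          have := ih (fun s => f s.succ) (cutf U x0 (f 0)) (k - 1) (by omega)
          have he : N - (k - 1) = N + 1 - k := by omega
          rw [he] at this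
          have hA : (0 : ℝ) ≤
              (if bdotf x0 (f 0) w0 = 0 then 2 ^ N * q ^ (N - k) * 2 ^ (Fintype.card ι * N) else 0) := by
            split_ifs <;> positivity
          linarith
      push_cast
      refine (Finset.sum_le_sum fun x0 _ => hrow x0).trans ?_
      rw [Finset.sum_add_distrib, Finset.sum_const, ← Finset.sum_filter, Finset.sum_const]
      have hc1 : ((Finset.univ.filter fun x0 : ι → Bool => bdotf x0 (f 0) w0 = 0).card : ℝ) ≤
          q * 2 ^ Fintype.card ι := by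
        have := hat w0 hvw0 (f 0)
        rwa [Nat.card_eq_fintype_card, Fintype.card_subtype] at this
      have hc2 : ((Finset.univ : Finset (ι → Bool)).card : ℝ) = 2 ^ Fintype.card ι := by
        simp
      rw [nsmul_eq_mul, nsmul_eq_mul, hc2]
      have hpow : (2 : ℝ) ^ (Fintype.card ι * (N + 1)) =
          2 ^ Fintype.card ι * 2 ^ (Fintype.card ι * N) := by
        rw [← pow_add]
        congr 1
        ring
      have hqq : q * q ^ (N - k) ≤ q ^ (N + 1 - k) := by
        rcases le_or_gt k N with h | h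
        · have : N + 1 - k = (N - k) + 1 := by omega
          rw [this, pow_succ, mul_comm]
        · have h1 : N - k = 0 := by omega
          have h2 : N + 1 - k = 0 := by omega
          rw [h1, h2]
          simpa using hq1
      have hTN : (0 : ℝ) ≤ 2 ^ N * 2 ^ (Fintype.card ι * N) * 2 ^ Fintype.card ι := by positivity
      calc ((Finset.univ.filter fun x0 : ι → Bool => bdotf x0 (f 0) w0 = 0).card : ℝ) *
              (2 ^ N * q ^ (N - k) * 2 ^ (Fintype.card ι * N)) +
            2 ^ Fintype.card ι * (2 ^ N * q ^ (N + 1 - k) * 2 ^ (Fintype.card ι * N))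
          ≤ (q * 2 ^ Fintype.card ι) * (2 ^ N * q ^ (N - k) * 2 ^ (Fintype.card ι * N)) +
            2 ^ Fintype.card ι * (2 ^ N * q ^ (N + 1 - k) * 2 ^ (Fintype.card ι * N)) := by
            have h0 : (0 : ℝ) ≤ 2 ^ N * q ^ (N - k) * 2 ^ (Fintype.card ι * N) := by positivity
            have := mul_le_mul_of_nonneg_right hc1 h0
            linarith
        _ = 2 ^ N * 2 ^ (Fintype.card ι * N) * 2 ^ Fintype.card ι * (q * q ^ (N - k)) +
            2 ^ N * 2 ^ (Fintype.card ι * N) * 2 ^ Fintype.card ι * q ^ (N + 1 - k) := by ring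
        _ ≤ 2 ^ N * 2 ^ (Fintype.card ι * N) * 2 ^ Fintype.card ι * q ^ (N + 1 - k) +
            2 ^ N * 2 ^ (Fintype.card ι * N) * 2 ^ Fintype.card ι * q ^ (N + 1 - k) := by
            have := mul_le_mul_of_nonneg_left hqq hTN
            linarith
        _ = 2 ^ (N + 1) * q ^ (N + 1 - k) * 2 ^ (Fintype.card ι * (N + 1)) := by
            rw [hpow, pow_succ]
            ring
    · have h0 : Nat.card {x : Fin (N + 1) → ι → Bool //
          ∃ w ∈ U, hv w ∧ ∀ s, bdotf (x s) (f s) w = 0} = 0 := by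
        have : IsEmpty {x : Fin (N + 1) → ι → Bool // ∃ w ∈ U, hv w ∧ ∀ s, bdotf (x s) (f s) w = 0} := by
          refine ⟨?_⟩
          rintro ⟨x, w, hwU, hvw, _⟩
          exact hw ⟨w, hwU, hvw⟩
        exact Nat.card_of_isEmpty
      rw [h0]
      push_cast
      positivity

theorem rows2 : RowsStmt2 := by
  intro R ι β σ _ _ _ _ _ _ _ hv ℓ q f hℓ hq0 hq1 hat U k hk
  classical
  have e := Fintype.equivFin σ
  have hat' : ∀ w, hv w → ∀ g : β → R,
      (Nat.card {x : ι → Bool // bdotf x g w = 0} : ℝ) ≤ q * 2 ^ Fintype.card ι := by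
    intro w hw g
    have h := hat w hw (-∑ j, g j * w (Sum.inr j))
    have e1 : {x : ι → Bool // bdotf x g w = 0} ≃
        {x : ι → Bool // bdot x (w ∘ Sum.inl) = -∑ j, g j * w (Sum.inr j)} :=
      Equiv.subtypeEquivRight fun x => by
        unfold bdotf
        exact add_eq_zero_iff_eq_neg
    rw [Nat.card_congr e1]
    exact h
  have hset : {x : σ → ι → Bool // ∃ w ∈ U, hv w ∧
        ∀ s, bdot (x s) (w ∘ Sum.inl) + ∑ j, f s j * w (Sum.inr j) = 0} ≃
      {x : Fin (Fintype.card σ) → ι → Bool // ∃ w ∈ U, hv w ∧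
        ∀ s, bdotf (x s) (f (e.symm s)) w = 0} := by
    refine Equiv.subtypeEquiv (Equiv.arrowCongr e (Equiv.refl _)) ?_
    intro x
    constructor
    · rintro ⟨w, hwU, hvw, hs⟩
      exact ⟨w, hwU, hvw, fun s => hs (e.symm s)⟩
    · rintro ⟨w, hwU, hvw, hs⟩
      refine ⟨w, hwU, hvw, fun s => ?_⟩
      have := hs (e s)
      simpa [Equiv.arrowCongr, bdotf] using this
  rw [Nat.card_congr hset]
  exact rows_fin2 R ι β hv ℓ q hℓ hq0 hq1 hat' _ (fun s => f (e.symm s)) U k hk

end Vale.Agent.P160.Half.G
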