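import Vale.Agent.P160.Half.KZA2
import Vale.Agent.P160.Half.Core

/-! # P160, final assembly, killed lemma (406's 11281 (6)): kernel vectors with many zero coordinates (helper456) -/

set_option linter.unusedSectionVars false

open Finset Matrix

namespace Vale.Agent.P160.Half.G.Kill

open Vale.Agent.P160.Half Vale.Agent.P160.Half.G Vale.Agent.P160.Half.G.KZ6

variable {α : Type} [Fintype α] [DecidableEq α]

/-- kernel vector modulo `N` with more than `D` unit coordinates, zero on `S` -/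
def KS (N D : ℕ) (S : Finset α) (b : Sym2 α → Bool) : Prop :=
  ∃ u : α → ZMod N, (matZ b).map (Int.cast : ℤ → ZMod N) *ᵥ u = 0 ∧
    D < Nat.card {i // IsUnit (u i)} ∧ ∀ i ∈ S, u i = 0

/-- kernel vector modulo `N` with more than `D` unit coordinates and at least `z` zeros -/
def KV (N D z : ℕ) (b : Sym2 α → Bool) : Prop :=
  ∃ u : α → ZMod N, (matZ b).map (Int.cast : ℤ → ZMod N) *ᵥ u = 0 ∧
    D < Nat.card {i // IsUnit (u i)} ∧ z ≤ (univ.filter fun i => u i = 0).card

/-- the empty block of fixed columns -/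
def F0 : Matrix α Empty ℤ := fun _ j => j.elim

lemma word_F0 {R : Type*} [CommRing R] (P : Matrix α α ℤ) (u : α → R)
    (h : P.map (Int.cast : ℤ → R) *ᵥ u = 0) : Word R P F0 u (fun j : Empty => j.elim) := by
  unfold Word
  rw [h, zero_add]
  funext i
  rw [Matrix.mulVec, dotProduct]
  simp

/-- atoms -/
lemma atom_bd {ι : Type} [Fintype ι] [DecidableEq ι] {N y D : ℕ} [NeZero N] (hyN : y ≤ N) (hy : 1 ≤ y)
    {q : ℝ} (hq : q = 1 / y + 3 / 2 / Real.sqrt (D + 1)) (u : ι → ZMod N)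
    (hu : D < Nat.card {i // IsUnit (u i)}) (c : ZMod N) :
    (Nat.card {x : ι → Bool // bdot x u = c} : ℝ) ≤ q * 2 ^ Fintype.card ι := by
  classical
  rw [Nat.card_eq_fintype_card, Fintype.card_subtype] at hu
  have h1 := LOq.atom_le u c (univ.filter fun i => IsUnit (u i)) (by omega)
    (fun i hi => (mem_filter.1 hi).2)
  have h3 : LOq.atom u c ≤ q := by
    refine h1.trans ?_
    rw [hq]
    have hy' : (1 : ℝ) ≤ y := by exact_mod_cast hy
    have h4 : (y : ℝ) ≤ N := by exact_mod_cast hyN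
    have h5 : ((D : ℝ) + 1) ≤ ((univ.filter fun i => IsUnit (u i)).card : ℝ) := by exact_mod_cast hu
    have h6 : (0 : ℝ) < (D : ℝ) + 1 := by positivity
    have h7 : (1 : ℝ) / N ≤ 1 / y := by gcongr
    have h8 : 3 / 2 / Real.sqrt ((univ.filter fun i => IsUnit (u i)).card : ℝ) ≤
      3 / 2 / Real.sqrt ((D : ℝ) + 1) := by gcongr
    exact add_le_add h7 h8
  unfold LOq.atom at h3
  rw [div_le_iff₀ (by positivity)] at h3
  refine le_trans (le_of_eq ?_) h3
  norm_cast
  rw [Nat.card_eq_fintype_card, Fintype.card_subtype]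
  rfl

/-- number of unit coordinates outside `S` -/
lemma card_units {N : ℕ} (hN : 1 < N) (S : Finset α) (u : α → ZMod N) (h0 : ∀ i ∈ S, u i = 0) :
    Nat.card {i // IsUnit (u i)} ≤ Nat.card {i : {i // i ∉ S} // IsUnit (u i.1)} := by
  have : Fact (1 < N) := ⟨hN⟩
  refine Nat.card_le_card_of_injective
    (fun i : {i // IsUnit (u i)} => (⟨⟨i.1, fun h => by
      have h2 := i.2
      rw [h0 i.1 h] at h2
      exact not_isUnit_zero h2⟩, i.2⟩ : {i : {i // i ∉ S} // IsUnit (u i.1)})) ?_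
  intro i j hij
  have := congrArg (fun z => z.1.1) hij
  exact Subtype.ext this

/-- fixed prime power, fixed zero set -/
lemma fibre1 (hR : RowsStmt2) (p a y D k : ℕ) (q : ℝ) (hp : p.Prime) (ha : 1 ≤ a) (hy : 1 ≤ y)
    (hyp : y ≤ p ^ a) (hq : q = 1 / y + 3 / 2 / Real.sqrt (D + 1)) (hq1 : q ≤ 1)
    (S : Finset α) (b : Sym2 α → Bool) :
    (Nat.card {x : Fib.Rw S // CorLt (matZ (Fib.repl S b x)) k ∧ KS (p ^ a) D S (Fib.repl S b x)} : ℝ) ≤
      2 ^ S.card * q ^ (S.card - a * k) * 2 ^ (Fintype.card {i // i ∉ S} * S.card) := by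
  classical
  have hq0 : 0 ≤ q := by
    rw [hq]
    positivity
  have i1 : NeZero (p ^ a) := ⟨pow_ne_zero _ hp.ne_zero⟩
  have h1p : 1 < p ^ a := Nat.one_lt_pow (by omega) hp.one_lt
  by_cases hne : ∃ x : Fib.Rw S, CorLt (matZ (Fib.repl S b x)) k ∧ KS (p ^ a) D S (Fib.repl S b x)
  swap
  · have : IsEmpty {x : Fib.Rw S // CorLt (matZ (Fib.repl S b x)) k ∧ KS (p ^ a) D S (Fib.repl S b x)} :=
      ⟨fun x => hne ⟨x.1, x.2⟩⟩
    rw [Nat.card_of_isEmpty, Nat.cast_zero]
    positivity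
  obtain ⟨x0, hx0⟩ := hne
  set U : Submodule (ZMod (p ^ a)) ({i // i ∉ S} ⊕ Empty → ZMod (p ^ a)) :=
    LinearMap.ker ((blk S F0 b).map (Int.cast : ℤ → ZMod (p ^ a))).mulVecLin with hU
  have hmemU : ∀ w, w ∈ U ↔ (blk S F0 b).map (Int.cast : ℤ → ZMod (p ^ a)) *ᵥ w = 0 := by
    intro w
    rw [hU, LinearMap.mem_ker, Matrix.mulVecLin_apply]
  have hcU : Nat.card U ≤ p ^ (a * k) := by
    have h1 := rank_blk hp S (F0 : Matrix α Empty ℤ) _ hx0.1
    rw [blk_repl, Fintype.card_empty, add_zero] at h1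
    refine le_trans (le_of_eq ?_) (card_ker_le (blk S F0 b) hp h1)
    exact Nat.card_congr (Equiv.subtypeEquivRight fun w => hmemU w)
  set ℓ : Submodule (ZMod (p ^ a)) ({i // i ∉ S} ⊕ Empty → ZMod (p ^ a)) → ℕ :=
    fun V => Nat.log p (Nat.card V) with hℓ
  have hM : Nat.card ({i // i ∉ S} ⊕ Empty → ZMod (p ^ a)) =
      p ^ (a * Fintype.card ({i // i ∉ S} ⊕ Empty)) := by
    rw [Nat.card_eq_fintype_card, Fintype.card_fun, ZMod.card, ← pow_mul]
  have hmono : ∀ U V : Submodule (ZMod (p ^ a)) ({i // i ∉ S} ⊕ Empty → ZMod (p ^ a)),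
      V < U → ℓ V < ℓ U := fun U V h => log_card_lt hp hM h
  have hℓU : ℓ U ≤ a * k := by
    rw [hℓ]
    simp only
    have := Nat.log_mono_right (b := p) hcU
    rwa [Nat.log_pow hp.one_lt] at this
  have h1 := hR (ZMod (p ^ a)) {i // i ∉ S} Empty {i // i ∈ S}
    (fun w => D < Nat.card {i : {i // i ∉ S} // IsUnit ((w ∘ Sum.inl) i)})
    ℓ q (fun s' j => j.elim) hmono hq0 hq1
    (fun w hw c => atom_bd hyp hy hq (w ∘ Sum.inl) hw c) U _ hℓU
  rw [Fintype.card_coe] at h1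
  refine le_trans ?_ h1
  rw [Nat.cast_le]
  refine Nat.card_mono (Set.toFinite _) ?_
  rintro x ⟨-, u, hu, hD, h0⟩
  refine ⟨Sum.elim (fun j : {i // i ∉ S} => u j.1) (fun j : Empty => j.elim), ?_, ?_, ?_⟩
  · rw [hmemU, ← blk_repl S F0 b x]
    exact mem_ker S F0 _ u _ (word_F0 _ u hu) h0
  · exact lt_of_lt_of_le hD (card_units h1p S u h0)
  · intro s'
    have h3 := row_eq S F0 b x u _ (word_F0 _ u hu) h0 s'
    rw [Finset.univ_eq_empty, Finset.sum_empty] at h3 ⊢
    exact h3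

/-- rational rank of the block -/
lemma rank_blkQ {k : ℕ} (S : Finset α) (b : Sym2 α → Bool) (h : CorLt (matZ b) k) :
    Fintype.card {i // i ∉ S} + Fintype.card Empty ≤
      ((blk S (F0 : Matrix α Empty ℤ) b).map (Int.cast : ℤ → ℚ)).rank + k := by
  classical
  have i2 := Fact.mk Nat.prime_two
  have h1 := h 2 Nat.prime_two Sᶜ
  obtain ⟨A, hA, hcard, hdet, -⟩ := exists_base ((matZ b).map (Int.cast : ℤ → ZMod 2))
    (fun i j => by simp only [Matrix.map_apply]; rw [matZ_symm]) Sᶜ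
  have hdz : (prin (matZ b) A).det ≠ 0 := by
    intro h0
    apply hdet
    have : prin ((matZ b).map (Int.cast : ℤ → ZMod 2)) A = (prin (matZ b) A).map (Int.castRingHom (ZMod 2)) := rfl
    rw [this, ← RingHom.mapMatrix_apply, ← RingHom.map_det, h0, map_zero]
  have hdq : (prin ((matZ b).map (Int.cast : ℤ → ℚ)) A).det ≠ 0 := by
    have : prin ((matZ b).map (Int.cast : ℤ → ℚ)) A = (prin (matZ b) A).map (Int.castRingHom ℚ) := rfl
    rw [this, ← RingHom.mapMatrix_apply, ← RingHom.map_det]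
    simpa using hdz
  have hr : (prin ((matZ b).map (Int.cast : ℤ → ℚ)) A).rank = A.card := by
    rw [Matrix.rank_of_isUnit _ ((Matrix.isUnit_iff_isUnit_det _).2 (isUnit_iff_ne_zero.2 hdq)), Fintype.card_coe]
  have hAc : ∀ a : A, (a : α) ∉ S := fun a => mem_compl.1 (hA a.2)
  -- row and column selection
  set R1 : Matrix A {i // i ∉ S} ℚ := fun a i => if (a : α) = i.1 then 1 else 0 with hR1
  set C1 : Matrix ({i // i ∉ S} ⊕ Empty) A ℚ :=
    fun v a => Sum.elim (fun i : {i // i ∉ S} => if i.1 = (a : α) then 1 else 0) (fun _ => 0) v with hC1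
  have h3 : R1 * (blk S (F0 : Matrix α Empty ℤ) b).map (Int.cast : ℤ → ℚ) * C1 =
      prin ((matZ b).map (Int.cast : ℤ → ℚ)) A := by
    funext a c
    rw [Matrix.mul_apply, Fintype.sum_sum_type]
    rw [Finset.sum_eq_single (⟨(c : α), hAc c⟩ : {i // i ∉ S})]
    · rw [Matrix.mul_apply, Finset.sum_eq_single (⟨(a : α), hAc a⟩ : {i // i ∉ S})]
      · simp [hR1, hC1, blk, prin]
      · intro i _ hi
        have : ¬ ((a : α) = i.1) := fun h => hi (Subtype.ext h.symm)
        simp [hR1, this]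
      · intro h
        exact absurd (mem_univ _) h
    · intro i _ hi
      have : ¬ (i.1 = (c : α)) := fun h => hi (Subtype.ext h)
      simp [hC1, this]
    · intro h
      exact absurd (mem_univ _) h
  have h4 : A.card ≤ ((blk S (F0 : Matrix α Empty ℤ) b).map (Int.cast : ℤ → ℚ)).rank := by
    rw [← hr, ← h3]
    exact (Matrix.rank_mul_le_left _ _).trans (Matrix.rank_mul_le_right _ _)
  have e1 : Fintype.card {i // i ∉ S} = (Sᶜ).card := by
    rw [Fintype.card_subtype]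
    congr 1
    ext i
    simp
  rw [e1, Fintype.card_empty]
  omega

/-- a vector of the complement, extended by zero -/
lemma ext_ker {K : Type*} [CommRing K] (S : Finset α) (b : Sym2 α → Bool) (x : Fib.Rw S)
    (w : {i // i ∉ S} ⊕ Empty → K)
    (h1 : (blk S (F0 : Matrix α Empty ℤ) b).map (Int.cast : ℤ → K) *ᵥ w = 0)
    (h2 : ∀ s : {i // i ∈ S}, bdot (x s) (w ∘ Sum.inl) = 0) :
    (matZ (Fib.repl S b x)).map (Int.cast : ℤ → K) *ᵥ
      (fun i => if h : i ∉ S then w (Sum.inl ⟨i, h⟩) else 0) = 0 := by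
  classical
  funext i
  rw [Matrix.mulVec, dotProduct]
  rw [sum_compl S _ (fun j hj => by rw [dif_neg (not_not.2 hj), mul_zero])]
  by_cases hi : i ∈ S
  · have h3 := h2 ⟨i, hi⟩
    refine Eq.trans ?_ h3
    unfold bdot
    refine Finset.sum_congr rfl fun j _ => ?_
    rw [dif_pos j.2, Matrix.map_apply, matZ, Fib.repl_ST S b x hi j.2]
    by_cases hx : x ⟨i, hi⟩ j = true
    · simp [hx]
    · simp [hx]
  · have h3 := congrFun h1 ⟨i, hi⟩
    rw [Matrix.mulVec, dotProduct, Fintype.sum_sum_type, Finset.univ_eq_empty (α := Empty), Finset.sum_empty,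
      add_zero] at h3
    refine Eq.trans ?_ h3
    refine Finset.sum_congr rfl fun j _ => ?_
    rw [dif_pos j.2, Matrix.map_apply, matZ, Fib.repl_TT S b x hi j.2]
    rfl

/-- all large primes, fixed zero set -/
lemma fibre2 (hC : CoreStmt2) (y D k : ℕ) (q : ℝ) (hy : 2 ≤ y)
    (hq : q = 1 / y + 3 / 2 / Real.sqrt (D + 1)) (hq1 : q ≤ 1)
    (S : Finset α) (b : Sym2 α → Bool) :
    (Nat.card {x : Fib.Rw S // CorLt (matZ (Fib.repl S b x)) k ∧ (matZ (Fib.repl S b x)).det ≠ 0 ∧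
      ∃ p, p.Prime ∧ y ≤ p ∧ KS p D S (Fib.repl S b x)} : ℝ) ≤
      (Fintype.card α : ℝ) ^ 2 * 4 ^ S.card * q ^ (S.card - 2 * k) *
        2 ^ (Fintype.card {i // i ∉ S} * S.card) := by
  classical
  have hq0 : 0 ≤ q := by
    rw [hq]
    positivity
  by_cases hne : ∃ x : Fib.Rw S, CorLt (matZ (Fib.repl S b x)) k ∧ (matZ (Fib.repl S b x)).det ≠ 0 ∧
      ∃ p, p.Prime ∧ y ≤ p ∧ KS p D S (Fib.repl S b x)
  swap
  · have : IsEmpty {x : Fib.Rw S // CorLt (matZ (Fib.repl S b x)) k ∧ (matZ (Fib.repl S b x)).det ≠ 0 ∧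
      ∃ p, p.Prime ∧ y ≤ p ∧ KS p D S (Fib.repl S b x)} := ⟨fun x => hne ⟨x.1, x.2⟩⟩
    rw [Nat.card_of_isEmpty, Nat.cast_zero]
    positivity
  obtain ⟨x0, hx0⟩ := hne
  have hE : ∀ i j, |blk S (F0 : Matrix α Empty ℤ) b i j| ≤ ((1 : ℕ) : ℤ) := by
    intro i j
    rcases j with j | j
    · exact_mod_cast matZ_abs b i.1 j.1
    · exact j.elim
  have h1 := hC {i // i ∉ S} {i // i ∉ S} Empty {i // i ∈ S} (blk S (F0 : Matrix α Empty ℤ) b)
    (fun _ j => j.elim) 1 y k
    (fun p w => D < (univ.filter fun i : {i // i ∉ S} => w (Sum.inl i) ≠ 0).card) q le_rfl hE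
    (fun _ j => j.elim) hq0 hq1
    (by
      intro p w hw h0
      rw [h0] at hw
      simp at hw)
    (by
      intro p hp hyp w hw c
      have i3 : Fact p.Prime := ⟨hp⟩
      refine atom_bd hyp (by omega) hq (w ∘ Sum.inl) ?_ c
      refine lt_of_lt_of_le hw (le_of_eq ?_)
      rw [Nat.card_eq_fintype_card, Fintype.card_subtype]
      congr 1
      ext i
      simp only [mem_filter, mem_univ, true_and, Function.comp_apply, isUnit_iff_ne_zero])
    (by
      intro p hp hyp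
      have h2 := rank_blk hp S (F0 : Matrix α Empty ℤ) _ hx0.1
      rw [blk_repl, Fintype.card_sum, Fintype.card_empty, add_zero] at h2
      rw [Fintype.card_empty]
      omega)
    (by
      have h2 := rank_blkQ S _ hx0.1
      rwa [blk_repl] at h2)
  rw [Fintype.card_coe, Fintype.card_empty] at h1
  have h5 : ((1 : ℕ) : ℝ) * ((Fintype.card {i // i ∉ S} : ℝ) + ((0 : ℕ) : ℝ)) ^ 2 ≤ (Fintype.card α : ℝ) ^ 2 := by
    have h6 : (Fintype.card {i // i ∉ S} : ℝ) ≤ Fintype.card α := by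
      exact_mod_cast Fintype.card_subtype_le _
    rw [Nat.cast_one, one_mul, Nat.cast_zero, add_zero]
    gcongr
  have h7 : ((1 : ℕ) : ℝ) * ((Fintype.card {i // i ∉ S} : ℝ) + ((0 : ℕ) : ℝ)) ^ 2 * 4 ^ S.card *
      q ^ (S.card - 2 * k) * 2 ^ (Fintype.card {i // i ∉ S} * S.card) ≤
      (Fintype.card α : ℝ) ^ 2 * 4 ^ S.card * q ^ (S.card - 2 * k) *
        2 ^ (Fintype.card {i // i ∉ S} * S.card) := by
    gcongr
  refine le_trans ?_ (h1.trans h7)
  rw [Nat.cast_le]
  refine Nat.card_mono (Set.toFinite _) ?_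
  rintro x ⟨-, hdet, p, hp, hyp, u, hu, hD, h0⟩
  have i3 : Fact p.Prime := ⟨hp⟩
  refine ⟨?_, p, hp, hyp, Sum.elim (fun j : {i // i ∉ S} => u j.1) (fun j : Empty => j.elim), ?_, ?_, ?_⟩
  · intro w hw1 hw2
    have hw3 : ∀ s : {i // i ∈ S}, bdot (x s) (w ∘ Sum.inl) = 0 := by
      intro s
      have := hw2 s
      rwa [Finset.univ_eq_empty, Finset.sum_empty, add_zero] at this
    have h8 := ext_ker S b x w hw1 hw3
    have hdq : ((matZ (Fib.repl S b x)).map (Int.cast : ℤ → ℚ)).det ≠ 0 := by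
      have : (matZ (Fib.repl S b x)).map (Int.cast : ℤ → ℚ) =
        (matZ (Fib.repl S b x)).map (Int.castRingHom ℚ) := rfl
      rw [this, ← RingHom.mapMatrix_apply, ← RingHom.map_det]
      simpa using hdet
    have h9 := Matrix.eq_zero_of_mulVec_eq_zero hdq h8
    funext v
    rcases v with j | j
    · have h10 : (if h : j.1 ∉ S then w (Sum.inl ⟨j.1, h⟩) else 0) = 0 := congrFun h9 j.1
      rw [dif_pos j.2] at h10
      exact h10
    · exact j.elim
  · show D < (univ.filter fun i : {i // i ∉ S} => u i.1 ≠ 0).card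
    refine lt_of_lt_of_le (lt_of_lt_of_le hD (card_units hp.one_lt S u h0)) (le_of_eq ?_)
    rw [Nat.card_eq_fintype_card, Fintype.card_subtype]
    congr 1
    ext i
    simp only [mem_filter, mem_univ, true_and, isUnit_iff_ne_zero]
  · rw [← blk_repl S F0 b x]
    have hw := word_F0 _ u hu
    funext i
    have h1 := congrFun hw i.1
    rw [Pi.add_apply] at h1
    rw [Matrix.mulVec, dotProduct, Fintype.sum_sum_type]
    rw [Matrix.mulVec, dotProduct, sum_compl S _ (fun j hj => by rw [h0 j hj, mul_zero])] at h1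
    exact h1
  · intro s'
    rw [Finset.univ_eq_empty, Finset.sum_empty, add_zero]
    have h1 := congrFun hu s'.1
    rw [Matrix.mulVec, dotProduct, sum_compl S _ (fun j hj => by rw [h0 j hj, mul_zero])] at h1
    refine Eq.trans ?_ h1
    unfold bdot
    refine Finset.sum_congr rfl fun j _ => ?_
    rw [Matrix.map_apply, matZ, Fib.repl_ST S b x s'.2 j.2]
    by_cases hx : x s' j = true
    · simp [hx]
    · simp [hx]

lemma KV_iff {N D z : ℕ} {b : Sym2 α → Bool} (h : KV N D z b) : ∃ S : Finset α, S.card = z ∧ KS N D S b := by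
  obtain ⟨u, hu, hD, hz⟩ := h
  obtain ⟨S, hS, hSc⟩ := Finset.exists_subset_card_eq hz
  exact ⟨S, hSc, u, hu, hD, fun i hi => (mem_filter.1 (hS hi)).2⟩

/-- **killed lemma, finite form** -/
theorem kill_count (hR : RowsStmt2) (hC : CoreStmt2) (y D k z : ℕ) (q : ℝ) (hy : 2 ≤ y)
    (hq : q = 1 / y + 3 / 2 / Real.sqrt (D + 1)) (hq1 : q ≤ 1) :
    (Nat.card {b : Sym2 α → Bool // CorLt (matZ b) k ∧ (matZ b).det ≠ 0 ∧
      ∃ p, p.Prime ∧ KV (p ^ Nat.clog p y) D z b} : ℝ) ≤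
      ((y : ℝ) + (Fintype.card α : ℝ) ^ 2) * ((Fintype.card α).choose z * 4 ^ z) *
        q ^ (z - (Nat.clog 2 y + 1) * k) * 2 ^ Fintype.card (Sym2 α) := by
  classical
  have hq0 : 0 ≤ q := by
    rw [hq]
    positivity
  set r := (Nat.clog 2 y + 1) * k with hr
  have hc1 : 1 ≤ Nat.clog 2 y := Nat.clog_pos (by norm_num) hy
  -- small primes
  have k1 := Fib.card_union_le (Ω := Sym2 α → Bool)
    ((range y) ×ˢ (powersetCard z (univ : Finset α)))
    (fun i b => i.1.Prime ∧ (CorLt (matZ b) k ∧ KS (i.1 ^ Nat.clog i.1 y) D i.2 b))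
    (4 ^ z * q ^ (z - r) * 2 ^ Fintype.card (Sym2 α))
    (fun b => CorLt (matZ b) k ∧ ∃ p, p.Prime ∧ p < y ∧ KV (p ^ Nat.clog p y) D z b)
    (by
      rintro b ⟨hc, p, hp, hpy, hk⟩
      obtain ⟨S, hSc, hS⟩ := KV_iff hk
      refine ⟨(p, S), ?_, hp, hc, hS⟩
      rw [mem_product, mem_range, mem_powersetCard]
      exact ⟨hpy, subset_univ _, hSc⟩)
    (by
      rintro ⟨p, S⟩ hpS
      rw [mem_product, mem_range, mem_powersetCard] at hpS
      obtain ⟨-, -, hSc⟩ := hpS
      simp only at hSc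
      simp only
      by_cases hp : p.Prime
      · have hc2 : 1 ≤ Nat.clog p y := Nat.clog_pos hp.one_lt hy
        have h1 := Fib.fib S (fun b => CorLt (matZ b) k ∧ KS (p ^ Nat.clog p y) D S b)
          (2 ^ S.card * q ^ (S.card - Nat.clog p y * k) * 2 ^ (Fintype.card {i // i ∉ S} * S.card))
          (fun b => fibre1 hR p (Nat.clog p y) y D k q hp hc2 (by omega)
            (Nat.le_pow_clog hp.one_lt y) hq hq1 S b)
        have h2 : (Nat.card {b : Sym2 α → Bool // p.Prime ∧ (CorLt (matZ b) k ∧ KS (p ^ Nat.clog p y) D S b)} : ℝ) =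
            Nat.card {b : Sym2 α → Bool // CorLt (matZ b) k ∧ KS (p ^ Nat.clog p y) D S b} := by
          congr 1
          exact Nat.card_congr (Equiv.subtypeEquivRight fun b => by simp [hp])
        rw [h2]
        have h3 : (0 : ℝ) < 2 ^ (S.card * Fintype.card {i // i ∉ S}) := by positivity
        have h4 : (Nat.card {b : Sym2 α → Bool // CorLt (matZ b) k ∧ KS (p ^ Nat.clog p y) D S b} : ℝ) ≤
            2 ^ S.card * q ^ (S.card - Nat.clog p y * k) * 2 ^ Fintype.card (Sym2 α) := by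
          rw [mul_comm (Fintype.card {i // i ∉ S}) S.card] at h1
          refine le_of_mul_le_mul_right (h1.trans (le_of_eq ?_)) h3
          ring
        rw [hSc] at h4
        refine h4.trans ?_
        have h5 : Nat.clog p y * k ≤ r := by
          rw [hr]
          refine Nat.mul_le_mul_right _ ?_
          have : Nat.clog p y ≤ Nat.clog 2 y := Nat.clog_anti_left (by norm_num) hp.two_le
          omega
        have h6 : q ^ (z - Nat.clog p y * k) ≤ q ^ (z - r) :=
          pow_le_pow_of_le_one hq0 hq1 (by omega)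
        have h7 : (2 : ℝ) ^ z ≤ 4 ^ z := by gcongr; norm_num
        gcongr
      · have : IsEmpty {b : Sym2 α → Bool // p.Prime ∧ (CorLt (matZ b) k ∧ KS (p ^ Nat.clog p y) D S b)} :=
          ⟨fun b => hp b.2.1⟩
        rw [Nat.card_of_isEmpty, Nat.cast_zero]
        positivity)
  rw [card_product, card_range, card_powersetCard, card_univ] at k1
  -- large primes
  have k2 := Fib.card_union_le (Ω := Sym2 α → Bool) (powersetCard z (univ : Finset α))
    (fun S b => CorLt (matZ b) k ∧ (matZ b).det ≠ 0 ∧ ∃ p, p.Prime ∧ y ≤ p ∧ KS p D S b)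
    ((Fintype.card α : ℝ) ^ 2 * 4 ^ z * q ^ (z - r) * 2 ^ Fintype.card (Sym2 α))
    (fun b => CorLt (matZ b) k ∧ (matZ b).det ≠ 0 ∧ ∃ p, p.Prime ∧ y ≤ p ∧ KV (p ^ Nat.clog p y) D z b)
    (by
      rintro b ⟨hc, hd, p, hp, hpy, hk⟩
      rw [Nat.clog_eq_one hy hpy, pow_one] at hk
      obtain ⟨S, hSc, hS⟩ := KV_iff hk
      refine ⟨S, ?_, hc, hd, p, hp, hpy, hS⟩
      rw [mem_powersetCard]
      exact ⟨subset_univ _, hSc⟩)
    (by
      intro S hpS
      rw [mem_powersetCard] at hpS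
      obtain ⟨-, hSc⟩ := hpS
      have h1 := Fib.fib S (fun b => CorLt (matZ b) k ∧ (matZ b).det ≠ 0 ∧ ∃ p, p.Prime ∧ y ≤ p ∧ KS p D S b)
          ((Fintype.card α : ℝ) ^ 2 * 4 ^ S.card * q ^ (S.card - 2 * k) *
            2 ^ (Fintype.card {i // i ∉ S} * S.card))
          (fun b => fibre2 hC y D k q hy hq hq1 S b)
      have h3 : (0 : ℝ) < 2 ^ (S.card * Fintype.card {i // i ∉ S}) := by positivity
      have h4 : (Nat.card {b : Sym2 α → Bool // CorLt (matZ b) k ∧ (matZ b).det ≠ 0 ∧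
          ∃ p, p.Prime ∧ y ≤ p ∧ KS p D S b} : ℝ) ≤
          (Fintype.card α : ℝ) ^ 2 * 4 ^ S.card * q ^ (S.card - 2 * k) * 2 ^ Fintype.card (Sym2 α) := by
        rw [mul_comm (Fintype.card {i // i ∉ S}) S.card] at h1
        refine le_of_mul_le_mul_right (h1.trans (le_of_eq ?_)) h3
        ring
      rw [hSc] at h4
      refine h4.trans ?_
      have h5 : 2 * k ≤ r := by
        rw [hr]
        exact Nat.mul_le_mul_right _ (by omega)
      have h6 : q ^ (z - 2 * k) ≤ q ^ (z - r) := pow_le_pow_of_le_one hq0 hq1 (by omega)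
      gcongr)
  rw [card_powersetCard, card_univ] at k2
  have k3 : Nat.card {b : Sym2 α → Bool // CorLt (matZ b) k ∧ (matZ b).det ≠ 0 ∧
      ∃ p, p.Prime ∧ KV (p ^ Nat.clog p y) D z b} ≤
      Nat.card {b : Sym2 α → Bool // CorLt (matZ b) k ∧ ∃ p, p.Prime ∧ p < y ∧ KV (p ^ Nat.clog p y) D z b} +
      Nat.card {b : Sym2 α → Bool // CorLt (matZ b) k ∧ (matZ b).det ≠ 0 ∧
        ∃ p, p.Prime ∧ y ≤ p ∧ KV (p ^ Nat.clog p y) D z b} := by
    simp only [Nat.card_eq_fintype_card, Fintype.card_subtype]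
    refine (card_le_card ?_).trans (card_union_le _ _)
    intro b hb
    rw [mem_filter] at hb
    obtain ⟨-, hc, hd, p, hp, hk⟩ := hb
    rw [mem_union, mem_filter, mem_filter]
    rcases lt_or_ge p y with h | h
    · exact Or.inl ⟨mem_univ _, hc, p, hp, h, hk⟩
    · exact Or.inr ⟨mem_univ _, hc, hd, p, hp, h, hk⟩
  have k4 : (Nat.card {b : Sym2 α → Bool // CorLt (matZ b) k ∧ (matZ b).det ≠ 0 ∧
      ∃ p, p.Prime ∧ KV (p ^ Nat.clog p y) D z b} : ℝ) ≤
      (Nat.card {b : Sym2 α → Bool // CorLt (matZ b) k ∧ ∃ p, p.Prime ∧ p < y ∧ KV (p ^ Nat.clog p y) D z b} : ℝ) +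
      (Nat.card {b : Sym2 α → Bool // CorLt (matZ b) k ∧ (matZ b).det ≠ 0 ∧
        ∃ p, p.Prime ∧ y ≤ p ∧ KV (p ^ Nat.clog p y) D z b} : ℝ) := by exact_mod_cast k3
  refine k4.trans ((add_le_add k1 k2).trans (le_of_eq ?_))
  push_cast
  ring

end Vale.Agent.P160.Half.G.Kill
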