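import Mathlib

/-! # P160, half rate: the kill lemma, real inequalities -/

namespace Vale.Agent.P160.Half.Kill955

open Filter

theorem ev_facts (η M : ℝ) (h0 : 0 < η) (h1 : η < 1 / 2) : ∃ m₀ : ℕ, ∀ m : ℕ, m₀ ≤ m →
    M ≤ (m : ℝ) ∧ M ≤ Real.logb 2 m ∧ Real.logb 2 m ≤ (m : ℝ) ^ (1 / 8 : ℝ) ∧ M ≤ (m : ℝ) ^ (1 / 8 : ℝ) ∧
      M ≤ (m : ℝ) ^ (2 * η) ∧ M ≤ (m : ℝ) ^ (1 / 2 - η) := by
  have hc : Tendsto (fun m : ℕ => (m : ℝ)) atTop atTop := tendsto_natCast_atTop_atTop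
  have e1 : ∀ᶠ m : ℕ in atTop, M ≤ (m : ℝ) := hc.eventually_ge_atTop M
  have e2 : ∀ᶠ m : ℕ in atTop, M ≤ Real.logb 2 m :=
    ((Real.tendsto_logb_atTop (by norm_num : (1 : ℝ) < 2)).comp hc).eventually_ge_atTop M
  have e3 : ∀ᶠ m : ℕ in atTop, Real.logb 2 m ≤ (m : ℝ) ^ (1 / 8 : ℝ) := by
    have h := (isLittleO_log_rpow_atTop (by norm_num : (0 : ℝ) < 1 / 8)).def (Real.log_pos (by norm_num : (1 : ℝ) < 2))
    filter_upwards [hc.eventually h] with m hm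
    rw [Real.logb, div_le_iff₀ (Real.log_pos (by norm_num))]
    have h2 := (le_abs_self _).trans hm
    rw [Real.norm_of_nonneg (by positivity)] at h2
    linarith
  have ep : ∀ s : ℝ, 0 < s → ∀ᶠ m : ℕ in atTop, M ≤ (m : ℝ) ^ s := fun s hs =>
    ((tendsto_rpow_atTop hs).comp hc).eventually_ge_atTop M
  have h := (e1.and (e2.and (e3.and ((ep _ (by norm_num : (0 : ℝ) < 1 / 8)).and ((ep (2 * η) (by linarith)).and
    (ep (1 / 2 - η) (by linarith)))))))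
  exact eventually_atTop.1 h

theorem choose_mul_pow_le (m K : ℕ) (d : ℝ) (hd : 0 ≤ d) : (Nat.choose m K : ℝ) * d ^ K ≤ (1 + d) ^ m := by
  rcases le_or_gt K m with h | h
  · rw [add_comm, add_pow]
    have h1 := Finset.single_le_sum (f := fun j => d ^ j * 1 ^ (m - j) * (Nat.choose m j : ℝ))
      (fun j _ => by positivity) (Finset.mem_range.2 (Nat.lt_succ_of_le h))
    simp only [one_pow, mul_one] at h1 ⊢
    linarith [mul_comm (d ^ K) (Nat.choose m K : ℝ)]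
  · rw [Nat.choose_eq_zero_of_lt h]
    simp only [Nat.cast_zero, zero_mul]
    positivity

/-- the term `q ^ (K - r)` -/
theorem q_pow_le (q a : ℝ) (K r : ℕ) (hq : 0 ≤ q) (ha : 0 < a) (ha1 : a ≤ 1)
    (h : q ≤ 5 / 2 * a) : q ^ (K - r) * a ^ r ≤ (5 / 2) ^ K * a ^ K := by
  rcases le_or_gt r K with hk | hk
  · have h1 : q ^ (K - r) ≤ (5 / 2 * a) ^ (K - r) := pow_le_pow_left₀ hq h _
    have h2 : (5 / 2 * a) ^ (K - r) * a ^ r = (5 / 2) ^ (K - r) * a ^ K := by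
      rw [mul_pow, mul_assoc, ← pow_add]
      congr 2
      omega
    have h3 : (5 / 2 : ℝ) ^ (K - r) ≤ (5 / 2) ^ K := pow_le_pow_right₀ (by norm_num) (by omega)
    calc _ ≤ (5 / 2 * a) ^ (K - r) * a ^ r := mul_le_mul_of_nonneg_right h1 (by positivity)
      _ = (5 / 2) ^ (K - r) * a ^ K := h2
      _ ≤ _ := mul_le_mul_of_nonneg_right h3 (by positivity)
  · rw [show K - r = 0 by omega, pow_zero, one_mul]
    have h1 : a ^ r ≤ a ^ K := pow_le_pow_of_le_one ha.le ha1 hk.le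
    have h2 : (1 : ℝ) ≤ (5 / 2) ^ K := one_le_pow₀ (by norm_num)
    nlinarith [pow_pos ha K]

/-- `r log m ≤ ε m / 4`, with `w = m ^ (1/8)` -/
theorem r_log (ε c₁ w mr k r ℓ : ℝ) (hε : 0 < ε) (hc : 0 ≤ c₁) (hw : 2 ≤ w) (hm : mr = w ^ 8) (hk : k ≤ c₁ * w ^ 4 + 1)
    (hℓ0 : 0 < ℓ) (hℓ : ℓ ≤ w) (hr : r ≤ (ℓ + 2) * k) (hk0 : 0 ≤ k) (hw2 : 12 * (c₁ + 3) / ε ≤ w) : r * ℓ ≤ ε * mr / 4 := by
  have hw0 : 0 < w := by linarith
  have h2 : (1 : ℝ) ≤ w ^ 4 := one_le_pow₀ (by linarith)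
  have h3 : k ≤ (c₁ + 1) * w ^ 4 := by linarith
  have h4 := hw2
  rw [div_le_iff₀ hε] at h4
  have h5 : r ≤ 2 * w * ((c₁ + 1) * w ^ 4) :=
    hr.trans (mul_le_mul (by linarith) h3 hk0 (by positivity))
  have h6 : r * ℓ ≤ 2 * w * ((c₁ + 1) * w ^ 4) * w :=
    (mul_le_mul_of_nonneg_right h5 hℓ0.le).trans (mul_le_mul_of_nonneg_left hℓ (by positivity))
  have h7 : 0 < w ^ 6 := by positivity
  have h8 : 12 * (c₁ + 3) * w ^ 6 ≤ w * ε * w ^ 6 := mul_le_mul_of_nonneg_right h4 h7.le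
  have h9 : 2 * w * ((c₁ + 1) * w ^ 4) * w = 2 * (c₁ + 1) * w ^ 6 := by ring
  have h10 : w * ε * w ^ 6 = ε * w ^ 7 := by ring
  have h11 : ε * w ^ 7 ≤ ε * w ^ 8 := by
    apply mul_le_mul_of_nonneg_left _ hε.le
    exact pow_le_pow_right₀ (by linarith) (by norm_num)
  have h12 : 2 * (c₁ + 1) * w ^ 6 * 4 ≤ 12 * (c₁ + 3) * w ^ 6 := by nlinarith
  rw [hm]
  linarith

/-- `9 m² ≤ 2 ^ (ε m / 4)` -/
theorem nine (ε w mr ℓ : ℝ) (hε : 0 < ε) (hw : 100 ≤ w) (hm : mr = w ^ 8) (hℓ : ℓ ≤ w)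
    (hml : mr = 2 ^ ℓ) (hw2 : 16 / ε ≤ w) : 9 * mr ^ 2 ≤ 2 ^ (ε * mr / 4) := by
  have hw0 : 0 < w := by linarith
  have hm0 : 0 < mr := by rw [hm]; positivity
  have h1 : 9 * mr ^ 2 ≤ 2 ^ (4 + 2 * ℓ) := by
    rw [Real.rpow_add (by norm_num), mul_comm 2 ℓ, Real.rpow_mul (by norm_num), ← hml]
    have h2 : (2 : ℝ) ^ (4 : ℝ) = 16 := by norm_num
    have h3 : mr ^ (2 : ℝ) = mr ^ 2 := by norm_num
    rw [h2, h3]
    linarith [pow_pos hm0 2]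
  refine h1.trans (Real.rpow_le_rpow_of_exponent_le (by norm_num) ?_)
  have h4 := hw2
  rw [div_le_iff₀ hε] at h4
  have h5 : 4 + 2 * ℓ ≤ 3 * w := by linarith
  have h7 : (1 : ℝ) ≤ w ^ 6 := one_le_pow₀ (by linarith)
  have h8 : 16 * w ≤ (w * ε) * w := mul_le_mul_of_nonneg_right h4 hw0.le
  have h9 : w * ε * w ≤ (w * ε * w) * w ^ 6 := le_mul_of_one_le_right (by positivity) h7
  have h10 : (w * ε * w) * w ^ 6 = ε * w ^ 8 := by ring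
  rw [hm]
  linarith

/-- term 1 -/
theorem term1 (C E X : ℝ) (C' m : ℕ) (hC' : C + 4 ≤ C') (hm : 1 ≤ m) (hE : 1 ≤ E) (hX : 0 < X)
    (hXlow : (2 : ℝ) ^ (-(C * m)) ≤ X) : 1 / 2 ^ (C' * m) ≤ 1 / 3 * (E * X) := by
  have hm1 : (1 : ℝ) ≤ m := by exact_mod_cast hm
  have h1 : (1 : ℝ) / 2 ^ (C' * m) = 2 ^ (-((C' : ℝ) * m)) := by
    rw [Real.rpow_neg (by norm_num), one_div, ← Real.rpow_natCast]
    push_cast
    rfl
  have h2 : (2 : ℝ) ^ (-((C' : ℝ) * m)) ≤ 2 ^ (-(C * m) + (-2)) := by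
    apply Real.rpow_le_rpow_of_exponent_le (by norm_num)
    nlinarith
  rw [Real.rpow_add (by norm_num)] at h2
  have h3 : (2 : ℝ) ^ (-2 : ℝ) = 1 / 4 := by
    rw [Real.rpow_neg (by norm_num)]; norm_num
  rw [h3] at h2
  rw [h1]
  have h4 : X ≤ E * X := le_mul_of_one_le_left hX.le hE
  linarith

/-- term 3 -/
theorem term3 (ε C δ a q ℓ : ℝ) (m K r : ℕ) (hε : 0 < ε) (hδ0 : 0 < δ) (hδ : 1 + δ = 2 ^ (ε / 4))
    (ha0 : 0 < a) (ha1 : a ≤ 1) (hq0 : 0 ≤ q) (hqa : q ≤ 5 / 2 * a) (hℓ0 : 0 < ℓ)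
    (hKℓ : (K : ℝ) * ℓ ≤ C * m) (hℓ1 : 4 * C * |Real.logb 2 (10 / δ)| / ε ≤ ℓ)
    (h9 : 9 * (m : ℝ) ^ 2 ≤ 2 ^ (ε * m / 4)) (hk3 : (2 : ℝ) ^ (-(ε * m / 4)) ≤ a ^ r) :
    3 * (m : ℝ) ^ 2 * (Nat.choose m K * 4 ^ K) * q ^ (K - r) ≤ 1 / 3 * (2 ^ (ε * m) * a ^ K) := by
  have hqa' := q_pow_le q a K r hq0 ha0 ha1 hqa
  have hch := choose_mul_pow_le m K δ hδ0.le
  have hδm : (1 + δ) ^ m = (2 : ℝ) ^ (ε * m / 4) := by
    rw [hδ, ← Real.rpow_natCast, ← Real.rpow_mul (by norm_num)]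
    congr 1
    ring
  have h10 : (10 / δ) ^ K ≤ (2 : ℝ) ^ (ε * m / 4) := by
    have h1 : (10 / δ) = (2 : ℝ) ^ Real.logb 2 (10 / δ) := by
      rw [Real.rpow_logb (by norm_num) (by norm_num) (by positivity)]
    rw [h1, ← Real.rpow_natCast, ← Real.rpow_mul (by norm_num)]
    apply Real.rpow_le_rpow_of_exponent_le (by norm_num)
    have h2 := hℓ1
    rw [div_le_iff₀ hε] at h2
    have h3 : Real.logb 2 (10 / δ) * K ≤ |Real.logb 2 (10 / δ)| * K :=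
      mul_le_mul_of_nonneg_right (le_abs_self _) (Nat.cast_nonneg _)
    have h4 : |Real.logb 2 (10 / δ)| * K * ℓ ≤ ε * m / 4 * ℓ := by
      have h5 : |Real.logb 2 (10 / δ)| * (K * ℓ) ≤ |Real.logb 2 (10 / δ)| * (C * m) :=
        mul_le_mul_of_nonneg_left hKℓ (abs_nonneg _)
      have hmn : (0 : ℝ) ≤ m := Nat.cast_nonneg _
      nlinarith
    exact h3.trans (le_of_mul_le_mul_right h4 hℓ0)
  have e1 : (2 : ℝ) ^ (-(ε * m / 4)) * 2 ^ (ε * m / 4) = 1 := by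
    rw [← Real.rpow_add (by norm_num), neg_add_cancel, Real.rpow_zero]
  have h11 : q ^ (K - r) ≤ (5 / 2) ^ K * a ^ K * 2 ^ (ε * m / 4) := by
    have h12 : q ^ (K - r) * 2 ^ (-(ε * m / 4)) ≤ (5 / 2) ^ K * a ^ K :=
      (mul_le_mul_of_nonneg_left hk3 (by positivity)).trans hqa'
    calc q ^ (K - r) = q ^ (K - r) * 2 ^ (-(ε * m / 4)) * 2 ^ (ε * m / 4) := by rw [mul_assoc, e1, mul_one]
      _ ≤ _ := mul_le_mul_of_nonneg_right h12 (by positivity)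
  have h13 : (Nat.choose m K : ℝ) * 4 ^ K * (5 / 2) ^ K ≤ 2 ^ (ε * m / 4) * 2 ^ (ε * m / 4) := by
    have h14 : (Nat.choose m K : ℝ) * 4 ^ K * (5 / 2) ^ K = (Nat.choose m K * δ ^ K) * (10 / δ) ^ K := by
      have h15 : (4 : ℝ) ^ K * (5 / 2) ^ K = δ ^ K * (10 / δ) ^ K := by
        rw [← mul_pow, ← mul_pow]
        congr 1
        field_simp
        norm_num
      rw [mul_assoc, h15, mul_assoc]
    rw [h14]
    apply mul_le_mul _ h10 (by positivity) (by positivity)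
    rw [← hδm]
    exact hch
  have e4 : (2 : ℝ) ^ (ε * m) = 2 ^ (ε * m / 4) * 2 ^ (ε * m / 4) * 2 ^ (ε * m / 4) * 2 ^ (ε * m / 4) := by
    rw [← Real.rpow_add (by norm_num), ← Real.rpow_add (by norm_num), ← Real.rpow_add (by norm_num)]
    congr 1
    ring
  rw [e4]
  set E := (2 : ℝ) ^ (ε * m / 4) with hE
  have hEp : 0 < E := by positivity
  calc 3 * (m : ℝ) ^ 2 * (Nat.choose m K * 4 ^ K) * q ^ (K - r)
      ≤ 3 * (m : ℝ) ^ 2 * (Nat.choose m K * 4 ^ K) * ((5 / 2) ^ K * a ^ K * E) :=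
        mul_le_mul_of_nonneg_left h11 (by positivity)
    _ = 1 / 3 * (9 * (m : ℝ) ^ 2) * (Nat.choose m K * 4 ^ K * (5 / 2) ^ K) * (a ^ K * E) := by ring
    _ ≤ 1 / 3 * E * (E * E) * (a ^ K * E) := by gcongr
    _ = _ := by ring

end Vale.Agent.P160.Half.Kill955
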