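import Vale.Agent.P160.Half.SparseDel
import Vale.Agent.P160.Half.Cor1

set_option linter.unusedSectionVars false

/-! # P160/Half: no sparse kernel vector modulo any prime (11281 (3)) -/

namespace Vale.Agent.P160.Half.SparseAll

open Finset Module Vale.Agent.P160.Half.SparseDel Vale.Agent.P160.Half Vale.Agent.P160.Half.Cor1

section dep

/-- 0/1 vectors over `F` -/
def vec (F : Type*) [Zero F] [One F] {m : ℕ} (x : Fin m → Bool) : Fin m → F :=
  fun i => if x i then 1 else 0

variable (F : Type*) [Field F]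

open scoped Classical in
lemma card_vec_mem {m : ℕ} (V : Submodule F (Fin m → F)) :
    ((univ.filter fun x : Fin m → Bool => vec F x ∈ V).card : ℝ) ≤
      (1 / 2 : ℝ) ^ (m - finrank F V) * 2 ^ m := by
  have h := odl (Om := Bool) (F := F) (fun w => if w then 1 else 0) (al := 1 / 2) (by norm_num)
    (by norm_num) (fun z => by
      have h1 : (univ.filter fun w : Bool => (if w then (1 : F) else 0) = z).card ≤ 1 := by
        rw [Finset.card_le_one]
        intro a ha b hb
        simp only [mem_filter, mem_univ, true_and] at ha hb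
        rw [← hb] at ha
        cases a <;> cases b <;> simp at ha ⊢
      have h2 : ((univ.filter fun w : Bool => (if w then (1 : F) else 0) = z).card : ℝ) ≤ 1 := by
        exact_mod_cast h1
      refine h2.trans ?_
      simp) m V 0
  simp only [Fintype.card_bool, Nat.cast_ofNat] at h
  refine le_trans (le_of_eq ?_) h
  congr 3
  ext x
  rw [sub_zero]
  rfl

open scoped Classical in
/-- `s` random 0/1 vectors of length `m` are dependent with probability `≤ s 2 ^ (s - 1 - m)` -/
theorem card_dep (m s : ℕ) :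
    ((univ.filter fun C : Fin s → Fin m → Bool =>
      ¬ LinearIndependent F (fun j => vec F (C j))).card : ℝ) * 2 ^ m ≤
      s * 2 ^ s * 2 ^ (m * s) := by
  rcases s with _ | a
  · simp
  · have hcov : ∀ C : Fin (a + 1) → Fin m → Bool, ¬ LinearIndependent F (fun j => vec F (C j)) →
        ∃ j, vec F (C j) ∈ Submodule.span F (Set.range fun r : Fin a => vec F (C (j.succAbove r))) := by
      intro C hC
      rw [Fintype.not_linearIndependent_iff] at hC
      obtain ⟨g, hg, j, hj⟩ := hC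
      refine ⟨j, ?_⟩
      rw [Fin.sum_univ_succAbove _ j] at hg
      have h1 : vec F (C j) = ∑ r : Fin a, (-(g j)⁻¹ * g (j.succAbove r)) • vec F (C (j.succAbove r)) := by
        have h2 : g j • vec F (C j) = -∑ r : Fin a, g (j.succAbove r) • vec F (C (j.succAbove r)) :=
          eq_neg_of_add_eq_zero_left hg
        have h3 : vec F (C j) = (g j)⁻¹ • (g j • vec F (C j)) := by
          rw [smul_smul, inv_mul_cancel₀ hj, one_smul]
        rw [h3, h2, smul_neg, Finset.smul_sum, ← Finset.sum_neg_distrib]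
        apply Finset.sum_congr rfl
        intro r _
        rw [smul_smul, neg_mul, neg_smul]
      rw [h1]
      exact Submodule.sum_mem _ fun r _ => Submodule.smul_mem _ _ (Submodule.subset_span ⟨r, rfl⟩)
    have h1 : ((univ.filter fun C : Fin (a + 1) → Fin m → Bool =>
        ¬ LinearIndependent F (fun j => vec F (C j))).card : ℝ) ≤
        ∑ j : Fin (a + 1), ((univ.filter fun C : Fin (a + 1) → Fin m → Bool =>
          vec F (C j) ∈ Submodule.span F (Set.range fun r : Fin a =>
            vec F (C (j.succAbove r)))).card : ℝ) := by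
      have hsub : (univ.filter fun C : Fin (a + 1) → Fin m → Bool =>
        ¬ LinearIndependent F (fun j => vec F (C j))) ⊆ univ.biUnion fun j : Fin (a + 1) =>
          (univ.filter fun C : Fin (a + 1) → Fin m → Bool =>
          vec F (C j) ∈ Submodule.span F (Set.range fun r : Fin a => vec F (C (j.succAbove r)))) := by
        intro C hC
        simp only [mem_filter, mem_univ, true_and, mem_biUnion] at hC ⊢
        exact hcov C hC
      exact_mod_cast (Finset.card_le_card hsub).trans Finset.card_biUnion_le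
    have h2 : ∀ j : Fin (a + 1), ((univ.filter fun C : Fin (a + 1) → Fin m → Bool =>
          vec F (C j) ∈ Submodule.span F (Set.range fun r : Fin a =>
            vec F (C (j.succAbove r)))).card : ℝ) * 2 ^ m ≤ 2 ^ (a + 1) * 2 ^ (m * (a + 1)) := by
      intro j
      rw [Finset.card_filter, Nat.cast_sum, sum_split j]
      have h3 : ∀ C' : Fin a → Fin m → Bool, ∑ x : Fin m → Bool,
          (((if vec F ((Fin.insertNth j x C' : Fin (a + 1) → Fin m → Bool) j) ∈
            Submodule.span F (Set.range fun r : Fin a => vec F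
              ((Fin.insertNth j x C' : Fin (a + 1) → Fin m → Bool) (j.succAbove r)))
            then 1 else 0 : ℕ)) : ℝ) * 2 ^ m ≤ 2 ^ a * 2 ^ m := by
        intro C'
        have h4 : ∀ x : Fin m → Bool,
          (((if vec F ((Fin.insertNth j x C' : Fin (a + 1) → Fin m → Bool) j) ∈
            Submodule.span F (Set.range fun r : Fin a => vec F
              ((Fin.insertNth j x C' : Fin (a + 1) → Fin m → Bool) (j.succAbove r)))
            then 1 else 0 : ℕ)) : ℝ) = ((if vec F x ∈
            Submodule.span F (Set.range fun r : Fin a => vec F (C' r)) then 1 else 0 : ℕ) : ℝ) := by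
          intro x
          rw [Fin.insertNth_apply_same (α := fun _ => Fin m → Bool) j x C']
          have h5 : (fun r : Fin a => vec F
              ((Fin.insertNth j x C' : Fin (a + 1) → Fin m → Bool) (j.succAbove r))) =
              fun r => vec F (C' r) := by
            funext r
            rw [Fin.insertNth_apply_succAbove (α := fun _ => Fin m → Bool) j x C' r]
          rw [h5]
        rw [← Finset.sum_mul, Finset.sum_congr rfl (fun x _ => h4 x), ← Nat.cast_sum,
          ← Finset.card_filter]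
        have h6 := card_vec_mem F (Submodule.span F (Set.range fun r : Fin a => vec F (C' r)))
        have h7 : finrank F (Submodule.span F (Set.range fun r : Fin a => vec F (C' r))) ≤ a := by
          have := finrank_range_le_card (R := F) (fun r : Fin a => vec F (C' r))
          rwa [Set.finrank, Fintype.card_fin] at this
        have h8 : (1 / 2 : ℝ) ^ (m - finrank F (Submodule.span F
            (Set.range fun r : Fin a => vec F (C' r)))) ≤ 2 ^ a * (1 / 2 : ℝ) ^ m := by
          have h9 : m ≤ (m - finrank F (Submodule.span F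
            (Set.range fun r : Fin a => vec F (C' r)))) + a := by omega
          have h10 : (1 / 2 : ℝ) ^ ((m - finrank F (Submodule.span F
            (Set.range fun r : Fin a => vec F (C' r)))) + a) ≤ (1 / 2 : ℝ) ^ m :=
            pow_le_pow_of_le_one (by norm_num) (by norm_num) h9
          rw [pow_add] at h10
          have h11 : (1 / 2 : ℝ) ^ a * 2 ^ a = 1 := by rw [← mul_pow]; norm_num
          calc (1 / 2 : ℝ) ^ (m - finrank F (Submodule.span F
              (Set.range fun r : Fin a => vec F (C' r)))) =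
              2 ^ a * ((1 / 2 : ℝ) ^ (m - finrank F (Submodule.span F
              (Set.range fun r : Fin a => vec F (C' r)))) * (1 / 2 : ℝ) ^ a) := by
                rw [mul_comm, mul_assoc, h11, mul_one]
            _ ≤ 2 ^ a * (1 / 2 : ℝ) ^ m := by gcongr
        have h12 : (1 / 2 : ℝ) ^ m * 2 ^ m = 1 := by rw [← mul_pow]; norm_num
        calc _ ≤ ((1 / 2 : ℝ) ^ (m - finrank F (Submodule.span F
              (Set.range fun r : Fin a => vec F (C' r)))) * 2 ^ m) * 2 ^ m := by gcongr
          _ ≤ ((2 ^ a * (1 / 2 : ℝ) ^ m) * 2 ^ m) * 2 ^ m := by gcongr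
          _ = 2 ^ a * 2 ^ m := by rw [mul_assoc (2 ^ a), h12, mul_one]
      rw [Finset.sum_mul]
      calc _ ≤ ∑ C' : Fin a → Fin m → Bool, (2 ^ a * 2 ^ m : ℝ) := Finset.sum_le_sum fun C' _ => by
            rw [Finset.sum_mul]; exact h3 C'
        _ = 2 ^ a * 2 ^ (m * (a + 1)) := by
            rw [sum_const, card_univ, nsmul_eq_mul]
            simp only [Fintype.card_pi, Fintype.card_bool, prod_const, card_univ, Fintype.card_fin]
            push_cast
            rw [← pow_mul]
            ring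
        _ ≤ _ := by
            gcongr
            · norm_num
            · omega
    calc _ ≤ (∑ j : Fin (a + 1), ((univ.filter fun C : Fin (a + 1) → Fin m → Bool =>
          vec F (C j) ∈ Submodule.span F (Set.range fun r : Fin a =>
            vec F (C (j.succAbove r)))).card : ℝ)) * 2 ^ m := by gcongr
      _ = ∑ j : Fin (a + 1), ((univ.filter fun C : Fin (a + 1) → Fin m → Bool =>
          vec F (C j) ∈ Submodule.span F (Set.range fun r : Fin a =>
            vec F (C (j.succAbove r)))).card : ℝ) * 2 ^ m := Finset.sum_mul _ _ _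
      _ ≤ ∑ _j : Fin (a + 1), (2 ^ (a + 1) * 2 ^ (m * (a + 1)) : ℝ) :=
        Finset.sum_le_sum fun j _ => h2 j
      _ = _ := by
        rw [sum_const, card_univ, nsmul_eq_mul, Fintype.card_fin]
        ring

end dep

section fix

open scoped Classical in
lemma card_Q1 (F : Type*) [Field F] (m s : ℕ) :
    ((univ.filter fun c : Fin s × Fin m → Bool =>
      ¬ LinearIndependent F (fun j => vec F (fun i => c (j, i)))).card : ℝ) * 2 ^ m ≤
      s * 2 ^ s * 2 ^ (m * s) := by
  refine le_trans (le_of_eq ?_) (card_dep F m s)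
  congr 2
  refine Finset.card_equiv (Equiv.curry _ _ _) fun c => ?_
  simp only [mem_filter, mem_univ, true_and]
  rfl

/-- the determinant of a 0/1 matrix given by bits -/
def dt {s : ℕ} (c : Fin s × Fin s → Bool) : ℤ :=
  (Matrix.of fun i j : Fin s => if c (j, i) then (1 : ℤ) else 0).det

lemma card_pf {s : ℕ} (c : Fin s × Fin s → Bool) (h : dt c ≠ 0) :
    (dt c).natAbs.primeFactors.card ≤ s * s := by
  apply card_primeFactors_le _ _ (Int.natAbs_ne_zero.2 h)
  have h1 : |dt c| ≤ s.factorial • (1 : ℤ) ^ s := by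
    have := Matrix.det_le (A := Matrix.of fun i j : Fin s => if c (j, i) then (1 : ℤ) else 0)
      (abv := AbsoluteValue.abs) (x := 1) (fun i j => by
        simp only [Matrix.of_apply, AbsoluteValue.abs_apply]
        split_ifs <;> simp)
    simpa [dt] using this
  have h2 : ((dt c).natAbs : ℤ) ≤ s.factorial := by
    rw [Int.natCast_natAbs]
    simpa using h1
  have h3 : (dt c).natAbs ≤ s.factorial := by exact_mod_cast h2
  calc (dt c).natAbs ≤ s.factorial := h3
    _ ≤ s ^ s := Nat.factorial_le_pow s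
    _ ≤ (2 ^ s) ^ s := Nat.pow_le_pow_left Nat.lt_two_pow_self.le s
    _ = 2 ^ (s * s) := by rw [← pow_mul]

/-- the second event: some prime divides the nonzero minor and the other rows are dependent -/
def Q2 (m s : ℕ) (c : (Fin s × Fin s) ⊕ (Fin s × Fin m) → Bool) : Prop :=
  dt (fun x => c (Sum.inl x)) ≠ 0 ∧ ∃ p ∈ (dt (fun x => c (Sum.inl x))).natAbs.primeFactors,
    ¬ LinearIndependent (ZMod p) (fun j => vec (ZMod p) (fun i => c (Sum.inr (j, i))))

open scoped Classical in
lemma card_Q2 (m s : ℕ) :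
    ((univ.filter fun c : (Fin s × Fin s) ⊕ (Fin s × Fin m) → Bool => Q2 m s c).card : ℝ) * 2 ^ m ≤
      (s * s : ℕ) * (s * 2 ^ s * 2 ^ (m * s)) * 2 ^ (s * s) := by
  have h1 : (univ.filter fun c : (Fin s × Fin s) ⊕ (Fin s × Fin m) → Bool => Q2 m s c).card =
      (univ.filter fun c : (Fin s × Fin s → Bool) × (Fin s × Fin m → Bool) =>
        Q2 m s (Sum.elim c.1 c.2)).card := by
    refine Finset.card_equiv (Equiv.sumArrowEquivProdArrow _ _ _) fun c => ?_
    simp only [mem_filter, mem_univ, true_and, Equiv.sumArrowEquivProdArrow,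
      Equiv.coe_fn_mk]
    have : Sum.elim (c ∘ Sum.inl) (c ∘ Sum.inr) = c := Sum.elim_comp_inl_inr c
    rw [this]
  rw [h1, Finset.card_filter, Nat.cast_sum, Fintype.sum_prod_type, Finset.sum_mul]
  have h2 : ∀ c1 : Fin s × Fin s → Bool, (∑ c2 : Fin s × Fin m → Bool,
      ((if Q2 m s (Sum.elim c1 c2) then 1 else 0 : ℕ) : ℝ)) * 2 ^ m ≤
        (s * s : ℕ) * (s * 2 ^ s * 2 ^ (m * s)) := by
    intro c1
    by_cases hd : dt c1 = 0
    · have h3 : ∀ c2 : Fin s × Fin m → Bool, ¬ Q2 m s (Sum.elim c1 c2) := by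
        intro c2 h
        exact h.1 hd
      simp only [h3, if_false, Nat.cast_zero, sum_const_zero, zero_mul]
      positivity
    · rw [← Nat.cast_sum, ← Finset.card_filter]
      have h4 : (univ.filter fun c2 : Fin s × Fin m → Bool => Q2 m s (Sum.elim c1 c2)) ⊆
          (dt c1).natAbs.primeFactors.biUnion fun p => univ.filter fun c2 : Fin s × Fin m → Bool =>
            ¬ LinearIndependent (ZMod p) (fun j => vec (ZMod p) (fun i => c2 (j, i))) := by
        intro c2 hc
        simp only [mem_filter, mem_univ, true_and, mem_biUnion] at hc ⊢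
        obtain ⟨-, p, hp, h⟩ := hc
        exact ⟨p, hp, h⟩
      have h5 : ∀ p ∈ (dt c1).natAbs.primeFactors, ((univ.filter fun c2 : Fin s × Fin m → Bool =>
            ¬ LinearIndependent (ZMod p) (fun j => vec (ZMod p) (fun i => c2 (j, i)))).card : ℝ) *
              2 ^ m ≤ s * 2 ^ s * 2 ^ (m * s) := by
        intro p hp
        have : Fact p.Prime := ⟨Nat.prime_of_mem_primeFactors hp⟩
        exact card_Q1 (ZMod p) m s
      have h6 : ((univ.filter fun c2 : Fin s × Fin m → Bool =>
          Q2 m s (Sum.elim c1 c2)).card : ℝ) ≤ ∑ p ∈ (dt c1).natAbs.primeFactors,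
            ((univ.filter fun c2 : Fin s × Fin m → Bool =>
            ¬ LinearIndependent (ZMod p) (fun j => vec (ZMod p) (fun i => c2 (j, i)))).card : ℝ) := by
        exact_mod_cast (Finset.card_le_card h4).trans Finset.card_biUnion_le
      calc _ ≤ (∑ p ∈ (dt c1).natAbs.primeFactors,
            ((univ.filter fun c2 : Fin s × Fin m → Bool =>
            ¬ LinearIndependent (ZMod p)
              (fun j => vec (ZMod p) (fun i => c2 (j, i)))).card : ℝ)) * 2 ^ m := by gcongr
        _ = ∑ p ∈ (dt c1).natAbs.primeFactors,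
            ((univ.filter fun c2 : Fin s × Fin m → Bool =>
            ¬ LinearIndependent (ZMod p)
              (fun j => vec (ZMod p) (fun i => c2 (j, i)))).card : ℝ) * 2 ^ m :=
          Finset.sum_mul _ _ _
        _ ≤ ∑ _p ∈ (dt c1).natAbs.primeFactors, (s * 2 ^ s * 2 ^ (m * s) : ℝ) :=
          Finset.sum_le_sum h5
        _ = ((dt c1).natAbs.primeFactors.card : ℝ) * (s * 2 ^ s * 2 ^ (m * s)) := by
          rw [sum_const, nsmul_eq_mul]
        _ ≤ _ := by
          gcongr
          exact card_pf c1 hd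
  calc _ ≤ ∑ _c1 : Fin s × Fin s → Bool, ((s * s : ℕ) * (s * 2 ^ s * 2 ^ (m * s)) : ℝ) :=
        Finset.sum_le_sum fun c1 _ => h2 c1
    _ = _ := by
        rw [sum_const, card_univ, nsmul_eq_mul]
        simp only [Fintype.card_pi, Fintype.card_bool, prod_const, card_univ, Fintype.card_prod,
          Fintype.card_fin]
        push_cast
        ring

/-- bits of the block -/
def f1 {n m s : ℕ} (t : Fin m → Fin n) (d : Fin s → Fin n) : Fin s × Fin m → Sym2 (Fin n) :=
  fun x => s(t x.2, d x.1)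

/-- bits of the two blocks -/
def f2 {n m s : ℕ} (r : Fin s → Fin n) (t : Fin m → Fin n) (d : Fin s → Fin n) :
    (Fin s × Fin s) ⊕ (Fin s × Fin m) → Sym2 (Fin n) :=
  Sum.elim (fun x => s(r x.2, d x.1)) (fun x => s(t x.2, d x.1))

lemma f1_inj {n m s : ℕ} {t : Fin m → Fin n} {d : Fin s → Fin n} (ht : Function.Injective t)
    (hd : Function.Injective d) (htd : ∀ i j, t i ≠ d j) : Function.Injective (f1 t d) := by
  rintro ⟨j, i⟩ ⟨j', i'⟩ h
  simp only [f1, Sym2.eq_iff] at h
  rcases h with ⟨h1, h2⟩ | ⟨h1, h2⟩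
  · rw [ht h1, hd h2]
  · exact absurd h1 (htd _ _)

lemma f2_inj {n m s : ℕ} {r : Fin s → Fin n} {t : Fin m → Fin n} {d : Fin s → Fin n}
    (hr : Function.Injective r) (ht : Function.Injective t)
    (hd : Function.Injective d) (htd : ∀ i j, t i ≠ d j) (hrd : ∀ i j, r i ≠ d j)
    (htr : ∀ i j, t i ≠ r j) : Function.Injective (f2 r t d) := by
  rintro (⟨j, i⟩ | ⟨j, i⟩) (⟨j', i'⟩ | ⟨j', i'⟩) h
  · simp only [f2, Sum.elim_inl, Sym2.eq_iff] at h
    rcases h with ⟨h1, h2⟩ | ⟨h1, h2⟩
    · rw [hr h1, hd h2]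
    · exact absurd h1 (hrd _ _)
  · simp only [f2, Sum.elim_inl, Sum.elim_inr, Sym2.eq_iff] at h
    rcases h with ⟨h1, h2⟩ | ⟨h1, h2⟩
    · exact absurd h1.symm (htr _ _)
    · exact absurd h1 (hrd _ _)
  · simp only [f2, Sum.elim_inl, Sum.elim_inr, Sym2.eq_iff] at h
    rcases h with ⟨h1, h2⟩ | ⟨h1, h2⟩
    · exact absurd h1 (htr _ _)
    · exact absurd h1 (htd _ _)
  · simp only [f2, Sum.elim_inr, Sym2.eq_iff] at h
    rcases h with ⟨h1, h2⟩ | ⟨h1, h2⟩
    · rw [ht h1, hd h2]
    · exact absurd h1 (htd _ _)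

open scoped Classical in
lemma card_E1 {n m s : ℕ} {t : Fin m → Fin n} {d : Fin s → Fin n} (ht : Function.Injective t)
    (hd : Function.Injective d) (htd : ∀ i j, t i ≠ d j) (F : Type*) [Field F] :
    ((univ.filter fun b : Sym2 (Fin n) → Bool =>
      ¬ LinearIndependent F (fun j => vec F (fun i => b s(t i, d j)))).card : ℝ) * 2 ^ m ≤
      s * 2 ^ s * 2 ^ Fintype.card (Sym2 (Fin n)) := by
  have h1 := card_comp (f1 t d) (f1_inj ht hd htd) (fun c : Fin s × Fin m → Bool =>
    ¬ LinearIndependent F (fun j => vec F (fun i => c (j, i))))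
  have h2 := card_Q1 F m s
  have h3 : ((univ.filter fun b : Sym2 (Fin n) → Bool =>
      ¬ LinearIndependent F (fun j => vec F (fun i => b s(t i, d j)))).card : ℝ) * 2 ^ (m * s) =
      ((univ.filter fun c : Fin s × Fin m → Bool =>
      ¬ LinearIndependent F (fun j => vec F (fun i => c (j, i)))).card : ℝ) *
        2 ^ Fintype.card (Sym2 (Fin n)) := by
    have h4 : Fintype.card (Fin s × Fin m) = m * s := by simp [mul_comm]
    rw [h4] at h1
    exact_mod_cast h1
  have h5 : (0 : ℝ) < 2 ^ (m * s) := by positivity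
  refine le_of_mul_le_mul_right ?_ h5
  calc _ = (((univ.filter fun b : Sym2 (Fin n) → Bool =>
      ¬ LinearIndependent F (fun j => vec F (fun i => b s(t i, d j)))).card : ℝ) *
        2 ^ (m * s)) * 2 ^ m := by ring
    _ = (((univ.filter fun c : Fin s × Fin m → Bool =>
      ¬ LinearIndependent F (fun j => vec F (fun i => c (j, i)))).card : ℝ) * 2 ^ m) *
        2 ^ Fintype.card (Sym2 (Fin n)) := by rw [h3]; ring
    _ ≤ (s * 2 ^ s * 2 ^ (m * s)) * 2 ^ Fintype.card (Sym2 (Fin n)) := by gcongr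
    _ = _ := by ring

open scoped Classical in
lemma card_E2 {n m s : ℕ} {r : Fin s → Fin n} {t : Fin m → Fin n} {d : Fin s → Fin n}
    (hr : Function.Injective r) (ht : Function.Injective t)
    (hd : Function.Injective d) (htd : ∀ i j, t i ≠ d j) (hrd : ∀ i j, r i ≠ d j)
    (htr : ∀ i j, t i ≠ r j) :
    ((univ.filter fun b : Sym2 (Fin n) → Bool => Q2 m s (b ∘ f2 r t d)).card : ℝ) * 2 ^ m ≤
      (s * s : ℕ) * (s * 2 ^ s) * 2 ^ Fintype.card (Sym2 (Fin n)) := by
  have h1 := card_comp (f2 r t d) (f2_inj hr ht hd htd hrd htr) (Q2 m s)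
  have h2 := card_Q2 m s
  have h3 : ((univ.filter fun b : Sym2 (Fin n) → Bool => Q2 m s (b ∘ f2 r t d)).card : ℝ) *
      2 ^ (s * s + m * s) = ((univ.filter fun c => Q2 m s c).card : ℝ) *
        2 ^ Fintype.card (Sym2 (Fin n)) := by
    have h4 : Fintype.card ((Fin s × Fin s) ⊕ (Fin s × Fin m)) = s * s + m * s := by
      simp [mul_comm]
    rw [h4] at h1
    exact_mod_cast h1
  have h5 : (0 : ℝ) < 2 ^ (s * s + m * s) := by positivity
  refine le_of_mul_le_mul_right ?_ h5
  calc _ = (((univ.filter fun b : Sym2 (Fin n) → Bool => Q2 m s (b ∘ f2 r t d)).card : ℝ) *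
        2 ^ (s * s + m * s)) * 2 ^ m := by ring
    _ = (((univ.filter fun c => Q2 m s c).card : ℝ) * 2 ^ m) *
        2 ^ Fintype.card (Sym2 (Fin n)) := by rw [h3]; ring
    _ ≤ ((s * s : ℕ) * (s * 2 ^ s * 2 ^ (m * s)) * 2 ^ (s * s)) *
        2 ^ Fintype.card (Sym2 (Fin n)) := by gcongr
    _ = _ := by
      rw [pow_add]
      ring

end fix

section cover

lemma exists_compl {n x : ℕ} {X : Type*} [Fintype X] (hX : Fintype.card X = x) (g : X → Fin n)
    (hg : Function.Injective g) : ∃ t : Fin (n - x) → Fin n, Function.Injective t ∧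
      ∀ k a, t k ≠ g a := by
  classical
  let C : Finset (Fin n) := (univ.image g)ᶜ
  have hC : C.card = n - x := by
    rw [card_compl, card_image_of_injective _ hg, card_univ, hX, Fintype.card_fin]
  refine ⟨fun k => C.orderEmbOfFin hC k, (C.orderEmbOfFin hC).injective, ?_⟩
  intro k a h
  have h1 : C.orderEmbOfFin hC k ∈ C := C.orderEmbOfFin_mem hC k
  have h2 : C.orderEmbOfFin hC k = g a := h
  rw [h2] at h1
  simp only [C, mem_compl, mem_image, mem_univ, true_and, not_exists] at h1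
  exact h1 a rfl

/-- independent columns have a nonsingular square minor -/
lemma exists_minor {m s : ℕ} (B : Fin s → Fin m → Bool)
    (h : LinearIndependent ℚ (fun j => vec ℚ (B j))) :
    ∃ r : Fin s → Fin m, Function.Injective r ∧ dt (fun x : Fin s × Fin s => B x.1 (r x.2)) ≠ 0 := by
  classical
  let N : Matrix (Fin m) (Fin s) ℚ := Matrix.of fun i j => vec ℚ (B j) i
  have hcol : LinearIndependent ℚ N.col := h
  have hrank : N.rank = s := by
    have := hcol.rank_matrix
    simpa using this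
  obtain ⟨κ, a, ha, hspan, hli⟩ := exists_linearIndependent' ℚ N.row
  have : Finite κ := Finite.of_injective a ha
  have : Fintype κ := Fintype.ofFinite κ
  have hcard : Fintype.card κ = s := by
    rw [← hrank, Matrix.rank_eq_finrank_span_row, ← hspan, finrank_span_eq_card hli]
  let e : Fin s ≃ κ := (Fintype.equivFinOfCardEq hcard).symm
  refine ⟨fun k => a (e k), ha.comp e.injective, ?_⟩
  have hli2 : LinearIndependent ℚ (fun k => N.row (a (e k))) := hli.comp e e.injective
  have hdet : (N.submatrix (fun k => a (e k)) id).det ≠ 0 := by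
    have h1 : LinearIndependent ℚ (N.submatrix (fun k => a (e k)) id).row := hli2
    rw [Matrix.linearIndependent_rows_iff_isUnit, Matrix.isUnit_iff_isUnit_det] at h1
    exact h1.ne_zero
  intro h0
  apply hdet
  have h2 : N.submatrix (fun k => a (e k)) id = (Int.castRingHom ℚ).mapMatrix
      (Matrix.of fun i j : Fin s => if B j (a (e i)) then (1 : ℤ) else 0) := by
    ext i j
    simp only [N, Matrix.submatrix_apply, Matrix.of_apply, vec, id, RingHom.mapMatrix_apply,
      Matrix.map_apply]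
    split_ifs <;> simp
  rw [h2, ← RingHom.map_det]
  have h3 : (Matrix.of fun i j : Fin s => if B j (a (e i)) then (1 : ℤ) else 0).det = 0 := h0
  rw [h3, map_zero]

/-- the bad event -/
def Bad {n : ℕ} (s : ℕ) (b : Sym2 (Fin n) → Bool) : Prop :=
  ∃ p : ℕ, p.Prime ∧ ∃ u : Fin n → ZMod p, u ≠ 0 ∧ (univ.filter fun i => u i ≠ 0).card ≤ s ∧
    ((matZ b).map (Int.cast : ℤ → ZMod p)).mulVec u = 0

lemma cover {n s : ℕ} (hs : s ≤ n) (t1 : (Fin s → Fin n) → Fin (n - s) → Fin n)
    (ht1 : ∀ d, Function.Injective d → Function.Injective (t1 d) ∧ ∀ k a, t1 d k ≠ d a)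
    (t2 : (Fin s → Fin n) → (Fin s → Fin n) → Fin (n - 2 * s) → Fin n)
    (b : Sym2 (Fin n) → Bool) (hb : Bad s b) :
    (∃ d : Fin s → Fin n, Function.Injective d ∧
      ¬ LinearIndependent ℚ (fun j => vec ℚ (fun i => b s(t1 d i, d j)))) ∨
    (∃ d r : Fin s → Fin n, Function.Injective d ∧ Function.Injective r ∧ (∀ i j, r i ≠ d j) ∧
      Q2 (n - 2 * s) s (b ∘ f2 r (t2 d r) d)) := by
  classical
  obtain ⟨p, hp, u, hu, hcu, hAu⟩ := hb
  have : Fact p.Prime := ⟨hp⟩
  obtain ⟨D, hD1, -, hD2⟩ := Finset.exists_subsuperset_card_eq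
    (subset_univ (univ.filter fun i => u i ≠ 0)) hcu (by simpa using hs)
  let d : Fin s → Fin n := fun k => D.orderEmbOfFin hD2 k
  have hd : Function.Injective d := (D.orderEmbOfFin hD2).injective
  have hrange : ∀ i, u i ≠ 0 → ∃ k, d k = i := by
    intro i hi
    have h1 : i ∈ D := hD1 (by simpa using hi)
    have h2 : i ∈ Set.range (D.orderEmbOfFin hD2) := by
      rw [Finset.range_orderEmbOfFin]
      exact h1
    exact h2
  have hsum : ∀ i : Fin n, ∑ j : Fin s, u (d j) * (if b s(i, d j) then 1 else 0) = 0 := by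
    intro i
    have h1 := congrFun hAu i
    rw [Matrix.mulVec, dotProduct, Pi.zero_apply] at h1
    refine Eq.trans ?_ h1
    have h2 : ∑ j : Fin s, u (d j) * (if b s(i, d j) then 1 else 0) =
        ∑ x ∈ univ.image d, u x * (if b s(i, x) then 1 else 0) := by
      rw [Finset.sum_image (fun a _ b _ h => hd h)]
    rw [h2]
    have h3 : ∑ x ∈ univ.image d, u x * (if b s(i, x) then (1 : ZMod p) else 0) =
        ∑ x, u x * (if b s(i, x) then 1 else 0) := by
      apply Finset.sum_subset (subset_univ _)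
      intro x _ hx
      have h4 : u x = 0 := by
        by_contra hne
        obtain ⟨k, hk⟩ := hrange x hne
        exact hx (mem_image.2 ⟨k, mem_univ _, hk⟩)
      rw [h4, zero_mul]
    rw [h3]
    apply Finset.sum_congr rfl
    intro x _
    simp only [Matrix.map_apply, matZ]
    split_ifs <;> simp
  have hne : ∃ k, u (d k) ≠ 0 := by
    obtain ⟨i, hi⟩ := Function.ne_iff.1 hu
    obtain ⟨k, hk⟩ := hrange i hi
    exact ⟨k, by rw [hk]; exact hi⟩
  -- the columns are dependent mod p on every set of rows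
  have hdep : ∀ (m : ℕ) (t : Fin m → Fin n),
      ¬ LinearIndependent (ZMod p) (fun j => vec (ZMod p) (fun i => b s(t i, d j))) := by
    intro m t
    rw [Fintype.not_linearIndependent_iff]
    refine ⟨fun j => u (d j), ?_, hne⟩
    funext i
    rw [Finset.sum_apply]
    simpa [vec] using hsum (t i)
  by_cases hQ : LinearIndependent ℚ (fun j => vec ℚ (fun i => b s(t1 d i, d j)))
  · right
    obtain ⟨r', hr', hdt⟩ := exists_minor (fun j i => b s(t1 d i, d j)) hQ
    refine ⟨d, fun k => t1 d (r' k), hd, (ht1 d hd).1.comp hr', fun i j => (ht1 d hd).2 _ _, ?_, p,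
      ?_, ?_⟩
    · exact hdt
    · rw [Nat.mem_primeFactors]
      refine ⟨hp, ?_, Int.natAbs_ne_zero.2 hdt⟩
      have h1 : ((dt fun x : Fin s × Fin s => b s(t1 d (r' x.2), d x.1) : ℤ) : ZMod p) = 0 := by
        unfold dt
        change Int.castRingHom (ZMod p) _ = 0
        rw [RingHom.map_det]
        rw [← Matrix.exists_mulVec_eq_zero_iff]
        refine ⟨fun j => u (d j), Function.ne_iff.2 hne, ?_⟩
        funext i
        rw [Matrix.mulVec, dotProduct, Pi.zero_apply]
        refine Eq.trans ?_ (hsum (t1 d (r' i)))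
        apply Finset.sum_congr rfl
        intro j _
        simp only [RingHom.mapMatrix_apply, Matrix.map_apply, Matrix.of_apply]
        split_ifs <;> simp
      rw [ZMod.intCast_zmod_eq_zero_iff_dvd] at h1
      exact Int.natCast_dvd.1 h1
    · exact hdep _ _
  · left
    exact ⟨d, hd, hQ⟩

open scoped Classical in
/-- **No sparse kernel vector modulo any prime**, finite form. -/
theorem sparse_all_fin {n s : ℕ} (hs : 2 * s ≤ n) :
    ((univ.filter fun b : Sym2 (Fin n) → Bool => Bad s b).card : ℝ) * 2 ^ n ≤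
      (n : ℝ) ^ (2 * s) * (2 * (s : ℝ) ^ 3 * 8 ^ s) * 2 ^ Fintype.card (Sym2 (Fin n)) := by
  classical
  have hs' : s ≤ n := by omega
  have hex1 : ∀ d : Fin s → Fin n, ∃ t : Fin (n - s) → Fin n, Function.Injective d →
      Function.Injective t ∧ ∀ k a, t k ≠ d a := by
    intro d
    by_cases hd : Function.Injective d
    · obtain ⟨t, h1, h2⟩ := exists_compl (x := s) (by simp) d hd
      exact ⟨t, fun _ => ⟨h1, h2⟩⟩
    · exact ⟨fun k => ⟨k, by omega⟩, fun h => absurd h hd⟩
  choose t1 ht1 using hex1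
  have hex2 : ∀ d r : Fin s → Fin n, ∃ t : Fin (n - 2 * s) → Fin n, Function.Injective d →
      Function.Injective r → (∀ i j, r i ≠ d j) →
      Function.Injective t ∧ (∀ k a, t k ≠ d a) ∧ ∀ k a, t k ≠ r a := by
    intro d r
    by_cases hd : Function.Injective d ∧ Function.Injective r ∧ (∀ i j, r i ≠ d j)
    · have hg : Function.Injective (Sum.elim d r) := by
        rintro (a | a) (b | b) h
        · exact congrArg Sum.inl (hd.1 h)
        · exact absurd h.symm (hd.2.2 _ _)
        · exact absurd h (hd.2.2 _ _)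
        · exact congrArg Sum.inr (hd.2.1 h)
      obtain ⟨t, h1, h2⟩ := exists_compl (x := 2 * s) (by simp [two_mul]) (Sum.elim d r) hg
      exact ⟨t, fun _ _ _ => ⟨h1, fun k a => h2 k (Sum.inl a), fun k a => h2 k (Sum.inr a)⟩⟩
    · exact ⟨fun k => ⟨k, by omega⟩, fun h1 h2 h3 => absurd ⟨h1, h2, h3⟩ hd⟩
  choose t2 ht2 using hex2
  let D1 : Finset (Fin s → Fin n) := univ.filter fun d => Function.Injective d
  let D2 : Finset ((Fin s → Fin n) × (Fin s → Fin n)) := univ.filter fun x =>
    Function.Injective x.1 ∧ Function.Injective x.2 ∧ ∀ i j, x.2 i ≠ x.1 j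
  let E1 : (Fin s → Fin n) → Finset (Sym2 (Fin n) → Bool) := fun d =>
    univ.filter fun b : Sym2 (Fin n) → Bool =>
      ¬ LinearIndependent ℚ (fun j => vec ℚ (fun i => b s(t1 d i, d j)))
  let E2 : (Fin s → Fin n) × (Fin s → Fin n) → Finset (Sym2 (Fin n) → Bool) := fun x =>
    univ.filter fun b : Sym2 (Fin n) → Bool => Q2 (n - 2 * s) s (b ∘ f2 x.2 (t2 x.1 x.2) x.1)
  have hsub : (univ.filter fun b : Sym2 (Fin n) → Bool => Bad s b) ⊆ D1.biUnion E1 ∪ D2.biUnion E2 := by
    intro b hb
    simp only [mem_filter, mem_univ, true_and] at hb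
    rcases cover hs' t1 ht1 t2 b hb with ⟨d, hd, h⟩ | ⟨d, r, hd, hr, hrd, h⟩
    · apply mem_union_left
      rw [mem_biUnion]
      refine ⟨d, ?_, ?_⟩
      · simpa [D1] using hd
      · simpa only [E1, mem_filter, mem_univ, true_and] using h
    · apply mem_union_right
      rw [mem_biUnion]
      refine ⟨(d, r), ?_, ?_⟩
      · simp only [D2, mem_filter, mem_univ, true_and]
        exact ⟨hd, hr, hrd⟩
      · simpa only [E2, mem_filter, mem_univ, true_and] using h
  have hcard : ((univ.filter fun b : Sym2 (Fin n) → Bool => Bad s b).card : ℝ) ≤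
      ∑ d ∈ D1, ((E1 d).card : ℝ) + ∑ x ∈ D2, ((E2 x).card : ℝ) := by
    have h1 := (Finset.card_le_card hsub).trans (Finset.card_union_le _ _)
    have h2 := h1.trans (add_le_add (Finset.card_biUnion_le (s := D1) (t := E1))
      (Finset.card_biUnion_le (s := D2) (t := E2)))
    exact_mod_cast h2
  set T : ℝ := 2 ^ Fintype.card (Sym2 (Fin n)) with hT
  have hT0 : 0 ≤ T := by positivity
  have hE1 : ∀ d ∈ D1, ((E1 d).card : ℝ) * 2 ^ n ≤ s * 4 ^ s * T := by
    intro d hd
    simp only [D1, mem_filter, mem_univ, true_and] at hd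
    have h1 := card_E1 (ht1 d hd).1 hd (ht1 d hd).2 ℚ
    have h2 : (2 : ℝ) ^ n = 2 ^ (n - s) * 2 ^ s := by rw [← pow_add]; congr 1; omega
    calc ((E1 d).card : ℝ) * 2 ^ n = ((E1 d).card : ℝ) * 2 ^ (n - s) * 2 ^ s := by rw [h2]; ring
      _ ≤ (s * 2 ^ s * T) * 2 ^ s := by
        apply mul_le_mul_of_nonneg_right h1 (by positivity)
      _ = s * 4 ^ s * T := by
        rw [show (4 : ℝ) = 2 * 2 by norm_num, mul_pow]
        ring
  have hE2 : ∀ x ∈ D2, ((E2 x).card : ℝ) * 2 ^ n ≤ (s : ℝ) ^ 3 * 8 ^ s * T := by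
    intro x hx
    simp only [D2, mem_filter, mem_univ, true_and] at hx
    have h0 := ht2 x.1 x.2 hx.1 hx.2.1 hx.2.2
    have h1 := card_E2 (m := n - 2 * s) hx.2.1 h0.1 hx.1 h0.2.1 hx.2.2 h0.2.2
    have h2 : (2 : ℝ) ^ n = 2 ^ (n - 2 * s) * 4 ^ s := by
      rw [show (4 : ℝ) = 2 ^ 2 by norm_num, ← pow_mul, ← pow_add]
      congr 1
      omega
    calc ((E2 x).card : ℝ) * 2 ^ n = ((E2 x).card : ℝ) * 2 ^ (n - 2 * s) * 4 ^ s := by rw [h2]; ring
      _ ≤ ((s * s : ℕ) * (s * 2 ^ s) * T) * 4 ^ s := by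
        apply mul_le_mul_of_nonneg_right h1 (by positivity)
      _ = (s : ℝ) ^ 3 * 8 ^ s * T := by
        rw [show (8 : ℝ) = 2 * 4 by norm_num, mul_pow]
        push_cast
        ring
  have hn1 : (n : ℝ) ^ s ≤ (n : ℝ) ^ (2 * s) := by
    rcases Nat.eq_zero_or_pos s with h | h
    · subst h; simp
    · apply pow_le_pow_right₀
      · exact_mod_cast (by omega : 1 ≤ n)
      · omega
  have hD1 : (D1.card : ℝ) ≤ (n : ℝ) ^ (2 * s) := by
    have h1 : D1.card ≤ n ^ s := by
      refine (Finset.card_le_univ _).trans ?_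
      simp
    exact le_trans (by exact_mod_cast h1) hn1
  have hD2 : (D2.card : ℝ) ≤ (n : ℝ) ^ (2 * s) := by
    have h1 : D2.card ≤ n ^ (2 * s) := by
      refine (Finset.card_le_univ _).trans ?_
      simp [two_mul, pow_add]
    exact_mod_cast h1
  have hs3 : (s : ℝ) ≤ (s : ℝ) ^ 3 := by
    have : s ≤ s ^ 3 := Nat.le_self_pow (by norm_num) s
    exact_mod_cast this
  calc _ ≤ (∑ d ∈ D1, ((E1 d).card : ℝ) + ∑ x ∈ D2, ((E2 x).card : ℝ)) * 2 ^ n := by gcongr
    _ = ∑ d ∈ D1, ((E1 d).card : ℝ) * 2 ^ n + ∑ x ∈ D2, ((E2 x).card : ℝ) * 2 ^ n := by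
      rw [add_mul, Finset.sum_mul, Finset.sum_mul]
    _ ≤ ∑ _d ∈ D1, s * 4 ^ s * T + ∑ _x ∈ D2, (s : ℝ) ^ 3 * 8 ^ s * T :=
      add_le_add (Finset.sum_le_sum hE1) (Finset.sum_le_sum hE2)
    _ = D1.card * (s * 4 ^ s * T) + D2.card * ((s : ℝ) ^ 3 * 8 ^ s * T) := by
      rw [sum_const, sum_const, nsmul_eq_mul, nsmul_eq_mul]
    _ ≤ (n : ℝ) ^ (2 * s) * ((s : ℝ) ^ 3 * 8 ^ s * T) +
        (n : ℝ) ^ (2 * s) * ((s : ℝ) ^ 3 * 8 ^ s * T) := by
      apply add_le_add
      · apply mul_le_mul hD1 _ (by positivity) (by positivity)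
        gcongr
        norm_num
      · gcongr
    _ = _ := by ring

open scoped Classical in
/-- **No sparse kernel vector modulo any prime**: asymptotic form. -/
theorem sparse_all (δ ε : ℝ) (hδ : 0 < δ) (hε : 0 < ε) : ∃ n₀ : ℕ, ∀ n ≥ n₀,
    ((univ.filter fun b : Sym2 (Fin n) → Bool => ∃ p : ℕ, p.Prime ∧ ∃ u : Fin n → ZMod p, u ≠ 0 ∧
      ((univ.filter fun i => u i ≠ 0).card : ℝ) ≤ (n : ℝ) ^ (1 - δ) ∧
      ((matZ b).map (Int.cast : ℤ → ZMod p)).mulVec u = 0).card : ℝ) ≤
      (2 : ℝ) ^ (-((1 - ε) * n)) * 2 ^ Fintype.card (Sym2 (Fin n)) := by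
  have hlog := (isLittleO_log_rpow_atTop hδ).bound
    (show (0 : ℝ) < ε * Real.log 2 / 9 from by have := Real.log_pos one_lt_two; positivity)
  have hlog' := tendsto_natCast_atTop_atTop (R := ℝ) |>.eventually hlog
  have hpow := (tendsto_rpow_atTop hδ).comp (tendsto_natCast_atTop_atTop (R := ℝ))
  have hev := (hlog'.and (hpow.eventually_ge_atTop 2)).and (Filter.eventually_ge_atTop 2)
  obtain ⟨n₀, hn₀⟩ := Filter.eventually_atTop.1 hev
  refine ⟨n₀, fun n hn => ?_⟩
  obtain ⟨⟨h1, h2⟩, h3⟩ := hn₀ n hn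
  simp only [Function.comp] at h2
  have hn2 : (2 : ℝ) ≤ n := by exact_mod_cast h3
  have hn0 : (0 : ℝ) < n := by linarith
  set s : ℕ := ⌊(n : ℝ) ^ (1 - δ)⌋₊ with hs
  have hs1 : (s : ℝ) ≤ (n : ℝ) ^ (1 - δ) := Nat.floor_le (by positivity)
  have hnd : (n : ℝ) ^ (1 - δ) * (n : ℝ) ^ δ = n := by
    rw [← Real.rpow_add hn0]; simp
  have h2s : 2 * s ≤ n := by
    have : (2 : ℝ) * s ≤ n := by
      calc (2 : ℝ) * s ≤ (n : ℝ) ^ δ * (n : ℝ) ^ (1 - δ) := by gcongr
        _ = n := by rw [mul_comm]; exact hnd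
    exact_mod_cast this
  have hfin := sparse_all_fin h2s
  have hsub : (univ.filter fun b : Sym2 (Fin n) → Bool => ∃ p : ℕ, p.Prime ∧
      ∃ u : Fin n → ZMod p, u ≠ 0 ∧ ((univ.filter fun i => u i ≠ 0).card : ℝ) ≤ (n : ℝ) ^ (1 - δ) ∧
      ((matZ b).map (Int.cast : ℤ → ZMod p)).mulVec u = 0) ⊆
      (univ.filter fun b : Sym2 (Fin n) → Bool => Bad s b) := by
    intro b hb
    simp only [mem_filter, mem_univ, true_and] at hb ⊢
    obtain ⟨p, hp, u, hu, hc, hA⟩ := hb
    exact ⟨p, hp, u, hu, by convert Nat.le_floor hc, hA⟩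
  have hcard : ((univ.filter fun b : Sym2 (Fin n) → Bool => ∃ p : ℕ, p.Prime ∧
      ∃ u : Fin n → ZMod p, u ≠ 0 ∧ ((univ.filter fun i => u i ≠ 0).card : ℝ) ≤ (n : ℝ) ^ (1 - δ) ∧
      ((matZ b).map (Int.cast : ℤ → ZMod p)).mulVec u = 0).card : ℝ) ≤
      ((univ.filter fun b : Sym2 (Fin n) → Bool => Bad s b).card : ℝ) := by
    exact_mod_cast Finset.card_le_card hsub
  -- the constant
  have hconst : (n : ℝ) ^ (2 * s) * (2 * (s : ℝ) ^ 3 * 8 ^ s) ≤ (n : ℝ) ^ (9 * s) := by
    rcases Nat.eq_zero_or_pos s with h0 | h0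
    · rw [h0]; simp
    · have a1 : (2 : ℝ) ≤ (n : ℝ) ^ s := by
        calc (2 : ℝ) ≤ n := hn2
          _ = (n : ℝ) ^ 1 := (pow_one _).symm
          _ ≤ (n : ℝ) ^ s := pow_le_pow_right₀ (by linarith) h0
      have a2 : (8 : ℝ) ^ s ≤ (n : ℝ) ^ (3 * s) := by
        rw [pow_mul]
        gcongr
        calc (8 : ℝ) = 2 ^ 3 := by norm_num
          _ ≤ (n : ℝ) ^ 3 := by gcongr
      have a3 : (s : ℝ) ^ 3 ≤ (n : ℝ) ^ (3 * s) := by
        have : (s : ℝ) ≤ 2 ^ s := by exact_mod_cast Nat.lt_two_pow_self.le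
        calc (s : ℝ) ^ 3 ≤ ((2 : ℝ) ^ s) ^ 3 := by gcongr
          _ = 8 ^ s := by
            rw [← pow_mul, mul_comm, pow_mul]
            norm_num
          _ ≤ _ := a2
      calc (n : ℝ) ^ (2 * s) * (2 * (s : ℝ) ^ 3 * 8 ^ s) ≤
          (n : ℝ) ^ (2 * s) * ((n : ℝ) ^ s * (n : ℝ) ^ (3 * s) * (n : ℝ) ^ (3 * s)) := by gcongr
        _ = (n : ℝ) ^ (9 * s) := by
          rw [← pow_add, ← pow_add, ← pow_add]
          congr 1
          ring
  have hexp : (n : ℝ) ^ (9 * s) ≤ (2 : ℝ) ^ (ε * n) := by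
    rw [← Real.rpow_natCast, Real.rpow_def_of_pos hn0, Real.rpow_def_of_pos (by norm_num : (0 : ℝ) < 2)]
    apply Real.exp_le_exp.2
    have hl0 : 0 ≤ Real.log n := Real.log_nonneg (by linarith)
    rw [Real.norm_of_nonneg hl0, Real.norm_of_nonneg (by positivity)] at h1
    push_cast
    calc Real.log n * (9 * s) ≤ Real.log n * (9 * (n : ℝ) ^ (1 - δ)) := by gcongr
      _ ≤ (ε * Real.log 2 / 9 * (n : ℝ) ^ δ) * (9 * (n : ℝ) ^ (1 - δ)) := by gcongr
      _ = ε * Real.log 2 * ((n : ℝ) ^ (1 - δ) * (n : ℝ) ^ δ) := by ring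
      _ = Real.log 2 * (ε * n) := by rw [hnd]; ring
  have h2n : (0 : ℝ) < (2 : ℝ) ^ n := by positivity
  have hfinal : ((univ.filter fun b : Sym2 (Fin n) → Bool => Bad s b).card : ℝ) ≤
      (2 : ℝ) ^ (-((1 - ε) * n)) * 2 ^ Fintype.card (Sym2 (Fin n)) := by
    refine le_of_mul_le_mul_right ?_ h2n
    calc _ ≤ (n : ℝ) ^ (2 * s) * (2 * (s : ℝ) ^ 3 * 8 ^ s) * 2 ^ Fintype.card (Sym2 (Fin n)) := hfin
      _ ≤ (2 : ℝ) ^ (ε * n) * 2 ^ Fintype.card (Sym2 (Fin n)) := by
        gcongr
        exact hconst.trans hexp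
      _ = (2 : ℝ) ^ (-((1 - ε) * n)) * 2 ^ Fintype.card (Sym2 (Fin n)) * 2 ^ n := by
        have : (2 : ℝ) ^ (ε * n) = (2 : ℝ) ^ (-((1 - ε) * n)) * 2 ^ n := by
          rw [← Real.rpow_natCast, ← Real.rpow_add (by norm_num)]
          congr 1
          ring
        rw [this]
        ring
  exact hcard.trans hfinal

end cover

end Vale.Agent.P160.Half.SparseAll
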