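import Mathlib

/-! # P160, half rate, TAME: numerics (statements of helper133) -/

namespace Vale.Agent.P160.Half.TameNum

open Filter Topology

theorem two_rpow (x : ℝ) : (2 : ℝ) ^ x = Real.exp (x * Real.log 2) := by
  rw [Real.rpow_def_of_pos (by norm_num), mul_comm]

theorem two_pow (m : ℕ) : (2 : ℝ) ^ m = Real.exp (m * Real.log 2) := by
  rw [Real.exp_nat_mul, Real.exp_log (by norm_num)]

theorem third : (1 / 3 : ℝ) = Real.exp (-Real.log 3) := by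
  rw [Real.exp_neg, Real.exp_log (by norm_num)]; norm_num

theorem log3 : Real.log 3 ≤ 2 := by
  have := Real.log_le_sub_one_of_pos (show (0 : ℝ) < 3 by norm_num)
  linarith

theorem part_a {n k : ℕ} {e y L : ℝ} (he : 0 < e) (hn3 : (3 : ℝ) ≤ n) (hexpn : Real.exp L = n)
    (hy3 : y ^ 3 = n) (hL1 : L ≤ e / 32 * y) (hye : 8 ≤ e * y) (hyb : 4096 ≤ y)
    (hku : (k : ℝ) ≤ y ^ 2) (hkn : k ≤ n) :
    (n : ℝ) ^ k * (2 * (n : ℝ) ^ 5 + 1) ^ k * (1 / 2 : ℝ) ^ (n - k) ≤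
      (1 / 3) * (2 : ℝ) ^ (-((1 - e) * n)) := by
  have hlog2 : Real.log 2 < 0.6931471808 := Real.log_two_lt_d9
  have hlog2' : 0.6931471803 < Real.log 2 := Real.log_two_gt_d9
  have hk0 : (0 : ℝ) ≤ k := Nat.cast_nonneg k
  have hn1 : (1 : ℝ) ≤ n := by linarith
  have hnpos : (0 : ℝ) < n := by linarith
  have hypos : 0 < y := by linarith
  have b1 : (n : ℝ) * (2 * (n : ℝ) ^ 5 + 1) ≤ Real.exp (7 * L) := by
    have h7 : Real.exp (7 * L) = (n : ℝ) ^ 7 := by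
      rw [show (7 : ℝ) * L = ((7 : ℕ) : ℝ) * L by norm_num, Real.exp_nat_mul, hexpn]
    rw [h7]
    have p5 : (1 : ℝ) ≤ (n : ℝ) ^ 5 := one_le_pow₀ hn1
    have e7 : (n : ℝ) ^ 7 = n * (n * n ^ 5) := by ring
    rw [e7]
    refine mul_le_mul_of_nonneg_left ?_ hnpos.le
    have : 3 * (n : ℝ) ^ 5 ≤ n * n ^ 5 := mul_le_mul_of_nonneg_right hn3 (by positivity)
    linarith
  have b2 : (n : ℝ) ^ k * (2 * (n : ℝ) ^ 5 + 1) ^ k ≤ Real.exp (7 * L * k) := by
    rw [← mul_pow]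
    have := pow_le_pow_left₀ (by positivity) b1 k
    refine this.trans (le_of_eq ?_)
    rw [← Real.exp_nat_mul, mul_comm]
  have b3 : (1 / 2 : ℝ) ^ (n - k) = Real.exp (-((n - k) * Real.log 2)) := by
    rw [one_div, inv_pow, two_pow, ← Real.exp_neg, Nat.cast_sub hkn]
  rw [b3, third, two_rpow, ← Real.exp_add]
  refine (mul_le_mul_of_nonneg_right b2 (Real.exp_pos _).le).trans ?_
  rw [← Real.exp_add]
  refine Real.exp_le_exp.2 ?_
  have hy2 : 0 ≤ y ^ 2 := by positivity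
  have c1 : L * k ≤ (e / 32 * y) * y ^ 2 := mul_le_mul hL1 hku hk0 (by positivity)
  have c2 : (k : ℝ) * Real.log 2 ≤ y ^ 2 * 1 := mul_le_mul hku (by linarith) (by linarith) hy2
  have c3 : 8 * y ^ 2 ≤ e * y * y ^ 2 := mul_le_mul_of_nonneg_right hye hy2
  have c4 : (n : ℝ) * e * Real.log 2 = e * y * y ^ 2 * Real.log 2 := by rw [← hy3]; ring
  have c5 : e * y * y ^ 2 * 0.69 ≤ e * y * y ^ 2 * Real.log 2 :=
    mul_le_mul_of_nonneg_left (by linarith) (by positivity)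
  have c6 : 2 ≤ y ^ 2 := by
    have : (1 : ℝ) * 1 ≤ y * y := mul_le_mul (by linarith) (by linarith) (by norm_num) hypos.le
    have h2 : 4096 * y ≤ y * y := mul_le_mul_of_nonneg_right hyb hypos.le
    rw [sq]; linarith
  have c7 := log3
  have c8 : 7 * L * k + -((n - k) * Real.log 2) = 7 * (L * k) + k * Real.log 2 - n * Real.log 2 := by
    ring
  have c9 : -Real.log 3 + -((1 - e) * n) * Real.log 2 =
      -Real.log 3 - n * Real.log 2 + n * e * Real.log 2 := by ring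
  have c10 : (e / 32 * y) * y ^ 2 = (e * y * y ^ 2) / 32 := by ring
  rw [c8, c9, c4]
  rw [c10] at c1
  linarith

theorem part_b {n k t : ℕ} {y L : ℝ} (hn3 : (3 : ℝ) ≤ n) (hexpn : Real.exp L = n)
    (hy3 : y ^ 3 = n) (hL2 : L ≤ y) (hyb : 4096 ≤ y)
    (hkl : y ^ 2 / 2 ≤ k) (hk4 : 4 ≤ k) (ht : t ≤ n) :
    256 * (t : ℝ) ≤ (k : ℝ) ^ 2 ∧
      (2 : ℝ) ^ n * (t * Real.exp (-((k : ℝ) / 32))) ^ (k / 2) ≤ (1 / 3) * (2 : ℝ) ^ (-(n : ℝ)) := by
  have hlog2 : Real.log 2 < 0.6931471808 := Real.log_two_lt_d9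
  have hlog2' : 0.6931471803 < Real.log 2 := Real.log_two_gt_d9
  have hk4r : (4 : ℝ) ≤ k := by exact_mod_cast hk4
  have hnpos : (0 : ℝ) < n := by linarith
  have hypos : 0 < y := by linarith
  have ht' : (t : ℝ) ≤ n := by exact_mod_cast ht
  have hy2big : 4096 * y ≤ y ^ 2 := by
    rw [sq]; exact mul_le_mul_of_nonneg_right hyb hypos.le
  have hk2 : y ^ 4 / 4 ≤ (k : ℝ) ^ 2 := by
    have h := pow_le_pow_left₀ (by positivity) hkl 2
    have : (y ^ 2 / 2) ^ 2 = y ^ 4 / 4 := by ring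
    rwa [this] at h
  have hy4 : y ^ 4 = y * n := by rw [← hy3]; ring
  have hyn : 4096 * (n : ℝ) ≤ y * n := mul_le_mul_of_nonneg_right hyb hnpos.le
  rw [hy4] at hk2
  refine ⟨by linarith, ?_⟩
  have d1 : (t : ℝ) * Real.exp (-((k : ℝ) / 32)) ≤ Real.exp (-((k : ℝ) / 64)) := by
    refine (mul_le_mul_of_nonneg_right ht' (Real.exp_pos _).le).trans ?_
    rw [← hexpn, ← Real.exp_add]
    refine Real.exp_le_exp.2 ?_
    linarith
  have d2 := pow_le_pow_left₀ (by positivity) d1 (k / 2)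
  have d3 : (k : ℝ) / 4 ≤ ((k / 2 : ℕ) : ℝ) := by
    have : k ≤ 2 * (k / 2) + 1 := by omega
    have h' : (k : ℝ) ≤ 2 * ((k / 2 : ℕ) : ℝ) + 1 := by exact_mod_cast this
    linarith
  have d4 : Real.exp (-((k : ℝ) / 64)) ^ (k / 2) ≤ Real.exp (-((k : ℝ) ^ 2 / 256)) := by
    rw [← Real.exp_nat_mul]
    refine Real.exp_le_exp.2 ?_
    have h5 := mul_le_mul_of_nonneg_right d3 (show (0 : ℝ) ≤ (k : ℝ) / 64 by positivity)
    have h6 : (k : ℝ) / 4 * ((k : ℝ) / 64) = (k : ℝ) ^ 2 / 256 := by ring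
    rw [h6] at h5
    linarith
  rw [third, two_rpow, two_pow, ← Real.exp_add]
  refine (mul_le_mul_of_nonneg_left (d2.trans d4) (Real.exp_pos _).le).trans ?_
  rw [← Real.exp_add]
  refine Real.exp_le_exp.2 ?_
  have h7 : (n : ℝ) * Real.log 2 ≤ n * 1 := mul_le_mul_of_nonneg_left (by linarith) hnpos.le
  have h8 : -(n : ℝ) * Real.log 2 = -(n * Real.log 2) := by ring
  rw [h8]
  have := log3
  linarith

theorem part_c {n k s : ℕ} {d y L : ℝ} (hd : 0 < d) (hn10 : (10 : ℝ) ≤ n) (hexpn : Real.exp L = n)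
    (hLdef : L = Real.log n) (hy3 : y ^ 3 = n) (hy2 : y ^ 2 = (n : ℝ) ^ (2 / 3 : ℝ)) (hL3 : 3 ≤ L)
    (hyd : 120 ≤ d * y) (hLd : 24 ≤ d * L) (hyb : 4096 ≤ y)
    (hkl : y ^ 2 / 2 ≤ k) (hku : (k : ℝ) ≤ y ^ 2) (hk4 : 4 ≤ k) (hs : d * n ≤ s) :
    (2 : ℝ) ^ n * (2 * (n : ℝ) ^ 9 + 1) ^ k * (1 / Real.sqrt k) ^ s ≤
        (1 / 3) * (2 : ℝ) ^ (-(n : ℝ)) := by
  have hn3 : (3 : ℝ) ≤ n := by linarith
  have hlog2 : Real.log 2 < 0.6931471808 := Real.log_two_lt_d9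
  have hlog2' : 0.6931471803 < Real.log 2 := Real.log_two_gt_d9
  have hk4r : (4 : ℝ) ≤ k := by exact_mod_cast hk4
  have hkpos : (0 : ℝ) < k := by linarith
  have hn1 : (1 : ℝ) ≤ n := by linarith
  have hnpos : (0 : ℝ) < n := by linarith
  have hypos : 0 < y := by linarith
  have f1 : 2 * (n : ℝ) ^ 9 + 1 ≤ Real.exp (10 * L) := by
    have h10 : Real.exp (10 * L) = (n : ℝ) ^ 10 := by
      rw [show (10 : ℝ) * L = ((10 : ℕ) : ℝ) * L by norm_num, Real.exp_nat_mul, hexpn]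
    rw [h10]
    have p9 : (1 : ℝ) ≤ (n : ℝ) ^ 9 := one_le_pow₀ hn1
    have e10 : (n : ℝ) ^ 10 = n * n ^ 9 := by ring
    rw [e10]
    have : 3 * (n : ℝ) ^ 9 ≤ n * n ^ 9 := mul_le_mul_of_nonneg_right hn3 (by positivity)
    linarith
  have f2 : (2 * (n : ℝ) ^ 9 + 1) ^ k ≤ Real.exp (10 * L * k) := by
    have := pow_le_pow_left₀ (by positivity) f1 k
    refine this.trans (le_of_eq ?_)
    rw [← Real.exp_nat_mul, mul_comm]
  have f3 : 1 / Real.sqrt k = Real.exp (-(Real.log k / 2)) := by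
    rw [Real.exp_neg, one_div, Real.sqrt_eq_rpow, Real.rpow_def_of_pos hkpos]
    congr 2
    ring
  have f4 : L / 3 ≤ Real.log k := by
    have g1 : Real.log (y ^ 2 / 2) ≤ Real.log k := Real.log_le_log (by positivity) hkl
    have g2 : Real.log (y ^ 2 / 2) = 2 / 3 * L - Real.log 2 := by
      rw [Real.log_div (by positivity) (by norm_num), hy2, Real.log_rpow hnpos, hLdef]
    rw [g2] at g1
    linarith
  have f5 : (1 / Real.sqrt k) ^ s ≤ Real.exp (-(d * n * (L / 6))) := by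
    rw [f3, ← Real.exp_nat_mul]
    refine Real.exp_le_exp.2 ?_
    have : d * n * (L / 6) ≤ s * (Real.log k / 2) :=
      mul_le_mul hs (by linarith) (by linarith) (Nat.cast_nonneg s)
    linarith
  rw [third, two_rpow, two_pow, ← Real.exp_add]
  have f6 : Real.exp (n * Real.log 2) * (2 * (n : ℝ) ^ 9 + 1) ^ k * (1 / Real.sqrt k) ^ s ≤
      Real.exp (n * Real.log 2) * Real.exp (10 * L * k) * Real.exp (-(d * n * (L / 6))) :=
    mul_le_mul (mul_le_mul_of_nonneg_left f2 (Real.exp_pos _).le) f5 (by positivity) (by positivity)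
  refine f6.trans ?_
  rw [← Real.exp_add, ← Real.exp_add]
  refine Real.exp_le_exp.2 ?_
  have kL : (k : ℝ) * L ≤ y ^ 2 * L := mul_le_mul_of_nonneg_right hku (by linarith)
  have g3 : 10 * L * k ≤ d * n * L / 12 := by
    have h1 : 120 * (y ^ 2 * L) ≤ d * y * (y ^ 2 * L) :=
      mul_le_mul_of_nonneg_right hyd (by positivity)
    have e5 : d * n * L = d * y * (y ^ 2 * L) := by rw [← hy3]; ring
    have e6 : 10 * L * k = 10 * (k * L) := by ring
    rw [e5, e6]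
    linarith
  have g4 : 24 * (n : ℝ) ≤ d * L * n := mul_le_mul_of_nonneg_right hLd hnpos.le
  have g5 : d * L * n = d * n * L := by ring
  have g6 : d * n * (L / 6) = d * n * L / 6 := by ring
  have h7 : (n : ℝ) * Real.log 2 ≤ n * 0.7 := mul_le_mul_of_nonneg_left (by linarith) hnpos.le
  have h8 : -(n : ℝ) * Real.log 2 = -(n * Real.log 2) := by ring
  have := log3
  rw [g5] at g4
  rw [g6, h8]
  linarith

theorem tame_num (d e : ℝ) (hd : 0 < d) (he : 0 < e) : ∃ n0 : ℕ, ∀ n : ℕ, n0 ≤ n →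
    ∀ k : ℕ, k = ⌊(n : ℝ) ^ (2 / 3 : ℝ)⌋₊ →
    (4 ≤ k ∧ k ≤ n) ∧
    (n : ℝ) ^ k * (2 * (n : ℝ) ^ 5 + 1) ^ k * (1 / 2 : ℝ) ^ (n - k) ≤
      (1 / 3) * (2 : ℝ) ^ (-((1 - e) * n)) ∧
    (∀ t : ℕ, t ≤ n → 256 * (t : ℝ) ≤ (k : ℝ) ^ 2 ∧
      (2 : ℝ) ^ n * (t * Real.exp (-((k : ℝ) / 32))) ^ (k / 2) ≤ (1 / 3) * (2 : ℝ) ^ (-(n : ℝ))) ∧
    (∀ s : ℕ, d * n ≤ s →
      (2 : ℝ) ^ n * (2 * (n : ℝ) ^ 9 + 1) ^ k * (1 / Real.sqrt k) ^ s ≤
        (1 / 3) * (2 : ℝ) ^ (-(n : ℝ))) := by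
  have hc : 0 < min (e / 32) 1 := by positivity
  have h1 : ∀ᶠ x : ℝ in atTop, Real.log x ≤ min (e / 32) 1 * x ^ (1 / 3 : ℝ) := by
    have h := (isLittleO_log_rpow_atTop (show (0 : ℝ) < 1 / 3 by norm_num)).bound hc
    filter_upwards [h, eventually_ge_atTop 1] with x hx hx1
    rw [Real.norm_of_nonneg (Real.log_nonneg hx1), Real.norm_of_nonneg (by positivity)] at hx
    exact hx
  have h2 : ∀ᶠ x : ℝ in atTop, 24 / d + 3 ≤ Real.log x :=
    Real.tendsto_log_atTop.eventually_ge_atTop _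
  have h3 : ∀ᶠ x : ℝ in atTop, 8 / e + 120 / d + 4096 ≤ x ^ (1 / 3 : ℝ) :=
    (tendsto_rpow_atTop (by norm_num)).eventually_ge_atTop _
  have hev := (tendsto_natCast_atTop_atTop (R := ℝ)).eventually (h1.and (h2.and (h3.and
    (eventually_ge_atTop 10))))
  obtain ⟨n0, hn0⟩ := eventually_atTop.1 hev
  refine ⟨n0, fun n hn k hk => ?_⟩
  obtain ⟨e1, e2, e3, e4⟩ := hn0 n hn
  have hnpos : (0 : ℝ) < n := by linarith
  obtain ⟨y, hy⟩ : ∃ y : ℝ, y = (n : ℝ) ^ (1 / 3 : ℝ) := ⟨_, rfl⟩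
  obtain ⟨L, hL⟩ : ∃ L : ℝ, L = Real.log n := ⟨_, rfl⟩
  rw [← hy] at e1 e3
  rw [← hL] at e1 e2
  have hy3 : y ^ 3 = n := by
    rw [hy, ← Real.rpow_natCast, ← Real.rpow_mul hnpos.le]; norm_num
  have hy2 : y ^ 2 = (n : ℝ) ^ (2 / 3 : ℝ) := by
    rw [hy, ← Real.rpow_natCast, ← Real.rpow_mul hnpos.le]; norm_num
  have hde : 0 < 8 / e := by positivity
  have hdd : 0 < 120 / d := by positivity
  have hdd2 : 0 < 24 / d := by positivity
  have hyb : 4096 ≤ y := by linarith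
  have hye : 8 / e ≤ y := by linarith
  have hyd : 120 / d ≤ y := by linarith
  have hypos : 0 < y := by linarith
  have hLpos : 3 ≤ L := by linarith
  have hL1 : L ≤ e / 32 * y := e1.trans (mul_le_mul_of_nonneg_right (min_le_left _ _) hypos.le)
  have hL2 : L ≤ y := by
    have := e1.trans (mul_le_mul_of_nonneg_right (min_le_right _ _) hypos.le)
    linarith
  have hye' : 8 ≤ e * y := by
    rw [div_le_iff₀ he] at hye; linarith
  have hyd' : 120 ≤ d * y := by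
    rw [div_le_iff₀ hd] at hyd; linarith
  have hLd' : 24 ≤ d * L := by
    have : 24 / d ≤ L := by linarith
    rw [div_le_iff₀ hd] at this; linarith
  have hku : (k : ℝ) ≤ y ^ 2 := by
    rw [hk, hy2]; exact Nat.floor_le (by positivity)
  have hkl1 : y ^ 2 < k + 1 := by
    rw [hk, hy2]; exact Nat.lt_floor_add_one _
  have hy2big : 4096 * y ≤ y ^ 2 := by
    rw [sq]; exact mul_le_mul_of_nonneg_right hyb hypos.le
  have hkl : y ^ 2 / 2 ≤ k := by linarith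
  have hk4' : 4 ≤ k := by
    have : (4 : ℝ) ≤ k := by linarith
    exact_mod_cast this
  have hkn' : k ≤ n := by
    have h5 : y ^ 2 ≤ y * y ^ 2 := by
      have h6 : 1 * y ^ 2 ≤ y * y ^ 2 := mul_le_mul_of_nonneg_right (by linarith) (by positivity)
      linarith
    have h7 : y * y ^ 2 = y ^ 3 := by ring
    have : (k : ℝ) ≤ n := by rw [← hy3, ← h7]; exact hku.trans h5
    exact_mod_cast this
  have hexpn : Real.exp L = n := by rw [hL]; exact Real.exp_log hnpos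
  refine ⟨⟨hk4', hkn'⟩, ?_, ?_, ?_⟩
  · exact part_a he (by linarith) hexpn hy3 hL1 hye' hyb hku hkn'
  · intro t ht
    exact part_b (by linarith) hexpn hy3 hL2 hyb hkl hk4' ht
  · intro s hs
    exact part_c hd e4 hexpn hL hy3 hy2 hLpos hyd' hLd' hyb hkl hku hk4' hs

end Vale.Agent.P160.Half.TameNum
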