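import Vale.Agent.P160.Half.Tame
import Vale.Agent.P160.Half.TameNum

/-! # P160, half rate: TAME, complete -/

namespace Vale.Agent.P160.Half.Tame

theorem tame : TameStmt := tame_of TameNum.tame_num

end Vale.Agent.P160.Half.Tame
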