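import Vale.Agent.P160.Half.GStmt4

/-! # P160, half rate: gap (G), deterministic core, helper lemmas (helper479) -/

open Finset Matrix

namespace Vale.Agent.P160.Half.G.D479

open A Labels

theorem coker_finite {n : ℕ} (M : Matrix (Fin n) (Fin n) ℤ) (h : M.det ≠ 0) : Finite (Coker M) := by
  apply Nat.finite_of_card_ne_zero
  rw [card_coker M h]
  exact Int.natAbs_ne_zero.mpr h

theorem det_le_fact {n : ℕ} (b : Bits n) : (matZ b).det.natAbs ≤ n.factorial := by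
  have h1 := Matrix.det_le (A := matZ b) (abv := (AbsoluteValue.abs : AbsoluteValue ℤ ℤ)) (x := 1)
    (by
      intro i j
      show |matZ b i j| ≤ 1
      simp only [matZ]
      split_ifs <;> simp)
  rw [Fintype.card_fin, one_pow] at h1
  have h2 : |(matZ b).det| ≤ (n.factorial : ℤ) := by
    simpa using h1
  zify
  exact h2

theorem minor_le {n : ℕ} {β : Type*} [Fintype β] [DecidableEq β] (R : β → Fin n) (g : β → Fin n → ℚ) (Y : ℝ)
    (hg : ∀ q, BdQ Y (g q)) :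
    |((minor R g : ℚ) : ℝ)| ≤ (Fintype.card β).factorial * Y ^ Fintype.card β := by
  have h0 : ((minor R g : ℚ) : ℝ) = (Matrix.of fun i k : β => ((g i (R k) : ℚ) : ℝ)).det := by
    unfold minor
    rw [← Rat.coe_castHom, RingHom.map_det]
    rfl
  rw [h0]
  have h1 := Matrix.det_le (A := Matrix.of fun i k : β => ((g i (R k) : ℚ) : ℝ))
    (abv := (AbsoluteValue.abs : AbsoluteValue ℝ ℝ)) (x := Y)
    (by
      intro i j
      exact hg i (R j))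
  rw [nsmul_eq_mul] at h1
  exact h1

theorem PQ_det {n : ℕ} (P : Matrix (Fin n) (Fin n) ℤ) : (PQ P).det = (P.det : ℚ) := by
  unfold PQ
  rw [show (P.map (Int.cast : ℤ → ℚ)) = (Int.castRingHom ℚ).mapMatrix P from rfl, ← RingHom.map_det]
  rfl

theorem P_gF {n : ℕ} {β : Type*} [Fintype β] [DecidableEq β] (P : Matrix (Fin n) (Fin n) ℤ) (hd : P.det ≠ 0)
    (F : Matrix (Fin n) β ℤ) (q : β) : PQ P *ᵥ gF P F q = fun j => (F j q : ℚ) := by
  unfold gF dual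
  rw [mulVec_mulVec, Matrix.mul_nonsing_inv, one_mulVec]
  rw [PQ_det]
  exact (Int.cast_ne_zero.mpr hd).isUnit

theorem matZ_symm {n : ℕ} (b : Bits n) (i j : Fin n) : matZ b i j = matZ b j i := by
  simp only [matZ]
  rw [Sym2.eq_swap]

theorem form_symm {n : ℕ} (b : Bits n) (v w : Fin n → ℚ) :
    v ⬝ᵥ (PQ (matZ b) *ᵥ w) = w ⬝ᵥ (PQ (matZ b) *ᵥ v) := by
  have hs : (PQ (matZ b))ᵀ = PQ (matZ b) := by
    ext i j
    show ((matZ b j i : ℤ) : ℚ) = ((matZ b i j : ℤ) : ℚ)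
    rw [matZ_symm]
  rw [dotProduct_mulVec, ← mulVec_transpose, hs, dotProduct_comm]

theorem LFg_int {n : ℕ} {β : Type*} [Fintype β] [DecidableEq β] (b : Bits n) (F : Matrix (Fin n) β ℤ)
    (hd : (matZ b).det ≠ 0)
    (hgr : ∀ i k, ∃ m : ℤ, gF (matZ b) F i ⬝ᵥ (PQ (matZ b) *ᵥ gF (matZ b) F k) = m) :
    ∀ v ∈ LFg (matZ b) F, ∀ w ∈ LFg (matZ b) F, ∃ m : ℤ, v ⬝ᵥ (PQ (matZ b) *ᵥ w) = m := by
  -- generators
  have hgen : ∀ v ∈ (Set.range (fun j : Fin n => (Pi.single j (1 : ℚ) : Fin n → ℚ)) ∪ Set.range (gF (matZ b) F)),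
      ∀ w ∈ (Set.range (fun j : Fin n => (Pi.single j (1 : ℚ) : Fin n → ℚ)) ∪ Set.range (gF (matZ b) F)),
        ∃ m : ℤ, v ⬝ᵥ (PQ (matZ b) *ᵥ w) = m := by
    have h1 : ∀ (j : Fin n) (q : β), (Pi.single j (1 : ℚ) : Fin n → ℚ) ⬝ᵥ (PQ (matZ b) *ᵥ gF (matZ b) F q) = (F j q : ℤ) := by
      intro j q
      rw [P_gF _ hd, single_one_dotProduct]
    rintro v (⟨j, rfl⟩ | ⟨q, rfl⟩) w (⟨k, rfl⟩ | ⟨q', rfl⟩)
    · refine ⟨matZ b j k, ?_⟩
      simp only [single_one_dotProduct, mulVec_single_one]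
      rfl
    · exact ⟨_, h1 j q'⟩
    · refine ⟨F k q, ?_⟩
      rw [form_symm]
      exact h1 k q
    · exact hgr q q'
  intro v hv w hw
  unfold LFg at hv hw
  refine Submodule.span_induction (p := fun v _ => ∃ m : ℤ, v ⬝ᵥ (PQ (matZ b) *ᵥ w) = m) ?_ ?_ ?_ ?_ hv
  · intro v hv
    refine Submodule.span_induction (p := fun w _ => ∃ m : ℤ, v ⬝ᵥ (PQ (matZ b) *ᵥ w) = m) ?_ ?_ ?_ ?_ hw
    · intro w hw
      exact hgen v hv w hw
    · exact ⟨0, by simp⟩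
    · rintro x y _ _ ⟨m, hm⟩ ⟨m', hm'⟩
      exact ⟨m + m', by rw [mulVec_add, dotProduct_add, hm, hm']; push_cast; ring⟩
    · rintro c x _ ⟨m, hm⟩
      refine ⟨c * m, ?_⟩
      rw [← Int.cast_smul_eq_zsmul ℚ c x, mulVec_smul, dotProduct_smul, hm]
      push_cast
      rfl
  · exact ⟨0, by simp⟩
  · rintro x y _ _ ⟨m, hm⟩ ⟨m', hm'⟩
    exact ⟨m + m', by rw [add_dotProduct, hm, hm']; push_cast; ring⟩
  · rintro c x _ ⟨m, hm⟩
    refine ⟨c * m, ?_⟩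
    rw [← Int.cast_smul_eq_zsmul ℚ c x, smul_dotProduct, hm]
    push_cast
    rfl

theorem newP_int {n : ℕ} {β : Type*} [Fintype β] [DecidableEq β] (b : Bits n) (F : Matrix (Fin n) β ℤ)
    (hd : (matZ b).det ≠ 0)
    (hgr : ∀ i k, ∃ m : ℤ, gF (matZ b) F i ⬝ᵥ (PQ (matZ b) *ᵥ gF (matZ b) F k) = m) (R : β → Fin n) :
    ∀ v ∈ newL (LFg (matZ b) F) R (gF (matZ b) F), ∀ w ∈ newL (LFg (matZ b) F) R (gF (matZ b) F),
      ∃ m : ℤ, v ⬝ᵥ (newP (matZ b) R (gF (matZ b) F) *ᵥ w) = m := by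
  intro v hv w hw
  obtain ⟨m, hm⟩ := LFg_int b F hd hgr _ hv _ hw
  refine ⟨m, ?_⟩
  rw [← hm]
  unfold newP
  rw [← mulVec_mulVec, ← mulVec_mulVec, dotProduct_mulVec, vecMul_transpose]
  rfl

end Vale.Agent.P160.Half.G.D479
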