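import Vale.Agent.P160.Half.GStmt3

/-! # P160, half rate: the rank of the exchanged matrix modulo primes (piece (II) of `DetStmt`) -/

open Finset Matrix

namespace Vale.Agent.P160.Half.G.Rank952

open A Labels

theorem rank_M (n : ℕ) (β : Type) [Fintype β] [DecidableEq β] (b : Bits n) (R : β → Fin n)
    (M' : Matrix (Fin n) (Fin n) ℤ) (k : ℕ) (hc : CorLt (matZ b) k)
    (hM : ∀ j j', j ∉ Set.range R → j' ∉ Set.range R → M' j j' = matZ b j j')
    (p : ℕ) (hp : p.Prime) :
    n ≤ (M'.map (Int.cast : ℤ → ZMod p)).rank + (k + Fintype.card β) := by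
  have : Fact p.Prime := ⟨hp⟩
  set T : Finset (Fin n) := (univ.image R)ᶜ with hT
  have h1 := hc p hp T
  have hcard : n ≤ T.card + Fintype.card β := by
    have h2 : (univ.image R).card ≤ Fintype.card β := card_image_le
    have h3 : T.card = n - (univ.image R).card := by
      rw [hT, card_compl, Fintype.card_fin]
    have h4 : (univ.image R).card ≤ n := by
      simpa using (card_le_univ (univ.image R))
    omega
  have hTR : ∀ x ∈ T, x ∉ Set.range R := by
    rintro x hx ⟨q, rfl⟩
    rw [hT, mem_compl] at hx
    exact hx (mem_image_of_mem R (mem_univ q))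
  have hsub : prin ((matZ b).map (Int.cast : ℤ → ZMod p)) T =
      (M'.map (Int.cast : ℤ → ZMod p)).submatrix (fun a : T => (a : Fin n))
        (fun a : T => (a : Fin n)) := by
    ext x y
    have hx : (x : Fin n) ∉ Set.range R := hTR _ x.2
    have hy : (y : Fin n) ∉ Set.range R := hTR _ y.2
    simp only [prin, submatrix_apply, map_apply, hM _ _ hx hy]
  have h5 : (prin ((matZ b).map (Int.cast : ℤ → ZMod p)) T).rank ≤
      (M'.map (Int.cast : ℤ → ZMod p)).rank := by
    rw [hsub]
    exact rank_submatrix_le _ _ _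
  omega

end Vale.Agent.P160.Half.G.Rank952
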