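import Vale.Agent.P160.Half.GDetCost837
import Vale.Agent.P160.Half.GDetA
import Vale.Agent.P160.Half.GDetRank

/-! # P160, half rate: DetStmt (helper837) -/

set_option linter.unusedVariables false
set_option linter.unusedSimpArgs false
set_option linter.unusedSectionVars false

open Finset Matrix

namespace Vale.Agent.P160.Half.G.Det837

open A Labels

theorem castV {n : ℕ} (V : Matrix (Fin n) (Fin n) ℤ) (z : Fin n → ℤ) :
    V.map (Int.cast : ℤ → ℚ) *ᵥ (fun j => ((z j : ℤ) : ℚ)) = fun j => (((V *ᵥ z) j : ℤ) : ℚ) := by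
  funext j
  simp only [mulVec, dotProduct, map_apply]
  push_cast
  rfl

theorem lab_mem {n : ℕ} {β : Type} [Fintype β] [DecidableEq β] (b : Bits n) (F : Matrix (Fin n) β ℤ)
    (Y Dt X : ℝ) (y a k s₁ : ℕ) (hY : 1 ≤ Y) (hdet : (matZ b).det ≠ 0)
    (hgr : ∀ i k, ∃ m : ℤ, gF (matZ b) F i ⬝ᵥ (PQ (matZ b) *ᵥ gF (matZ b) F k) = m)
    (hBd : ∀ q, BdQ Y (gF (matZ b) F q)) (hk : CorLt (matZ b) k)
    (hDt : Real.logb 2 (n.factorial * ((Fintype.card β).factorial * Y ^ Fintype.card β) ^ 2) ≤ Dt)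
    (R : β → Fin n) (hR : Function.Injective R)
    (M : Matrix (Fin n) (Fin n) ℤ) (hz : β → Fin n → ℤ)
    (hM1 : M.map (Int.cast : ℤ → ℚ) = newP (matZ b) R (gF (matZ b) F)) (hM2 : M.transpose = M)
    (hM3 : M.det ≠ 0)
    (hM4 : ((M.det : ℤ) : ℚ) = (matZ b).det * (minor R (gF (matZ b) F)) ^ 2)
    (hM5 : ∀ j k, j ∉ Set.range R → k ∉ Set.range R → M j k = matZ b j k)
    (hM6 : ∀ c : β → Bool, newH (matZ b) R (gF (matZ b) F) c =
      fun j => (((∑ i, if c i then hz i j else 0 : ℤ)) : ℚ))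
    (hM9 : ∀ w : Fin n → ℤ, (QuotientAddGroup.mk w : Coker M) ∈
        AddSubgroup.closure (Set.range fun i => (QuotientAddGroup.mk (hz i) : Coker M)) ↔
      ∃ v ∈ newL (LFg (matZ b) F) R (gF (matZ b) F), M.map (Int.cast : ℤ → ℚ) *ᵥ v = fun j => (w j : ℚ))
    (c : Fin s₁ → β → Bool)
    (hcost : ∑ p ∈ M.det.natAbs.primeFactors,
        cst (Fintype.card β) p (if y ≤ p then 0 else Fintype.card β * (a - 1))
          (AddSubgroup.closure (Set.range fun t =>
            (∑ i, if c t i then (QuotientAddGroup.mk (hz i) : Coker M) else 0)))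
          (AddSubgroup.closure (Set.range fun i => (QuotientAddGroup.mk (hz i) : Coker M))) ≤ X) :
    newL (LFg (matZ b) F) R (gF (matZ b) F) ∈
      LabSet n s₁ (Fintype.card β) y a (k + Fintype.card β) Dt X (newP (matZ b) R (gF (matZ b) F))
        (fun t => newH (matZ b) R (gF (matZ b) F) (c t)) := by
  classical
  have hQ : QL M (newL (LFg (matZ b) F) R (gF (matZ b) F)) =
      AddSubgroup.closure (Set.range fun i => (QuotientAddGroup.mk (hz i) : Coker M)) := by
    ext x
    constructor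
    · rintro ⟨w, rfl, hv⟩
      exact (hM9 w).2 hv
    · intro hx
      obtain ⟨w, rfl⟩ := QuotientAddGroup.mk_surjective x
      exact ⟨w, rfl, (hM9 w).1 hx⟩
  have hH : (fun t : Fin s₁ => (QuotientAddGroup.mk (fun j => ∑ i, if c t i then hz i j else 0) : Coker M)) =
      fun t => ∑ i, if c t i then (QuotientAddGroup.mk (hz i) : Coker M) else 0 := by
    funext t
    have h1 : (fun j => ∑ i, if c t i then hz i j else 0) = ∑ i, if c t i then hz i else 0 := by
      funext j
      rw [Finset.sum_apply]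
      refine Finset.sum_congr rfl fun i _ => ?_
      split_ifs <;> rfl
    rw [h1]
    have h2 := map_sum (QuotientAddGroup.mk' (lat M)) (fun i => if c t i then hz i else 0) univ
    refine h2.trans (Finset.sum_congr rfl fun i _ => ?_)
    split_ifs
    · rfl
    · exact map_zero _
  have hfact : (0 : ℝ) < n.factorial := by exact_mod_cast Nat.factorial_pos n
  refine ⟨M, fun t j => ∑ i, if c t i then hz i j else 0, hM1, hM2, hM3, ?_, ?_, ?_, ?_, ?_, ?_, ?_, ?_⟩
  · refine le_trans ?_ hDt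
    have h1 : (M.det : ℝ) = (matZ b).det * ((minor R (gF (matZ b) F) : ℚ) : ℝ) ^ 2 := by
      have := congrArg (fun q : ℚ => (q : ℝ)) hM4
      simp only [Rat.cast_mul, Rat.cast_pow, Rat.cast_intCast] at this
      exact this
    have h2 : |((matZ b).det : ℝ)| ≤ n.factorial := by
      have h3 := D479.det_le_fact b
      have h4 : |((matZ b).det : ℝ)| = (((matZ b).det.natAbs : ℕ) : ℝ) := by
        rw [Nat.cast_natAbs]; push_cast; rfl
      rw [h4]
      exact_mod_cast h3
    have h5 := D479.minor_le R (gF (matZ b) F) Y hBd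
    refine Real.logb_le_logb_of_le (by norm_num) (abs_pos.2 (by exact_mod_cast hM3)) ?_
    rw [h1, abs_mul, abs_pow]
    refine mul_le_mul h2 (pow_le_pow_left₀ (abs_nonneg _) h5 2) (by positivity) hfact.le
  · intro p hp
    exact Rank952.rank_M n β b R M k hk hM5 p hp
  · intro t j
    exact congrFun (hM6 (c t)) j
  · intro z
    obtain ⟨v, hv, h1⟩ := (hM9 (M *ᵥ z)).1 (by
      have : (QuotientAddGroup.mk (M *ᵥ z) : Coker M) = 0 := by
        rw [QuotientAddGroup.eq_zero_iff, mem_lat]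
        exact ⟨_, rfl⟩
      rw [this]
      exact AddSubgroup.zero_mem _)
    have h2 : v = fun j => (z j : ℚ) := by
      have h3 : (M.map (Int.cast : ℤ → ℚ)).det ≠ 0 := by
        have : (M.map (Int.cast : ℤ → ℚ)).det = ((M.det : ℤ) : ℚ) := D479.PQ_det M
        rw [this]
        exact_mod_cast hM3
      apply Matrix.mulVec_injective_of_isUnit ((Matrix.isUnit_iff_isUnit_det _).2 h3.isUnit)
      show M.map (Int.cast : ℤ → ℚ) *ᵥ v = M.map (Int.cast : ℤ → ℚ) *ᵥ _
      rw [h1, castV]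
    rw [← h2]
    exact hv
  · exact D479.newP_int b F hdet hgr R
  · rw [hQ, hH, AddSubgroup.closure_le]
    rintro _ ⟨t, rfl⟩
    refine AddSubgroup.sum_mem _ fun i _ => ?_
    split_ifs
    · exact AddSubgroup.subset_closure (Set.mem_range_self i)
    · exact AddSubgroup.zero_mem _
  · refine ⟨fun i => (QuotientAddGroup.mk (hz ((Fintype.equivFin β).symm i)) : Coker M), ?_⟩
    rw [hQ]
    congr 1
    exact ((Fintype.equivFin β).symm.surjective.range_comp
      (fun i : β => (QuotientAddGroup.mk (hz i) : Coker M))).symm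
  · rw [hQ, hH]
    exact hcost

theorem gdet : KZFStmt → ConStmt → RelStmt → GoodRStmt → AvgStmt → DetStmt := by
  classical
  intro hkzf hcon hrel hgood havg n β _ _ b F Xn y a z k s s₁ τ Y Dt X B Av hn hXn ha hy hτ hY hX hdet hF hgr hBd
    hKZ hk hc h4 hB hDt hnum
  choose gr hgr' using hgr
  obtain ⟨M', hz, D, hD0, hD, hrel'⟩ := hrel n β b F gr hdet hgr'
  obtain ⟨R, hR, hAv, hmin, c, hcost⟩ := Cost837.cost_ex havg hkzf hcon hgood b F Xn y a z s s₁ τ X B Av hn hXn ha
    hτ hX hdet hF hKZ hc h4 hB hnum M' hz D hD0 hD (fun R hR hm => (hrel' R hR hm).2.2.1)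
    (fun R hR hm => (hrel' R hR hm).2.2.2.2.2.2.1) (fun R hR hm => (hrel' R hR hm).2.2.2.2.2.2.2.1)
  have hm : minor R (gF (matZ b) F) ≠ 0 := by
    intro h0
    rw [h0] at hmin
    have h6 : 0 < τ ^ Fintype.card β := pow_pos hτ _
    simp only [Rat.cast_zero, abs_zero] at hmin
    linarith
  obtain ⟨h1, h2, h3, h4, h5, h6, _, _, h9⟩ := hrel' R hR hm
  exact ⟨R, hR, hAv, hmin, c, lab_mem b F Y Dt X y a k s₁ hY hdet (fun i k => ⟨gr i k, hgr' i k⟩) hBd hk hDt R hR
    (M' R) (hz R) h1 h2 h3 h4 h5 h6 h9 c hcost⟩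

end Vale.Agent.P160.Half.G.Det837
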