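import Vale.Agent.P160.Half.GStmt3
import Mathlib.LinearAlgebra.Matrix.Determinant.Basic
import Mathlib.LinearAlgebra.Matrix.Adjugate
import Mathlib.Data.Real.Basic
import Mathlib.Data.Fintype.BigOperators
import Mathlib.SetTheory.Cardinal.Finite
import Mathlib.Tactic.Positivity
import Mathlib.Tactic.Linarith
import Mathlib.Tactic.Ring
import Mathlib.Tactic.FieldSimp

/-! # P160, half rate: gap (G), leaf GOODR (helper731)

If no real combination `G *ᵥ c`, `max |c| = 1`, has more than `m` coordinates of absolute value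
`< ε`, then all but `ρ m n^(ρ-1)` of the maps `R : β → α` (`ρ = |β|`, `n = |α|`) have
`|det G_R| ≥ ε^ρ`. -/

open Finset Matrix

namespace Vale.Agent.P160.Half.GoodR

variable {α β : Type} [Fintype α] [Fintype β] [DecidableEq β]

/-- the flatness hypothesis: no normalised combination of the columns has more than `m` small coordinates -/
def Flat (G : Matrix α β ℝ) (ε : ℝ) (m : ℕ) : Prop :=
  ∀ c : β → ℝ, (∀ q, |c q| ≤ 1) → (∃ q, |c q| = 1) → Nat.card {a : α // |(G *ᵥ c) a| < ε} ≤ m

/-- one step: rows `r` with a `k`-minor `≥ μ` in absolute value; all but `m` rows `a` give a `(k+1)`-minor `≥ ε μ`. -/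
theorem step (G : Matrix α β ℝ) (ε : ℝ) (m : ℕ) (hG : Flat G ε m) {k : ℕ} (hk : k < Fintype.card β)
    (r : Fin k → α) (μ : ℝ) (hμ : 0 < μ) (hr : ∃ Q : Fin k → β, μ ≤ |(G.submatrix r Q).det|) :
    Nat.card {a : α // ∀ Q : Fin (k + 1) → β, |(G.submatrix (Fin.cons a r : Fin (k + 1) → α) Q).det| < ε * μ} ≤ m := by
  classical
  obtain ⟨Q, -, hQ⟩ := Finset.exists_max_image (univ : Finset (Fin k → β))
    (fun Q => |(G.submatrix r Q).det|) ⟨hr.choose, mem_univ _⟩
  set M : ℝ := |(G.submatrix r Q).det| with hM
  have hμM : μ ≤ M := hr.choose_spec.trans (hQ _ (mem_univ _))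
  have hMpos : 0 < M := hμ.trans_le hμM
  have hinj : Function.Injective Q := by
    intro i j hij
    by_contra hne
    have : (G.submatrix r Q).det = 0 := by
      refine Matrix.det_zero_of_column_eq hne fun s => ?_
      simp [hij]
    rw [hM, this, abs_zero] at hMpos
    exact lt_irrefl _ hMpos
  obtain ⟨q, hq⟩ : ∃ q, q ∉ Set.range Q := by
    by_contra hcon
    push Not at hcon
    have : Fintype.card β ≤ Fintype.card (Fin k) := Fintype.card_le_of_surjective Q hcon
    rw [Fintype.card_fin] at this
    omega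
  set Q' : Fin (k + 1) → β := Fin.cons q Q with hQ'
  have hinj' : Function.Injective Q' := Fin.cons_injective_iff.2 ⟨hq, hinj⟩
  -- the cofactors
  set w : Fin (k + 1) → ℝ := fun j => (-1) ^ (j : ℕ) * (G.submatrix r (Q' ∘ Fin.succAbove j)).det with hw
  have hwle : ∀ j, |w j| ≤ M := by
    intro j
    rw [hw]
    simp only [abs_mul, abs_pow, abs_neg, abs_one, one_pow, one_mul]
    exact hQ _ (mem_univ _)
  have hw0 : |w 0| = M := by
    have h1 : Q' ∘ Fin.succAbove 0 = Q := by
      funext i
      simp [hQ', Fin.cons_succ]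
    rw [hw, hM]
    simp only [h1, abs_mul, abs_pow, abs_neg, abs_one, one_pow, one_mul]
  set c : β → ℝ := fun b => ∑ j, if Q' j = b then w j / M else 0 with hc
  have hcj : ∀ j, c (Q' j) = w j / M := by
    intro j
    rw [hc]
    simp only [hinj'.eq_iff]
    rw [Finset.sum_ite_eq' univ j]
    simp
  have hc1 : ∀ b, |c b| ≤ 1 := by
    intro b
    by_cases hb : ∃ j, Q' j = b
    · obtain ⟨j, rfl⟩ := hb
      rw [hcj, abs_div, abs_of_pos hMpos, div_le_one hMpos]
      exact hwle j
    · have : c b = 0 := by
        rw [hc]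
        refine Finset.sum_eq_zero fun j _ => ?_
        rw [if_neg fun h => hb ⟨j, h⟩]
      rw [this, abs_zero]
      exact zero_le_one
  have hc2 : ∃ b, |c b| = 1 := ⟨Q' 0, by rw [hcj, abs_div, abs_of_pos hMpos, hw0, div_self hMpos.ne']⟩
  have hdet : ∀ a, (G.submatrix (Fin.cons a r : Fin (k + 1) → α) Q').det = M * (G *ᵥ c) a := by
    intro a
    rw [Matrix.det_succ_row_zero]
    have h1 : (G *ᵥ c) a = ∑ j, G a (Q' j) * (w j / M) := by
      rw [Matrix.mulVec, dotProduct, hc]
      simp only [Finset.mul_sum, mul_ite, mul_zero]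
      rw [Finset.sum_comm]
      refine Finset.sum_congr rfl fun j _ => ?_
      rw [Finset.sum_ite_eq univ (Q' j)]
      simp
    rw [h1, Finset.mul_sum]
    refine Finset.sum_congr rfl fun j _ => ?_
    have h2 : (G.submatrix (Fin.cons a r : Fin (k + 1) → α) Q').submatrix Fin.succ (Fin.succAbove j) =
        G.submatrix r (Q' ∘ Fin.succAbove j) := by
      ext i l
      simp
    rw [h2, hw]
    simp only [Matrix.submatrix_apply, Fin.cons_zero]
    field_simp
  refine le_trans ?_ (hG c hc1 hc2)
  refine Nat.card_le_card_of_injective (fun a => ⟨a.1, ?_⟩) ?_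
  · have := a.2 Q'
    rw [hdet, abs_mul, abs_of_pos hMpos] at this
    by_contra hcon
    push Not at hcon
    have hεM : ε * μ ≤ M * |(G *ᵥ c) a.1| := by
      by_cases hε : 0 ≤ ε
      · calc ε * μ ≤ ε * M := mul_le_mul_of_nonneg_left hμM hε
          _ = M * ε := mul_comm _ _
          _ ≤ M * |(G *ᵥ c) a.1| := mul_le_mul_of_nonneg_left hcon hMpos.le
      · push Not at hε
        have : ε * μ < 0 := mul_neg_of_neg_of_pos hε hμ
        have h3 : 0 ≤ M * |(G *ᵥ c) a.1| := by positivity
        linarith
    exact absurd this (not_lt.2 hεM)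
  · intro a b hab
    exact Subtype.ext (congrArg (fun x => x.1) hab)

/-- sequences of rows: all but `k m n^(k-1)` of the `r : Fin k → α` have a `k`-minor `≥ ε^k`. -/
theorem seq (G : Matrix α β ℝ) (ε : ℝ) (hε : 0 < ε) (m : ℕ) (hG : Flat G ε m) :
    ∀ k : ℕ, k ≤ Fintype.card β →
      Nat.card {r : Fin k → α // ∀ Q : Fin k → β, |(G.submatrix r Q).det| < ε ^ k} ≤
        k * m * Fintype.card α ^ (k - 1) := by
  classical
  intro k
  induction k with
  | zero =>
    intro _
    have : IsEmpty {r : Fin 0 → α // ∀ Q : Fin 0 → β, |(G.submatrix r Q).det| < ε ^ 0} := by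
      refine ⟨fun r => ?_⟩
      have := r.2 Fin.elim0
      simp at this
    rw [Nat.card_of_isEmpty]
    exact Nat.zero_le _
  | succ k ih =>
    intro hk
    have ihk := ih (by omega)
    -- split into a tail `r` with small minors, and a good tail with a bad head
    have key : Nat.card {r : Fin (k + 1) → α // ∀ Q : Fin (k + 1) → β, |(G.submatrix r Q).det| < ε ^ (k + 1)} ≤
        Nat.card {x : α × (Fin k → α) // ∀ Q : Fin k → β, |(G.submatrix x.2 Q).det| < ε ^ k} +
        Nat.card {x : α × (Fin k → α) // (∃ Q : Fin k → β, ε ^ k ≤ |(G.submatrix x.2 Q).det|) ∧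
          ∀ Q : Fin (k + 1) → β, |(G.submatrix (Fin.cons x.1 x.2 : Fin (k + 1) → α) Q).det| < ε * ε ^ k} := by
      rw [← Nat.card_sum]
      refine Nat.card_le_card_of_injective (fun r =>
        if h : ∀ Q : Fin k → β, |(G.submatrix (Fin.tail r.1) Q).det| < ε ^ k then
          Sum.inl ⟨(r.1 0, Fin.tail r.1), h⟩
        else Sum.inr ⟨(r.1 0, Fin.tail r.1), by push Not at h; exact h, by
          have h2 := r.2
          simp only [Fin.cons_self_tail]
          rw [← pow_succ']
          exact h2⟩) ?_
      intro r s hrs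
      have hh : (r.1 0, Fin.tail r.1) = (s.1 0, Fin.tail s.1) := by
        by_cases h1 : ∀ Q : Fin k → β, |(G.submatrix (Fin.tail r.1) Q).det| < ε ^ k <;>
        by_cases h2 : ∀ Q : Fin k → β, |(G.submatrix (Fin.tail s.1) Q).det| < ε ^ k <;>
        simp only [h1, h2, implies_true, ↓reduceDIte] at hrs
        · exact congrArg Subtype.val (Sum.inl.inj hrs)
        · exact absurd hrs (by simp)
        · exact absurd hrs (by simp)
        · exact congrArg Subtype.val (Sum.inr.inj hrs)
      apply Subtype.ext
      rw [← Fin.cons_self_tail r.1, ← Fin.cons_self_tail s.1]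
      rw [(Prod.mk.inj hh).1, (Prod.mk.inj hh).2]
    have k1 : Nat.card {x : α × (Fin k → α) // ∀ Q : Fin k → β, |(G.submatrix x.2 Q).det| < ε ^ k} ≤
        Fintype.card α * (k * m * Fintype.card α ^ (k - 1)) := by
      have e : {x : α × (Fin k → α) // ∀ Q : Fin k → β, |(G.submatrix x.2 Q).det| < ε ^ k} ≃
          α × {r : Fin k → α // ∀ Q : Fin k → β, |(G.submatrix r Q).det| < ε ^ k} :=
        { toFun := fun x => (x.1.1, ⟨x.1.2, x.2⟩)
          invFun := fun x => ⟨(x.1, x.2.1), x.2.2⟩
          left_inv := fun x => rfl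
          right_inv := fun x => rfl }
      rw [Nat.card_congr e, Nat.card_prod, Nat.card_eq_fintype_card]
      exact Nat.mul_le_mul_left _ ihk
    have k2 : Nat.card {x : α × (Fin k → α) // (∃ Q : Fin k → β, ε ^ k ≤ |(G.submatrix x.2 Q).det|) ∧
          ∀ Q : Fin (k + 1) → β, |(G.submatrix (Fin.cons x.1 x.2 : Fin (k + 1) → α) Q).det| < ε * ε ^ k} ≤
        Fintype.card α ^ k * m := by
      have e : {x : α × (Fin k → α) // (∃ Q : Fin k → β, ε ^ k ≤ |(G.submatrix x.2 Q).det|) ∧
          ∀ Q : Fin (k + 1) → β, |(G.submatrix (Fin.cons x.1 x.2 : Fin (k + 1) → α) Q).det| < ε * ε ^ k} ≃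
          Σ r : Fin k → α, {a : α // (∃ Q : Fin k → β, ε ^ k ≤ |(G.submatrix r Q).det|) ∧
          ∀ Q : Fin (k + 1) → β, |(G.submatrix (Fin.cons a r : Fin (k + 1) → α) Q).det| < ε * ε ^ k} :=
        { toFun := fun x => ⟨x.1.2, ⟨x.1.1, x.2⟩⟩
          invFun := fun x => ⟨(x.2.1, x.1), x.2.2⟩
          left_inv := fun x => rfl
          right_inv := fun x => rfl }
      rw [Nat.card_congr e, Nat.card_sigma]
      have hcard : Fintype.card α ^ k = ∑ _r : Fin k → α, 1 := by
        simp
      rw [hcard, Finset.sum_mul]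
      refine Finset.sum_le_sum fun r _ => ?_
      rw [one_mul]
      by_cases hr : ∃ Q : Fin k → β, ε ^ k ≤ |(G.submatrix r Q).det|
      · refine le_trans (Nat.card_le_card_of_injective (fun a => ⟨a.1, a.2.2⟩) ?_)
          (step G ε m hG (by omega) r (ε ^ k) (pow_pos hε k) hr)
        intro a b hab
        exact Subtype.ext (congrArg (fun x => x.1) hab)
      · have : IsEmpty {a : α // (∃ Q : Fin k → β, ε ^ k ≤ |(G.submatrix r Q).det|) ∧
          ∀ Q : Fin (k + 1) → β, |(G.submatrix (Fin.cons a r : Fin (k + 1) → α) Q).det| < ε * ε ^ k} :=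
          ⟨fun a => hr a.2.1⟩
        rw [Nat.card_of_isEmpty]
        exact Nat.zero_le _
    refine key.trans ((Nat.add_le_add k1 k2).trans ?_)
    rcases k with _ | k
    · simp
    · simp only [Nat.add_sub_cancel]
      apply le_of_eq
      ring

/-- **GOODR** for maps `R : β → α`: all but `ρ m n^(ρ-1)` of them have `|det G_R| ≥ ε^ρ`. -/
theorem goodR (G : Matrix α β ℝ) (ε : ℝ) (hε : 0 < ε) (m : ℕ) (hG : Flat G ε m) :
    Nat.card {R : β → α // |(G.submatrix R id).det| < ε ^ Fintype.card β} ≤
      Fintype.card β * m * Fintype.card α ^ (Fintype.card β - 1) := by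
  classical
  refine le_trans ?_ (seq G ε hε m hG (Fintype.card β) le_rfl)
  let e : Fin (Fintype.card β) ≃ β := (Fintype.equivFin β).symm
  refine Nat.card_le_card_of_injective (fun R => ⟨fun i => R.1 (e i), fun Q => ?_⟩) ?_
  · have hR := R.2
    by_cases hQ : Function.Injective Q
    · have hb : Function.Bijective Q := (Fintype.bijective_iff_injective_and_card Q).2 ⟨hQ, by simp⟩
      let f : Fin (Fintype.card β) ≃ β := Equiv.ofBijective Q hb
      let σ : Equiv.Perm (Fin (Fintype.card β)) := f.trans e.symm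
      have h1 : G.submatrix (fun i => R.1 (e i)) Q = ((G.submatrix R.1 id).submatrix e e).submatrix id σ := by
        ext i j
        simp [σ, f]
      rw [h1, Matrix.det_permute', Matrix.det_submatrix_equiv_self, abs_mul]
      have h2 : |((Equiv.Perm.sign σ : ℤ) : ℝ)| = 1 := by
        rcases Int.units_eq_one_or (Equiv.Perm.sign σ) with h | h <;> simp [h]
      rw [h2, one_mul]
      exact hR
    · have : (G.submatrix (fun i => R.1 (e i)) Q).det = 0 := by
        unfold Function.Injective at hQ
        push Not at hQ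
        obtain ⟨i, j, hij, hne⟩ := hQ
        refine Matrix.det_zero_of_column_eq hne fun s => ?_
        simp [hij]
      rw [this, abs_zero]
      exact pow_pos hε _
  · intro R S hRS
    have h := congrArg Subtype.val hRS
    apply Subtype.ext
    funext b
    have := congrFun h (e.symm b)
    simpa using this

/-- maps `R` with a prescribed value or a forbidden value somewhere: at most `ρ |X| n^(ρ-1)` -/
theorem card_hit (X : Finset α) [DecidableEq α] :
    Nat.card {R : β → α // ∃ i, R i ∈ X} ≤ Fintype.card β * X.card * Fintype.card α ^ (Fintype.card β - 1) := by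
  classical
  rw [Nat.card_eq_fintype_card, Fintype.card_subtype]
  have h1 : (univ.filter fun R : β → α => ∃ i, R i ∈ X) ⊆
      (univ : Finset β).biUnion fun i => univ.filter fun R : β → α => R i ∈ X := by
    intro R hR
    obtain ⟨i, hi⟩ := (mem_filter.1 hR).2
    exact mem_biUnion.2 ⟨i, mem_univ _, mem_filter.2 ⟨mem_univ _, hi⟩⟩
  refine (card_le_card h1).trans (card_biUnion_le.trans ?_)
  have h2 : ∀ i : β, (univ.filter fun R : β → α => R i ∈ X).card ≤ X.card * Fintype.card α ^ (Fintype.card β - 1) := by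
    intro i
    have h3 : (univ.filter fun R : β → α => R i ∈ X) ⊆
        Fintype.piFinset fun j : β => if j = i then X else (univ : Finset α) := by
      intro R hR
      rw [Fintype.mem_piFinset]
      intro j
      by_cases hj : j = i
      · subst hj
        rw [if_pos rfl]
        exact (mem_filter.1 hR).2
      · rw [if_neg hj]
        exact mem_univ _
    refine (card_le_card h3).trans ?_
    rw [Fintype.card_piFinset]
    have h4 : ∀ j : β, (if j = i then X else (univ : Finset α)).card = if j = i then X.card else Fintype.card α := by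
      intro j
      by_cases hj : j = i
      · simp [hj]
      · simp [hj]
    simp only [h4]
    rw [← Finset.mul_prod_erase univ _ (mem_univ i), if_pos rfl]
    have h5 : ∏ j ∈ univ.erase i, (if j = i then X.card else Fintype.card α) = Fintype.card α ^ (Fintype.card β - 1) := by
      rw [Finset.prod_congr rfl (g := fun _ => Fintype.card α) fun j hj => if_neg (ne_of_mem_erase hj),
        Finset.prod_const, card_erase_of_mem (mem_univ i), card_univ]
    rw [h5]
  calc ∑ i : β, (univ.filter fun R : β → α => R i ∈ X).card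
      ≤ ∑ _i : β, X.card * Fintype.card α ^ (Fintype.card β - 1) := Finset.sum_le_sum fun i _ => h2 i
    _ = Fintype.card β * X.card * Fintype.card α ^ (Fintype.card β - 1) := by
      rw [Finset.sum_const, card_univ, smul_eq_mul, mul_assoc]

/-- non-injective maps: at most `ρ² n^(ρ-1)` -/
theorem card_noninj [DecidableEq α] :
    Nat.card {R : β → α // ¬ Function.Injective R} ≤
      Fintype.card β * Fintype.card β * Fintype.card α ^ (Fintype.card β - 1) := by
  classical
  rw [Nat.card_eq_fintype_card, Fintype.card_subtype]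
  have h1 : (univ.filter fun R : β → α => ¬ Function.Injective R) ⊆
      (univ : Finset (β × β)).biUnion fun p => univ.filter fun R : β → α => p.1 ≠ p.2 ∧ R p.1 = R p.2 := by
    intro R hR
    have := (mem_filter.1 hR).2
    unfold Function.Injective at this
    push Not at this
    obtain ⟨i, j, hij, hne⟩ := this
    exact mem_biUnion.2 ⟨(i, j), mem_univ _, mem_filter.2 ⟨mem_univ _, hne, hij⟩⟩
  refine (card_le_card h1).trans (card_biUnion_le.trans ?_)
  have h2 : ∀ p : β × β, (univ.filter fun R : β → α => p.1 ≠ p.2 ∧ R p.1 = R p.2).card ≤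
      Fintype.card α ^ (Fintype.card β - 1) := by
    intro p
    by_cases hp : p.1 = p.2
    · rw [filter_false_of_mem fun R _ => by simp [hp], card_empty]
      exact Nat.zero_le _
    · have h3 : Fintype.card α ^ (Fintype.card β - 1) = Fintype.card ({j : β // j ≠ p.1} → α) := by
        rw [Fintype.card_fun, Fintype.card_subtype_compl, Fintype.card_subtype_eq]
      rw [h3, ← card_univ]
      refine Finset.card_le_card_of_injOn (fun R j => R j.1) (fun _ _ => mem_univ _) ?_
      intro R hR S hS hRS
      have hR' := (mem_filter.1 (Finset.mem_coe.1 hR)).2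
      have hS' := (mem_filter.1 (Finset.mem_coe.1 hS)).2
      have h4 : ∀ j, j ≠ p.1 → R j = S j := fun j hj => congrFun hRS ⟨j, hj⟩
      funext j
      by_cases hj : j = p.1
      · rw [hj, hR'.2, hS'.2]
        exact h4 _ fun h => hp h.symm
      · exact h4 j hj
  calc ∑ p : β × β, (univ.filter fun R : β → α => p.1 ≠ p.2 ∧ R p.1 = R p.2).card
      ≤ ∑ _p : β × β, Fintype.card α ^ (Fintype.card β - 1) := Finset.sum_le_sum fun p _ => h2 p
    _ = Fintype.card β * Fintype.card β * Fintype.card α ^ (Fintype.card β - 1) := by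
      rw [Finset.sum_const, card_univ, smul_eq_mul, Fintype.card_prod]

end Vale.Agent.P160.Half.GoodR

namespace Vale.Agent.P160.Half.G

open A GoodR

/-- **GOODR** -/
theorem goodr : GoodRStmt := by
  classical
  intro n β _ _ g τ s X hτ hg
  set ρ := Fintype.card β with hρ
  let G : Matrix (Fin n) β ℝ := fun j q => ((g q j : ℚ) : ℝ)
  have hflat : Flat G τ s := by
    intro c h1 h2
    have := hg c h1 h2
    rw [← Nat.card_coe_set_eq] at this
    refine le_trans (le_of_eq ?_) this
    refine Nat.card_congr (Equiv.subtypeEquivRight fun j => ?_)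
    have h3 : (G *ᵥ c) j = ∑ q, c q * ((g q j : ℚ) : ℝ) := by
      rw [Matrix.mulVec, dotProduct]
      exact Finset.sum_congr rfl fun q _ => mul_comm _ _
    rw [h3]
    rfl
  have hdet : ∀ R : β → Fin n, (G.submatrix R id).det = ((minor R g : ℚ) : ℝ) := by
    intro R
    rw [minor, ← Matrix.det_transpose, ← Rat.coe_castHom (α := ℝ), RingHom.map_det]
    rfl
  have hb := goodR G τ hτ s hflat
  have hX := card_hit (β := β) X
  have hI := card_noninj (α := Fin n) (β := β)
  rw [Fintype.card_fin] at hb hX hI
  -- all maps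
  have hall : (n : ℕ) ^ ρ ≤ Nat.card {R : β → Fin n // Function.Injective R ∧ (∀ i, R i ∉ X) ∧
        τ ^ Fintype.card β ≤ |((minor R g : ℚ) : ℝ)|} +
      (Nat.card {R : β → Fin n // |(G.submatrix R id).det| < τ ^ Fintype.card β} +
        (Nat.card {R : β → Fin n // ∃ i, R i ∈ X} + Nat.card {R : β → Fin n // ¬ Function.Injective R})) := by
    have h1 : n ^ ρ = (univ : Finset (β → Fin n)).card := by simp [hρ]
    rw [h1]
    simp only [Nat.card_eq_fintype_card, Fintype.card_subtype]
    refine le_trans (card_le_card (t := (univ.filter fun R : β → Fin n => Function.Injective R ∧ (∀ i, R i ∉ X) ∧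
        τ ^ Fintype.card β ≤ |((minor R g : ℚ) : ℝ)|) ∪ ((univ.filter fun R : β → Fin n =>
        |(G.submatrix R id).det| < τ ^ Fintype.card β) ∪ ((univ.filter fun R : β → Fin n => ∃ i, R i ∈ X) ∪
        (univ.filter fun R : β → Fin n => ¬ Function.Injective R)))) ?_) ?_
    · intro R _
      simp only [mem_union, mem_filter, mem_univ, true_and]
      by_cases ha : Function.Injective R
      · by_cases hb : ∃ i, R i ∈ X
        · exact Or.inr (Or.inr (Or.inl hb))
        · by_cases hc : |(G.submatrix R id).det| < τ ^ Fintype.card β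
          · exact Or.inr (Or.inl hc)
          · refine Or.inl ⟨ha, fun i hi => hb ⟨i, hi⟩, ?_⟩
            rw [hdet] at hc
            exact not_lt.1 hc
      · exact Or.inr (Or.inr (Or.inr ha))
    · refine (card_union_le _ _).trans (Nat.add_le_add_left ?_ _)
      refine (card_union_le _ _).trans (Nat.add_le_add_left ?_ _)
      exact card_union_le _ _
  have hfin : n ^ ρ ≤ Nat.card {R : β → Fin n // Function.Injective R ∧ (∀ i, R i ∉ X) ∧
        τ ^ Fintype.card β ≤ |((minor R g : ℚ) : ℝ)|} +
      ρ * (s + X.card + ρ) * n ^ (ρ - 1) := by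
    refine hall.trans (Nat.add_le_add_left ?_ _)
    refine (Nat.add_le_add hb (Nat.add_le_add hX hI)).trans (le_of_eq ?_)
    rw [← hρ]
    ring
  have hfin' : ((n : ℝ)) ^ ρ ≤ ((Nat.card {R : β → Fin n // Function.Injective R ∧ (∀ i, R i ∉ X) ∧
        τ ^ Fintype.card β ≤ |((minor R g : ℚ) : ℝ)|} : ℕ) : ℝ) +
      ρ * (s + X.card + ρ) * (n : ℝ) ^ (ρ - 1) := by
    exact_mod_cast hfin
  linarith

end Vale.Agent.P160.Half.G
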