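import Vale.Agent.P160.Half.GStmt3

/-! # P160, half rate: (G) part 2, KZF (helper446) -/

set_option linter.unusedSectionVars false

open Finset Matrix

namespace Vale.Agent.P160.Half.G

namespace KF

/-- a nonzero integral word vanishing on `T` -/
theorem exists_word (n : ℕ) (β : Type) [Fintype β] [DecidableEq β] (P : Matrix (Fin n) (Fin n) ℤ) (F : Matrix (Fin n) β ℤ)
    (hP : P.det ≠ 0) (T : Finset (Fin n)) (hT : T.card < Fintype.card β) :
    ∃ (u : Fin n → ℤ) (d : β → ℤ), P *ᵥ u + F *ᵥ d = 0 ∧ (∀ j ∈ T, u j = 0) ∧ d ≠ 0 := by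
  classical
  let f : (β → ℤ) →ₗ[ℤ] (T → ℤ) := ((P.adjugate * F).submatrix (fun j : T => (j : Fin n)) id).mulVecLin
  have hf : ¬ Function.Injective f := by
    intro h
    have h1 := card_le_of_injective ℤ f h
    rw [Fintype.card_coe] at h1
    omega
  have h2 : ∃ d : β → ℤ, f d = 0 ∧ d ≠ 0 := by
    by_contra hcon
    push Not at hcon
    apply hf
    rw [← LinearMap.ker_eq_bot, LinearMap.ker_eq_bot']
    exact hcon
  obtain ⟨d, hd, hd0⟩ := h2
  refine ⟨-((P.adjugate * F) *ᵥ d), P.det • d, ?_, ?_, ?_⟩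
  · rw [mulVec_neg, mulVec_mulVec, ← Matrix.mul_assoc, Matrix.mul_adjugate, Matrix.smul_mul, Matrix.one_mul,
      Matrix.smul_mulVec, mulVec_smul, neg_add_cancel]
  · intro j hj
    have := congrFun hd ⟨j, hj⟩
    simp only [Pi.neg_apply, neg_eq_zero]
    exact this
  · exact smul_ne_zero hP hd0

end KF

theorem kzf : KZFStmt := by
  intro n β _ _ P F y a z hP ha hKZ p hp T hT
  classical
  obtain ⟨u, d, hw, huT, hd⟩ := KF.exists_word n β P F hP T hT
  set e := if y ≤ p then 1 else a with he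
  have he1 : e ≠ 0 := by rw [he]; split_ifs <;> omega
  set w : Fin n ⊕ β → ℤ := Sum.elim u d with hwd
  obtain ⟨l, hl⟩ := Function.ne_iff.1 hd
  obtain ⟨g, hg, hg1⟩ := Finset.extract_gcd w (s := univ) ⟨Sum.inr l, mem_univ _⟩
  have hG : (univ.gcd w : ℤ) ≠ 0 := by
    intro h0
    exact hl ((Finset.gcd_eq_zero_iff.1 h0) (Sum.inr l) (mem_univ _))
  set G : ℤ := univ.gcd w with hGd
  have hu : u = G • (fun i => g (Sum.inl i)) := by
    funext i
    exact hg (Sum.inl i) (mem_univ _)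
  have hd' : d = G • (fun i => g (Sum.inr i)) := by
    funext i
    exact hg (Sum.inr i) (mem_univ _)
  have hword : P *ᵥ (fun i => g (Sum.inl i)) + F *ᵥ (fun i => g (Sum.inr i)) = 0 := by
    have h1 : G • (P *ᵥ (fun i => g (Sum.inl i)) + F *ᵥ (fun i => g (Sum.inr i))) = 0 := by
      rw [smul_add, ← mulVec_smul, ← mulVec_smul, ← hu, ← hd', hw]
    exact (smul_eq_zero.1 h1).resolve_left hG
  have hgT : ∀ j ∈ T, g (Sum.inl j) = 0 := by
    intro j hj
    have h1 := huT j hj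
    rw [hu] at h1
    exact (mul_eq_zero.1 h1).resolve_left hG
  have hmem : (fun i => g (Sum.inl i)) ∈ KW P F := ⟨fun i => g (Sum.inr i), hword⟩
  -- the reduction
  have hWord : Word (ZMod (p ^ e)) P F (fun i => ((g (Sum.inl i) : ℤ) : ZMod (p ^ e))) (fun i => ((g (Sum.inr i) : ℤ) : ZMod (p ^ e))) := by
    unfold Word
    funext i
    have h1 := congrArg (Int.cast : ℤ → ZMod (p ^ e)) (congrFun hword i)
    simp only [Pi.add_apply, Matrix.mulVec, dotProduct, Pi.zero_apply, Int.cast_add, Int.cast_sum, Int.cast_mul,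
      Int.cast_zero] at h1
    simp only [Pi.add_apply, Matrix.mulVec, dotProduct, Matrix.map_apply, Pi.zero_apply]
    exact h1
  have hex : ∃ i, ¬ (p : ℤ) ∣ g i := by
    by_contra hcon
    push Not at hcon
    have h1 : (p : ℤ) ∣ univ.gcd g := Finset.dvd_gcd fun i _ => hcon i
    rw [hg1] at h1
    have h2 := Int.eq_one_of_dvd_one (by positivity) h1
    exact hp.one_lt.ne' (by exact_mod_cast h2)
  have hunit : ∀ i, ¬ (p : ℤ) ∣ g i → IsUnit ((g i : ℤ) : ZMod (p ^ e)) := by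
    intro i hi
    rw [ZMod.coe_int_isUnit_iff_isCoprime]
    push_cast
    refine IsCoprime.pow_left ?_
    exact (Prime.coprime_iff_not_dvd (Nat.prime_iff_prime_int.1 hp)).2 hi
  have hPrim : Prim (p := p) (a := e) (fun i => ((g (Sum.inl i) : ℤ) : ZMod (p ^ e)))
      (fun i => ((g (Sum.inr i) : ℤ) : ZMod (p ^ e))) := by
    obtain ⟨i, hi⟩ := hex
    rcases i with i | i
    · exact Or.inl ⟨i, hunit _ hi⟩
    · exact Or.inr ⟨i, hunit _ hi⟩
  have hlt := hKZ p hp _ _ hWord hPrim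
  refine le_trans ?_ hlt.le
  rw [Nat.card_eq_fintype_card, Fintype.card_subtype]
  refine card_le_card fun r hr => ?_
  rw [mem_filter] at hr ⊢
  refine ⟨mem_univ _, ?_⟩
  exact (ZMod.intCast_zmod_eq_zero_iff_dvd _ _).2 (hr.2 _ hmem hgT)

end Vale.Agent.P160.Half.G
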