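import Vale.Agent.P160.Half.Labels2

/-!
# Reduction modulo an isotropic subgroup, and the cokernel of a symmetric integer matrix
-/

namespace Vale.Agent.P160.Half.Labels

open Finset

section Perp

variable {G : Type*} [AddCommGroup G] [Fintype G] {N : ℕ} [NeZero N]

/-- `|Hom(A, Z/N)| ≤ |A|` -/
theorem card_hom_le (A : Type*) [AddCommGroup A] [Finite A] :
    Finite (A →+ ZMod N) ∧ Nat.card (A →+ ZMod N) ≤ Nat.card A := by
  classical
  have := Fintype.ofFinite A
  let f : (A →+ ZMod N) → AddChar A ℂ := fun g => (ZMod.stdAddChar (N := N)).compAddMonoidHom g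
  have hf : Function.Injective f := by
    intro g g' h
    ext x
    have h1 := DFunLike.congr_fun h x
    exact ZMod.injective_stdAddChar h1
  have hfin : Finite (A →+ ZMod N) := Finite.of_injective f hf
  refine ⟨hfin, ?_⟩
  have h2 := Nat.card_le_card_of_injective f hf
  rw [Nat.card_eq_fintype_card (α := AddChar A ℂ), AddChar.card_eq] at h2
  rwa [Nat.card_eq_fintype_card (α := A)]

variable (b : G →+ G →+ ZMod N)

/-- the orthogonal of a subgroup -/
def perp (H : AddSubgroup G) : AddSubgroup G where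
  carrier := {x | ∀ h ∈ H, b x h = 0}
  zero_mem' := by intro h _; simp
  add_mem' := by
    intro x y hx hy h hh
    rw [map_add, AddMonoidHom.add_apply, hx h hh, hy h hh, add_zero]
  neg_mem' := by
    intro x hx h hh
    rw [map_neg, AddMonoidHom.neg_apply, hx h hh, neg_zero]

theorem mem_perp {H : AddSubgroup G} {x : G} : x ∈ perp b H ↔ ∀ h ∈ H, b x h = 0 := Iff.rfl

theorem card_le_perp_mul (H : AddSubgroup G) :
    Nat.card G ≤ Nat.card (perp b H) * Nat.card H := by
  classical
  let f : G →+ (H →+ ZMod N) := AddMonoidHom.mk' (fun x => (b x).comp H.subtype) (by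
    intro x y; ext z; simp)
  have hker : f.ker = perp b H := by
    ext x
    rw [AddMonoidHom.mem_ker, mem_perp]
    constructor
    · intro h y hy
      exact DFunLike.congr_fun h ⟨y, hy⟩
    · intro h
      ext y
      exact h y.1 y.2
  have h1 : Nat.card G = Nat.card f.ker * Nat.card f.range := by
    rw [AddSubgroup.card_eq_card_quotient_mul_card_addSubgroup f.ker, mul_comm]
    congr 1
    exact Nat.card_congr (QuotientAddGroup.quotientKerEquivRange f).toEquiv
  rw [h1, hker]
  apply Nat.mul_le_mul_left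
  obtain ⟨hfin, hle⟩ := card_hom_le (N := N) H
  exact (Nat.card_le_card_of_injective _ (Subtype.val_injective)).trans hle

theorem perp_mul_le (hs : ∀ x y, b x y = b y x) (hn : ∀ x, (∀ y, b x y = 0) → x = 0)
    (H : AddSubgroup G) : Nat.card (perp b H) * Nat.card H ≤ Nat.card G := by
  classical
  let P := perp b H
  -- H embeds into Hom(G / P, Z/N)
  let f : H → ((G ⧸ P) →+ ZMod N) := fun h => QuotientAddGroup.lift P (b h.1) (by
    intro x hx
    show b h.1 x = 0
    rw [hs]; exact hx h.1 h.2)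
  have hf : Function.Injective f := by
    intro h h' hh
    apply Subtype.ext
    rw [← sub_eq_zero]
    apply hn
    intro y
    have h1 := DFunLike.congr_fun hh (QuotientAddGroup.mk y)
    have h2 : b h.1 y = b h'.1 y := h1
    rw [map_sub, AddMonoidHom.sub_apply, h2, sub_self]
  obtain ⟨hfin, hle⟩ := card_hom_le (N := N) (G ⧸ P)
  have h3 := (Nat.card_le_card_of_injective f hf).trans hle
  have h4 := AddSubgroup.card_eq_card_quotient_mul_card_addSubgroup P
  rw [h4, mul_comm]
  exact Nat.mul_le_mul_right _ h3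

theorem card_perp (hs : ∀ x y, b x y = b y x) (hn : ∀ x, (∀ y, b x y = 0) → x = 0)
    (H : AddSubgroup G) : Nat.card (perp b H) * Nat.card H = Nat.card G :=
  le_antisymm (perp_mul_le b hs hn H) (card_le_perp_mul b H)

theorem perp_perp (hs : ∀ x y, b x y = b y x) (hn : ∀ x, (∀ y, b x y = 0) → x = 0)
    (H : AddSubgroup G) : perp b (perp b H) = H := by
  have hle : H ≤ perp b (perp b H) := by
    intro x hx y hy
    rw [hs]; exact hy x hx
  symm
  apply AddSubgroup.eq_of_le_of_card_ge hle
  have h1 := card_perp b hs hn H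
  have h2 := card_perp b hs hn (perp b H)
  have h3 : 0 < Nat.card (perp b H) := Nat.card_pos
  have h4 : Nat.card (perp b H) * Nat.card (perp b (perp b H))
      = Nat.card (perp b H) * Nat.card H := by rw [h1, ← h2, mul_comm]
  exact (Nat.eq_of_mul_eq_mul_left h3 h4).le

variable (H : AddSubgroup G)

/-- the quotient `H^⊥ / H` -/
abbrev Red : Type _ := (perp b H) ⧸ (H.addSubgroupOf (perp b H))

/-- the induced pairing on `H^⊥ / H` -/
def redPair (hs : ∀ x y, b x y = b y x) : Red b H →+ Red b H →+ ZMod N :=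
  QuotientAddGroup.lift _ (AddMonoidHom.mk' (fun x : perp b H =>
    QuotientAddGroup.lift (H.addSubgroupOf (perp b H)) ((b x.1).comp (perp b H).subtype) (by
      intro y hy
      show b x.1 y.1 = 0
      exact x.2 y.1 (AddSubgroup.mem_addSubgroupOf.mp hy))) (by
    intro x y
    apply QuotientAddGroup.addMonoidHom_ext
    ext z
    simp)) (by
    intro x hx
    show _ = _
    apply QuotientAddGroup.addMonoidHom_ext
    ext y
    show b x.1 y.1 = 0
    rw [hs]
    exact y.2 x.1 (AddSubgroup.mem_addSubgroupOf.mp hx))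

theorem redPair_mk (hs : ∀ x y, b x y = b y x) (x y : perp b H) :
    redPair b H hs (QuotientAddGroup.mk x) (QuotientAddGroup.mk y) = b x.1 y.1 := rfl

theorem redPair_symm (hs : ∀ x y, b x y = b y x) (x y : Red b H) :
    redPair b H hs x y = redPair b H hs y x := by
  obtain ⟨x, rfl⟩ := QuotientAddGroup.mk_surjective x
  obtain ⟨y, rfl⟩ := QuotientAddGroup.mk_surjective y
  rw [redPair_mk, redPair_mk, hs]

theorem redPair_nondeg (hs : ∀ x y, b x y = b y x) (hn : ∀ x, (∀ y, b x y = 0) → x = 0)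
    (x : Red b H) (hx : ∀ y, redPair b H hs x y = 0) : x = 0 := by
  obtain ⟨x, rfl⟩ := QuotientAddGroup.mk_surjective x
  have h1 : x.1 ∈ perp b (perp b H) := by
    intro y hy
    have := hx (QuotientAddGroup.mk ⟨y, hy⟩)
    rwa [redPair_mk] at this
  rw [perp_perp b hs hn] at h1
  rw [QuotientAddGroup.eq_zero_iff, AddSubgroup.mem_addSubgroupOf]
  exact h1

theorem card_red (hs : ∀ x y, b x y = b y x) (hn : ∀ x, (∀ y, b x y = 0) → x = 0)
    (hiso : ∀ x ∈ H, ∀ y ∈ H, b x y = 0) :
    Nat.card (Red b H) * Nat.card H ^ 2 = Nat.card G := by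
  have hle : H ≤ perp b H := fun x hx y hy => hiso x hx y hy
  have h1 := card_perp b hs hn H
  have h2 := AddSubgroup.card_eq_card_quotient_mul_card_addSubgroup (H.addSubgroupOf (perp b H))
  have h3 : Nat.card (H.addSubgroupOf (perp b H)) = Nat.card H :=
    Nat.card_congr (AddSubgroup.addSubgroupOfEquivOfLe hle).toEquiv
  rw [h3] at h2
  rw [← h1, h2, pow_two, mul_assoc]

end Perp

/-! ### the cokernel of a symmetric integer matrix -/

section Coker

open Matrix

variable {m : ℕ} (P : Matrix (Fin m) (Fin m) ℤ)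

/-- the lattice `P Z^m` -/
def lat : AddSubgroup (Fin m → ℤ) := (LinearMap.range P.mulVecLin).toAddSubgroup

theorem mem_lat {x : Fin m → ℤ} : x ∈ lat P ↔ ∃ z, P *ᵥ z = x := by
  rw [lat, Submodule.mem_toAddSubgroup, LinearMap.mem_range]; rfl

/-- the cokernel -/
abbrev Coker : Type := (Fin m → ℤ) ⧸ lat P

/-- the pairing `x^T adj(P) y mod det P` on the cokernel -/
def cokPair (hP : P.transpose = P) : Coker P →+ Coker P →+ ZMod P.det.natAbs :=
  QuotientAddGroup.lift _ (AddMonoidHom.mk' (fun x : Fin m → ℤ =>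
    QuotientAddGroup.lift (lat P) (AddMonoidHom.mk'
      (fun y : Fin m → ℤ => ((x ⬝ᵥ (P.adjugate *ᵥ y) : ℤ) : ZMod P.det.natAbs)) (by
        intro y z
        rw [mulVec_add, dotProduct_add]; push_cast; rfl)) (by
      intro y hy
      obtain ⟨z, rfl⟩ := (mem_lat P).mp hy
      show ((x ⬝ᵥ (P.adjugate *ᵥ (P *ᵥ z)) : ℤ) : ZMod P.det.natAbs) = 0
      rw [mulVec_mulVec, adjugate_mul, smul_mulVec, one_mulVec, dotProduct_smul, smul_eq_mul]
      rw [ZMod.intCast_zmod_eq_zero_iff_dvd, Int.natAbs_dvd]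
      exact dvd_mul_right _ _)) (by
    intro x y
    apply QuotientAddGroup.addMonoidHom_ext
    ext z
    simp [add_dotProduct])) (by
    intro x hx
    obtain ⟨z, rfl⟩ := (mem_lat P).mp hx
    apply QuotientAddGroup.addMonoidHom_ext
    apply AddMonoidHom.ext
    intro y
    show (((P *ᵥ z) ⬝ᵥ (P.adjugate *ᵥ y) : ℤ) : ZMod P.det.natAbs) = 0
    have h1 : (P *ᵥ z) ⬝ᵥ (P.adjugate *ᵥ y) = P.det * (z ⬝ᵥ y) := by
      rw [dotProduct_mulVec, ← mulVec_transpose, adjugate_transpose, hP, mulVec_mulVec,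
        adjugate_mul, smul_mulVec, one_mulVec, smul_dotProduct, smul_eq_mul]
    rw [h1, ZMod.intCast_zmod_eq_zero_iff_dvd, Int.natAbs_dvd]
    exact dvd_mul_right _ _)

theorem cokPair_mk (hP : P.transpose = P) (x y : Fin m → ℤ) :
    cokPair P hP (QuotientAddGroup.mk x) (QuotientAddGroup.mk y)
      = ((x ⬝ᵥ (P.adjugate *ᵥ y) : ℤ) : ZMod P.det.natAbs) := rfl

theorem cokPair_symm (hP : P.transpose = P) (x y : Coker P) :
    cokPair P hP x y = cokPair P hP y x := by
  obtain ⟨x, rfl⟩ := QuotientAddGroup.mk_surjective x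
  obtain ⟨y, rfl⟩ := QuotientAddGroup.mk_surjective y
  rw [cokPair_mk, cokPair_mk]
  congr 1
  rw [dotProduct_mulVec, ← mulVec_transpose, adjugate_transpose, hP, dotProduct_comm]

theorem cokPair_nondeg (hP : P.transpose = P) (hd : P.det ≠ 0) (x : Coker P)
    (hx : ∀ y, cokPair P hP x y = 0) : x = 0 := by
  obtain ⟨x, rfl⟩ := QuotientAddGroup.mk_surjective x
  rw [QuotientAddGroup.eq_zero_iff, mem_lat]
  -- every coordinate of adj P x is divisible by det P
  have h1 : ∀ i, P.det ∣ (P.adjugate *ᵥ x) i := by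
    intro i
    have h2 := hx (QuotientAddGroup.mk (Pi.single i 1))
    rw [cokPair_symm, cokPair_mk, ZMod.intCast_zmod_eq_zero_iff_dvd, Int.natAbs_dvd,
      single_one_dotProduct] at h2
    exact h2
  choose z hz using h1
  refine ⟨z, ?_⟩
  have h3 : P.adjugate *ᵥ x = P.det • z := by
    ext i; rw [hz i]; rfl
  have h4 : P *ᵥ (P.adjugate *ᵥ x) = P.det • x := by
    rw [mulVec_mulVec, mul_adjugate, smul_mulVec, one_mulVec]
  rw [h3, mulVec_smul] at h4
  exact smul_right_injective _ hd h4

theorem card_coker (hd : P.det ≠ 0) : Nat.card (Coker P) = P.det.natAbs := by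
  have hinj : Function.Injective P.mulVecLin := by
    intro x y hxy
    have h1 : P *ᵥ x = P *ᵥ y := hxy
    have h2 : P.adjugate *ᵥ (P *ᵥ x) = P.adjugate *ᵥ (P *ᵥ y) := by rw [h1]
    rw [mulVec_mulVec, mulVec_mulVec, adjugate_mul, smul_mulVec, smul_mulVec, one_mulVec,
      one_mulVec] at h2
    exact smul_right_injective _ hd h2
  let e := LinearEquiv.ofInjective P.mulVecLin hinj
  have h := Submodule.natAbs_det_equiv (LinearMap.range P.mulVecLin) e
  have h2 : ((LinearMap.range P.mulVecLin).subtype ∘ₗ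
      AddMonoidHom.toIntLinearMap (e : (Fin m → ℤ) →+ LinearMap.range P.mulVecLin))
      = P.mulVecLin := by
    ext x; rfl
  rw [h2] at h
  have h3 : LinearMap.det P.mulVecLin = P.det := by
    rw [← Matrix.toLin'_apply', LinearMap.det_toLin']
  rw [h3] at h
  exact h.symm

end Coker

end Vale.Agent.P160.Half.Labels
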