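import Vale.Agent.P160.Half.AStmt
import Vale.Agent.P160.Half.GStmt2
import Vale.Agent.P160.Half.Labels3
import Vale.Agent.P160.Half.Reveal
import Vale.Agent.P160.Half.Fail

/-! # P160, half rate: gap (G), statements, part 2 (helper667) -/

set_option linter.unusedVariables false

open Finset Matrix

namespace Vale.Agent.P160.Half.G

open A Labels

section defs

variable {n : ℕ} {β : Type*} [Fintype β] [DecidableEq β]

/-- `g_q = P⁻¹ F_q` -/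
noncomputable def gF (P : Matrix (Fin n) (Fin n) ℤ) (F : Matrix (Fin n) β ℤ) (q : β) : Fin n → ℚ := dual P (fun j => F j q)

/-- the lattice `L_F = ℤ^n + ∑ ℤ g_q` -/
noncomputable def LFg (P : Matrix (Fin n) (Fin n) ℤ) (F : Matrix (Fin n) β ℤ) : Submodule ℤ (Fin n → ℚ) :=
  Submodule.span ℤ (Set.range (fun j : Fin n => (Pi.single j (1 : ℚ) : Fin n → ℚ)) ∪ Set.range (gF P F))

/-- the `P`-parts of the integral words of `[P F]` -/
def KW (P : Matrix (Fin n) (Fin n) ℤ) (F : Matrix (Fin n) β ℤ) : AddSubgroup (Fin n → ℤ) where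
  carrier := {u | ∃ d : β → ℤ, P *ᵥ u + F *ᵥ d = 0}
  add_mem' := by
    rintro u v ⟨d, hd⟩ ⟨e, he⟩
    exact ⟨d + e, by rw [mulVec_add, mulVec_add, add_add_add_comm, hd, he, add_zero]⟩
  zero_mem' := ⟨0, by simp⟩
  neg_mem' := by
    rintro u ⟨d, hd⟩
    exact ⟨-d, by rw [mulVec_neg, mulVec_neg, ← neg_add, hd, neg_zero]⟩

end defs

/-- **KZF** (file `KZF.lean`, theorem `kzf : KZFStmt`). PROOF. The words vanishing on `T` form a lattice of rank `≥ |β| - |T| ≥ 1` (all words: `u = -P⁻¹ F d`,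
rank `|β|`, e.g. `d ∈ (det P) ℤ^β`); take a nonzero one, divide by the gcd of all its coordinates (still a word vanishing on `T`): its reduction modulo
`p ^ lv` is a primitive word, all `r` counted are zero coordinates: `KZ`. -/
def KZFStmt : Prop := ∀ (n : ℕ) (β : Type) [Fintype β] [DecidableEq β] (P : Matrix (Fin n) (Fin n) ℤ) (F : Matrix (Fin n) β ℤ) (y a z : ℕ), P.det ≠ 0 →
  1 ≤ a → KZ P F y a z → ∀ p, p.Prime → ∀ T : Finset (Fin n), T.card < Fintype.card β →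
  Nat.card {r : Fin n // ∀ u ∈ KW P F, (∀ j ∈ T, u j = 0) → ((p ^ (if y ≤ p then 1 else a) : ℕ) : ℤ) ∣ u r} ≤ z

/-- **CON** (file `Con.lean`, theorem `con : ConStmt`): content bound. PROOF. `N = adj(P) F` has integral entries of absolute value `≤ n · n! · X`, and `N d ∈ KW`
for `d ∈ ℤ^β`. The rational kernel of the rows `T` of `N` is spanned by integral vectors of minors (Cramer), entries `≤ ρ! (n n! X)^ρ`. -/
def ConStmt : Prop := ∀ (n : ℕ) (β : Type) [Fintype β] [DecidableEq β] (b : Bits n) (F : Matrix (Fin n) β ℤ) (X : ℕ), (matZ b).det ≠ 0 → 1 ≤ X →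
  (∀ j q, |F j q| ≤ (X : ℤ)) → ∀ (T : Finset (Fin n)) (r : Fin n), T.card < Fintype.card β →
  (∃ u ∈ KW (matZ b) F, (∀ j ∈ T, u j = 0) ∧ u r ≠ 0) →
  ∃ u ∈ KW (matZ b) F, (∀ j ∈ T, u j = 0) ∧ u r ≠ 0 ∧
    |u r| ≤ (((Fintype.card β + 1).factorial * ((Fintype.card β + 1) * (n * n.factorial * X)) ^ (Fintype.card β + 1) : ℕ) : ℤ)

/-- **REL** (file `Rel.lean`, theorem `rel : RelStmt`): the exchanged matrix `M'`, the vectors `hz` (`newH`), relations of the classes `x_i = [hz_i]` in the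
cokernel of `M'`, the lattice `newL L_F` and the discriminant. PROOF. Entries of `newP`: `P_jk` (both outside `R`), `F_jq` (`k = R q`), Gram integers; `newH` of
`e_(R i)`: `P_(j, R i)` (`j ∉ R`), `F_(R i, q)` (`j = R q`). `∑ c_i x_i = 0` iff `∑ c_i e_(R i) ∈ cob ℤ^n`, i.e. `u = z - ∑ c_i e_(R i)` is a word. Discriminant:
`L_F = B ℤ^n`, `Gram = Bᵀ P B`, `D = |det Gram|` (compare `StmtA1`, `LA1.lean`), `cob = B V`, `M' = Vᵀ Gram V`, `|Q| = |det V|`. -/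
def RelStmt : Prop := ∀ (n : ℕ) (β : Type) [Fintype β] [DecidableEq β] (b : Bits n) (F : Matrix (Fin n) β ℤ) (gr : Matrix β β ℤ), (matZ b).det ≠ 0 →
  (∀ i k, gF (matZ b) F i ⬝ᵥ (PQ (matZ b) *ᵥ gF (matZ b) F k) = gr i k) →
  ∃ (M' : (β → Fin n) → Matrix (Fin n) (Fin n) ℤ) (hz : (β → Fin n) → β → Fin n → ℤ) (D : ℕ), 0 < D ∧ D ≤ (matZ b).det.natAbs ∧
  ∀ R : β → Fin n, Function.Injective R → minor R (gF (matZ b) F) ≠ 0 →
    (M' R).map (Int.cast : ℤ → ℚ) = newP (matZ b) R (gF (matZ b) F) ∧ (M' R).transpose = M' R ∧ (M' R).det ≠ 0 ∧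
    (((M' R).det : ℤ) : ℚ) = (matZ b).det * (minor R (gF (matZ b) F)) ^ 2 ∧
    (∀ j k, j ∉ Set.range R → k ∉ Set.range R → M' R j k = matZ b j k) ∧
    (∀ c : β → Bool, newH (matZ b) R (gF (matZ b) F) c = fun j => (((∑ i, if c i then hz R i j else 0 : ℤ)) : ℚ)) ∧
    (∀ c : β → ℤ, (∑ i, c i • (QuotientAddGroup.mk (hz R i) : Coker (M' R)) = 0 ↔ ∃ u ∈ KW (matZ b) F, ∀ i, u (R i) = c i)) ∧
    Nat.card (Coker (M' R)) = D * (Nat.card (AddSubgroup.closure (Set.range fun i => (QuotientAddGroup.mk (hz R i) : Coker (M' R))))) ^ 2 ∧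
    (∀ w : Fin n → ℤ, (QuotientAddGroup.mk w : Coker (M' R)) ∈
        AddSubgroup.closure (Set.range fun i => (QuotientAddGroup.mk (hz R i) : Coker (M' R))) ↔
      ∃ v ∈ newL (LFg (matZ b) F) R (gF (matZ b) F), (M' R).map (Int.cast : ℤ → ℚ) *ᵥ v = fun j => (w j : ℚ))

/-- **RC** (file `RC.lean`, theorem `rc : RCStmt`): REAL CONDITIONING. Outside density `2^(-Cn)`, if there is no sparse rational word, real combinations of the
`g_q` have few small coordinates. PROOF (as `Tame`, helper133). `v = ∑ c_q g_q`, `P v = F c`. (1) at most `C'(J)` coordinates `≥ n τ₀`: then the integral matrix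
`[P_S F]`, `|S| ≤ C'`, has an approximate kernel vector, all its maximal minors are `< 1`, hence `0`: sparse rational word. (2) between `C'` and `n^(ε)`
coordinates above the error level: net `2^(o(n))`, each row outside `S` costs `C/√C'`. (3) more: `Z` = small coordinates, `|Z| ≥ δ n`, `T = Zᶜ`; `v_T` is given by
`P_TT v_T ≈ F_T c` up to the span of the eigenvectors of `P_TT` with small eigenvalues (`≤ ε n` of them, `Spec`), net `n^(C ε n)` (or the canonical vector of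
`Tame`), each row of `Z` costs `n^(-ε/2)`. -/
def RCStmt : Prop := ∀ (J : ℕ) (A C δ : ℝ), 0 < δ → ∃ (t₀ : ℕ) (D : ℝ) (n₀ : ℕ), ∀ n ≥ n₀, ∀ (β : Type) [Fintype β] [DecidableEq β], Fintype.card β ≤ J →
  ∀ F : Matrix (Fin n) β ℤ, (∀ j q, |(F j q : ℝ)| ≤ (n : ℝ) ^ A) → ∃ B₁ : Finset (Bits n),
    (B₁.card : ℝ) ≤ (2 : ℝ) ^ (-(C * n)) * 2 ^ Fintype.card (Sym2 (Fin n)) ∧
  ∀ b ∉ B₁, (matZ b).det ≠ 0 → NoSparseZ (matZ b) F t₀ → (∀ q, BdQ ((n : ℝ) ^ A) (gF (matZ b) F q)) →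
  ∀ c : β → ℝ, (∀ q, |c q| ≤ 1) → (∃ q, |c q| = 1) →
    ((Set.ncard {j : Fin n | |∑ q, c q * ((gF (matZ b) F q j : ℚ) : ℝ)| < (n : ℝ) ^ (-D)} : ℕ) : ℝ) ≤ δ * n

/-- **GOODR** (file `GoodR.lean`, theorem `goodr : GoodRStmt`): as `card_good_rows` (`Near2.lean`), with `R` injective and avoiding `X`. -/
def GoodRStmt : Prop := ∀ (n : ℕ) (β : Type) [Fintype β] [DecidableEq β] (g : β → Fin n → ℚ) (τ : ℝ) (s : ℕ) (X : Finset (Fin n)), 0 < τ →
  (∀ c : β → ℝ, (∀ q, |c q| ≤ 1) → (∃ q, |c q| = 1) → Set.ncard {j : Fin n | |∑ q, c q * ((g q j : ℚ) : ℝ)| < τ} ≤ s) →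
  (n : ℝ) ^ Fintype.card β - Fintype.card β * (s + X.card + Fintype.card β) * (n : ℝ) ^ (Fintype.card β - 1) ≤
    ((Nat.card {R : β → Fin n // Function.Injective R ∧ (∀ i, R i ∉ X) ∧ τ ^ Fintype.card β ≤ |((minor R g : ℚ) : ℝ)|} : ℕ) : ℝ)

section avg

variable {G : Type*} [AddCommGroup G] [Finite G]

/-- `p^e` times the `p`-part of `Q` -/
noncomputable def pp (p e : ℕ) (Q : AddSubgroup G) : AddSubgroup G := (Q ⊓ prim G p).map (nsmulAddMonoidHom (p ^ e))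

open Classical in
/-- the cost (in bits) of the label of `Q` over `H` at `p` -/
noncomputable def cst (ρ p e : ℕ) (H Q : AddSubgroup G) : ℝ :=
  ((if pp p e Q = pp p e H then 0 else ((Nat.card G).factorization p - 2 * (Nat.card (pp p e Q)).factorization p : ℝ)) +
    2 * Rev.bb p (pp p e Q ⧸ (pp p e H).addSubgroupOf (pp p e Q))) * (ρ + 1) * Real.logb 2 p

end avg

/-- **AVG** (file `Avg.lean`, theorem `avg : AvgStmt`): average over ALL `R : Fin ρ → Fin n` (the terms `R ∉ 𝓡` are dropped) and over `c`. `lv p` = 1 for `p ≥ y`,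
`a` for `p < y`; `e p = ρ (lv p - 1)`. `c_i(R)` = generator of `{u (R i) : u ∈ K, u (R j) = 0 for j < i}` (`≠ 0` for `R ∈ 𝓡`). PROOF. (a) `Fail.lam_le_late` (generators
`x i`, relation `c_i x_i ∈ tail`): `Fail.lam p (k+1) Q ≤ e p + ∑ late_k(i) v_p(c_i)`. (b) `Rev.lam p (pp p e Q) k ≤ Fail.lam p k Q - e`, `pp` is a `p`-group generated by multiples of
the `x i`, `pp H_c = Hs`. (c) `Rev.reveal`, `Rev.reveal_cyc`: average over `c` of `bb` is `≤ 2^(-s) lam 2 + ρ lam 3`, of `1(pp Q ≠ pp H)` is `≤ 2^(-s) 1(lam 1 ≥ 1) + 1(lam 2 ≥ 1)`;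
`v_p(G) - 2 v_p(pp Q) ≤ d_p + 2 ρ e`. (d) the number of `R` with failures (`p^lv ∣ c_i`) at `k` given places after `i` is `≤ (z/n)^k` of all, given `R 0 .. R i`. (e)
`∑_p v_p(c_i) log2 p ≤ B`. -/
def AvgStmt : Prop := ∀ (n ρ s y a z : ℕ) (K : AddSubgroup (Fin n → ℤ)) (B Dl : ℝ) (d : ℕ → ℕ) (Pr : Finset ℕ) (𝓡 : Finset (Fin ρ → Fin n))
  (G : (Fin ρ → Fin n) → Type) [∀ R, AddCommGroup (G R)] (x : ∀ R, Fin ρ → G R), 0 < n → 1 ≤ a → 0 ≤ B → 0 ≤ Dl →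
  (∀ R ∈ 𝓡, Finite (G R)) →
  (∀ R ∈ 𝓡, ∀ c : Fin ρ → ℤ, ∑ i, c i • x R i = 0 ↔ ∃ u ∈ K, ∀ i, u (R i) = c i) →
  (∀ R ∈ 𝓡, ∀ p, (Nat.card (G R)).factorization p ≤ d p + 2 * (Nat.card (AddSubgroup.closure (Set.range (x R)))).factorization p) →
  (∀ p ∈ Pr, p.Prime) → ∑ p ∈ Pr, (d p : ℝ) * Real.logb 2 p ≤ Dl →
  (∀ p ∈ Pr, ∀ (i : Fin ρ) (R : Fin ρ → Fin n),
    Nat.card {r : Fin n // ∀ u ∈ K, (∀ j < i, u (R j) = 0) → ((p ^ (if y ≤ p then 1 else a) : ℕ) : ℤ) ∣ u r} ≤ z) →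
  (∀ (i : Fin ρ) (R : Fin ρ → Fin n), (∃ u ∈ K, (∀ j < i, u (R j) = 0) ∧ u (R i) ≠ 0) →
    ∃ u ∈ K, (∀ j < i, u (R j) = 0) ∧ u (R i) ≠ 0 ∧ Real.logb 2 |(u (R i) : ℝ)| ≤ B) →
  ∑ R ∈ 𝓡, ∑ c : Fin s → Fin ρ → Bool, ∑ p ∈ Pr, cst ρ p (if y ≤ p then 0 else ρ * (a - 1))
      (AddSubgroup.closure (Set.range fun t : Fin s => ∑ i, if c t i then x R i else 0)) (AddSubgroup.closure (Set.range (x R))) ≤
    (n : ℝ) ^ ρ * 2 ^ (s * ρ) * (ρ + 1) *
      ((Dl + 2 * ρ * (ρ * a) * y * Real.logb 2 (y + 1)) * ((1 / 2) ^ s * (ρ * z / n) + (ρ * z / n) ^ 2) +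
        2 * (ρ * B) * ((1 / 2) ^ s * (ρ * z / n) + ρ * (ρ * z / n) ^ 2))

end Vale.Agent.P160.Half.G
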