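import Vale.Agent.P160.Half.AStmt

/-! # P160, rate 1/2, part (A), leaf A1: an integral overlattice as `P = Vᵀ Q V` -/

set_option linter.unusedVariables false

namespace Vale.Agent.P160.Half.A

namespace LA1

open Finset Matrix Vale.Agent.P160.Half

/-- the coordinatewise cast -/
noncomputable def castL (n : ℕ) : (Fin n → ℤ) →ₗ[ℤ] (Fin n → ℚ) :=
  (Int.castAddHom ℚ).toIntLinearMap.compLeft (Fin n)

theorem castL_apply {n : ℕ} (y : Fin n → ℤ) : castL n y = fun i => (y i : ℚ) := rfl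

/-- `dual` as a linear map -/
noncomputable def dualL {n : ℕ} (P : Matrix (Fin n) (Fin n) ℤ) : (Fin n → ℤ) →ₗ[ℤ] (Fin n → ℚ) :=
  ((PQ P)⁻¹.mulVecLin.restrictScalars ℤ) ∘ₗ castL n

theorem dualL_apply {n : ℕ} (P : Matrix (Fin n) (Fin n) ℤ) (y : Fin n → ℤ) :
    dualL P y = dual P y := rfl

theorem cast_mulVec {n : ℕ} (P : Matrix (Fin n) (Fin n) ℤ) (z : Fin n → ℤ) :
    (fun i => (((P *ᵥ z) i : ℤ) : ℚ)) = PQ P *ᵥ (fun i => (z i : ℚ)) := by
  ext i
  simp [Matrix.mulVec, dotProduct, PQ]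

theorem PQ_mul {n : ℕ} (A B : Matrix (Fin n) (Fin n) ℤ) : PQ (A * B) = PQ A * PQ B := by
  ext i j
  simp [Matrix.mul_apply, PQ]

theorem PQ_inj {n : ℕ} {A B : Matrix (Fin n) (Fin n) ℤ} (h : PQ A = PQ B) : A = B := by
  ext i j
  have := congrFun (congrFun h i) j
  simpa [PQ] using this

theorem PQ_tr {n : ℕ} (A : Matrix (Fin n) (Fin n) ℤ) : PQ Aᵀ = (PQ A)ᵀ := rfl

theorem PQ_det {n : ℕ} (A : Matrix (Fin n) (Fin n) ℤ) : (PQ A).det = ((A.det : ℤ) : ℚ) := by
  have := (Int.castRingHom ℚ).map_det A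
  exact this.symm

theorem main : StmtA1 := by
  classical
  intro n P L hs hdet hO
  have hdetq : (PQ P).det ≠ 0 := by
    rw [PQ_det]
    exact_mod_cast hdet
  have hu : IsUnit (PQ P).det := isUnit_iff_ne_zero.2 hdetq
  have hsym : (PQ P)ᵀ = PQ P := by
    rw [← PQ_tr, hs.eq]
  have hinv : (PQ P)⁻¹ * PQ P = 1 := Matrix.nonsing_inv_mul _ hu
  have hinv' : PQ P * (PQ P)⁻¹ = 1 := Matrix.mul_nonsing_inv _ hu
  have hisym : ((PQ P)⁻¹)ᵀ = (PQ P)⁻¹ := by
    rw [Matrix.transpose_nonsing_inv, hsym]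
  set N : Submodule ℤ (Fin n → ℤ) := L.comap (dualL P) with hN
  have memN : ∀ y, y ∈ N ↔ dual P y ∈ L := fun y => Iff.rfl
  have hPz : ∀ z : Fin n → ℤ, dual P (P *ᵥ z) = fun i => (z i : ℚ) := by
    intro z
    unfold dual
    rw [cast_mulVec, mulVec_mulVec, hinv, one_mulVec]
  have hPN : ∀ z : Fin n → ℤ, P *ᵥ z ∈ N := by
    intro z
    rw [memN, hPz]
    exact hO.std z
  -- the rank of `N`
  have hrank : Module.finrank ℤ N = n := by
    apply le_antisymm
    · have := Submodule.finrank_le N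
      simpa using this
    · have hinj : Function.Injective (P.mulVecLin.codRestrict N (fun z => hPN z)) := by
        rw [← LinearMap.ker_eq_bot, LinearMap.ker_eq_bot']
        intro z hz
        apply Matrix.eq_zero_of_mulVec_eq_zero hdet
        exact congrArg Subtype.val hz
      have := LinearMap.finrank_le_finrank_of_injective hinj
      simpa using this
  set b : Module.Basis (Fin n) ℤ N := Module.finBasisOfFinrankEq ℤ N hrank with hb
  set G : Matrix (Fin n) (Fin n) ℤ := fun i j => (b j : Fin n → ℤ) i with hG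
  have hGmul : ∀ z : Fin n → ℤ, G *ᵥ z = ((∑ j, z j • b j : N) : Fin n → ℤ) := by
    intro z
    ext i
    simp only [Matrix.mulVec, dotProduct, hG, Submodule.coe_sum, Submodule.coe_smul,
      Finset.sum_apply, Pi.smul_apply, smul_eq_mul]
    exact Finset.sum_congr rfl (fun j _ => mul_comm _ _)
  have hGN : ∀ y, y ∈ N ↔ ∃ z : Fin n → ℤ, y = G *ᵥ z := by
    intro y
    constructor
    · intro hy
      refine ⟨fun j => b.repr ⟨y, hy⟩ j, ?_⟩
      rw [hGmul, b.sum_repr]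
    · rintro ⟨z, rfl⟩
      rw [hGmul]
      exact Submodule.coe_mem _
  -- `P = G V`
  have hV : ∀ i : Fin n, ∃ z : Fin n → ℤ, P *ᵥ (Pi.single i 1) = G *ᵥ z := fun i =>
    (hGN _).1 (hPN _)
  choose v hv using hV
  set V : Matrix (Fin n) (Fin n) ℤ := fun j i => v i j with hVdef
  have hGV : G * V = P := by
    ext a i
    have h1 := congrFun (hv i) a
    rw [Matrix.mulVec_single_one] at h1
    have h2 : P a i = (G *ᵥ v i) a := h1
    rw [h2]
    rfl
  have hdetG : (PQ G).det ≠ 0 := by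
    intro h0
    apply hdetq
    rw [← hGV, PQ_mul, det_mul, h0, zero_mul]
  -- the basis of `L`
  have hl : ∀ j, dual P (G *ᵥ (Pi.single j 1)) ∈ L := fun j =>
    (memN _).1 ((hGN _).2 ⟨_, rfl⟩)
  have hq : ∀ j k, ∃ q : ℤ, dual P (G *ᵥ (Pi.single j 1)) ⬝ᵥ
      (PQ P *ᵥ (dual P (G *ᵥ (Pi.single k 1)))) = q := fun j k => hO.int _ (hl j) _ (hl k)
  choose q hq using hq
  set Q : Matrix (Fin n) (Fin n) ℤ := fun j k => q j k with hQ
  have hcol : ∀ j, dual P (G *ᵥ (Pi.single j 1)) = ((PQ P)⁻¹ * PQ G).col j := by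
    intro j
    unfold dual
    rw [cast_mulVec, mulVec_mulVec]
    have : (fun i => (((Pi.single j 1 : Fin n → ℤ) i : ℤ) : ℚ)) = Pi.single j 1 := by
      ext i
      by_cases h : i = j
      · subst h; simp
      · simp [Pi.single_eq_of_ne h]
    rw [this, Matrix.mulVec_single_one]
  have hQq : PQ Q = (PQ G)ᵀ * (PQ P)⁻¹ * PQ G := by
    ext j k
    have h1 : (PQ Q) j k = (q j k : ℚ) := rfl
    rw [h1, ← hq j k, hcol j, hcol k]
    have h2 : PQ P *ᵥ ((PQ P)⁻¹ * PQ G).col k = (PQ G).col k := by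
      rw [← Matrix.mulVec_single_one, mulVec_mulVec, ← Matrix.mul_assoc, hinv', Matrix.one_mul,
        Matrix.mulVec_single_one]
    rw [h2]
    have h3 : (PQ G)ᵀ * (PQ P)⁻¹ * PQ G = ((PQ P)⁻¹ * PQ G)ᵀ * PQ G := by
      rw [transpose_mul, hisym]
    rw [h3]
    rfl
  have hVQ : Vᵀ * Q = G := by
    apply PQ_inj
    rw [PQ_mul, PQ_tr, hQq]
    have h1 : (PQ V)ᵀ * (PQ G)ᵀ = PQ P := by
      rw [← transpose_mul, ← PQ_mul, hGV, hsym]
    calc (PQ V)ᵀ * ((PQ G)ᵀ * (PQ P)⁻¹ * PQ G) = ((PQ V)ᵀ * (PQ G)ᵀ) * (PQ P)⁻¹ * PQ G := by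
          simp only [Matrix.mul_assoc]
      _ = PQ G := by rw [h1, hinv', Matrix.one_mul]
  refine ⟨Q, V, ?_, ?_, ?_⟩
  · show Qᵀ = Q
    apply PQ_inj
    rw [PQ_tr, hQq, transpose_mul, transpose_mul, hisym, transpose_transpose, Matrix.mul_assoc]
  · rw [hVQ, hGV]
  · intro y
    rw [← memN, hGN]
    constructor
    · rintro ⟨z, rfl⟩
      exact ⟨z, by rw [mulVec_mulVec, hVQ]⟩
    · rintro ⟨z, hz⟩
      exact ⟨z, by rw [hz, mulVec_mulVec, hVQ]⟩

end LA1

theorem stmtA1 : StmtA1 := LA1.main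

end Vale.Agent.P160.Half.A
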