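import Vale.Agent.P160.Half.AStmt

/-! # P160, rate 1/2, part (A), leaf A4: the geometry of the exchange

`cob R g` is the change of basis replacing `e_(R i)` by `g i`.  The vectors `e_(R i)` give 0/1
pairing vectors `hv i` in the new coordinates, these lie in the small set `HS`, which injects in the
class `cls`; the new Gram matrix and the vectors `hv i` determine the old matrix. -/

set_option linter.unusedVariables false
set_option linter.unusedSectionVars false

namespace Vale.Agent.P160.Half.A.Geo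

open Finset Matrix Vale.Agent.P160.Half Vale.Agent.P160.Half.A

variable {n : ℕ} {β : Type*} [Fintype β] [DecidableEq β]

/-- 0/1 vectors whose dual vector is in the lattice and bounded (new coordinates) -/
def HS {n : ℕ} (M' : Matrix (Fin n) (Fin n) ℚ) (L' : Submodule ℤ (Fin n → ℚ)) (Y : ℝ) :
    Set (Fin n → Bool) := {h | ∃ u ∈ L', M' *ᵥ u = bq h ∧ BdQ Y u}

open Classical in
/-- pairing vector of `e_(R i)` with the new basis -/
noncomputable def hv (R : β → Fin n) (b : Bits n) (f : β → Fin n → Bool) (i : β) : Fin n → Bool :=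
  fun k => if h : ∃ m, R m = k then f h.choose (R i) else b s(k, R i)

theorem hv_img (R : β → Fin n) (hR : Function.Injective R) (b : Bits n) (f : β → Fin n → Bool)
    (i m : β) : hv R b f i (R m) = f m (R i) := by
  unfold hv
  have h : ∃ m', R m' = R m := ⟨m, rfl⟩
  rw [dif_pos h, hR h.choose_spec]

theorem hv_off (R : β → Fin n) (b : Bits n) (f : β → Fin n → Bool) (i : β) (k : Fin n)
    (hk : k ∉ univ.image R) : hv R b f i k = b s(k, R i) := by
  unfold hv
  rw [dif_neg]
  rintro ⟨m, rfl⟩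
  exact hk (mem_image_of_mem R (mem_univ m))

theorem cob_mulVec (R : β → Fin n) (g : β → Fin n → ℚ) (u : Fin n → ℚ) (j : Fin n) :
    (cob R g *ᵥ u) j = (∑ i, g i j * u (R i)) + if j ∈ univ.image R then 0 else u j := by
  simp only [mulVec, dotProduct, cob, add_mul, Finset.sum_add_distrib]
  congr 1
  · simp only [Finset.sum_mul, ite_mul, zero_mul]
    rw [Finset.sum_comm]
    refine Finset.sum_congr rfl fun i _ => ?_
    simp
  · rw [Finset.sum_eq_single j]
    · by_cases h : j ∈ univ.image R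
      · rw [if_pos h, if_pos h, zero_mul]
      · rw [if_neg h, if_neg h, if_pos rfl, one_mul]
    · intro k _ hk
      by_cases h : k ∈ univ.image R
      · rw [if_pos h, zero_mul]
      · rw [if_neg h, if_neg (Ne.symm hk), zero_mul]
    · intro h; exact absurd (mem_univ j) h

theorem cobT_img (R : β → Fin n) (hR : Function.Injective R) (g : β → Fin n → ℚ)
    (y : Fin n → ℚ) (m : β) : ((cob R g)ᵀ *ᵥ y) (R m) = g m ⬝ᵥ y := by
  simp only [mulVec, dotProduct, cob, transpose_apply]
  refine Finset.sum_congr rfl fun j _ => ?_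
  congr 1
  rw [if_pos (mem_image_of_mem R (mem_univ m)), add_zero, Finset.sum_eq_single m]
  · rw [if_pos rfl]
  · intro i _ hi
    rw [if_neg fun h => hi (hR h)]
  · intro h; exact absurd (mem_univ m) h

theorem cobT_off (R : β → Fin n) (g : β → Fin n → ℚ)
    (y : Fin n → ℚ) (k : Fin n) (hk : k ∉ univ.image R) : ((cob R g)ᵀ *ᵥ y) k = y k := by
  simp only [mulVec, dotProduct, cob, transpose_apply]
  rw [Finset.sum_eq_single k]
  · rw [if_neg hk, if_pos rfl, Finset.sum_eq_zero, zero_add, one_mul]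
    intro i _
    rw [if_neg]
    rintro rfl
    exact hk (mem_image_of_mem R (mem_univ i))
  · intro j _ hj
    rw [if_neg hk, if_neg hj, Finset.sum_eq_zero, zero_add, zero_mul]
    intro i _
    rw [if_neg]
    rintro rfl
    exact hk (mem_image_of_mem R (mem_univ i))
  · intro h; exact absurd (mem_univ k) h

theorem cob_det (R : β → Fin n) (hR : Function.Injective R) (g : β → Fin n → ℚ)
    (hm : minor R g ≠ 0) : (cob R g).det ≠ 0 := by
  intro h0
  obtain ⟨u, hu, hu0⟩ := Matrix.exists_mulVec_eq_zero_iff.mpr h0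
  have h1 : (Matrix.of fun i k : β => g i (R k))ᵀ *ᵥ (fun i => u (R i)) = 0 := by
    funext m
    have h2 := congrFun hu0 (R m)
    rw [cob_mulVec, if_pos (mem_image_of_mem R (mem_univ m)), add_zero] at h2
    simpa [mulVec, dotProduct] using h2
  have h3 : (fun i => u (R i)) = 0 := by
    by_contra h4
    have h5 := Matrix.exists_mulVec_eq_zero_iff.mp ⟨_, h4, h1⟩
    rw [det_transpose] at h5
    exact hm h5
  apply hu
  funext j
  have h2 := congrFun hu0 j
  rw [cob_mulVec] at h2
  by_cases hj : j ∈ univ.image R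
  · obtain ⟨m, _, rfl⟩ := mem_image.mp hj
    exact congrFun h3 m
  · rw [if_neg hj, Finset.sum_eq_zero, zero_add] at h2
    · exact h2
    · intro i _
      rw [show u (R i) = 0 from congrFun h3 i, mul_zero]

theorem newP_mulVec (P : Matrix (Fin n) (Fin n) ℤ) (R : β → Fin n) (g : β → Fin n → ℚ)
    (u : Fin n → ℚ) : newP P R g *ᵥ u = (cob R g)ᵀ *ᵥ (PQ P *ᵥ (cob R g *ᵥ u)) := by
  unfold newP
  rw [← mulVec_mulVec, ← mulVec_mulVec]

theorem newP_det (P : Matrix (Fin n) (Fin n) ℤ) (hP : (PQ P).det ≠ 0) (R : β → Fin n)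
    (hR : Function.Injective R) (g : β → Fin n → ℚ)
    (hm : minor R g ≠ 0) : (newP P R g).det ≠ 0 := by
  unfold newP
  rw [det_mul, det_mul, det_transpose]
  exact mul_ne_zero (mul_ne_zero (cob_det R hR g hm) hP) (cob_det R hR g hm)

theorem PQ_det (P : Matrix (Fin n) (Fin n) ℤ) (hP : P.det ≠ 0) : (PQ P).det ≠ 0 := by
  have h : (PQ P).det = ((P.det : ℤ) : ℚ) := by
    have := RingHom.map_det (Int.castRingHom ℚ) P
    simpa [PQ, RingHom.mapMatrix_apply] using this.symm
  rw [h]
  exact_mod_cast hP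

theorem PQ_dual (P : Matrix (Fin n) (Fin n) ℤ) (hP : P.det ≠ 0) (y : Fin n → ℤ) :
    PQ P *ᵥ dual P y = fun i => (y i : ℚ) := by
  unfold dual
  rw [mulVec_mulVec, Matrix.mul_nonsing_inv _ (isUnit_iff_ne_zero.mpr (PQ_det P hP)), one_mulVec]

theorem dual_of (P : Matrix (Fin n) (Fin n) ℤ) (hP : P.det ≠ 0) (y : Fin n → ℤ) (v : Fin n → ℚ)
    (h : PQ P *ᵥ v = fun i => (y i : ℚ)) : dual P y = v := by
  unfold dual
  rw [← h, mulVec_mulVec, Matrix.nonsing_inv_mul _ (isUnit_iff_ne_zero.mpr (PQ_det P hP)),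
    one_mulVec]

theorem symm_dot (P : Matrix (Fin n) (Fin n) ℤ) (hs : P.IsSymm) (u v : Fin n → ℚ) :
    u ⬝ᵥ (PQ P *ᵥ v) = (PQ P *ᵥ u) ⬝ᵥ v := by
  rw [dotProduct_mulVec]
  congr 1
  have : (PQ P)ᵀ = PQ P := by
    unfold PQ
    rw [← transpose_map, hs.eq]
  rw [← mulVec_transpose, this]

/-- the coordinates of `e_(R i)` in the new basis -/
noncomputable def uv (R : β → Fin n) (g : β → Fin n → ℚ) (i : β) : Fin n → ℚ :=
  (cob R g)⁻¹ *ᵥ Pi.single (R i) 1

theorem cob_uv (R : β → Fin n) (hR : Function.Injective R) (g : β → Fin n → ℚ)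
    (hm : minor R g ≠ 0) (i : β) : cob R g *ᵥ uv R g i = Pi.single (R i) 1 := by
  unfold uv
  rw [mulVec_mulVec, Matrix.mul_nonsing_inv _ (isUnit_iff_ne_zero.mpr (cob_det R hR g hm)),
    one_mulVec]

/-- **(G4)** the pairing vector of `e_(R i)` is the 0/1 vector `hv i` -/
theorem pair_e (b : Bits n) (hP : (matZ b).det ≠ 0) (R : β → Fin n)
    (hR : Function.Injective R) (g : β → Fin n → ℚ) (y : β → Fin n → ℤ)
    (f : β → Fin n → Bool) (hg : ∀ i, g i = dual (matZ b) (y i))
    (hy : ∀ m i, y m (R i) = if f m (R i) then 1 else 0) (i : β) :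
    (cob R g)ᵀ *ᵥ (PQ (matZ b) *ᵥ Pi.single (R i) 1) = bq (hv R b f i) := by
  have hs : (matZ b).IsSymm := by
    ext j k; rw [transpose_apply]; exact matZ_symm b k j
  funext k
  by_cases hk : k ∈ univ.image R
  · obtain ⟨m, _, rfl⟩ := mem_image.mp hk
    rw [cobT_img R hR, symm_dot _ hs, hg m, PQ_dual _ hP, dotProduct_single_one]
    rw [bq, hv_img R hR, hy m i]
    split_ifs <;> simp
  · rw [cobT_off R g _ k hk, mulVec_single_one, bq, hv_off R b f i k hk]
    simp only [col_apply, PQ, map_apply, matZ]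
    split_ifs <;> simp

theorem newP_uv (b : Bits n) (hP : (matZ b).det ≠ 0) (R : β → Fin n)
    (hR : Function.Injective R) (g : β → Fin n → ℚ) (hm : minor R g ≠ 0) (y : β → Fin n → ℤ)
    (f : β → Fin n → Bool) (hg : ∀ i, g i = dual (matZ b) (y i))
    (hy : ∀ m i, y m (R i) = if f m (R i) then 1 else 0) (i : β) :
    newP (matZ b) R g *ᵥ uv R g i = bq (hv R b f i) := by
  rw [newP_mulVec, cob_uv R hR g hm, pair_e b hP R hR g y f hg hy i]

theorem cls_finite (P : Matrix (Fin n) (Fin n) ℤ) (L : Submodule ℤ (Fin n → ℚ)) (s : ℕ) (X : ℝ) :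
    (cls P L s X).Finite := by
  apply (Set.finite_Icc (fun _ : Fin n => -⌈X⌉) (fun _ => ⌈X⌉)).subset
  rintro y ⟨-, hy, -, -⟩
  constructor
  · intro i
    have h1 := abs_le.mp (hy i)
    have h2 := Int.le_ceil X
    have : (-(⌈X⌉ : ℤ) : ℝ) ≤ (y i : ℝ) := by linarith [h1.1]
    exact_mod_cast this
  · intro i
    have h1 := abs_le.mp (hy i)
    have h2 := Int.le_ceil X
    have : (y i : ℝ) ≤ ((⌈X⌉ : ℤ) : ℝ) := by linarith [h1.2]
    exact_mod_cast this

theorem over_pair (P : Matrix (Fin n) (Fin n) ℤ) (L : Submodule ℤ (Fin n → ℚ)) (hO : Over P L)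
    (v : Fin n → ℚ) (hv : v ∈ L) : ∃ y : Fin n → ℤ, PQ P *ᵥ v = fun i => (y i : ℚ) := by
  have h1 : ∀ i, ∃ k : ℤ, (PQ P *ᵥ v) i = k := by
    intro i
    have h2 : (Pi.single i 1 : Fin n → ℚ) ∈ L := by
      have := hO.std (Pi.single i 1)
      convert this using 1
      funext j
      by_cases h : j = i
      · subst h; simp
      · simp [Pi.single_apply, h]
    obtain ⟨k, hk⟩ := hO.int _ h2 v hv
    exact ⟨k, by rw [← hk, single_one_dotProduct]⟩
  choose y hy using h1
  exact ⟨y, funext hy⟩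

/-- **(G2)** -/
theorem HS_ncard (b : Bits n) (hn : 0 < n) (hP : (matZ b).det ≠ 0) (L : Submodule ℤ (Fin n → ℚ))
    (hO : Over (matZ b) L) (R : β → Fin n) (hR : Function.Injective R) (g : β → Fin n → ℚ)
    (X Y X' : ℝ) (hX : 0 ≤ X) (hY : 0 ≤ Y) (hg : ∀ i, BdQ X (g i))
    (hX' : n * (1 + Fintype.card β * X) * Y ≤ X') :
    ((HS (newP (matZ b) R g) (newL L R g) Y).ncard : ℝ) ≤
      ((cls (matZ b) L (Fintype.card β) X').ncard : ℝ) := by
  have key : ∀ h ∈ HS (newP (matZ b) R g) (newL L R g) Y,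
      ∃ y ∈ cls (matZ b) L (Fintype.card β) X', (cob R g)ᵀ *ᵥ (fun i => (y i : ℚ)) = bq h := by
    rintro h ⟨u, hu, hu1, hu2⟩
    have hu' : cob R g *ᵥ u ∈ L := hu
    obtain ⟨y, hy⟩ := over_pair _ L hO _ hu'
    rw [newP_mulVec, hy] at hu1
    have hv1 : ∀ j, |((cob R g *ᵥ u) j : ℝ)| ≤ (1 + Fintype.card β * X) * Y := by
      intro j
      rw [cob_mulVec]
      push_cast
      refine (abs_add_le _ _).trans ?_
      have h1 : |∑ i, ((g i j : ℚ) : ℝ) * ((u (R i) : ℚ) : ℝ)| ≤ Fintype.card β * X * Y := by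
        refine (abs_sum_le_sum_abs _ _).trans ?_
        have : ∀ i ∈ (univ : Finset β), |((g i j : ℚ) : ℝ) * ((u (R i) : ℚ) : ℝ)| ≤ X * Y := by
          intro i _
          rw [abs_mul]
          exact mul_le_mul (hg i j) (hu2 _) (abs_nonneg _) hX
        refine (Finset.sum_le_sum this).trans ?_
        rw [Finset.sum_const, card_univ, nsmul_eq_mul, mul_assoc]
      have h2 : |((if j ∈ univ.image R then 0 else u j : ℚ) : ℝ)| ≤ Y := by
        split_ifs
        · simpa using hY
        · exact hu2 j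
      linarith
    have hv0 : 0 ≤ (1 + Fintype.card β * X) * Y := by positivity
    have hn1 : (1 : ℝ) ≤ n := by exact_mod_cast hn
    have hb1 : (1 + Fintype.card β * X) * Y ≤ X' := by
      refine le_trans ?_ hX'
      rw [mul_assoc]
      nlinarith
    refine ⟨y, ⟨⟨univ.image R, card_image_le.trans (by rw [card_univ]), ?_⟩, ?_, ?_, ?_⟩, hu1⟩
    · intro i hi
      have h3 := congrFun hu1 i
      rw [cobT_off R g _ i hi, bq] at h3
      split_ifs at h3 with h4
      · right; exact_mod_cast h3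
      · left; exact_mod_cast h3
    · intro i
      have h3 : ((y i : ℤ) : ℝ) = (((PQ (matZ b) *ᵥ (cob R g *ᵥ u)) i : ℚ) : ℝ) := by
        rw [hy]; simp
      rw [h3]
      refine le_trans ?_ hX'
      rw [mulVec, dotProduct]
      push_cast
      refine (abs_sum_le_sum_abs _ _).trans ?_
      have : ∀ j ∈ (univ : Finset (Fin n)), |((PQ (matZ b) i j : ℚ) : ℝ) *
          (((cob R g *ᵥ u) j : ℚ) : ℝ)| ≤ (1 + Fintype.card β * X) * Y := by
        intro j _
        rw [abs_mul]
        have h5 : |((PQ (matZ b) i j : ℚ) : ℝ)| ≤ 1 := by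
          simp only [PQ, map_apply, matZ]
          split_ifs <;> simp
        calc _ ≤ 1 * ((1 + Fintype.card β * X) * Y) :=
              mul_le_mul h5 (hv1 j) (abs_nonneg _) zero_le_one
          _ = _ := one_mul _
      refine (Finset.sum_le_sum this).trans ?_
      rw [Finset.sum_const, card_univ, Fintype.card_fin, nsmul_eq_mul, mul_assoc]
    · rw [dual_of _ hP y _ hy]; exact hu'
    · rw [dual_of _ hP y _ hy]
      intro i
      exact (hv1 i).trans hb1
  choose! F hF1 hF2 using key
  have := Set.ncard_le_ncard_of_injOn F hF1 (by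
    intro h hh h' hh' e
    have h1 := hF2 h hh
    have h2 := hF2 h' hh'
    rw [e, h2] at h1
    exact (bq_injective h1).symm) (cls_finite _ _ _ _)
  exact_mod_cast this

theorem det_bound {k : Type*} [Fintype k] [DecidableEq k] (A : Matrix k k ℚ) (X : ℝ)
    (h : ∀ i j, |((A i j : ℚ) : ℝ)| ≤ X) :
    |((A.det : ℚ) : ℝ)| ≤ (Fintype.card k).factorial * X ^ Fintype.card k := by
  have h1 : ((A.det : ℚ) : ℝ) = (A.map (Rat.castHom ℝ)).det := by
    have := RingHom.map_det (Rat.castHom ℝ) A
    simpa [RingHom.mapMatrix_apply] using this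
  rw [h1]
  have h2 := Matrix.det_le (A := A.map (Rat.castHom ℝ)) (abv := AbsoluteValue.abs) (x := X)
    (by intro i j; simpa using h i j)
  simpa [nsmul_eq_mul] using h2

/-- **(G3)** bound of the coordinates of `e_(R i)` -/
theorem uv_bd (R : β → Fin n) (hR : Function.Injective R) (g : β → Fin n → ℚ)
    (X δ : ℝ) (hX : 1 ≤ X) (hδ : 0 < δ) (hg : ∀ i, BdQ X (g i))
    (hm : δ ≤ |((minor R g : ℚ) : ℝ)|) (i : β) :
    BdQ ((1 + Fintype.card β * X) * ((Fintype.card β).factorial * X ^ Fintype.card β / δ))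
      (uv R g i) := by
  have hm0 : minor R g ≠ 0 := by
    rintro h
    rw [h] at hm
    simp only [Rat.cast_zero, abs_zero] at hm
    linarith
  set C : Matrix β β ℚ := Matrix.of fun i k : β => g i (R k) with hC
  set Z : ℝ := (Fintype.card β).factorial * X ^ Fintype.card β / δ with hZ
  have hZ0 : 0 ≤ Z := by rw [hZ]; positivity
  have hCm : C.det = minor R g := rfl
  have hw : ∀ m, |((uv R g i (R m) : ℚ) : ℝ)| ≤ Z := by
    intro m
    have h1 : Cᵀ *ᵥ (fun m => uv R g i (R m)) = Pi.single i 1 := by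
      funext m'
      have h2 := congrFun (cob_uv R hR g hm0 i) (R m')
      rw [cob_mulVec, if_pos (mem_image_of_mem R (mem_univ m')), add_zero] at h2
      have h3 : (Cᵀ *ᵥ (fun m => uv R g i (R m))) m' = ∑ k, g k (R m') * uv R g i (R k) := by
        simp [mulVec, dotProduct, hC]
      rw [h3, h2]
      by_cases h : m' = i
      · subst h; simp
      · rw [Pi.single_eq_of_ne h, Pi.single_eq_of_ne fun h' => h (hR h')]
    have h2 : (fun m => uv R g i (R m)) = (Cᵀ)⁻¹ *ᵥ Pi.single i 1 := by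
      rw [← h1, mulVec_mulVec, Matrix.nonsing_inv_mul, one_mulVec]
      rw [det_transpose]; exact isUnit_iff_ne_zero.mpr hm0
    have h3 : uv R g i (R m) = (C.det)⁻¹ * C.adjugate i m := by
      have := congrFun h2 m
      rw [mulVec_single_one, col_apply, Matrix.inv_def, det_transpose, Matrix.smul_apply, ← adjugate_transpose,
        transpose_apply, Ring.inverse_eq_inv'] at this
      exact this
    rw [h3, Rat.cast_mul, abs_mul, Rat.cast_inv, abs_inv, hCm]
    have h4 : |((C.adjugate i m : ℚ) : ℝ)| ≤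
        (Fintype.card β).factorial * X ^ Fintype.card β := by
      rw [adjugate_apply]
      apply det_bound
      intro a c
      rw [updateRow_apply]
      split_ifs
      · rw [Pi.single_apply]
        split_ifs
        · simpa using hX
        · simp only [Rat.cast_zero, abs_zero]; linarith
      · exact hg a (R c)
    rw [hZ, div_eq_inv_mul]
    apply mul_le_mul _ h4 (abs_nonneg _) (by positivity)
    exact inv_anti₀ hδ hm
  intro j
  by_cases hj : j ∈ univ.image R
  · obtain ⟨m, _, rfl⟩ := mem_image.mp hj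
    refine (hw m).trans ?_
    have : (0 : ℝ) ≤ Fintype.card β * X := by positivity
    nlinarith
  · have h2 := congrFun (cob_uv R hR g hm0 i) j
    rw [cob_mulVec, if_neg hj, Pi.single_eq_of_ne (by
      rintro rfl; exact hj (mem_image_of_mem R (mem_univ i)))] at h2
    have h3 : uv R g i j = -∑ k, g k j * uv R g i (R k) := by linarith
    rw [h3]
    push_cast
    rw [abs_neg]
    refine (abs_sum_le_sum_abs _ _).trans ?_
    have : ∀ k ∈ (univ : Finset β), |((g k j : ℚ) : ℝ) * ((uv R g i (R k) : ℚ) : ℝ)| ≤ X * Z := by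
      intro k _
      rw [abs_mul]
      exact mul_le_mul (hg k j) (hw k) (abs_nonneg _) (by linarith)
    refine (Finset.sum_le_sum this).trans ?_
    rw [Finset.sum_const, card_univ, nsmul_eq_mul]
    nlinarith

/-- the pairing vectors revealed to the labels -/
theorem newH_eq (b : Bits n) (hP : (matZ b).det ≠ 0) (R : β → Fin n)
    (hR : Function.Injective R) (g : β → Fin n → ℚ) (y : β → Fin n → ℤ)
    (f : β → Fin n → Bool) (hg : ∀ i, g i = dual (matZ b) (y i))
    (hy : ∀ m i, y m (R i) = if f m (R i) then 1 else 0) (c : β → Bool) :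
    newH (matZ b) R g c = fun k => (((univ.filter fun i => c i = true ∧ hv R b f i k = true).card : ℕ) : ℚ) := by
  have h1 : (fun j => ∑ i, if c i = true then (if R i = j then (1 : ℚ) else 0) else 0) =
      ∑ i, if c i = true then Pi.single (R i) (1 : ℚ) else 0 := by
    funext j
    rw [Finset.sum_apply]
    refine Finset.sum_congr rfl fun i _ => ?_
    split_ifs with h2 h3
    · subst h3; simp
    · rw [Pi.single_eq_of_ne (Ne.symm h3)]
    · simp
  unfold newH
  rw [h1, mulVec_sum, mulVec_sum]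
  funext k
  rw [Finset.sum_apply, Finset.card_filter]
  push_cast
  refine Finset.sum_congr rfl fun i _ => ?_
  by_cases hc : c i = true
  · rw [if_pos hc, pair_e b hP R hR g y f hg hy i]
    simp [bq, hc]
  · rw [if_neg hc, mulVec_zero, mulVec_zero]
    simp [hc]

theorem newP_apply (P : Matrix (Fin n) (Fin n) ℤ) (R : β → Fin n) (g : β → Fin n → ℚ) (i j : Fin n) :
    newP P R g i j = ((cob R g)ᵀ *ᵥ (PQ P *ᵥ (cob R g *ᵥ Pi.single j 1))) i := by
  rw [← newP_mulVec, mulVec_single_one, col_apply]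

theorem cob_single_img (R : β → Fin n) (hR : Function.Injective R) (g : β → Fin n → ℚ) (m : β) :
    cob R g *ᵥ Pi.single (R m) 1 = g m := by
  funext j
  rw [cob_mulVec, Finset.sum_eq_single m]
  · rw [Pi.single_eq_same, mul_one]
    by_cases hj : j ∈ univ.image R
    · rw [if_pos hj, add_zero]
    · rw [if_neg hj, Pi.single_eq_of_ne, add_zero]
      rintro rfl; exact hj (mem_image_of_mem R (mem_univ m))
  · intro i _ hi
    rw [Pi.single_eq_of_ne fun h => hi (hR h), mul_zero]
  · intro h; exact absurd (mem_univ m) h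

theorem cob_single_off (R : β → Fin n) (g : β → Fin n → ℚ) (j : Fin n) (hj : j ∉ univ.image R) :
    cob R g *ᵥ Pi.single j 1 = Pi.single j 1 := by
  funext k
  rw [cob_mulVec, Finset.sum_eq_zero, zero_add]
  · by_cases hk : k ∈ univ.image R
    · rw [if_pos hk, Pi.single_eq_of_ne]
      rintro rfl; exact hj hk
    · rw [if_neg hk]
  · intro i _
    rw [Pi.single_eq_of_ne, mul_zero]
    rintro rfl; exact hj (mem_image_of_mem R (mem_univ i))

/-- entries of the new Gram matrix: old indices -/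
theorem newP_off_off (P : Matrix (Fin n) (Fin n) ℤ) (R : β → Fin n) (g : β → Fin n → ℚ)
    (i j : Fin n) (hi : i ∉ univ.image R) (hj : j ∉ univ.image R) : newP P R g i j = P i j := by
  rw [newP_apply, cob_single_off R g j hj, cobT_off R g _ i hi, mulVec_single_one, col_apply]
  rfl

/-- entries of the new Gram matrix: new column, old row -/
theorem newP_off_img (P : Matrix (Fin n) (Fin n) ℤ) (hP : P.det ≠ 0) (R : β → Fin n)
    (hR : Function.Injective R) (g : β → Fin n → ℚ) (y : β → Fin n → ℤ)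
    (hg : ∀ i, g i = dual P (y i)) (i : Fin n) (m : β) (hi : i ∉ univ.image R) :
    newP P R g i (R m) = y m i := by
  rw [newP_apply, cob_single_img R hR g m, cobT_off R g _ i hi, hg m, PQ_dual _ hP]

/-- entries of the new Gram matrix: old column, new row -/
theorem newP_img_off (P : Matrix (Fin n) (Fin n) ℤ) (hs : P.IsSymm) (hP : P.det ≠ 0) (R : β → Fin n)
    (hR : Function.Injective R) (g : β → Fin n → ℚ) (y : β → Fin n → ℤ)
    (hg : ∀ i, g i = dual P (y i)) (j : Fin n) (m : β) (hj : j ∉ univ.image R) :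
    newP P R g (R m) j = y m j := by
  rw [newP_apply, cob_single_off R g j hj, cobT_img R hR, symm_dot _ hs, hg m, PQ_dual _ hP,
    dotProduct_single_one]

theorem newP_img_img (P : Matrix (Fin n) (Fin n) ℤ) (hP : P.det ≠ 0) (R : β → Fin n)
    (hR : Function.Injective R) (g : β → Fin n → ℚ) (y : β → Fin n → ℤ)
    (hg : ∀ i, g i = dual P (y i)) (m m' : β) :
    newP P R g (R m) (R m') = g m ⬝ᵥ fun j => (y m' j : ℚ) := by
  rw [newP_apply, cob_single_img R hR g m', cobT_img R hR, hg m', PQ_dual _ hP]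

theorem newP_ext (P P' : Matrix (Fin n) (Fin n) ℤ) (hs : P.IsSymm) (hs' : P'.IsSymm)
    (hP : P.det ≠ 0) (hP' : P'.det ≠ 0) (R : β → Fin n)
    (hR : Function.Injective R) (g g' : β → Fin n → ℚ) (y y' : β → Fin n → ℤ)
    (hg : ∀ i, g i = dual P (y i)) (hg' : ∀ i, g' i = dual P' (y' i))
    (h1 : ∀ i j, i ∉ univ.image R → j ∉ univ.image R → P i j = P' i j)
    (h2 : ∀ m j, j ∉ univ.image R → y m j = y' m j)
    (h3 : ∀ m m', newP P R g (R m) (R m') = newP P' R g' (R m) (R m')) :
    newP P R g = newP P' R g' := by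
  ext i j
  by_cases hi : i ∈ univ.image R
  · obtain ⟨m, _, rfl⟩ := mem_image.mp hi
    by_cases hj : j ∈ univ.image R
    · obtain ⟨m', _, rfl⟩ := mem_image.mp hj
      exact h3 m m'
    · rw [newP_img_off P hs hP R hR g y hg j m hj, newP_img_off P' hs' hP' R hR g' y' hg' j m hj,
        h2 m j hj]
  · by_cases hj : j ∈ univ.image R
    · obtain ⟨m', _, rfl⟩ := mem_image.mp hj
      rw [newP_off_img P hP R hR g y hg i m' hi, newP_off_img P' hP' R hR g' y' hg' i m' hi,
        h2 m' i hi]
    · rw [newP_off_off P R g i j hi hj, newP_off_off P' R g' i j hi hj, h1 i j hi hj]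

/-- the new block is an integer matrix with small entries -/
theorem newP_int (P : Matrix (Fin n) (Fin n) ℤ) (hP : P.det ≠ 0) (L : Submodule ℤ (Fin n → ℚ))
    (hO : Over P L) (R : β → Fin n)
    (hR : Function.Injective R) (g : β → Fin n → ℚ) (y : β → Fin n → ℤ)
    (hg : ∀ i, g i = dual P (y i)) (hgL : ∀ i, g i ∈ L) (X : ℝ) (hX : 0 ≤ X)
    (hgX : ∀ i, BdQ X (g i)) (hyX : ∀ i j, |(y i j : ℝ)| ≤ X) (m m' : β) :
    ∃ z : ℤ, newP P R g (R m) (R m') = z ∧ |(z : ℝ)| ≤ n * X ^ 2 := by
  obtain ⟨z, hz⟩ := hO.int _ (hgL m) _ (hgL m')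
  rw [hg m', PQ_dual _ hP] at hz
  refine ⟨z, by rw [newP_img_img P hP R hR g y hg m m', hz], ?_⟩
  have h1 : (z : ℝ) = ((g m ⬝ᵥ fun j => (y m' j : ℚ) : ℚ) : ℝ) := by rw [hz]; simp
  rw [h1, dotProduct]
  push_cast
  refine (abs_sum_le_sum_abs _ _).trans ?_
  have : ∀ j ∈ (univ : Finset (Fin n)), |((g m j : ℚ) : ℝ) * ((y m' j : ℤ) : ℝ)| ≤ X * X := by
    intro j _
    rw [abs_mul]
    exact mul_le_mul (hgX m j) (hyX m' j) (abs_nonneg _) hX
  refine (Finset.sum_le_sum this).trans ?_
  rw [Finset.sum_const, card_univ, Fintype.card_fin, nsmul_eq_mul]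
  nlinarith

/-- **(G6)** recovery of the bits -/
theorem b_ext (b b' : Bits n) (hP : (matZ b).det ≠ 0) (hP' : (matZ b').det ≠ 0) (R : β → Fin n)
    (hR : Function.Injective R) (g g' : β → Fin n → ℚ) (hm : minor R g ≠ 0) (hm' : minor R g' ≠ 0)
    (y y' : β → Fin n → ℤ) (f f' : β → Fin n → Bool)
    (hg : ∀ i, g i = dual (matZ b) (y i)) (hg' : ∀ i, g' i = dual (matZ b') (y' i))
    (hy : ∀ m i, y m (R i) = if f m (R i) then 1 else 0)
    (hy' : ∀ m i, y' m (R i) = if f' m (R i) then 1 else 0)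
    (hN : newP (matZ b) R g = newP (matZ b') R g')
    (hh : hv R b f = hv R b' f')
    (h1 : ∀ i j, i ∉ univ.image R → j ∉ univ.image R → b s(i, j) = b' s(i, j)) : b = b' := by
  have hs : (matZ b).IsSymm := by
    ext j k; rw [transpose_apply]; exact matZ_symm b k j
  have hs' : (matZ b').IsSymm := by
    ext j k; rw [transpose_apply]; exact matZ_symm b' k j
  have hu : ∀ i, uv R g i = uv R g' i := by
    intro i
    have e1 := newP_uv b hP R hR g hm y f hg hy i
    have e2 := newP_uv b' hP' R hR g' hm' y' f' hg' hy' i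
    rw [hh, ← e2, hN] at e1
    have hd := newP_det (matZ b') (PQ_det _ hP') R hR g' hm'
    exact Matrix.mulVec_injective_of_isUnit ((Matrix.isUnit_iff_isUnit_det _).mpr
      (isUnit_iff_ne_zero.mpr hd)) e1
  have hent : ∀ i m, PQ (matZ b) (R i) (R m) = PQ (matZ b') (R i) (R m) := by
    intro i m
    have e0 : ∀ (b : Bits n) (g : β → Fin n → ℚ), minor R g ≠ 0 →
        PQ (matZ b) (R i) (R m) = uv R g i ⬝ᵥ (newP (matZ b) R g *ᵥ uv R g m) := by
      intro b g hm
      rw [newP_mulVec, cob_uv R hR g hm, dotProduct_mulVec, ← mulVec_transpose, transpose_transpose,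
        cob_uv R hR g hm, mulVec_single_one, single_one_dotProduct, col_apply]
    rw [e0 b g hm, e0 b' g' hm', hu i, hu m, hN]
  funext s
  induction s using Sym2.ind with
  | _ i j =>
    by_cases hi : i ∈ univ.image R
    · obtain ⟨m, _, rfl⟩ := mem_image.mp hi
      by_cases hj : j ∈ univ.image R
      · obtain ⟨m', _, rfl⟩ := mem_image.mp hj
        have := hent m m'
        simp only [PQ, map_apply, matZ] at this
        by_cases h2 : b s(R m, R m') = true <;> by_cases h3 : b' s(R m, R m') = true <;>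
          simp_all
      · have := congrFun (congrFun hh m) j
        rw [hv_off R b f m j hj, hv_off R b' f' m j hj] at this
        rw [Sym2.eq_swap, this]
    · by_cases hj : j ∈ univ.image R
      · obtain ⟨m', _, rfl⟩ := mem_image.mp hj
        have := congrFun (congrFun hh m') i
        rwa [hv_off R b f m' i hi, hv_off R b' f' m' i hi] at this
      · exact h1 i j hi hj

end Vale.Agent.P160.Half.A.Geo
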