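import Vale.Agent.P160.Half.GStmt3
import Vale.Agent.P160.Half.LA4Geo
import Vale.Agent.P160.Half.LA1

/-! # P160, half rate: the exchanged matrix, its determinant and the size of the label group -/

set_option linter.unusedVariables false
set_option linter.unusedSectionVars false

open Finset Matrix

namespace Vale.Agent.P160.Half.G.Rel837

open A Labels

variable {n : ℕ} {β : Type*} [Fintype β] [DecidableEq β]

open Classical in
/-- the exchanged matrix -/
noncomputable def MM (P : Matrix (Fin n) (Fin n) ℤ) (F : Matrix (Fin n) β ℤ) (gr : Matrix β β ℤ)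
    (R : β → Fin n) : Matrix (Fin n) (Fin n) ℤ := fun j k =>
  if hj : ∃ q, R q = j then (if hk : ∃ q, R q = k then gr hj.choose hk.choose else F k hj.choose)
  else (if hk : ∃ q, R q = k then F j hk.choose else P j k)

open Classical in
/-- the pairing vector of `e_(R i)` -/
noncomputable def hh (P : Matrix (Fin n) (Fin n) ℤ) (F : Matrix (Fin n) β ℤ) (R : β → Fin n)
    (i : β) : Fin n → ℤ := fun j =>
  if hj : ∃ q, R q = j then F (R i) hj.choose else P j (R i)

theorem MM_ii (P : Matrix (Fin n) (Fin n) ℤ) (F : Matrix (Fin n) β ℤ) (gr : Matrix β β ℤ)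
    {R : β → Fin n} (hR : Function.Injective R) (q q' : β) : MM P F gr R (R q) (R q') = gr q q' := by
  unfold MM
  have h : ∃ q1, R q1 = R q := ⟨q, rfl⟩
  have h' : ∃ q1, R q1 = R q' := ⟨q', rfl⟩
  rw [dif_pos h, dif_pos h', hR h.choose_spec, hR h'.choose_spec]

theorem MM_io (P : Matrix (Fin n) (Fin n) ℤ) (F : Matrix (Fin n) β ℤ) (gr : Matrix β β ℤ)
    {R : β → Fin n} (hR : Function.Injective R) (q : β) {k : Fin n} (hk : ¬ ∃ q, R q = k) :
    MM P F gr R (R q) k = F k q := by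
  unfold MM
  have h : ∃ q1, R q1 = R q := ⟨q, rfl⟩
  rw [dif_pos h, dif_neg hk, hR h.choose_spec]

theorem MM_oi (P : Matrix (Fin n) (Fin n) ℤ) (F : Matrix (Fin n) β ℤ) (gr : Matrix β β ℤ)
    {R : β → Fin n} (hR : Function.Injective R) (q : β) {k : Fin n} (hk : ¬ ∃ q, R q = k) :
    MM P F gr R k (R q) = F k q := by
  unfold MM
  have h : ∃ q1, R q1 = R q := ⟨q, rfl⟩
  rw [dif_neg hk, dif_pos h, hR h.choose_spec]

theorem MM_oo (P : Matrix (Fin n) (Fin n) ℤ) (F : Matrix (Fin n) β ℤ) (gr : Matrix β β ℤ)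
    (R : β → Fin n) {j k : Fin n} (hj : ¬ ∃ q, R q = j) (hk : ¬ ∃ q, R q = k) :
    MM P F gr R j k = P j k := by
  unfold MM
  rw [dif_neg hj, dif_neg hk]

theorem hh_i (P : Matrix (Fin n) (Fin n) ℤ) (F : Matrix (Fin n) β ℤ)
    {R : β → Fin n} (hR : Function.Injective R) (i q : β) : hh P F R i (R q) = F (R i) q := by
  unfold hh
  have h : ∃ q1, R q1 = R q := ⟨q, rfl⟩
  rw [dif_pos h, hR h.choose_spec]

theorem hh_o (P : Matrix (Fin n) (Fin n) ℤ) (F : Matrix (Fin n) β ℤ)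
    (R : β → Fin n) (i : β) {j : Fin n} (hj : ¬ ∃ q, R q = j) : hh P F R i j = P j (R i) := by
  unfold hh
  rw [dif_neg hj]

theorem not_img {R : β → Fin n} {j : Fin n} (hj : ¬ ∃ q, R q = j) : j ∉ univ.image R := by
  intro h
  obtain ⟨q, _, hq⟩ := mem_image.1 h
  exact hj ⟨q, hq⟩

section main

variable {P : Matrix (Fin n) (Fin n) ℤ} {F : Matrix (Fin n) β ℤ} {gr : Matrix β β ℤ}

/-- the exchanged matrix is integral -/
theorem MM_cast (hs : P.IsSymm) (hP : P.det ≠ 0)
    (hgr : ∀ i k, gF P F i ⬝ᵥ (PQ P *ᵥ gF P F k) = gr i k) {R : β → Fin n}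
    (hR : Function.Injective R) : (MM P F gr R).map (Int.cast : ℤ → ℚ) = newP P R (gF P F) := by
  ext j k
  rw [Matrix.map_apply]
  have hg : ∀ i, gF P F i = dual P ((fun q j => F j q) i) := fun _ => rfl
  by_cases hj : ∃ q, R q = j
  · obtain ⟨q, rfl⟩ := hj
    by_cases hk : ∃ q, R q = k
    · obtain ⟨q', rfl⟩ := hk
      rw [MM_ii P F gr hR, Geo.newP_img_img P hP R hR _ _ hg, ← hgr]
      congr 1
      exact Geo.PQ_dual P hP _
    · rw [MM_io P F gr hR q hk, Geo.newP_img_off P hs hP R hR _ _ hg _ _ (not_img hk)]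
  · by_cases hk : ∃ q, R q = k
    · obtain ⟨q', rfl⟩ := hk
      rw [MM_oi P F gr hR q' hj, Geo.newP_off_img P hP R hR _ _ hg _ _ (not_img hj)]
    · rw [MM_oo P F gr R hj hk, Geo.newP_off_off P R _ _ _ (not_img hj) (not_img hk)]

/-- pairing vector -/
theorem hh_cast (hs : P.IsSymm) (hP : P.det ≠ 0) {R : β → Fin n} (hR : Function.Injective R) (i : β) :
    (cob R (gF P F))ᵀ *ᵥ (PQ P *ᵥ Pi.single (R i) 1) = fun j => ((hh P F R i j : ℤ) : ℚ) := by
  funext j
  by_cases hj : ∃ q, R q = j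
  · obtain ⟨q, rfl⟩ := hj
    rw [Geo.cobT_img R hR, Geo.symm_dot P hs, hh_i P F hR]
    have : PQ P *ᵥ gF P F q = fun j => ((F j q : ℤ) : ℚ) := Geo.PQ_dual P hP _
    rw [this, dotProduct_single_one]
  · rw [Geo.cobT_off R _ _ _ (not_img hj), hh_o P F R i hj, mulVec_single_one]
    rfl

theorem newH_sum (hs : P.IsSymm) (hP : P.det ≠ 0) {R : β → Fin n} (hR : Function.Injective R)
    (c : β → Bool) : newH P R (gF P F) c =
      fun j => (((∑ i, if c i then hh P F R i j else 0 : ℤ)) : ℚ) := by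
  have h1 : (fun j => ∑ i, if c i = true then (if R i = j then (1 : ℚ) else 0) else 0) =
      ∑ i, if c i = true then Pi.single (R i) (1 : ℚ) else 0 := by
    funext j
    rw [Finset.sum_apply]
    refine Finset.sum_congr rfl fun i _ => ?_
    split_ifs with h2 h3
    · subst h3; simp
    · rw [Pi.single_eq_of_ne (Ne.symm h3)]
    · simp
  unfold newH
  rw [h1, mulVec_sum, mulVec_sum]
  funext j
  rw [Finset.sum_apply]
  push_cast
  refine Finset.sum_congr rfl fun i _ => ?_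
  by_cases hc : c i = true
  · rw [if_pos hc, hh_cast hs hP hR i, if_pos hc]
  · rw [if_neg hc, mulVec_zero, mulVec_zero, if_neg hc]; simp

/-- `det cob = minor` -/
theorem cob_det_eq {R : β → Fin n} (hR : Function.Injective R) (g : β → Fin n → ℚ) :
    (cob R g).det = minor R g := by
  classical
  let e : β ⊕ ((Set.range R)ᶜ : Set (Fin n)) ≃ Fin n :=
    (Equiv.sumCongr (Equiv.ofInjective R hR) (Equiv.refl _)).trans (Equiv.Set.sumCompl (Set.range R))
  have he1 : ∀ i, e (Sum.inl i) = R i := fun i => rfl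
  have he2 : ∀ k, e (Sum.inr k) = k.1 := fun k => rfl
  rw [← Matrix.det_submatrix_equiv_self e]
  have hb : (cob R g).submatrix e e = fromBlocks (Matrix.of fun i k : β => g k (R i)) 0
      (Matrix.of fun (j : ((Set.range R)ᶜ : Set (Fin n))) (k : β) => g k j.1) 1 := by
    ext i j
    rcases i with i | i <;> rcases j with j | j
    · simp only [submatrix_apply, he1, fromBlocks_apply₁₁, of_apply, cob]
      rw [if_pos (mem_image_of_mem R (mem_univ j)), add_zero, Finset.sum_eq_single j]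
      · rw [if_pos rfl]
      · intro k _ hk; rw [if_neg fun h => hk (hR h)]
      · intro h; exact absurd (mem_univ j) h
    · simp only [submatrix_apply, he1, he2, fromBlocks_apply₁₂, cob]
      have hj : j.1 ∉ univ.image R := by
        intro h
        obtain ⟨q, _, hq⟩ := mem_image.1 h
        exact j.2 ⟨q, hq⟩
      have h3 : ¬ (R i = j.1) := fun h => j.2 ⟨i, h⟩
      have h4 : ∑ x, (if R x = j.1 then g x (R i) else 0) = 0 := by
        apply Finset.sum_eq_zero
        intro k _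
        rw [if_neg]
        intro h
        exact j.2 ⟨k, h⟩
      rw [if_neg hj, if_neg h3, h4, add_zero]
      rfl
    · simp only [submatrix_apply, he1, he2, fromBlocks_apply₂₁, of_apply, cob]
      rw [if_pos (mem_image_of_mem R (mem_univ j)), add_zero, Finset.sum_eq_single j]
      · rw [if_pos rfl]
      · intro k _ hk; rw [if_neg fun h => hk (hR h)]
      · intro h; exact absurd (mem_univ j) h
    · simp only [submatrix_apply, he2, fromBlocks_apply₂₂, cob]
      have hj : j.1 ∉ univ.image R := by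
        intro h
        obtain ⟨q, _, hq⟩ := mem_image.1 h
        exact j.2 ⟨q, hq⟩
      rw [if_neg hj, Finset.sum_eq_zero, zero_add, Matrix.one_apply]
      · congr 1
        exact propext Subtype.ext_iff.symm
      · intro k _; rw [if_neg]; rintro h; exact j.2 ⟨k, h⟩
  rw [hb, det_fromBlocks_zero₁₂, det_one, mul_one, minor, ← det_transpose]
  rfl

theorem PQ_det_eq (P : Matrix (Fin n) (Fin n) ℤ) : (PQ P).det = ((P.det : ℤ) : ℚ) := by
  have := RingHom.map_det (Int.castRingHom ℚ) P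
  simpa [PQ, RingHom.mapMatrix_apply] using this.symm

theorem MM_det (hs : P.IsSymm) (hP : P.det ≠ 0)
    (hgr : ∀ i k, gF P F i ⬝ᵥ (PQ P *ᵥ gF P F k) = gr i k) {R : β → Fin n}
    (hR : Function.Injective R) :
    (((MM P F gr R).det : ℤ) : ℚ) = P.det * (minor R (gF P F)) ^ 2 := by
  have h1 : (((MM P F gr R).det : ℤ) : ℚ) = (PQ (MM P F gr R)).det := (PQ_det_eq _).symm
  have h2 : PQ (MM P F gr R) = newP P R (gF P F) := MM_cast hs hP hgr hR
  rw [h1, h2]
  unfold newP
  rw [det_mul, det_mul, det_transpose, cob_det_eq hR, PQ_det_eq]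
  ring

theorem MM_symm (hs : P.IsSymm) (hP : P.det ≠ 0)
    (hgr : ∀ i k, gF P F i ⬝ᵥ (PQ P *ᵥ gF P F k) = gr i k) {R : β → Fin n}
    (hR : Function.Injective R) : (MM P F gr R).transpose = MM P F gr R := by
  have hsq : (PQ P)ᵀ = PQ P := by unfold PQ; rw [← transpose_map, hs.eq]
  have h : ((MM P F gr R).transpose).map (Int.cast : ℤ → ℚ) =
      (MM P F gr R).map (Int.cast : ℤ → ℚ) := by
    rw [transpose_map, MM_cast hs hP hgr hR]
    unfold newP
    rw [transpose_mul, transpose_mul, transpose_transpose, hsq, Matrix.mul_assoc]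
  ext j k
  have := congrFun (congrFun h j) k
  simpa using this

/-- `L_F` is an integral overlattice -/
theorem over_LFg (hs : P.IsSymm) (hP : P.det ≠ 0)
    (hgr : ∀ i k, gF P F i ⬝ᵥ (PQ P *ᵥ gF P F k) = gr i k) : Over P (LFg P F) := by
  have hge : ∀ q, PQ P *ᵥ gF P F q = fun j => ((F j q : ℤ) : ℚ) := fun q => Geo.PQ_dual P hP _
  constructor
  · intro z
    have h : (fun i => ((z i : ℤ) : ℚ)) = ∑ i, z i • (Pi.single i (1 : ℚ) : Fin n → ℚ) := by
      funext j
      rw [Finset.sum_apply, Finset.sum_eq_single j]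
      · simp
      · intro i _ hi; simp [Pi.single_eq_of_ne (Ne.symm hi)]
      · intro h; exact absurd (mem_univ j) h
    rw [h]
    exact Submodule.sum_mem _ fun i _ => Submodule.smul_mem _ _
      (Submodule.subset_span (Or.inl ⟨i, rfl⟩))
  · intro v hv w hw
    have key : ∀ x ∈ (Set.range (fun j : Fin n => (Pi.single j (1 : ℚ) : Fin n → ℚ)) ∪ Set.range (gF P F)),
        ∀ y ∈ (Set.range (fun j : Fin n => (Pi.single j (1 : ℚ) : Fin n → ℚ)) ∪ Set.range (gF P F)),
        ∃ k : ℤ, x ⬝ᵥ (PQ P *ᵥ y) = k := by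
      rintro x (⟨j, rfl⟩ | ⟨q, rfl⟩) y (⟨k, rfl⟩ | ⟨q', rfl⟩)
      · refine ⟨P j k, ?_⟩
        rw [mulVec_single_one, single_one_dotProduct]; rfl
      · refine ⟨F j q', ?_⟩
        rw [hge, single_one_dotProduct]
      · refine ⟨F k q, ?_⟩
        rw [Geo.symm_dot P hs, hge, dotProduct_single_one]
      · exact ⟨_, hgr q q'⟩
    have h1 : ∀ x ∈ (Set.range (fun j : Fin n => (Pi.single j (1 : ℚ) : Fin n → ℚ)) ∪ Set.range (gF P F)),
        ∃ k : ℤ, x ⬝ᵥ (PQ P *ᵥ w) = k := by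
      intro x hx
      unfold LFg at hw
      induction hw using Submodule.span_induction with
      | mem y hy => exact key x hx y hy
      | zero => exact ⟨0, by simp⟩
      | add y z _ _ hy hz =>
        obtain ⟨a, ha⟩ := hy
        obtain ⟨b, hb⟩ := hz
        exact ⟨a + b, by rw [mulVec_add, dotProduct_add, ha, hb]; push_cast; ring⟩
      | smul a y _ hy =>
        obtain ⟨b, hb⟩ := hy
        refine ⟨a * b, ?_⟩
        rw [← Int.cast_smul_eq_zsmul ℚ a y, mulVec_smul, dotProduct_smul, hb]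
        push_cast; rfl
    unfold LFg at hv
    induction hv using Submodule.span_induction with
    | mem y hy => exact h1 y hy
    | zero => exact ⟨0, by simp⟩
    | add y z _ _ hy hz =>
      obtain ⟨a, ha⟩ := hy
      obtain ⟨b, hb⟩ := hz
      exact ⟨a + b, by rw [add_dotProduct, ha, hb]; push_cast; ring⟩
    | smul a y _ hy =>
      obtain ⟨b, hb⟩ := hy
      refine ⟨a * b, ?_⟩
      rw [← Int.cast_smul_eq_zsmul ℚ a y, smul_dotProduct, hb]
      push_cast; rfl

end main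

section card

variable {P : Matrix (Fin n) (Fin n) ℤ}

theorem castV (V : Matrix (Fin n) (Fin n) ℤ) (z : Fin n → ℤ) :
    PQ V *ᵥ (fun i => ((z i : ℤ) : ℚ)) = fun i => (((V *ᵥ z) i : ℤ) : ℚ) := (LA1.cast_mulVec V z).symm

theorem cast_inj' {x y : Fin n → ℤ} (h : (fun i => ((x i : ℤ) : ℚ)) = fun i => ((y i : ℤ) : ℚ)) :
    x = y := by
  funext i
  have := congrFun h i
  exact_mod_cast this

/-- index formula -/
theorem card_formula (hs : P.IsSymm) (hP : P.det ≠ 0) (L : Submodule ℤ (Fin n → ℚ)) (hO : Over P L) :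
    ∃ D : ℕ, 0 < D ∧ D ≤ P.det.natAbs ∧ ∀ (C : Matrix (Fin n) (Fin n) ℚ), C.det ≠ 0 →
      (∀ z : Fin n → ℤ, C *ᵥ (fun i => ((z i : ℤ) : ℚ)) ∈ L) →
      ∀ (M : Matrix (Fin n) (Fin n) ℤ), PQ M = Cᵀ * PQ P * C → ∀ S : AddSubgroup (Coker M),
      (∀ w : Fin n → ℤ, (QuotientAddGroup.mk w : Coker M) ∈ S ↔
        ∃ v, C *ᵥ v ∈ L ∧ PQ M *ᵥ v = fun i => ((w i : ℤ) : ℚ)) →
      Nat.card (Coker M) = D * Nat.card S ^ 2 := by
  classical
  obtain ⟨Q0, V0, hQs, hPV, hmem⟩ := LA1.main n P L hs hP hO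
  have hdet : P.det = V0.det * Q0.det * V0.det := by
    conv_lhs => rw [hPV]
    rw [det_mul, det_mul, det_transpose]
  have hV0 : V0.det ≠ 0 := by
    intro h; apply hP; rw [hdet, h]; simp
  have hQ0 : Q0.det ≠ 0 := by
    intro h; apply hP; rw [hdet, h]; simp
  have hV0q : (PQ V0).det ≠ 0 := by rw [PQ_det_eq]; exact_mod_cast hV0
  have hPq : (PQ P).det ≠ 0 := by rw [PQ_det_eq]; exact_mod_cast hP
  have hPVq : PQ P = (PQ V0)ᵀ * PQ Q0 * PQ V0 := by
    conv_lhs => rw [hPV]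
    rw [LA1.PQ_mul, LA1.PQ_mul, LA1.PQ_tr]
  -- characterisation of L
  have hL : ∀ v, v ∈ L ↔ ∃ z : Fin n → ℤ, PQ V0 *ᵥ v = fun i => ((z i : ℤ) : ℚ) := by
    intro v
    constructor
    · intro hv
      -- P v is integral
      have h1 : ∀ j, ∃ k : ℤ, (PQ P *ᵥ v) j = k := by
        intro j
        obtain ⟨k, hk⟩ := hO.int (Pi.single j 1) (by
          have := hO.std (Pi.single j 1)
          convert this using 1
          funext i
          by_cases h : i = j
          · subst h; simp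
          · simp [Pi.single_eq_of_ne h]) v hv
        exact ⟨k, by rw [← hk, single_one_dotProduct]⟩
      choose y hy using h1
      have hPy : PQ P *ᵥ v = fun i => ((y i : ℤ) : ℚ) := funext hy
      have hdv : dual P y = v := Geo.dual_of P hP y v hPy
      obtain ⟨z, hz⟩ := (hmem y).1 (by rw [hdv]; exact hv)
      refine ⟨z, ?_⟩
      -- V0ᵀ Q0 (V0 v) = V0ᵀ Q0 z
      have h2 : ((PQ V0)ᵀ * PQ Q0) *ᵥ (PQ V0 *ᵥ v) = ((PQ V0)ᵀ * PQ Q0) *ᵥ (fun i => ((z i : ℤ) : ℚ)) := by
        rw [mulVec_mulVec, ← hPVq, hPy, ← LA1.PQ_tr, ← LA1.PQ_mul, castV, hz, mulVec_mulVec]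
      have h3 : ((PQ V0)ᵀ * PQ Q0).det ≠ 0 := by
        rw [det_mul, det_transpose, PQ_det_eq Q0]
        exact mul_ne_zero hV0q (by exact_mod_cast hQ0)
      exact Matrix.mulVec_injective_of_isUnit ((Matrix.isUnit_iff_isUnit_det _).2 (isUnit_iff_ne_zero.2 h3)) h2
    · rintro ⟨z, hz⟩
      have h1 : PQ P *ᵥ v = fun i => (((V0ᵀ *ᵥ (Q0 *ᵥ z)) i : ℤ) : ℚ) := by
        rw [hPVq, ← mulVec_mulVec, hz, ← mulVec_mulVec, castV, ← LA1.PQ_tr, castV]
      have h2 := Geo.dual_of P hP _ v h1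
      rw [← h2, hmem]
      exact ⟨z, rfl⟩
  refine ⟨Q0.det.natAbs, Int.natAbs_pos.2 hQ0, ?_, ?_⟩
  · rw [hdet, Int.natAbs_mul, Int.natAbs_mul]
    have h1 : 0 < V0.det.natAbs := Int.natAbs_pos.2 hV0
    calc Q0.det.natAbs = 1 * Q0.det.natAbs * 1 := by ring
      _ ≤ V0.det.natAbs * Q0.det.natAbs * V0.det.natAbs :=
          Nat.mul_le_mul (Nat.mul_le_mul h1 le_rfl) h1
  intro C hC hCL M hM S hS
  -- V = V0 C is integral
  have hV : ∀ i : Fin n, ∃ z : Fin n → ℤ, PQ V0 *ᵥ (C *ᵥ Pi.single i 1) = fun j => ((z j : ℤ) : ℚ) := by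
    intro i
    apply (hL _).1
    have := hCL (Pi.single i 1)
    convert this using 2
    funext j
    by_cases h : j = i
    · subst h; simp
    · simp [Pi.single_eq_of_ne h]
  choose v hv using hV
  set V : Matrix (Fin n) (Fin n) ℤ := fun j i => v i j with hVd
  have hVq : PQ V = PQ V0 * C := by
    ext j i
    have := congrFun (hv i) j
    rw [mulVec_mulVec, mulVec_single_one] at this
    exact this.symm
  have hMq : PQ M = (PQ V)ᵀ * PQ Q0 * PQ V := by
    rw [hM, hVq, hPVq, transpose_mul]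
    simp only [Matrix.mul_assoc]
  have hMV : M = Vᵀ * Q0 * V := by
    apply LA1.PQ_inj
    rw [hMq, LA1.PQ_mul, LA1.PQ_mul, LA1.PQ_tr]
  have hVdet : V.det ≠ 0 := by
    have : (PQ V).det ≠ 0 := by rw [hVq, det_mul]; exact mul_ne_zero hV0q hC
    rw [PQ_det_eq] at this
    exact_mod_cast this
  have hMdet : M.det = V.det * Q0.det * V.det := by
    rw [hMV, det_mul, det_mul, det_transpose]
  have hMd : M.det ≠ 0 := by
    rw [hMdet]; exact mul_ne_zero (mul_ne_zero hVdet hQ0) hVdet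
  -- the map Coker V → S
  let f0 : (Fin n → ℤ) →+ Coker M := (QuotientAddGroup.mk' (lat M)).comp
    ((Vᵀ * Q0).mulVecLin.toAddMonoidHom)
  have hf0 : ∀ z, f0 z = QuotientAddGroup.mk ((Vᵀ * Q0) *ᵥ z) := fun z => rfl
  have hker : ∀ z, f0 z = 0 ↔ z ∈ lat V := by
    intro z
    rw [hf0, QuotientAddGroup.eq_zero_iff, mem_lat, mem_lat]
    constructor
    · rintro ⟨u, hu⟩
      refine ⟨u, ?_⟩
      have h1 : (Vᵀ * Q0) *ᵥ (V *ᵥ u) = (Vᵀ * Q0) *ᵥ z := by
        rw [← hu, mulVec_mulVec, ← hMV]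
      have h2 : (Vᵀ * Q0).det ≠ 0 := by
        rw [det_mul, det_transpose]; exact mul_ne_zero hVdet hQ0
      have h3 : (Vᵀ * Q0) *ᵥ (V *ᵥ u - z) = 0 := by rw [mulVec_sub, h1, sub_self]
      exact sub_eq_zero.1 (Matrix.eq_zero_of_mulVec_eq_zero h2 h3)
    · rintro ⟨u, rfl⟩
      exact ⟨u, by rw [mulVec_mulVec, ← hMV]⟩
  have hrange : f0.range = S := by
    ext x
    obtain ⟨w, rfl⟩ := QuotientAddGroup.mk_surjective x
    rw [hS w, AddMonoidHom.mem_range]
    constructor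
    · rintro ⟨z, hz⟩
      rw [hf0, QuotientAddGroup.eq] at hz
      obtain ⟨u, hu⟩ := (mem_lat M).1 hz
      -- w = VᵀQ0 z + M u
      have hw : w = (Vᵀ * Q0) *ᵥ z + M *ᵥ u := by
        rw [hu]; abel
      have hinv : PQ V * (PQ V)⁻¹ = 1 := Matrix.mul_nonsing_inv _ (isUnit_iff_ne_zero.2 (by
        rw [PQ_det_eq]; exact_mod_cast hVdet))
      refine ⟨(PQ V)⁻¹ *ᵥ (fun i => ((z i : ℤ) : ℚ)) + fun i => ((u i : ℤ) : ℚ), ?_, ?_⟩
      · rw [hL]
        refine ⟨z + V *ᵥ u, ?_⟩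
        rw [mulVec_mulVec, ← hVq, mulVec_add, mulVec_mulVec, hinv, one_mulVec, castV]
        funext i
        simp
      · rw [mulVec_add, castV, hMq, mulVec_mulVec, Matrix.mul_assoc ((PQ V)ᵀ * PQ Q0), hinv,
          Matrix.mul_one, ← LA1.PQ_tr, ← LA1.PQ_mul, castV, hw]
        funext i
        simp
    · rintro ⟨v', hv', hvM⟩
      rw [hL] at hv'
      obtain ⟨z, hz⟩ := hv'
      refine ⟨z, ?_⟩
      rw [hf0]
      congr 1
      apply cast_inj'
      have hz' : PQ V *ᵥ v' = fun i => ((z i : ℤ) : ℚ) := by rw [hVq, ← mulVec_mulVec, hz]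
      have h5 : PQ M *ᵥ v' = fun i => ((((Vᵀ * Q0) *ᵥ z) i : ℤ) : ℚ) := by
        rw [hMq, ← mulVec_mulVec, hz', ← LA1.PQ_tr, ← LA1.PQ_mul, castV]
      rw [← hvM, h5]
  have hcard : Nat.card S = V.det.natAbs := by
    rw [← hrange, ← card_coker V hVdet]
    have hk : f0.ker = lat V := by
      ext z
      rw [AddMonoidHom.mem_ker, hker]
    have e1 := QuotientAddGroup.quotientKerEquivRange f0
    have e2 := QuotientAddGroup.quotientAddEquivOfEq hk
    exact Nat.card_congr (e1.symm.trans e2).toEquiv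
  rw [card_coker M hMd, hcard, hMdet, Int.natAbs_mul, Int.natAbs_mul]
  ring

end card

end Vale.Agent.P160.Half.G.Rel837
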