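import Vale.Agent.P160.Half.A4
import Vale.Agent.P160.Half.LA1
import Vale.Agent.P160.Half.GStmt3
import Vale.Agent.P160.Half.Rel837

/-! # P160, rate 1/2, part (A), gap (G): the exchanged matrix and the relations (RelStmt) -/

set_option linter.unusedSectionVars false

namespace Vale.Agent.P160.Half.Rel952

open Finset Matrix Vale.Agent.P160.Half Vale.Agent.P160.Half.A Vale.Agent.P160.Half.A4
  Vale.Agent.P160.Half.G Vale.Agent.P160.Half.Labels

variable {n : ℕ} {β : Type} [Fintype β] [DecidableEq β]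

theorem cob_R {R : β → Fin n} (hR : Function.Injective R) (g : β → Fin n → ℚ) (j : Fin n)
    (i : β) : cob R g j (R i) = g i j := by
  have h := congrFun (cob_single_R hR g i) j
  rwa [mulVec_single_one] at h

theorem cob_off {R : β → Fin n} (g : β → Fin n → ℚ) (j : Fin n) {k : Fin n}
    (hk : k ∉ univ.image R) : cob R g j k = if j = k then 1 else 0 := by
  have h := congrFun (cob_single_not R g hk) j
  rw [mulVec_single_one] at h
  rw [← Pi.single_apply]
  exact h

theorem det_cob {R : β → Fin n} (hR : Function.Injective R) (g : β → Fin n → ℚ) :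
    (cob R g).det = minor R g := by
  classical
  have hbij : Function.Bijective
      (Sum.elim R (Subtype.val : {j : Fin n // j ∉ univ.image R} → Fin n)) := by
    constructor
    · intro x y h
      rcases x with i | j <;> rcases y with i' | j'
      · simp only [Sum.elim_inl] at h
        rw [hR h]
      · simp only [Sum.elim_inl, Sum.elim_inr] at h
        exact absurd (h ▸ mem_image_of_mem R (mem_univ i)) j'.2
      · simp only [Sum.elim_inl, Sum.elim_inr] at h
        exact absurd (h ▸ mem_image_of_mem R (mem_univ i')) j.2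
      · simp only [Sum.elim_inr] at h
        rw [Subtype.ext h]
    · intro j
      by_cases hj : j ∈ univ.image R
      · obtain ⟨i, _, rfl⟩ := mem_image.1 hj
        exact ⟨Sum.inl i, rfl⟩
      · exact ⟨Sum.inr ⟨j, hj⟩, rfl⟩
  set e : β ⊕ {j : Fin n // j ∉ univ.image R} ≃ Fin n := Equiv.ofBijective _ hbij with he
  rw [← det_submatrix_equiv_self e]
  have h1 : (cob R g).submatrix e e = fromBlocks (Matrix.of fun k i => g i (R k)) 0
      (Matrix.of fun (j : {j : Fin n // j ∉ univ.image R}) i => g i j) 1 := by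
    ext x y
    rcases x with k | j <;> rcases y with i | j'
    · exact cob_R hR g _ _
    · rw [submatrix_apply, fromBlocks_apply₁₂]
      show cob R g (R k) j' = 0
      rw [cob_off g _ j'.2, if_neg]
      intro h
      exact j'.2 (h ▸ mem_image_of_mem R (mem_univ k))
    · exact cob_R hR g _ _
    · rw [submatrix_apply, fromBlocks_apply₂₂]
      show cob R g j j' = _
      rw [cob_off g _ j'.2, one_apply]
      simp only [Subtype.ext_iff]
  rw [h1, det_fromBlocks_zero₁₂, det_one, mul_one, minor, ← det_transpose]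
  rfl

/-- integers in `ℚ` -/
def IsZ (x : ℚ) : Prop := ∃ k : ℤ, x = k

theorem IsZ.add {x y : ℚ} (hx : IsZ x) (hy : IsZ y) : IsZ (x + y) := by
  obtain ⟨a, rfl⟩ := hx
  obtain ⟨b, rfl⟩ := hy
  exact ⟨a + b, by push_cast; rfl⟩

theorem IsZ.mul {x y : ℚ} (hx : IsZ x) (hy : IsZ y) : IsZ (x * y) := by
  obtain ⟨a, rfl⟩ := hx
  obtain ⟨b, rfl⟩ := hy
  exact ⟨a * b, by push_cast; rfl⟩

theorem IsZ.int (k : ℤ) : IsZ (k : ℚ) := ⟨k, rfl⟩

theorem IsZ.sum {ι : Type*} (s : Finset ι) (f : ι → ℚ) (h : ∀ i ∈ s, IsZ (f i)) :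
    IsZ (∑ i ∈ s, f i) := by
  classical
  induction s using Finset.induction_on with
  | empty => exact ⟨0, by simp⟩
  | insert a s ha ih =>
    rw [Finset.sum_insert ha]
    exact (h a (mem_insert_self a s)).add (ih fun i hi => h i (mem_insert_of_mem hi))

theorem IsZ.dot {ι : Type*} [Fintype ι] (v w : ι → ℚ) (hv : ∀ i, IsZ (v i))
    (hw : ∀ i, IsZ (w i)) : IsZ (v ⬝ᵥ w) := IsZ.sum _ _ fun i _ => (hv i).mul (hw i)

theorem IsZ.floor {x : ℚ} (h : IsZ x) : ((⌊x⌋ : ℤ) : ℚ) = x := by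
  obtain ⟨k, rfl⟩ := h
  rw [Int.floor_intCast]

section

variable {P : Matrix (Fin n) (Fin n) ℤ} {F : Matrix (Fin n) β ℤ}

theorem dot_symm (hP : P.IsSymm) (v w : Fin n → ℚ) :
    v ⬝ᵥ (PQ P *ᵥ w) = (PQ P *ᵥ v) ⬝ᵥ w := by
  have h1 : (PQ P)ᵀ = PQ P := by
    ext i k
    have : P k i = P i k := hP.apply _ _
    simp only [transpose_apply, PQ, map_apply, this]
  rw [dotProduct_mulVec, ← mulVec_transpose, h1]

theorem P_gF (hd : P.det ≠ 0) (q : β) : PQ P *ᵥ gF P F q = fun j => (F j q : ℚ) :=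
  PQ_dual hd _

theorem mem_LFg {x : Fin n → ℚ} : x ∈ LFg P F ↔ ∃ (z : Fin n → ℤ) (d : β → ℤ),
    x = (fun j => (z j : ℚ)) + ∑ i, (d i : ℚ) • gF P F i := by
  have hz : ∀ z : Fin n → ℤ, ∑ j, z j • (Pi.single j (1 : ℚ) : Fin n → ℚ) =
      fun j => (z j : ℚ) := by
    intro z
    funext k
    rw [Finset.sum_apply, Finset.sum_eq_single k]
    · simp
    · intro j _ hj
      simp [Ne.symm hj]
    · simp
  rw [LFg, Submodule.span_union, Submodule.mem_sup]
  constructor
  · rintro ⟨y, hy, w, hw, rfl⟩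
    obtain ⟨z, rfl⟩ := (Submodule.mem_span_range_iff_exists_fun ℤ).1 hy
    obtain ⟨d, rfl⟩ := (Submodule.mem_span_range_iff_exists_fun ℤ).1 hw
    refine ⟨z, d, ?_⟩
    rw [hz]
    congr 1
  · rintro ⟨z, d, rfl⟩
    refine ⟨_, (Submodule.mem_span_range_iff_exists_fun ℤ).2 ⟨z, hz z⟩, _,
      (Submodule.mem_span_range_iff_exists_fun ℤ).2 ⟨d, ?_⟩, rfl⟩
    refine Finset.sum_congr rfl fun i _ => ?_
    rw [Int.cast_smul_eq_zsmul]

theorem over_LFg (hP : P.IsSymm) (hd : P.det ≠ 0) {gr : Matrix β β ℤ}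
    (hgr : ∀ i k, gF P F i ⬝ᵥ (PQ P *ᵥ gF P F k) = gr i k) : Over P (LFg P F) := by
  constructor
  · intro z
    exact mem_LFg.2 ⟨z, 0, by simp⟩
  · intro v hv w hw
    obtain ⟨z, d, rfl⟩ := mem_LFg.1 hv
    obtain ⟨z', d', rfl⟩ := mem_LFg.1 hw
    have hPz : ∀ (u : Fin n → ℤ) j, IsZ ((PQ P *ᵥ fun j => (u j : ℚ)) j) := fun u j =>
      IsZ.dot _ _ (fun k => ⟨P j k, rfl⟩) fun k => IsZ.int _
    have hPg : ∀ q j, IsZ ((PQ P *ᵥ gF P F q) j) := fun q j => by
      rw [P_gF hd]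
      exact IsZ.int _
    rw [mulVec_add, add_dotProduct, dotProduct_add, dotProduct_add]
    have e1 : PQ P *ᵥ ∑ i, (d' i : ℚ) • gF P F i = ∑ i, (d' i : ℚ) • (PQ P *ᵥ gF P F i) := by
      rw [mulVec_sum]
      exact Finset.sum_congr rfl fun i _ => mulVec_smul _ _ _
    have hsum : ∀ (u : Fin n → ℚ), (∀ i, IsZ (gF P F i ⬝ᵥ u)) →
        IsZ ((∑ i, (d i : ℚ) • gF P F i) ⬝ᵥ u) := by
      intro u hu
      rw [sum_dotProduct]
      refine IsZ.sum _ _ fun i _ => ?_
      rw [smul_dotProduct, smul_eq_mul]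
      exact (IsZ.int _).mul (hu i)
    refine ((IsZ.add ?_ ?_).add (IsZ.add ?_ ?_))
    · exact IsZ.dot _ _ (fun k => IsZ.int _) (hPz z')
    · refine IsZ.dot _ _ (fun k => IsZ.int _) fun j => ?_
      rw [e1, Finset.sum_apply]
      refine IsZ.sum _ _ fun i _ => ?_
      rw [Pi.smul_apply, smul_eq_mul]
      exact (IsZ.int _).mul (hPg i j)
    · refine hsum _ fun i => ?_
      rw [dot_symm hP]
      exact IsZ.dot _ _ (hPg i) fun k => IsZ.int _
    · refine hsum _ fun i => ?_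
      rw [e1, dotProduct_sum]
      refine IsZ.sum _ _ fun k _ => ?_
      rw [dotProduct_smul, smul_eq_mul, hgr]
      exact (IsZ.int _).mul (IsZ.int _)

/-- integrality of `newP` -/
theorem newP_int {R : β → Fin n} (hR : Function.Injective R) (hP : P.IsSymm) (hd : P.det ≠ 0)
    {gr : Matrix β β ℤ} (hgr : ∀ i k, gF P F i ⬝ᵥ (PQ P *ᵥ gF P F k) = gr i k) (j k : Fin n) :
    IsZ (newP P R (gF P F) j k) ∧
    (j ∉ univ.image R → k ∉ univ.image R → newP P R (gF P F) j k = P j k) := by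
  have key : newP P R (gF P F) j k =
      ((cob R (gF P F))ᵀ *ᵥ (PQ P *ᵥ (cob R (gF P F) *ᵥ Pi.single k 1))) j := by
    rw [mulVec_mulVec, mulVec_mulVec, mulVec_single_one]
    rfl
  rw [key]
  by_cases hk : k ∈ univ.image R
  · refine ⟨?_, fun _ h => absurd hk h⟩
    obtain ⟨i, _, rfl⟩ := mem_image.1 hk
    rw [cob_single_R hR]
    by_cases hj : j ∈ univ.image R
    · obtain ⟨i', _, rfl⟩ := mem_image.1 hj
      rw [cobT_R hR, hgr]
      exact IsZ.int _
    · rw [cobT_not R _ _ hj, P_gF hd]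
      exact IsZ.int _
  · rw [cob_single_not R _ hk]
    by_cases hj : j ∈ univ.image R
    · refine ⟨?_, fun h _ => absurd hj h⟩
      obtain ⟨i', _, rfl⟩ := mem_image.1 hj
      rw [cobT_R hR, dot_symm hP, P_gF hd, dotProduct_single, mul_one]
      exact IsZ.int _
    · rw [cobT_not R _ _ hj, mulVec_single_one]
      exact ⟨⟨P j k, rfl⟩, fun _ _ => rfl⟩

theorem hz_int {R : β → Fin n} (hR : Function.Injective R) (hP : P.IsSymm) (hd : P.det ≠ 0)
    (i : β) (j : Fin n) :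
    IsZ (((cob R (gF P F))ᵀ *ᵥ (PQ P *ᵥ Pi.single (R i) 1)) j) := by
  by_cases hj : j ∈ univ.image R
  · obtain ⟨i', _, rfl⟩ := mem_image.1 hj
    rw [cobT_R hR, dot_symm hP, P_gF hd, dotProduct_single, mul_one]
    exact IsZ.int _
  · rw [cobT_not R _ _ hj, mulVec_single_one]
    exact ⟨P j (R i), rfl⟩

end

/-! ### integer vectors -/

/-- rational vector -/
def tq (z : Fin n → ℤ) : Fin n → ℚ := fun j => (z j : ℚ)

theorem tq_inj {z w : Fin n → ℤ} (h : tq z = tq w) : z = w := by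
  funext j
  have := congrFun h j
  unfold tq at this
  exact_mod_cast this

theorem tq_mulVec (A : Matrix (Fin n) (Fin n) ℤ) (z : Fin n → ℤ) :
    PQ A *ᵥ tq z = tq (A *ᵥ z) := by
  funext j
  simp only [mulVec, dotProduct, PQ, tq, map_apply]
  push_cast
  rfl

theorem PQ_mul (A B : Matrix (Fin n) (Fin n) ℤ) : PQ (A * B) = PQ A * PQ B := by
  ext i j
  simp only [PQ, map_apply, mul_apply]
  push_cast
  rfl

theorem PQ_T (A : Matrix (Fin n) (Fin n) ℤ) : PQ Aᵀ = (PQ A)ᵀ := rfl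

theorem PQ_inj {A B : Matrix (Fin n) (Fin n) ℤ} (h : PQ A = PQ B) : A = B := by
  ext i j
  have := congrFun (congrFun h i) j
  simp only [PQ, map_apply] at this
  exact_mod_cast this

/-- `c` on the range of `R`, `v` outside -/
def emb (R : β → Fin n) (c : β → ℤ) (v : Fin n → ℤ) : Fin n → ℤ := fun j =>
  (∑ i, if R i = j then c i else 0) + if j ∈ univ.image R then 0 else v j

theorem emb_R {R : β → Fin n} (hR : Function.Injective R) (c : β → ℤ) (v : Fin n → ℤ) (i : β) :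
    emb R c v (R i) = c i := by
  unfold emb
  rw [if_pos (mem_image_of_mem R (mem_univ i))]
  simp [hR.eq_iff]

theorem emb_off (R : β → Fin n) (c : β → ℤ) (v : Fin n → ℤ) {j : Fin n}
    (hj : j ∉ univ.image R) : emb R c v j = v j := by
  unfold emb
  have h1 : ∀ i, R i ≠ j := fun i h => hj (h ▸ mem_image_of_mem R (mem_univ i))
  rw [if_neg hj]
  simp [h1]

theorem tq_split {R : β → Fin n} (hR : Function.Injective R) (z : Fin n → ℤ) :
    tq z = ∑ i, (z (R i) : ℚ) • (Pi.single (R i) (1 : ℚ) : Fin n → ℚ) + tq (emb R 0 z) := by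
  funext j
  rw [Pi.add_apply, Finset.sum_apply]
  by_cases hj : j ∈ univ.image R
  · obtain ⟨i, _, rfl⟩ := mem_image.1 hj
    have h1 : tq (emb R 0 z) (R i) = 0 := by
      unfold tq
      rw [emb_R hR]
      simp
    rw [h1, add_zero, Finset.sum_eq_single i]
    · simp [tq]
    · intro k _ hk
      have : R i ≠ R k := fun h => hk (hR h).symm
      simp [this]
    · simp
  · have h1 : tq (emb R 0 z) j = z j := by
      unfold tq
      rw [emb_off R _ _ hj]
    rw [h1, Finset.sum_eq_zero]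
    · simp [tq]
    · intro k _
      have : j ≠ R k := fun h => hj (h ▸ mem_image_of_mem R (mem_univ k))
      simp [this]

theorem cob_tq {R : β → Fin n} (hR : Function.Injective R) (g : β → Fin n → ℚ)
    (z : Fin n → ℤ) :
    cob R g *ᵥ tq z = ∑ i, (z (R i) : ℚ) • g i + tq (emb R 0 z) := by
  funext j
  rw [cob_mulVec, Pi.add_apply, Finset.sum_apply]
  congr 1
  by_cases hj : j ∈ univ.image R
  · obtain ⟨i, _, rfl⟩ := mem_image.1 hj
    rw [if_pos (mem_image_of_mem R (mem_univ i))]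
    unfold tq
    rw [emb_R hR]
    simp
  · rw [if_neg hj]
    unfold tq
    rw [emb_off R _ _ hj]

theorem mulVec_cancel {A : Matrix (Fin n) (Fin n) ℚ} (h : A.det ≠ 0) {x y : Fin n → ℚ}
    (hxy : A *ᵥ x = A *ᵥ y) : x = y := by
  have h1 := congrArg (fun v => A⁻¹ *ᵥ v) hxy
  simpa only [mulVec_mulVec, nonsing_inv_mul _ (isUnit_iff_ne_zero.2 h), one_mulVec] using h1

theorem mem_closure_range {G : Type*} [AddCommGroup G] (e : β → G) (x : G) :
    x ∈ AddSubgroup.closure (Set.range e) ↔ ∃ c : β → ℤ, ∑ i, c i • e i = x := by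
  rw [← Submodule.span_int_eq_addSubgroupClosure, Submodule.mem_toAddSubgroup,
    Submodule.mem_span_range_iff_exists_fun]

theorem PQ_det_ne {P : Matrix (Fin n) (Fin n) ℤ} (hd : P.det ≠ 0) : (PQ P).det ≠ 0 := by
  rw [PQ_det]
  exact_mod_cast hd

section main

variable {P Q V : Matrix (Fin n) (Fin n) ℤ} {F : Matrix (Fin n) β ℤ} {R : β → Fin n}

theorem mem_LFg_V (hd : P.det ≠ 0) (hov : Over P (LFg P F))
    (hPQV : P = Vᵀ * Q * V)
    (hdual : ∀ y : Fin n → ℤ, dual P y ∈ LFg P F ↔ ∃ z : Fin n → ℤ, y = Vᵀ *ᵥ (Q *ᵥ z))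
    (x : Fin n → ℚ) : x ∈ LFg P F ↔ ∃ z : Fin n → ℤ, PQ V *ᵥ x = tq z := by
  have hA : (PQ (Vᵀ * Q)).det ≠ 0 := by
    apply PQ_det_ne
    intro h
    apply hd
    rw [hPQV, det_mul, h, zero_mul]
  have hPx : PQ P *ᵥ x = PQ (Vᵀ * Q) *ᵥ (PQ V *ᵥ x) := by
    rw [mulVec_mulVec, ← PQ_mul, ← hPQV]
  constructor
  · intro hx
    have h1 : ∀ j, ∃ k : ℤ, (PQ P *ᵥ x) j = k := by
      intro j
      obtain ⟨k, hk⟩ := hov.int _ (hov.std (Pi.single j 1)) _ hx
      refine ⟨k, ?_⟩
      rw [← hk]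
      have : (fun i => ((Pi.single j 1 : Fin n → ℤ) i : ℚ)) = Pi.single j 1 := by
        funext k
        rw [Pi.single_apply, Pi.single_apply]
        split_ifs <;> simp
      rw [this, single_dotProduct, one_mul]
    choose y hy using h1
    have hy' : tq y = PQ P *ᵥ x := funext fun j => (hy j).symm
    have hdx : dual P y = x := dual_eq hd y x hy'
    obtain ⟨z, hz⟩ := (hdual y).1 (by rw [hdx]; exact hx)
    refine ⟨z, ?_⟩
    refine mulVec_cancel hA ?_
    rw [← hPx, ← hy', hz, tq_mulVec, mulVec_mulVec]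
  · rintro ⟨z, hz⟩
    have h1 : tq (Vᵀ *ᵥ (Q *ᵥ z)) = PQ P *ᵥ x := by
      rw [hPx, hz, tq_mulVec, mulVec_mulVec]
    have hdx : dual P (Vᵀ *ᵥ (Q *ᵥ z)) = x := dual_eq hd _ x h1
    rw [← hdx]
    exact (hdual _).2 ⟨z, rfl⟩

theorem single_mem_LFg (j : Fin n) : (Pi.single j 1 : Fin n → ℚ) ∈ LFg P F :=
  Submodule.subset_span (Or.inl ⟨j, rfl⟩)

theorem gF_mem_LFg (i : β) : gF P F i ∈ LFg P F :=
  Submodule.subset_span (Or.inr ⟨i, rfl⟩)

/-- the integer matrix `V cob` -/
theorem exists_W (hR : Function.Injective R)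
    (hV : ∀ x : Fin n → ℚ, x ∈ LFg P F ↔ ∃ z : Fin n → ℤ, PQ V *ᵥ x = tq z) :
    ∃ W : Matrix (Fin n) (Fin n) ℤ, PQ W = PQ V * cob R (gF P F) := by
  have h1 : ∀ k, ∃ z : Fin n → ℤ, PQ V *ᵥ (cob R (gF P F) *ᵥ Pi.single k 1) = tq z := by
    intro k
    rw [← hV]
    by_cases hk : k ∈ univ.image R
    · obtain ⟨i, _, rfl⟩ := mem_image.1 hk
      rw [cob_single_R hR]
      exact gF_mem_LFg i
    · rw [cob_single_not R _ hk]
      exact single_mem_LFg k
  choose W' hW' using h1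
  refine ⟨fun j k => W' k j, ?_⟩
  ext j k
  have h2 := congrFun (hW' k) j
  rw [mulVec_mulVec, mulVec_single_one] at h2
  exact h2.symm

end main

theorem tq_add (z w : Fin n → ℤ) : tq (z + w) = tq z + tq w := by
  funext j
  simp [tq]

theorem tq_neg (z : Fin n → ℤ) : tq (-z) = -tq z := by
  funext j
  simp [tq]

theorem emb_idem {R : β → Fin n} (hR : Function.Injective R) (c : β → ℤ) (v : Fin n → ℤ) :
    emb R 0 (emb R c v) = emb R 0 v := by
  funext j
  by_cases hj : j ∈ univ.image R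
  · obtain ⟨i, _, rfl⟩ := mem_image.1 hj
    rw [emb_R hR, emb_R hR]
  · rw [emb_off R _ _ hj, emb_off R _ _ hj, emb_off R _ _ hj]

theorem emb_neg {R : β → Fin n} (hR : Function.Injective R) (v : Fin n → ℤ) :
    emb R 0 (-v) = -emb R 0 v := by
  funext j
  rw [Pi.neg_apply]
  by_cases hj : j ∈ univ.image R
  · obtain ⟨i, _, rfl⟩ := mem_image.1 hj
    rw [emb_R hR, emb_R hR]
    simp
  · rw [emb_off R _ _ hj, emb_off R _ _ hj]
    rfl

theorem FtQ (F : Matrix (Fin n) β ℤ) (P : Matrix (Fin n) (Fin n) ℤ) (hd : P.det ≠ 0)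
    (d : β → ℤ) : PQ P *ᵥ ∑ i, (d i : ℚ) • gF P F i = tq (F *ᵥ d) := by
  rw [mulVec_sum]
  funext j
  rw [Finset.sum_apply]
  unfold tq
  simp only [mulVec, dotProduct]
  push_cast
  refine Finset.sum_congr rfl fun i _ => ?_
  have h1 := congrFun (P_gF (P := P) (F := F) hd i) j
  have h2 : (PQ P *ᵥ ((d i : ℚ) • gF P F i)) j = (d i : ℚ) * (PQ P *ᵥ gF P F i) j := by
    rw [mulVec_smul]
    rfl
  show (PQ P *ᵥ ((d i : ℚ) • gF P F i)) j = _
  rw [h2, h1, mul_comm]

theorem rel : RelStmt := by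
  intro n β _ _ b F gr hd hgr
  have hP := matZ_isSymm b
  set P := matZ b with hPdef
  have hov := over_LFg hP hd hgr
  obtain ⟨D, hD0, hD1, hD⟩ := Rel837.card_formula hP hd (LFg P F) hov
  have hPqd := PQ_det_ne hd
  refine ⟨fun R j k => ⌊newP P R (gF P F) j k⌋,
    fun R i j => ⌊((cob R (gF P F))ᵀ *ᵥ (PQ P *ᵥ Pi.single (R i) 1)) j⌋, D, hD0, hD1, ?_⟩
  intro R hR hm
  have hcd : (cob R (gF P F)).det ≠ 0 := det_cob_ne R _ hm
  set M' : Matrix (Fin n) (Fin n) ℤ := fun j k => ⌊newP P R (gF P F) j k⌋ with hM'def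
  set hz : β → Fin n → ℤ :=
    fun i j => ⌊((cob R (gF P F))ᵀ *ᵥ (PQ P *ᵥ Pi.single (R i) 1)) j⌋ with hzdef
  show PQ M' = _ ∧ M'ᵀ = M' ∧ M'.det ≠ 0 ∧ _ ∧ _ ∧ _ ∧ _ ∧ _ ∧ _
  have hM : PQ M' = newP P R (gF P F) := by
    ext j k
    exact (newP_int hR hP hd hgr j k).1.floor
  have hhz : ∀ i, tq (hz i) = (cob R (gF P F))ᵀ *ᵥ (PQ P *ᵥ Pi.single (R i) 1) := by
    intro i
    funext j
    exact (hz_int hR hP hd i j).floor
  have hdet : (PQ M').det = (PQ P).det * (minor R (gF P F)) ^ 2 := by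
    rw [hM, newP, det_mul, det_mul, det_transpose, det_cob hR]
    ring
  have hdM : M'.det ≠ 0 := by
    intro h
    rw [PQ_det, h, Int.cast_zero] at hdet
    exact mul_ne_zero hPqd (pow_ne_zero 2 hm) hdet.symm
  have hMq := PQ_det_ne hdM
  have hsym : M'ᵀ = M' := by
    apply PQ_inj
    rw [PQ_T, hM, newP, transpose_mul, transpose_mul, transpose_transpose]
    have h1 : (PQ P)ᵀ = PQ P := by rw [← PQ_T, hP.eq]
    rw [h1, Matrix.mul_assoc]
  -- the vectors `e_(R i)` in the new basis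
  have hMx : ∀ v : Fin n → ℚ, PQ M' *ᵥ v =
      ((cob R (gF P F))ᵀ * PQ P) *ᵥ (cob R (gF P F) *ᵥ v) := by
    intro v
    rw [hM, newP, mulVec_mulVec]
  have hcP : ((cob R (gF P F))ᵀ * PQ P).det ≠ 0 := by
    rw [det_mul, det_transpose]
    exact mul_ne_zero hcd hPqd
  have hcomb : ∀ c : β → ℤ, tq (∑ i, c i • hz i) =
      ((cob R (gF P F))ᵀ * PQ P) *ᵥ ∑ i, (c i : ℚ) • (Pi.single (R i) (1 : ℚ) : Fin n → ℚ) := by
    intro c
    have h1 : tq (∑ i, c i • hz i) = ∑ i, (c i : ℚ) • tq (hz i) := by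
      funext j
      unfold tq
      rw [Finset.sum_apply, Finset.sum_apply]
      push_cast
      refine Finset.sum_congr rfl fun i _ => ?_
      simp
    rw [h1, mulVec_sum]
    refine Finset.sum_congr rfl fun i _ => ?_
    rw [mulVec_smul, hhz, mulVec_mulVec]
  have hMz : ∀ z : Fin n → ℤ, tq (M' *ᵥ z) =
      ((cob R (gF P F))ᵀ * PQ P) *ᵥ (cob R (gF P F) *ᵥ tq z) := by
    intro z
    rw [← tq_mulVec, hMx]
  have hrel : ∀ (c : β → ℤ), (∑ i, c i • (QuotientAddGroup.mk (hz i) : Coker M') =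
      QuotientAddGroup.mk (∑ i, c i • hz i)) := by
    intro c
    have h1 := map_sum (QuotientAddGroup.mk' (lat M')) (fun i => c i • hz i) univ
    simp only [map_zsmul, QuotientAddGroup.mk'_apply] at h1
    exact h1.symm
  have hlast : ∀ w : Fin n → ℤ, (QuotientAddGroup.mk w : Coker M') ∈
        AddSubgroup.closure (Set.range fun i => (QuotientAddGroup.mk (hz i) : Coker M')) ↔
      ∃ v ∈ newL (LFg P F) R (gF P F), PQ M' *ᵥ v = fun j => (w j : ℚ) := by
    intro w
    rw [mem_closure_range]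
    constructor
    · rintro ⟨c, hc⟩
      rw [hrel, QuotientAddGroup.eq, mem_lat] at hc
      obtain ⟨z, hz'⟩ := hc
      have hw : w = (∑ i, c i • hz i) + M' *ᵥ z := by rw [hz']; abel
      refine ⟨(cob R (gF P F))⁻¹ *ᵥ (∑ i, (c i : ℚ) • (Pi.single (R i) (1 : ℚ) : Fin n → ℚ)) + tq z,
        ?_, ?_⟩
      · rw [mem_newL, mulVec_add, mulVec_mulVec, mul_nonsing_inv _ (isUnit_iff_ne_zero.2 hcd),
          one_mulVec, cob_tq hR]
        refine Submodule.add_mem _ (Submodule.sum_mem _ fun i _ => ?_)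
          (Submodule.add_mem _ (Submodule.sum_mem _ fun i _ => ?_) ?_)
        · rw [Int.cast_smul_eq_zsmul]
          exact Submodule.smul_mem _ _ (single_mem_LFg _)
        · rw [Int.cast_smul_eq_zsmul]
          exact Submodule.smul_mem _ _ (gF_mem_LFg _)
        · exact hov.std _
      · rw [hMx, mulVec_add, mulVec_mulVec, mul_nonsing_inv _ (isUnit_iff_ne_zero.2 hcd),
          one_mulVec, mulVec_add, ← hcomb, ← hMz, ← tq_add, ← hw]
        rfl
    · rintro ⟨v, hv, hvw⟩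
      rw [mem_newL] at hv
      obtain ⟨z0, d, hzd⟩ := mem_LFg.1 hv
      refine ⟨fun i => z0 (R i), ?_⟩
      rw [hrel, QuotientAddGroup.eq, mem_lat]
      refine ⟨emb R d z0, ?_⟩
      apply tq_inj
      rw [tq_add, tq_neg, hMz, hcomb]
      have h1 : tq w = ((cob R (gF P F))ᵀ * PQ P) *ᵥ (cob R (gF P F) *ᵥ v) := by
        rw [← hMx, hvw]
        rfl
      have h2 : cob R (gF P F) *ᵥ v = ∑ i, (z0 (R i) : ℚ) • (Pi.single (R i) (1 : ℚ) : Fin n → ℚ) +
          cob R (gF P F) *ᵥ tq (emb R d z0) := by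
        rw [cob_tq hR, emb_idem hR, hzd]
        have h3 := tq_split hR z0
        have h4 : (fun j => ((z0 j : ℤ) : ℚ)) = tq z0 := rfl
        rw [h4]
        conv_lhs => rw [h3]
        have h5 : ∀ i, emb R d z0 (R i) = d i := fun i => emb_R hR d z0 i
        simp only [h5]
        abel
      rw [h1, h2, mulVec_add]
      abel
  refine ⟨hM, hsym, hdM, ?_, ?_, ?_, ?_, ?_, hlast⟩
  · show (((M').det : ℤ) : ℚ) = _
    have := hdet
    rw [PQ_det, PQ_det] at this
    exact this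
  · intro j k hj hk
    have hj' : j ∉ univ.image R := by simpa using hj
    have hk' : k ∉ univ.image R := by simpa using hk
    show ⌊newP P R (gF P F) j k⌋ = P j k
    rw [(newP_int hR hP hd hgr j k).2 hj' hk', Int.floor_intCast]
  · intro c
    have h1 : newH P R (gF P F) c = ((cob R (gF P F))ᵀ * PQ P) *ᵥ
        ∑ i, ((if c i then (1 : ℤ) else 0 : ℤ) : ℚ) • (Pi.single (R i) (1 : ℚ) : Fin n → ℚ) := by
      rw [newH, mulVec_mulVec]
      congr 1
      funext j
      rw [Finset.sum_apply]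
      refine Finset.sum_congr rfl fun i _ => ?_
      by_cases hc : c i = true
      · by_cases hj : R i = j
        · subst hj
          simp [hc]
        · simp [hc, hj, Ne.symm hj]
      · simp [hc]
    rw [h1, ← hcomb]
    funext j
    unfold tq
    congr 1
    rw [Finset.sum_apply]
    refine Finset.sum_congr rfl fun i _ => ?_
    show (((if c i = true then (1 : ℤ) else 0) • hz i : Fin n → ℤ)) j =
      if c i = true then hz i j else 0
    split_ifs
    · rw [one_smul]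
    · rw [zero_smul]
      rfl
  · intro c
    rw [hrel, QuotientAddGroup.eq_zero_iff, mem_lat]
    constructor
    · rintro ⟨z, hz'⟩
      have h1 : cob R (gF P F) *ᵥ tq z =
          ∑ i, (c i : ℚ) • (Pi.single (R i) (1 : ℚ) : Fin n → ℚ) := by
        apply mulVec_cancel hcP
        rw [← hMz, hz', hcomb]
      have h2 : tq (emb R c (-z)) = ∑ i, (z (R i) : ℚ) • gF P F i := by
        rw [tq_split hR (emb R c (-z)), emb_idem hR, emb_neg hR, tq_neg]
        have h5 : ∀ i, emb R c (-z) (R i) = c i := fun i => emb_R hR c _ i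
        simp only [h5]
        rw [← h1, cob_tq hR]
        abel
      refine ⟨emb R c (-z), ⟨fun i => -z (R i), ?_⟩, fun i => emb_R hR c _ i⟩
      apply tq_inj
      rw [tq_add, ← tq_mulVec, h2, FtQ F P hd]
      have h3 : F *ᵥ (fun i => -z (R i)) = -(F *ᵥ fun i => z (R i)) := by
        rw [← mulVec_neg]
        rfl
      rw [h3, tq_neg, add_neg_cancel]
      rfl
    · rintro ⟨u, ⟨d, hu⟩, hc⟩
      refine ⟨emb R (-d) (-u), ?_⟩
      apply tq_inj
      rw [hMz, hcomb]
      congr 1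
      have h1 : tq u = -∑ i, (d i : ℚ) • gF P F i := by
        apply mulVec_cancel hPqd
        rw [tq_mulVec, mulVec_neg, FtQ F P hd, ← tq_neg]
        congr 1
        exact eq_neg_of_add_eq_zero_left hu
      have h5 : ∀ i, emb R (-d) (-u) (R i) = -d i := fun i => emb_R hR _ _ i
      rw [cob_tq hR, emb_idem hR, emb_neg hR, tq_neg]
      simp only [h5]
      have h6 := tq_split hR u
      simp only [hc] at h6
      have h7 : ∑ i, ((-d i : ℤ) : ℚ) • gF P F i = tq u := by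
        rw [h1, ← Finset.sum_neg_distrib]
        refine Finset.sum_congr rfl fun i _ => ?_
        push_cast
        rw [neg_smul]
      rw [h7]
      conv_lhs => rw [h6]
      abel
  · refine hD _ hcd (fun z => ?_) M' hM _ hlast
    have h8 := cob_tq hR (gF P F) z
    have h9 : (fun i => ((z i : ℤ) : ℚ)) = tq z := rfl
    rw [h9, h8]
    refine Submodule.add_mem _ (Submodule.sum_mem _ fun i _ => ?_) (hov.std _)
    rw [Int.cast_smul_eq_zsmul]
    exact Submodule.smul_mem _ _ (gF_mem_LFg _)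

end Vale.Agent.P160.Half.Rel952
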