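import Vale.Agent.P160.Half.GFin0
import Vale.Agent.P160.Half.GDet837
import Vale.Agent.P160.Half.KZF
import Vale.Agent.P160.Half.Con409
import Vale.Agent.P160.Half.Rel952
import Vale.Agent.P160.Half.GoodR
import Vale.Agent.P160.Half.Avg

/-! # P160, half rate: gap (G) is closed (helper667, from the leaves of 837, 952, 731, 409, 446, 214, 212, 404, 840, 984, 133, 116, 150, ...) -/

namespace Vale.Agent.P160.Half.G

open A

theorem detStmt : DetStmt := Det837.gdet kzf Con409.con Rel952.rel goodr AvgF.avg

theorem stmtG : A.StmtG := stmtG_of_det detStmt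

end Vale.Agent.P160.Half.G
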