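import Vale.Agent.P160.Half.M67Stmt

set_option linter.unusedSectionVars false

/-! # P160, half rate, block (M): leaves (9a) `StmtSpread` and (9c) `StmtFlat` of `M67Stmt`. -/

namespace Vale.Agent.P160.Half.H945

open Finset Vale.Agent.P160 Vale.Agent.P160.Half Vale.Agent.P160.Half.Flat
open Vale.Agent.P160.Half.M67

/-- atoms from the Fourier sum -/
theorem atomLe_of {ι : Type*} [Fintype ι] {q : ℕ} [NeZero q] (w : ι → ZMod q) {K : ℝ}
    (h : ∑ ψ : AddChar (ZMod q) ℂ, ∏ e, cf 8 (ψ (w e)) ≤ K) : M8.AtomLe q K w := by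
  classical
  intro a
  have h1 := bpr_le_gpr (E := ι) (le_refl 8) (fun e : ι => e) Function.injective_id w a
  have h2 := gpr_zero_eq (E := ι) (by norm_num : 2 ≤ 8) w
  have h3 : (Nat.card {x : ι → Bool // G.bdot x w = a} : ℝ) = bpr w a * 2 ^ Fintype.card ι := by
    unfold bpr
    rw [div_mul_cancel₀ _ (by positivity), Nat.card_eq_fintype_card, Fintype.card_subtype]
    rfl
  rw [h3]
  have hq : (0 : ℝ) < q := by exact_mod_cast NeZero.pos q
  have hc : (Fintype.card (ZMod q) : ℝ) = q := by rw [ZMod.card]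
  rw [hc] at h2
  have h4 : bpr w a * q ≤ K := by
    calc bpr w a * q ≤ gpr 8 w 0 * q := mul_le_mul_of_nonneg_right h1 hq.le
      _ = q * gpr 8 w 0 := mul_comm _ _
      _ ≤ K := by rw [h2]; exact h
  calc bpr w a * 2 ^ Fintype.card ι * q = bpr w a * q * 2 ^ Fintype.card ι := by ring
    _ ≤ K * 2 ^ Fintype.card ι := mul_le_mul_of_nonneg_right h4 (by positivity)

/-- a character which is trivial on a generating tuple is trivial -/
theorem eq_one_of_toCl {G : Type} [AddCommGroup G] {m : ℕ} (z : Fin m → G)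
    (φ : AddChar (AddSubgroup.closure (Set.range z)) ℂ) (h : ∀ j, φ (toCl z j) = 1) : φ = 1 := by
  have key : ∀ (g : G) (hg : g ∈ AddSubgroup.closure (Set.range z)), φ ⟨g, hg⟩ = 1 := by
    intro g hg
    induction hg using AddSubgroup.closure_induction with
    | mem x hx =>
      obtain ⟨j, rfl⟩ := hx
      exact h j
    | zero => exact AddChar.map_zero_eq_one φ
    | add x y hx hy ihx ihy =>
      have e : (⟨x + y, AddSubgroup.add_mem _ hx hy⟩ : AddSubgroup.closure (Set.range z)) =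
        ⟨x, hx⟩ + ⟨y, hy⟩ := rfl
      rw [e, AddChar.map_add_eq_mul, ihx, ihy, one_mul]
    | neg x hx ihx =>
      have e : (⟨-x, AddSubgroup.neg_mem _ hx⟩ : AddSubgroup.closure (Set.range z)) =
        -⟨x, hx⟩ := rfl
      rw [e, AddChar.map_neg_eq_inv, ihx, inv_one]
  ext ⟨g, hg⟩
  rw [key g hg, AddChar.one_apply]

/-- a power of prime order of a nontrivial character -/
theorem exists_prime_pow {H : Type*} [AddCommGroup H] {N : ℕ} (hN : ∀ h : H, N • h = 0)
    (ψ : AddChar H ℂ) (hψ : ψ ≠ 1) (hN0 : 0 < N) :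
    ∃ p n : ℕ, p.Prime ∧ p ∣ N ∧ (ψ ^ n) ≠ 1 ∧ ∀ h : H, (ψ ^ n) h ^ p = 1 := by
  have h1 : ψ ^ N = 1 := by
    ext h
    rw [AddChar.pow_apply, ← AddChar.map_nsmul_eq_pow, hN h, AddChar.map_zero_eq_one,
      AddChar.one_apply]
  have h2 : orderOf ψ ∣ N := orderOf_dvd_of_pow_eq_one h1
  have h3 : orderOf ψ ≠ 1 := by
    intro h
    exact hψ (orderOf_eq_one_iff.1 h)
  have h4 : 0 < orderOf ψ := Nat.pos_of_dvd_of_pos h2 hN0
  obtain ⟨p, hp, hpd⟩ := Nat.exists_prime_and_dvd h3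
  refine ⟨p, orderOf ψ / p, hp, hpd.trans h2, ?_, ?_⟩
  · intro h5
    have h6 := orderOf_dvd_of_pow_eq_one h5
    have h7 : orderOf ψ / p < orderOf ψ := Nat.div_lt_self h4 hp.one_lt
    have h8 : 0 < orderOf ψ / p := Nat.div_pos (Nat.le_of_dvd h4 hpd) hp.pos
    exact absurd (Nat.le_of_dvd h8 h6) (not_le.2 h7)
  · intro h
    have h5 : (ψ ^ (orderOf ψ / p)) ^ p = 1 := by
      rw [← pow_mul, Nat.div_mul_cancel hpd, pow_orderOf_eq_one]
    have h6 := DFunLike.congr_fun h5 h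
    rwa [AddChar.pow_apply, AddChar.one_apply] at h6

/-- (9a) -/
theorem spread : StmtSpread := by
  classical
  intro k P hP hN0 s M hS z hz ψ hψ
  by_contra hcon
  rw [not_le] at hcon
  have hNH : ∀ h : AddSubgroup.closure (Set.range z), (∏ p ∈ P, p) • h = 0 := by
    intro h
    apply Subtype.ext
    rw [AddSubgroup.coe_nsmul, AddSubgroup.coe_zero]
    ext
    · rw [Prod.smul_fst, nsmul_eq_mul, ZMod.natCast_self, zero_mul, Prod.fst_zero]
    · rw [Prod.smul_snd, nsmul_eq_mul, ZMod.natCast_self, zero_mul, Prod.snd_zero]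
  obtain ⟨p, n, hp, hpN, h1, h2⟩ := exists_prime_pow hNH ψ hψ (NeZero.pos _)
  have hpP : p ∈ P := by
    obtain ⟨q, hq, hpq⟩ := (Prime.dvd_finsetProd_iff hp.prime _).1 hpN
    rwa [(Nat.prime_dvd_prime_iff_eq hp (hP q hq)).1 hpq]
  have : NeZero p := ⟨hp.pos.ne'⟩
  have hζ := Complex.isPrimitiveRoot_exp p hp.pos.ne'
  set ζ := Complex.exp (2 * Real.pi * Complex.I / p) with hζd
  have h3 : ∀ j, ∃ i : ℕ, ζ ^ i = (ψ ^ n) (toCl z j) := by
    intro j
    obtain ⟨i, -, hi⟩ := hζ.eq_pow_of_pow_eq_one (h2 (toCl z j))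
    exact ⟨i, hi⟩
  choose v hv using h3
  refine hS ⟨p, hpP, fun j => (v j : ZMod p), ?_, ?_, ?_⟩
  · intro h0
    refine h1 (eq_one_of_toCl z _ fun j => ?_)
    have h4 : ((v j : ℕ) : ZMod p) = 0 := congrFun h0 j
    rw [ZMod.natCast_eq_zero_iff] at h4
    rw [← hv j]
    exact (hζ.pow_eq_one_iff_dvd _).2 h4
  · refine lt_of_le_of_lt ?_ hcon
    have : (univ.filter fun j => ((v j : ℕ) : ZMod p) ≠ 0) ⊆
        univ.filter fun c => ψ (toCl z c) ≠ 1 := by
      intro j hj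
      rw [mem_filter] at hj ⊢
      refine ⟨mem_univ _, fun h4 => hj.2 ?_⟩
      have h5 : (ψ ^ n) (toCl z j) = 1 := by rw [AddChar.pow_apply, h4, one_pow]
      rw [← hv j] at h5
      rw [ZMod.natCast_eq_zero_iff]
      exact (hζ.pow_eq_one_iff_dvd _).1 h5
    exact_mod_cast card_le_card this
  · intro i
    have h4 : ∑ j, M i j • toCl z j = 0 := by
      apply Subtype.ext
      rw [AddSubgroup.val_finsetSum, AddSubgroup.coe_zero]
      exact hz i
    have h5 : (ψ ^ n) (∑ j, M i j • toCl z j) = ζ ^ (∑ j, M i j * (v j : ℤ)) := by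
      rw [addChar_sum]
      rw [Finset.prod_congr rfl fun j _ => (AddChar.map_zsmul_eq_zpow (ψ ^ n) (M i j) (toCl z j))]
      have h6 : ζ ≠ 0 := Complex.exp_ne_zero _
      have h7 : ∀ S : Finset (Fin k), ζ ^ (∑ j ∈ S, M i j * (v j : ℤ)) =
          ∏ j ∈ S, (ψ ^ n) (toCl z j) ^ M i j := by
        intro S
        induction S using Finset.induction_on with
        | empty => simp
        | insert a S ha ih =>
          rw [sum_insert ha, prod_insert ha, zpow_add₀ h6, ih, ← hv a, mul_comm (M i a),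
            zpow_mul, zpow_natCast]
      exact (h7 univ).symm
    rw [h4, AddChar.map_zero_eq_one] at h5
    have h6 := (hζ.zpow_eq_one_iff_dvd _).1 h5.symm
    rw [← ZMod.intCast_zmod_eq_zero_iff_dvd] at h6
    rw [Int.cast_sum] at h6
    simp only [Int.cast_mul, Int.cast_natCast] at h6
    exact h6

/-- a character of `ℤ/q` which is trivial on a unimodular tuple is trivial -/
theorem eq_one_of_unim {k q : ℕ} [NeZero q] (w : Fin k → ZMod q) (hw : M8.Unim q w)
    (χ : AddChar (ZMod q) ℂ) (h : ∀ j, χ (w j) = 1) : χ = 1 := by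
  by_contra hχ
  have hq : ∀ x : ZMod q, q • x = 0 := by
    intro x
    rw [nsmul_eq_mul, ZMod.natCast_self, zero_mul]
  obtain ⟨p, n, hp, hpq, h1, h2⟩ := exists_prime_pow hq χ hχ (NeZero.pos q)
  obtain ⟨j, hj⟩ := hw p hp hpq
  apply h1
  have h3 : ∀ x : ZMod q, (χ ^ n) x = (χ ^ n) 1 ^ x.val := by
    intro x
    rw [← AddChar.map_nsmul_eq_pow, nsmul_eq_mul, mul_one, ZMod.natCast_zmod_val]
  have h4 : (χ ^ n) 1 ^ (w j).val = 1 := by
    rw [← h3, AddChar.pow_apply, h j, one_pow]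
  have h5 : ¬ p ∣ (w j).val := by
    intro h6
    apply hj
    rw [ZMod.cast_eq_val, ZMod.natCast_eq_zero_iff]
    exact h6
  have h6 : orderOf ((χ ^ n) (1 : ZMod q)) ∣ Nat.gcd p (w j).val :=
    Nat.dvd_gcd (orderOf_dvd_of_pow_eq_one (h2 1)) (orderOf_dvd_of_pow_eq_one h4)
  rw [(Nat.Prime.coprime_iff_not_dvd hp).2 h5] at h6
  have h7 : (χ ^ n) (1 : ZMod q) = 1 := orderOf_eq_one_iff.1 (Nat.dvd_one.1 h6)
  ext x
  rw [h3 x, h7, one_pow, AddChar.one_apply]

/-- the comparison of the Fourier sums -/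
theorem sum_le_gZ {k q : ℕ} [NeZero q] {G : Type} [AddCommGroup G] [Fintype G]
    (F : ZMod q →+ G) (hF : Function.Injective F) (w : Fin k → ZMod q) (hw : M8.Unim q w)
    [Fintype (AddSubgroup.closure (Set.range fun j => F (w j)))] :
    ∑ χ : AddChar (ZMod q) ℂ, ∏ e, cf 8 (χ (w e)) ≤ gZ 8 (toCl fun j => F (w j)) := by
  classical
  have hle : AddSubgroup.closure (Set.range fun j => F (w j)) ≤ F.range := by
    rw [AddSubgroup.closure_le]
    rintro _ ⟨j, rfl⟩
    exact ⟨w j, rfl⟩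
  set e := AddMonoidHom.ofInjective hF with he
  set π : AddSubgroup.closure (Set.range fun j => F (w j)) →+ ZMod q :=
    e.symm.toAddMonoidHom.comp (AddSubgroup.inclusion hle) with hπ
  have hπw : ∀ j, π (toCl (fun j => F (w j)) j) = w j := by
    intro j
    have h1 : AddSubgroup.inclusion hle (toCl (fun j => F (w j)) j) = e (w j) := by
      apply Subtype.ext
      rfl
    rw [hπ, AddMonoidHom.comp_apply, h1]
    exact e.symm_apply_apply _
  set Φ : AddChar (ZMod q) ℂ → AddChar (AddSubgroup.closure (Set.range fun j => F (w j))) ℂ :=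
    fun χ => χ.compAddMonoidHom π with hΦ
  have hΦv : ∀ χ j, Φ χ (toCl (fun j => F (w j)) j) = χ (w j) := by
    intro χ j
    rw [hΦ]
    change χ (π _) = _
    rw [hπw]
  have hinj : Function.Injective Φ := by
    intro χ χ' h
    have h1 : ∀ j, (χ * χ'⁻¹) (w j) = 1 := by
      intro j
      have h2 : χ (w j) = χ' (w j) := by rw [← hΦv χ j, ← hΦv χ' j, h]
      have h3 : (χ' * χ'⁻¹) (w j) = 1 := by rw [mul_inv_cancel, AddChar.one_apply]
      rw [AddChar.mul_apply] at h3 ⊢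
      rw [h2, h3]
    have h2 := eq_one_of_unim w hw _ h1
    exact mul_inv_eq_one.1 h2
  have h1 : ∑ χ : AddChar (ZMod q) ℂ, ∏ i, cf 8 (χ (w i)) =
      ∑ ψ ∈ univ.map ⟨Φ, hinj⟩, gP 8 (toCl fun j => F (w j)) ψ := by
    rw [sum_map]
    refine sum_congr rfl fun χ _ => ?_
    unfold gP
    refine prod_congr rfl fun i _ => ?_
    change _ = cf 8 (Φ χ _)
    rw [hΦv]
  rw [h1]
  unfold gZ
  refine sum_le_sum_of_subset_of_nonneg (subset_univ _) fun ψ _ _ => ?_
  unfold gP
  exact prod_nonneg fun i _ => cf_nonneg (by norm_num) (norm_addChar _ _)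

/-- (9c) -/
theorem flat : StmtFlat := by
  classical
  intro k hk P hP s ω hS hB q hq w hw hker
  have hN0 : 0 < ∏ p ∈ P, p := Finset.prod_pos fun p hp => (hP p hp).pos
  have iN : NeZero (∏ p ∈ P, p) := ⟨hN0.ne'⟩
  have hq0 : 0 < q := Nat.pos_of_dvd_of_pos hq hN0
  have iq : NeZero q := ⟨hq0.ne'⟩
  obtain ⟨r, hr⟩ := hq
  have hr0 : 0 < r := by
    rcases Nat.eq_zero_or_pos r with h | h
    · rw [h, mul_zero] at hr
      exact absurd hr hN0.ne'
    · exact h
  -- the embedding of `ℤ/q`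
  have hqr : (zmultiplesHom (ZMod (∏ p ∈ P, p))) (r : ZMod (∏ p ∈ P, p)) (q : ℤ) = 0 := by
    rw [zmultiplesHom_apply, natCast_zsmul, nsmul_eq_mul, ← Nat.cast_mul, ← hr, ZMod.natCast_self]
  set f : ZMod q →+ ZMod (∏ p ∈ P, p) := ZMod.lift q ⟨zmultiplesHom _ (r : ZMod (∏ p ∈ P, p)), hqr⟩
    with hf
  have hfv : ∀ x : ZMod q, f x = ((x.val * r : ℕ) : ZMod (∏ p ∈ P, p)) := by
    intro x
    have h1 : ((x.val : ℤ) : ZMod q) = x := by
      rw [Int.cast_natCast, ZMod.natCast_zmod_val]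
    conv_lhs => rw [← h1]
    rw [hf, ZMod.lift_coe]
    change (zmultiplesHom (ZMod (∏ p ∈ P, p))) (r : ZMod (∏ p ∈ P, p)) (x.val : ℤ) = _
    rw [zmultiplesHom_apply, natCast_zsmul, nsmul_eq_mul, ← Nat.cast_mul]
  have hfi : Function.Injective f := by
    rw [injective_iff_map_eq_zero]
    intro x hx
    rw [hfv, ZMod.natCast_eq_zero_iff, hr, mul_comm q r, mul_comm x.val r] at hx
    have h1 : q ∣ x.val := Nat.dvd_of_mul_dvd_mul_left hr0 hx
    have h2 : x.val < q := x.val_lt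
    have h3 : x.val = 0 := Nat.eq_zero_of_dvd_of_lt h1 h2
    exact (ZMod.val_eq_zero x).1 h3
  set F : ZMod q →+ ZMod (∏ p ∈ P, p) × ZMod (∏ p ∈ P, p) :=
    (AddMonoidHom.inl _ _).comp f with hFd
  have hFi : Function.Injective F := by
    intro x y h
    apply hfi
    exact congrArg Prod.fst h
  have hz : ∀ i, ∑ j, (mt (stL (2 * k - 1)) ω i j) • (fun j => F (w j)) j = 0 := by
    intro i
    have h1 : F (gwL (2 * k - 1) (ω i) w) = 0 := by rw [hker i, map_zero]
    rw [← h1]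
    unfold gwL
    rw [map_sum]
    exact sum_congr rfl fun e _ => (map_zsmul F _ _).symm
  have hns := spread k P hP iN s _ hS (fun j => F (w j)) hz
  have hgz : gZ 8 (toCl fun j => F (w j)) ≤ 1 + 1 / (k : ℝ) := by
    by_contra hcon
    rw [not_le] at hcon
    refine hB ⟨iN, fun j => F (w j), hz, hns, ?_⟩
    convert hcon using 2
  have hk1 : (1 : ℝ) ≤ k := by exact_mod_cast hk
  have h2 : 1 / (k : ℝ) ≤ 1 := by rw [div_le_one (by positivity)]; exact hk1
  exact atomLe_of w ((sum_le_gZ F hFi w hw).trans (hgz.trans (by linarith)))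

end Vale.Agent.P160.Half.H945
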