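import Mathlib

/-! # P160: Littlewood-Offord modulo `N` for unit coordinates, one-coordinate laws. -/

namespace Vale.Agent.P160.Half.LOq

open Finset

/-- The probability that `∑ x_i a_i = c` in `ZMod N`, `x` uniform in `{0,1}^ι`. -/
noncomputable def atom {ι : Type*} [Fintype ι] [DecidableEq ι] {N : ℕ} (a : ι → ZMod N)
    (c : ZMod N) : ℝ :=
  ((univ.filter (fun x : ι → Bool => ∑ i, (if x i then a i else 0) = c)).card : ℝ) /
    2 ^ Fintype.card ι

/-- `|cos (π u / N)|`. -/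
noncomputable def kap {N : ℕ} [NeZero N] (u : ZMod N) : ℝ := ‖1 + ZMod.stdAddChar u‖ / 2

lemma kap_nonneg {N : ℕ} [NeZero N] (u : ZMod N) : 0 ≤ kap u := by
  unfold kap; positivity

lemma kap_le_one {N : ℕ} [NeZero N] (u : ZMod N) : kap u ≤ 1 := by
  unfold kap
  have h : ‖(1 : ℂ) + ZMod.stdAddChar u‖ ≤ 2 := by
    refine (norm_add_le _ _).trans ?_
    rw [norm_one, AddChar.norm_apply]
    norm_num
  linarith

lemma kap_zero {N : ℕ} [NeZero N] : kap (0 : ZMod N) = 1 := by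
  unfold kap; simp; norm_num

lemma addChar_sum {A ι : Type*} [AddCommMonoid A] (ψ : AddChar A ℂ) (S : Finset ι) (f : ι → A) :
    ψ (∑ i ∈ S, f i) = ∏ i ∈ S, ψ (f i) := by
  classical
  induction S using Finset.induction_on with
  | empty => simp
  | insert i S hi ih => rw [Finset.sum_insert hi, Finset.prod_insert hi, AddChar.map_add_eq_mul, ih]

theorem atom_fourier {ι : Type*} [Fintype ι] [DecidableEq ι] {N : ℕ} [NeZero N]
    (a : ι → ZMod N) (c : ZMod N) :
    (atom a c : ℂ) = (1 / N : ℂ) * ∑ t : ZMod N, ZMod.stdAddChar (-(t * c)) *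
      ∏ i, ((1 + ZMod.stdAddChar (t * a i)) / 2) := by
  have hN : (N : ℂ) ≠ 0 := by exact_mod_cast NeZero.ne N
  have h1 : ∀ t : ZMod N, ∏ i, (1 + ZMod.stdAddChar (t * a i)) =
      ∑ x : ι → Bool, ZMod.stdAddChar (t * ∑ i, (if x i then a i else 0)) := by
    intro t
    have : ∀ i, (1 + ZMod.stdAddChar (t * a i) : ℂ) =
        ∑ b : Bool, ZMod.stdAddChar (t * (if b then a i else 0)) := by
      intro i; simp [add_comm]
    simp_rw [this]
    rw [Finset.prod_univ_sum, Fintype.piFinset_univ]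
    refine Finset.sum_congr rfl fun x _ => ?_
    rw [Finset.mul_sum]
    exact (addChar_sum _ _ _).symm
  have h2 : ∀ x : ι → Bool, (∑ t : ZMod N, ZMod.stdAddChar (-(t * c)) *
      ZMod.stdAddChar (t * ∑ i, (if x i then a i else 0)) : ℂ) =
      if ∑ i, (if x i then a i else 0) = c then (N : ℂ) else 0 := by
    intro x
    have := AddChar.sum_mulShift (ψ := (ZMod.stdAddChar : AddChar (ZMod N) ℂ))
      ((∑ i, (if x i then a i else 0)) - c) (ZMod.isPrimitive_stdAddChar N)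
    rw [ZMod.card] at this
    simp only [sub_eq_zero] at this
    have h5 : ((if (∑ i, if x i = true then a i else 0) = c then N else 0 : ℕ) : ℂ) =
        if ∑ i, (if x i then a i else 0) = c then (N : ℂ) else 0 := by
      split_ifs <;> simp
    rw [← h5, ← this]
    refine Finset.sum_congr rfl fun t _ => ?_
    rw [← AddChar.map_add_eq_mul]
    congr 1
    ring
  have h3 : (∑ t : ZMod N, ZMod.stdAddChar (-(t * c)) *
      ∏ i, ((1 + ZMod.stdAddChar (t * a i)) / 2) : ℂ) =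
      (1 / 2 ^ Fintype.card ι) * ∑ x : ι → Bool,
        (if ∑ i, (if x i then a i else 0) = c then (N : ℂ) else 0) := by
    simp_rw [← h2]
    rw [Finset.sum_comm, Finset.mul_sum]
    refine Finset.sum_congr rfl fun t _ => ?_
    rw [Finset.prod_div_distrib, h1 t]
    simp only [Finset.prod_const, Finset.card_univ]
    rw [← Finset.mul_sum]
    ring
  rw [h3]
  unfold atom
  rw [← Finset.sum_filter, Finset.sum_const, nsmul_eq_mul]
  push_cast
  field_simp

theorem atom_le_kap {ι : Type*} [Fintype ι] [DecidableEq ι] {N : ℕ} [NeZero N]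
    (a : ι → ZMod N) (c : ZMod N) :
    atom a c ≤ (1 / N : ℝ) * ∑ t : ZMod N, ∏ i, kap (t * a i) := by
  have h0 : 0 ≤ atom a c := by unfold atom; positivity
  have h := congrArg norm (atom_fourier a c)
  rw [Complex.norm_real, Real.norm_of_nonneg h0] at h
  rw [h, norm_mul]
  have hN : ‖(1 / N : ℂ)‖ = (1 / N : ℝ) := by
    rw [norm_div, norm_one, Complex.norm_natCast]
  rw [hN]
  refine mul_le_mul_of_nonneg_left ?_ (by positivity)
  refine (norm_sum_le _ _).trans (le_of_eq (Finset.sum_congr rfl fun t _ => ?_))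
  rw [norm_mul, AddChar.norm_apply, one_mul, norm_prod]
  refine Finset.prod_congr rfl fun i _ => ?_
  unfold kap
  rw [norm_div]
  norm_num

/-- Arithmetic-geometric mean inequality for products over a finite set. -/
lemma prod_le_avg {ι : Type*} (S : Finset ι) (f : ι → ℝ) (hf : ∀ i ∈ S, 0 ≤ f i)
    (hS : 0 < S.card) :
    ∏ i ∈ S, f i ≤ (1 / S.card : ℝ) * ∑ i ∈ S, f i ^ S.card := by
  have h := Real.geom_mean_le_arith_mean_weighted S (fun _ => (1 / S.card : ℝ))
    (fun i => f i ^ S.card) (fun i _ => by positivity)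
    (by rw [Finset.sum_const, nsmul_eq_mul]; field_simp)
    (fun i hi => pow_nonneg (hf i hi) _)
  have h2 : ∏ i ∈ S, (f i ^ S.card) ^ (1 / S.card : ℝ) = ∏ i ∈ S, f i := by
    refine Finset.prod_congr rfl fun i hi => ?_
    rw [one_div]
    exact Real.pow_rpow_inv_natCast (hf i hi) hS.ne'
  rw [h2] at h
  rw [Finset.mul_sum]
  exact h

theorem sum_prod_kap_le {ι : Type*} [Fintype ι] [DecidableEq ι] {N : ℕ} [NeZero N]
    (a : ι → ZMod N) (S : Finset ι) (hS : 0 < S.card) (hu : ∀ i ∈ S, IsUnit (a i)) :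
    ∑ t : ZMod N, ∏ i, kap (t * a i) ≤ ∑ u : ZMod N, kap u ^ S.card := by
  calc ∑ t : ZMod N, ∏ i, kap (t * a i)
      ≤ ∑ t : ZMod N, ∏ i ∈ S, kap (t * a i) := by
        refine Finset.sum_le_sum fun t _ => ?_
        rw [← Finset.prod_mul_prod_compl S]
        refine mul_le_of_le_one_right (Finset.prod_nonneg fun i _ => kap_nonneg _) ?_
        exact Finset.prod_le_one (fun i _ => kap_nonneg _) (fun i _ => kap_le_one _)
    _ ≤ ∑ t : ZMod N, (1 / S.card : ℝ) * ∑ i ∈ S, kap (t * a i) ^ S.card :=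
        Finset.sum_le_sum fun t _ => prod_le_avg S _ (fun i _ => kap_nonneg _) hS
    _ = (1 / S.card : ℝ) * ∑ i ∈ S, ∑ t : ZMod N, kap (t * a i) ^ S.card := by
        rw [← Finset.mul_sum, Finset.sum_comm]
    _ = (1 / S.card : ℝ) * ∑ i ∈ S, ∑ u : ZMod N, kap u ^ S.card := by
        congr 1
        refine Finset.sum_congr rfl fun i hi => ?_
        obtain ⟨w, hw⟩ := hu i hi
        rw [← hw]
        exact Fintype.sum_equiv (Units.mulRight w) _ _ (fun t => rfl)
    _ = ∑ u : ZMod N, kap u ^ S.card := by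
        rw [Finset.sum_const, nsmul_eq_mul]
        field_simp

lemma norm_one_add_exp (θ : ℝ) : ‖(1 : ℂ) + Complex.exp (θ * Complex.I)‖ = 2 * |Real.cos (θ / 2)| := by
  have h1 : ‖(1 : ℂ) + Complex.exp (θ * Complex.I)‖ ^ 2 = (2 * |Real.cos (θ / 2)|) ^ 2 := by
    rw [← Complex.normSq_eq_norm_sq, Complex.normSq_apply]
    simp only [Complex.add_re, Complex.one_re, Complex.add_im, Complex.one_im,
      Complex.exp_ofReal_mul_I_re, Complex.exp_ofReal_mul_I_im, mul_pow, sq_abs]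
    have h2 : Real.cos θ = 2 * Real.cos (θ / 2) ^ 2 - 1 := by
      rw [← Real.cos_two_mul]; congr 1; ring
    have h3 := Real.sin_sq_add_cos_sq θ
    nlinarith
  exact (pow_left_inj₀ (norm_nonneg _) (by positivity) (by norm_num)).1 h1

lemma kap_eq {N : ℕ} [NeZero N] (u : ZMod N) :
    kap u = |Real.cos (Real.pi * (u.valMinAbs : ℝ) / N)| := by
  unfold kap
  conv_lhs => rw [← ZMod.coe_valMinAbs u]
  rw [ZMod.stdAddChar_coe]
  have h1 : (2 * Real.pi * Complex.I * (u.valMinAbs : ℂ) / N : ℂ) =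
      ((2 * (Real.pi * (u.valMinAbs : ℝ) / N) : ℝ) : ℂ) * Complex.I := by
    push_cast; ring
  rw [h1, norm_one_add_exp]
  rw [mul_div_cancel_left₀ _ (two_ne_zero), mul_div_cancel_left₀ _ (two_ne_zero)]

lemma kap_le_exp {N : ℕ} [NeZero N] (u : ZMod N) :
    kap u ≤ Real.exp (-(2 * ((u.valMinAbs : ℝ) / N) ^ 2)) := by
  have hN : (0 : ℝ) < N := by exact_mod_cast NeZero.pos N
  have hu : |(u.valMinAbs : ℝ) / N| ≤ 1 / 2 := by
    rw [abs_div, abs_of_pos hN, div_le_iff₀ hN]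
    have h := ZMod.natAbs_valMinAbs_le u
    have h2 : ((u.valMinAbs.natAbs : ℕ) : ℝ) ≤ (N : ℝ) / 2 :=
      (by exact_mod_cast h : ((u.valMinAbs.natAbs : ℕ) : ℝ) ≤ ((N / 2 : ℕ) : ℝ)).trans
        Nat.cast_div_le
    have h3 : ((u.valMinAbs.natAbs : ℕ) : ℝ) = |(u.valMinAbs : ℝ)| := by
      rw [Nat.cast_natAbs]; push_cast; rfl
    rw [h3] at h2
    linarith
  set x : ℝ := (u.valMinAbs : ℝ) / N with hx
  have e1 : Real.pi * (u.valMinAbs : ℝ) / N = Real.pi * x := by rw [hx]; ring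
  rw [kap_eq, e1]
  have hpi := Real.pi_pos
  have hb : |Real.pi * x| ≤ Real.pi / 2 := by
    rw [abs_mul, abs_of_pos hpi]
    nlinarith
  have hc : 0 ≤ Real.cos (Real.pi * x) := Real.cos_nonneg_of_mem_Icc (abs_le.1 hb |>.imp id id)
  rw [abs_of_nonneg hc]
  have h : Real.cos (Real.pi * x) ≤ 1 - 2 * x ^ 2 := by
    have h5 : Real.cos (Real.pi * x) = 1 - 2 * Real.sin (Real.pi * |x| / 2) ^ 2 := by
      rw [← Real.cos_abs (Real.pi * x), abs_mul, abs_of_pos hpi]
      have := Real.cos_two_mul (Real.pi * |x| / 2)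
      rw [Real.cos_sq'] at this
      rw [show Real.pi * |x| = 2 * (Real.pi * |x| / 2) by ring, this]
      ring_nf
    have h6 := Real.mul_le_sin (x := Real.pi * |x| / 2) (by positivity) (by nlinarith [abs_nonneg x])
    have h7 : 2 / Real.pi * (Real.pi * |x| / 2) = |x| := by field_simp
    rw [h7] at h6
    have h8 : |x| ^ 2 ≤ Real.sin (Real.pi * |x| / 2) ^ 2 := pow_le_pow_left₀ (abs_nonneg x) h6 2
    rw [sq_abs] at h8
    rw [h5]
    linarith
  refine h.trans ?_
  have := Real.add_one_le_exp (-(2 * x ^ 2))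
  linarith

lemma sum_valMinAbs_le {N : ℕ} [NeZero N] (F : ℤ → ℝ) (hF : ∀ z, 0 ≤ F z) :
    ∑ u : ZMod N, F u.valMinAbs ≤ ∑ z ∈ Finset.Icc (-((N / 2 : ℕ) : ℤ)) ((N / 2 : ℕ) : ℤ), F z := by
  classical
  have hinj : Function.Injective (ZMod.valMinAbs : ZMod N → ℤ) := ZMod.injective_valMinAbs
  rw [← Finset.sum_image (s := Finset.univ) (g := (ZMod.valMinAbs : ZMod N → ℤ)) (f := F)
    (fun a _ b _ h => hinj h)]
  refine Finset.sum_le_sum_of_subset_of_nonneg ?_ (fun z _ _ => hF z)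
  intro z hz
  obtain ⟨u, _, rfl⟩ := Finset.mem_image.1 hz
  have h := ZMod.natAbs_valMinAbs_le u
  rw [Finset.mem_Icc]
  omega

lemma sum_Icc_symm (K : ℕ) (f : ℕ → ℝ) :
    ∑ z ∈ Finset.Icc (-(K : ℤ)) (K : ℤ), f z.natAbs = f 0 + 2 * ∑ k ∈ Finset.range K, f (k + 1) := by
  induction K with
  | zero => simp
  | succ K ih =>
    have h : Finset.Icc (-((K + 1 : ℕ) : ℤ)) ((K + 1 : ℕ) : ℤ) =
        insert (((K + 1 : ℕ) : ℤ)) (insert (-((K + 1 : ℕ) : ℤ)) (Finset.Icc (-(K : ℤ)) (K : ℤ))) := by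
      ext z
      simp only [Finset.mem_Icc, Finset.mem_insert]
      omega
    rw [h, Finset.sum_insert, Finset.sum_insert, ih, Finset.sum_range_succ]
    · rw [Int.natAbs_neg, Int.natAbs_natCast]; ring
    · simp only [Finset.mem_Icc]; omega
    · simp only [Finset.mem_Icc, Finset.mem_insert]; omega

lemma sum_exp_le {b : ℝ} (hb : 0 < b) (K : ℕ) :
    ∑ k ∈ Finset.range K, Real.exp (-b * ((k + 1 : ℕ) : ℝ) ^ 2) ≤ Real.sqrt (Real.pi / b) / 2 := by
  have hanti : AntitoneOn (fun x : ℝ => Real.exp (-b * x ^ 2)) (Set.Icc (0 : ℝ) (0 + K)) := by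
    intro x hx y hy hxy
    refine Real.exp_le_exp.2 ?_
    have : x ^ 2 ≤ y ^ 2 := pow_le_pow_left₀ hx.1 hxy 2
    nlinarith
  have h := AntitoneOn.sum_le_integral hanti
  simp only [zero_add] at h
  refine h.trans ?_
  rw [← integral_gaussian_Ioi b, intervalIntegral.integral_of_le (Nat.cast_nonneg K)]
  refine MeasureTheory.setIntegral_mono_set ?_ ?_ ?_
  · exact (integrable_exp_neg_mul_sq hb).integrableOn
  · exact Filter.Eventually.of_forall fun x => (Real.exp_pos _).le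
  · exact (Set.Ioc_subset_Ioi_self).eventuallyLE

theorem sum_kap_pow_le {N : ℕ} [NeZero N] {s : ℕ} (hs : 0 < s) :
    ∑ u : ZMod N, kap u ^ s ≤ 1 + N * (3 / 2 / Real.sqrt s) := by
  have hN : (0 : ℝ) < N := by exact_mod_cast NeZero.pos N
  have hs' : (0 : ℝ) < s := by exact_mod_cast hs
  set b : ℝ := 2 * s / N ^ 2 with hb
  have hb0 : 0 < b := by positivity
  have h1 : ∑ u : ZMod N, kap u ^ s ≤
      ∑ u : ZMod N, (fun z : ℤ => Real.exp (-b * ((z.natAbs : ℕ) : ℝ) ^ 2)) u.valMinAbs := by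
    refine Finset.sum_le_sum fun u _ => ?_
    refine (pow_le_pow_left₀ (kap_nonneg u) (kap_le_exp u) s).trans (le_of_eq ?_)
    rw [← Real.exp_nat_mul]
    congr 1
    have h3 : ((u.valMinAbs.natAbs : ℕ) : ℝ) ^ 2 = (u.valMinAbs : ℝ) ^ 2 := by
      rw [Nat.cast_natAbs]; push_cast; rw [sq_abs]
    rw [h3, hb]
    field_simp
  refine h1.trans ((sum_valMinAbs_le
    (fun z : ℤ => Real.exp (-b * ((z.natAbs : ℕ) : ℝ) ^ 2)) (fun z => (Real.exp_pos _).le)).trans ?_)
  have h2 := sum_Icc_symm (N / 2) (fun k => Real.exp (-b * (k : ℝ) ^ 2))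
  rw [h2]
  have h3 := sum_exp_le hb0 (N / 2)
  have h4 : Real.sqrt (Real.pi / b) ≤ N * (3 / 2 / Real.sqrt s) := by
    rw [show N * (3 / 2 / Real.sqrt s) = Real.sqrt ((N : ℝ) ^ 2 * (9 / 4) / s) by
      rw [Real.sqrt_div (by positivity), Real.sqrt_mul (by positivity), Real.sqrt_sq hN.le,
        show (9 / 4 : ℝ) = (3 / 2) ^ 2 by norm_num, Real.sqrt_sq (by norm_num)]
      ring]
    refine Real.sqrt_le_sqrt ?_
    rw [hb]
    have hpi := Real.pi_lt_d2
    rw [div_div_eq_mul_div, div_le_div_iff₀ (by positivity) hs']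
    have : Real.pi * (N : ℝ) ^ 2 * s ≤ (9 / 2) * (N : ℝ) ^ 2 * s := by
      have : 0 ≤ (N : ℝ) ^ 2 * s := by positivity
      nlinarith
    linarith
  simp only [Nat.cast_zero, ne_eq, OfNat.ofNat_ne_zero, not_false_eq_true, zero_pow, mul_zero,
    Real.exp_zero]
  have h5 : ∑ k ∈ Finset.range (N / 2), Real.exp (-b * ((k + 1 : ℕ) : ℝ) ^ 2) ≤
      Real.sqrt (Real.pi / b) / 2 := h3
  linarith

/-- Littlewood-Offord modulo `N`: if the coordinates in `S` are units, the atoms are at most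
`1 / N + 3 / (2 √|S|)`. -/
theorem atom_le {ι : Type*} [Fintype ι] [DecidableEq ι] {N : ℕ} [NeZero N]
    (a : ι → ZMod N) (c : ZMod N) (S : Finset ι) (hS : 0 < S.card) (hu : ∀ i ∈ S, IsUnit (a i)) :
    atom a c ≤ 1 / N + 3 / 2 / Real.sqrt S.card := by
  have hN : (0 : ℝ) < N := by exact_mod_cast NeZero.pos N
  refine (atom_le_kap a c).trans ?_
  refine (mul_le_mul_of_nonneg_left ((sum_prod_kap_le a S hS hu).trans (sum_kap_pow_le hS))
    (by positivity)).trans (le_of_eq ?_)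
  field_simp

/-- Near equidistribution modulo `N`: if the coordinates in `S` are units, every atom is at most
`1 / N + exp (-2 |S| / N ^ 2)`. -/
theorem atom_le_exp {ι : Type*} [Fintype ι] [DecidableEq ι] {N : ℕ} [NeZero N]
    (a : ι → ZMod N) (c : ZMod N) (S : Finset ι) (hS : 0 < S.card) (hu : ∀ i ∈ S, IsUnit (a i)) :
    atom a c ≤ 1 / N + Real.exp (-(2 * S.card / (N : ℝ) ^ 2)) := by
  have hN : (0 : ℝ) < N := by exact_mod_cast NeZero.pos N
  refine (atom_le_kap a c).trans ?_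
  refine (mul_le_mul_of_nonneg_left (sum_prod_kap_le a S hS hu) (by positivity)).trans ?_
  have h1 : ∑ u : ZMod N, kap u ^ S.card ≤ 1 + N * Real.exp (-(2 * S.card / (N : ℝ) ^ 2)) := by
    classical
    rw [← Finset.add_sum_erase _ _ (Finset.mem_univ (0 : ZMod N)), kap_zero, one_pow]
    have h2 : ∀ u ∈ Finset.univ.erase (0 : ZMod N),
        kap u ^ S.card ≤ Real.exp (-(2 * S.card / (N : ℝ) ^ 2)) := by
      intro u hu0
      have hu1 : u ≠ 0 := (Finset.mem_erase.1 hu0).1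
      have hv : u.valMinAbs ≠ 0 := by rwa [Ne, ZMod.valMinAbs_eq_zero]
      refine (pow_le_pow_left₀ (kap_nonneg u) (kap_le_exp u) _).trans ?_
      rw [← Real.exp_nat_mul]
      refine Real.exp_le_exp.2 ?_
      have h3 : (1 : ℝ) ≤ (u.valMinAbs : ℝ) ^ 2 := by
        have : (1 : ℤ) ≤ u.valMinAbs ^ 2 := by
          have := sq_nonneg u.valMinAbs
          have h0 : u.valMinAbs ^ 2 ≠ 0 := pow_ne_zero 2 hv
          omega
        exact_mod_cast this
      rw [div_pow]
      have h4 : (1 : ℝ) / (N : ℝ) ^ 2 ≤ (u.valMinAbs : ℝ) ^ 2 / (N : ℝ) ^ 2 :=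
        div_le_div_of_nonneg_right h3 (by positivity)
      have h5 : (0 : ℝ) ≤ S.card := Nat.cast_nonneg _
      have h6 : 2 * (S.card : ℝ) / (N : ℝ) ^ 2 = S.card * (2 * (1 / (N : ℝ) ^ 2)) := by ring
      rw [h6]
      nlinarith
    have h7 := Finset.sum_le_sum h2
    rw [Finset.sum_const, nsmul_eq_mul] at h7
    have h8 : ((Finset.univ.erase (0 : ZMod N)).card : ℝ) ≤ N := by
      have : (Finset.univ.erase (0 : ZMod N)).card ≤ N := by
        rw [Finset.card_erase_of_mem (Finset.mem_univ _), Finset.card_univ, ZMod.card]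
        omega
      exact_mod_cast this
    have h9 := mul_le_mul_of_nonneg_right h8 (Real.exp_pos (-(2 * S.card / (N : ℝ) ^ 2))).le
    linarith
  refine (mul_le_mul_of_nonneg_left h1 (by positivity)).trans (le_of_eq ?_)
  field_simp

end Vale.Agent.P160.Half.LOq
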