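import Vale.Agent.P160.Half.Corank
import Vale.Agent.P160.Half.LOq

/-! # P160, half rate: gap (G), statements, part 1 (helper667, after helper310's note 10294)

A prover delivers the theorem named in the task in `Vale/Agent/P160/Half/<File>.lean`, importing this file and landed files, with other
statements only as hypotheses. Small changes of polynomial factors are allowed (tell helper667). -/

open Finset Matrix

namespace Vale.Agent.P160.Half.G

/-- 0/1 dot product -/
def bdot {R ι : Type*} [CommRing R] [Fintype ι] (x : ι → Bool) (w : ι → R) : R := ∑ i, if x i then w i else 0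

/-- the integer matrix of a family of bits -/
def fm {α β : Type*} (f : α → β → Bool) : Matrix α β ℤ := fun i j => if f i j then 1 else 0

/-- **G1 ROWS** (file `Rows.lean`, theorem `rows : RowsStmt`). PROOF. Induction on the number of rows, `U` generalised. If no `w ∈ U` is heavy the
count is `0`. Otherwise choose a heavy `w_U ∈ U` (depends only on `U`). For the first row `x` let `U_x = {w ∈ U : bdot x w = 0}`. Either `U_x = U`
(then `bdot x w_U = 0`: at most `q 2^|ι|` rows) or `ℓ U_x < ℓ U`. So `c(N,k) ≤ q T c(N-1,k) + T c(N-1,k-1)`, `T = 2^|ι|`, hence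
`c(N,k) ≤ T^N ∑_{j ≤ k} C(N,j) q^{N-j}`. -/
def RowsStmt : Prop := ∀ (R ι σ : Type) [CommRing R] [Fintype ι] [DecidableEq ι] [Fintype σ] [DecidableEq σ] (hv : (ι → R) → Prop)
  (ℓ : Submodule R (ι → R) → ℕ) (q : ℝ), (∀ U V, V < U → ℓ V < ℓ U) → 0 ≤ q → q ≤ 1 →
  (∀ w, hv w → (Nat.card {x : ι → Bool // bdot x w = 0} : ℝ) ≤ q * 2 ^ Fintype.card ι) →
  ∀ (U : Submodule R (ι → R)) (k : ℕ), ℓ U ≤ k →
  (Nat.card {x : σ → ι → Bool // ∃ w ∈ U, hv w ∧ ∀ s, bdot (x s) w = 0} : ℝ) ≤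
    2 ^ Fintype.card σ * q ^ (Fintype.card σ - k) * 2 ^ (Fintype.card ι * Fintype.card σ)

/-- **G2 CORE** (file `Core.lean`, theorem `core : RowsStmt → CoreStmt`): fixed block `E`, random rows, all primes `p ≥ y` at once. PROOF. If `[E; x]` has
trivial kernel over `ℚ` choose `S₁ ⊆ σ`, `|S₁| ≤ k`, such that `[E; x_{S₁}]` has trivial kernel over `ℚ` (greedily: each row lowers the rational kernel
of `E`, whose dimension is `≤ k`). A nonzero `|ι|`-minor of a 0/1 matrix is `≤ |ι|!`, so at most `|ι|²` primes divide it; every `p` as in the event is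
one of them (`hv p w` implies `w ≠ 0`). For fixed `S₁`, fixed rows `x_{S₁}` and fixed `p`: G1 for the rows in `σ \ S₁` and `U = ker_p E`
(`R = ZMod p`, `ℓ = finrank`). Sum over `S₁` (`≤ 2^|σ|`) and `p`. -/
def CoreStmt : Prop := ∀ (τ ι σ : Type) [Fintype τ] [DecidableEq τ] [Fintype ι] [DecidableEq ι] [Fintype σ] [DecidableEq σ]
  (E : Matrix τ ι ℤ) (y k : ℕ) (hv : ∀ p : ℕ, (ι → ZMod p) → Prop) (q : ℝ), (∀ i j, E i j = 0 ∨ E i j = 1) → 0 ≤ q → q ≤ 1 →
  (∀ p w, hv p w → w ≠ 0) →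
  (∀ p, p.Prime → y ≤ p → ∀ w, hv p w → (Nat.card {x : ι → Bool // bdot x w = 0} : ℝ) ≤ q * 2 ^ Fintype.card ι) →
  (∀ p, p.Prime → y ≤ p → Fintype.card ι ≤ (E.map (Int.cast : ℤ → ZMod p)).rank + k) →
  Fintype.card ι ≤ (E.map (Int.cast : ℤ → ℚ)).rank + k →
  (Nat.card {x : σ → ι → Bool // (∀ w : ι → ℚ, E.map (Int.cast : ℤ → ℚ) *ᵥ w = 0 → (∀ s, bdot (x s) w = 0) → w = 0) ∧
    ∃ p, p.Prime ∧ y ≤ p ∧ ∃ w : ι → ZMod p, hv p w ∧ E.map (Int.cast : ℤ → ZMod p) *ᵥ w = 0 ∧ ∀ s, bdot (x s) w = 0} : ℝ) ≤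
    (Fintype.card ι : ℝ) ^ 2 * 4 ^ Fintype.card σ * q ^ (Fintype.card σ - 2 * k) * 2 ^ (Fintype.card ι * Fintype.card σ)

/-- **G3 NS** (file `NoSp.lean`, theorem `ns : CoreStmt → NSStmt`): no sparse kernel vector of `P` modulo a prime `p ≥ y`. PROOF. Let `S = supp g`, `s = |S|`
(a support, so all coordinates of `g_S` are nonzero). If `s ≤ s₀`: all `s`-minors of the columns `S` vanish mod `p` and are `≤ s! < y ≤ p`, so they
vanish, the columns are dependent over `ℚ`, `det = 0`. If `s₀ < s ≤ t`: G2 with `ι = S`, `E = P_SS`, random rows `(P_{i,S})_{i ∉ S}`, `k = s`, `hv` = all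
coordinates nonzero, `LOq.atom_le`. Sum over `S` (`≤ 2^m`) and over the bits outside the block `Sᶜ × S`. -/
def NSStmt : Prop := ∀ (α : Type) [Fintype α] [DecidableEq α] (y s₀ t : ℕ) (q : ℝ), s₀.factorial < y →
  q = 1 / y + 3 / 2 / Real.sqrt (s₀ + 1) → q ≤ 1 →
  (Nat.card {b : Sym2 α → Bool // (matZ b).det ≠ 0 ∧ ∃ p, p.Prime ∧ y ≤ p ∧ ∃ g : α → ZMod p, g ≠ 0 ∧
    (matZ b).map (Int.cast : ℤ → ZMod p) *ᵥ g = 0 ∧ (univ.filter fun i => g i ≠ 0).card ≤ t} : ℝ) ≤
    ((t : ℝ) + 1) ^ 2 * 8 ^ Fintype.card α * q ^ (Fintype.card α - 3 * t) * 2 ^ Fintype.card (Sym2 α)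

/-- `(g, c)` is a word of `[P F]` over `R` -/
def Word (R : Type*) [CommRing R] {α β : Type*} [Fintype α] [Fintype β] (P : Matrix α α ℤ) (F : Matrix α β ℤ) (g : α → R) (c : β → R) :
    Prop := P.map (Int.cast : ℤ → R) *ᵥ g + F.map (Int.cast : ℤ → R) *ᵥ c = 0

section defs

variable {α β : Type*} [Fintype α] [Fintype β] [DecidableEq α] [DecidableEq β]

/-- no sparse word modulo a prime `p ≥ y` -/
def NoSparse (P : Matrix α α ℤ) (F : Matrix α β ℤ) (y t : ℕ) : Prop :=
  ∀ p, p.Prime → y ≤ p → ∀ (g : α → ZMod p) (c : β → ZMod p), Word (ZMod p) P F g c → (g ≠ 0 ∨ c ≠ 0) →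
    t < (univ.filter fun i => g i ≠ 0).card

/-- no sparse integral word -/
def NoSparseZ (P : Matrix α α ℤ) (F : Matrix α β ℤ) (t : ℕ) : Prop :=
  ∀ (g : α → ℤ) (c : β → ℤ), Word ℤ P F g c → (g ≠ 0 ∨ c ≠ 0) → t < (univ.filter fun i => g i ≠ 0).card

/-- coranks of all principal submatrices are `< k`, modulo all primes -/
def CorLt (P : Matrix α α ℤ) (k : ℕ) : Prop :=
  ∀ (p : ℕ), p.Prime → ∀ T : Finset α, T.card < (prin (P.map (Int.cast : ℤ → ZMod p)) T).rank + k

/-- primitive word modulo `p ^ a` (some coordinate is a unit) -/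
def Prim {p a : ℕ} (g : α → ZMod (p ^ a)) (c : β → ZMod (p ^ a)) : Prop := (∃ i, IsUnit (g i)) ∨ ∃ j, IsUnit (c j)

/-- zero counts: primitive words modulo `p ^ e` (`e = 1` for `p ≥ y`, `e = a` for `p < y`) have fewer than `z` zero coordinates -/
def KZ (P : Matrix α α ℤ) (F : Matrix α β ℤ) (y a z : ℕ) : Prop :=
  ∀ p, p.Prime → ∀ (g : α → ZMod (p ^ if y ≤ p then 1 else a)) (c : β → ZMod (p ^ if y ≤ p then 1 else a)),
    Word _ P F g c → Prim g c → (univ.filter fun i => g i = 0).card < z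

end defs

/-- **G3b** (file `NoSp.lean`, theorem `nsz : NSZStmt`): a sparse integral word, made primitive, is a sparse word modulo any prime. -/
def NSZStmt : Prop := ∀ (α β : Type) [Fintype α] [Fintype β] [DecidableEq α] [DecidableEq β] (P : Matrix α α ℤ) (F : Matrix α β ℤ) (y t : ℕ),
  NoSparse P F y t → NoSparseZ P F t

/-- **G4 KZ1** (file `KZ1.lean`, theorem `kz1 : RowsStmt → CoreStmt → NSZStmt → KZ1Stmt`): zero counts for the primes `p ≥ y`. PROOF. Let `S`, `|S| = z`, be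
contained in the zero set of `g`, `T` its complement, `ι = T ⊕ β`, `E = [P_TT F_T]`, random rows `(P_{s,T}, F_s)_{s ∈ S}` (independent uniform in `{0,1}^ι`,
independent of `E` and `P_SS`), `hv p (g_T, c)` = nonzero and `|supp g_T| > t`; `q` = atom (`LOq.atom_le` on `supp g_T`, condition on the rest). `NoSparse`: every
nonzero word mod `p ≥ y` vanishing on `S` is heavy. `dim ker_p E ≤ k + |β|` (`CorLt`). (i) If `[E; x]` has a rational kernel vector, its primitive
multiple is a heavy word mod one fixed prime `p₀ ≥ y`: G1 for `p₀`. (ii) otherwise G2 (the rational corank of `E` is at most the corank mod `p₀`).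
Sum over `S` (`≤ 2^m`). -/
def KZ1Stmt : Prop := ∀ (α β : Type) [Fintype α] [Fintype β] [DecidableEq α] [DecidableEq β] (y t z k : ℕ) (q : ℝ), 2 ≤ y →
  q = 1 / y + 3 / 2 / Real.sqrt (t + 1) → q ≤ 1 →
  (Nat.card {bf : (Sym2 α → Bool) × (α → β → Bool) // CorLt (matZ bf.1) k ∧ NoSparse (matZ bf.1) (fm bf.2) y t ∧
    ∃ p, p.Prime ∧ y ≤ p ∧ ∃ (g : α → ZMod p) (c : β → ZMod p), Word _ (matZ bf.1) (fm bf.2) g c ∧ (g ≠ 0 ∨ c ≠ 0) ∧
      z ≤ (univ.filter fun i => g i = 0).card} : ℝ) ≤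
    3 * ((Fintype.card α : ℝ) + Fintype.card β) ^ 2 * 8 ^ Fintype.card α * q ^ (z - 2 * (k + Fintype.card β)) *
      2 ^ (Fintype.card (Sym2 α) + Fintype.card α * Fintype.card β)

/-- **G5 LOPP** (file `LOpp.lean`, theorem `lopp : LOppStmt`): Littlewood–Offord modulo a prime power by levels. PROOF. Level of `j` = `v_p(u_j) = i < a - s`. If
`≥ L` levels are nonempty, choose one coordinate per level and fix the other bits: the chosen bits are determined one after the other (lowest level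
first), so the atom is `≤ 2^{-L}`. Otherwise some level `i` has `≥ t/L` coordinates; fix the other bits and read the equation modulo `p^{i+s}`, divide by
`p^i`: `LOq.atom_le` with `N = p^s` and unit coordinates. -/
def LOppStmt : Prop := ∀ (ι : Type) [Fintype ι] [DecidableEq ι] (p a s L t : ℕ), p.Prime → s ≤ a → 1 ≤ L → 1 ≤ t →
  ∀ (u : ι → ZMod (p ^ a)) (c : ZMod (p ^ a)), t ≤ Nat.card {j // ¬ ((p : ZMod (p ^ a)) ^ (a - s) ∣ u j)} →
    LOq.atom u c ≤ max ((1 / 2) ^ L) (1 / (p : ℝ) ^ s + 3 / 2 / Real.sqrt (t / L))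

/-- **G6 KZA** (file `KZA.lean`, theorem `kza : RowsStmt → LOppStmt → KZAStmt`): zero counts modulo `p ^ a` for the primes `p < y`. PROOF. Let `(g, c)` be a primitive
word mod `p^a`. Its reduction mod `p^{a-s}` has `g`-support `> t`: otherwise the columns `supp ∪ β` (at most `t + |β|` of them) are independent over `ℚ`
(`NoSparseZ`), some maximal minor is nonzero and `≤ (t+|β|)!`, and it is divisible by `p^{a-s} ≥ 2^{a-s}` (a primitive vector is in the kernel mod
`p^{a-s}`): contradiction. So all primitive words vanishing on `S` (`|S| = z`) are heavy, atom `≤ q` by G5. Rows `s ∈ S` as in G4; G1 with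
`R = ZMod (p^a)`, `ℓ U = log_p |U|`, `|ker E| ≤ p^{a (k+|β|)}` (`ker` of a matrix of corank `≤ k + |β|` mod `p`: the solutions mod `p^a` of a system with an
invertible `rank`-minor are determined by the remaining coordinates). Sum over `S` and `p < y`. -/
def KZAStmt : Prop := ∀ (α β : Type) [Fintype α] [Fintype β] [DecidableEq α] [DecidableEq β] (y a s L t z k : ℕ) (q : ℝ), s ≤ a → 1 ≤ L → 1 ≤ t →
  (t + Fintype.card β).factorial < 2 ^ (a - s) → q = max ((1 / 2) ^ L) (1 / (2 : ℝ) ^ s + 3 / 2 / Real.sqrt (t / L)) → q ≤ 1 →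
  (Nat.card {bf : (Sym2 α → Bool) × (α → β → Bool) // CorLt (matZ bf.1) k ∧ NoSparseZ (matZ bf.1) (fm bf.2) t ∧
    ∃ p, p.Prime ∧ p < y ∧ ∃ (g : α → ZMod (p ^ a)) (c : β → ZMod (p ^ a)), Word _ (matZ bf.1) (fm bf.2) g c ∧ Prim g c ∧
      z ≤ (univ.filter fun i => g i = 0).card} : ℝ) ≤
    y * 4 ^ Fintype.card α * q ^ (z - a * (k + Fintype.card β)) *
      2 ^ (Fintype.card (Sym2 α) + Fintype.card α * Fintype.card β)

end Vale.Agent.P160.Half.G
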