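import Vale.Agent.P160.Half.HalfBal505
import Vale.Agent.P160.Half.GStmt

/-! # P160, half rate, block (M), part M8 (last row): definitions and interface statements.

Paper: helper832's note 11023 (5), helper624's 10755, helper537.  Law of `Ξ` as in `HalfBal505`: seeds in
`Fin (8k)`, entries `stL (2k-1)`. -/

set_option linter.unusedVariables false

namespace Vale.Agent.P160.Half.M8

open Finset Matrix Vale.Agent.P160 Vale.Agent.P160.Half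

/-- `u` is non-zero modulo every prime divisor of `N` -/
def Unim {ι : Type*} (N : ℕ) (u : ι → ZMod N) : Prop :=
  ∀ p : ℕ, p.Prime → p ∣ N → ∃ i, ((u i).cast : ZMod p) ≠ 0

/-- all atoms of `x ↦ x · u`, `x` uniform in `{0,1}^ι`, are `≤ K / N` -/
def AtomLe {ι : Type*} [Fintype ι] (N : ℕ) (K : ℝ) (u : ι → ZMod N) : Prop :=
  ∀ a : ZMod N, (Nat.card {x : ι → Bool // G.bdot x u = a} : ℝ) * N ≤ K * 2 ^ Fintype.card ι

/-- the (rectangular) matrix with seeds `ω` is flat modulo every divisor `q` of `N`: every kernel vector modulo `q`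
which is non-zero modulo all primes `p ∣ q` has all atoms `≤ 2 / q` -/
def FlatX {α β : Type*} [Fintype α] [Fintype β] (N L : ℕ) {M : ℕ} (ω : β → α → Fin M) : Prop :=
  ∀ q : ℕ, q ∣ N → ∀ w : α → ZMod q, Unim q w → (∀ i, gwL L (ω i) w = 0) → AtomLe q 2 w

/-- number of kernel vectors modulo `N` -/
noncomputable def kerN {α β : Type*} (N L : ℕ) [Fintype α] {M : ℕ} (ω : β → α → Fin M) : ℕ :=
  Nat.card {x : α → ZMod N // ∀ i, gwL L (ω i) x = 0}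

open Classical in
/-- **INTERFACE WITH M6/M7**: second moment of the kernel on the non-flat event; primes in `[k ^ b₁, k ^ B]`
(`b₁ = 2`, or slightly smaller) -/
def StmtXi (b₁ β c B : ℝ) : Prop := ∃ k₀ : ℕ, ∀ k ≥ k₀, ∀ N : ℕ, Squarefree N →
  (∀ p, p.Prime → p ∣ N → (k : ℝ) ^ b₁ ≤ p ∧ (p : ℝ) ≤ (k : ℝ) ^ B) → (N : ℝ) ≤ (2 : ℝ) ^ (β * k) →
  ∑ ω ∈ (univ : Finset (Fin k → Fin k → Fin (8 * k))).filter (fun ω =>
      ¬ (FlatX N (2 * k - 1) ω ∧ FlatX N (2 * k - 1) (fun i j => ω j i))),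
    (kerN N (2 * k - 1) ω : ℝ) ^ 2 ≤ (2 : ℝ) ^ (-(c * k)) * ((8 * k : ℕ) : ℝ) ^ (k * k)

/-- every kernel vector of `S_b` modulo `N` which is non-zero modulo all `p ∣ N` has all atoms `≤ 4 / N` -/
def GoodSym {ι : Type*} [Fintype ι] (N : ℕ) (b : Sym2 ι → Bool) : Prop :=
  ∀ u : ι → ZMod N, Unim N u → smul2 b u = 0 → AtomLe N 4 u

/-- **KEY** (file `M8Key.lean`, theorem `Vale.Agent.P160.Half.M8.key : KeyStmt`): PROOF. `q` = product of the primes `p ∣ N` with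
`u_D ≠ 0 mod p`, `r = N / q`, coprime. `u_D` is `Unim` modulo `q`, `u_{Dᶜ}` is `Unim` modulo `r`. Condition on `x_{Dᶜ}`:
`#{x : x·u = a} ≤ ∑_{x_{Dᶜ} : x_{Dᶜ}·u_{Dᶜ} = a mod r} #{x_D : x_D·u_D = a - x_{Dᶜ}·u_{Dᶜ} mod q} ≤ (2 2^{|Dᶜ|}/r) (2 2^{|D|}/q)`. -/
def KeyStmt : Prop := ∀ (ι : Type) [Fintype ι] [DecidableEq ι] (D : Finset ι) (N L M : ℕ), Squarefree N →
  ∀ (ω : {i // i ∉ D} → {i // i ∈ D} → Fin M), FlatX N L ω → FlatX N L (fun i j => ω j i) →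
  ∀ u : ι → ZMod N, Unim N u → (∀ i, gwL L (ω i) (fun j : {i // i ∈ D} => u j) = 0) →
    (∀ j, gwL L (fun i => ω i j) (fun i : {i // i ∉ D} => u i) = 0) → AtomLe N 4 u

/-- **EVEN** (file `M8Even.lean`, `theorem even : KeyStmt → EvenStmt`). PROOF. `sum_SprA_le_bal` with `V` = the unimodular `u` which are not
`AtomLe N 4`; KEY: only non-flat `ω` contribute, `#{...} ≤ #ker Ξ · #ker Ξᵀ`; Cauchy–Schwarz, symmetry of the law and reindexing. -/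
def EvenStmt : Prop := ∀ (k N : ℕ), 0 < k → Squarefree N → ∀ [NeZero N] (W : ℝ),
  (open Classical in ∑ ω ∈ (univ : Finset (Fin k → Fin k → Fin (8 * k))).filter (fun ω =>
      ¬ (FlatX N (2 * k - 1) ω ∧ FlatX N (2 * k - 1) (fun i j => ω j i))),
    (kerN N (2 * k - 1) ω : ℝ) ^ 2 ≤ W * ((8 * k : ℕ) : ℝ) ^ (k * k)) →
  ∀ (ι : Type) [Fintype ι] [DecidableEq ι], Fintype.card ι = 2 * k → ∀ w : (ι → ZMod N) → ι → ZMod N,
    (open Classical in ∑ u ∈ univ.filter (fun u : ι → ZMod N => Unim N u ∧ ¬ AtomLe N 4 u), SprA u (w u)) ≤ W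

/-- **MOM** (file `M8Mom.lean`, `theorem mom : EvenStmt → MomStmt`), every size: for `card ι = 2k` and `card ι + 1 = 2k`.
PROOF. even size: `φ(N)` unit multiples of one bad `u`. Odd size: `Option ι`, `ũ = (0, u)`, `P(S̃ ũ = (a, 0)) = P(S u = 0) P(x·u = a) ≥ P(S u = 0) 4/N`. -/
def MomStmt : Prop := ∀ (k N : ℕ), 0 < k → Squarefree N → ∀ [NeZero N] (W : ℝ), 0 ≤ W →
  (open Classical in ∑ ω ∈ (univ : Finset (Fin k → Fin k → Fin (8 * k))).filter (fun ω =>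
      ¬ (FlatX N (2 * k - 1) ω ∧ FlatX N (2 * k - 1) (fun i j => ω j i))),
    (kerN N (2 * k - 1) ω : ℝ) ^ 2 ≤ W * ((8 * k : ℕ) : ℝ) ^ (k * k)) →
  ∀ (ι : Type) [Fintype ι] [DecidableEq ι], (Fintype.card ι = 2 * k ∨ Fintype.card ι + 1 = 2 * k) →
    (Nat.card {b : Sym2 ι → Bool // ¬ GoodSym N b} : ℝ) * Nat.totient N ≤ N * W * 2 ^ Fintype.card (Sym2 ι)

/-- **NOT GOOD** (file `M8Mom.lean`): few symmetric matrices are not good for some `N` in the window.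
`Σ_N 1/φ(N) ≤ 2 n^B`. -/
def NotGoodStmt : Prop := ∀ b₁ β c B δ : ℝ, 1 < b₁ → 0 < β → 0 < c → 1 ≤ B → 0 < δ → StmtXi b₁ (2 * β + δ) c (B + 1) →
  ∃ n₀ : ℕ, ∀ n ≥ n₀, ∀ (ι : Type) [Fintype ι] [DecidableEq ι], Fintype.card ι = n →
    (Nat.card {b : Sym2 ι → Bool // ∃ N : ℕ, Squarefree N ∧ (∀ p, p.Prime → p ∣ N → (n : ℝ) ^ b₁ ≤ p ∧ (p : ℝ) ≤ (n : ℝ) ^ B) ∧
      (2 : ℝ) ^ (β * n) ≤ N ∧ (N : ℝ) ≤ (2 : ℝ) ^ (β * n) * (n : ℝ) ^ B ∧ ¬ GoodSym N b} : ℝ) ≤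
      (2 : ℝ) ^ (-((c / 2 - β - δ) * n)) * 2 ^ Fintype.card (Sym2 ι)

end Vale.Agent.P160.Half.M8
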