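import Vale.Agent.P160.Half.FlatI
import Vale.Agent.P160.Half.M8Def

/-! # P160, half rate, block (M), parts M6 + M7: the second moment of the kernel on the non flat event

GOAL: `M8.StmtXi b₁ β c B` (interface of `M8Def.lean`) for `1 ≤ b₁`, `β ≤ .088`, `c < 1 - 5 β`.
Text: helper502's note 11331 (SCHEME H+S+HOLDER); here the outer law is the one of `HalfBal505`, the law
`(1/4,1/2,1/4)` (= `xi` of two fair bits) is used only on the bad event, and the recursion in the number of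
columns is replaced by `#ker (M without a column) ≤ #ker M` (self bounding at size `k`).

`W P M = ∏_{p ∈ P} p^(2 corank_p M) = #{z ∈ G^m : M z = 0}`, `G = (ℤ/N)²`, `N = ∏ P`.
`Sparse` (a): some nonzero kernel vector modulo some `p ∈ P` has support `< s`; `SpB` (b): the real version.
`Bad`: some kernel tuple `z ∈ G^m`, spread (`NonSp s`) in the group `H_z` it generates, has
`gZ 8 z > 1 + 1/k`.  `s = k^(1 - δ/4)`. -/

set_option linter.unusedVariables false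

namespace Vale.Agent.P160.Half.M67

open Finset Vale.Agent.P160 Vale.Agent.P160.Half Vale.Agent.P160.Half.Flat

/-- difference of two bits: law `(1/4, 1/2, 1/4)` -/
def xi (b : Bool × Bool) : ℤ := (if b.1 then 1 else 0) - (if b.2 then 1 else 0)

/-- integer matrix with seeds `ω` and entry map `e` -/
def mt {Ω : Type} (e : Ω → ℤ) {k m : ℕ} (ω : Fin k → Fin m → Ω) : Matrix (Fin k) (Fin m) ℤ :=
  fun i j => e (ω i j)

/-- rank modulo `p` -/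
noncomputable def rkp (p : ℕ) {k m : ℕ} (M : Matrix (Fin k) (Fin m) ℤ) : ℕ :=
  (M.map (Int.cast : ℤ → ZMod p)).rank

/-- rational rank -/
noncomputable def rkQ {k m : ℕ} (M : Matrix (Fin k) (Fin m) ℤ) : ℕ :=
  (M.map (Int.cast : ℤ → ℚ)).rank

/-- the weight: (number of kernel vectors modulo `∏ P`) squared -/
noncomputable def W (P : Finset ℕ) {k m : ℕ} (M : Matrix (Fin k) (Fin m) ℤ) : ℝ :=
  ∏ p ∈ P, (p : ℝ) ^ (2 * (m - rkp p M))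

/-- `P` is an admissible set of primes -/
structure Adm (b₁ β B : ℝ) (k : ℕ) (P : Finset ℕ) : Prop where
  pr : ∀ p ∈ P, p.Prime
  lo : ∀ p ∈ P, (k : ℝ) ^ b₁ ≤ p
  hi : ∀ p ∈ P, (p : ℝ) ≤ (k : ℝ) ^ B
  size : (∏ p ∈ P, (p : ℝ)) ≤ (2 : ℝ) ^ (β * k)

/-- (a): some nonzero kernel vector modulo some `p ∈ P` has fewer than `s` nonzero coordinates -/
def Sparse (P : Finset ℕ) (s : ℝ) {k m : ℕ} (M : Matrix (Fin k) (Fin m) ℤ) : Prop :=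
  ∃ p ∈ P, ∃ u : Fin m → ZMod p, u ≠ 0 ∧ ((univ.filter fun j => u j ≠ 0).card : ℝ) < s ∧
    ∀ i, ∑ j, (M i j : ZMod p) * u j = 0

open scoped Classical in
/-- (b): some real vector in `[-1/2,1/2]^m` of support `≤ s`, sup norm `> 1/(4s)`, is `1/(64s)`-near to an integer on
all rows -/
def SpB (s : ℝ) {k m : ℕ} (M : Matrix (Fin k) (Fin m) ℤ) : Prop :=
  ∃ ψ : Fin m → ℝ, (∀ c, |ψ c| ≤ 1 / 2) ∧ ((univ.filter fun j => ψ j ≠ 0).card : ℝ) ≤ s ∧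
    (∃ c, 1 / (4 * s) < |ψ c|) ∧ ∀ i, ∃ z : ℤ, |∑ c, (M i c : ℝ) * ψ c - z| ≤ 1 / (64 * s)

/-- sparse event -/
def Sp (P : Finset ℕ) (s : ℝ) {k m : ℕ} (M : Matrix (Fin k) (Fin m) ℤ) : Prop :=
  Sparse P s M ∨ SpB s M

/-- a tuple as a tuple of elements of the subgroup it generates -/
def toCl {G : Type} [AddCommGroup G] {m : ℕ} (z : Fin m → G) :
    Fin m → AddSubgroup.closure (Set.range z) :=
  fun j => ⟨z j, AddSubgroup.subset_closure ⟨j, rfl⟩⟩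

open scoped Classical in
/-- `z` is spread in the subgroup it generates and not flat there -/
def BadTup {G : Type} [AddCommGroup G] [Fintype G] {m : ℕ} (s T : ℝ) (z : Fin m → G) :
    Prop := NonSp s (toCl z) ∧ 1 + T < gZ 8 (toCl z)

/-- the bad event -/
def Bad (P : Finset ℕ) (s : ℝ) {k m : ℕ} (M : Matrix (Fin k) (Fin m) ℤ) : Prop :=
  ∃ (_ : NeZero (∏ p ∈ P, p)) (z : Fin m → ZMod (∏ p ∈ P, p) × ZMod (∏ p ∈ P, p)),
    (∀ i, ∑ j, M i j • z j = 0) ∧ BadTup s (1 / k) z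

/-- (2) RATIONAL CORANK, rate `t` per entry of `r × k`: `t = 2^{-1/3}` is `RankQ304.rank_count_le` (LANDED, `RankQ.lean`),
`t = 3/4` is `RankQ2` (304 / 519 / 770). -/
def StmtRat (t : ℝ) : Prop := ∀ (k r : ℕ), 1 ≤ r → r ≤ k →
  (Nat.card {ω : Fin k → Fin k → Bool × Bool // r ≤ k - rkQ (mt xi ω)} : ℝ) ≤
    (k : ℝ) ^ 2 * (2 : ℝ) ^ (2 * k + 2 * r) * t ^ (r * k) * (4 : ℝ) ^ (k * k)

/-- (3a) CHAIN LEMMA. `H` finite abelian, all prime divisors of `|H|` at most `Q`; `z` with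
`gZ 8 z > 1 + τ`, `τ ≥ 0`. Then some quotient `H ⧸ K` has `1 + τ < gZ 8 (z mod K) ≤ (1 + τ) Q`.
PROOF. Strong induction on `|H|`: if `gZ 8 z ≤ (1 + τ) Q` take `K = ⊥`. Otherwise `H ≠ 0` (else `gZ = 1`); take a subgroup `C`
of prime order `p ∣ |H|`. Characters of `H ⧸ C` = characters trivial on `C`, index `p` in the dual; each coset sum of
`ψ ↦ gP 8 z ψ` is at most the sum over the subgroup (for a subgroup `D` of characters and a character `φ`,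
`∑_{ψ ∈ D} gP (φ ψ) = |D| 8^{-m} ∑_{ω : walk ∈ D^⊥} Re φ(walk) ≤ ∑_{ψ ∈ D} gP ψ`, walk of law `cf 8`), so
`gZ 8 z ≤ p · gZ 8 (z mod C)`, i.e. `gZ 8 (z mod C) ≥ gZ 8 z / Q > 1 + τ`. Induction in `H ⧸ C`, and `(H ⧸ C) ⧸ K' = H ⧸ K`.
(State the induction with a surjection `H → H'` if quotients of quotients are unpleasant.) -/
def StmtChain : Prop := ∀ (H : Type) [AddCommGroup H] [Fintype H] (m : ℕ) (z : Fin m → H) (τ Q : ℝ), 0 ≤ τ →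
  (∀ p : ℕ, p.Prime → p ∣ Fintype.card H → (p : ℝ) ≤ Q) → 1 ≤ Q → 1 + τ < gZ 8 z →
  ∃ K : AddSubgroup H, ∀ _ : Fintype (H ⧸ K),
    1 + τ < gZ 8 (fun j => (QuotientAddGroup.mk (z j) : H ⧸ K)) ∧
      gZ 8 (fun j => (QuotientAddGroup.mk (z j) : H ⧸ K)) ≤ (1 + τ) * Q

/-- (3b) number of subgroups: `(b, c)`, `(0, a)` generate. -/
def StmtSubgroups : Prop := ∀ (N : ℕ) [NeZero N], Nat.card (AddSubgroup (ZMod N × ZMod N)) ≤ N ^ 3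

/-- (3) BAD PROBABILITY, law (1/4,1/2,1/4): `P(Bad) ≤ k^{-(1/2 - 2δ) k}`. From COUNT (`FlatT.stmtCountG1`), (3a), (3b).
PROOF. `Bad` gives `z`, `H = H_z ≤ G = (ℤ/N)²` and by (3a) (`τ = 1/k`, `Q = k^B`) a subgroup `K ≤ H` with `z' = z mod K : Fin k → H ⧸ K`,
`M z' = 0`, `NonSp s z'` (characters of `H ⧸ K` are characters of `H`), `1 + 1/k < gZ 8 z' ≤ 2 k^B`. Union over the pairs `(H, K)`
(at most `N^6 = 2^{O(k)}` by (3b)), over `i` with `T = gZ 8 z' - 1 ∈ [2^i/k, 2^{i+1}/k]`, `0 ≤ i ≤ log2 (2 k^{B+1})`, and over `z'`: number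
of `z'` is `≤ |H'|^k (k^{-1/2+δ}/max 1 (2^i/k))^k` (COUNT with `m = k`), each satisfies
`P(M z' = 0) = P(row · z' = 0)^k ≤ ((1 + 2^{i+1}/k)/|H'|)^k` (the characteristic function of a step is `(1+cos)/2 ∈ [0, cf 8]`), product
`≤ (3 k^{-1/2+δ})^k` (`(1 + 2x)/max 1 x ≤ 3`). Total `2^{O(k)} k^{-(1/2-δ)k} ≤ k^{-(1/2-2δ)k}`. -/
def StmtBadProb : Prop := ∀ δ b₁ β B : ℝ, 0 < δ → δ ≤ 1 / 8 → 1 ≤ b₁ → 0 < β → β ≤ 1 / 5 → b₁ ≤ B →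
  ∃ k₀ : ℕ, ∀ k ≥ k₀, ∀ P : Finset ℕ, Adm b₁ β B k P →
  (Nat.card {ω : Fin k → Fin k → Bool × Bool // Bad P ((k : ℝ) ^ (1 - δ / 4)) (mt xi ω)} : ℝ) ≤
    (k : ℝ) ^ (-(1 / 2 - 2 * δ) * k) * (4 : ℝ) ^ (k * k)

open scoped Classical in
/-- (4) MOMENTS (LEMMA M of 11331; the P1-P4 of 502): full rational rank, not sparse. `W^q = (#ker_N)^(2q)`; official: `q = 2`,
`β = .088` (condition `2 q β < .415`, tuples in `(ℤ/N)^(2q)`). -/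
def StmtMom (q : ℕ) (β : ℝ) : Prop := ∀ δ b₁ B : ℝ, 0 < δ → δ ≤ 1 / 100 → 1 ≤ b₁ → b₁ ≤ B → ∃ (C : ℝ) (k₀ : ℕ), ∀ k ≥ k₀, ∀ m : ℕ,
  m ≤ k → 99 * k ≤ 100 * m → ∀ P : Finset ℕ, Adm b₁ β B k P →
  ∑ ω ∈ (univ : Finset (Fin k → Fin m → Bool × Bool)).filter
      (fun ω => rkQ (mt xi ω) = m ∧ ¬ Sp P ((k : ℝ) ^ (1 - δ / 4)) (mt xi ω)), W P (mt xi ω) ^ q ≤
    (2 : ℝ) ^ (C * k) * (4 : ℝ) ^ (k * m)

open scoped Classical in
/-- (5) HÖLDER (`hold : StmtRat (3/4) → StmtBadProb → StmtMom 2 β → StmtHold β`, `4 β < γ = log2 (4/3) = .415`), law (1/4,1/2,1/4), (B) of 11331.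
PROOF. `r` = rational corank; delete `r` columns: `Xi'` of full rational rank `k - r`, still not sparse, `W ≤ N^{2r} W(Xi')`.
`r ≥ C log k`: `N^{2r} k^k P(c_Q ≥ r) ≤ 2^{(2β - γ) r k + k log k + O(k)}` (`HadN.weight_sq_le`).
`r₀ ≤ r < C log k`: `C(k,r) N^{2r} (E W(Xi')^2)^{1/2} P(c_Q ≥ r)^{1/2} ≤ 2^{(2β - γ/2) r k + O(k)}`.
`r < r₀`: `(E[W^2; c_Q = r])^{1/2} P(Bad)^{1/2} ≤ 2^{O(k)} k^{-k/8}`. -/
def StmtHold (β : ℝ) : Prop := ∀ δ b₁ B : ℝ, 0 < δ → δ ≤ 1 / 100 → 1 ≤ b₁ → b₁ ≤ B → ∃ k₀ : ℕ, ∀ k ≥ k₀, ∀ P : Finset ℕ,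
  Adm b₁ β B k P →
  ∑ ω ∈ (univ : Finset (Fin k → Fin k → Bool × Bool)).filter
      (fun ω => Bad P ((k : ℝ) ^ (1 - δ / 4)) (mt xi ω) ∧ ¬ Sp P ((k : ℝ) ^ (1 - δ / 4)) (mt xi ω)),
      W P (mt xi ω) ≤ (2 : ℝ) ^ (-(2 : ℝ) * k) * (4 : ℝ) ^ (k * k)

open scoped Classical in
/-- (6) CHANGE OF LAW (generic): the law of `stL (2k-1)` on `Fin (8k)` is dominated entrywise: `P(0) = (1+1/(2k))/2`, `P(±1) ≤ 1/4`, so
`E_{505} F ≤ (1 + 1/(2k))^{k²} E_{(1/4,1/2,1/4)} F ≤ e^{k/2} E F` for `F ≥ 0`. -/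
def StmtLaw : Prop := ∀ (k : ℕ), 0 < k → ∀ F : Matrix (Fin k) (Fin k) ℤ → ℝ, (∀ M, 0 ≤ F M) →
  (∑ ω : Fin k → Fin k → Fin (8 * k), F (mt (stL (2 * k - 1)) ω)) * (4 : ℝ) ^ (k * k) ≤
    Real.exp (k / 2) * ((8 * k : ℕ) : ℝ) ^ (k * k) * ∑ ω : Fin k → Fin k → Bool × Bool, F (mt xi ω)

open scoped Classical in
/-- (7) NICE, law 505: `E[W; not Sparse, not Bad] ≤ 3 N^3`.
PROOF. `W(M) = #{z ∈ G^k : M z = 0}` (leaf (9b)). If `M` is neither sparse nor bad, every kernel tuple `z` has `gZ 8 (toCl z) ≤ 1 + 1/k`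
(leaf (9a): not sparse gives `NonSp s (toCl z)`). So `∑_ω W ≤ ∑_{z : gZ 8 (toCl z) ≤ 1+1/k} #{ω : M z = 0} = ∑_z #{row : row · z = 0}^k ≤
∑_H ∑_{z ∈ H^k} ((8k)^k (1+1/k)/|H|)^k` (`prL_zero_eq` in `H`, `0 ≤ cfL ≤ cf 8`) `≤ e · #{H} (8k)^{k²}`, `#{H} ≤ N³` by (3b). -/
def StmtNice : Prop := ∀ (k : ℕ), 0 < k → ∀ (P : Finset ℕ), (∀ p ∈ P, p.Prime) → ∀ s : ℝ,
  ∑ ω ∈ (univ : Finset (Fin k → Fin k → Fin (8 * k))).filter
      (fun ω => ¬ Sparse P s (mt (stL (2 * k - 1)) ω) ∧ ¬ Bad P s (mt (stL (2 * k - 1)) ω)),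
      W P (mt (stL (2 * k - 1)) ω) ≤
    3 * (∏ p ∈ P, (p : ℝ)) ^ 3 * ((8 * k : ℕ) : ℝ) ^ (k * k)

open scoped Classical in
/-- (8) SPARSE, law 505: `E[W; Sp] ≤ 2^{-(1-2β-η)k} E[W]`.
PROOF (310, 324 SparseDel/SparseSq). (a) For `p ∈ P`, `u ∈ F_p^k` nonzero with support `< s = k^{1-δ/4}`, scaled so that `u_j = 1` for one `j` in the
support: given the other columns the column `j` is determined modulo `p`, so has probability `≤ ((1 + 1/(2k))/2)^k ≤ 2·2^{-k}`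
(`p ≥ 3`); and `#ker_p M ≤ p · #ker_p M'`, `M'` = `M` without column `j`, while `#ker M' ≤ #ker M''` for every `M''` extending `M'` by a
column: average over the column `j` of `M''`. Union over `p, j, u`: `|P| k · k^s k^{B s} = 2^{o(k)}`.
(b) round `ψ` to a `1/(128 s²)`-net (`2^{o(k)}` points); `c` with `|ψ_c| > 1/(8s)`: given the other columns every entry of column `c` has at most
one value, or two values `±1` (if `ψ_c` is near `±1/2`): probability `≤ (1+1/(2k))/2` per row; same weights. -/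
def StmtSparse : Prop := ∀ δ b₁ β B η : ℝ, 0 < δ → δ ≤ 1 → 1 ≤ b₁ → 0 < β → b₁ ≤ B → 0 < η → ∃ k₀ : ℕ, ∀ k ≥ k₀,
  ∀ P : Finset ℕ, Adm b₁ β B k P →
  ∑ ω ∈ (univ : Finset (Fin k → Fin k → Fin (8 * k))).filter
      (fun ω => Sp P ((k : ℝ) ^ (1 - δ / 4)) (mt (stL (2 * k - 1)) ω)), W P (mt (stL (2 * k - 1)) ω) ≤
    (2 : ℝ) ^ (-(1 - 2 * β - η) * k) * ∑ ω : Fin k → Fin k → Fin (8 * k), W P (mt (stL (2 * k - 1)) ω)

/-- (9a) not sparse gives spread. PROOF. `ψ ≠ 1` a character of `H_z`, order `m ∣ N`, `p ∣ m` prime, `φ = ψ^{m/p}` has order `p`, values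
`φ(z_j) = exp(2πi u_j / p)`, `u ∈ F_p^k`, `M u = 0`, `u ≠ 0` (the `z_j` generate), `u_j ≠ 0 → ψ(z_j) ≠ 1`. -/
def StmtSpread : Prop := ∀ (k : ℕ) (P : Finset ℕ), (∀ p ∈ P, p.Prime) → ∀ (_ : NeZero (∏ p ∈ P, p)) (s : ℝ)
  (M : Matrix (Fin k) (Fin k) ℤ), ¬ Sparse P s M →
  ∀ z : Fin k → ZMod (∏ p ∈ P, p) × ZMod (∏ p ∈ P, p), (∀ i, ∑ j, M i j • z j = 0) → NonSp s (toCl z)

/-- (9b) Chinese remainder: the weight counts kernel tuples. -/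
def StmtCRT : Prop := ∀ (k : ℕ) (P : Finset ℕ), (∀ p ∈ P, p.Prime) → ∀ (M : Matrix (Fin k) (Fin k) ℤ),
  W P M = (Nat.card {x : Fin k → ZMod (∏ p ∈ P, p) // ∀ i, ∑ j, M i j • x j = 0} : ℝ) ^ 2 ∧
  W P M = (Nat.card {z : Fin k → ZMod (∏ p ∈ P, p) × ZMod (∏ p ∈ P, p) // ∀ i, ∑ j, M i j • z j = 0} : ℝ)

/-- (9c) neither sparse nor bad gives flat (`FlatX` of M8Def). PROOF. `q ∣ N`, `w : Fin k → ZMod q` unimodular in the kernel. `z_j = ((N/q) w_j, 0)`;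
`H_z ≅ ℤ/q` (`w_j` generate `ℤ/q` since `w ≠ 0` modulo every `p ∣ q`). `q · #{x : x · w = a} = ∑_χ χ(-a) ∏_j (1 + χ(w_j)) ≤ 2^k ∑_χ ∏_j |cos|
≤ 2^k gZ 8 (toCl z) ≤ 2^k (1 + 1/k) ≤ 2 · 2^k`, because `|cos(πt)| ≤ 3/4 + cos(2πt)/4`. -/
def StmtFlat : Prop := ∀ (k : ℕ), 0 < k → ∀ (P : Finset ℕ), (∀ p ∈ P, p.Prime) → ∀ (s : ℝ)
  (ω : Fin k → Fin k → Fin (8 * k)), ¬ Sparse P s (mt (stL (2 * k - 1)) ω) → ¬ Bad P s (mt (stL (2 * k - 1)) ω) →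
  M8.FlatX (∏ p ∈ P, p) (2 * k - 1) ω

/-- (10) TOP (`top : StmtHold β → StmtLaw → StmtNice → StmtSparse → StmtCRT → StmtFlat → StmtTop β`).
PROOF. `δ = 1/100`, `P = N.primeFactors`, `∏ P = N`; `kerN² = W` (9b; `W(Mᵀ) = W(M)` because the rank of the transpose is the same).
Nonflat ⊂ `Sp ∪ Bad` for `ω` or for the transpose (9c); the law is invariant under transposition. So the sum is
`≤ 2 (E[W; Sp] + E[W; Bad, not Sp])`. `E[W] ≤ E[W; nice] + E[W; Bad, not Sp] + E[W; Sp]`, (8) with `2^{-(1-2β-η)k} ≤ 1/2`: `E[W] ≤ 2 (3 N³ + 1)`; so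
`E[W; Sp] ≤ 2^{-(1-2β-η)k} · 8 N³ ≤ 2^{-(1-5β-2η)k}`; `E[W; Bad, not Sp] ≤ e^{k/2} 2^{-2k}` by (5), (6). -/
def StmtTop (β : ℝ) : Prop := ∀ b₁ c B : ℝ, 1 ≤ b₁ → b₁ ≤ B → c < 1 - 5 * β → M8.StmtXi b₁ β c B

end Vale.Agent.P160.Half.M67
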