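import Mathlib
import Vale.Agent.P160.Half.M67Stmt
import Vale.Agent.P160.Half.HadN

/-! # P160, block (M), leaf (5) of `M67Stmt`: `hold : StmtRat → StmtBadProb → StmtMom 3 β → StmtHold β` -/

set_option linter.unusedVariables false
set_option linter.unusedSectionVars false

namespace Vale.Agent.P160.Half.Hold937

open Finset Matrix Vale.Agent.P160.Half.M67

section Cols

variable {k m m' : ℕ}

/-- the columns `f j` -/
def sub (M : Matrix (Fin k) (Fin m) ℤ) (f : Fin m' → Fin m) : Matrix (Fin k) (Fin m') ℤ :=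
  M.submatrix id f

theorem W_nonneg (P : Finset ℕ) (M : Matrix (Fin k) (Fin m) ℤ) : 0 ≤ W P M :=
  Finset.prod_nonneg fun p _ => by positivity

/-- deleting columns -/
theorem W_le (P : Finset ℕ) (hP : ∀ p ∈ P, p.Prime) (M : Matrix (Fin k) (Fin m) ℤ)
    (f : Fin m' → Fin m) (hm : m' ≤ m) :
    W P M ≤ (∏ p ∈ P, (p : ℝ)) ^ (2 * (m - m')) * W P (sub M f) := by
  unfold W
  rw [← Finset.prod_pow, ← Finset.prod_mul_distrib]
  refine Finset.prod_le_prod (fun _ _ => by positivity) fun p hp => ?_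
  have hp1 : (1 : ℝ) ≤ p := by exact_mod_cast (hP p hp).one_lt.le
  rw [← pow_add]
  refine pow_le_pow_right₀ hp1 ?_
  have := Fact.mk (hP p hp)
  have h1 : rkp p (sub M f) ≤ rkp p M := by
    unfold rkp sub
    exact rank_submatrix_le (M.map (Int.cast : ℤ → ZMod p)) id f
  have h2 : rkp p (sub M f) ≤ m' := by
    have := Matrix.rank_le_card_width ((sub M f).map (Int.cast : ℤ → ZMod p))
    rwa [Fintype.card_fin] at this
  omega

/-- independent columns -/
theorem exists_T (M : Matrix (Fin k) (Fin m) ℤ) :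
    ∃ T : Finset (Fin m), ∃ hT : T.card = rkQ M,
      rkQ (sub M (fun j => ((T.equivFinOfCardEq hT).symm j : Fin m))) = rkQ M := by
  classical
  obtain ⟨κ, a, ha, hspan, hli⟩ := exists_linearIndependent' ℚ (M.map (Int.cast : ℤ → ℚ)).col
  have hfin : Finite κ := Finite.of_injective a ha
  have := Fintype.ofFinite κ
  have hcard : Fintype.card κ = rkQ M := by
    unfold rkQ
    rw [Matrix.rank_eq_finrank_span_cols, ← hspan, finrank_span_eq_card hli]
  have hT : (univ.image a).card = rkQ M := by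
    rw [Finset.card_image_of_injective _ ha, Finset.card_univ, hcard]
  refine ⟨univ.image a, hT, ?_⟩
  set f : Fin (rkQ M) → Fin m :=
    fun j => (((univ.image a).equivFinOfCardEq hT).symm j : Fin m) with hf
  have hfi : Function.Injective f := Subtype.val_injective.comp (Equiv.injective _)
  have h1 : ∀ x : Fin (rkQ M), ∃ i, a i = f x := by
    intro x
    have h2 : f x ∈ univ.image a := (((univ.image a).equivFinOfCardEq hT).symm x).2
    obtain ⟨i, _, hi⟩ := Finset.mem_image.1 h2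
    exact ⟨i, hi⟩
  choose b hb using h1
  have hbi : Function.Injective b := by
    intro x y hxy
    apply hfi
    rw [← hb x, ← hb y, hxy]
  have h2 := hli.comp b hbi
  have h3 : ((sub M f).map (Int.cast : ℤ → ℚ)).col =
      ((M.map (Int.cast : ℤ → ℚ)).col ∘ a) ∘ b := by
    funext x i
    show ((M i (f x) : ℤ) : ℚ) = ((M i (a (b x)) : ℤ) : ℚ)
    rw [hb x]
  have h4 : rkQ (sub M f) = Fintype.card (Fin (rkQ M)) := by
    show ((sub M f).map (Int.cast : ℤ → ℚ)).rank = _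
    rw [Matrix.rank_eq_finrank_span_cols, h3, finrank_span_eq_card h2]
  rw [h4, Fintype.card_fin]

/-- extension by zero -/
noncomputable def ext {A : Type} [Zero A] (f : Fin m' → Fin m) (u : Fin m' → A) : Fin m → A :=
  Function.extend f u 0

theorem ext_apply {A : Type} [Zero A] {f : Fin m' → Fin m} (hf : Function.Injective f)
    (u : Fin m' → A) (j : Fin m') : ext f u (f j) = u j := hf.extend_apply _ _ _

theorem ext_eq_zero {A : Type} [Zero A] {f : Fin m' → Fin m}
    (u : Fin m' → A) (j : Fin m) (hj : ∀ i, f i ≠ j) : ext f u j = 0 :=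
  Function.extend_apply' _ _ _ (by rintro ⟨i, hi⟩; exact hj i hi)

theorem sum_ext {A : Type} [NonUnitalNonAssocSemiring A] {f : Fin m' → Fin m}
    (hf : Function.Injective f) (u : Fin m' → A) (g : Fin m → A) :
    ∑ j, g j * ext f u j = ∑ j, g (f j) * u j := by
  classical
  have h1 : ∑ j, g (f j) * u j = ∑ j ∈ univ.map ⟨f, hf⟩, g j * ext f u j := by
    rw [Finset.sum_map]
    refine Finset.sum_congr rfl fun j _ => ?_
    show g (f j) * u j = g (f j) * ext f u (f j)
    rw [ext_apply hf]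
  rw [h1]
  symm
  refine Finset.sum_subset (Finset.subset_univ _) fun j _ hj => ?_
  rw [ext_eq_zero (f := f) u j (fun i hi => hj (Finset.mem_map.2 ⟨i, mem_univ _, hi⟩)), mul_zero]

open Classical in
theorem card_ext {A : Type} [Zero A] {f : Fin m' → Fin m}
    (hf : Function.Injective f) (u : Fin m' → A) :
    (univ.filter fun j => ext f u j ≠ 0).card = (univ.filter fun j => u j ≠ 0).card := by
  rw [← Finset.card_map ⟨f, hf⟩ (s := univ.filter fun j => u j ≠ 0)]
  congr 1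
  ext j
  rw [Finset.mem_filter, Finset.mem_map]
  constructor
  · rintro ⟨-, hj⟩
    by_contra h
    apply hj
    by_cases h2 : ∃ i, f i = j
    · obtain ⟨i, rfl⟩ := h2
      rw [ext_apply hf]
      by_contra h3
      exact h ⟨i, Finset.mem_filter.2 ⟨mem_univ _, h3⟩, rfl⟩
    · exact ext_eq_zero u j fun i hi => h2 ⟨i, hi⟩
  · rintro ⟨i, hi, rfl⟩
    refine ⟨mem_univ _, ?_⟩
    show ext f u (f i) ≠ 0
    rw [ext_apply hf]
    exact (Finset.mem_filter.1 hi).2

theorem sp_sub (P : Finset ℕ) (s : ℝ) (M : Matrix (Fin k) (Fin m) ℤ) {f : Fin m' → Fin m}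
    (hf : Function.Injective f) (h : Sp P s (sub M f)) : Sp P s M := by
  classical
  rcases h with ⟨p, hp, u, hu, hc, hM⟩ | ⟨ψ, h1, h2, ⟨c, hc⟩, h3⟩
  · left
    refine ⟨p, hp, ext f u, ?_, ?_, ?_⟩
    · intro h
      apply hu
      funext j
      rw [← ext_apply hf u j, h]
      rfl
    · have := card_ext hf u
      have h4 : ((univ.filter fun j => ext f u j ≠ 0).card : ℝ) =
        ((univ.filter fun j => u j ≠ 0).card : ℝ) := by exact_mod_cast this
      refine lt_of_eq_of_lt ?_ hc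
      convert h4
    · intro i
      rw [sum_ext hf u (fun j => (M i j : ZMod p))]
      exact hM i
  · right
    refine ⟨ext f ψ, ?_, ?_, ⟨f c, ?_⟩, ?_⟩
    · intro j
      by_cases h2 : ∃ i, f i = j
      · obtain ⟨i, rfl⟩ := h2
        rw [ext_apply hf]
        exact h1 i
      · rw [ext_eq_zero ψ j fun i hi => h2 ⟨i, hi⟩, abs_zero]
        norm_num
    · have := card_ext hf ψ
      have h4 : ((univ.filter fun j => ext f ψ j ≠ 0).card : ℝ) =
        ((univ.filter fun j => ψ j ≠ 0).card : ℝ) := by exact_mod_cast this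
      refine le_of_eq_of_le ?_ h2
      convert h4
    · rw [ext_apply hf]
      exact hc
    · intro i
      obtain ⟨z, hz⟩ := h3 i
      refine ⟨z, ?_⟩
      rw [sum_ext hf ψ (fun j => (M i j : ℝ))]
      exact hz

/-- the fibers of the restriction -/
theorem card_fiber {Ω : Type} [Fintype Ω] (T : Finset (Fin m)) {t : ℕ} (hT : T.card = t)
    (F : (Fin k → Fin t → Ω) → ℝ) :
    ∑ ω : Fin k → Fin m → Ω, F (fun i j => ω i ((T.equivFinOfCardEq hT).symm j)) =
      (Fintype.card Ω : ℝ) ^ (k * (m - t)) * ∑ ω' : Fin k → Fin t → Ω, F ω' := by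
  classical
  let e : (Fin k → Fin m → Ω) ≃ (Fin k → {a // a ∈ T} → Ω) × (Fin k → {a // a ∉ T} → Ω) :=
    (Equiv.piCongrRight fun _ : Fin k => Equiv.piEquivPiSubtypeProd (fun a => a ∈ T)
      (fun _ => Ω)).trans (Equiv.arrowProdEquivProdArrow (Fin k) _ _)
  let e2 : (Fin k → {a // a ∈ T} → Ω) ≃ (Fin k → Fin t → Ω) :=
    Equiv.piCongrRight fun _ => Equiv.arrowCongr (T.equivFinOfCardEq hT) (Equiv.refl _)
  rw [← e.symm.sum_comp, Fintype.sum_prod_type]
  have h1 : ∀ (x : Fin k → {a // a ∈ T} → Ω) (y : Fin k → {a // a ∉ T} → Ω),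
      F (fun i j => (e.symm (x, y)) i ((T.equivFinOfCardEq hT).symm j)) = F (e2 x) := by
    intro x y
    have h2 : (fun i (a : {a // a ∈ T}) => (e.symm (x, y)) i a) = (e (e.symm (x, y))).1 := rfl
    rw [e.apply_symm_apply] at h2
    congr 1
    funext i j
    exact congrFun (congrFun h2 i) ((T.equivFinOfCardEq hT).symm j)
  rw [Finset.sum_congr rfl fun x _ => Finset.sum_congr rfl fun y _ => h1 x y]
  simp only [Finset.sum_const, nsmul_eq_mul]
  rw [← Finset.mul_sum, e2.sum_comp F]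
  congr 1
  rw [Finset.card_univ, Fintype.card_fun, Fintype.card_fun, Fintype.card_fin,
    Fintype.card_subtype_compl, Fintype.card_fin, Fintype.card_coe, hT]
  push_cast
  rw [← pow_mul, mul_comm]

end Cols

section Six

open scoped Classical in
/-- the sixth moment on the set of corank `r` -/
theorem sum_six (P : Finset ℕ) (hP : ∀ p ∈ P, p.Prime) (s : ℝ) (k r : ℕ) (hr : r ≤ k) (C : ℝ)
    (h6 : ∑ ω ∈ (univ : Finset (Fin k → Fin (k - r) → Bool × Bool)).filter
      (fun ω => rkQ (mt xi ω) = k - r ∧ ¬ Sp P s (mt xi ω)), W P (mt xi ω) ^ 3 ≤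
      C * (4 : ℝ) ^ (k * (k - r))) :
    ∑ ω ∈ (univ : Finset (Fin k → Fin k → Bool × Bool)).filter
      (fun ω => k - rkQ (mt xi ω) = r ∧ ¬ Sp P s (mt xi ω)), W P (mt xi ω) ^ 3 ≤
      (2 : ℝ) ^ k * (∏ p ∈ P, (p : ℝ)) ^ (6 * r) * C * (4 : ℝ) ^ (k * k) := by
  set N : ℝ := ∏ p ∈ P, (p : ℝ) with hN
  have hN0 : 0 ≤ N := Finset.prod_nonneg fun _ _ => Nat.cast_nonneg _
  let G : (Fin k → Fin (k - r) → Bool × Bool) → ℝ := fun ω' =>
    if rkQ (mt xi ω') = k - r ∧ ¬ Sp P s (mt xi ω') then W P (mt xi ω') ^ 3 else 0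
  have hG0 : ∀ ω', 0 ≤ G ω' := by
    intro ω'
    show 0 ≤ ite _ _ _
    split_ifs
    · exact pow_nonneg (W_nonneg _ _) 3
    · exact le_rfl
  let I : Finset (Finset (Fin k)) := (univ : Finset (Fin k)).powersetCard (k - r)
  let f : {T // T ∈ I} → Fin (k - r) → Fin k := fun T j =>
    ((T.1.equivFinOfCardEq (Finset.mem_powersetCard.1 T.2).2).symm j : Fin k)
  have hterm : ∀ ω ∈ (univ : Finset (Fin k → Fin k → Bool × Bool)).filter
      (fun ω => k - rkQ (mt xi ω) = r ∧ ¬ Sp P s (mt xi ω)), W P (mt xi ω) ^ 3 ≤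
      ∑ T : {T // T ∈ I}, N ^ (6 * r) * G (fun i j => ω i (f T j)) := by
    intro ω hω
    obtain ⟨-, hrω, hSω⟩ := Finset.mem_filter.1 hω
    have hrk : rkQ (mt xi ω) ≤ k := by
      have := Matrix.rank_le_card_width ((mt xi ω).map (Int.cast : ℤ → ℚ))
      rwa [Fintype.card_fin] at this
    have hkr : rkQ (mt xi ω) = k - r := by omega
    obtain ⟨T, hT, hTr⟩ := exists_T (mt xi ω)
    have hTI : T ∈ I := Finset.mem_powersetCard.2 ⟨Finset.subset_univ _, by rw [hT, hkr]⟩
    have h1 := W_le P hP (mt xi ω) (f ⟨T, hTI⟩) (Nat.sub_le k r)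
    have hfi : Function.Injective (f ⟨T, hTI⟩) := Subtype.val_injective.comp (Equiv.injective _)
    have h2 : sub (mt xi ω) (f ⟨T, hTI⟩) = mt xi (fun i j => ω i (f ⟨T, hTI⟩ j)) := rfl
    have h3 : rkQ (mt xi (fun i j => ω i (f ⟨T, hTI⟩ j))) = k - r := by
      rw [← h2]
      refine Eq.trans ?_ hkr
      have h4 : ∀ (n : ℕ) (hn : T.card = n), rkQ (sub (mt xi ω)
          (fun j => ((T.equivFinOfCardEq hn).symm j : Fin k))) = rkQ (mt xi ω) := by
        intro n hn
        have h5 : n = rkQ (mt xi ω) := hn.symm.trans hT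
        subst h5
        exact hTr
      exact h4 (k - r) _
    have h4 : ¬ Sp P s (mt xi (fun i j => ω i (f ⟨T, hTI⟩ j))) := by
      rw [← h2]
      exact fun h => hSω (sp_sub P s _ hfi h)
    have h5 : W P (mt xi ω) ^ 3 ≤ N ^ (6 * r) * G (fun i j => ω i (f ⟨T, hTI⟩ j)) := by
      have h6 : G (fun i j => ω i (f ⟨T, hTI⟩ j)) =
          W P (mt xi (fun i j => ω i (f ⟨T, hTI⟩ j))) ^ 3 := if_pos ⟨h3, h4⟩
      rw [h6, ← h2]
      have h7 : k - (k - r) = r := by omega
      rw [h7] at h1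
      calc W P (mt xi ω) ^ 3 ≤ (N ^ (2 * r) * W P (sub (mt xi ω) (f ⟨T, hTI⟩))) ^ 3 :=
            pow_le_pow_left₀ (W_nonneg _ _) h1 3
        _ = _ := by rw [mul_pow, ← pow_mul]; congr 2; ring
    exact h5.trans (Finset.single_le_sum
      (f := fun T : {T // T ∈ I} => N ^ (6 * r) * G (fun i j => ω i (f T j)))
      (fun T _ => mul_nonneg (by positivity) (hG0 _)) (mem_univ (⟨T, hTI⟩ : {T // T ∈ I})))
  refine (Finset.sum_le_sum hterm).trans ?_
  refine (Finset.sum_le_sum_of_subset_of_nonneg (Finset.filter_subset _ _) fun ω _ _ =>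
    Finset.sum_nonneg fun T _ => mul_nonneg (by positivity) (hG0 _)).trans ?_
  rw [Finset.sum_comm]
  have hTsum : ∀ T : {T // T ∈ I}, ∑ ω : Fin k → Fin k → Bool × Bool,
      N ^ (6 * r) * G (fun i j => ω i (f T j)) ≤
      N ^ (6 * r) * C * (4 : ℝ) ^ (k * k) := by
    intro T
    have h1 := card_fiber (k := k) (Ω := Bool × Bool) T.1 (Finset.mem_powersetCard.1 T.2).2 G
    rw [← Finset.mul_sum, h1, mul_assoc]
    refine mul_le_mul_of_nonneg_left ?_ (by positivity)
    have h2 : ∑ ω', G ω' ≤ C * (4 : ℝ) ^ (k * (k - r)) := by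
      rw [← Finset.sum_filter]
      exact h6
    have h3 : (Fintype.card (Bool × Bool) : ℝ) = 4 := by
      rw [Fintype.card_prod, Fintype.card_bool]; norm_num
    rw [h3]
    have h4 : k - (k - r) = r := by omega
    rw [h4]
    calc (4 : ℝ) ^ (k * r) * ∑ ω', G ω' ≤ (4 : ℝ) ^ (k * r) * (C * (4 : ℝ) ^ (k * (k - r))) :=
          mul_le_mul_of_nonneg_left h2 (by positivity)
      _ = C * ((4 : ℝ) ^ (k * r) * (4 : ℝ) ^ (k * (k - r))) := by ring
      _ = C * (4 : ℝ) ^ (k * k) := by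
          rw [← pow_add, ← mul_add]
          congr 3
          omega
  refine (Finset.sum_le_sum fun T _ => hTsum T).trans ?_
  have hC : 0 ≤ N ^ (6 * r) * C * (4 : ℝ) ^ (k * k) := by
    have h1 : 0 ≤ C * (4 : ℝ) ^ (k * (k - r)) :=
      le_trans (Finset.sum_nonneg fun ω _ => pow_nonneg (W_nonneg _ _) 3) h6
    have h2 : 0 ≤ C := nonneg_of_mul_nonneg_left h1 (by positivity)
    positivity
  rw [Finset.sum_const, nsmul_eq_mul, mul_assoc, mul_assoc, mul_assoc, ← mul_assoc (N ^ (6 * r))]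
  refine mul_le_mul_of_nonneg_right ?_ hC
  have h1 : (univ : Finset {T // T ∈ I}).card ≤ 2 ^ k := by
    rw [Finset.card_univ, Fintype.card_coe, Finset.card_powersetCard, Finset.card_univ,
      Fintype.card_fin]
    exact Nat.choose_le_two_pow _ _
  exact_mod_cast h1

/-- Hölder with three factors, in exponential form -/
theorem hold3 {X : Type} (D : Finset X) (w : X → ℝ) (hw : ∀ x ∈ D, 0 ≤ w x) (a b Q : ℝ)
    (h3 : ∑ x ∈ D, w x ^ 3 ≤ (2 : ℝ) ^ a * Q) (hD : (D.card : ℝ) ≤ (2 : ℝ) ^ (-b) * Q) :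
    ∑ x ∈ D, w x ≤ (2 : ℝ) ^ ((a - 2 * b) / 3) * Q := by
  set lam : ℝ := (2 : ℝ) ^ ((a + b) / 3) with hlam
  have hl0 : 0 < lam := Real.rpow_pos_of_pos (by norm_num) _
  have hpt : ∀ x ∈ D, w x ≤ (1 / 3) * (lam⁻¹ ^ 2 * w x ^ 3) + (2 / 3) * lam := by
    intro x hx
    have h0 := hw x hx
    have h1 : w x = lam * (lam⁻¹ * w x) := by field_simp
    set t := lam⁻¹ * w x with ht
    have ht0 : 0 ≤ t := mul_nonneg (inv_nonneg.2 hl0.le) h0
    have h2 : lam⁻¹ ^ 2 * w x ^ 3 = lam * t ^ 3 := by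
      rw [ht]; field_simp
    rw [h2, h1]
    have h4 : t ≤ (1 / 3) * t ^ 3 + 2 / 3 := by
      nlinarith [mul_nonneg (add_nonneg ht0 (by norm_num : (0 : ℝ) ≤ 2)) (sq_nonneg (t - 1))]
    calc lam * t ≤ lam * ((1 / 3) * t ^ 3 + 2 / 3) := mul_le_mul_of_nonneg_left h4 hl0.le
      _ = _ := by ring
  have h1 : ∑ x ∈ D, w x ≤ (1 / 3) * (lam⁻¹ ^ 2 * ∑ x ∈ D, w x ^ 3) + (2 / 3) * lam * D.card := by
    refine (Finset.sum_le_sum hpt).trans (le_of_eq ?_)
    rw [Finset.sum_add_distrib, ← Finset.mul_sum, ← Finset.mul_sum, Finset.sum_const,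
      nsmul_eq_mul]
    ring
  have h2 : lam⁻¹ ^ 2 * (2 : ℝ) ^ a = (2 : ℝ) ^ ((a - 2 * b) / 3) := by
    rw [hlam, ← Real.rpow_neg (by norm_num), ← Real.rpow_natCast, ← Real.rpow_mul (by norm_num),
      ← Real.rpow_add (by norm_num)]
    congr 1
    push_cast
    ring
  have h4 : lam * (2 : ℝ) ^ (-b) = (2 : ℝ) ^ ((a - 2 * b) / 3) := by
    rw [hlam, ← Real.rpow_add (by norm_num)]
    congr 1
    ring
  calc ∑ x ∈ D, w x ≤ (1 / 3) * (lam⁻¹ ^ 2 * ((2 : ℝ) ^ a * Q)) +
        (2 / 3) * lam * ((2 : ℝ) ^ (-b) * Q) := by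
        refine h1.trans (add_le_add ?_ ?_)
        · exact mul_le_mul_of_nonneg_left (mul_le_mul_of_nonneg_left h3 (by positivity))
            (by norm_num)
        · exact mul_le_mul_of_nonneg_left hD (by positivity)
    _ = (1 / 3) * (lam⁻¹ ^ 2 * (2 : ℝ) ^ a) * Q + (2 / 3) * (lam * (2 : ℝ) ^ (-b)) * Q := by ring
    _ = (2 : ℝ) ^ ((a - 2 * b) / 3) * Q := by rw [h2, h4]; ring

end Six

section Top

/-- rational corank with rate `γ` (`StmtRat` is `γ = 1/3`) -/
def RatG (γ : ℝ) : Prop := ∀ (k r : ℕ), 1 ≤ r → r ≤ k →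
  (Nat.card {ω : Fin k → Fin k → Bool × Bool // r ≤ k - rkQ (mt xi ω)} : ℝ) ≤
    (k : ℝ) ^ 2 * (2 : ℝ) ^ (2 * k + 2 * r) * (2 : ℝ) ^ (-(γ * (r * k))) * (4 : ℝ) ^ (k * k)

theorem ratG_of (h : StmtRat (3 / 4)) : RatG (Real.logb 2 (4 / 3)) := by
  intro k r hr hrk
  refine (h k r hr hrk).trans (le_of_eq ?_)
  have h1 : (3 / 4 : ℝ) ^ (r * k) = (2 : ℝ) ^ (-(Real.logb 2 (4 / 3) * (r * k))) := by
    have h2 : (2 : ℝ) ^ (-Real.logb 2 (4 / 3)) = 3 / 4 := by
      rw [Real.rpow_neg (by norm_num), Real.rpow_logb (by norm_num) (by norm_num) (by norm_num)]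
      norm_num
    calc (3 / 4 : ℝ) ^ (r * k) = ((2 : ℝ) ^ (-Real.logb 2 (4 / 3))) ^ (r * k) := by rw [h2]
      _ = _ := by
        rw [← Real.rpow_natCast, ← Real.rpow_mul (by norm_num)]
        congr 1
        push_cast
        ring
  rw [h1]

theorem gam_lb : (3 : ℝ) / 8 < Real.logb 2 (4 / 3) := by
  rw [Real.lt_logb_iff_rpow_lt (by norm_num) (by norm_num)]
  have h1 : ((2 : ℝ) ^ ((3 : ℝ) / 8)) ^ 8 = 8 := by
    rw [← Real.rpow_natCast, ← Real.rpow_mul (by norm_num)]
    norm_num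
  by_contra hcon
  push Not at hcon
  have h2 := pow_le_pow_left₀ (by norm_num) hcon 8
  rw [h1] at h2
  norm_num at h2

theorem xi_abs (b : Bool × Bool) : |xi b| ≤ 1 := by
  unfold xi
  split_ifs <;> norm_num

theorem W_had {k : ℕ} (P : Finset ℕ) (hP : ∀ p ∈ P, p.Prime) (ω : Fin k → Fin k → Bool × Bool) :
    W P (mt xi ω) ≤ (∏ p ∈ P, (p : ℝ)) ^ (2 * (k - rkQ (mt xi ω))) * (k : ℝ) ^ k := by
  have h1 := HadN.weight_sq_le (mt xi ω) P hP (fun i j => xi_abs _)
  have h2 : W P (mt xi ω) = (((∏ p ∈ P, p ^ (k - HadN.rP p (mt xi ω))) ^ 2 : ℕ) : ℝ) := by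
    unfold W
    push_cast
    rw [← Finset.prod_pow]
    refine Finset.prod_congr rfl fun p _ => ?_
    rw [← pow_mul, mul_comm (k - _) 2]
    rfl
  rw [h2]
  have h3 : (∏ p ∈ P, (p : ℝ)) ^ (2 * (k - rkQ (mt xi ω))) * (k : ℝ) ^ k =
      (((∏ p ∈ P, p) ^ (2 * (k - HadN.rQ (mt xi ω))) * k ^ k : ℕ) : ℝ) := by
    push_cast
    rfl
  rw [h3]
  exact_mod_cast h1

theorem eventually_logb (L ε K : ℝ) (hε : 0 < ε) : ∃ k₀ : ℕ, ∀ k ≥ k₀, 1 ≤ k ∧ K ≤ (k : ℝ) ∧
    L ≤ Real.logb 2 k ∧ Real.logb 2 k ≤ ε * k := by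
  have hlog2 : 0 < Real.log 2 := Real.log_pos (by norm_num)
  have h1 : ∀ᶠ x : ℝ in Filter.atTop, L * Real.log 2 ≤ Real.log x :=
    Real.tendsto_log_atTop.eventually_ge_atTop _
  have h2 : ∀ᶠ x : ℝ in Filter.atTop, ‖Real.log x‖ ≤ (ε * Real.log 2) * ‖x‖ :=
    Real.isLittleO_log_id_atTop.def (by positivity)
  have h3 := ((h1.and h2).and (Filter.eventually_ge_atTop (max K 1)))
  have h4 := (tendsto_natCast_atTop_atTop (R := ℝ)).eventually h3
  obtain ⟨k₀, hk₀⟩ := Filter.eventually_atTop.1 h4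
  refine ⟨k₀, fun k hk => ?_⟩
  obtain ⟨⟨h5, h6⟩, h7⟩ := hk₀ k hk
  have hk1 : (1 : ℝ) ≤ k := (le_max_right _ _).trans h7
  refine ⟨by exact_mod_cast hk1, (le_max_left _ _).trans h7, ?_, ?_⟩
  · rw [Real.logb, le_div_iff₀ hlog2]
    exact h5
  · rw [Real.logb, div_le_iff₀ hlog2]
    rw [Real.norm_of_nonneg (Real.log_nonneg hk1), Real.norm_of_nonneg (by linarith)] at h6
    linarith

open scoped Classical in
/-- **leaf (5)**, with the rate `γ` of the rational corank as a variable, `3 β < γ` -/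
theorem hold_gen {γ β : ℝ} (hβ : 0 < β) (hβ5 : β ≤ 1 / 5) (hγ : 3 * β < γ) (hrat : RatG γ)
    (hbad : StmtBadProb) (hM6 : StmtMom 3 β) : StmtHold β := by
  intro δ b₁ B hδ hδ1 hb hbB
  obtain ⟨C0, k1, h6⟩ := hM6 δ b₁ B hδ hδ1 hb hbB
  obtain ⟨k2, hbd⟩ := hbad δ b₁ β B hδ (by linarith) hb hβ hβ5 hbB
  set C : ℝ := max C0 0 with hC
  have hC0 : 0 ≤ C := le_max_right _ _
  have hCC : C0 ≤ C := le_max_left _ _
  set g1 : ℝ := γ - 2 * β with hg1
  set g2 : ℝ := (2 / 3) * γ - 2 * β with hg2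
  have hg1p : 0 < g1 := by rw [hg1]; linarith
  have hg2p : 0 < g2 := by rw [hg2]; linarith
  obtain ⟨r0, hr0⟩ := exists_nat_ge ((C / 3 + 12) / g2 + 1)
  have hr0g : C / 3 + 12 ≤ r0 * g2 := by
    have h1 : (C / 3 + 12) / g2 ≤ r0 := by linarith
    rwa [div_le_iff₀ hg2p] at h1
  have hr01 : (1 : ℝ) ≤ r0 := by
    have : 0 ≤ (C / 3 + 12) / g2 := by positivity
    linarith
  obtain ⟨k3, hk3⟩ := eventually_logb (2 * (10 + 6 * β * r0 + C)) (min (g1 / 400) 1)
    (1200 / g1) (lt_min (by positivity) one_pos)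
  refine ⟨max k1 (max k2 k3), fun k hk P hP => ?_⟩
  have hkk1 : k1 ≤ k := (le_max_left _ _).trans hk
  have hkk2 : k2 ≤ k := ((le_max_left _ _).trans (le_max_right _ _)).trans hk
  have hkk3 : k3 ≤ k := ((le_max_right _ _).trans (le_max_right _ _)).trans hk
  obtain ⟨hk1, hkg, hl1, hl2⟩ := hk3 k hkk3
  set l : ℝ := Real.logb 2 k with hl
  have hkr : (1 : ℝ) ≤ k := by exact_mod_cast hk1
  have hk0 : (0 : ℝ) < k := by linarith
  have hkl : (k : ℝ) = (2 : ℝ) ^ l := by
    rw [hl, Real.rpow_logb (by norm_num) (by norm_num) hk0]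
  have hlk : l ≤ k := hl2.trans (mul_le_of_le_one_left hk0.le (min_le_right _ _))
  have hlg : l ≤ g1 / 400 * k :=
    hl2.trans (mul_le_mul_of_nonneg_right (min_le_left _ _) hk0.le)
  have hl0 : 0 ≤ l := by
    refine le_trans ?_ hl1
    positivity
  have hkg' : 1200 ≤ g1 * k := by
    rw [div_le_iff₀ hg1p] at hkg
    linarith
  set N : ℝ := ∏ p ∈ P, (p : ℝ) with hN
  have hN1 : 1 ≤ N := by
    rw [hN]
    have h1 : ∀ p ∈ P, (1 : ℝ) ≤ p := fun p hp => by exact_mod_cast (hP.pr p hp).one_lt.le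
    calc (1 : ℝ) = ∏ p ∈ P, (1 : ℝ) := (Finset.prod_const_one).symm
      _ ≤ ∏ p ∈ P, (p : ℝ) := Finset.prod_le_prod (fun _ _ => zero_le_one) h1
  have hN2 : N ≤ (2 : ℝ) ^ (β * k) := hP.size
  have hNpow : ∀ n : ℕ, N ^ n ≤ (2 : ℝ) ^ (β * k * n) := by
    intro n
    calc N ^ n ≤ ((2 : ℝ) ^ (β * k)) ^ n := pow_le_pow_left₀ (by linarith) hN2 n
      _ = (2 : ℝ) ^ (β * k * n) := by rw [← Real.rpow_natCast, ← Real.rpow_mul (by norm_num)]
  set s : ℝ := (k : ℝ) ^ (1 - δ / 4) with hs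
  set Q : ℝ := (4 : ℝ) ^ (k * k) with hQ
  have hQ0 : 0 < Q := by positivity
  set D := (univ : Finset (Fin k → Fin k → Bool × Bool)).filter
      (fun ω => Bad P s (mt xi ω) ∧ ¬ Sp P s (mt xi ω)) with hD
  -- the pieces
  have hfib : ∑ ω ∈ D, W P (mt xi ω) = ∑ r ∈ range (k + 1),
      ∑ ω ∈ D.filter (fun ω => k - rkQ (mt xi ω) = r), W P (mt xi ω) := by
    rw [Finset.sum_fiberwise_of_maps_to]
    intro ω _
    rw [Finset.mem_range]
    omega
  rw [hfib]
  have hpiece : ∀ r ∈ range (k + 1),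
      ∑ ω ∈ D.filter (fun ω => k - rkQ (mt xi ω) = r), W P (mt xi ω) ≤
        (2 : ℝ) ^ (-(3 * k : ℝ)) * Q := by
    intro r hr
    have hrk : r ≤ k := by
      rw [Finset.mem_range] at hr
      omega
    have hrk' : (r : ℝ) ≤ k := by exact_mod_cast hrk
    have hr0' : (0 : ℝ) ≤ r := Nat.cast_nonneg r
    -- the number of terms, rational corank
    have hcnt : 1 ≤ r → ((D.filter (fun ω => k - rkQ (mt xi ω) = r)).card : ℝ) ≤
        (2 : ℝ) ^ (2 * l + 2 * k + 2 * r - γ * (r * k)) * Q := by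
      intro hr1
      have h1 : ((D.filter (fun ω => k - rkQ (mt xi ω) = r)).card : ℝ) ≤
          (Nat.card {ω : Fin k → Fin k → Bool × Bool // r ≤ k - rkQ (mt xi ω)} : ℝ) := by
        rw [Nat.card_eq_fintype_card, Fintype.card_subtype]
        refine Nat.cast_le.2 (Finset.card_le_card ?_)
        intro ω hω
        rw [Finset.mem_filter] at hω ⊢
        exact ⟨mem_univ _, hω.2.ge⟩
      refine h1.trans ((hrat k r hr1 hrk).trans (le_of_eq ?_))
      rw [← hQ]
      congr 1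
      have e1 : (k : ℝ) ^ 2 = (2 : ℝ) ^ (2 * l) := by
        rw [hkl, ← Real.rpow_natCast, ← Real.rpow_mul (by norm_num)]
        congr 1
        push_cast
        ring
      have e2 : (2 : ℝ) ^ (2 * k + 2 * r) = (2 : ℝ) ^ ((2 * k + 2 * r : ℝ)) := by
        rw [← Real.rpow_natCast]
        congr 1
        push_cast
        ring
      rw [e1, e2, ← Real.rpow_add (by norm_num), ← Real.rpow_add (by norm_num)]
      congr 1
      ring
    by_cases h100 : 100 * r ≤ k
    · -- Hölder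
      have hk100 : 100 * (r : ℝ) ≤ k := by exact_mod_cast h100
      have hsix : ∑ ω ∈ D.filter (fun ω => k - rkQ (mt xi ω) = r), W P (mt xi ω) ^ 3 ≤
          (2 : ℝ) ^ (k + 6 * (β * k * r) + C * k) * Q := by
        have h1 := sum_six P hP.pr s k r hrk ((2 : ℝ) ^ (C0 * k))
          (h6 k hkk1 (k - r) (Nat.sub_le _ _) (by omega) P hP)
        have h2 : ∑ ω ∈ D.filter (fun ω => k - rkQ (mt xi ω) = r), W P (mt xi ω) ^ 3 ≤
            ∑ ω ∈ (univ : Finset (Fin k → Fin k → Bool × Bool)).filter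
              (fun ω => k - rkQ (mt xi ω) = r ∧ ¬ Sp P s (mt xi ω)), W P (mt xi ω) ^ 3 := by
          refine Finset.sum_le_sum_of_subset_of_nonneg ?_
            fun ω _ _ => pow_nonneg (W_nonneg _ _) 3
          intro ω hω
          rw [Finset.mem_filter, hD, Finset.mem_filter] at hω
          rw [Finset.mem_filter]
          exact ⟨mem_univ _, hω.2, hω.1.2.2⟩
        refine (h2.trans h1).trans ?_
        rw [← hQ]
        refine mul_le_mul_of_nonneg_right ?_ hQ0.le
        have e1 : (2 : ℝ) ^ k = (2 : ℝ) ^ (k : ℝ) := (Real.rpow_natCast 2 k).symm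
        calc (2 : ℝ) ^ k * N ^ (6 * r) * (2 : ℝ) ^ (C0 * k) ≤
            (2 : ℝ) ^ (k : ℝ) * (2 : ℝ) ^ (β * k * ((6 * r : ℕ) : ℝ)) * (2 : ℝ) ^ (C * k) := by
              rw [e1]
              refine mul_le_mul (mul_le_mul_of_nonneg_left (hNpow _) (by positivity)) ?_
                (by positivity) (by positivity)
              exact Real.rpow_le_rpow_of_exponent_le (by norm_num)
                (mul_le_mul_of_nonneg_right hCC hk0.le)
          _ = _ := by
              rw [← Real.rpow_add (by norm_num), ← Real.rpow_add (by norm_num)]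
              congr 1
              push_cast
              ring
      by_cases hrr : r0 ≤ r
      · have hr1 : 1 ≤ r := by
          have : (1 : ℝ) ≤ r := hr01.trans (by exact_mod_cast hrr)
          exact_mod_cast this
        have h1 := hold3 (D.filter (fun ω => k - rkQ (mt xi ω) = r)) (fun ω => W P (mt xi ω))
          (fun ω _ => W_nonneg _ _) _ (-(2 * l + 2 * k + 2 * r - γ * (r * k))) Q hsix
          (by rw [neg_neg]; exact hcnt hr1)
        refine h1.trans (mul_le_mul_of_nonneg_right ?_ hQ0.le)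
        refine Real.rpow_le_rpow_of_exponent_le (by norm_num) ?_
        have hrr' : (r0 : ℝ) ≤ r := by exact_mod_cast hrr
        have h2 : (C / 3 + 12) * k ≤ g2 * r * k := by
          have h0 := mul_le_mul_of_nonneg_right hrr' hg2p.le
          exact mul_le_mul_of_nonneg_right (by linarith) hk0.le
        have h3 : ((k + 6 * (β * k * r) + C * k) -
            2 * -(2 * l + 2 * k + 2 * r - γ * (r * k))) / 3 =
            -(g2 * r * k) + (C / 3) * k + (5 * k + 4 * l + 4 * r) / 3 := by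
          rw [hg2]; ring
        rw [h3]
        linarith
      · have hrr' : (r : ℝ) ≤ r0 := by exact_mod_cast (not_le.1 hrr).le
        have hbdk := hbd k hkk2 P hP
        have h0 : ((D.filter (fun ω => k - rkQ (mt xi ω) = r)).card : ℝ) ≤
            (2 : ℝ) ^ (-(l * ((1 / 2 - 2 * δ) * k))) * Q := by
          have h1 : ((D.filter (fun ω => k - rkQ (mt xi ω) = r)).card : ℝ) ≤
              (Nat.card {ω : Fin k → Fin k → Bool × Bool // Bad P s (mt xi ω)} : ℝ) := by
            rw [Nat.card_eq_fintype_card, Fintype.card_subtype]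
            refine Nat.cast_le.2 (Finset.card_le_card ?_)
            intro ω hω
            rw [Finset.mem_filter, hD, Finset.mem_filter] at hω
            rw [Finset.mem_filter]
            exact ⟨mem_univ _, hω.1.2.1⟩
          refine h1.trans (hbdk.trans (le_of_eq ?_))
          rw [← hQ]
          congr 1
          rw [hkl, ← Real.rpow_mul (by norm_num), ← hkl]
          congr 1
          ring
        have h1 := hold3 (D.filter (fun ω => k - rkQ (mt xi ω) = r)) (fun ω => W P (mt xi ω))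
          (fun ω _ => W_nonneg _ _) _ (l * ((1 / 2 - 2 * δ) * k)) Q hsix h0
        refine h1.trans (mul_le_mul_of_nonneg_right ?_ hQ0.le)
        refine Real.rpow_le_rpow_of_exponent_le (by norm_num) ?_
        have h2 : l * k / 4 ≤ l * ((1 / 2 - 2 * δ) * k) := by
          have h5 : (1 : ℝ) / 4 ≤ 1 / 2 - 2 * δ := by linarith
          have h6 := mul_le_mul_of_nonneg_left h5 (mul_nonneg hl0 hk0.le)
          linarith
        have h3 : β * k * r ≤ β * r0 * k := by
          have h6 := mul_le_mul_of_nonneg_left hrr' (mul_nonneg hβ.le hk0.le)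
          linarith
        have h4 : 2 * (10 + 6 * β * r0 + C) * k ≤ l * k :=
          mul_le_mul_of_nonneg_right hl1 hk0.le
        linarith
    · -- Hadamard
      have hk100 : (k : ℝ) ≤ 100 * r := by
        have := (not_le.1 h100).le
        exact_mod_cast this
      have hr1 : 1 ≤ r := by omega
      have h1 : ∑ ω ∈ D.filter (fun ω => k - rkQ (mt xi ω) = r), W P (mt xi ω) ≤
          ((D.filter (fun ω => k - rkQ (mt xi ω) = r)).card : ℝ) *
            ((2 : ℝ) ^ (2 * (β * k * r)) * (2 : ℝ) ^ (l * k)) := by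
        rw [← nsmul_eq_mul]
        refine Finset.sum_le_card_nsmul _ _ _ fun ω hω => ?_
        have h2 := W_had P hP.pr ω
        rw [(Finset.mem_filter.1 hω).2] at h2
        refine h2.trans (mul_le_mul ((hNpow _).trans (le_of_eq ?_)) (le_of_eq ?_)
          (by positivity) (by positivity))
        · congr 1
          push_cast
          ring
        · rw [hkl, ← Real.rpow_natCast, ← Real.rpow_mul (by norm_num), ← hkl]
      refine h1.trans ((mul_le_mul_of_nonneg_right (hcnt hr1) (by positivity)).trans ?_)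
      have e1 : (2 : ℝ) ^ (2 * l + 2 * k + 2 * r - γ * (r * k)) * Q *
          ((2 : ℝ) ^ (2 * (β * k * r)) * (2 : ℝ) ^ (l * k)) =
          (2 : ℝ) ^ ((2 * l + 2 * k + 2 * r - γ * (r * k)) + (2 * (β * k * r) + l * k)) * Q := by
        rw [Real.rpow_add (by norm_num) (2 * l + 2 * k + 2 * r - γ * (r * k)),
          Real.rpow_add (by norm_num) (2 * (β * k * r))]
        ring
      rw [e1]
      refine mul_le_mul_of_nonneg_right ?_ hQ0.le
      refine Real.rpow_le_rpow_of_exponent_le (by norm_num) ?_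
      have h2 : (2 * l + 2 * k + 2 * r - γ * (r * k)) + (2 * (β * k * r) + l * k) =
          -(g1 * r * k) + l * k + 2 * l + 2 * k + 2 * r := by
        rw [hg1]; ring
      rw [h2]
      have h3 : g1 * k * k ≤ 100 * (g1 * r * k) := by
        have h6 := mul_le_mul_of_nonneg_left hk100 (mul_nonneg hg1p.le hk0.le)
        linarith
      have h4 : l * k ≤ g1 / 400 * k * k := mul_le_mul_of_nonneg_right hlg hk0.le
      have h5 : 1200 * (k : ℝ) ≤ g1 * k * k := mul_le_mul_of_nonneg_right hkg' hk0.le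
      linarith
  refine (Finset.sum_le_sum hpiece).trans ?_
  rw [Finset.sum_const, Finset.card_range, nsmul_eq_mul, ← mul_assoc]
  refine mul_le_mul_of_nonneg_right ?_ hQ0.le
  have h1 : ((k + 1 : ℕ) : ℝ) ≤ (2 : ℝ) ^ (k : ℝ) := by
    rw [Real.rpow_natCast]
    exact_mod_cast Nat.lt_two_pow_self
  calc ((k + 1 : ℕ) : ℝ) * (2 : ℝ) ^ (-(3 * k : ℝ)) ≤ (2 : ℝ) ^ (k : ℝ) * (2 : ℝ) ^ (-(3 * k : ℝ)) :=
        mul_le_mul_of_nonneg_right h1 (by positivity)
    _ = (2 : ℝ) ^ (-(2 : ℝ) * k) := by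
        rw [← Real.rpow_add (by norm_num)]
        congr 1
        ring

/-- **leaf (5) of `M67Stmt`**, `β ≤ 1/8`, sixth moment, rank rate `3/4` -/
theorem hold {β : ℝ} (hβ : 0 < β) (hβ8 : β ≤ 1 / 8) (hrat : StmtRat (3 / 4)) (hbad : StmtBadProb)
    (hM6 : StmtMom 3 β) : StmtHold β :=
  hold_gen hβ (by linarith) (by linarith [gam_lb]) (ratG_of hrat) hbad hM6

end Top

end Vale.Agent.P160.Half.Hold937
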