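import Vale.Agent.P160.Half.M67Stmt

/-! # P160: `StmtLaw` of `M67Stmt` (change of law) -/

namespace Vale.Agent.P160.Half.M67.H773

open Finset Vale.Agent.P160 Vale.Agent.P160.Half Vale.Agent.P160.Half.Flat

/-- entry domination gives domination of sums over product spaces -/
theorem dom_fun {ι Ω Ω' : Type} [Fintype ι] [DecidableEq ι] [Fintype Ω] [Fintype Ω']
    [DecidableEq Ω] [DecidableEq Ω'] (e : Ω → ℤ) (e' : Ω' → ℤ) (c : ℝ) (hc : 0 ≤ c)
    (h : ∀ v : ℤ, ((univ.filter fun w => e w = v).card : ℝ) ≤
      c * (univ.filter fun w => e' w = v).card)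
    (F : (ι → ℤ) → ℝ) (hF : ∀ x, 0 ≤ F x) :
    ∑ ω : ι → Ω, F (fun i => e (ω i)) ≤ c ^ Fintype.card ι * ∑ ω : ι → Ω', F (fun i => e' (ω i)) := by
  classical
  set S : Finset (ι → ℤ) := (univ : Finset (ι → Ω)).image fun ω i => e (ω i) with hS
  have h1 : ∑ ω : ι → Ω, F (fun i => e (ω i)) =
      ∑ x ∈ S, ((univ.filter fun ω : ι → Ω => (fun i => e (ω i)) = x).card : ℝ) * F x := by
    rw [← Finset.sum_fiberwise_of_maps_to (s := (univ : Finset (ι → Ω))) (t := S)
      (g := fun ω i => e (ω i)) (fun ω _ => Finset.mem_image_of_mem _ (mem_univ ω))]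
    refine Finset.sum_congr rfl fun x _ => ?_
    rw [Finset.sum_congr rfl (g := fun _ => F x)]
    · rw [Finset.sum_const, nsmul_eq_mul]
    · intro ω hω
      rw [(mem_filter.1 hω).2]
  have h2 : ∑ x ∈ S, ((univ.filter fun ω : ι → Ω' => (fun i => e' (ω i)) = x).card : ℝ) * F x ≤
      ∑ ω : ι → Ω', F (fun i => e' (ω i)) := by
    calc ∑ x ∈ S, ((univ.filter fun ω : ι → Ω' => (fun i => e' (ω i)) = x).card : ℝ) * F x
        = ∑ x ∈ S, ∑ ω ∈ univ.filter fun ω : ι → Ω' => (fun i => e' (ω i)) = x,
            F (fun i => e' (ω i)) := by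
          refine Finset.sum_congr rfl fun x _ => ?_
          rw [Finset.sum_congr rfl (g := fun _ => F x)]
          · rw [Finset.sum_const, nsmul_eq_mul]
          · intro ω hω
            rw [(mem_filter.1 hω).2]
      _ = ∑ ω ∈ (univ : Finset (ι → Ω')).filter (fun ω => (fun i => e' (ω i)) ∈ S),
            F (fun i => e' (ω i)) := by
          rw [← Finset.sum_fiberwise_of_maps_to
            (s := (univ : Finset (ι → Ω')).filter (fun ω => (fun i => e' (ω i)) ∈ S)) (t := S)
            (g := fun ω i => e' (ω i)) (fun ω hω => (mem_filter.1 hω).2)]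
          refine Finset.sum_congr rfl fun x hx => ?_
          refine Finset.sum_congr ?_ fun _ _ => rfl
          ext ω
          simp only [mem_filter, mem_univ, true_and]
          constructor
          · intro hh
            exact ⟨by rw [hh]; exact hx, hh⟩
          · intro hh
            exact hh.2
      _ ≤ _ := Finset.sum_le_sum_of_subset_of_nonneg (Finset.filter_subset _ _)
            (fun _ _ _ => hF _)
  have hcard : ∀ {O : Type} [Fintype O] [DecidableEq O] (f : O → ℤ) (x : ι → ℤ),
      (univ.filter fun ω : ι → O => (fun i => f (ω i)) = x).card =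
        ∏ i, (univ.filter fun w => f w = x i).card := by
    intro O _ _ f x
    rw [← Fintype.card_piFinset]
    congr 1
    ext ω
    simp only [mem_filter, mem_univ, true_and, Fintype.mem_piFinset]
    exact funext_iff
  have h3 : ∀ x : ι → ℤ, ((univ.filter fun ω : ι → Ω => (fun i => e (ω i)) = x).card : ℝ) ≤
      c ^ Fintype.card ι * ((univ.filter fun ω : ι → Ω' => (fun i => e' (ω i)) = x).card : ℝ) := by
    intro x
    rw [hcard, hcard]
    push_cast
    calc ∏ i, ((univ.filter fun w => e w = x i).card : ℝ)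
        ≤ ∏ i, (c * (univ.filter fun w => e' w = x i).card) :=
          Finset.prod_le_prod (fun _ _ => by positivity) (fun i _ => h (x i))
      _ = _ := by rw [Finset.prod_mul_distrib, Finset.prod_const, Finset.card_univ]
  rw [h1]
  calc ∑ x ∈ S, ((univ.filter fun ω : ι → Ω => (fun i => e (ω i)) = x).card : ℝ) * F x
      ≤ ∑ x ∈ S, c ^ Fintype.card ι *
          ((univ.filter fun ω : ι → Ω' => (fun i => e' (ω i)) = x).card : ℝ) * F x :=
        Finset.sum_le_sum fun x _ => mul_le_mul_of_nonneg_right (h3 x) (hF x)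
    _ = c ^ Fintype.card ι *
          ∑ x ∈ S, ((univ.filter fun ω : ι → Ω' => (fun i => e' (ω i)) = x).card : ℝ) * F x := by
        rw [Finset.mul_sum]
        exact Finset.sum_congr rfl fun x _ => by ring
    _ ≤ _ := mul_le_mul_of_nonneg_left h2 (by positivity)

theorem card_stL (k : ℕ) (hk : 0 < k) (v : ℤ) :
    ((univ.filter fun w : Fin (8 * k) => stL (2 * k - 1) w = v).card : ℝ) ≤
      (2 * k + 1) * (univ.filter fun w : Bool × Bool => xi w = v).card := by
  have hxi : ∀ v : ℤ, (univ.filter fun w : Bool × Bool => xi w = v).card =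
      if v = 0 then 2 else if v = 1 ∨ v = -1 then 1 else 0 := by
    intro v
    by_cases h0 : v = 0
    · subst h0; decide
    by_cases h1 : v = 1
    · subst h1; decide
    by_cases h2 : v = -1
    · subst h2; decide
    rw [if_neg h0, if_neg (by tauto), Finset.card_eq_zero, Finset.filter_eq_empty_iff]
    rintro ⟨a, b⟩ - hab
    cases a <;> cases b <;> simp [xi] at hab <;> omega
  have hlt : 2 * k - 1 ≤ 8 * k := by omega
  rw [hxi]
  by_cases h1 : v = 1
  · subst h1
    have : (univ.filter fun w : Fin (8 * k) => stL (2 * k - 1) w = 1).card ≤ 2 * k - 1 := by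
      calc (univ.filter fun w : Fin (8 * k) => stL (2 * k - 1) w = 1).card
          ≤ (Finset.range (2 * k - 1)).card := by
            refine Finset.card_le_card_of_injOn (fun w => w.val) ?_
              (fun a _ b _ h => Fin.ext h)
            intro w hw
            have hw' : stL (2 * k - 1) w = 1 := (mem_filter.1 hw).2
            simp only [Finset.coe_range, Set.mem_Iio]
            unfold stL at hw'
            by_contra hcon
            rw [if_neg hcon] at hw'
            split_ifs at hw' <;> omega
        _ = _ := Finset.card_range _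
    have h2 : ((univ.filter fun w : Fin (8 * k) => stL (2 * k - 1) w = 1).card : ℝ) ≤
        (2 * k : ℝ) := by
      have : (univ.filter fun w : Fin (8 * k) => stL (2 * k - 1) w = 1).card ≤ 2 * k := by omega
      exact_mod_cast this
    simp
    linarith
  by_cases h2 : v = -1
  · subst h2
    have : (univ.filter fun w : Fin (8 * k) => stL (2 * k - 1) w = -1).card ≤
        (Finset.Ico (2 * k - 1) (2 * (2 * k - 1))).card := by
      refine Finset.card_le_card_of_injOn (fun w => w.val) ?_ (fun a _ b _ h => Fin.ext h)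
      intro w hw
      have hw' : stL (2 * k - 1) w = -1 := (mem_filter.1 hw).2
      simp only [Finset.coe_Ico, Set.mem_Ico]
      unfold stL at hw'
      split_ifs at hw' <;> omega
    rw [Nat.card_Ico] at this
    have h3 : ((univ.filter fun w : Fin (8 * k) => stL (2 * k - 1) w = -1).card : ℝ) ≤
        (2 * k : ℝ) := by
      have : (univ.filter fun w : Fin (8 * k) => stL (2 * k - 1) w = -1).card ≤ 2 * k := by omega
      exact_mod_cast this
    simp
    linarith
  by_cases h0 : v = 0
  · subst h0
    have : (univ.filter fun w : Fin (8 * k) => stL (2 * k - 1) w = 0).card ≤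
        (Finset.Ico (2 * (2 * k - 1)) (8 * k)).card := by
      refine Finset.card_le_card_of_injOn (fun w => w.val) ?_ (fun a _ b _ h => Fin.ext h)
      intro w hw
      have hw' : stL (2 * k - 1) w = 0 := (mem_filter.1 hw).2
      simp only [Finset.coe_Ico, Set.mem_Ico]
      unfold stL at hw'
      have := w.isLt
      split_ifs at hw' <;> omega
    rw [Nat.card_Ico] at this
    have h3 : ((univ.filter fun w : Fin (8 * k) => stL (2 * k - 1) w = 0).card : ℝ) ≤
        (4 * k + 2 : ℝ) := by
      have : (univ.filter fun w : Fin (8 * k) => stL (2 * k - 1) w = 0).card ≤ 4 * k + 2 := by omega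
      exact_mod_cast this
    simp
    linarith
  · have : (univ.filter fun w : Fin (8 * k) => stL (2 * k - 1) w = v).card = 0 := by
      rw [Finset.card_eq_zero, Finset.filter_eq_empty_iff]
      intro w _ hw
      unfold stL at hw
      split_ifs at hw <;> omega
    rw [this, if_neg h0, if_neg (by tauto)]
    simp

/-- (6) CHANGE OF LAW -/
theorem stmtLaw : StmtLaw := by
  classical
  intro k hk F hF
  have hk' : (0 : ℝ) < k := by exact_mod_cast hk
  have key := dom_fun (ι := Fin k × Fin k) (stL (2 * k - 1) : Fin (8 * k) → ℤ) xi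
    (2 * k + 1 : ℝ) (by positivity) (card_stL k hk)
    (fun x => F (Matrix.of fun i j => x (i, j))) (fun x => hF _)
  have e1 : ∑ ω : Fin k × Fin k → Fin (8 * k),
      F (Matrix.of fun i j => stL (2 * k - 1) (ω (i, j))) =
        ∑ ω : Fin k → Fin k → Fin (8 * k), F (mt (stL (2 * k - 1)) ω) := by
    refine Fintype.sum_equiv (Equiv.curry _ _ _) _ _ fun ω => rfl
  have e2 : ∑ ω : Fin k × Fin k → Bool × Bool, F (Matrix.of fun i j => xi (ω (i, j))) =
        ∑ ω : Fin k → Fin k → Bool × Bool, F (mt xi ω) := by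
    refine Fintype.sum_equiv (Equiv.curry _ _ _) _ _ fun ω => rfl
  rw [e1, e2] at key
  rw [Fintype.card_prod, Fintype.card_fin] at key
  have hS : 0 ≤ ∑ ω : Fin k → Fin k → Bool × Bool, F (mt xi ω) :=
    Finset.sum_nonneg fun _ _ => hF _
  have hexp : ((2 * k + 1 : ℝ)) ^ (k * k) * 4 ^ (k * k) ≤
      Real.exp (k / 2) * ((8 * k : ℕ) : ℝ) ^ (k * k) := by
    have h1 : (2 * k + 1 : ℝ) * 4 = ((8 * k : ℕ) : ℝ) * (1 + 1 / (2 * k)) := by
      push_cast
      field_simp
      ring
    rw [← mul_pow, h1, mul_pow, mul_comm]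
    refine mul_le_mul_of_nonneg_right ?_ (by positivity)
    calc (1 + 1 / (2 * (k : ℝ))) ^ (k * k) ≤ (Real.exp (1 / (2 * (k : ℝ)))) ^ (k * k) := by
          refine pow_le_pow_left₀ (by positivity) ?_ _
          have := Real.add_one_le_exp (1 / (2 * (k : ℝ)))
          linarith
      _ = Real.exp (k / 2) := by
          rw [← Real.exp_nat_mul]
          congr 1
          push_cast
          field_simp
  calc (∑ ω : Fin k → Fin k → Fin (8 * k), F (mt (stL (2 * k - 1)) ω)) * (4 : ℝ) ^ (k * k)
      ≤ ((2 * k + 1 : ℝ) ^ (k * k) * ∑ ω : Fin k → Fin k → Bool × Bool, F (mt xi ω)) *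
          (4 : ℝ) ^ (k * k) := mul_le_mul_of_nonneg_right key (by positivity)
    _ = ((2 * k + 1 : ℝ) ^ (k * k) * 4 ^ (k * k)) *
          ∑ ω : Fin k → Fin k → Bool × Bool, F (mt xi ω) := by ring
    _ ≤ _ := mul_le_mul_of_nonneg_right hexp hS

end Vale.Agent.P160.Half.M67.H773
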