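import Mathlib

/-! # P160, block (M), (A) of note 11331: number of subgroups of `(ℤ/N)²`, `N` squarefree. -/

namespace Vale.Agent.P160.Half.SubG416

open Finset

/-- torsion subgroup -/
def tor (G : Type*) [AddCommGroup G] (p : ℕ) : AddSubgroup G := (nsmulAddMonoidHom (α := G) p).ker

theorem mem_tor {G : Type*} [AddCommGroup G] {p : ℕ} {x : G} : x ∈ tor G p ↔ p • x = 0 := by
  unfold tor
  rw [AddMonoidHom.mem_ker]
  rfl

/-- decomposition of an element of a group of squarefree exponent -/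
theorem decomp {G : Type*} [AddCommGroup G] (N : ℕ) (hN : Squarefree N) (hG : ∀ x : G, N • x = 0) :
    ∃ μ : ℕ → ℤ, (∀ x : G, ∑ p ∈ N.primeFactors, (μ p * ∏ q ∈ N.primeFactors \ {p}, (q : ℤ)) • x = x) ∧
      ∀ x : G, ∀ p ∈ N.primeFactors, (μ p * ∏ q ∈ N.primeFactors \ {p}, (q : ℤ)) • x ∈ tor G p := by
  have hprod : ∏ p ∈ N.primeFactors, p = N := Nat.prod_primeFactors_of_squarefree hN
  have key : ∃ μ : ℕ → ℤ, ∀ x : G,
      ∑ p ∈ N.primeFactors, (μ p * ∏ q ∈ N.primeFactors \ {p}, (q : ℤ)) • x = x := by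
    by_cases hne : N.primeFactors.Nonempty
    · have hco : Pairwise (Function.onFun IsCoprime fun i : N.primeFactors => ((i : ℕ) : ℤ)) := by
        intro i j hij
        have hi := Nat.prime_of_mem_primeFactors i.2
        have hj := Nat.prime_of_mem_primeFactors j.2
        rw [Function.onFun, Nat.isCoprime_iff_coprime]
        exact (Nat.coprime_primes hi hj).2 fun h => hij (Subtype.ext h)
      obtain ⟨μ, hμ⟩ := (exists_sum_eq_one_iff_pairwise_coprime
        (s := fun p : ℕ => (p : ℤ)) hne).2 hco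
      refine ⟨μ, fun x => ?_⟩
      rw [← sum_smul, hμ, one_smul]
    · rw [not_nonempty_iff_eq_empty] at hne
      refine ⟨fun _ => 0, fun x => ?_⟩
      rw [hne] at hprod ⊢
      have h1 : N = 1 := by simpa using hprod.symm
      have := hG x
      rw [h1, one_smul] at this
      rw [this]
      simp
  obtain ⟨μ, hμ⟩ := key
  refine ⟨μ, hμ, fun x p hp => ?_⟩
  rw [mem_tor, ← natCast_zsmul, smul_smul]
  have h2 : ((p : ℤ) * (μ p * ∏ q ∈ N.primeFactors \ {p}, (q : ℤ))) = μ p * (N : ℤ) := by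
    have h3 : (p : ℤ) * ∏ q ∈ N.primeFactors \ {p}, (q : ℤ) = (N : ℤ) := by
      have h4 := Finset.prod_sdiff (f := fun q : ℕ => (q : ℤ))
        (singleton_subset_iff.2 hp : ({p} : Finset ℕ) ⊆ N.primeFactors)
      rw [prod_singleton] at h4
      rw [mul_comm, h4, ← Nat.cast_prod, hprod]
    rw [← h3]; ring
  rw [h2, mul_smul, natCast_zsmul, hG, smul_zero]

/-- a subgroup is determined by its primary parts -/
theorem inj {G : Type*} [AddCommGroup G] (N : ℕ) (hN : Squarefree N) (hG : ∀ x : G, N • x = 0) :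
    Function.Injective (fun (H : AddSubgroup G) (p : N.primeFactors) =>
      H.addSubgroupOf (tor G p)) := by
  obtain ⟨μ, h1, h2⟩ := decomp N hN hG
  have key : ∀ H H' : AddSubgroup G, (∀ p : N.primeFactors,
      H.addSubgroupOf (tor G p) = H'.addSubgroupOf (tor G p)) → H ≤ H' := by
    intro H H' h x hx
    rw [← h1 x]
    refine sum_mem fun p hp => ?_
    have h3 : (μ p * ∏ q ∈ N.primeFactors \ {p}, (q : ℤ)) • x ∈ H := zsmul_mem hx _
    have h4 := h ⟨p, hp⟩
    have h5 : (⟨_, h2 x p hp⟩ : tor G p) ∈ H.addSubgroupOf (tor G p) :=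
      AddSubgroup.mem_addSubgroupOf.2 h3
    rw [h4] at h5
    exact AddSubgroup.mem_addSubgroupOf.1 h5
  intro H H' h
  have h' : ∀ p : N.primeFactors, H.addSubgroupOf (tor G p) = H'.addSubgroupOf (tor G p) :=
    fun p => congrFun h p
  exact le_antisymm (key H H' h') (key H' H fun p => (h' p).symm)

/-- subgroups of a group of order `p²` with no element of order `p²`: here only the order is used -/
theorem card_sub {K : Type*} [AddCommGroup K] [Finite K] (p : ℕ) (hp : p.Prime)
    (hK : Nat.card K = p ^ 2) : Nat.card (AddSubgroup K) ≤ p + 3 := by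
  classical
  have := Fintype.ofFinite K
  have : Fintype (AddSubgroup K) := Fintype.ofFinite _
  rw [Nat.card_eq_fintype_card]
  set S : Finset (AddSubgroup K) := univ.filter fun H => H ≠ ⊥ ∧ H ≠ ⊤ with hS
  have hcard : ∀ H ∈ S, Nat.card H = p := by
    intro H hH
    rw [hS, mem_filter] at hH
    have h1 : Nat.card H ∣ p ^ 2 := hK ▸ AddSubgroup.card_addSubgroup_dvd_card H
    obtain ⟨i, hi, h2⟩ := (Nat.dvd_prime_pow hp).1 h1
    interval_cases i
    · exfalso
      rw [pow_zero] at h2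
      exact hH.2.1 (AddSubgroup.card_eq_one.1 h2)
    · rw [h2, pow_one]
    · exfalso
      exact hH.2.2 (AddSubgroup.eq_top_of_card_eq H (by rw [h2, hK]))
  have hdisj : ∀ H ∈ S, ∀ H' ∈ S, H ≠ H' → H ⊓ H' = ⊥ := by
    intro H hH H' hH' hne
    have h1 : Nat.card (H ⊓ H' : AddSubgroup K) ∣ p := by
      rw [← hcard H hH]
      exact AddSubgroup.card_dvd_of_le inf_le_left
    rcases (Nat.dvd_prime hp).1 h1 with h2 | h2
    · exact AddSubgroup.card_eq_one.1 h2
    · exfalso
      apply hne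
      have h3 : H ⊓ H' = H := AddSubgroup.eq_of_le_of_card_ge inf_le_left (by rw [h2, hcard H hH])
      have h4 : H ⊓ H' = H' := AddSubgroup.eq_of_le_of_card_ge inf_le_right (by rw [h2, hcard H' hH'])
      rw [← h3]; exact h4
  have hb : (S.biUnion fun H => univ.filter fun x : K => x ∈ H ∧ x ≠ 0).card = S.card * (p - 1) := by
    rw [card_biUnion]
    · rw [sum_const_nat (m := p - 1)]
      intro H hH
      have h1 : (univ.filter fun x : K => x ∈ H ∧ x ≠ 0) = (univ.filter fun x : K => x ∈ H).erase 0 := by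
        ext x; simp [and_comm]
      rw [h1, card_erase_of_mem (by simp [H.zero_mem])]
      congr 1
      rw [← hcard H hH, Nat.card_eq_fintype_card, Fintype.card_subtype]
    · intro H hH H' hH' hne
      rw [Function.onFun, disjoint_left]
      intro x hx hx'
      rw [mem_filter] at hx hx'
      have h1 : x ∈ H ⊓ H' := ⟨hx.2.1, hx'.2.1⟩
      rw [hdisj H hH H' hH' hne, AddSubgroup.mem_bot] at h1
      exact hx.2.2 h1
  have hle : (S.biUnion fun H => univ.filter fun x : K => x ∈ H ∧ x ≠ 0).card ≤ p ^ 2 - 1 := by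
    have h1 : (S.biUnion fun H => univ.filter fun x : K => x ∈ H ∧ x ≠ 0) ⊆ univ.erase (0 : K) := by
      intro x hx
      rw [mem_biUnion] at hx
      obtain ⟨H, -, hx⟩ := hx
      exact mem_erase.2 ⟨(mem_filter.1 hx).2.2, mem_univ _⟩
    refine (card_le_card h1).trans ?_
    rw [card_erase_of_mem (mem_univ _), card_univ, ← Nat.card_eq_fintype_card, hK]
  have hp2 := hp.two_le
  have hS1 : S.card ≤ p + 1 := by
    rw [hb] at hle
    have h1 : p ^ 2 - 1 = (p + 1) * (p - 1) := by
      obtain ⟨q, rfl⟩ : ∃ q, p = q + 1 := ⟨p - 1, by omega⟩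
      rw [Nat.add_sub_cancel]
      have : (q + 1) ^ 2 = (q + 1 + 1) * q + 1 := by ring
      rw [this]; simp
    rw [h1] at hle
    exact Nat.le_of_mul_le_mul_right hle (by omega)
  have hall : (univ : Finset (AddSubgroup K)) ⊆ insert ⊥ (insert ⊤ S) := by
    intro H _
    by_cases h1 : H = ⊥
    · rw [h1]; exact mem_insert_self _ _
    · by_cases h2 : H = ⊤
      · rw [h2]; exact mem_insert_of_mem (mem_insert_self _ _)
      · exact mem_insert_of_mem (mem_insert_of_mem (mem_filter.2 ⟨mem_univ _, h1, h2⟩))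
  calc Fintype.card (AddSubgroup K) = (univ : Finset (AddSubgroup K)).card := rfl
    _ ≤ (insert ⊥ (insert ⊤ S)).card := card_le_card hall
    _ ≤ (insert ⊤ S).card + 1 := card_insert_le _ _
    _ ≤ S.card + 1 + 1 := by have := card_insert_le ⊤ S; omega
    _ ≤ p + 3 := by omega

theorem card_tor (N : ℕ) [NeZero N] (p : ℕ) (hp : p ∈ N.primeFactors) :
    Nat.card (tor (ZMod N × ZMod N) p) = p ^ 2 := by
  have h1 : Nat.card (tor (ZMod N) p) = p := by
    unfold tor
    rw [IsAddCyclic.card_nsmulAddMonoidHom_ker, Nat.card_zmod]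
    exact Nat.gcd_eq_right (Nat.dvd_of_mem_primeFactors hp)
  have h2 : tor (ZMod N × ZMod N) p = (tor (ZMod N) p).prod (tor (ZMod N) p) := by
    ext ⟨a, b⟩
    rw [AddSubgroup.mem_prod, mem_tor, mem_tor, mem_tor, Prod.ext_iff]
    simp
  rw [h2, Nat.card_congr (AddSubgroup.prodEquiv _ _).toEquiv, Nat.card_prod, h1, sq]

/-- number of subgroups of `(ℤ/N)²` -/
theorem card_le (N : ℕ) [NeZero N] (hN : Squarefree N) :
    Nat.card (AddSubgroup (ZMod N × ZMod N)) ≤ ∏ p ∈ N.primeFactors, (p + 3) := by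
  classical
  have hG : ∀ x : ZMod N × ZMod N, N • x = 0 := by
    rintro ⟨a, b⟩
    simp [Prod.ext_iff]
  have h1 := inj N hN hG
  have : Finite (ZMod N × ZMod N) := inferInstance
  have : ∀ p : N.primeFactors, Finite (AddSubgroup (tor (ZMod N × ZMod N) p)) :=
    fun p => inferInstance
  refine (Nat.card_le_card_of_injective _ h1).trans ?_
  rw [Nat.card_pi, ← prod_coe_sort N.primeFactors fun p => p + 3]
  exact prod_le_prod' fun p _ => card_sub (p : ℕ) (Nat.prime_of_mem_primeFactors p.2)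
    (card_tor N p p.2)

theorem card_primeFactors_le (N k : ℕ) (hN : Squarefree N) (h : N ≤ 2 ^ k) :
    N.primeFactors.card ≤ k := by
  have h1 : 2 ^ N.primeFactors.card ≤ N := by
    conv_rhs => rw [← Nat.prod_primeFactors_of_squarefree hN]
    rw [← prod_const]
    exact prod_le_prod' fun p hp => (Nat.prime_of_mem_primeFactors hp).two_le
  exact (Nat.pow_le_pow_iff_right (by norm_num)).1 (h1.trans h)

/-- `∏ (p + 3) ≤ e³ N` -/
theorem prod_le (N k : ℕ) (hk : 0 < k) (hN : Squarefree N) (hp : ∀ p ∈ N.primeFactors, k ≤ p)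
    (h : N ≤ 2 ^ k) : ((∏ p ∈ N.primeFactors, (p + 3) : ℕ) : ℝ) ≤ N * Real.exp 3 := by
  have h1 : ((∏ p ∈ N.primeFactors, (p + 3) : ℕ) : ℝ) ≤
      ∏ p ∈ N.primeFactors, ((p : ℝ) * Real.exp (3 / k)) := by
    push_cast
    refine prod_le_prod (fun p _ => by positivity) fun p hp' => ?_
    have hkp : (k : ℝ) ≤ p := by exact_mod_cast hp p hp'
    have hk0 : (0 : ℝ) < k := by exact_mod_cast hk
    have h2 := Real.add_one_le_exp (3 / (k : ℝ))
    have h3 : (p : ℝ) * (3 / k + 1) ≤ p * Real.exp (3 / k) := by gcongr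
    have h4 : (3 : ℝ) ≤ p * (3 / k) := by
      rw [mul_div_assoc', le_div_iff₀ hk0]; nlinarith
    linarith
  refine h1.trans ?_
  rw [prod_mul_distrib, prod_const]
  have h2 : (∏ p ∈ N.primeFactors, (p : ℝ)) = N := by
    rw [← Nat.cast_prod, Nat.prod_primeFactors_of_squarefree hN]
  rw [h2, ← Real.exp_nat_mul]
  gcongr
  have h3 : (N.primeFactors.card : ℝ) ≤ k := by exact_mod_cast card_primeFactors_le N k hN h
  have hk0 : (0 : ℝ) < k := by exact_mod_cast hk
  rw [mul_div_assoc', div_le_iff₀ hk0]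
  linarith

theorem card_le_exp (N k : ℕ) [NeZero N] (hk : 0 < k) (hN : Squarefree N)
    (hp : ∀ p ∈ N.primeFactors, k ≤ p) (h : N ≤ 2 ^ k) :
    (Nat.card (AddSubgroup (ZMod N × ZMod N)) : ℝ) ≤ N * Real.exp 3 :=
  le_trans (by exact_mod_cast card_le N hN) (prod_le N k hk hN hp h)

end Vale.Agent.P160.Half.SubG416
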