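import Vale.Agent.P160.Half.M67Stmt2
import Vale.Agent.P160.Half.SubG416

/-! # P160-HALF (M): `nice' : StmtSpread → StmtCRT → StmtNice'`, `nice753 : StmtSubgroups → StmtSpread → StmtCRT → StmtNice` (helper753) -/

namespace Vale.Agent.P160.Half.M67

open Finset Vale.Agent.P160 Vale.Agent.P160.Half Vale.Agent.P160.Half.Flat

namespace Nice753

lemma cfL_le {k : ℕ} (hk : 0 < k) {z : ℂ} (hz : ‖z‖ = 1) :
    0 ≤ cfL (2 * k - 1) (8 * k) z ∧ cfL (2 * k - 1) (8 * k) z ≤ cf 8 z := by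
  have h := abs_le.1 (Complex.abs_re_le_norm z)
  rw [hz] at h
  have hk' : (1 : ℝ) ≤ k := by exact_mod_cast hk
  have hL : (((2 * k - 1 : ℕ) : ℕ) : ℝ) = 2 * k - 1 := by
    rw [Nat.cast_sub (by omega)]; push_cast; ring
  have hM : (((8 * k : ℕ) : ℕ) : ℝ) = 8 * k := by push_cast; ring
  unfold cfL cf
  rw [hL, hM]
  have h1 : (2 * (2 * (k : ℝ) - 1) / (8 * k)) = 1 / 2 - 1 / (4 * k) := by
    field_simp
    ring
  rw [h1]
  have h2 : (0 : ℝ) < 1 / (4 * k) := by positivity
  have h3 : (1 : ℝ) / (4 * k) ≤ 1 / 4 := by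
    rw [div_le_div_iff₀ (by positivity) (by norm_num)]
    linarith
  constructor
  · nlinarith [h.1]
  · push_cast
    nlinarith [h.2]

/-- the law of `stL (2k-1)` is dominated by `cf 8` -/
lemma row_le {G : Type} [AddCommGroup G] [Fintype G] [DecidableEq G] {m k : ℕ} (hk : 0 < k)
    (y : Fin m → G) :
    (Fintype.card G : ℝ) *
      ((univ.filter fun x : Fin m → Fin (8 * k) => ∑ c, stL (2 * k - 1) (x c) • y c = 0).card : ℝ) ≤
      ((8 * k : ℕ) : ℝ) ^ m * gZ 8 y := by
  have h := prL_zero_eq (L := 2 * k - 1) (M := 8 * k) (by omega) (by omega) y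
  have hM : (0 : ℝ) < ((8 * k : ℕ) : ℝ) ^ m := by
    have : (0 : ℝ) < ((8 * k : ℕ) : ℝ) := by exact_mod_cast (by omega : 0 < 8 * k)
    positivity
  have h1 : ((univ.filter fun x : Fin m → Fin (8 * k) => ∑ c, stL (2 * k - 1) (x c) • y c = 0).card : ℝ) =
      ((8 * k : ℕ) : ℝ) ^ m * prL (2 * k - 1) (8 * k) y 0 := by
    unfold prL gwL
    rw [Fintype.card_fin, mul_div_cancel₀ _ hM.ne']
  rw [h1]
  calc (Fintype.card G : ℝ) * (((8 * k : ℕ) : ℝ) ^ m * prL (2 * k - 1) (8 * k) y 0)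
      = ((8 * k : ℕ) : ℝ) ^ m * (Fintype.card G * prL (2 * k - 1) (8 * k) y 0) := by ring
    _ = ((8 * k : ℕ) : ℝ) ^ m * ∑ ψ : AddChar G ℂ, ∏ e, cfL (2 * k - 1) (8 * k) (ψ (y e)) := by rw [h]
    _ ≤ ((8 * k : ℕ) : ℝ) ^ m * gZ 8 y := by
        refine mul_le_mul_of_nonneg_left ?_ hM.le
        unfold gZ gP
        refine sum_le_sum fun ψ _ => prod_le_prod (fun e _ => ?_) fun e _ => ?_
        · exact (cfL_le hk (norm_addChar ψ _)).1
        · exact (cfL_le hk (norm_addChar ψ _)).2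

lemma pow_le_three (k : ℕ) (hk : 0 < k) : (1 + 1 / (k : ℝ)) ^ k ≤ 3 := by
  have hk' : (0 : ℝ) < k := by exact_mod_cast hk
  have h1 : (1 + 1 / (k : ℝ)) ≤ Real.exp (1 / k) := by
    have := Real.add_one_le_exp (1 / (k : ℝ)); linarith
  have h2 : (1 + 1 / (k : ℝ)) ^ k ≤ Real.exp (1 / k) ^ k := pow_le_pow_left₀ (by positivity) h1 k
  rw [← Real.exp_nat_mul, mul_one_div_cancel hk'.ne'] at h2
  have := Real.exp_one_lt_d9
  linarith

open scoped Classical in
/-- number of tuples generating a given subgroup -/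
lemma card_gen_le {G : Type} [AddCommGroup G] [Fintype G] (k : ℕ) (H : AddSubgroup G) :
    ((univ.filter fun z : Fin k → G => AddSubgroup.closure (Set.range z) = H).card : ℝ) ≤
      (Nat.card H : ℝ) ^ k := by
  have h1 : (univ.filter fun z : Fin k → G => AddSubgroup.closure (Set.range z) = H) ⊆
      Fintype.piFinset fun _ : Fin k => (univ.filter fun g : G => g ∈ H) := by
    intro z hz
    rw [mem_filter] at hz
    rw [Fintype.mem_piFinset]
    intro j
    rw [mem_filter]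
    refine ⟨mem_univ _, ?_⟩
    rw [← hz.2]
    exact AddSubgroup.subset_closure ⟨j, rfl⟩
  have h2 := card_le_card h1
  rw [Fintype.card_piFinset, prod_const, card_univ, Fintype.card_fin] at h2
  have h3 : (univ.filter fun g : G => g ∈ H).card = Nat.card H := by
    rw [Nat.card_eq_fintype_card, Fintype.card_subtype]
  rw [h3] at h2
  exact_mod_cast h2

open scoped Classical in
lemma sum_inv_le {G : Type} [AddCommGroup G] [Fintype G] (k : ℕ) :
    ∑ z : Fin k → G, 1 / (Nat.card (AddSubgroup.closure (Set.range z)) : ℝ) ^ k ≤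
      Nat.card (AddSubgroup G) := by
  let _ : Fintype (AddSubgroup G) := Fintype.ofFinite _
  rw [← sum_fiberwise (s := (univ : Finset (Fin k → G))) (g := fun z => AddSubgroup.closure (Set.range z))]
  calc ∑ H : AddSubgroup G, ∑ z ∈ univ.filter (fun z : Fin k → G => AddSubgroup.closure (Set.range z) = H),
        1 / (Nat.card (AddSubgroup.closure (Set.range z)) : ℝ) ^ k
      = ∑ H : AddSubgroup G, ∑ _z ∈ univ.filter (fun z : Fin k → G => AddSubgroup.closure (Set.range z) = H),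
        1 / (Nat.card H : ℝ) ^ k := by
        refine sum_congr rfl fun H _ => sum_congr rfl fun z hz => ?_
        rw [mem_filter] at hz
        rw [hz.2]
    _ ≤ ∑ _H : AddSubgroup G, (1 : ℝ) := by
        refine sum_le_sum fun H _ => ?_
        rw [sum_const, nsmul_eq_mul]
        have hH : (0 : ℝ) < (Nat.card H : ℝ) ^ k := by
          have : (0 : ℝ) < Nat.card H := by exact_mod_cast Nat.card_pos
          positivity
        rw [mul_one_div, div_le_one hH]
        exact card_gen_le k H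
    _ = Nat.card (AddSubgroup G) := by
        rw [sum_const, card_univ, nsmul_eq_mul, mul_one, Nat.card_eq_fintype_card]

end Nice753

open Nice753

open scoped Classical in
theorem nice_core753 (h2 : StmtSpread) (h3 : StmtCRT) (k : ℕ) (hk : 0 < k) (P : Finset ℕ)
    (hP : ∀ p ∈ P, p.Prime) (s S : ℝ)
    (hS : (Nat.card (AddSubgroup (ZMod (∏ p ∈ P, p) × ZMod (∏ p ∈ P, p))) : ℝ) ≤ S) :
    ∑ ω ∈ (univ : Finset (Fin k → Fin k → Fin (8 * k))).filter
      (fun ω => ¬ Sparse P s (mt (stL (2 * k - 1)) ω) ∧ ¬ Bad P s (mt (stL (2 * k - 1)) ω)),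
      W P (mt (stL (2 * k - 1)) ω) ≤ 3 * S * ((8 * k : ℕ) : ℝ) ^ (k * k) := by
  have hN0 : (∏ p ∈ P, p) ≠ 0 := prod_ne_zero_iff.2 fun p hp => (hP p hp).ne_zero
  have hNZ : NeZero (∏ p ∈ P, p) := ⟨hN0⟩
  have hS0 : 0 ≤ S := le_trans (Nat.cast_nonneg _) hS
  set N : ℕ := ∏ p ∈ P, p with hN
  have hkr : (0 : ℝ) < k := by exact_mod_cast hk
  set Om : ℝ := ((8 * k : ℕ) : ℝ) with hOm
  have hOm0 : (0 : ℝ) < Om := by rw [hOm]; exact_mod_cast (by omega : 0 < 8 * k)
  set V : Finset (Fin k → ZMod N × ZMod N) :=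
    univ.filter fun z => gZ 8 (toCl z) ≤ 1 + 1 / k with hV
  -- pointwise
  have hpt : ∀ ω ∈ (univ : Finset (Fin k → Fin k → Fin (8 * k))).filter
      (fun ω => ¬ Sparse P s (mt (stL (2 * k - 1)) ω) ∧ ¬ Bad P s (mt (stL (2 * k - 1)) ω)),
      W P (mt (stL (2 * k - 1)) ω) ≤
        ∑ z ∈ V, if (∀ i, ∑ j, stL (2 * k - 1) (ω i j) • z j = 0) then (1 : ℝ) else 0 := by
    intro ω hω
    rw [mem_filter] at hω
    rw [(h3 k P hP _).2]
    have hsp := h2 k P hP hNZ s (mt (stL (2 * k - 1)) ω) hω.2.1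
    have hbad : ∀ z : Fin k → ZMod N × ZMod N, (∀ i, ∑ j, mt (stL (2 * k - 1)) ω i j • z j = 0) → z ∈ V := by
      intro z hz
      rw [hV, mem_filter]
      refine ⟨mem_univ _, ?_⟩
      by_contra hcon
      push Not at hcon
      exact hω.2.2 ⟨hNZ, z, hz, hsp z hz, hcon⟩
    rw [Nat.card_eq_fintype_card, Fintype.card_subtype]
    rw [← sum_filter, sum_const, nsmul_eq_mul, mul_one]
    refine Nat.cast_le.2 (card_le_card fun z hz => ?_)
    rw [mem_filter] at hz ⊢
    exact ⟨hbad z hz.2, hz.2⟩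
  -- number of matrices for one tuple
  have hcnt : ∀ z ∈ V, ∑ ω : Fin k → Fin k → Fin (8 * k),
      (if (∀ i, ∑ j, stL (2 * k - 1) (ω i j) • z j = 0) then (1 : ℝ) else 0) ≤
      (Om ^ k * (1 + 1 / k)) ^ k * (1 / (Nat.card (AddSubgroup.closure (Set.range z)) : ℝ) ^ k) := by
    intro z hz
    rw [hV, mem_filter] at hz
    set H := AddSubgroup.closure (Set.range z) with hH
    have hHc : (0 : ℝ) < Nat.card H := by exact_mod_cast Nat.card_pos
    set A : Finset (Fin k → Fin (8 * k)) := univ.filter fun x => ∑ j, stL (2 * k - 1) (x j) • z j = 0 with hA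
    have e1 : ∑ ω : Fin k → Fin k → Fin (8 * k),
        (if (∀ i, ∑ j, stL (2 * k - 1) (ω i j) • z j = 0) then (1 : ℝ) else 0) = (A.card : ℝ) ^ k := by
      rw [← sum_filter, sum_const, nsmul_eq_mul, mul_one]
      have e2 : ((univ : Finset (Fin k → Fin k → Fin (8 * k))).filter fun ω =>
          ∀ i, ∑ j, stL (2 * k - 1) (ω i j) • z j = 0) = Fintype.piFinset fun _ : Fin k => A := by
        ext ω
        simp [hA, Fintype.mem_piFinset]
      rw [e2, Fintype.card_piFinset, prod_const, card_univ, Fintype.card_fin]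
      push_cast
      rfl
    rw [e1]
    have e3 : (A.card : ℝ) ≤ Om ^ k * (1 + 1 / k) * (1 / Nat.card H) := by
      have e4 := row_le (k := k) hk (toCl z)
      have e5 : (univ.filter fun x : Fin k → Fin (8 * k) =>
          ∑ c, stL (2 * k - 1) (x c) • (toCl z) c = 0) = A := by
        rw [hA]
        refine filter_congr fun x _ => ?_
        constructor
        · intro h
          have := congrArg (fun g : H => (g : ZMod N × ZMod N)) h
          simpa [toCl] using this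
        · intro h
          apply Subtype.ext
          simpa [toCl] using h
      rw [e5, ← Nat.card_eq_fintype_card] at e4
      rw [mul_one_div, le_div_iff₀ hHc, mul_comm]
      refine e4.trans ?_
      exact mul_le_mul_of_nonneg_left hz.2 (by positivity)
    calc (A.card : ℝ) ^ k ≤ (Om ^ k * (1 + 1 / k) * (1 / Nat.card H)) ^ k :=
          pow_le_pow_left₀ (Nat.cast_nonneg _) e3 k
      _ = _ := by rw [mul_pow, one_div_pow]
  set FF : Finset (Fin k → Fin k → Fin (8 * k)) := (univ : Finset (Fin k → Fin k → Fin (8 * k))).filter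
      (fun ω => ¬ Sparse P s (mt (stL (2 * k - 1)) ω) ∧ ¬ Bad P s (mt (stL (2 * k - 1)) ω)) with hFF
  calc ∑ ω ∈ FF, W P (mt (stL (2 * k - 1)) ω)
      ≤ ∑ ω ∈ FF, ∑ z ∈ V, (if (∀ i, ∑ j, stL (2 * k - 1) (ω i j) • z j = 0) then (1 : ℝ) else 0) :=
        sum_le_sum hpt
    _ ≤ ∑ ω : Fin k → Fin k → Fin (8 * k),
        ∑ z ∈ V, (if (∀ i, ∑ j, stL (2 * k - 1) (ω i j) • z j = 0) then (1 : ℝ) else 0) := by
        refine sum_le_sum_of_subset_of_nonneg (subset_univ _) fun ω _ _ => ?_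
        refine sum_nonneg fun z _ => ?_
        split_ifs <;> norm_num
    _ = ∑ z ∈ V, ∑ ω : Fin k → Fin k → Fin (8 * k),
        (if (∀ i, ∑ j, stL (2 * k - 1) (ω i j) • z j = 0) then (1 : ℝ) else 0) := sum_comm
    _ ≤ ∑ z ∈ V, (Om ^ k * (1 + 1 / k)) ^ k * (1 / (Nat.card (AddSubgroup.closure (Set.range z)) : ℝ) ^ k) :=
        sum_le_sum hcnt
    _ ≤ ∑ z : Fin k → ZMod N × ZMod N,
        (Om ^ k * (1 + 1 / k)) ^ k * (1 / (Nat.card (AddSubgroup.closure (Set.range z)) : ℝ) ^ k) := by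
        refine sum_le_sum_of_subset_of_nonneg (subset_univ _) fun z _ _ => ?_
        positivity
    _ = (Om ^ k * (1 + 1 / k)) ^ k *
        ∑ z : Fin k → ZMod N × ZMod N, 1 / (Nat.card (AddSubgroup.closure (Set.range z)) : ℝ) ^ k := by
        rw [mul_sum]
    _ ≤ (Om ^ k * (1 + 1 / k)) ^ k * S := by
        refine mul_le_mul_of_nonneg_left ?_ (by positivity)
        exact (sum_inv_le k).trans hS
    _ = (1 + 1 / k) ^ k * (S * Om ^ (k * k)) := by
        rw [mul_pow, ← pow_mul]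
        ring
    _ ≤ 3 * (S * Om ^ (k * k)) :=
        mul_le_mul_of_nonneg_right (pow_le_three k hk) (by positivity)
    _ = _ := by ring

theorem nice753 (h1 : StmtSubgroups) (h2 : StmtSpread) (h3 : StmtCRT) : StmtNice := by
  intro k hk P hP s
  have hN0 : (∏ p ∈ P, p) ≠ 0 := prod_ne_zero_iff.2 fun p hp => (hP p hp).ne_zero
  have hNZ : NeZero (∏ p ∈ P, p) := ⟨hN0⟩
  have hsub := h1 (∏ p ∈ P, p)
  refine nice_core753 h2 h3 k hk P hP s _ ?_
  calc (Nat.card (AddSubgroup (ZMod (∏ p ∈ P, p) × ZMod (∏ p ∈ P, p))) : ℝ) ≤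
      (((∏ p ∈ P, p) ^ 3 : ℕ) : ℝ) := by exact_mod_cast hsub
    _ = _ := by push_cast; ring

theorem squarefree_prod753 (P : Finset ℕ) (hP : ∀ p ∈ P, p.Prime) : Squarefree (∏ p ∈ P, p) := by
  induction P using Finset.induction_on with
  | empty => simp
  | insert a P ha ih =>
    rw [prod_insert ha]
    have hP' : ∀ p ∈ P, p.Prime := fun p hp => hP p (mem_insert_of_mem hp)
    have hap := hP a (mem_insert_self a P)
    have hc : Nat.Coprime a (∏ p ∈ P, p) := Nat.Coprime.prod_right fun p hp =>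
      (Nat.coprime_primes hap (hP' p hp)).2 fun h => ha (h ▸ hp)
    exact (Nat.squarefree_mul hc).2 ⟨hap.prime.squarefree, ih hP'⟩

theorem nice'753 (h2 : StmtSpread) (h3 : StmtCRT) : StmtNice' := by
  intro k hk P hP hPk hN2 s
  have hN0 : (∏ p ∈ P, p) ≠ 0 := prod_ne_zero_iff.2 fun p hp => (hP p hp).ne_zero
  have hNZ : NeZero (∏ p ∈ P, p) := ⟨hN0⟩
  have h := SubG416.card_le_exp (∏ p ∈ P, p) k hk (squarefree_prod753 P hP) ?_ ?_
  · refine (nice_core753 h2 h3 k hk P hP s _ h).trans (le_of_eq ?_)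
    push_cast
    ring
  · intro q hq
    have hq' := Nat.prime_of_mem_primeFactors hq
    obtain ⟨p, hp, hqp⟩ := (Prime.dvd_finsetProd_iff hq'.prime _).1 (Nat.dvd_of_mem_primeFactors hq)
    rw [(Nat.prime_dvd_prime_iff_eq hq' (hP p hp)).1 hqp]
    exact hPk p hp
  · have : ((∏ p ∈ P, p : ℕ) : ℝ) ≤ ((2 ^ k : ℕ) : ℝ) := by
      push_cast
      exact hN2
    exact_mod_cast this

end Vale.Agent.P160.Half.M67
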