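import Vale.Agent.P160.Half.RankQ519
import Vale.Agent.P160.Half.M67Stmt

/-!
# P160, half rate, block (M): `StmtRat (3/4)`
-/

namespace Vale.Agent.P160.Half.Rat519

open Vale.Agent.P160.Half.M67

theorem rat : StmtRat (3 / 4) := fun k r hr hrk => RankQ519.rat_aux k r hr hrk

end Vale.Agent.P160.Half.Rat519
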