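import Vale.Agent.P160.Half.M67Stmt

/-! # P160, half rate, M67: (3b) the number of subgroups of `(ℤ/N)²`. -/

namespace Vale.Agent.P160.Half.M67.S520

open Vale.Agent.P160.Half.M67

theorem exists_gen {N : ℕ} (A : AddSubgroup (ZMod N)) : ∃ a ∈ A, ∀ x ∈ A, ∃ n : ℤ, n • a = x := by
  obtain ⟨g, hg⟩ := IsAddCyclic.exists_generator (α := A)
  refine ⟨g, g.2, fun x hx => ?_⟩
  obtain ⟨n, hn⟩ := AddSubgroup.mem_zmultiples_iff.1 (hg ⟨x, hx⟩)
  exact ⟨n, congrArg Subtype.val hn⟩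

theorem exists_gens {N : ℕ} (U : AddSubgroup (ZMod N × ZMod N)) : ∃ a b c : ZMod N,
    AddSubgroup.closure {((0 : ZMod N), a), (b, c)} = U := by
  obtain ⟨a, ha, hA⟩ := exists_gen (U.comap (AddMonoidHom.inr (ZMod N) (ZMod N)))
  obtain ⟨b, hb, hB⟩ := exists_gen (U.map (AddMonoidHom.fst (ZMod N) (ZMod N)))
  obtain ⟨u, hu, hub⟩ := hb
  refine ⟨a, u.1, u.2, le_antisymm ?_ ?_⟩
  · rw [AddSubgroup.closure_le]
    rintro x (rfl | rfl)
    · exact ha
    · exact hu
  · intro x hx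
    obtain ⟨n, hn⟩ := hB x.1 ⟨x, hx, rfl⟩
    have h1 : x - n • u ∈ U := U.sub_mem hx (U.zsmul_mem hu n)
    have h2 : (x - n • u).1 = 0 := by
      rw [Prod.fst_sub, Prod.smul_fst, ← hn, ← hub]
      exact sub_self _
    have h3 : (x - n • u).2 ∈ U.comap (AddMonoidHom.inr (ZMod N) (ZMod N)) := by
      rw [AddSubgroup.mem_comap]
      have : AddMonoidHom.inr (ZMod N) (ZMod N) (x - n • u).2 = x - n • u :=
        Prod.ext h2.symm rfl
      rw [this]
      exact h1
    obtain ⟨k, hk⟩ := hA _ h3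
    have h4 : x = k • ((0 : ZMod N), a) + n • (u.1, u.2) := by
      refine Prod.ext ?_ ?_
      · rw [Prod.fst_add, Prod.smul_fst, Prod.smul_fst, smul_zero, zero_add, ← hn, ← hub]
        rfl
      · rw [Prod.snd_add, Prod.smul_snd, Prod.smul_snd, hk, Prod.snd_sub, Prod.smul_snd]
        exact (sub_add_cancel _ _).symm
    have m1 : ((0 : ZMod N), a) ∈ AddSubgroup.closure {((0 : ZMod N), a), (u.1, u.2)} :=
      AddSubgroup.subset_closure (Set.mem_insert _ _)
    have m2 : (u.1, u.2) ∈ AddSubgroup.closure {((0 : ZMod N), a), (u.1, u.2)} :=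
      AddSubgroup.subset_closure (Set.mem_insert_of_mem _ rfl)
    rw [h4]
    exact add_mem (zsmul_mem m1 _) (zsmul_mem m2 _)

theorem stmtSubgroups : StmtSubgroups := by
  intro N _
  have hs : Function.Surjective (fun v : ZMod N × ZMod N × ZMod N =>
      AddSubgroup.closure {((0 : ZMod N), v.1), (v.2.1, v.2.2)}) := by
    intro U
    obtain ⟨a, b, c, h⟩ := exists_gens U
    exact ⟨(a, b, c), h⟩
  refine (Nat.card_le_card_of_surjective _ hs).trans ?_
  rw [Nat.card_prod, Nat.card_prod, Nat.card_zmod]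
  exact le_of_eq (by ring)

end Vale.Agent.P160.Half.M67.S520
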