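import Vale.Agent.P160.Half.M67Top2
import Vale.Agent.P160.Half.Law773
import Vale.Agent.P160.Half.CRT964
import Vale.Agent.P160.Half.FlatAB
import Vale.Agent.P160.Half.Chain520
import Vale.Agent.P160.Half.SubG520
import Vale.Agent.P160.Half.BadProb914
import Vale.Agent.P160.Half.Nice753
import Vale.Agent.P160.Half.Rat519
import Vale.Agent.P160.Half.Hold937

/-! # P160, half rate, (M): closing of the i.i.d. part -/

namespace Vale.Agent.P160.Half.M67

/-- the bad event is improbable -/
theorem badProb : StmtBadProb := BP914.badProb C520.stmtChain S520.stmtSubgroups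

/-- the i.i.d. part from the two open leaves -/
theorem close {β : ℝ} (hβ0 : 0 < β) (hβ1 : β ≤ 1 / 8) (hMom : StmtMom 3 β)
    (hSparse : StmtSparse) : StmtTop' β :=
  top' hβ0 hβ1 (Hold937.hold hβ0 hβ1 Rat519.rat badProb hMom) H773.stmtLaw
    (nice'753 H945.spread CRT964.crt) hSparse CRT964.crt H945.flat

end Vale.Agent.P160.Half.M67
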