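import Vale.Agent.P160.Half.MProdDef358
import Vale.Agent.P160.Half.M8Asy
import Vale.Agent.P160.Half.Fib801

/-! # P160, rate 1/2, part (M): product over the last rows (helper358, note 11396)

`RowHyp b₁` : one-row bound `2 ^ (- s + δ n)` for all `s`, on a good event of density `≥ 1 - 2 ^ (-(1/8 + η) n)`.
`stmtM_prod` : `RowHyp b₁ → StmtM b₁ 0`. -/

set_option linter.unusedVariables false

open Finset Matrix

namespace Vale.Agent.P160.Half.MProd

open Vale.Agent.P160.Half.M8Incl Vale.Agent.P160.Half.M8Del Vale.Agent.P160.Half.MTop Vale.Agent.P160.Half.Fib801 Vale.Agent.P160.Half.M8Asy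

/-- fibration with a condition which does not depend on the exposed bits -/
theorem fib2 {I R : Type*} [Fintype I] [DecidableEq I] [Fintype R] [DecidableEq R] {φ : R → I}
    (hφ : Function.Injective φ) (P Bad : (I → Bool) → Prop) (hP : ∀ b x, P b → P (glue φ b x)) {K : ℝ}
    (hK : ∀ b : I → Bool, P b → (Nat.card {x : R → Bool // Bad (glue φ b x)} : ℝ) ≤ K) :
    (Nat.card {b : I → Bool // P b ∧ Bad b} : ℝ) * 2 ^ Fintype.card R ≤ K * Nat.card {b : I → Bool // P b} := by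
  classical
  let f : {b : I → Bool // P b ∧ Bad b} × (R → Bool) →
      Σ b : {b : I → Bool // P b}, {x : R → Bool // Bad (glue φ b.1 x)} :=
    fun p => ⟨⟨glue φ p.1.1 p.2, hP _ _ p.1.2.1⟩, ⟨fun r => p.1.1 (φ r), by
      have e : glue φ (glue φ p.1.1 p.2) (fun r => p.1.1 (φ r)) = p.1.1 := by
        funext i
        by_cases hi : ∃ r, φ r = i
        · obtain ⟨r, rfl⟩ := hi
          rw [glue_apply hφ]
        · push Not at hi
          rw [glue_not _ _ hi, glue_not _ _ hi]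
      show Bad (glue φ (glue φ p.1.1 p.2) (fun r => p.1.1 (φ r)))
      rw [e]
      exact p.1.2.2⟩⟩
  have hf : Function.Injective f := by
    rintro ⟨⟨b, hb⟩, x⟩ ⟨⟨b', hb'⟩, x'⟩ h
    have h1 : glue φ b x = glue φ b' x' :=
      congrArg (fun q : Σ b : {b : I → Bool // P b}, {x : R → Bool // Bad (glue φ b.1 x)} => q.1.1) h
    have h2 : (fun r => b (φ r)) = fun r => b' (φ r) :=
      congrArg (fun q : Σ b : {b : I → Bool // P b}, {x : R → Bool // Bad (glue φ b.1 x)} => q.2.1) h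
    have hx : x = x' := by
      funext r
      have := congrFun h1 (φ r)
      rwa [glue_apply hφ, glue_apply hφ] at this
    have hbb : b = b' := by
      funext i
      by_cases hi : ∃ r, φ r = i
      · obtain ⟨r, rfl⟩ := hi
        exact congrFun h2 r
      · push Not at hi
        have := congrFun h1 i
        rwa [glue_not _ _ hi, glue_not _ _ hi] at this
    subst hx
    subst hbb
    rfl
  have h1 := Nat.card_le_card_of_injective f hf
  rw [Nat.card_prod, Nat.card_sigma] at h1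
  have h2 : (Nat.card (R → Bool) : ℝ) = 2 ^ Fintype.card R := by
    rw [Nat.card_eq_fintype_card]; simp
  calc (Nat.card {b : I → Bool // P b ∧ Bad b} : ℝ) * 2 ^ Fintype.card R
      = ((Nat.card {b : I → Bool // P b ∧ Bad b} * Nat.card (R → Bool) : ℕ) : ℝ) := by
        push_cast; rw [h2]
    _ ≤ ((∑ b : {b : I → Bool // P b}, Nat.card {x : R → Bool // Bad (glue φ b.1 x)} : ℕ) : ℝ) := by
        exact_mod_cast h1
    _ = ∑ b : {b : I → Bool // P b}, (Nat.card {x : R → Bool // Bad (glue φ b.1 x)} : ℝ) := by push_cast; rfl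
    _ ≤ ∑ _b : {b : I → Bool // P b}, K := Finset.sum_le_sum fun b _ => hK b.1 b.2
    _ = K * Nat.card {b : I → Bool // P b} := by
        rw [Finset.sum_const, nsmul_eq_mul, Finset.card_univ, Nat.card_eq_fintype_card, mul_comm]

section step

variable {α : Type*} [Fintype α] [DecidableEq α]

/-- the bits of the row `i` -/
def rowE (T : Finset α) (i : α) : T → Sym2 α := fun t => s((t : α), i)

theorem rowE_inj {T : Finset α} {i : α} (hi : i ∉ T) : Function.Injective (rowE T i) := by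
  intro t t' h
  unfold rowE at h
  rw [Sym2.eq_iff] at h
  rcases h with ⟨h1, -⟩ | ⟨h1, h2⟩
  · exact Subtype.ext h1
  · exact absurd t.2 (h1 ▸ hi)

theorem glue_in {T : Finset α} {i : α} (hi : i ∉ T) (b : Sym2 α → Bool) (x : T → Bool) {a c : α}
    (ha : a ∈ T) (hc : c ∈ T) : glue (rowE T i) b x s(a, c) = b s(a, c) := by
  refine glue_not b x fun t h => ?_
  unfold rowE at h
  rw [Sym2.eq_iff] at h
  rcases h with ⟨-, h2⟩ | ⟨-, h2⟩
  · exact hi (h2 ▸ hc)
  · exact hi (h2 ▸ ha)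

theorem glue_row {T : Finset α} {i : α} (hi : i ∉ T) (b : Sym2 α → Bool) (x : T → Bool) :
    rw_ (glue (rowE T i) b x) T i = x := by
  funext t
  exact glue_apply (rowE_inj hi) b x t

/-- `b` and `b'` agree on `U` -/
def Agree (U : Finset α) (b b' : Sym2 α → Bool) : Prop := ∀ a ∈ U, ∀ c ∈ U, b s(a, c) = b' s(a, c)

theorem Agree.bT {U T : Finset α} {b b' : Sym2 α → Bool} (h : Agree U b b') (hT : T ⊆ U) :
    bT b T = bT b' T := by
  funext e
  induction e using Sym2.inductionOn with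
  | _ i j => exact h _ (hT i.2) _ (hT j.2)

theorem Agree.rw_ {U T : Finset α} {b b' : Sym2 α → Bool} (h : Agree U b b') (hT : T ⊆ U) {i : α}
    (hi : i ∈ U) : rw_ b T i = rw_ b' T i := by
  funext a
  exact h _ (hT a.2) _ hi

theorem agree_glue {T : Finset α} {i : α} (hi : i ∉ T) (b : Sym2 α → Bool) (x : T → Bool) :
    Agree T (glue (rowE T i) b x) b := fun a ha c hc => glue_in hi b x ha hc

/-- one step of the exposure -/
theorem step {T : Finset α} {i : α} (hi : i ∉ T) (P : (Sym2 α → Bool) → Prop)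
    (hP : ∀ b b', Agree T b b' → P b' → P b) (X : (Sym2 T → Bool) → (T → Bool) → Prop) (c : ℝ)
    (h : ∀ b, P b → (Nat.card {x // X (bT b T) x} : ℝ) ≤ c * 2 ^ T.card) :
    (Nat.card {b : Sym2 α → Bool // P b ∧ X (bT b T) (rw_ b T i)} : ℝ) ≤
      c * Nat.card {b : Sym2 α → Bool // P b} := by
  classical
  have h1 := fib2 (rowE_inj hi) P (fun b => X (bT b T) (rw_ b T i))
    (fun b x hb => hP _ _ (agree_glue hi b x) hb) (K := c * 2 ^ T.card) (by
      intro b hb
      refine le_trans (le_of_eq ?_) (h b hb)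
      congr 1
      refine Nat.card_congr (Equiv.subtypeEquivRight fun x => ?_)
      rw [(agree_glue hi b x).bT (Subset.refl T), glue_row hi])
  rw [Fintype.card_coe] at h1
  have h2 : (0 : ℝ) < 2 ^ T.card := by positivity
  nlinarith [h1]

end step


section chain

variable {n : ℕ}

theorem Ts_anti (idx : ℕ → Fin n) {r r' : ℕ} (h : r ≤ r') : Ts idx r' ⊆ Ts idx r := by
  intro a ha
  unfold Ts at ha ⊢
  simp only [mem_sdiff, mem_univ, true_and, mem_image, mem_range, not_exists, not_and] at ha ⊢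
  exact fun s hs => ha s (by omega)

theorem idx_mem {idx : ℕ → Fin n} {τ : ℕ} (hinj : Set.InjOn idx (Set.Iio τ)) {k r : ℕ} (hk : k ≤ r) (hr : r < τ) :
    idx r ∈ Ts idx k := by
  unfold Ts
  simp only [mem_sdiff, mem_univ, true_and, mem_image, mem_range, not_exists, not_and]
  intro j hj h
  have := hinj (show j ∈ Set.Iio τ from by show j < τ; omega) (show r ∈ Set.Iio τ from hr) h
  omega

/-- the event of the chain from level `r` on -/
def Ev (idx : ℕ → Fin n) (τ : ℕ) (Gd : ∀ (ι : Type) [Fintype ι] [DecidableEq ι], (Sym2 ι → Bool) → Prop)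
    (s : ℕ → ℕ) (y Y : ℝ) (Q : (Sym2 (Ts idx τ) → Bool) → Prop) (r : ℕ) (b : Sym2 (Fin n) → Bool) : Prop :=
  Q (bT b (Ts idx τ)) ∧ ∀ r', r ≤ r' → r' < τ →
    Gd (Ts idx (r' + 1)) (bT b (Ts idx (r' + 1))) ∧
    s r' ≤ (KS (bT b (Ts idx (r' + 1))) (rw_ b (Ts idx (r' + 1)) (idx r')) y Y).card

theorem Ev.of_agree {idx : ℕ → Fin n} {τ : ℕ} (hinj : Set.InjOn idx (Set.Iio τ))
    {Gd : ∀ (ι : Type) [Fintype ι] [DecidableEq ι], (Sym2 ι → Bool) → Prop}
    {s : ℕ → ℕ} {y Y : ℝ} {Q : (Sym2 (Ts idx τ) → Bool) → Prop} {r : ℕ} (hr : r ≤ τ) {b b' : Sym2 (Fin n) → Bool}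
    (h : Agree (Ts idx r) b b') (hb : Ev idx τ Gd s y Y Q r b') : Ev idx τ Gd s y Y Q r b := by
  refine ⟨?_, fun r' h1 h2 => ?_⟩
  · rw [h.bT (Ts_anti idx hr)]
    exact hb.1
  · have h3 := hb.2 r' h1 h2
    rw [h.bT (Ts_anti idx (show r ≤ r' + 1 by omega)),
      h.rw_ (Ts_anti idx (show r ≤ r' + 1 by omega)) (idx_mem hinj h1 h2)]
    exact h3

theorem chain_card {idx : ℕ → Fin n} {τ : ℕ} (hinj : Set.InjOn idx (Set.Iio τ))
    (Gd : ∀ (ι : Type) [Fintype ι] [DecidableEq ι], (Sym2 ι → Bool) → Prop)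
    (s : ℕ → ℕ) (y Y : ℝ) (Q : (Sym2 (Ts idx τ) → Bool) → Prop) (c : ℕ → ℝ) (hc : ∀ r < τ, 0 ≤ c r)
    (hrow : ∀ r < τ, ∀ b' : Sym2 (Ts idx (r + 1)) → Bool, Gd (Ts idx (r + 1)) b' →
      (Nat.card {x : Ts idx (r + 1) → Bool // s r ≤ (KS b' x y Y).card} : ℝ) ≤ c r * 2 ^ (Ts idx (r + 1)).card) :
    ∀ k r, r + k = τ → (Nat.card {b // Ev idx τ Gd s y Y Q r b} : ℝ) ≤
      (∏ j ∈ Ico r τ, c j) * Nat.card {b : Sym2 (Fin n) → Bool // Q (bT b (Ts idx τ))} := by
  classical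
  intro k
  induction k with
  | zero =>
      intro r hr
      have hr' : r = τ := by omega
      subst hr'
      rw [Ico_self, prod_empty, one_mul]
      exact_mod_cast Nat.card_le_card_of_injective
        (fun b : {b // Ev idx r Gd s y Y Q r b} => (⟨b.1, b.2.1⟩ : {b : Sym2 (Fin n) → Bool // Q (bT b (Ts idx r))}))
        (fun b b' h => Subtype.ext (by simpa using h))
  | succ k ih =>
      intro r hr
      have hrτ : r < τ := by omega
      have h0 := ih (r + 1) (by omega)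
      have h1 := step (Ts_succ hinj hrτ).2
        (fun b => Ev idx τ Gd s y Y Q (r + 1) b ∧ Gd (Ts idx (r + 1)) (bT b (Ts idx (r + 1))))
        (fun b b' hab hb => ⟨Ev.of_agree hinj (by omega) hab hb.1, by
          rw [hab.bT (Subset.refl _)]; exact hb.2⟩)
        (fun b' x => s r ≤ (KS b' x y Y).card) (c r) (fun b hb => hrow r hrτ _ hb.2)
      have h2 : (Nat.card {b // Ev idx τ Gd s y Y Q r b} : ℝ) ≤
          (Nat.card {b : Sym2 (Fin n) → Bool // (Ev idx τ Gd s y Y Q (r + 1) b ∧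
            Gd (Ts idx (r + 1)) (bT b (Ts idx (r + 1)))) ∧
            s r ≤ (KS (bT b (Ts idx (r + 1))) (rw_ b (Ts idx (r + 1)) (idx r)) y Y).card} : ℝ) := by
        exact_mod_cast Nat.card_le_card_of_injective
          (fun b : {b // Ev idx τ Gd s y Y Q r b} =>
            (⟨b.1, ⟨⟨b.2.1, fun r' h1 h2 => b.2.2 r' (by omega) h2⟩, (b.2.2 r le_rfl hrτ).1⟩,
              (b.2.2 r le_rfl hrτ).2⟩ : {b : Sym2 (Fin n) → Bool // (Ev idx τ Gd s y Y Q (r + 1) b ∧
            Gd (Ts idx (r + 1)) (bT b (Ts idx (r + 1)))) ∧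
            s r ≤ (KS (bT b (Ts idx (r + 1))) (rw_ b (Ts idx (r + 1)) (idx r)) y Y).card}))
          (fun b b' h => Subtype.ext (by simpa using h))
      have h3 : (Nat.card {b : Sym2 (Fin n) → Bool // Ev idx τ Gd s y Y Q (r + 1) b ∧
            Gd (Ts idx (r + 1)) (bT b (Ts idx (r + 1)))} : ℝ) ≤
          (Nat.card {b // Ev idx τ Gd s y Y Q (r + 1) b} : ℝ) := by
        exact_mod_cast Nat.card_le_card_of_injective
          (fun b : {b : Sym2 (Fin n) → Bool // Ev idx τ Gd s y Y Q (r + 1) b ∧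
            Gd (Ts idx (r + 1)) (bT b (Ts idx (r + 1)))} =>
            (⟨b.1, b.2.1⟩ : {b // Ev idx τ Gd s y Y Q (r + 1) b}))
          (fun b b' h => Subtype.ext (by simpa using h))
      rw [Finset.prod_eq_prod_Ico_succ_bot hrτ]
      calc (Nat.card {b // Ev idx τ Gd s y Y Q r b} : ℝ)
          ≤ c r * Nat.card {b : Sym2 (Fin n) → Bool // Ev idx τ Gd s y Y Q (r + 1) b ∧
            Gd (Ts idx (r + 1)) (bT b (Ts idx (r + 1)))} := h2.trans h1
        _ ≤ c r * ((∏ j ∈ Ico (r + 1) τ, c j) * Nat.card {b : Sym2 (Fin n) → Bool // Q (bT b (Ts idx τ))}) :=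
            mul_le_mul_of_nonneg_left (h3.trans h0) (hc r hrτ)
        _ = _ := by ring


/-- extension of a finite list of indices -/
def ext (hn : 0 < n) {τ : ℕ} (f : Fin τ → Fin n) (r : ℕ) : Fin n := if h : r < τ then f ⟨r, h⟩ else ⟨0, hn⟩

theorem ext_eq (hn : 0 < n) {τ : ℕ} (idx : ℕ → Fin n) {r : ℕ} (hr : r < τ) :
    ext hn (fun j : Fin τ => idx j) r = idx r := by
  unfold ext
  rw [dif_pos hr]

/-- **Inclusion, with the sum over the rows.** -/
theorem incl_sum {τ : ℕ} (hn : 0 < n) (b : Sym2 (Fin n) → Bool) (y Y : ℝ) (Qs : ℕ → Prop) (hQ : ∀ q, Qs q → 2 ≤ q)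
    (t z K' : ℕ) (hτ1 : 1 ≤ τ) (hτn : τ < n) (hy : 1 ≤ y) (hz : Kill Qs t z (matZ b))
    (hK : (n : ℝ) ^ n < y ^ (2 * (τ + 2) * (K' + 1))) :
    ∃ f : Fin τ → Fin n, Set.InjOn (ext hn f) (Set.Iio τ) ∧
      Kill Qs t (z - τ) (matZ (bT b (Ts (ext hn f) τ))) ∧
      ((matZ (bT b (Ts (ext hn f) τ))).det ≠ 0 → N2 (matZ b) y Y ≤ K' + ∑ r ∈ range τ,
        (KS (bT b (Ts (ext hn f) (r + 1))) (rw_ b (Ts (ext hn f) (r + 1)) (ext hn f r)) y Y).card) := by
  classical
  -- the indices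
  have hidx : ∃ f : Fin τ → Fin n, Set.InjOn (ext hn f) (Set.Iio τ) ∧
      Kill Qs t (z - τ) (matZ (bT b (Ts (ext hn f) τ))) := by
    rcases Nat.lt_or_ge τ z with hzt | hzt
    · rcases hz with h0 | ⟨q, hq, u, hu, hk, hzc⟩
      · omega
      · have hc : Nat.card {i // u i = 0} = (univ.filter fun i => u i = 0).card := by
          rw [Nat.card_eq_fintype_card, Fintype.card_subtype]
        obtain ⟨idx0, hinj0, hidx0⟩ := exists_idx hτn (univ.filter fun i => u i = 0) (by omega)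
        have hinj : Set.InjOn (ext hn (fun j : Fin τ => idx0 j)) (Set.Iio τ) := by
          intro a ha c hc hac
          rw [ext_eq hn idx0 ha, ext_eq hn idx0 hc] at hac
          exact hinj0 ha hc hac
        refine ⟨fun j => idx0 j, hinj, ?_⟩
        have hcT := card_Ts hinj (show τ ≤ τ from le_rfl)
        rw [← prin_matZ]
        refine kill_restr b Qs hQ t z τ _ (by omega) hq u hu hk hzc fun i hi => ?_
        unfold Ts at hi
        simp only [mem_sdiff, mem_univ, true_and, not_not, mem_image, mem_range] at hi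
        obtain ⟨s, hs, rfl⟩ := hi
        rw [ext_eq hn idx0 hs]
        exact (mem_filter.1 (hidx0 s hs)).2
    · obtain ⟨idx0, hinj0, -⟩ := exists_idx hτn (univ : Finset (Fin n)) (by simpa using hτn.le)
      have hinj : Set.InjOn (ext hn (fun j : Fin τ => idx0 j)) (Set.Iio τ) := by
        intro a ha c hc hac
        rw [ext_eq hn idx0 ha, ext_eq hn idx0 hc] at hac
        exact hinj0 ha hc hac
      exact ⟨fun j => idx0 j, hinj, Or.inl (by omega)⟩
  obtain ⟨f, hinj, hzev⟩ := hidx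
  refine ⟨f, hinj, hzev, fun hdet => ?_⟩
  set idx := ext hn f with hidxdef
  -- classification of the primes
  set S := S2 (matZ b) y Y with hS
  let A : ℕ → Finset ℕ := fun r => KS (bT b (Ts idx (r + 1))) (rw_ b (Ts idx (r + 1)) (idx r)) y Y
  let Bg : Finset ℕ := S.filter fun p =>
    (prin ((matZ b).map (Int.cast : ℤ → ZMod p)) (Ts idx τ)).rank + (τ + 2) ≤ (Ts idx τ).card
  have hsub : S ⊆ Bg ∪ (range τ).biUnion A := by
    intro p hp
    have hp' := hp
    rw [hS] at hp'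
    unfold S2 at hp'
    obtain ⟨hpY, hpp, hpy, hc2⟩ := mem_filter.1 hp'
    have hfact : Fact p.Prime := ⟨hpp⟩
    have hY : (p : ℝ) ≤ Y := by
      have h1 : p ≤ ⌊Y⌋₊ := Nat.lt_succ_iff.1 (mem_range.1 hpY)
      have h2 : ⌊Y⌋₊ ≠ 0 := by
        intro h0
        rw [h0] at h1
        exact hpp.ne_zero (by omega)
      exact (Nat.le_floor_iff' hpp.ne_zero).1 h1
    have hsym : ∀ i j, ((matZ b).map (Int.cast : ℤ → ZMod p)) i j =
        ((matZ b).map (Int.cast : ℤ → ZMod p)) j i := by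
      intro i j
      rw [Matrix.map_apply, Matrix.map_apply, matZ_symm]
    have h0 : 2 ≤ Module.finrank (ZMod p) (K ((matZ b).map (Int.cast : ℤ → ZMod p)) (Ts idx 0)) := by
      have h1 := finrank_K ((matZ b).map (Int.cast : ℤ → ZMod p)) (Ts idx 0)
      have h2 : (prin ((matZ b).map (Int.cast : ℤ → ZMod p)) (Ts idx 0)).rank ≤ HadN.rP p (matZ b) :=
        Matrix.rank_submatrix_le ((matZ b).map (Int.cast : ℤ → ZMod p)) _ _
      have h3 := card_Ts hinj (Nat.zero_le τ)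
      unfold crk at hc2
      rw [Fintype.card_fin] at hc2
      omega
    rcases chain hsym (Ts idx) idx τ (fun r hr => (Ts_succ hinj hr).1) (fun r hr => (Ts_succ hinj hr).2)
      h0 with ⟨r, hr, hk, hne⟩ | hbig
    · exact mem_union_right _ (mem_biUnion.2 ⟨r, mem_range.2 hr, mem_KS b _ _ y Y hpy hY hk hne⟩)
    · refine mem_union_left _ (mem_filter.2 ⟨hp, ?_⟩)
      have h1 := finrank_K ((matZ b).map (Int.cast : ℤ → ZMod p)) (Ts idx τ)
      omega
  have hBg : Bg.card ≤ K' := by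
    refine card_big_le (matZ b) (Ts idx τ) (τ + 2) K' y (matZ_abs b) hy
      (by rw [prin_matZ]; exact hdet) Bg (fun p hp => ?_) hK
    obtain ⟨hp1, hp2⟩ := mem_filter.1 hp
    rw [hS] at hp1
    unfold S2 at hp1
    obtain ⟨-, hpp, hpy, -⟩ := mem_filter.1 hp1
    exact ⟨hpp, hpy, hp2⟩
  have h1 : S.card ≤ Bg.card + ((range τ).biUnion A).card :=
    (card_le_card hsub).trans (card_union_le _ _)
  have h2 : ((range τ).biUnion A).card ≤ ∑ r ∈ range τ, (A r).card := card_biUnion_le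
  have h3 : N2 (matZ b) y Y = S.card := rfl
  rw [h3]
  exact h1.trans (add_le_add hBg h2)

end chain

theorem card_or {Ω : Type*} [Finite Ω] (P P1 P2 : Ω → Prop) (h : ∀ w, P w → P1 w ∨ P2 w) :
    (Nat.card {w // P w} : ℝ) ≤ Nat.card {w // P1 w} + Nat.card {w // P2 w} := by
  classical
  have := Fintype.ofFinite Ω
  have e : ∀ Q : Ω → Prop, Nat.card {w // Q w} = (univ.filter Q).card := fun Q => by
    rw [Nat.card_eq_fintype_card, Fintype.card_subtype]
  rw [e, e, e]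
  have h1 : (univ.filter P).card ≤ (univ.filter P1 ∪ univ.filter P2).card := card_le_card fun w hw => by
    simp only [mem_union, mem_filter, mem_univ, true_and] at hw ⊢
    exact h w hw
  exact_mod_cast h1.trans (card_union_le _ _)

theorem card_ex {Ω ι : Type*} [Finite Ω] [Fintype ι] (P : Ω → Prop) (Bad : ι → Ω → Prop) (N : ℝ)
    (hP : ∀ w, P w → ∃ i, Bad i w) (h : ∀ i, (Nat.card {w // Bad i w} : ℝ) ≤ N) :
    (Nat.card {w // P w} : ℝ) ≤ Fintype.card ι * N := by
  classical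
  have := Fintype.ofFinite Ω
  have e : ∀ Q : Ω → Prop, Nat.card {w // Q w} = (univ.filter Q).card := fun Q => by
    rw [Nat.card_eq_fintype_card, Fintype.card_subtype]
  have h1 : (univ.filter P).card ≤ ∑ i, (univ.filter (Bad i)).card := by
    refine (card_le_card (t := univ.biUnion fun i => univ.filter (Bad i)) ?_).trans card_biUnion_le
    intro w hw
    obtain ⟨i, hi⟩ := hP w (mem_filter.1 hw).2
    exact mem_biUnion.2 ⟨i, mem_univ _, mem_filter.2 ⟨mem_univ _, hi⟩⟩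
  rw [e]
  calc ((univ.filter P).card : ℝ) ≤ ∑ i, ((univ.filter (Bad i)).card : ℝ) := by exact_mod_cast h1
    _ ≤ ∑ _i : ι, N := sum_le_sum fun i _ => by rw [← e]; exact h i
    _ = _ := by rw [sum_const, card_univ, nsmul_eq_mul]

theorem min_sum_le (a : ℕ → ℕ) (s τ : ℕ) : min (∑ r ∈ range τ, a r) s ≤ ∑ r ∈ range τ, min (a r) s := by
  induction τ with
  | zero => simp
  | succ τ ih => rw [sum_range_succ, sum_range_succ]; omega

open Filter Topology in
/-- polynomial against exponential -/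
theorem pow_le_two' (B δ : ℝ) (hδ : 0 < δ) : ∀ᶠ n : ℕ in atTop, 4 * (n : ℝ) ^ B ≤ (2 : ℝ) ^ (δ * n) := by
  have h := tendsto_rpow_mul_exp_neg_mul_atTop_nhds_zero B (Real.log 2 * δ)
    (mul_pos (Real.log_pos (by norm_num)) hδ)
  have h2 := (h.comp tendsto_natCast_atTop_atTop).eventually (gt_mem_nhds (show (0 : ℝ) < 1 / 4 by norm_num))
  filter_upwards [h2] with n hn
  simp only [Function.comp] at hn
  have e : (2 : ℝ) ^ (δ * n) = Real.exp (Real.log 2 * δ * n) := by
    rw [Real.rpow_def_of_pos (by norm_num)]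
    congr 1
    ring
  rw [e]
  have h3 : Real.exp (-(Real.log 2 * δ) * n) = (Real.exp (Real.log 2 * δ * n))⁻¹ := by
    rw [← Real.exp_neg]
    congr 1
    ring
  rw [h3] at hn
  have hp := Real.exp_pos (Real.log 2 * δ * n)
  have h4 : (n : ℝ) ^ B < 1 / 4 * Real.exp (Real.log 2 * δ * n) := by
    have := mul_lt_mul_of_pos_right hn hp
    rwa [mul_assoc, inv_mul_cancel₀ hp.ne', mul_one] at this
  linarith

/-- row hypothesis with the exponent `γ` for the exceptional event -/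
def RowHypG (b₁ γ : ℝ) : Prop := ∀ (δ B : ℝ) (τ : ℕ), 0 < δ →
  ∃ (Gd : ℕ → ∀ (ι : Type) [Fintype ι] [DecidableEq ι], (Sym2 ι → Bool) → Prop) (n₀ : ℕ) (η : ℝ), 0 < η ∧
    ∀ n ≥ n₀, ∀ (ι : Type) [Fintype ι] [DecidableEq ι], n ≤ Fintype.card ι + τ → Fintype.card ι < n →
      (∀ b' : Sym2 ι → Bool, Gd n ι b' → (matZ b').det ≠ 0 ∧ ∀ s : ℕ,
        (Nat.card {x : ι → Bool // s ≤ (KS b' x ((n : ℝ) ^ b₁) ((n : ℝ) ^ B)).card} : ℝ) ≤
          2 ^ (-(s : ℝ) + δ * n) * 2 ^ Fintype.card ι) ∧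
      (Nat.card {b' : Sym2 ι → Bool // ¬ Gd n ι b'} : ℝ) ≤
        2 ^ (-((γ + η) * n)) * 2 ^ Fintype.card (Sym2 ι)

/-- `StmtM` with the exponent `γ` for the additive term -/
def StmtMG (b₁ lam γ : ℝ) : Prop := ∀ (ε B : ℝ), 0 < ε → ∃ τ n₀ : ℕ, ∀ n ≥ n₀,
  ∀ Qs : ℕ → Prop, (∀ q, Qs q → 2 ≤ q) → ∀ t z s : ℕ, ε * n ≤ s →
  (Nat.card {b : Sym2 (Fin n) → Bool // (matZ b).det ≠ 0 ∧ Kill Qs t z (matZ b) ∧
    s ≤ N2 (matZ b) ((n : ℝ) ^ b₁) ((n : ℝ) ^ B)} : ℝ) ≤
    ((∑ m ∈ Icc (n - τ) n, kden m Qs t (z - τ)) * 2 ^ (-(s - lam * n) + ε * n) +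
      2 ^ (-(γ * n))) * 2 ^ Fintype.card (Sym2 (Fin n))

/-- **Product over the last rows.** -/
theorem stmtMG_prod (b₁ γ : ℝ) (hb : 1 ≤ b₁) (h : RowHypG b₁ γ) : StmtMG b₁ 0 γ := by
  classical
  intro ε B hε
  obtain ⟨τ, hτ⟩ := exists_nat_ge (max 1 (4 / ε))
  have hτ1 : 1 ≤ τ := by exact_mod_cast (le_max_left _ _).trans hτ
  have hτε : 4 ≤ τ * ε := by
    have := (le_max_right _ _).trans hτ
    rwa [div_le_iff₀ hε] at this
  have hτ0 : (0 : ℝ) < τ := by exact_mod_cast (by omega : 0 < τ)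
  obtain ⟨Gd, n₁, η, hη, hrow⟩ := h (ε / (4 * τ)) B τ (by positivity)
  obtain ⟨n₂, hn₂⟩ := Filter.eventually_atTop.1 (pow_le_two' (τ + 1) η hη)
  obtain ⟨n₃, hn₃⟩ := Filter.eventually_atTop.1 (pow_le_two' (2 * τ + 1) (ε / 4) (by positivity))
  refine ⟨τ, max (max n₁ n₂) (max n₃ (max 2 (2 ^ τ + τ + 2))), fun n hn Qs hQ t z s hs => ?_⟩
  have hn1 : n₁ ≤ n := (le_max_left _ _).trans ((le_max_left _ _).trans hn)
  have hn2 : n₂ ≤ n := (le_max_right _ _).trans ((le_max_left _ _).trans hn)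
  have hn3 : n₃ ≤ n := (le_max_left _ _).trans ((le_max_right _ _).trans hn)
  have hn4 : 2 ≤ n := (le_max_left _ _).trans ((le_max_right _ _).trans ((le_max_right _ _).trans hn))
  have hn5 : 2 ^ τ + τ + 2 ≤ n := (le_max_right _ _).trans ((le_max_right _ _).trans ((le_max_right _ _).trans hn))
  have hn0 : 0 < n := by omega
  have hpow : 0 < 2 ^ τ := by positivity
  have hτn : τ < n := by omega
  have hnR : (1 : ℝ) < n := by exact_mod_cast (by omega : 1 < n)
  have hn0R : (0 : ℝ) < n := by linarith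
  have hyb : (1 : ℝ) ≤ (n : ℝ) ^ b₁ := Real.one_le_rpow hnR.le (by linarith)
  set y : ℝ := (n : ℝ) ^ b₁ with hy
  set Y : ℝ := (n : ℝ) ^ B with hY
  have h2S : (0 : ℝ) < 2 ^ Fintype.card (Sym2 (Fin n)) := by positivity
  have hk0 : ∀ m, 0 ≤ kden m Qs t (z - τ) := fun m => by unfold kden; positivity
  -- large `s` : empty event
  by_cases hsn : n < s
  · have h0 : IsEmpty {b : Sym2 (Fin n) → Bool // (matZ b).det ≠ 0 ∧ Kill Qs t z (matZ b) ∧
        s ≤ N2 (matZ b) y Y} := by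
      rw [isEmpty_subtype]
      rintro b ⟨hdet, -, hN⟩
      have h5 := N2_le (matZ b) hdet (fun i j => matZ_abs b i j) hn4 n le_rfl b₁ Y (by linarith)
      have h6 : (n : ℝ) / (4 * b₁) ≤ n := div_le_self hn0R.le (by linarith)
      have h7 : (s : ℝ) ≤ n := ((by exact_mod_cast hN : (s : ℝ) ≤ N2 (matZ b) y Y).trans h5).trans h6
      have h8 : s ≤ n := by exact_mod_cast h7
      omega
    rw [Nat.card_of_isEmpty]
    have : 0 ≤ ∑ m ∈ Icc (n - τ) n, kden m Qs t (z - τ) := sum_nonneg fun m _ => hk0 m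
    push_cast
    positivity
  have hsn' : s ≤ n := by omega
  -- the Hadamard constant
  set K' : ℕ := ⌊ε / 4 * n⌋₊ with hK'
  have hK1 : (K' : ℝ) ≤ ε / 4 * n := Nat.floor_le (by positivity)
  have hK2 : ε / 4 * n < K' + 1 := Nat.lt_floor_add_one _
  have hK : (n : ℝ) ^ n < y ^ (2 * (τ + 2) * (K' + 1)) := by
    have h1 : (n : ℝ) ≤ y := by
      calc (n : ℝ) = (n : ℝ) ^ (1 : ℝ) := (Real.rpow_one _).symm
        _ ≤ (n : ℝ) ^ b₁ := Real.rpow_le_rpow_of_exponent_le hnR.le hb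
    have h2 : n < 2 * (τ + 2) * (K' + 1) := by
      have h3 : (n : ℝ) < 2 * (τ + 2) * (K' + 1) := by
        have h4 : (n : ℝ) ≤ τ * (ε / 4 * n) := by nlinarith
        have h5 : (τ : ℝ) * (ε / 4 * n) < τ * (K' + 1) := mul_lt_mul_of_pos_left hK2 hτ0
        have h6 : (0 : ℝ) < K' + 1 := by positivity
        nlinarith
      exact_mod_cast h3
    calc (n : ℝ) ^ n < (n : ℝ) ^ (2 * (τ + 2) * (K' + 1)) := pow_lt_pow_right₀ hnR h2
      _ ≤ y ^ (2 * (τ + 2) * (K' + 1)) := pow_le_pow_left₀ hn0R.le h1 _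
  -- the two families of events
  let Bad1 : (Fin τ → Fin n) × Fin τ → (Sym2 (Fin n) → Bool) → Prop := fun q b =>
    Set.InjOn (ext hn0 q.1) (Set.Iio τ) ∧
      ¬ Gd n (Ts (ext hn0 q.1) (q.2 + 1)) (bT b (Ts (ext hn0 q.1) (q.2 + 1)))
  let Bad2 : (Fin τ → Fin n) × (Fin τ → Fin (n + 1)) → (Sym2 (Fin n) → Bool) → Prop := fun q b =>
    Set.InjOn (ext hn0 q.1) (Set.Iio τ) ∧ s ≤ K' + ∑ r : Fin τ, (q.2 r : ℕ) ∧
      Ev (ext hn0 q.1) τ (Gd n) (fun r => if hr : r < τ then (q.2 ⟨r, hr⟩ : ℕ) else 0) y Y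
        (fun b' => Kill Qs t (z - τ) (matZ b')) 0 b
  have hsplit : ∀ b : Sym2 (Fin n) → Bool, ((matZ b).det ≠ 0 ∧ Kill Qs t z (matZ b) ∧ s ≤ N2 (matZ b) y Y) →
      (∃ q, Bad1 q b) ∨ ∃ q, Bad2 q b := by
    rintro b ⟨hdet, hkill, hN⟩
    obtain ⟨f, hinj, hkf, hsum⟩ := incl_sum hn0 b y Y Qs hQ t z K' hτ1 hτn hyb hkill hK
    by_cases hG : ∀ r < τ, Gd n (Ts (ext hn0 f) (r + 1)) (bT b (Ts (ext hn0 f) (r + 1)))
    · right
      have hc := card_Ts hinj (show τ ≤ τ from le_rfl)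
      have hdet' : (matZ (bT b (Ts (ext hn0 f) τ))).det ≠ 0 := by
        have h1 := hG (τ - 1) (by omega)
        have h2 : τ - 1 + 1 = τ := by omega
        rw [h2] at h1
        exact ((hrow n hn1 (Ts (ext hn0 f) τ) (by rw [Fintype.card_coe]; omega)
          (by rw [Fintype.card_coe]; omega)).1 _ h1).1
      have hN' := hN.trans (hsum hdet')
      let a : ℕ → ℕ := fun r => (KS (bT b (Ts (ext hn0 f) (r + 1)))
        (rw_ b (Ts (ext hn0 f) (r + 1)) (ext hn0 f r)) y Y).card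
      refine ⟨(f, fun r => ⟨min (a r) s, by omega⟩), hinj, ?_, hkf, fun r' _ hr' => ⟨hG r' hr', ?_⟩⟩
      · have h1 := min_sum_le a s τ
        have h2 : ∑ r : Fin τ, min (a r) s = ∑ r ∈ range τ, min (a r) s :=
          Fin.sum_univ_eq_sum_range (fun r => min (a r) s) τ
        show s ≤ K' + ∑ r : Fin τ, min (a r) s
        rw [h2]
        have h3 : s ≤ K' + ∑ r ∈ range τ, a r := hN'
        omega
      · show (if hr : r' < τ then min (a r') s else 0) ≤ a r'
        rw [dif_pos hr']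
        exact min_le_left _ _
    · left
      push Not at hG
      obtain ⟨r, hr, hG⟩ := hG
      exact ⟨(f, ⟨r, hr⟩), hinj, hG⟩
  have hmain := card_or (fun b : Sym2 (Fin n) → Bool => (matZ b).det ≠ 0 ∧ Kill Qs t z (matZ b) ∧
    s ≤ N2 (matZ b) y Y) (fun b => ∃ q, Bad1 q b) (fun b => ∃ q, Bad2 q b) hsplit
  -- first family
  have hB1 : (Nat.card {b : Sym2 (Fin n) → Bool // ∃ q, Bad1 q b} : ℝ) ≤
      2 ^ (-(γ * n)) * 2 ^ Fintype.card (Sym2 (Fin n)) := by
    have h1 := card_ex (fun b : Sym2 (Fin n) → Bool => ∃ q, Bad1 q b) Bad1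
      (2 ^ (-((γ + η) * n)) * 2 ^ Fintype.card (Sym2 (Fin n))) (fun b hb => hb) (fun q => by
        by_cases hinj : Set.InjOn (ext hn0 q.1) (Set.Iio τ)
        · have hc := card_Ts hinj (show (q.2 : ℕ) + 1 ≤ τ from q.2.2)
          have h2 := (hrow n hn1 (Ts (ext hn0 q.1) (q.2 + 1)) (by rw [Fintype.card_coe]; have := q.2.2; omega)
            (by rw [Fintype.card_coe]; omega)).2
          have h3 := dens_eq (Ts (ext hn0 q.1) (q.2 + 1))
            (fun b' => ¬ Gd n (Ts (ext hn0 q.1) (q.2 + 1)) b')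
          have h4 : (Nat.card {b : Sym2 (Fin n) → Bool // Bad1 q b} : ℝ) ≤
              (Nat.card {b : Sym2 (Fin n) → Bool //
                ¬ Gd n (Ts (ext hn0 q.1) (q.2 + 1)) (bT b (Ts (ext hn0 q.1) (q.2 + 1)))} : ℝ) := by
            exact_mod_cast Nat.card_le_card_of_injective
              (fun b : {b : Sym2 (Fin n) → Bool // Bad1 q b} => (⟨b.1, b.2.2⟩ : {b : Sym2 (Fin n) → Bool //
                ¬ Gd n (Ts (ext hn0 q.1) (q.2 + 1)) (bT b (Ts (ext hn0 q.1) (q.2 + 1)))}))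
              (fun b b' h => Subtype.ext (by simpa using h))
          refine h4.trans ?_
          rw [h3]
          refine mul_le_mul_of_nonneg_right ?_ h2S.le
          rw [div_le_iff₀ (by positivity)]
          exact h2
        · have : IsEmpty {b : Sym2 (Fin n) → Bool // Bad1 q b} := by
            rw [isEmpty_subtype]
            rintro b ⟨h1, -⟩
            exact hinj h1
          rw [Nat.card_of_isEmpty]
          push_cast
          positivity)
    refine h1.trans ?_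
    have h5 : ((Fintype.card ((Fin τ → Fin n) × Fin τ) : ℕ) : ℝ) ≤ 2 ^ (η * n) := by
      rw [Fintype.card_prod, Fintype.card_fun, Fintype.card_fin, Fintype.card_fin]
      have h6 := hn₂ n hn2
      have h7 : (n : ℝ) ^ ((τ : ℝ) + 1) = (n : ℝ) ^ τ * n := by
        rw [Real.rpow_add hn0R, Real.rpow_one, Real.rpow_natCast]
      rw [h7] at h6
      push_cast
      have h8 : (τ : ℝ) ≤ n := by exact_mod_cast hτn.le
      have h9 : (0 : ℝ) ≤ (n : ℝ) ^ τ := by positivity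
      nlinarith [mul_le_mul_of_nonneg_left h8 h9, mul_nonneg h9 hn0R.le]
    have h10 : (2 : ℝ) ^ (η * n) * 2 ^ (-((γ + η) * n)) = 2 ^ (-(γ * n)) := by
      rw [← Real.rpow_add (by norm_num)]
      congr 1
      ring
    calc ((Fintype.card ((Fin τ → Fin n) × Fin τ) : ℕ) : ℝ) *
          (2 ^ (-((γ + η) * n)) * 2 ^ Fintype.card (Sym2 (Fin n)))
        ≤ 2 ^ (η * n) * (2 ^ (-((γ + η) * n)) * 2 ^ Fintype.card (Sym2 (Fin n))) :=
          mul_le_mul_of_nonneg_right h5 (by positivity)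
      _ = _ := by rw [← mul_assoc, h10]
  -- second family
  have hB2 : (Nat.card {b : Sym2 (Fin n) → Bool // ∃ q, Bad2 q b} : ℝ) ≤
      ((∑ m ∈ Icc (n - τ) n, kden m Qs t (z - τ)) * 2 ^ (-(s - 0 * n) + ε * n)) *
        2 ^ Fintype.card (Sym2 (Fin n)) := by
    have h1 := card_ex (fun b : Sym2 (Fin n) → Bool => ∃ q, Bad2 q b) Bad2
      (2 ^ (-(s : ℝ) + ε / 2 * n) * kden (n - τ) Qs t (z - τ) * 2 ^ Fintype.card (Sym2 (Fin n)))
      (fun b hb => hb) (fun q => by
        by_cases hinj : Set.InjOn (ext hn0 q.1) (Set.Iio τ) ∧ s ≤ K' + ∑ r : Fin τ, (q.2 r : ℕ)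
        · obtain ⟨hinj, hsq⟩ := hinj
          set sf : ℕ → ℕ := fun r => if hr : r < τ then (q.2 ⟨r, hr⟩ : ℕ) else 0 with hsf
          have hch := chain_card hinj (Gd n) sf y Y (fun b' => Kill Qs t (z - τ) (matZ b'))
            (fun r => 2 ^ (-(sf r : ℝ) + ε / (4 * τ) * n)) (fun r _ => by positivity)
            (fun r hr b' hb' => by
              have hc := card_Ts hinj (show r + 1 ≤ τ by omega)
              have h2 := ((hrow n hn1 (Ts (ext hn0 q.1) (r + 1)) (by rw [Fintype.card_coe]; omega)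
                (by rw [Fintype.card_coe]; omega)).1 b' hb').2 (sf r)
              rw [Fintype.card_coe] at h2
              exact h2) τ 0 (by omega)
          have h4 : (Nat.card {b : Sym2 (Fin n) → Bool // Bad2 q b} : ℝ) ≤
              (Nat.card {b : Sym2 (Fin n) → Bool // Ev (ext hn0 q.1) τ (Gd n) sf y Y
                (fun b' => Kill Qs t (z - τ) (matZ b')) 0 b} : ℝ) := by
            exact_mod_cast Nat.card_le_card_of_injective
              (fun b : {b : Sym2 (Fin n) → Bool // Bad2 q b} => (⟨b.1, b.2.2.2⟩ :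
                {b : Sym2 (Fin n) → Bool // Ev (ext hn0 q.1) τ (Gd n) sf y Y
                (fun b' => Kill Qs t (z - τ) (matZ b')) 0 b}))
              (fun b b' h => Subtype.ext (by simpa using h))
          refine (h4.trans hch).trans ?_
          -- the product
          have h5 : ∏ j ∈ Ico 0 τ, (2 : ℝ) ^ (-(sf j : ℝ) + ε / (4 * τ) * n) ≤ 2 ^ (-(s : ℝ) + ε / 2 * n) := by
            have h6 : ∏ j ∈ Ico 0 τ, (2 : ℝ) ^ (-(sf j : ℝ) + ε / (4 * τ) * n) =
                2 ^ (∑ j ∈ Ico 0 τ, (-(sf j : ℝ) + ε / (4 * τ) * n)) := by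
              rw [Real.rpow_sum_of_pos (by norm_num)]
            rw [h6]
            refine Real.rpow_le_rpow_of_exponent_le (by norm_num) ?_
            rw [sum_add_distrib, sum_neg_distrib, sum_const, Nat.card_Ico, Nat.sub_zero, nsmul_eq_mul,
              ← range_eq_Ico]
            have h7 : ∑ j ∈ range τ, (sf j : ℝ) = ((∑ r : Fin τ, (q.2 r : ℕ) : ℕ) : ℝ) := by
              rw [← Fin.sum_univ_eq_sum_range (fun r => (sf r : ℝ)) τ]
              push_cast
              refine sum_congr rfl fun r _ => ?_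
              rw [hsf]
              simp only [Fin.is_lt, dif_pos, Fin.eta]
            rw [h7]
            have h8 : (s : ℝ) ≤ K' + ((∑ r : Fin τ, (q.2 r : ℕ) : ℕ) : ℝ) := by exact_mod_cast hsq
            have h9 : (τ : ℝ) * (ε / (4 * τ) * n) = ε / 4 * n := by field_simp
            rw [h9]
            linarith
          have h10 := dens_eq (Ts (ext hn0 q.1) τ) (fun b' => Kill Qs t (z - τ) (matZ b'))
          have h11 := kden_le (α := Ts (ext hn0 q.1) τ) Qs t (z - τ)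
          have hc := card_Ts hinj (show τ ≤ τ from le_rfl)
          rw [Fintype.card_coe, show (Ts (ext hn0 q.1) τ).card = n - τ by omega] at h11
          rw [h10]
          have h12 : (0 : ℝ) ≤ ∏ j ∈ Ico 0 τ, (2 : ℝ) ^ (-(sf j : ℝ) + ε / (4 * τ) * n) :=
            prod_nonneg fun _ _ => by positivity
          calc (∏ j ∈ Ico 0 τ, (2 : ℝ) ^ (-(sf j : ℝ) + ε / (4 * τ) * n)) *
                ((Nat.card {b' : Sym2 (Ts (ext hn0 q.1) τ) → Bool // Kill Qs t (z - τ) (matZ b')} : ℝ) /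
                  2 ^ Fintype.card (Sym2 (Ts (ext hn0 q.1) τ)) * 2 ^ Fintype.card (Sym2 (Fin n)))
              ≤ 2 ^ (-(s : ℝ) + ε / 2 * n) * (kden (n - τ) Qs t (z - τ) * 2 ^ Fintype.card (Sym2 (Fin n))) := by
                refine mul_le_mul h5 (mul_le_mul_of_nonneg_right h11 h2S.le) (by positivity) (by positivity)
            _ = _ := by ring
        · have : IsEmpty {b : Sym2 (Fin n) → Bool // Bad2 q b} := by
            rw [isEmpty_subtype]
            rintro b ⟨h1, h2, -⟩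
            exact hinj ⟨h1, h2⟩
          rw [Nat.card_of_isEmpty]
          have := hk0 (n - τ)
          push_cast
          positivity)
    refine h1.trans ?_
    have h5 : ((Fintype.card ((Fin τ → Fin n) × (Fin τ → Fin (n + 1))) : ℕ) : ℝ) ≤ 2 ^ (ε / 4 * n) := by
      rw [Fintype.card_prod, Fintype.card_fun, Fintype.card_fun, Fintype.card_fin, Fintype.card_fin,
        Fintype.card_fin]
      have h6 := hn₃ n hn3
      have h7 : (n : ℝ) ^ (2 * (τ : ℝ) + 1) = (n : ℝ) ^ τ * (n : ℝ) ^ τ * n := by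
        rw [Real.rpow_add hn0R, Real.rpow_one, two_mul, Real.rpow_add hn0R, Real.rpow_natCast]
      rw [h7] at h6
      push_cast
      have h8 : ((n : ℝ) + 1) ^ τ ≤ (2 * n) ^ τ := pow_le_pow_left₀ (by positivity) (by linarith) _
      have h9 : (2 : ℝ) ^ τ ≤ n := by exact_mod_cast (by omega : 2 ^ τ ≤ n)
      have h10 : (0 : ℝ) ≤ (n : ℝ) ^ τ := by positivity
      calc (n : ℝ) ^ τ * ((n : ℝ) + 1) ^ τ ≤ (n : ℝ) ^ τ * (2 * n) ^ τ := mul_le_mul_of_nonneg_left h8 h10
        _ = (n : ℝ) ^ τ * (n : ℝ) ^ τ * 2 ^ τ := by rw [mul_pow]; ring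
        _ ≤ (n : ℝ) ^ τ * (n : ℝ) ^ τ * n := mul_le_mul_of_nonneg_left h9 (by positivity)
        _ ≤ _ := by nlinarith [mul_nonneg (mul_nonneg h10 h10) hn0R.le]
    have h6 : kden (n - τ) Qs t (z - τ) ≤ ∑ m ∈ Icc (n - τ) n, kden m Qs t (z - τ) :=
      single_le_sum (f := fun m => kden m Qs t (z - τ)) (fun m _ => hk0 m) (mem_Icc.2 ⟨le_rfl, by omega⟩)
    have h7 : (2 : ℝ) ^ (ε / 4 * n) * 2 ^ (-(s : ℝ) + ε / 2 * n) ≤ 2 ^ (-(s - 0 * n) + ε * n) := by
      rw [← Real.rpow_add (by norm_num)]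
      refine Real.rpow_le_rpow_of_exponent_le (by norm_num) ?_
      have : 0 ≤ ε * n := by positivity
      linarith
    have h8 := hk0 (n - τ)
    calc ((Fintype.card ((Fin τ → Fin n) × (Fin τ → Fin (n + 1))) : ℕ) : ℝ) *
          (2 ^ (-(s : ℝ) + ε / 2 * n) * kden (n - τ) Qs t (z - τ) * 2 ^ Fintype.card (Sym2 (Fin n)))
        ≤ 2 ^ (ε / 4 * n) *
          (2 ^ (-(s : ℝ) + ε / 2 * n) * kden (n - τ) Qs t (z - τ) * 2 ^ Fintype.card (Sym2 (Fin n))) :=
          mul_le_mul_of_nonneg_right h5 (by positivity)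
      _ = (kden (n - τ) Qs t (z - τ) * (2 ^ (ε / 4 * n) * 2 ^ (-(s : ℝ) + ε / 2 * n))) *
          2 ^ Fintype.card (Sym2 (Fin n)) := by ring
      _ ≤ ((∑ m ∈ Icc (n - τ) n, kden m Qs t (z - τ)) * 2 ^ (-(s - 0 * n) + ε * n)) *
          2 ^ Fintype.card (Sym2 (Fin n)) := by
          refine mul_le_mul_of_nonneg_right ?_ h2S.le
          exact mul_le_mul h6 h7 (by positivity) (h8.trans h6)
  refine hmain.trans ((add_le_add hB1 hB2).trans (le_of_eq ?_))
  ring

/-- the version of `MTop` -/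
theorem stmtM_prod (b₁ : ℝ) (hb : 1 ≤ b₁) (h : RowHyp b₁) : StmtM b₁ 0 := by
  have h1 := stmtMG_prod b₁ (1 / 8) hb h
  intro ε B hε
  obtain ⟨τ, n₀, h2⟩ := h1 ε B hε
  refine ⟨τ, n₀, fun n hn Qs hQ t z s hs => ?_⟩
  have h3 := h2 n hn Qs hQ t z s hs
  have h4 : (1 / 8 * n : ℝ) = n / 8 := by ring
  rw [h4] at h3
  exact h3

end Vale.Agent.P160.Half.MProd
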