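import Vale.Agent.P160.Half.Good439

/-! P160-HALF, LEMMA M (text 11331): the first moment over the vectors of one group with
`gZ M ≤ P`, from the count of the level sets. -/

namespace Vale.Agent.P160.Half.FirstMom685

open Finset Vale.Agent.P160 Vale.Agent.P160.Half Vale.Agent.P160.Half.Flat

section one

variable {G : Type} [AddCommGroup G] [Fintype G]

lemma gZ_eq' {M : ℕ} (hM : 2 ≤ M) {m : ℕ} [DecidableEq G] (y : Fin m → G) :
    gZ M y = Fintype.card G * gpr M y 0 := by
  rw [gpr_zero_eq hM]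
  rfl

lemma gZ_nonneg' {M : ℕ} (hM : 2 ≤ M) {m : ℕ} (y : Fin m → G) : 0 ≤ gZ M y := by
  classical
  rw [gZ_eq' hM]
  exact mul_nonneg (by positivity) (gpr_nonneg _ _)

omit [Fintype G] in
lemma gpr_le_one {M : ℕ} (hM : 1 ≤ M) {m : ℕ} [DecidableEq G] (y : Fin m → G) (g : G) :
    gpr M y g ≤ 1 := by
  unfold gpr
  have hM0 : (0 : ℝ) < M := by exact_mod_cast (by omega : 0 < M)
  rw [div_le_one (by positivity)]
  have h := card_le_univ (univ.filter (fun ω : Fin m → Fin M => gwalk ω y = g))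
  rw [Fintype.card_fun, Fintype.card_fin] at h
  exact_mod_cast h

lemma gZ_le_card {M : ℕ} (hM : 2 ≤ M) {m : ℕ} (y : Fin m → G) : gZ M y ≤ Fintype.card G := by
  classical
  rw [gZ_eq' hM]
  have h := gpr_le_one (by omega : 1 ≤ M) y 0
  have h2 : (0 : ℝ) ≤ Fintype.card G := by positivity
  nlinarith

/-- one level: at most `|G|^m (X/T)^m` vectors with `gZ ≤ 3 T`, `T ≤ |G|` -/
lemma level {M : ℕ} (hM : 2 ≤ M) {k m : ℕ} (hmk : m ≤ k) (S : Finset (Fin m → G)) (X T : ℝ)
    (hT : 1 ≤ T) (hTG : T ≤ Fintype.card G) (hX0 : 0 ≤ X) (hX : X ≤ 1)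
    (hc : (S.card : ℝ) ≤ (Fintype.card G : ℝ) ^ m * (X / T) ^ m)
    (hZ : ∀ y ∈ S, gZ M y ≤ 3 * T) :
    ∑ y ∈ S, (gZ M y / Fintype.card G) ^ k ≤ 3 ^ k := by
  have hG : (0 : ℝ) < Fintype.card G := by exact_mod_cast Fintype.card_pos
  have hT0 : 0 < T := by linarith
  obtain ⟨d, rfl⟩ := Nat.exists_eq_add_of_le hmk
  calc ∑ y ∈ S, (gZ M y / Fintype.card G) ^ (m + d)
      ≤ ∑ _y ∈ S, (3 * T / Fintype.card G) ^ (m + d) := by
        refine sum_le_sum fun y hy => ?_
        refine pow_le_pow_left₀ (div_nonneg (gZ_nonneg' hM y) hG.le) ?_ _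
        exact div_le_div_of_nonneg_right (hZ y hy) hG.le
    _ = S.card * (3 * T / Fintype.card G) ^ (m + d) := by rw [sum_const, nsmul_eq_mul]
    _ ≤ ((Fintype.card G : ℝ) ^ m * (X / T) ^ m) * (3 * T / Fintype.card G) ^ (m + d) := by
        refine mul_le_mul_of_nonneg_right hc (by positivity)
    _ = 3 ^ (m + d) * X ^ m * (T / Fintype.card G) ^ d := by
        rw [pow_add, pow_add, div_pow, div_pow, div_pow, div_pow, mul_pow, mul_pow]
        field_simp
    _ ≤ 3 ^ (m + d) * 1 * 1 := by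
        refine mul_le_mul (mul_le_mul_of_nonneg_left (pow_le_one₀ hX0 hX) (by positivity)) ?_
          (by positivity) (by positivity)
        refine pow_le_one₀ (by positivity) ?_
        rw [div_le_one hG]
        exact hTG
    _ = 3 ^ (m + d) := by ring

open scoped Classical in
/-- **First moment**: `Σ (gZ M y / |G|)^k ≤ 3^k (P + 2)` over the spread `y` with `gZ M y ≤ P`. -/
theorem first_moment {M : ℕ} (hM : 2 ≤ M) {k m : ℕ} (hmk : m ≤ k) (e X P : ℝ)
    (hX0 : 0 ≤ X) (hX : X ≤ 1) (hP : 1 ≤ P)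
    (key : ∀ T : ℝ, 1 ≤ T → T ≤ P →
      ((univ.filter fun y : Fin m → G => NonSp e y ∧ 1 + T ≤ gZ M y).card : ℝ) ≤
        (Fintype.card G : ℝ) ^ m * (X / T) ^ m) :
    ∑ y ∈ univ.filter (fun y : Fin m → G => NonSp e y ∧ gZ M y ≤ P),
      (gZ M y / Fintype.card G) ^ k ≤ 3 ^ k * (P + 2) := by
  have hG : (0 : ℝ) < Fintype.card G := by exact_mod_cast Fintype.card_pos
  have hG1 : (1 : ℝ) ≤ Fintype.card G := by exact_mod_cast Nat.succ_le_of_lt Fintype.card_pos
  set L : ℕ := ⌈P⌉₊ with hL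
  let N0 : Finset (Fin m → G) := univ.filter (fun y : Fin m → G => gZ M y ≤ 2)
  let Ni : ℕ → Finset (Fin m → G) := fun i => univ.filter (fun y : Fin m → G =>
    NonSp e y ∧ 1 + 2 ^ i ≤ gZ M y ∧ gZ M y ≤ 1 + 2 ^ (i + 1) ∧ gZ M y ≤ P)
  set NF := univ.filter (fun y : Fin m → G => NonSp e y ∧ gZ M y ≤ P) with hNF
  have hsub : NF ⊆ N0 ∪ (range L).biUnion Ni := by
    intro y hy
    simp only [hNF, mem_filter, mem_univ, true_and] at hy
    obtain ⟨w1, w3⟩ := hy
    by_cases h2 : gZ M y ≤ 2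
    · refine mem_union_left _ ?_
      simp only [N0, mem_filter, mem_univ, true_and]
      exact h2
    · push Not at h2
      refine mem_union_right _ ?_
      have h3 : (1 : ℝ) ≤ gZ M y - 1 := by linarith
      obtain ⟨i, hi1, hi2⟩ := exists_nat_pow_near h3 (by norm_num : (1 : ℝ) < 2)
      simp only [mem_biUnion, Finset.mem_range, Ni, mem_filter, mem_univ, true_and]
      refine ⟨i, ?_, w1, by linarith, by linarith, w3⟩
      have h4 : (2 : ℝ) ^ i ≤ P := by linarith
      have h5 : ((i : ℕ) : ℝ) < (2 : ℝ) ^ i := by exact_mod_cast Nat.lt_two_pow_self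
      have h6 : (i : ℝ) < P := lt_of_lt_of_le h5 h4
      exact Nat.lt_ceil.2 h6
  have hb0 : ∑ y ∈ N0, (gZ M y / Fintype.card G) ^ k ≤ 3 ^ k := by
    refine level hM hmk N0 1 1 le_rfl hG1 zero_le_one le_rfl ?_ ?_
    · have h1 := card_le_univ N0
      rw [Fintype.card_fun, Fintype.card_fin] at h1
      rw [div_one, one_pow, mul_one]
      exact_mod_cast h1
    · intro y hy
      simp only [N0, mem_filter, mem_univ, true_and] at hy
      linarith
  have hbi : ∀ i ∈ range L, ∑ y ∈ Ni i, (gZ M y / Fintype.card G) ^ k ≤ 3 ^ k := by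
    intro i _
    have h2i : (1 : ℝ) ≤ 2 ^ i := one_le_pow₀ (by norm_num)
    by_cases hiP : (2 : ℝ) ^ i ≤ P
    · by_cases hiG : (2 : ℝ) ^ i ≤ Fintype.card G
      · refine level hM hmk (Ni i) X (2 ^ i) h2i hiG hX0 hX ?_ ?_
        · refine le_trans (Nat.cast_le.2 (card_le_card ?_)) (key (2 ^ i) h2i hiP)
          intro y hy
          simp only [Ni, mem_filter, mem_univ, true_and] at hy ⊢
          exact ⟨hy.1, hy.2.1⟩
        · intro y hy
          simp only [Ni, mem_filter, mem_univ, true_and] at hy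
          have := hy.2.2.1
          rw [pow_succ] at this
          linarith
      · have : Ni i = ∅ := by
          refine filter_eq_empty_iff.2 fun y _ hy => ?_
          obtain ⟨_, h1, _, _⟩ := hy
          have := gZ_le_card hM y
          exact hiG (by linarith)
        rw [this, sum_empty]
        positivity
    · have : Ni i = ∅ := by
        refine filter_eq_empty_iff.2 fun y _ hy => ?_
        obtain ⟨_, h1, _, h3⟩ := hy
        exact hiP (by linarith)
      rw [this, sum_empty]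
      positivity
  have hnn : ∀ y : Fin m → G, 0 ≤ (gZ M y / Fintype.card G) ^ k :=
    fun y => pow_nonneg (div_nonneg (gZ_nonneg' hM y) hG.le) k
  calc ∑ y ∈ NF, (gZ M y / Fintype.card G) ^ k
      ≤ ∑ y ∈ N0 ∪ (range L).biUnion Ni, (gZ M y / Fintype.card G) ^ k :=
        sum_le_sum_of_subset_of_nonneg hsub fun y _ _ => hnn y
    _ ≤ ∑ y ∈ N0, (gZ M y / Fintype.card G) ^ k +
          ∑ y ∈ (range L).biUnion Ni, (gZ M y / Fintype.card G) ^ k := by
        rw [← sum_union_inter]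
        exact le_add_of_nonneg_right (sum_nonneg fun y _ => hnn y)
    _ ≤ ∑ y ∈ N0, (gZ M y / Fintype.card G) ^ k +
          ∑ i ∈ range L, ∑ y ∈ Ni i, (gZ M y / Fintype.card G) ^ k := by
        gcongr
        exact Good439.biUnion_sum_le _ _ _ hnn
    _ ≤ 3 ^ k + ∑ i ∈ range L, (3 : ℝ) ^ k := add_le_add hb0 (sum_le_sum hbi)
    _ = 3 ^ k * (L + 1) := by
        rw [sum_const, card_range, nsmul_eq_mul]
        ring
    _ ≤ _ := by
        refine mul_le_mul_of_nonneg_left ?_ (by positivity)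
        have := Nat.ceil_lt_add_one (by linarith : 0 ≤ P)
        rw [← hL] at this
        linarith

end one

end Vale.Agent.P160.Half.FirstMom685
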