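import Vale.Agent.P160.Half.FlatC4_373
import Vale.Agent.P160.Half.FlatG
import Vale.Agent.P160.Half.FlatF

/-! COUNT for the law `(1/4,1/2,1/4)`, every finite abelian group, unconditional. -/

namespace Vale.Agent.P160.Half.Flat

/-- COUNT, `gZ 4`, barrier `|G| 2^{-m}`, thresholds `T ≥ k^{-3}`. -/
theorem countG4 : C4.StmtCountG4 :=
  C4.stmtCountG4' Grow.stmtGrowth Spl.stmtSplit

end Vale.Agent.P160.Half.Flat
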