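import Vale.Agent.P160.Half.Pack502

/-!
# Packing growth for characters, chord norm (P160 (M), leaf P1 in the form of P2)
-/

namespace Vale.Agent.P160.Half.Pack502

open Finset Complex
open scoped Real

section circ

/-- angle norm of a complex number -/
noncomputable def ang (z : ℂ) : ℝ := |z.arg| / (2 * π)

theorem ang_nonneg (z : ℂ) : 0 ≤ ang z := by
  unfold ang
  positivity

theorem ang_one : ang 1 = 0 := by simp [ang]

theorem ang_inv (z : ℂ) : ang z⁻¹ = ang z := by simp [ang]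

theorem ang_mul {z w : ℂ} (hz : ‖z‖ = 1) (hw : ‖w‖ = 1) : ang (z * w) ≤ ang z + ang w := by
  have hz0 : z ≠ 0 := by rintro rfl; simp at hz
  have hw0 : w ≠ 0 := by rintro rfl; simp at hw
  unfold ang
  rw [← add_div]
  refine div_le_div_of_nonneg_right ?_ (by positivity)
  rw [← Complex.angle_one_right (mul_ne_zero hz0 hw0), ← Complex.angle_one_right hz0,
    ← Complex.angle_one_right hw0]
  have h1 := InnerProductGeometry.angle_le_angle_add_angle (z * w) w 1
  have h2 : InnerProductGeometry.angle (z * w) w = InnerProductGeometry.angle z 1 := by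
    have := Complex.angle_mul_right hw0 z 1
    rwa [one_mul] at this
  rwa [h2] at h1

theorem ang_dbl {z : ℂ} (hz : ‖z‖ = 1) (h : ang z ≤ 1 / 4) : ang (z * z) = 2 * ang z := by
  have hπ := Real.pi_pos
  have h1 : |z.arg| ≤ π / 2 := by
    unfold ang at h
    rw [div_le_iff₀ (by positivity)] at h
    linarith
  obtain ⟨h2, h3⟩ := abs_le.1 h1
  set θ := z.arg with hθ
  have hz2 : z = exp (θ * I) := by
    have := Complex.norm_mul_exp_arg_mul_I z
    rw [hz] at this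
    simpa using this.symm
  have h4 : z * z = exp ((2 * θ : ℝ) * I) := by
    conv_lhs => rw [hz2]
    rw [← Complex.exp_add]
    congr 1
    push_cast
    ring
  unfold ang
  rw [← hθ]
  by_cases h5 : θ = -(π / 2)
  · have h6 : z * z = -1 := by
      rw [h4, h5]
      have : ((2 * -(π / 2) : ℝ) : ℂ) * I = -(π * I) := by push_cast; ring
      rw [this, Complex.exp_neg, Complex.exp_pi_mul_I]
      norm_num
    rw [h6, Complex.arg_neg_one, h5, abs_neg, abs_of_pos hπ, abs_of_pos (by positivity : 0 < π / 2)]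
    field_simp
  · have h6 : -π < 2 * θ := by
      have : -(π / 2) < θ := lt_of_le_of_ne (by linarith) (Ne.symm h5)
      linarith
    have h7 : (z * z).arg = 2 * θ := by
      rw [h4, Complex.arg_exp_mul_I, toIocMod_eq_self]
      exact ⟨h6, by linarith⟩
    rw [h7, abs_mul, abs_two]
    ring

theorem ang_le {z : ℂ} (hz : ‖z‖ = 1) : 4 * ang z ≤ ‖z - 1‖ := by
  have hz0 : z ≠ 0 := by rintro rfl; simp at hz
  have h1 := Complex.mul_angle_le_norm_sub hz (norm_one : ‖(1 : ℂ)‖ = 1)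
  rw [Complex.angle_one_right hz0] at h1
  refine le_trans (le_of_eq ?_) h1
  unfold ang
  field_simp
  ring

theorem le_ang {z : ℂ} (hz : ‖z‖ = 1) : ‖z - 1‖ ≤ 2 * π * ang z := by
  have hz0 : z ≠ 0 := by rintro rfl; simp at hz
  have h1 := Complex.norm_sub_le_angle hz (norm_one : ‖(1 : ℂ)‖ = 1)
  rw [Complex.angle_one_right hz0] at h1
  refine h1.trans (le_of_eq ?_)
  unfold ang
  field_simp

end circ

variable {G : Type*} [AddCommGroup G] [Finite G] {m : ℕ}

theorem nrm_char (y : Fin m → G) :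
    Nrm (fun (c : Fin m) (ψ : AddChar G ℂ) => ang (ψ (y c))) where
  nonneg c s := ang_nonneg _
  zero c := by simp [ang_one]
  neg c s := by
    rw [AddChar.neg_apply']
    exact ang_inv _
  add c s t := by
    rw [AddChar.add_apply]
    exact ang_mul (AddChar.norm_apply _ _) (AddChar.norm_apply _ _)
  dbl c s h := by
    rw [AddChar.add_apply]
    exact ang_dbl (AddChar.norm_apply _ _) h

/-- level sets in chord norm: all but at most `e` coordinates have `ℓ²` chord norm `≤ ρ` -/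
def TC (y : Fin m → G) (ρ : ℝ) (e : ℕ) (ψ : AddChar G ℂ) : Prop :=
  ∃ F : Finset (Fin m), Fᶜ.card ≤ e ∧ ∑ c ∈ F, ‖ψ (y c) - 1‖ ^ 2 ≤ ρ ^ 2

open Classical in
/-- number of characters in the level set -/
noncomputable def NC [Fintype G] (y : Fin m → G) (ρ : ℝ) (e : ℕ) : ℕ :=
  (Finset.univ.filter fun ψ : AddChar G ℂ => TC y ρ e ψ).card

theorem TC_T (y : Fin m → G) {ρ : ℝ} {e : ℕ} {ψ : AddChar G ℂ} (h : TC y ρ e ψ) :
    T (fun (c : Fin m) (ψ : AddChar G ℂ) => ang (ψ (y c))) (ρ / 4) e ψ := by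
  obtain ⟨F, hF, h⟩ := h
  refine ⟨Fᶜ, hF, ?_⟩
  rw [compl_compl]
  have h1 : ∑ c ∈ F, 16 * ang (ψ (y c)) ^ 2 ≤ ρ ^ 2 := by
    refine le_trans (Finset.sum_le_sum fun c _ => ?_) h
    have h2 := ang_le (AddChar.norm_apply ψ (y c))
    have h3 := ang_nonneg (ψ (y c))
    nlinarith
  rw [← Finset.mul_sum] at h1
  nlinarith

theorem T_TC (y : Fin m → G) {ρ : ℝ} {e : ℕ} {ψ : AddChar G ℂ}
    (h : T (fun (c : Fin m) (ψ : AddChar G ℂ) => ang (ψ (y c))) ρ e ψ) :
    TC y (2 * π * ρ) e ψ := by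
  obtain ⟨B, hB, h⟩ := h
  refine ⟨Bᶜ, by rwa [compl_compl], ?_⟩
  calc ∑ c ∈ Bᶜ, ‖ψ (y c) - 1‖ ^ 2 ≤ ∑ c ∈ Bᶜ, (2 * π) ^ 2 * ang (ψ (y c)) ^ 2 := by
        refine Finset.sum_le_sum fun c _ => ?_
        rw [← mul_pow]
        exact pow_le_pow_left₀ (norm_nonneg _) (le_ang (AddChar.norm_apply ψ (y c))) 2
    _ = (2 * π) ^ 2 * ∑ c ∈ Bᶜ, ang (ψ (y c)) ^ 2 := by rw [Finset.mul_sum]
    _ ≤ (2 * π) ^ 2 * ρ ^ 2 := mul_le_mul_of_nonneg_left h (sq_nonneg _)
    _ = (2 * π * ρ) ^ 2 := by ring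

/-- **Packing growth, chord norm.** -/
theorem growthC [Fintype G] (y : Fin m → G) {a q E r : ℕ} {R : ℝ} (hR : 0 ≤ R)
    (hq : 16 * (2 ^ a * R) ^ 2 ≤ (q : ℝ)) (hE : ∀ i < r, ee a q i ≤ E)
    (hmin : ∀ ψ : AddChar G ℂ, ψ ≠ 1 → ∀ F : Finset (Fin m), Fᶜ.card ≤ ee a q r →
      (π * R / 2 ^ (a * r)) ^ 2 < ∑ c ∈ F, ‖ψ (y c) - 1‖ ^ 2) :
    NC y R 0 ^ (r + 1) ≤ NC y (π * (2 ^ a + 1 / 2) * R) E ^ r := by
  classical
  have h1 := growth (nrm_char y) (a := a) (q := q) (E := E) (r := r) (R := R / 4)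
    (by positivity) (by nlinarith) hE (by
      intro ψ hψ
      by_contra hne
      obtain ⟨F, hF, h⟩ := T_TC y hψ
      have h2 := hmin ψ hne F hF
      have h3 : 2 * π * (2 * (R / 4) / 2 ^ (a * r)) = π * R / 2 ^ (a * r) := by ring
      rw [h3] at h
      linarith)
  have h2 : NC y R 0 ≤ N (fun (c : Fin m) (ψ : AddChar G ℂ) => ang (ψ (y c))) (R / 4) 0 := by
    unfold NC N
    refine Finset.card_le_card fun ψ hψ => ?_
    exact Finset.mem_filter.2 ⟨Finset.mem_univ _, TC_T y (Finset.mem_filter.1 hψ).2⟩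
  have h3 : N (fun (c : Fin m) (ψ : AddChar G ℂ) => ang (ψ (y c)))
      (2 ^ (a + 1) * (R / 4) + R / 4) E ≤ NC y (π * (2 ^ a + 1 / 2) * R) E := by
    unfold NC N
    refine Finset.card_le_card fun ψ hψ => ?_
    refine Finset.mem_filter.2 ⟨Finset.mem_univ _, ?_⟩
    have h4 := T_TC y (Finset.mem_filter.1 hψ).2
    have h5 : 2 * π * (2 ^ (a + 1) * (R / 4) + R / 4) = π * (2 ^ a + 1 / 2) * R := by
      rw [pow_succ]; ring
    rwa [h5] at h4
  exact (Nat.pow_le_pow_left h2 _).trans (h1.trans (Nat.pow_le_pow_left h3 _))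

end Vale.Agent.P160.Half.Pack502
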