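import Vale.Agent.P160.Half.MCTail
import Vale.Agent.P160.Half.Pack502b
import Vale.Agent.P160.Half.CountC549
import Vale.Agent.P160.Half.FlatF

/-! P160-HALF, LEMMA MC (helper502's note 11331): the middle and the final statement. -/

open Finset

namespace Vale.Agent.P160.Half.MC

open Vale.Agent.P160 Vale.Agent.P160.Half Vale.Agent.P160.Half.Flat

/-- minimal norm, chord metric: outside every set of at most `e` coordinates every nontrivial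
character has `ℓ²` norm `> σ` -/
def MinC {G : Type} [AddCommGroup G] {m : ℕ} (e σ : ℝ) (y : Fin m → G) : Prop :=
  ∀ ψ : AddChar G ℂ, ψ ≠ 1 → ∀ F : Finset (Fin m), ((Fᶜ).card : ℝ) ≤ e →
    σ ^ 2 < ∑ c ∈ F, ‖ψ (y c) - 1‖ ^ 2

theorem ee_le {a q : ℕ} (ha : 1 ≤ a) : ∀ i, i ≤ 5 → Pack502.ee a q i ≤ (15 * a) ^ i * q := by
  intro i
  induction i with
  | zero => intro _; simp [Pack502.ee]
  | succ i ih =>
    intro hi
    have h1 := ih (by omega)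
    have h2 : 1 ≤ (15 * a) ^ i := Nat.one_le_pow _ _ (by omega)
    have h3 : q ≤ (15 * a) ^ i * q := Nat.le_mul_of_pos_left q (by omega)
    calc Pack502.ee a q (i + 1) = a * (i + 1) * (Pack502.ee a q i + Pack502.ee a q i + q) := rfl
      _ ≤ a * 5 * ((15 * a) ^ i * q + (15 * a) ^ i * q + (15 * a) ^ i * q) := by
          apply Nat.mul_le_mul
          · exact Nat.mul_le_mul_left a (by omega)
          · omega
      _ = (15 * a) ^ (i + 1) * q := by rw [pow_succ]; ring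

theorem ee_le5 {a q : ℕ} (ha : 1 ≤ a) {i : ℕ} (hi : i ≤ 5) :
    Pack502.ee a q i ≤ (15 * a) ^ 5 * q :=
  (ee_le ha i hi).trans (Nat.mul_le_mul_right q (Nat.pow_le_pow_right (by omega) hi))

/-- large product means small norm -/
theorem TC_of_gP {M : ℕ} (hM : 4 ≤ M) {G : Type} [AddCommGroup G] [Fintype G] {m : ℕ}
    (y : Fin m → G) {u R : ℝ} (hR : R ^ 2 = M * u) {ψ : AddChar G ℂ}
    (h : Real.exp (-u) ≤ gP M y ψ) : Pack502.TC y R 0 ψ := by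
  have hM0 : (0 : ℝ) < M := by exact_mod_cast (by omega : 0 < M)
  refine ⟨univ, by simp, ?_⟩
  have h1 : gP M y ψ ≤ Real.exp (-((∑ c, ‖ψ (y c) - 1‖ ^ 2) / M)) := by
    rw [gP_eq_PPi]
    unfold CntM.PPi
    have h2 : ∀ c, CntM.hh (1 / M) (ψ (y c)) ≤ Real.exp (-(‖ψ (y c) - 1‖ ^ 2 / M)) := by
      intro c
      rw [CntM.hh_eq _ (AddChar.norm_apply ψ (y c))]
      have := Real.add_one_le_exp (-(‖ψ (y c) - 1‖ ^ 2 / M))
      have h3 : (1 / (M : ℝ)) * ‖ψ (y c) - 1‖ ^ 2 = ‖ψ (y c) - 1‖ ^ 2 / M := by ring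
      rw [h3]
      linarith
    have hb0 : (0 : ℝ) ≤ 1 / M := by positivity
    have hb4 : (1 : ℝ) / M ≤ 1 / 4 :=
      one_div_le_one_div_of_le (by norm_num) (by exact_mod_cast hM)
    calc ∏ c, CntM.hh (1 / M) (ψ (y c)) ≤ ∏ c, Real.exp (-(‖ψ (y c) - 1‖ ^ 2 / M)) :=
          prod_le_prod (fun c _ => CntM.hh_nonneg hb0 hb4 (AddChar.norm_apply ψ (y c)))
            (fun c _ => h2 c)
      _ = _ := by
          rw [← Real.exp_sum]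
          congr 1
          rw [sum_neg_distrib, sum_div]
  have h2 := Real.exp_le_exp.1 (h.trans h1)
  have h3 : (∑ c, ‖ψ (y c) - 1‖ ^ 2) / M ≤ u := by linarith
  rw [div_le_iff₀ hM0] at h3
  rw [hR]
  linarith

/-- few large coordinates -/
theorem few_of_TC {G : Type} [AddCommGroup G] [Fintype G] {m : ℕ}
    (y : Fin m → G) {ρ r : ℝ} (hr : 0 < r) {e : ℕ} {ψ : AddChar G ℂ} (h : Pack502.TC y ρ e ψ) :
    ((univ.filter fun c => r < ‖ψ (y c) - 1‖).card : ℝ) ≤ e + ρ ^ 2 / r ^ 2 := by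
  obtain ⟨F, hF, h⟩ := h
  have h1 : (univ.filter fun c => r < ‖ψ (y c) - 1‖) ⊆ Fᶜ ∪ F.filter fun c => r < ‖ψ (y c) - 1‖ := by
    intro c hc
    rw [mem_union, mem_compl, mem_filter]
    by_cases h : c ∈ F
    · exact Or.inr ⟨h, (mem_filter.1 hc).2⟩
    · exact Or.inl h
  have h2 : ((F.filter fun c => r < ‖ψ (y c) - 1‖).card : ℝ) * r ^ 2 ≤ ρ ^ 2 := by
    calc ((F.filter fun c => r < ‖ψ (y c) - 1‖).card : ℝ) * r ^ 2
        = ∑ c ∈ F.filter fun c => r < ‖ψ (y c) - 1‖, r ^ 2 := by rw [sum_const, nsmul_eq_mul]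
      _ ≤ ∑ c ∈ F.filter fun c => r < ‖ψ (y c) - 1‖, ‖ψ (y c) - 1‖ ^ 2 :=
          sum_le_sum fun c hc => pow_le_pow_left₀ hr.le (mem_filter.1 hc).2.le 2
      _ ≤ ∑ c ∈ F, ‖ψ (y c) - 1‖ ^ 2 :=
          sum_le_sum_of_subset_of_nonneg (filter_subset _ _) fun _ _ _ => sq_nonneg _
      _ ≤ _ := h
  have h3 : ((F.filter fun c => r < ‖ψ (y c) - 1‖).card : ℝ) ≤ ρ ^ 2 / r ^ 2 := by
    rw [le_div_iff₀ (by positivity)]; exact h2
  have h4 : (univ.filter fun c => r < ‖ψ (y c) - 1‖).card ≤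
      Fᶜ.card + (F.filter fun c => r < ‖ψ (y c) - 1‖).card :=
    (card_le_card h1).trans (card_union_le _ _)
  have h5 : ((univ.filter fun c => r < ‖ψ (y c) - 1‖).card : ℝ) ≤
      Fᶜ.card + (F.filter fun c => r < ‖ψ (y c) - 1‖).card := by exact_mod_cast h4
  have h6 : ((Fᶜ).card : ℝ) ≤ e := by exact_mod_cast hF
  linarith

/-- the deterministic core -/
theorem core {M : ℕ} (hM : 4 ≤ M) {G : Type} [AddCommGroup G] [Fintype G] {m : ℕ}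
    (y : Fin m → G) {a q E : ℕ} {u R e σ r V T : ℝ} (ha : 1 ≤ a) (hR0 : 0 ≤ R)
    (hR : R ^ 2 = M * u) (hq : 16 * (2 ^ a * R) ^ 2 ≤ (q : ℝ))
    (hE : (15 * a) ^ 5 * q ≤ E) (hEe : (E : ℝ) ≤ e) (hσ : Real.pi * R / 2 ^ (a * 5) ≤ σ)
    (hr : 0 < r) (hV : E + (Real.pi * (2 ^ a + 1 / 2) * R) ^ 2 / r ^ 2 ≤ V) (hT : 0 ≤ T)
    (hmin : MinC e σ y)
    (hbig : T / 2 ≤ ((univ.filter fun ψ : AddChar G ℂ => Real.exp (-u) ≤ gP M y ψ).card : ℝ)) :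
    ∃ Lam : Finset (AddChar G ℂ), (T / 2) ^ (6 / 5 : ℝ) ≤ (Lam.card : ℝ) ∧
      ∀ s ∈ Lam, ((univ.filter fun c => r < ‖s (y c) - 1‖).card : ℝ) ≤ V := by
  classical
  have hg := Pack502.growthC y (a := a) (q := q) (E := E) (r := 5) hR0 hq
    (fun i hi => (ee_le5 ha (by omega)).trans hE) (by
      intro ψ hψ F hF
      have h1 : ((Fᶜ).card : ℝ) ≤ e := by
        have h2 : Fᶜ.card ≤ E := hF.trans ((ee_le5 ha le_rfl).trans hE)
        have h3 : ((Fᶜ).card : ℝ) ≤ E := by exact_mod_cast h2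
        linarith
      have h4 := hmin ψ hψ F h1
      refine lt_of_le_of_lt ?_ h4
      exact pow_le_pow_left₀ (by positivity) hσ 2)
  refine ⟨univ.filter fun ψ : AddChar G ℂ => Pack502.TC y (Real.pi * (2 ^ a + 1 / 2) * R) E ψ,
    ?_, ?_⟩
  · have h1 : T / 2 ≤ (Pack502.NC y R 0 : ℝ) := by
      refine hbig.trans ?_
      have : (univ.filter fun ψ : AddChar G ℂ => Real.exp (-u) ≤ gP M y ψ).card ≤
          Pack502.NC y R 0 := by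
        unfold Pack502.NC
        refine card_le_card fun ψ hψ => ?_
        exact mem_filter.2 ⟨mem_univ _, TC_of_gP hM y hR (mem_filter.1 hψ).2⟩
      exact_mod_cast this
    have h2 : ((Pack502.NC y R 0 : ℕ) : ℝ) ^ 6 ≤
        ((Pack502.NC y (Real.pi * (2 ^ a + 1 / 2) * R) E : ℕ) : ℝ) ^ 5 := by exact_mod_cast hg
    have h3 : (T / 2) ^ 6 ≤ ((Pack502.NC y (Real.pi * (2 ^ a + 1 / 2) * R) E : ℕ) : ℝ) ^ 5 :=
      (pow_le_pow_left₀ (by positivity) h1 6).trans h2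
    have h4 : (T / 2) ^ (6 / 5 : ℝ) = ((T / 2) ^ 6) ^ (1 / 5 : ℝ) := by
      rw [← Real.rpow_natCast (T / 2) 6, ← Real.rpow_mul (by positivity)]
      norm_num
    have h5 : (((Pack502.NC y (Real.pi * (2 ^ a + 1 / 2) * R) E : ℕ) : ℝ) ^ 5) ^ (1 / 5 : ℝ) =
        ((Pack502.NC y (Real.pi * (2 ^ a + 1 / 2) * R) E : ℕ) : ℝ) := by
      rw [← Real.rpow_natCast _ 5, ← Real.rpow_mul (by positivity)]
      norm_num
    rw [h4]
    calc ((T / 2) ^ 6) ^ (1 / 5 : ℝ) ≤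
        (((Pack502.NC y (Real.pi * (2 ^ a + 1 / 2) * R) E : ℕ) : ℝ) ^ 5) ^ (1 / 5 : ℝ) :=
          Real.rpow_le_rpow (by positivity) h3 (by norm_num)
      _ = _ := h5
      _ ≤ _ := by
          unfold Pack502.NC
          apply le_of_eq
          congr!
  · intro s hs
    exact (few_of_TC y hr (mem_filter.1 hs).2).trans hV

theorem ev_params (θ C : ℝ) (hθ : 0 < θ) :
    ∃ k₀ : ℕ, ∀ k : ℕ, k₀ ≤ k → 8 ≤ k ∧ 2 ≤ Real.log k ∧ Real.log k ≤ (k : ℝ) ^ θ ∧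
      C ≤ (k : ℝ) ^ θ := by
  have h1 : ∀ᶠ x : ℝ in Filter.atTop, ‖Real.log x‖ ≤ 1 * ‖x ^ θ‖ :=
    (isLittleO_log_rpow_atTop hθ).def one_pos
  have h2 : ∀ᶠ x : ℝ in Filter.atTop, C ≤ x ^ θ :=
    (tendsto_rpow_atTop hθ).eventually_ge_atTop C
  have h3 := tendsto_natCast_atTop_atTop.eventually (h1.and h2)
  obtain ⟨k₀, hk₀⟩ := Filter.eventually_atTop.1 h3
  refine ⟨max k₀ 8, fun k hk => ?_⟩
  have hk8 : 8 ≤ k := (le_max_right _ _).trans hk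
  obtain ⟨h4, h5⟩ := hk₀ k ((le_max_left _ _).trans hk)
  have h6 := log_ge_two hk8
  refine ⟨hk8, h6, ?_, h5⟩
  rw [one_mul, Real.norm_of_nonneg (by positivity : (0 : ℝ) ≤ (k : ℝ) ^ θ)] at h4
  exact (le_abs_self _).trans h4

theorem par_a {k : ℕ} {d : ℝ} (hk : 8 ≤ k) (hx2 : 2 ≤ Real.log k) (hd : 0 < d)
    (hd' : d ≤ 1 / 12) : ∃ a : ℕ, 1 ≤ a ∧ (a : ℝ) ≤ Real.log k ∧
      (2 : ℝ) ^ a ≤ (k : ℝ) ^ (1 / 2 - d) ∧ (k : ℝ) ^ (1 / 2 - d) ≤ 2 * (2 : ℝ) ^ a := by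
  have hk0 : (0 : ℝ) < k := by exact_mod_cast (by omega : 0 < k)
  have hlog2 : 0 < Real.log 2 := Real.log_pos (by norm_num)
  have hl1 : Real.log 2 < 0.6931471808 := Real.log_two_lt_d9
  have hl2 : 0.6931471803 < Real.log 2 := Real.log_two_gt_d9
  rw [Real.rpow_def_of_pos hk0]
  generalize Real.log k = x at hx2 ⊢
  have ha0 : 0 ≤ (1 / 2 - d) * x / Real.log 2 := by
    apply div_nonneg _ hlog2.le
    apply mul_nonneg <;> linarith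
  have ha1 : (⌊(1 / 2 - d) * x / Real.log 2⌋₊ : ℝ) ≤ (1 / 2 - d) * x / Real.log 2 :=
    Nat.floor_le ha0
  have ha2 : (1 / 2 - d) * x / Real.log 2 < ⌊(1 / 2 - d) * x / Real.log 2⌋₊ + 1 :=
    Nat.lt_floor_add_one _
  have hage : 1 ≤ ⌊(1 / 2 - d) * x / Real.log 2⌋₊ := by
    rw [Nat.one_le_floor_iff, le_div_iff₀ hlog2]
    have : (5 / 12 : ℝ) * 2 ≤ (1 / 2 - d) * x :=
      mul_le_mul (by linarith) hx2 (by norm_num) (by linarith)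
    linarith
  generalize ⌊(1 / 2 - d) * x / Real.log 2⌋₊ = a at ha1 ha2 hage
  have ha3 : (a : ℝ) * Real.log 2 ≤ (1 / 2 - d) * x := by
    rwa [le_div_iff₀ hlog2] at ha1
  have ha4 : (1 / 2 - d) * x < (a + 1) * Real.log 2 := by
    rwa [div_lt_iff₀ hlog2] at ha2
  have h2a : (2 : ℝ) ^ a = Real.exp (a * Real.log 2) := by
    rw [Real.exp_nat_mul, Real.exp_log (by norm_num)]
  refine ⟨a, hage, ?_, ?_, ?_⟩
  · have h1 : (1 / 2 - d) * x ≤ (1 / 2) * x := mul_le_mul_of_nonneg_right (by linarith) (by linarith)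
    have h2 : (1 / 2) * x ≤ x * Real.log 2 := by nlinarith
    exact le_of_mul_le_mul_right (ha3.trans (h1.trans h2)) hlog2
  · rw [h2a, mul_comm x]
    exact Real.exp_le_exp.2 ha3
  · have : 2 * (2 : ℝ) ^ a = Real.exp ((a + 1) * Real.log 2) := by
      rw [add_mul, one_mul, Real.exp_add, ← h2a, Real.exp_log (by norm_num)]; ring
    rw [this, mul_comm x]
    exact Real.exp_le_exp.2 ha4.le

theorem par_q {K x B d θ t R : ℝ} {a : ℕ} (hK : 1 ≤ K) (hx2 : 2 ≤ x) (hB0 : 0 < B)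
    (hd : 0 < d) (hd' : d ≤ 1 / 12) (hθ : θ = d / 24) (hxθ : x ≤ K ^ θ)
    (hC1 : 15 ^ 5 * (16 * B + 1) ≤ K ^ θ) (hax : (a : ℝ) ≤ x) (ht : 0 ≤ t)
    (ht2 : t ^ 2 ≤ K ^ (1 - 2 * d)) (hR2 : R ^ 2 = B * x) :
    (15 * (a : ℝ)) ^ 5 * (⌈16 * (t * R) ^ 2⌉₊ : ℝ) ≤ K ^ (1 - d) := by
  have hk0 : (0 : ℝ) < K := by linarith
  have hkd1 : (1 : ℝ) ≤ K ^ (1 - 2 * d) := Real.one_le_rpow hK (by linarith)
  have hq : (⌈16 * (t * R) ^ 2⌉₊ : ℝ) ≤ (16 * B + 1) * (x * K ^ (1 - 2 * d)) := by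
    have h1 := (Nat.ceil_lt_add_one (by positivity : 0 ≤ 16 * (t * R) ^ 2)).le
    refine h1.trans ?_
    have h2 : (t * R) ^ 2 = t ^ 2 * (B * x) := by rw [mul_pow, hR2]
    rw [h2]
    have h3 : t ^ 2 * (B * x) ≤ K ^ (1 - 2 * d) * (B * x) :=
      mul_le_mul_of_nonneg_right ht2 (by positivity)
    have h4 : 1 ≤ x * K ^ (1 - 2 * d) := one_le_mul_of_one_le_of_one_le (by linarith) hkd1
    linarith
  have h15 : (15 * (a : ℝ)) ^ 5 ≤ 15 ^ 5 * x ^ 5 := by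
    rw [mul_pow]
    apply mul_le_mul_of_nonneg_left _ (by positivity)
    exact pow_le_pow_left₀ (Nat.cast_nonneg _) hax 5
  have hx6 : x ^ 6 ≤ K ^ (6 * θ) := by
    have h1 : (K ^ θ) ^ 6 = K ^ (6 * θ) := by
      rw [← Real.rpow_natCast, ← Real.rpow_mul hk0.le]
      congr 1
      push_cast; ring
    rw [← h1]
    exact pow_le_pow_left₀ (by linarith) hxθ 6
  calc (15 * (a : ℝ)) ^ 5 * (⌈16 * (t * R) ^ 2⌉₊ : ℝ)
      ≤ (15 ^ 5 * x ^ 5) * ((16 * B + 1) * (x * K ^ (1 - 2 * d))) :=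
        mul_le_mul h15 hq (Nat.cast_nonneg _) (by positivity)
    _ = (15 ^ 5 * (16 * B + 1)) * (x ^ 6 * K ^ (1 - 2 * d)) := by ring
    _ ≤ K ^ θ * (K ^ (6 * θ) * K ^ (1 - 2 * d)) := by
        apply mul_le_mul hC1 _ (by positivity) (by positivity)
        exact mul_le_mul_of_nonneg_right hx6 (by positivity)
    _ = K ^ (θ + (6 * θ + (1 - 2 * d))) := by
        rw [← Real.rpow_add hk0, ← Real.rpow_add hk0]
    _ ≤ K ^ (1 - d) := by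
        apply Real.rpow_le_rpow_of_exponent_le hK
        rw [hθ]; linarith

theorem par_s {K x B d θ t R : ℝ} (hK : 1 ≤ K) (hx2 : 2 ≤ x) (hB0 : 0 < B)
    (hd' : d ≤ 1 / 12) (hθ : θ = d / 24) (hxθ : x ≤ K ^ θ)
    (hC3 : 128 * (B + 1) ≤ K ^ θ) (ht : 0 < t)
    (ht2 : K ^ (1 / 2 - d) ≤ 2 * t) (hR0 : 0 ≤ R) (hR2 : R ^ 2 = B * x) :
    Real.pi * R ≤ K ^ (-(3 / 2) : ℝ) * t ^ 5 := by
  have hk0 : (0 : ℝ) < K := by linarith
  have hRle : R ≤ (B + 1) * x := by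
    have h1 : 0 ≤ (R - 1) ^ 2 := sq_nonneg _
    nlinarith
  have h2 : (K ^ (1 / 2 - d)) ^ 5 ≤ 32 * t ^ 5 := by
    calc (K ^ (1 / 2 - d)) ^ 5 ≤ (2 * t) ^ 5 := pow_le_pow_left₀ (by positivity) ht2 5
      _ = _ := by ring
  have h3 : (K ^ (1 / 2 - d)) ^ 5 = K ^ (5 / 2 - 5 * d) := by
    rw [← Real.rpow_natCast, ← Real.rpow_mul hk0.le]
    congr 1
    push_cast; ring
  rw [h3] at h2
  have h4 : Real.pi * R ≤ 4 * ((B + 1) * x) :=
    mul_le_mul Real.pi_le_four hRle hR0 (by norm_num)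
  have h5 : 32 * (4 * ((B + 1) * x)) ≤ K ^ (2 * θ) := by
    have h6 : K ^ (2 * θ) = K ^ θ * K ^ θ := by
      rw [← Real.rpow_add hk0]; congr 1; ring
    rw [h6]
    calc 32 * (4 * ((B + 1) * x)) = (128 * (B + 1)) * x := by ring
      _ ≤ _ := mul_le_mul hC3 hxθ (by linarith) (by positivity)
  have h7 : K ^ (2 * θ) ≤ K ^ (-(3 / 2) : ℝ) * K ^ (5 / 2 - 5 * d) := by
    rw [← Real.rpow_add hk0]
    apply Real.rpow_le_rpow_of_exponent_le hK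
    rw [hθ]; linarith
  have h9 : K ^ (-(3 / 2) : ℝ) * K ^ (5 / 2 - 5 * d) ≤ K ^ (-(3 / 2) : ℝ) * (32 * t ^ 5) :=
    mul_le_mul_of_nonneg_left h2 (by positivity)
  linarith

theorem par_v {K x B d θ t R : ℝ} (hK : 1 ≤ K) (hx2 : 2 ≤ x) (hB0 : 0 < B) (hd : 0 < d)
    (hθ : θ = d / 24) (hxθ : x ≤ K ^ θ)
    (hC2 : 1 + 40 * B ≤ K ^ θ) (ht : 1 ≤ t)
    (ht2 : t ^ 2 ≤ K ^ (1 - 2 * d)) (hR2 : R ^ 2 = B * x) :
    (⌊K ^ (1 - d)⌋₊ : ℝ) + (Real.pi * (t + 1 / 2) * R) ^ 2 / (K ^ (-(d / 4))) ^ 2 ≤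
      K ^ (1 - d / 2) := by
  have hk0 : (0 : ℝ) < K := by linarith
  have h1 : (K ^ (-(d / 4))) ^ 2 = K ^ (-(d / 2)) := by
    rw [← Real.rpow_natCast, ← Real.rpow_mul hk0.le]
    congr 1
    push_cast; ring
  have h2 : (Real.pi * (t + 1 / 2) * R) ^ 2 ≤ (40 * B * x) * K ^ (1 - 2 * d) := by
    have h3 : (Real.pi * (t + 1 / 2) * R) ^ 2 =
        Real.pi ^ 2 * (t + 1 / 2) ^ 2 * (B * x) := by rw [mul_pow, mul_pow, hR2]
    have h4 : (t + 1 / 2) ^ 2 ≤ 9 / 4 * t ^ 2 := by nlinarith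
    have h5 : Real.pi ^ 2 ≤ 10 := by
      have := Real.pi_lt_d2
      have := Real.pi_pos
      nlinarith
    rw [h3]
    have h6 : Real.pi ^ 2 * (t + 1 / 2) ^ 2 ≤ 10 * (9 / 4 * K ^ (1 - 2 * d)) := by
      apply mul_le_mul h5 _ (by positivity) (by norm_num)
      linarith
    have h7 : 0 ≤ K ^ (1 - 2 * d) * (B * x) := by positivity
    calc Real.pi ^ 2 * (t + 1 / 2) ^ 2 * (B * x) ≤
        10 * (9 / 4 * K ^ (1 - 2 * d)) * (B * x) :=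
          mul_le_mul_of_nonneg_right h6 (by positivity)
      _ ≤ _ := by linarith
  rw [h1]
  have h3 : (Real.pi * (t + 1 / 2) * R) ^ 2 / K ^ (-(d / 2)) ≤ 40 * B * x * K ^ (1 - d) := by
    rw [div_le_iff₀ (by positivity)]
    refine h2.trans ?_
    have h4 : K ^ (1 - 2 * d) ≤ K ^ (1 - d) * K ^ (-(d / 2)) := by
      rw [← Real.rpow_add hk0]
      apply Real.rpow_le_rpow_of_exponent_le hK
      linarith
    calc (40 * B * x) * K ^ (1 - 2 * d)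
        ≤ (40 * B * x) * (K ^ (1 - d) * K ^ (-(d / 2))) :=
          mul_le_mul_of_nonneg_left h4 (by positivity)
      _ = _ := by ring
  have h4 : (⌊K ^ (1 - d)⌋₊ : ℝ) ≤ K ^ (1 - d) := Nat.floor_le (by positivity)
  have h5 : K ^ (2 * θ) = K ^ θ * K ^ θ := by
    rw [← Real.rpow_add hk0]; congr 1; ring
  have h6 : (1 + 40 * B) * x ≤ K ^ (2 * θ) := by
    rw [h5]
    exact mul_le_mul hC2 hxθ (by linarith) (by positivity)
  have hkd : (0 : ℝ) < K ^ (1 - d) := by positivity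
  have h7 : K ^ (1 - d) ≤ x * K ^ (1 - d) := le_mul_of_one_le_left hkd.le (by linarith)
  calc (⌊K ^ (1 - d)⌋₊ : ℝ) + (Real.pi * (t + 1 / 2) * R) ^ 2 / K ^ (-(d / 2))
      ≤ K ^ (1 - d) + 40 * B * x * K ^ (1 - d) := add_le_add h4 h3
    _ ≤ x * K ^ (1 - d) + 40 * B * x * K ^ (1 - d) := by linarith
    _ = ((1 + 40 * B) * x) * K ^ (1 - d) := by ring
    _ ≤ K ^ (2 * θ) * K ^ (1 - d) := mul_le_mul_of_nonneg_right h6 hkd.le
    _ = K ^ (2 * θ + (1 - d)) := by rw [← Real.rpow_add hk0]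
    _ ≤ K ^ (1 - d / 2) := by
        apply Real.rpow_le_rpow_of_exponent_le hK
        rw [hθ]; linarith

/-- the numbers -/
theorem params {M : ℕ} (hM : 4 ≤ M) {A d : ℝ} (hA : 0 < A) (hd : 0 < d) (hd' : d ≤ 1 / 12) :
    ∃ k₀ : ℕ, ∀ k : ℕ, k₀ ≤ k → ∃ a q E : ℕ, ∃ R : ℝ, 1 ≤ a ∧ 0 ≤ R ∧
      R ^ 2 = M * (A * Real.log k) ∧ 16 * (2 ^ a * R) ^ 2 ≤ (q : ℝ) ∧ (15 * a) ^ 5 * q ≤ E ∧
      (E : ℝ) ≤ (k : ℝ) ^ (1 - d) ∧ Real.pi * R / 2 ^ (a * 5) ≤ (k : ℝ) ^ (-(3 / 2) : ℝ) ∧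
      E + (Real.pi * (2 ^ a + 1 / 2) * R) ^ 2 / ((k : ℝ) ^ (-(d / 4))) ^ 2 ≤
        (k : ℝ) ^ (1 - d / 2) := by
  have hM0 : (0 : ℝ) < M := by exact_mod_cast (by omega : 0 < M)
  have hB0 : (0 : ℝ) < M * A := by positivity
  obtain ⟨k₀, hk₀⟩ := ev_params (d / 24)
    (15 ^ 5 * (16 * (M * A) + 1) + (1 + 40 * (M * A)) + 128 * (M * A + 1)) (by positivity)
  refine ⟨k₀, fun k hk => ?_⟩
  obtain ⟨hk8, hx2, hxθ, hC⟩ := hk₀ k hk
  have hk1 : (1 : ℝ) ≤ k := by exact_mod_cast (by omega : 1 ≤ k)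
  have hk0 : (0 : ℝ) < k := by linarith
  obtain ⟨a, ha1, hax, h2a1, h2a2⟩ := par_a hk8 hx2 hd hd'
  have hsq : ((k : ℝ) ^ (1 / 2 - d)) ^ 2 = (k : ℝ) ^ (1 - 2 * d) := by
    rw [← Real.rpow_natCast, ← Real.rpow_mul hk0.le]
    congr 1
    push_cast; ring
  have h2a3 : ((2 : ℝ) ^ a) ^ 2 ≤ (k : ℝ) ^ (1 - 2 * d) := by
    rw [← hsq]
    exact pow_le_pow_left₀ (by positivity) h2a1 2
  have hR2 : Real.sqrt (M * A * Real.log k) ^ 2 = M * A * Real.log k :=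
    Real.sq_sqrt (by positivity)
  refine ⟨a, ⌈16 * (2 ^ a * Real.sqrt (M * A * Real.log k)) ^ 2⌉₊, ⌊(k : ℝ) ^ (1 - d)⌋₊,
    Real.sqrt (M * A * Real.log k), ha1, Real.sqrt_nonneg _, by rw [hR2]; ring,
    Nat.le_ceil _, ?_, Nat.floor_le (by positivity), ?_, ?_⟩
  · apply Nat.le_floor
    push_cast
    exact par_q hk1 hx2 hB0 hd hd' rfl hxθ (by linarith) hax (by positivity) h2a3 hR2
  · rw [div_le_iff₀ (by positivity), pow_mul]
    exact par_s hk1 hx2 hB0 hd' rfl hxθ (by linarith) (by positivity) h2a2 (Real.sqrt_nonneg _) hR2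
  · exact par_v hk1 hx2 hB0 hd rfl hxθ (by linarith) (one_le_pow₀ (by norm_num)) h2a3 hR2

theorem fin1 {K x kk T C₀ C₁ D : ℝ} {m : ℕ} (hK : 1 ≤ K) (hx : x = Real.log K) (hx2 : 2 ≤ x)
    (hkk : 1 ≤ kk) (hm : (m : ℝ) ≤ kk) (hC₀ : 0 < C₀) (hC₁ : 0 < C₁) (hD : D = C₁ / 5 + C₀ + 1)
    (hT0 : 0 < T) (hT : T ≤ K ^ C₀) :
    Real.exp (-(D * kk * x)) ≤ 1 / 2 * (K ^ (-(C₁ / 5) + 1 / 10) / T) ^ m := by
  have hk0 : (0 : ℝ) < K := by linarith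
  have h1 : Real.exp (-((C₁ / 5 + C₀) * x)) ≤ K ^ (-(C₁ / 5) + 1 / 10) / T := by
    rw [le_div_iff₀ hT0]
    have h2 : Real.exp (-((C₁ / 5 + C₀) * x)) * K ^ C₀ = K ^ (-(C₁ / 5)) := by
      rw [Real.rpow_def_of_pos hk0, Real.rpow_def_of_pos hk0, ← hx, ← Real.exp_add]
      congr 1; ring
    calc Real.exp (-((C₁ / 5 + C₀) * x)) * T ≤ Real.exp (-((C₁ / 5 + C₀) * x)) * K ^ C₀ :=
          mul_le_mul_of_nonneg_left hT (Real.exp_pos _).le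
      _ = K ^ (-(C₁ / 5)) := h2
      _ ≤ _ := Real.rpow_le_rpow_of_exponent_le hK (by linarith)
  have h2 : Real.exp (-((C₁ / 5 + C₀) * x)) ^ m ≤ (K ^ (-(C₁ / 5) + 1 / 10) / T) ^ m :=
    pow_le_pow_left₀ (Real.exp_pos _).le h1 m
  have h3 : Real.exp (-((C₁ / 5 + C₀) * kk * x)) ≤ Real.exp (-((C₁ / 5 + C₀) * x)) ^ m := by
    rw [← Real.exp_nat_mul]
    apply Real.exp_le_exp.2
    have h4 : (m : ℝ) * ((C₁ / 5 + C₀) * x) ≤ kk * ((C₁ / 5 + C₀) * x) :=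
      mul_le_mul_of_nonneg_right hm (by positivity)
    linarith
  have h4 : Real.exp (-(D * kk * x)) = Real.exp (-(kk * x)) * Real.exp (-((C₁ / 5 + C₀) * kk * x)) := by
    rw [← Real.exp_add, hD]
    congr 1; ring
  have h5 : Real.exp (-(kk * x)) ≤ 1 / 2 := by
    have h6 : 2 ≤ kk * x := by nlinarith
    have h7 : Real.exp (-(kk * x)) ≤ Real.exp (-1) := Real.exp_le_exp.2 (by linarith)
    have h8 : Real.exp (-1) < 0.3678794412 := Real.exp_neg_one_lt_d9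
    linarith
  rw [h4]
  exact mul_le_mul h5 (h3.trans h2) (Real.exp_pos _).le (by norm_num)

theorem fin2 {K T C₁ : ℝ} {m : ℕ} (hK : 1 ≤ K) (hm : 1 ≤ m) (hC₁ : 0 < C₁)
    (h4 : 4 ≤ K ^ (1 / 40 : ℝ)) (hT : K ^ C₁ ≤ T) :
    (K ^ (1 / 40 : ℝ) / (T / 2) ^ (6 / 5 : ℝ)) ^ m ≤
      1 / 2 * (K ^ (-(C₁ / 5) + 1 / 10) / T) ^ m := by
  have hk0 : (0 : ℝ) < K := by linarith
  have hT0 : 0 < T := (Real.rpow_pos_of_pos hk0 _).trans_le hT
  have h1 : (T / 2) ^ (6 / 5 : ℝ) = (T / 2) * (T / 2) ^ (1 / 5 : ℝ) := by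
    rw [show (6 / 5 : ℝ) = 1 + 1 / 5 by norm_num, Real.rpow_add (by positivity), Real.rpow_one]
  have h2 : K ^ (C₁ / 5) / 2 ≤ (T / 2) ^ (1 / 5 : ℝ) := by
    have h3 : (K ^ C₁ / 2) ^ (1 / 5 : ℝ) ≤ (T / 2) ^ (1 / 5 : ℝ) :=
      Real.rpow_le_rpow (by positivity) (by linarith) (by norm_num)
    refine le_trans ?_ h3
    rw [Real.div_rpow (by positivity) (by norm_num), ← Real.rpow_mul hk0.le,
      show C₁ * (1 / 5) = C₁ / 5 by ring]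
    apply div_le_div_of_nonneg_left (by positivity) (by positivity)
    calc (2 : ℝ) ^ (1 / 5 : ℝ) ≤ 2 ^ (1 : ℝ) :=
          Real.rpow_le_rpow_of_exponent_le (by norm_num) (by norm_num)
      _ = 2 := Real.rpow_one 2
  have h5 : K ^ (1 / 40 : ℝ) / (T / 2) ^ (6 / 5 : ℝ) ≤ 1 / 2 * (K ^ (-(C₁ / 5) + 1 / 10) / T) := by
    have h6 : (T / 2) * (K ^ (C₁ / 5) / 2) ≤ (T / 2) ^ (6 / 5 : ℝ) := by
      rw [h1]
      exact mul_le_mul_of_nonneg_left h2 (by positivity)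
    rw [div_le_iff₀ (by positivity)]
    have h7 : K ^ (-(C₁ / 5) + 1 / 10) * K ^ (C₁ / 5) =
        K ^ (1 / 40 : ℝ) * (K ^ (1 / 40 : ℝ) * (K ^ (1 / 40 : ℝ) * K ^ (1 / 40 : ℝ))) := by
      rw [← Real.rpow_add hk0, ← Real.rpow_add hk0, ← Real.rpow_add hk0, ← Real.rpow_add hk0]
      congr 1; norm_num
    have h8 : (8 : ℝ) ≤ K ^ (1 / 40 : ℝ) * (K ^ (1 / 40 : ℝ) * K ^ (1 / 40 : ℝ)) := by
      have h9 : (16 : ℝ) ≤ K ^ (1 / 40 : ℝ) * K ^ (1 / 40 : ℝ) := by nlinarith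
      nlinarith
    have h9 : K ^ (1 / 40 : ℝ) ≤ 1 / 8 * (K ^ (-(C₁ / 5) + 1 / 10) * K ^ (C₁ / 5)) := by
      rw [h7]
      have : 0 < K ^ (1 / 40 : ℝ) := by positivity
      nlinarith
    calc K ^ (1 / 40 : ℝ) ≤ 1 / 8 * (K ^ (-(C₁ / 5) + 1 / 10) * K ^ (C₁ / 5)) := h9
      _ = 1 / 2 * (K ^ (-(C₁ / 5) + 1 / 10) / T) * ((T / 2) * (K ^ (C₁ / 5) / 2)) := by
          field_simp; ring
      _ ≤ _ := mul_le_mul_of_nonneg_left h6 (by positivity)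
  have h6 := pow_le_pow_left₀ (by positivity) h5 m
  refine h6.trans ?_
  rw [mul_pow]
  apply mul_le_mul_of_nonneg_right _ (by positivity)
  calc (1 / 2 : ℝ) ^ m ≤ (1 / 2) ^ 1 := pow_le_pow_of_le_one (by norm_num) (by norm_num) hm
    _ = 1 / 2 := pow_one _

open scoped Classical in
/-- **LEMMA MC** (helper502's note 11331), general laziness `M ≥ 4`. -/
theorem mc (M : ℕ) (hM : 4 ≤ M) (c C₀ C₁ d : ℝ) (hc : 0 < c) (hC₀ : 0 < C₀) (hC₁ : 0 < C₁)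
    (hd : 0 < d) (hd' : d ≤ 1 / 12) :
    ∃ k₀ : ℕ, ∀ k : ℕ, k₀ ≤ k →
    ∀ (G : Type) [AddCommGroup G] [Fintype G] (m : ℕ), m ≤ k → (k : ℝ) ≤ 2 * m →
    (∀ p : ℕ, p.Prime → p ∣ Fintype.card G → k ≤ p) →
    (Fintype.card G : ℝ) * (1 - 2 / M) ^ m ≤ Real.exp (-c * k) →
    ∀ T : ℝ, (k : ℝ) ^ C₁ ≤ T → T ≤ (k : ℝ) ^ C₀ →
    ((univ.filter fun y : Fin m → G =>
      MinC ((k : ℝ) ^ (1 - d)) ((k : ℝ) ^ (-(3 / 2) : ℝ)) y ∧ T ≤ gZ M y).card : ℝ) ≤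
      (Fintype.card G : ℝ) ^ m * ((k : ℝ) ^ (-(C₁ / 5) + 1 / 10) / T) ^ m := by
  obtain ⟨A, hA, k₁, htail⟩ := tail M hM c (C₁ / 5 + C₀ + 1) hc (by positivity)
  obtain ⟨k₂, hpar⟩ := params hM hA hd hd'
  obtain ⟨k₃, hcount⟩ := CountC.countC_asymp3 Spl.stmtSplit (1 / 40) (d / 4) (d / 2) (2 * C₀)
    (by norm_num) (by positivity) (by positivity) (by positivity)
  obtain ⟨k₄, hev⟩ := ev_params (min C₁ (1 / 40)) 4 (by positivity)
  refine ⟨max (max k₁ k₂) (max k₃ k₄), ?_⟩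
  intro k hk G _ _ m hmk hkm hp hcard T hT1 hT2
  have hk1' : k₁ ≤ k := ((le_max_left _ _).trans (le_max_left _ _)).trans hk
  have hk2' : k₂ ≤ k := ((le_max_right _ _).trans (le_max_left _ _)).trans hk
  have hk3' : k₃ ≤ k := ((le_max_left _ _).trans (le_max_right _ _)).trans hk
  have hk4' : k₄ ≤ k := ((le_max_right _ _).trans (le_max_right _ _)).trans hk
  obtain ⟨hk8, hx2, -, h4⟩ := hev k hk4'
  have hk1 : (1 : ℝ) ≤ k := by exact_mod_cast (by omega : 1 ≤ k)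
  have hk0 : (0 : ℝ) < k := by linarith
  have hm1 : 1 ≤ m := by
    by_contra h
    have : m = 0 := by omega
    rw [this] at hkm
    simp at hkm
    omega
  have h4C : 4 ≤ (k : ℝ) ^ C₁ :=
    h4.trans (Real.rpow_le_rpow_of_exponent_le hk1 (min_le_left _ _))
  have h440 : 4 ≤ (k : ℝ) ^ (1 / 40 : ℝ) :=
    h4.trans (Real.rpow_le_rpow_of_exponent_le hk1 (min_le_right _ _))
  have hT4 : 4 ≤ T := h4C.trans hT1
  have hT0 : 0 < T := by linarith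
  have hG2 : (Fintype.card G : ℝ) ≤ 2 ^ k := by
    have hM' : (4 : ℝ) ≤ M := by exact_mod_cast hM
    have h1 : (Fintype.card G : ℝ) * (1 / 2) ^ m ≤ 1 := by
      have h2 : (1 / 2 : ℝ) ≤ 1 - 2 / M := by
        have : 2 / (M : ℝ) ≤ 1 / 2 := by
          rw [div_le_iff₀ (by linarith)]; linarith
        linarith
      calc (Fintype.card G : ℝ) * (1 / 2) ^ m ≤ Fintype.card G * (1 - 2 / M) ^ m :=
            mul_le_mul_of_nonneg_left (pow_le_pow_left₀ (by norm_num) h2 m) (Nat.cast_nonneg _)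
        _ ≤ Real.exp (-c * k) := hcard
        _ ≤ 1 := by
            apply Real.exp_le_one_iff.2
            nlinarith
    have h3 : (1 / 2 : ℝ) ^ m * 2 ^ m = 1 := by rw [← mul_pow]; norm_num
    calc (Fintype.card G : ℝ) = (Fintype.card G * (1 / 2) ^ m) * 2 ^ m := by
          rw [mul_assoc, h3, mul_one]
      _ ≤ 1 * 2 ^ m := mul_le_mul_of_nonneg_right h1 (by positivity)
      _ = 2 ^ m := one_mul _
      _ ≤ 2 ^ k := pow_le_pow_right₀ (by norm_num) hmk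
  have hK1 : 1 ≤ (T / 2) ^ (6 / 5 : ℝ) := Real.one_le_rpow (by linarith) (by norm_num)
  have hKC : (T / 2) ^ (6 / 5 : ℝ) ≤ (k : ℝ) ^ (2 * C₀) := by
    calc (T / 2) ^ (6 / 5 : ℝ) ≤ (T / 2) ^ (2 : ℝ) :=
          Real.rpow_le_rpow_of_exponent_le (by linarith) (by norm_num)
      _ ≤ ((k : ℝ) ^ C₀) ^ (2 : ℝ) :=
          Real.rpow_le_rpow (by positivity) (by linarith) (by norm_num)
      _ = (k : ℝ) ^ (2 * C₀) := by
          rw [← Real.rpow_mul hk0.le, mul_comm]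
  have hb1 := htail k hk1' G m hG2 hcard T (by linarith)
  have hb2 := hcount k hk3' G m hkm hp hG2 _ hK1 hKC
  obtain ⟨a, q, E, R, ha, hR0, hR, hq, hE, hEe, hσ, hV⟩ := hpar k hk2'
  have hsub : (univ.filter fun y : Fin m → G =>
      MinC ((k : ℝ) ^ (1 - d)) ((k : ℝ) ^ (-(3 / 2) : ℝ)) y ∧ T ≤ gZ M y) ⊆
      (univ.filter fun y : Fin m → G => T ≤ gZ M y ∧
        ((univ.filter fun ψ : AddChar G ℂ => Real.exp (-(A * Real.log k)) ≤ gP M y ψ).card : ℝ) <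
          T / 2) ∪
      (univ.filter fun y : Fin m → G => ∃ Lam : Finset (AddChar G ℂ),
        (T / 2) ^ (6 / 5 : ℝ) ≤ (Lam.card : ℝ) ∧
        ∀ s ∈ Lam, ((univ.filter fun c => (k : ℝ) ^ (-(d / 4)) < ‖s (y c) - 1‖).card : ℝ) ≤
          (k : ℝ) ^ (1 - d / 2)) := by
    intro y hy
    obtain ⟨_, hy1, hy2⟩ := mem_filter.1 hy
    rw [mem_union]
    by_cases h : ((univ.filter fun ψ : AddChar G ℂ =>
        Real.exp (-(A * Real.log k)) ≤ gP M y ψ).card : ℝ) < T / 2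
    · left
      rw [mem_filter]
      exact ⟨mem_univ _, hy2, h⟩
    · right
      rw [mem_filter]
      refine ⟨mem_univ _, ?_⟩
      exact core hM y ha hR0 hR hq hE hEe hσ (by positivity) hV hT0.le hy1 (not_lt.1 h)
  have hg0 : (0 : ℝ) ≤ (Fintype.card G : ℝ) ^ m := by positivity
  have hf1 := fin1 (m := m) hk1 rfl hx2 hk1 (by exact_mod_cast hmk : (m : ℝ) ≤ k) hC₀ hC₁ rfl hT0 hT2
  have hf2 := fin2 (m := m) hk1 hm1 hC₁ h440 hT1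
  have hcu := card_union_le (univ.filter fun y : Fin m → G => T ≤ gZ M y ∧
        ((univ.filter fun ψ : AddChar G ℂ => Real.exp (-(A * Real.log k)) ≤ gP M y ψ).card : ℝ) <
          T / 2)
      (univ.filter fun y : Fin m → G => ∃ Lam : Finset (AddChar G ℂ),
        (T / 2) ^ (6 / 5 : ℝ) ≤ (Lam.card : ℝ) ∧
        ∀ s ∈ Lam, ((univ.filter fun c => (k : ℝ) ^ (-(d / 4)) < ‖s (y c) - 1‖).card : ℝ) ≤
          (k : ℝ) ^ (1 - d / 2))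
  have hcu2 := (card_le_card hsub).trans hcu
  have hcu3 : ((univ.filter fun y : Fin m → G =>
      MinC ((k : ℝ) ^ (1 - d)) ((k : ℝ) ^ (-(3 / 2) : ℝ)) y ∧ T ≤ gZ M y).card : ℝ) ≤
      (Fintype.card G : ℝ) ^ m * Real.exp (-((C₁ / 5 + C₀ + 1) * k * Real.log k)) +
      (Fintype.card G : ℝ) ^ m * ((k : ℝ) ^ (1 / 40 : ℝ) / (T / 2) ^ (6 / 5 : ℝ)) ^ m := by
    refine le_trans (by exact_mod_cast hcu2) (add_le_add hb1 hb2)
  refine hcu3.trans ?_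
  calc _ ≤ (Fintype.card G : ℝ) ^ m * (1 / 2 * ((k : ℝ) ^ (-(C₁ / 5) + 1 / 10) / T) ^ m) +
        (Fintype.card G : ℝ) ^ m * (1 / 2 * ((k : ℝ) ^ (-(C₁ / 5) + 1 / 10) / T) ^ m) :=
        add_le_add (mul_le_mul_of_nonneg_left hf1 hg0) (mul_le_mul_of_nonneg_left hf2 hg0)
    _ = _ := by ring

end Vale.Agent.P160.Half.MC
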