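import Vale.Agent.P160.Half.Link628
import Vale.Agent.P160.Half.M67Stmt

/-! # P160/Half: MIN NORM in the form of the official statements `M67` (chord norm, `s = k^(1-d)`) -/

namespace Vale.Agent.P160.Half.MinM67

open Finset Vale.Agent.P160 Vale.Agent.P160.Half Vale.Agent.P160.Half.MinNorm628

/-- For a matrix with entries `0, ±1` of full rational column rank without sparse almost integral
vectors (`¬ SpB s M`), kernel tuples have no short nontrivial characters (chord norm). -/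
theorem min_chord {k m : ℕ} (M : Matrix (Fin k) (Fin m) ℤ) (hM : ∀ i c, |M i c| ≤ 1)
    (hr : M67.rkQ M = m) {s : ℝ} (hs1 : 1 ≤ s) (hS : ¬ M67.SpB s M)
    {G : Type} [AddCommGroup G] [Fintype G] (y : Fin m → G) (hy : ∀ i, ∑ j, M i j • y j = 0)
    (ψ : AddChar G ℂ) (hψ : ∃ c, ψ (y c) ≠ 1) (F : Finset (Fin m)) (hF : ((Fᶜ).card : ℝ) ≤ s) :
    (1 / (16 * Real.sqrt m * s)) ^ 2 < ∑ c ∈ F, ‖ψ (y c) - 1‖ ^ 2 := by
  classical
  have hs0 : 0 < s := by linarith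
  have hm : 0 < m := by
    obtain ⟨c, -⟩ := hψ
    exact Fin.pos c
  have hm' : (0 : ℝ) < m := by exact_mod_cast hm
  set φ : Fin m → ℝ := fun c => ph (ψ (y c)) with hφ
  have hφ0 : φ ≠ 0 := by
    obtain ⟨c, hc⟩ := hψ
    intro h
    exact hc ((ph_eq_zero_iff (AddChar.norm_apply _ _)).1 (congrFun h c))
  have hinj : ∀ φ : Fin m → ℝ, (∀ i, ∑ c, (M i c : ℝ) * φ c = 0) → φ = 0 :=
    inj_of_rank M (by rw [Fintype.card_fin]; exact hr)
  have h := min_norm M hM hinj hs1 (fun ψ' h' => hS ?_) φ (fun c => abs_ph_le _) hφ0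
    (fun i => ph_int _ y (M i) (hy i)) F hF
  · rw [Fintype.card_fin] at h
    have hpos : 0 < 1 / (64 * Real.sqrt m * s) := by positivity
    have h1 : (1 / (64 * Real.sqrt m * s)) ^ 2 < ∑ c ∈ F, φ c ^ 2 := by
      have := (Real.lt_sqrt hpos.le).1 h
      exact this
    calc (1 / (16 * Real.sqrt m * s)) ^ 2 = 16 * (1 / (64 * Real.sqrt m * s)) ^ 2 := by
          field_simp
          norm_num
      _ < 16 * ∑ c ∈ F, φ c ^ 2 := by linarith
      _ ≤ ∑ c ∈ F, ‖ψ (y c) - 1‖ ^ 2 := by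
          rw [mul_sum]
          refine sum_le_sum fun c _ => ?_
          have h2 := Link628.le_norm_sub_one (AddChar.norm_apply ψ (y c))
          have h3 := pow_le_pow_left₀ (by positivity) h2 2
          calc 16 * φ c ^ 2 = (4 * |ph (ψ (y c))|) ^ 2 := by rw [mul_pow, sq_abs]; norm_num [hφ]
            _ ≤ _ := h3
  · obtain ⟨h1, h2, h3, h4⟩ := h'
    exact ⟨ψ', h1, h2, h3, h4⟩

/-- the form used by LEMMA MC: `s = k^(1-d)`, threshold `k^(-3/2)` -/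
theorem minC {d : ℝ} (hd : 0 < d) (hd1 : d ≤ 1) : ∃ k₀ : ℕ, ∀ k ≥ k₀, ∀ m ≤ k,
    ∀ M : Matrix (Fin k) (Fin m) ℤ, (∀ i c, |M i c| ≤ 1) → M67.rkQ M = m →
    ¬ M67.SpB ((k : ℝ) ^ (1 - d)) M →
    ∀ (G : Type) [AddCommGroup G] [Fintype G] (y : Fin m → G), (∀ i, ∑ j, M i j • y j = 0) →
    ∀ ψ : AddChar G ℂ, (∃ c, ψ (y c) ≠ 1) →
    ∀ F : Finset (Fin m), ((Fᶜ).card : ℝ) ≤ (k : ℝ) ^ (1 - d) →
      ((k : ℝ) ^ (-(3 / 2 : ℝ))) ^ 2 < ∑ c ∈ F, ‖ψ (y c) - 1‖ ^ 2 := by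
  have h1 : ∀ᶠ k : ℕ in Filter.atTop, (16 : ℝ) ≤ (k : ℝ) ^ d :=
    ((tendsto_rpow_atTop hd).comp tendsto_natCast_atTop_atTop).eventually_ge_atTop 16
  obtain ⟨k₀, hk₀⟩ := Filter.eventually_atTop.1 (h1.and (Filter.eventually_ge_atTop 1))
  refine ⟨k₀, fun k hk m hm M hM hr hS G _ _ y hy ψ hψ F hF => ?_⟩
  obtain ⟨h16, hk1⟩ := hk₀ k hk
  have hkr : (1 : ℝ) ≤ k := by exact_mod_cast hk1
  have hk0 : (0 : ℝ) < k := by linarith
  have hs1 : 1 ≤ (k : ℝ) ^ (1 - d) := Real.one_le_rpow hkr (by linarith)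
  have h := min_chord M hM hr hs1 hS y hy ψ hψ F hF
  refine lt_of_le_of_lt ?_ h
  refine pow_le_pow_left₀ (by positivity) ?_ 2
  have hm0 : 0 < m := by
    obtain ⟨c, -⟩ := hψ
    exact Fin.pos c
  have hm' : (0 : ℝ) < m := by exact_mod_cast hm0
  have hsm : Real.sqrt m ≤ Real.sqrt k := Real.sqrt_le_sqrt (by exact_mod_cast hm)
  have hs0 : 0 < (k : ℝ) ^ (1 - d) := by positivity
  have hsq : 0 < Real.sqrt m := Real.sqrt_pos.2 hm'
  have h2 : 16 * Real.sqrt m * (k : ℝ) ^ (1 - d) ≤ (k : ℝ) ^ (3 / 2 : ℝ) := by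
    calc 16 * Real.sqrt m * (k : ℝ) ^ (1 - d)
        ≤ (k : ℝ) ^ d * Real.sqrt k * (k : ℝ) ^ (1 - d) := by gcongr
      _ = (k : ℝ) ^ (3 / 2 : ℝ) := by
          rw [Real.sqrt_eq_rpow, ← Real.rpow_add hk0, ← Real.rpow_add hk0]
          congr 1
          ring
  rw [Real.rpow_neg hk0.le, ← one_div]
  exact one_div_le_one_div_of_le (by positivity) h2

end Vale.Agent.P160.Half.MinM67
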