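import Vale.Agent.P160.Half.Pack502

/-! # P160/Half: minimal norm of the reduced vector of a character (P3 of helper502's note 11331)

`X` : integer matrix with entries `0, ±1`, injective over `ℝ`; `φ` real, `|φ c| ≤ 1/2`,
`X φ` integral, `φ ≠ 0`.  If no sparse `ψ` is almost integral for all rows (`hS`), then `φ` has
norm `> 1/(64 √m E)` outside every set of at most `E` coordinates. -/

namespace Vale.Agent.P160.Half.MinNorm628

open Finset

variable {ι κ : Type*} [Fintype κ] [DecidableEq κ]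

/-- distance to an integer: some integer within `t`. -/
def NearZ (x t : ℝ) : Prop := ∃ z : ℤ, |x - z| ≤ t

/-- `ψ` is a sparse almost integral vector (event S (b)). -/
def SpB (X : ι → κ → ℤ) (E : ℝ) (ψ : κ → ℝ) : Prop :=
  (∀ c, |ψ c| ≤ 1 / 2) ∧ ((univ.filter fun c => ψ c ≠ 0).card : ℝ) ≤ E ∧
    (∃ c, 1 / (4 * E) < |ψ c|) ∧ ∀ i, NearZ (∑ c, (X i c : ℝ) * ψ c) (1 / (64 * E))

theorem min_norm (X : ι → κ → ℤ) (hX : ∀ i c, |X i c| ≤ 1)
    (hinj : ∀ φ : κ → ℝ, (∀ i, ∑ c, (X i c : ℝ) * φ c = 0) → φ = 0)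
    {E : ℝ} (hE : 1 ≤ E) (hS : ∀ ψ, ¬ SpB X E ψ)
    (φ : κ → ℝ) (hφ : ∀ c, |φ c| ≤ 1 / 2) (hφ0 : φ ≠ 0)
    (hint : ∀ i, ∃ z : ℤ, ∑ c, (X i c : ℝ) * φ c = z)
    (G : Finset κ) (hG : ((Gᶜ).card : ℝ) ≤ E) :
    1 / (64 * Real.sqrt (Fintype.card κ) * E) < Real.sqrt (∑ c ∈ G, φ c ^ 2) := by
  classical
  have hE0 : 0 < E := by linarith
  by_contra hcon
  push Not at hcon
  have hXr : ∀ i c, |(X i c : ℝ)| ≤ 1 := fun i c => by exact_mod_cast hX i c
  have hne : Nonempty κ := by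
    by_contra h
    rw [not_nonempty_iff] at h
    exact hφ0 (funext fun c => (h.false c).elim)
  have hcard : 0 < (Fintype.card κ : ℝ) := by exact_mod_cast Fintype.card_pos
  have hsq : 0 < Real.sqrt (Fintype.card κ) := Real.sqrt_pos.2 hcard
  -- the part on `G` is small
  have hGsmall : ∀ i, |∑ c ∈ G, (X i c : ℝ) * φ c| ≤ 1 / (64 * E) := by
    intro i
    have h1 := Finset.sum_mul_sq_le_sq_mul_sq G (fun c => (X i c : ℝ)) φ
    have h2 : ∑ c ∈ G, (X i c : ℝ) ^ 2 ≤ Fintype.card κ := by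
      calc ∑ c ∈ G, (X i c : ℝ) ^ 2 ≤ ∑ _c ∈ G, (1 : ℝ) := by
            refine sum_le_sum fun c _ => ?_
            rw [← sq_abs]
            exact pow_le_one₀ (abs_nonneg _) (hXr i c)
        _ = G.card := by simp
        _ ≤ Fintype.card κ := by exact_mod_cast card_le_univ G
    have h3 : |∑ c ∈ G, (X i c : ℝ) * φ c| ≤
        Real.sqrt (Fintype.card κ) * Real.sqrt (∑ c ∈ G, φ c ^ 2) := by
      rw [← Real.sqrt_mul hcard.le]
      refine Real.abs_le_sqrt (h1.trans ?_)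
      exact mul_le_mul_of_nonneg_right h2 (sum_nonneg fun c _ => sq_nonneg _)
    refine h3.trans ?_
    calc Real.sqrt (Fintype.card κ) * Real.sqrt (∑ c ∈ G, φ c ^ 2)
        ≤ Real.sqrt (Fintype.card κ) * (1 / (64 * Real.sqrt (Fintype.card κ) * E)) :=
          mul_le_mul_of_nonneg_left hcon hsq.le
      _ = 1 / (64 * E) := by field_simp
  have hsplit : ∀ i, ∑ c, (X i c : ℝ) * φ c =
      (∑ c ∈ G, (X i c : ℝ) * φ c) + ∑ c ∈ Gᶜ, (X i c : ℝ) * φ c := fun i =>
    (sum_add_sum_compl G _).symm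
  set ψ : κ → ℝ := fun c => if c ∈ G then 0 else φ c with hψ
  have hψsum : ∀ i, ∑ c, (X i c : ℝ) * ψ c = ∑ c ∈ Gᶜ, (X i c : ℝ) * φ c := by
    intro i
    rw [← sum_add_sum_compl G]
    have e1 : ∑ c ∈ G, (X i c : ℝ) * ψ c = 0 := sum_eq_zero fun c hc => by simp [hψ, hc]
    rw [e1, zero_add]
    refine sum_congr rfl fun c hc => ?_
    rw [mem_compl] at hc
    simp [hψ, hc]
  by_cases hmax : ∃ c, 1 / (4 * E) < |ψ c|
  · refine hS ψ ⟨fun c => ?_, ?_, hmax, fun i => ?_⟩
    · by_cases hc : c ∈ G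
      · simp [hψ, hc]
      · simpa [hψ, hc] using hφ c
    · refine le_trans ?_ hG
      have : (univ.filter fun c => ψ c ≠ 0) ⊆ Gᶜ := by
        intro c hc
        rw [mem_filter] at hc
        rw [mem_compl]
        intro h
        exact hc.2 (by simp [hψ, h])
      exact_mod_cast card_le_card this
    · obtain ⟨z, hz⟩ := hint i
      refine ⟨z, ?_⟩
      rw [hψsum i, ← hz, hsplit i]
      have : (∑ c ∈ Gᶜ, (X i c : ℝ) * φ c) -
          ((∑ c ∈ G, (X i c : ℝ) * φ c) + ∑ c ∈ Gᶜ, (X i c : ℝ) * φ c) =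
          -(∑ c ∈ G, (X i c : ℝ) * φ c) := by ring
      rw [this, abs_neg]
      exact hGsmall i
  · push Not at hmax
    refine hφ0 (hinj φ fun i => ?_)
    obtain ⟨z, hz⟩ := hint i
    have h1 : |∑ c ∈ Gᶜ, (X i c : ℝ) * φ c| ≤ 1 / 4 := by
      calc |∑ c ∈ Gᶜ, (X i c : ℝ) * φ c| ≤ ∑ c ∈ Gᶜ, |(X i c : ℝ) * φ c| := abs_sum_le_sum_abs _ _
        _ ≤ ∑ _c ∈ Gᶜ, 1 / (4 * E) := by
            refine sum_le_sum fun c hc => ?_
            rw [mem_compl] at hc
            have h2 := hmax c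
            simp only [hψ, hc, if_false] at h2
            rw [abs_mul]
            calc |(X i c : ℝ)| * |φ c| ≤ 1 * |φ c| :=
                  mul_le_mul_of_nonneg_right (hXr i c) (abs_nonneg _)
              _ ≤ 1 / (4 * E) := by rw [one_mul]; exact h2
        _ = (Gᶜ).card * (1 / (4 * E)) := by rw [sum_const, nsmul_eq_mul]
        _ ≤ E * (1 / (4 * E)) := mul_le_mul_of_nonneg_right hG (by positivity)
        _ = 1 / 4 := by field_simp
    have h2 : (1 : ℝ) / (64 * E) ≤ 1 / 64 := by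
      rw [div_le_div_iff₀ (by positivity) (by norm_num)]
      nlinarith
    have h3 : |(z : ℝ)| < 1 := by
      rw [← hz, hsplit i]
      refine (abs_add_le _ _).trans_lt ?_
      linarith [hGsmall i]
    have h4 : z = 0 := by
      have : |z| < 1 := by exact_mod_cast h3
      exact Int.abs_lt_one_iff.1 this
    rw [hz, h4]
    simp

/-- Full column rank over `ℚ` gives the injectivity used in `min_norm`. -/
theorem inj_of_rank {ι κ : Type*} [Fintype ι] [Fintype κ] [DecidableEq κ]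
    (X : Matrix ι κ ℤ) (h : (X.map (Int.cast : ℤ → ℚ)).rank = Fintype.card κ)
    (φ : κ → ℝ) (hφ : ∀ i, ∑ c, (X i c : ℝ) * φ c = 0) : φ = 0 := by
  classical
  set Y : Matrix ι κ ℚ := X.map (Int.cast : ℤ → ℚ) with hY
  have hinj : Function.Injective Y.mulVecLin := by
    rw [← LinearMap.ker_eq_bot]
    have h1 := Y.mulVecLin.finrank_range_add_finrank_ker
    have h2 : Module.finrank ℚ (LinearMap.range Y.mulVecLin) = Fintype.card κ := h
    rw [h2, Module.finrank_fintype_fun_eq_card] at h1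
    exact Submodule.finrank_eq_zero.1 (by omega)
  obtain ⟨g, hg⟩ := Y.mulVecLin.exists_leftInverse_of_injective (LinearMap.ker_eq_bot.2 hinj)
  set B : Matrix κ ι ℚ := LinearMap.toMatrix' g with hB
  have hBY : B * Y = 1 := by
    have : LinearMap.toMatrix' (g ∘ₗ Y.mulVecLin) = 1 := by rw [hg]; exact LinearMap.toMatrix'_id
    rwa [LinearMap.toMatrix'_comp, ← Matrix.toLin'_apply', LinearMap.toMatrix'_toLin'] at this
  have hR : B.map (algebraMap ℚ ℝ) * Y.map (algebraMap ℚ ℝ) = 1 := by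
    rw [← Matrix.map_mul, hBY]
    exact Matrix.map_one _ (map_zero _) (map_one _)
  have hYφ : (Y.map (algebraMap ℚ ℝ)).mulVec φ = 0 := by
    funext i
    have := hφ i
    simpa [Matrix.mulVec, dotProduct, hY] using this
  have : φ = (B.map (algebraMap ℚ ℝ) * Y.map (algebraMap ℚ ℝ)).mulVec φ := by
    rw [hR, Matrix.one_mulVec]
  rw [this, ← Matrix.mulVec_mulVec, hYφ, Matrix.mulVec_zero]

/-! ### characters -/

section chars

open Real

/-- reduced phase in `(-1/2, 1/2]` -/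
noncomputable def ph (z : ℂ) : ℝ := Complex.arg z / (2 * π)

lemma abs_ph_le (z : ℂ) : |ph z| ≤ 1 / 2 := by
  rw [ph, abs_div, abs_of_pos (by positivity : (0 : ℝ) < 2 * π), div_le_iff₀ (by positivity)]
  have := Complex.abs_arg_le_pi z
  linarith

lemma abs_ph_eq (z : ℂ) : |ph z| = ‖(Complex.arg z : Real.Angle)‖ / (2 * π) := by
  have h : ‖(Complex.arg z : Real.Angle)‖ = |Complex.arg z| := by
    refine (AddCircle.norm_coe_eq_abs_iff (2 * π) (by positivity)).2 ?_
    rw [abs_of_pos (by positivity : (0 : ℝ) < 2 * π)]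
    have := Complex.abs_arg_le_pi z
    linarith
  rw [h, ph, abs_div, abs_of_pos (by positivity : (0 : ℝ) < 2 * π)]

variable {H : Type*} [AddCommGroup H] [Fintype H]

lemma char_ne_zero (ψ : AddChar H ℂ) (x : H) : ψ x ≠ 0 := by
  have h := AddChar.norm_apply ψ x
  intro h0
  rw [h0, norm_zero] at h
  exact one_ne_zero h.symm

/-- the norms of a vector `v` under the characters -/
noncomputable def nch {κ : Type*} (v : κ → H) (c : κ) (s : Additive (AddChar H ℂ)) : ℝ :=
  |ph ((Additive.toMul s : AddChar H ℂ) (v c))|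

theorem nrm_nch {κ : Type*} [Fintype κ] [DecidableEq κ] (v : κ → H) :
    Pack502.Nrm (nch v) where
  nonneg c s := abs_nonneg _
  zero c := by
    simp [nch, ph]
  neg c s := by
    unfold nch
    rw [abs_ph_eq, abs_ph_eq]
    have e : (Additive.toMul (-s) : AddChar H ℂ) (v c) =
        ((Additive.toMul s : AddChar H ℂ) (v c))⁻¹ := by
      rw [toMul_neg, AddChar.inv_apply', ]
    rw [e, Complex.arg_inv_coe_angle, norm_neg]
  add c s t := by
    unfold nch
    rw [abs_ph_eq, abs_ph_eq, abs_ph_eq, ← add_div]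
    have e : (Additive.toMul (s + t) : AddChar H ℂ) (v c) =
        (Additive.toMul s : AddChar H ℂ) (v c) * (Additive.toMul t : AddChar H ℂ) (v c) := by
      rw [toMul_add, AddChar.mul_apply]
    rw [e, Complex.arg_mul_coe_angle (char_ne_zero _ _) (char_ne_zero _ _)]
    gcongr
    exact norm_add_le _ _
  dbl c s h := by
    unfold nch at h ⊢
    have e : (Additive.toMul (s + s) : AddChar H ℂ) (v c) =
        (Additive.toMul s : AddChar H ℂ) (v c) * (Additive.toMul s : AddChar H ℂ) (v c) := by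
      rw [toMul_add, AddChar.mul_apply]
    rw [e]
    set z := (Additive.toMul s : AddChar H ℂ) (v c) with hz
    have hz0 : z ≠ 0 := char_ne_zero _ _
    rw [ph, abs_div, abs_of_pos (by positivity : (0 : ℝ) < 2 * π),
      div_le_iff₀ (by positivity)] at h
    have h1 : ‖((2 * Complex.arg z : ℝ) : Real.Angle)‖ = |2 * Complex.arg z| := by
      refine (AddCircle.norm_coe_eq_abs_iff (2 * π) (by positivity)).2 ?_
      rw [abs_of_pos (by positivity : (0 : ℝ) < 2 * π), abs_mul, abs_two]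
      linarith
    rw [abs_ph_eq, Complex.arg_mul_coe_angle hz0 hz0, ← Real.Angle.coe_add, ← two_mul, h1, ph,
      abs_mul, abs_two, abs_div, abs_of_pos (by positivity : (0 : ℝ) < 2 * π)]
    ring

lemma exp_ph {z : ℂ} (hz : ‖z‖ = 1) : z = Complex.exp ((ph z : ℂ) * (2 * π * Complex.I)) := by
  have h := Complex.norm_mul_exp_arg_mul_I z
  rw [hz, Complex.ofReal_one, one_mul] at h
  rw [← h]
  congr 1
  rw [ph]
  push_cast
  have : (π : ℂ) ≠ 0 := by exact_mod_cast Real.pi_ne_zero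
  rw [h]
  field_simp

lemma ph_int {κ : Type*} [Fintype κ] (ψ : AddChar H ℂ) (v : κ → H) (x : κ → ℤ)
    (h : ∑ c, x c • v c = 0) : ∃ z : ℤ, ∑ c, (x c : ℝ) * ph (ψ (v c)) = z := by
  classical
  have h1 : ∏ c, (ψ (v c)) ^ (x c) = 1 := by
    have : ψ (∑ c, x c • v c) = ∏ c, (ψ (v c)) ^ (x c) := by
      have hg : ∀ S : Finset κ, ψ (∑ c ∈ S, x c • v c) = ∏ c ∈ S, (ψ (v c)) ^ (x c) := by
        intro S
        induction S using Finset.induction_on with
        | empty => simp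
        | insert a S ha ih =>
          rw [Finset.sum_insert ha, Finset.prod_insert ha, AddChar.map_add_eq_mul, ih,
            AddChar.map_zsmul_eq_zpow]
      exact hg _
    rw [← this, h, AddChar.map_zero_eq_one]
  have h2 : ∀ c, (ψ (v c)) ^ (x c) =
      Complex.exp (((x c : ℝ) * ph (ψ (v c)) : ℝ) * (2 * π * Complex.I)) := by
    intro c
    conv_lhs => rw [exp_ph (AddChar.norm_apply ψ (v c))]
    rw [← Complex.exp_int_mul]
    congr 1
    push_cast
    ring
  rw [Finset.prod_congr rfl fun c _ => h2 c, ← Complex.exp_sum, ← Finset.sum_mul,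
    Complex.exp_eq_one_iff] at h1
  obtain ⟨z, hz⟩ := h1
  refine ⟨z, ?_⟩
  have h3 : (2 * (π : ℂ) * Complex.I) ≠ 0 := by
    simp [Real.pi_ne_zero]
  have h4 := mul_right_cancel₀ h3 hz
  have h5 : (((∑ c, (x c : ℝ) * ph (ψ (v c)) : ℝ)) : ℂ) = ((z : ℝ) : ℂ) := by
    push_cast at h4 ⊢
    exact h4
  exact_mod_cast h5

lemma ph_eq_zero_iff {z : ℂ} (hz : ‖z‖ = 1) : ph z = 0 ↔ z = 1 := by
  constructor
  · intro h
    rw [exp_ph hz, h]
    simp
  · rintro rfl
    simp [ph]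

/-- **MIN NORM**, character form: no nontrivial character is short outside `E` coordinates. -/
theorem not_T {κ : Type*} [Fintype κ] [DecidableEq κ] {ι : Type*} (X : ι → κ → ℤ)
    (hX : ∀ i c, |X i c| ≤ 1)
    (hinj : ∀ φ : κ → ℝ, (∀ i, ∑ c, (X i c : ℝ) * φ c = 0) → φ = 0)
    {E : ℕ} (hE : 1 ≤ E) (hS : ∀ ψ, ¬ SpB X (E : ℝ) ψ)
    (v : κ → H) (hv : ∀ i, ∑ c, X i c • v c = 0) (s : Additive (AddChar H ℂ))
    (hs : ∃ c, (Additive.toMul s : AddChar H ℂ) (v c) ≠ 1) {ρ : ℝ} (hρ0 : 0 ≤ ρ)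
    (hρ : ρ ≤ 1 / (64 * Real.sqrt (Fintype.card κ) * E)) : ¬ Pack502.T (nch v) ρ E s := by
  rintro ⟨B, hB, hsum⟩
  set φ : κ → ℝ := fun c => ph ((Additive.toMul s : AddChar H ℂ) (v c)) with hφ
  have hφ0 : φ ≠ 0 := by
    obtain ⟨c, hc⟩ := hs
    intro h
    have := congrFun h c
    exact hc ((ph_eq_zero_iff (AddChar.norm_apply _ _)).1 this)
  have h := min_norm X hX hinj (E := (E : ℝ)) (by exact_mod_cast hE) hS φ
    (fun c => abs_ph_le _) hφ0 (fun i => ph_int _ v (X i) (hv i)) Bᶜ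
    (by rw [compl_compl]; exact_mod_cast hB)
  have h2 : Real.sqrt (∑ c ∈ Bᶜ, φ c ^ 2) ≤ ρ := by
    rw [Real.sqrt_le_left hρ0]
    refine le_trans (le_of_eq ?_) hsum
    exact Finset.sum_congr rfl fun c _ => by rw [nch, sq_abs]
  linarith

end chars

end Vale.Agent.P160.Half.MinNorm628
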