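import Vale.Agent.P160.Half.M67Stmt

/-! P160-HALF, (M), leaf (9a): not sparse gives spread -/

namespace Vale.Agent.P160.Half.Spread539

open Finset Vale.Agent.P160 Vale.Agent.P160.Half Vale.Agent.P160.Half.Flat M67

section

variable {G : Type} [AddCommGroup G]

/-- a character trivial on all `z j` is trivial on the closure -/
lemma eq_one_of {m : ℕ} (z : Fin m → G) (φ : AddChar (AddSubgroup.closure (Set.range z)) ℂ)
    (h : ∀ j, φ (toCl z j) = 1) : φ = 1 := by
  ext ⟨x, hx⟩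
  rw [AddChar.one_apply]
  induction hx using AddSubgroup.closure_induction with
  | mem x hx =>
    obtain ⟨j, rfl⟩ := hx
    exact h j
  | zero =>
    have : (⟨0, (AddSubgroup.closure (Set.range z)).zero_mem⟩ :
      AddSubgroup.closure (Set.range z)) = 0 := rfl
    rw [this, AddChar.map_zero_eq_one]
  | add x y hx hy h1 h2 =>
    have : (⟨x + y, (AddSubgroup.closure (Set.range z)).add_mem hx hy⟩ :
      AddSubgroup.closure (Set.range z)) = ⟨x, hx⟩ + ⟨y, hy⟩ := rfl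
    rw [this, AddChar.map_add_eq_mul, h1, h2, one_mul]
  | neg x hx h1 =>
    have : (⟨-x, (AddSubgroup.closure (Set.range z)).neg_mem hx⟩ :
      AddSubgroup.closure (Set.range z)) = -⟨x, hx⟩ := rfl
    rw [this, AddChar.map_neg_eq_inv, h1, inv_one]

lemma toCl_rel {m : ℕ} (z : Fin m → G) (a : Fin m → ℤ) (h : ∑ j, a j • z j = 0) :
    ∑ j, a j • toCl z j = 0 := by
  apply Subtype.ext
  rw [AddSubgroup.coe_zero, ← h]
  simp [toCl]

end

lemma map_sum_prod {H ι : Type*} [AddCommGroup H] (φ : AddChar H ℂ) (s : Finset ι) (f : ι → H) :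
    φ (∑ j ∈ s, f j) = ∏ j ∈ s, φ (f j) := by
  classical
  induction s using Finset.induction_on with
  | empty => simp
  | insert a s ha ih => rw [sum_insert ha, prod_insert ha, AddChar.map_add_eq_mul, ih]

lemma zpow_sum_prod {ι : Type*} (ζ : ℂ) (hζ : ζ ≠ 0) (s : Finset ι) (f : ι → ℤ) :
    ζ ^ (∑ j ∈ s, f j) = ∏ j ∈ s, ζ ^ f j := by
  classical
  induction s using Finset.induction_on with
  | empty => simp
  | insert a s ha ih => rw [sum_insert ha, prod_insert ha, zpow_add₀ hζ, ih]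

/-- a character with values in the `p`-th roots of unity comes from a vector modulo `p` -/
lemma exists_vec {H : Type} [AddCommGroup H] {p : ℕ} (hp : p.Prime) (φ : AddChar H ℂ)
    (hφ : φ ^ p = 1) {m : ℕ} (z : Fin m → H) :
    ∃ u : Fin m → ZMod p, (∀ j, u j = 0 ↔ φ (z j) = 1) ∧
      ∀ a : Fin m → ℤ, ∑ j, a j • z j = 0 → ∑ j, (a j : ZMod p) * u j = 0 := by
  classical
  have : NeZero p := ⟨hp.ne_zero⟩
  have hζ := Complex.isPrimitiveRoot_exp p hp.ne_zero
  set ζ : ℂ := Complex.exp (2 * Real.pi * Complex.I / p) with hζd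
  have h1 : ∀ j, ∃ i < p, ζ ^ i = φ (z j) := by
    intro j
    refine hζ.eq_pow_of_pow_eq_one ?_
    have := DFunLike.congr_fun hφ (z j)
    rwa [AddChar.pow_apply, AddChar.one_apply] at this
  choose i hi hiφ using h1
  refine ⟨fun j => (i j : ZMod p), fun j => ?_, fun a ha => ?_⟩
  · rw [ZMod.natCast_eq_zero_iff, ← hiφ, hζ.pow_eq_one_iff_dvd]
  · have h2 : φ (∑ j, a j • z j) = ∏ j, φ (z j) ^ (a j) := by
      rw [map_sum_prod]
      exact prod_congr rfl fun j _ => AddChar.map_zsmul_eq_zpow _ _ _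
    rw [ha, AddChar.map_zero_eq_one] at h2
    have h3 : ∏ j, φ (z j) ^ (a j) = ζ ^ (∑ j, a j * (i j : ℤ)) := by
      have hζ0 : ζ ≠ 0 := hζ.ne_zero hp.ne_zero
      rw [zpow_sum_prod ζ hζ0]
      refine prod_congr rfl fun j _ => ?_
      rw [← hiφ, ← zpow_natCast, ← zpow_mul, mul_comm]
    rw [h3] at h2
    have h4 := (hζ.zpow_eq_one_iff_dvd _).1 h2.symm
    have h5 := (ZMod.intCast_zmod_eq_zero_iff_dvd _ _).2 h4
    push_cast at h5
    exact h5

lemma spread_aux (k N : ℕ) (hN : N ≠ 0) (P : Finset ℕ) (hsq : ∀ q : ℕ, q.Prime → q ∣ N → q ∈ P)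
    (s : ℝ) (M : Matrix (Fin k) (Fin k) ℤ) (hS : ¬ Sparse P s M)
    (z : Fin k → ZMod N × ZMod N) (hz : ∀ i, ∑ j, M i j • z j = 0) : NonSp s (toCl z) := by
  intro ψ hψ
  classical
  have hkill : ∀ h : AddSubgroup.closure (Set.range z), N • h = 0 := by
    rintro ⟨⟨a, b⟩, hh⟩
    apply Subtype.ext
    have ha : (N : ℕ) • a = 0 := by rw [nsmul_eq_mul, ZMod.natCast_self, zero_mul]
    have hb : (N : ℕ) • b = 0 := by rw [nsmul_eq_mul, ZMod.natCast_self, zero_mul]
    show N • (a, b) = 0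
    rw [Prod.smul_mk, ha, hb]
    rfl
  have hψN : ψ ^ N = 1 := by
    ext h
    rw [AddChar.pow_apply, ← AddChar.map_nsmul_eq_pow, hkill, AddChar.map_zero_eq_one,
      AddChar.one_apply]
  have hord : orderOf ψ ∣ N := orderOf_dvd_of_pow_eq_one hψN
  have hord1 : orderOf ψ ≠ 1 := fun h => hψ (orderOf_eq_one_iff.1 h)
  obtain ⟨p, hp, hpm⟩ := Nat.exists_prime_and_dvd hord1
  have hpP : p ∈ P := hsq p hp (hpm.trans hord)
  obtain ⟨t, ht⟩ := hpm
  have hord0 : orderOf ψ ≠ 0 := by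
    intro h0
    rw [h0] at hord
    exact hN (Nat.eq_zero_of_zero_dvd hord)
  have hφp : (ψ ^ t) ^ p = 1 := by
    rw [← pow_mul, mul_comm, ← ht, pow_orderOf_eq_one]
  have hφ1 : ψ ^ t ≠ 1 := by
    intro h
    have h1 := orderOf_dvd_of_pow_eq_one h
    have ht0 : 0 < t := by
      rcases Nat.eq_zero_or_pos t with h0 | h0
      · rw [h0, mul_zero] at ht; exact absurd ht hord0
      · exact h0
    have h2 := Nat.le_of_dvd ht0 h1
    rw [ht] at h2
    have h3 := hp.two_le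
    nlinarith
  obtain ⟨u, hu, hrel⟩ := exists_vec hp (ψ ^ t) hφp (toCl z)
  have hu0 : u ≠ 0 := by
    intro h0
    refine hφ1 (eq_one_of z (ψ ^ t) fun j => (hu j).1 ?_)
    rw [h0]; rfl
  by_contra hlt
  push Not at hlt
  refine hS ⟨p, hpP, u, hu0, lt_of_le_of_lt ?_ hlt, fun i => hrel (M i) (toCl_rel z _ (hz i))⟩
  refine Nat.cast_le.2 (card_le_card fun j hj => ?_)
  rw [mem_filter] at hj ⊢
  refine ⟨mem_univ _, fun h1 => hj.2 ((hu j).2 ?_)⟩
  rw [AddChar.pow_apply, h1, one_pow]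

theorem spread : StmtSpread := by
  intro k P hP hN s M hS z hz
  refine spread_aux k _ hN.out P ?_ s M hS z hz
  intro q hq hqN
  obtain ⟨p, hpP, hqp⟩ := (Prime.dvd_finsetProd_iff hq.prime _).1 hqN
  rwa [(Nat.prime_dvd_prime_iff_eq hq (hP p hpP)).1 hqp]

end Vale.Agent.P160.Half.Spread539
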