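import Vale.Agent.P160.Half.M67Stmt
import Vale.Agent.P160.Half.Spread539
import Vale.Agent.P160.Half.MinNorm628
import Vale.Agent.P160.Half.HadN

/-! P160-HALF, (M), LEMMA M (`M67.StmtMom`): glue for rectangular matrices -/

namespace Vale.Agent.P160.Half.MomGlue539

open Finset Vale.Agent.P160 Vale.Agent.P160.Half Vale.Agent.P160.Half.Flat

section crt

variable {k m : ℕ}

/-- kernel tuples of an integer matrix in the abelian group `A` -/
abbrev Ker (M : Matrix (Fin k) (Fin m) ℤ) (A : Type) [AddCommGroup A] : Type :=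
  {x : Fin m → A // ∀ i, ∑ j, M i j • x j = 0}

theorem card_congr (M : Matrix (Fin k) (Fin m) ℤ) {A B : Type} [AddCommGroup A] [AddCommGroup B]
    (e : A ≃+ B) : Nat.card (Ker M A) = Nat.card (Ker M B) := by
  refine Nat.card_congr ⟨fun x => ⟨fun j => e (x.1 j), fun i => ?_⟩, fun x => ⟨fun j => e.symm (x.1 j), fun i => ?_⟩,
    fun x => ?_, fun x => ?_⟩
  · have := congrArg e (x.2 i)
    simpa only [map_sum, map_zsmul, map_zero] using this
  · have := congrArg e.symm (x.2 i)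
    simpa only [map_sum, map_zsmul, map_zero] using this
  · ext j; simp
  · ext j; simp

theorem card_prod (M : Matrix (Fin k) (Fin m) ℤ) (A B : Type) [AddCommGroup A] [AddCommGroup B] :
    Nat.card (Ker M (A × B)) = Nat.card (Ker M A) * Nat.card (Ker M B) := by
  rw [← Nat.card_prod]
  refine Nat.card_congr ⟨fun x => (⟨fun j => (x.1 j).1, fun i => ?_⟩, ⟨fun j => (x.1 j).2, fun i => ?_⟩),
    fun y => ⟨fun j => (y.1.1 j, y.2.1 j), fun i => ?_⟩, fun x => ?_, fun y => ?_⟩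
  · have := congrArg Prod.fst (x.2 i)
    simpa only [Prod.fst_sum, Prod.smul_fst, Prod.fst_zero] using this
  · have := congrArg Prod.snd (x.2 i)
    simpa only [Prod.snd_sum, Prod.smul_snd, Prod.snd_zero] using this
  · refine Prod.ext ?_ ?_
    · have := y.1.2 i
      simpa only [Prod.fst_sum, Prod.smul_fst, Prod.fst_zero] using this
    · have := y.2.2 i
      simpa only [Prod.snd_sum, Prod.smul_snd, Prod.snd_zero] using this
  · rfl
  · rfl

theorem card_pi (M : Matrix (Fin k) (Fin m) ℤ) (A : Type) [AddCommGroup A] (d : ℕ) :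
    Nat.card (Ker M (Fin d → A)) = Nat.card (Ker M A) ^ d := by
  have h : Nat.card (Ker M (Fin d → A)) = Nat.card (Fin d → Ker M A) := by
    refine Nat.card_congr ⟨fun x t => ⟨fun j => x.1 j t, fun i => ?_⟩,
      fun y => ⟨fun j t => (y t).1 j, fun i => ?_⟩, fun x => rfl, fun y => rfl⟩
    · have := congrFun (x.2 i) t
      simpa only [Finset.sum_apply, Pi.smul_apply, Pi.zero_apply] using this
    · funext t
      have := (y t).2 i
      simpa only [Finset.sum_apply, Pi.smul_apply, Pi.zero_apply] using this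
  rw [h, Nat.card_fun, Nat.card_fin]

theorem card_prime (M : Matrix (Fin k) (Fin m) ℤ) (p : ℕ) (hp : p.Prime) :
    Nat.card (Ker M (ZMod p)) = p ^ (m - M67.rkp p M) := by
  have := Fact.mk hp
  have h1 : Nat.card (Ker M (ZMod p)) =
      Nat.card (LinearMap.ker (M.map (Int.cast : ℤ → ZMod p)).mulVecLin) := by
    refine Nat.card_congr (Equiv.subtypeEquivRight fun x => ?_)
    rw [LinearMap.mem_ker, Matrix.mulVecLin_apply, funext_iff]
    refine forall_congr' fun i => ?_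
    simp only [Matrix.mulVec, dotProduct, Matrix.map_apply, Pi.zero_apply, zsmul_eq_mul]
  rw [h1, Module.natCard_eq_pow_finrank (K := ZMod p), Nat.card_zmod]
  congr 1
  have h2 := LinearMap.finrank_range_add_finrank_ker (M.map (Int.cast : ℤ → ZMod p)).mulVecLin
  rw [Module.finrank_fintype_fun_eq_card, Fintype.card_fin] at h2
  unfold M67.rkp Matrix.rank
  omega

theorem card_prodP (M : Matrix (Fin k) (Fin m) ℤ) (P : Finset ℕ) (hP : ∀ p ∈ P, p.Prime) :
    Nat.card (Ker M (ZMod (∏ p ∈ P, p))) = ∏ p ∈ P, p ^ (m - M67.rkp p M) := by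
  classical
  induction P using Finset.induction_on with
  | empty =>
    rw [prod_empty, prod_empty]
    have : Subsingleton (ZMod 1) := inferInstance
    let _ : Unique (Ker M (ZMod 1)) := ⟨⟨⟨fun _ => 0, fun i => Subsingleton.elim _ _⟩⟩,
      fun x => Subtype.ext (funext fun j => Subsingleton.elim _ _)⟩
    exact Nat.card_unique
  | insert p P hpP ih =>
    rw [prod_insert hpP, prod_insert hpP]
    have hcop : Nat.Coprime p (∏ q ∈ P, q) := by
      refine Nat.Coprime.prod_right fun q hq => ?_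
      refine (Nat.coprime_primes (hP p (mem_insert_self p P)) (hP q (mem_insert_of_mem hq))).2 ?_
      rintro rfl
      exact hpP hq
    rw [card_congr M (ZMod.chineseRemainder hcop).toAddEquiv, card_prod,
      card_prime M p (hP p (mem_insert_self p P)), ih fun q hq => hP q (mem_insert_of_mem hq)]

/-- **(G1)** -/
theorem W_pow (M : Matrix (Fin k) (Fin m) ℤ) (P : Finset ℕ) (hP : ∀ p ∈ P, p.Prime) (q : ℕ) :
    M67.W P M ^ q = (Nat.card (Ker M (Fin (2 * q) → ZMod (∏ p ∈ P, p))) : ℝ) := by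
  rw [card_pi, card_prodP M P hP]
  unfold M67.W
  push_cast
  rw [pow_mul, ← prod_pow (s := P) (n := 2)]
  congr 1
  refine prod_congr rfl fun p _ => ?_
  rw [← pow_mul, mul_comm]

/-- **(G4)** -/
theorem W_pow_le (M : Matrix (Fin k) (Fin m) ℤ) (P : Finset ℕ) (hP : ∀ p ∈ P, p.Prime)
    (h1 : ∀ i j, |M i j| ≤ 1) (hr : M67.rkQ M = m) (q : ℕ) :
    M67.W P M ^ q ≤ ((m : ℝ) ^ m) ^ q := by
  have h := HadN.prod_pow_dvd M P hP h1
  have hQ : HadN.rQ M = m := hr
  rw [hQ] at h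
  have hW : M67.W P M = (((∏ p ∈ P, p ^ (m - HadN.rP p M)) ^ 2 : ℕ) : ℝ) := by
    unfold M67.W
    push_cast
    rw [← prod_pow]
    refine prod_congr rfl fun p _ => ?_
    rw [← pow_mul, mul_comm]
    rfl
  rw [hW]
  refine pow_le_pow_left₀ (by positivity) ?_ q
  exact_mod_cast h

end crt

section spread

variable {k m : ℕ} {Q : Type} [AddCommGroup Q]

lemma eq_one_gen (y : Fin m → Q) (hy : AddSubgroup.closure (Set.range y) = ⊤) (φ : AddChar Q ℂ)
    (h : ∀ j, φ (y j) = 1) : φ = 1 := by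
  ext x
  rw [AddChar.one_apply]
  have hx : x ∈ AddSubgroup.closure (Set.range y) := by rw [hy]; trivial
  induction hx using AddSubgroup.closure_induction with
  | mem x hx =>
    obtain ⟨j, rfl⟩ := hx
    exact h j
  | zero => exact AddChar.map_zero_eq_one _
  | add x y hx hy h1 h2 => rw [AddChar.map_add_eq_mul, h1, h2, one_mul]
  | neg x hx h1 => rw [AddChar.map_neg_eq_inv, h1, inv_one]

/-- **(G2)** -/
theorem spread {N : ℕ} (hN : N ≠ 0) (P : Finset ℕ) (hsq : ∀ q : ℕ, q.Prime → q ∣ N → q ∈ P)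
    (s : ℝ) (M : Matrix (Fin k) (Fin m) ℤ) (hS : ¬ M67.Sparse P s M)
    (hkill : ∀ g : Q, N • g = 0) (y : Fin m → Q) (hy : AddSubgroup.closure (Set.range y) = ⊤)
    (hz : ∀ i, ∑ j, M i j • y j = 0) : NonSp s y := by
  intro ψ hψ
  classical
  have hψN : ψ ^ N = 1 := by
    ext h
    rw [AddChar.pow_apply, ← AddChar.map_nsmul_eq_pow, hkill, AddChar.map_zero_eq_one,
      AddChar.one_apply]
  have hord : orderOf ψ ∣ N := orderOf_dvd_of_pow_eq_one hψN
  have hord1 : orderOf ψ ≠ 1 := fun h => hψ (orderOf_eq_one_iff.1 h)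
  obtain ⟨p, hp, hpm⟩ := Nat.exists_prime_and_dvd hord1
  have hpP : p ∈ P := hsq p hp (hpm.trans hord)
  obtain ⟨t, ht⟩ := hpm
  have hord0 : orderOf ψ ≠ 0 := by
    intro h0
    rw [h0] at hord
    exact hN (Nat.eq_zero_of_zero_dvd hord)
  have hφp : (ψ ^ t) ^ p = 1 := by
    rw [← pow_mul, mul_comm, ← ht, pow_orderOf_eq_one]
  have hφ1 : ψ ^ t ≠ 1 := by
    intro h
    have h1 := orderOf_dvd_of_pow_eq_one h
    have ht0 : 0 < t := by
      rcases Nat.eq_zero_or_pos t with h0 | h0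
      · rw [h0, mul_zero] at ht; exact absurd ht hord0
      · exact h0
    have h2 := Nat.le_of_dvd ht0 h1
    rw [ht] at h2
    have h3 := hp.two_le
    nlinarith
  obtain ⟨u, hu, hrel⟩ := Spread539.exists_vec hp (ψ ^ t) hφp y
  have hu0 : u ≠ 0 := by
    intro h0
    refine hφ1 (eq_one_gen y hy (ψ ^ t) fun j => (hu j).1 ?_)
    rw [h0]; rfl
  by_contra hlt
  push Not at hlt
  refine hS ⟨p, hpP, u, hu0, lt_of_le_of_lt ?_ hlt, fun i => hrel (M i) (hz i)⟩
  refine Nat.cast_le.2 (card_le_card fun j hj => ?_)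
  rw [mem_filter] at hj ⊢
  refine ⟨mem_univ _, fun h1 => hj.2 ((hu j).2 ?_)⟩
  rw [AddChar.pow_apply, h1, one_pow]

/-- `4 |arg z| / 2π ≤ ‖z - 1‖` -/
lemma four_ph_le {z : ℂ} (hz : ‖z‖ = 1) : 4 * |MinNorm628.ph z| ≤ ‖z - 1‖ := by
  have hz0 : z ≠ 0 := by rintro rfl; simp at hz
  have h1 := Complex.mul_angle_le_norm_sub hz (norm_one : ‖(1 : ℂ)‖ = 1)
  rw [Complex.angle_one_right hz0] at h1
  refine le_trans (le_of_eq ?_) h1
  unfold MinNorm628.ph
  rw [abs_div, abs_of_pos (by positivity : (0 : ℝ) < 2 * Real.pi)]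
  have := Real.pi_pos
  field_simp
  ring

/-- **(G3)** -/
theorem min_norm [Fintype Q] {s : ℝ} (hs : 1 ≤ s) (M : Matrix (Fin k) (Fin m) ℤ)
    (h1 : ∀ i j, |M i j| ≤ 1) (hr : M67.rkQ M = m) (hS : ¬ M67.SpB s M)
    (y : Fin m → Q) (hy : AddSubgroup.closure (Set.range y) = ⊤)
    (hz : ∀ i, ∑ j, M i j • y j = 0) (ψ : AddChar Q ℂ) (hψ : ψ ≠ 1) (F : Finset (Fin m))
    (hF : ((Fᶜ).card : ℝ) ≤ s) :
    (1 / (64 * Real.sqrt m * s)) ^ 2 < ∑ c ∈ F, ‖ψ (y c) - 1‖ ^ 2 := by
  classical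
  have hinj : ∀ φ : Fin m → ℝ, (∀ i, ∑ c, (M i c : ℝ) * φ c = 0) → φ = 0 := by
    refine MinNorm628.inj_of_rank M ?_
    rw [Fintype.card_fin]
    exact hr
  have hS' : ∀ φ : Fin m → ℝ, ¬ MinNorm628.SpB M s φ := by
    intro φ hφ
    refine hS ⟨φ, hφ.1, ?_, hφ.2.2.1, hφ.2.2.2⟩
    convert hφ.2.1
  have hφ0 : (fun c => MinNorm628.ph (ψ (y c))) ≠ 0 := by
    intro h
    refine hψ (eq_one_gen y hy ψ fun j => ?_)
    exact (MinNorm628.ph_eq_zero_iff (AddChar.norm_apply _ _)).1 (congrFun h j)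
  have h := MinNorm628.min_norm M h1 hinj (E := s) hs hS' (fun c => MinNorm628.ph (ψ (y c)))
    (fun c => MinNorm628.abs_ph_le _) hφ0 (fun i => MinNorm628.ph_int ψ y (M i) (hz i)) F hF
  rw [Fintype.card_fin] at h
  have hpos : (0 : ℝ) ≤ 1 / (64 * Real.sqrt m * s) := by positivity
  have h2 : (1 / (64 * Real.sqrt m * s)) ^ 2 < ∑ c ∈ F, MinNorm628.ph (ψ (y c)) ^ 2 := by
    have h3 : (0 : ℝ) ≤ ∑ c ∈ F, MinNorm628.ph (ψ (y c)) ^ 2 := sum_nonneg fun c _ => sq_nonneg _
    exact (Real.lt_sqrt hpos).1 h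
  refine h2.trans_le (sum_le_sum fun c _ => ?_)
  have h4 := four_ph_le (AddChar.norm_apply ψ (y c))
  have h5 : |MinNorm628.ph (ψ (y c))| ≤ ‖ψ (y c) - 1‖ := by
    have := abs_nonneg (MinNorm628.ph (ψ (y c)))
    linarith
  rw [← sq_abs]
  exact pow_le_pow_left₀ (abs_nonneg _) h5 2

end spread

end Vale.Agent.P160.Half.MomGlue539
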