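import Mathlib

/-! # P160-HALF (M), LEMMA M of note 11331: dyadic sums

`f = |G| P(x · y = 0)` on a set of vectors, `1 ≤ f ≤ g = |G|`; a counting bound for the level sets gives the
bound for `∑ f^k`, `k ≥ m` rows. -/

namespace Vale.Agent.P160.Half.P4S

open Finset

variable {α : Type*}

/-- sum over a union -/
theorem biUnion_sum_le [DecidableEq α] (s : Finset ℕ) (t : ℕ → Finset α) (f : α → ℝ)
    (hf : ∀ x, 0 ≤ f x) : ∑ x ∈ s.biUnion t, f x ≤ ∑ i ∈ s, ∑ x ∈ t i, f x := by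
  induction s using Finset.induction_on with
  | empty => simp
  | insert a s ha ih =>
    rw [biUnion_insert, sum_insert ha]
    have h := sum_union_inter (s₁ := t a) (s₂ := s.biUnion t) (f := f)
    have h2 : 0 ≤ ∑ x ∈ t a ∩ s.biUnion t, f x := sum_nonneg fun x _ => hf x
    linarith

open Classical in
/-- **dyadic levels**: `W` with `1 + 2 Ta ≤ f ≤ 1 + Tb`, `f ≤ g` (`g = |G|`), and
`#{1 + T ≤ f} ≤ g^m (X/T)^m` for `Ta ≤ T ≤ Tb`, `1 ≤ T`. -/
theorem levels (W : Finset α) (f : α → ℝ) (g X Ta Tb : ℝ) (k m : ℕ) (hmk : m ≤ k)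
    (hf0 : ∀ y, 0 ≤ f y) (hg : 1 ≤ g) (hX : 0 ≤ X) (hTa : 1 / 2 ≤ Ta) (hTb : 0 ≤ Tb)
    (hfa : ∀ y ∈ W, 1 + 2 * Ta ≤ f y) (hfb : ∀ y ∈ W, f y ≤ 1 + Tb) (hfg : ∀ y ∈ W, f y ≤ g)
    (hc : ∀ T : ℝ, Ta < T → 1 ≤ T → T ≤ Tb →
      ((W.filter fun y => 1 + T ≤ f y).card : ℝ) ≤ g ^ m * (X / T) ^ m) :
    ∑ y ∈ W, f y ^ k ≤ g ^ k * ((3 * X) ^ m * (Tb + 1)) := by
  have hg0 : 0 < g := by linarith
  set L : ℕ := ⌈Tb⌉₊ with hL
  let Wi : ℕ → Finset α := fun i => W.filter fun y => 1 + 2 ^ i ≤ f y ∧ f y < 1 + 2 ^ (i + 1)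
  have hsub : W ⊆ (range L).biUnion Wi := by
    intro y hy
    have h1 := hfa y hy
    have h2 := hfb y hy
    have h3 : (1 : ℝ) ≤ f y - 1 := by linarith
    obtain ⟨i, hi1, hi2⟩ := exists_nat_pow_near h3 (by norm_num : (1 : ℝ) < 2)
    rw [mem_biUnion]
    refine ⟨i, ?_, ?_⟩
    · rw [Finset.mem_range]
      have h4 : (2 : ℝ) ^ i ≤ Tb := by linarith
      have h5 : ((i : ℕ) : ℝ) < (2 : ℝ) ^ i := by exact_mod_cast Nat.lt_two_pow_self
      exact Nat.lt_ceil.2 (lt_of_lt_of_le h5 h4)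
    · simp only [Wi, mem_filter]
      exact ⟨hy, by linarith, by linarith⟩
  have hbi : ∀ i ∈ range L, ∑ y ∈ Wi i, f y ^ k ≤ g ^ k * (3 * X) ^ m := by
    intro i _
    have h2i : (1 : ℝ) ≤ 2 ^ i := one_le_pow₀ (by norm_num)
    by_cases hi : Ta < (2 : ℝ) ^ i ∧ (2 : ℝ) ^ i ≤ Tb
    · have h1 : ((Wi i).card : ℝ) ≤ g ^ m * (X / 2 ^ i) ^ m := by
        refine le_trans (Nat.cast_le.2 (card_le_card ?_)) (hc (2 ^ i) hi.1 h2i hi.2)
        intro y hy
        simp only [Wi, mem_filter] at hy ⊢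
        exact ⟨hy.1, hy.2.1⟩
      calc ∑ y ∈ Wi i, f y ^ k ≤ ∑ y ∈ Wi i, (3 * 2 ^ i) ^ m * g ^ (k - m) := by
            refine sum_le_sum fun y hy => ?_
            simp only [Wi, mem_filter] at hy
            have h3 : f y ≤ 3 * 2 ^ i := by
              have := hy.2.2
              rw [pow_succ] at this
              linarith
            have h4 : f y ^ k = f y ^ m * f y ^ (k - m) := by rw [← pow_add, Nat.add_sub_cancel' hmk]
            rw [h4]
            exact mul_le_mul (pow_le_pow_left₀ (hf0 y) h3 m) (pow_le_pow_left₀ (hf0 y) (hfg y hy.1) _)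
              (pow_nonneg (hf0 y) _) (by positivity)
        _ = (Wi i).card * ((3 * 2 ^ i) ^ m * g ^ (k - m)) := by rw [sum_const, nsmul_eq_mul]
        _ ≤ (g ^ m * (X / 2 ^ i) ^ m) * ((3 * 2 ^ i) ^ m * g ^ (k - m)) := by gcongr
        _ = (g ^ m * g ^ (k - m)) * ((X / 2 ^ i) * (3 * 2 ^ i)) ^ m := by
            rw [mul_pow]; ring
        _ = g ^ k * (3 * X) ^ m := by
            rw [← pow_add, Nat.add_sub_cancel' hmk]
            congr 2
            field_simp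
    · have : Wi i = ∅ := by
        refine filter_eq_empty_iff.2 fun y hy hcon => hi ⟨?_, ?_⟩
        · have h1 := hfa y hy
          have h2 := hcon.2
          rw [pow_succ] at h2
          linarith
        · have h1 := hfb y hy
          linarith [hcon.1]
      rw [this, sum_empty]
      positivity
  calc ∑ y ∈ W, f y ^ k ≤ ∑ y ∈ (range L).biUnion Wi, f y ^ k :=
        sum_le_sum_of_subset_of_nonneg hsub fun y _ _ => pow_nonneg (hf0 y) k
    _ ≤ ∑ i ∈ range L, ∑ y ∈ Wi i, f y ^ k := biUnion_sum_le _ _ _ fun y => pow_nonneg (hf0 y) k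
    _ ≤ ∑ i ∈ range L, g ^ k * (3 * X) ^ m := sum_le_sum hbi
    _ = g ^ k * ((3 * X) ^ m * L) := by
        rw [sum_const, card_range, nsmul_eq_mul]; ring
    _ ≤ g ^ k * ((3 * X) ^ m * (Tb + 1)) := by
        have := Nat.ceil_lt_add_one hTb
        rw [← hL] at this
        gcongr

open Classical in
/-- **low part**: no lower bound on `f`. -/
theorem low (W : Finset α) (f : α → ℝ) (g X Tb : ℝ) (k m : ℕ) (hmk : m ≤ k)
    (hf0 : ∀ y, 0 ≤ f y) (hg : 1 ≤ g) (hX : 0 ≤ X) (hTb : 0 ≤ Tb)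
    (hcard : (W.card : ℝ) ≤ g ^ m) (hfb : ∀ y ∈ W, f y ≤ 1 + Tb) (hfg : ∀ y ∈ W, f y ≤ g)
    (hc : ∀ T : ℝ, 1 ≤ T → T ≤ Tb →
      ((W.filter fun y => 1 + T ≤ f y).card : ℝ) ≤ g ^ m * (X / T) ^ m) :
    ∑ y ∈ W, f y ^ k ≤ g ^ k * (2 ^ k + (3 * X) ^ m * (Tb + 1)) := by
  have h1 := sum_filter_add_sum_filter_not W (fun y => 2 ≤ f y) (fun y => f y ^ k)
  rw [← h1]
  have h2 : ∑ y ∈ W.filter (fun y => 2 ≤ f y), f y ^ k ≤ g ^ k * ((3 * X) ^ m * (Tb + 1)) := by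
    refine levels _ f g X (1 / 2) Tb k m hmk hf0 hg hX le_rfl hTb ?_ ?_ ?_ ?_
    · intro y hy
      have := (mem_filter.1 hy).2
      linarith
    · exact fun y hy => hfb y (mem_filter.1 hy).1
    · exact fun y hy => hfg y (mem_filter.1 hy).1
    · intro T _ hT1 hTb'
      refine le_trans (Nat.cast_le.2 (card_le_card ?_)) (hc T hT1 hTb')
      intro y hy
      simp only [mem_filter] at hy ⊢
      exact ⟨hy.1.1, hy.2⟩
  have h3 : ∑ y ∈ W.filter (fun y => ¬ 2 ≤ f y), f y ^ k ≤ g ^ k * 2 ^ k := by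
    calc ∑ y ∈ W.filter (fun y => ¬ 2 ≤ f y), f y ^ k
        ≤ ∑ y ∈ W.filter (fun y => ¬ 2 ≤ f y), (2 : ℝ) ^ k := by
          refine sum_le_sum fun y hy => pow_le_pow_left₀ (hf0 y) ?_ k
          exact (not_le.1 (mem_filter.1 hy).2).le
      _ = (W.filter (fun y => ¬ 2 ≤ f y)).card * (2 : ℝ) ^ k := by rw [sum_const, nsmul_eq_mul]
      _ ≤ g ^ m * 2 ^ k := by
          refine mul_le_mul_of_nonneg_right (le_trans (Nat.cast_le.2 (card_filter_le _ _)) hcard)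
            (by positivity)
      _ ≤ g ^ k * 2 ^ k := by
          refine mul_le_mul_of_nonneg_right (pow_le_pow_right₀ hg hmk) (by positivity)
  linarith

end Vale.Agent.P160.Half.P4S
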