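import Vale.Agent.P160.Half.P4Lem7
import Vale.Agent.P160.Half.P4Sum7
import Vale.Agent.P160.Half.MomGlue539
import Vale.Agent.P160.Half.MinM67_628
import Vale.Agent.P160.Half.FirstMom685
import Vale.Agent.P160.Half.MC986
import Vale.Agent.P160.Half.FlatZ4

/-! # P160-HALF (M): final assembly of LEMMA M (`M67.StmtMom`) -/

namespace Vale.Agent.P160.Half.MomTop836

open Finset Vale.Agent.P160 Vale.Agent.P160.Half Vale.Agent.P160.Half.Flat
  Vale.Agent.P160.Half.LemM836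

/-- seeds -/
def sd : Bool × Bool ≃ Fin 4 where
  toFun b := if b = (true, false) then 0 else if b = (false, true) then 1 else
    if b = (true, true) then 2 else 3
  invFun a := if a = 0 then (true, false) else if a = 1 then (false, true) else
    if a = 2 then (true, true) else (false, false)
  left_inv := by decide
  right_inv := by decide

theorem st_sd : ∀ b : Bool × Bool, st (sd b) = M67.xi b := by decide

theorem cnt_eq {G : Type} [AddCommGroup G] [Fintype G] [DecidableEq G] {m : ℕ} (y : Fin m → G) :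
    cnt M67.xi y = (univ.filter (fun ω : Fin m → Fin 4 => gwalk ω y = 0)).card := by
  classical
  unfold cnt
  refine card_equiv (Equiv.arrowCongr (Equiv.refl (Fin m)) sd) fun x => ?_
  simp only [mem_filter, mem_univ, true_and]
  have : gwalk (Equiv.arrowCongr (Equiv.refl (Fin m)) sd x) y = dotp M67.xi x y := by
    unfold gwalk dotp
    refine sum_congr rfl fun c _ => ?_
    have h : (Equiv.arrowCongr (Equiv.refl (Fin m)) sd x) c = sd (x c) := rfl
    rw [h, st_sd]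
  rw [this]

theorem Zp_eq {G : Type} [AddCommGroup G] [Fintype G] {m : ℕ} (y : Fin m → G) :
    Zp M67.xi y = gZ 4 y := by
  classical
  rw [FirstMom685.gZ_eq' (by norm_num : 2 ≤ 4)]
  unfold Zp gpr
  rw [cnt_eq, Nat.card_eq_fintype_card, Fintype.card_prod, Fintype.card_bool, Fintype.card_fin]
  push_cast
  rw [mul_div_assoc]

theorem prime_dvd {G : Type} [AddCommGroup G] [Fintype G] {N : ℕ} (hN : ∀ g : G, N • g = 0) (p : ℕ)
    (hp : p.Prime) (hpd : p ∣ Fintype.card G) : p ∣ N := by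
  have : Fact p.Prime := ⟨hp⟩
  obtain ⟨g, hg⟩ := exists_prime_addOrderOf_dvd_card p hpd
  rw [← hg]
  exact addOrderOf_dvd_of_nsmul_eq_zero (hN g)

/-- growth: `k^s + 1 ≤ 2^k` eventually -/
theorem pow_growth (s : ℝ) : ∀ᶠ k : ℕ in Filter.atTop, (k : ℝ) ^ s + 1 ≤ (2 : ℝ) ^ k := by
  have h1 : Filter.Tendsto (fun x : ℝ => x ^ s * Real.exp (-(Real.log 2 / 2) * x)) Filter.atTop (nhds 0) :=
    tendsto_rpow_mul_exp_neg_mul_atTop_nhds_zero s (Real.log 2 / 2) (by have := Real.log_pos (by norm_num : (1 : ℝ) < 2); linarith)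
  have h2 : Filter.Tendsto (fun x : ℝ => x ^ (0 : ℝ) * Real.exp (-(Real.log 2 / 2) * x)) Filter.atTop (nhds 0) :=
    tendsto_rpow_mul_exp_neg_mul_atTop_nhds_zero 0 (Real.log 2 / 2) (by have := Real.log_pos (by norm_num : (1 : ℝ) < 2); linarith)
  have h3 := (h1.comp tendsto_natCast_atTop_atTop).eventually (gt_mem_nhds (show (0 : ℝ) < 1 / 2 by norm_num))
  have h4 := (h2.comp tendsto_natCast_atTop_atTop).eventually (gt_mem_nhds (show (0 : ℝ) < 1 / 2 by norm_num))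
  filter_upwards [h3, h4] with k h3 h4
  simp only [Function.comp_apply, Real.rpow_zero, one_mul] at h3 h4
  have h5 : (0 : ℝ) < Real.exp (Real.log 2 / 2 * k) := Real.exp_pos _
  have h6 : Real.exp (-(Real.log 2 / 2) * k) * Real.exp (Real.log 2 / 2 * k) = 1 := by
    rw [← Real.exp_add]; ring_nf; exact Real.exp_zero
  have h7 : (k : ℝ) ^ s ≤ 1 / 2 * Real.exp (Real.log 2 / 2 * k) := by
    have := mul_le_mul_of_nonneg_right h3.le h5.le
    rw [mul_assoc, h6, mul_one] at this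
    exact this
  have h8 : (1 : ℝ) ≤ 1 / 2 * Real.exp (Real.log 2 / 2 * k) := by
    have := mul_le_mul_of_nonneg_right h4.le h5.le
    rw [h6] at this
    exact this
  have h9 : (2 : ℝ) ^ k = Real.exp (Real.log 2 / 2 * k) * Real.exp (Real.log 2 / 2 * k) := by
    rw [← Real.exp_add, ← Real.rpow_natCast, Real.rpow_def_of_pos (by norm_num)]
    congr 1
    ring
  rw [h9]
  have h10 : (1 : ℝ) ≤ Real.exp (Real.log 2 / 2 * k) := by linarith
  nlinarith

/-- the last numerical step -/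
theorem num (q k m : ℕ) (hq : 1 ≤ q) (β N X1 x L : ℝ) (hβ : 0 < β) (hN : 1 ≤ N) (hk : 1 ≤ k)
    (hNk : N ≤ (2 : ℝ) ^ (β * k)) (hmk : m ≤ k) (hkm : (k : ℝ) ≤ 2 * m) (hX0 : 0 ≤ X1)
    (hX : 3 * X1 ≤ 1) (hx : 2 * q ≤ x) (hL0 : 0 ≤ L) (T1 : ℝ) (hT0 : 0 ≤ T1) (hT1 : T1 + 1 ≤ (2 : ℝ) ^ k)
    (hL : L + 1 ≤ (2 : ℝ) ^ k) :
    N ^ ((2 * q) * (2 * q)) * (2 ^ k + (3 * X1) ^ m * (T1 + 1)) + ((m : ℝ) ^ m) ^ q *
      (N ^ ((2 * q) * (2 * q)) * N ^ ((2 * q) * (2 * q))) * ((3 * (k : ℝ) ^ (-x)) ^ m * (L + 1)) ≤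
    (2 : ℝ) ^ ((2 * β * ((2 * q) * (2 * q) : ℕ) + 4) * k) := by
  have hkr : (1 : ℝ) ≤ k := by exact_mod_cast hk
  have hk0 : (0 : ℝ) < k := by linarith
  set s : ℕ := (2 * q) * (2 * q) with hs
  have hNs : N ^ s ≤ (2 : ℝ) ^ (β * k * s) := by
    rw [Real.rpow_mul (by norm_num), Real.rpow_natCast]
    exact pow_le_pow_left₀ (by linarith) hNk s
  have h2k : (2 : ℝ) ^ k = (2 : ℝ) ^ (k : ℝ) := (Real.rpow_natCast 2 k).symm
  have hA : 2 ^ k + (3 * X1) ^ m * (T1 + 1) ≤ (2 : ℝ) ^ (2 * (k : ℝ)) := by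
    have h1 : (3 * X1) ^ m ≤ 1 := pow_le_one₀ (by linarith) hX
    have h2 : (3 * X1) ^ m * (T1 + 1) ≤ 1 * 2 ^ k := by
      refine mul_le_mul h1 hT1 (by linarith) (by norm_num)
    have h3 : (2 : ℝ) ≤ 2 ^ k := by
      calc (2 : ℝ) = 2 ^ 1 := by norm_num
        _ ≤ 2 ^ k := pow_le_pow_right₀ (by norm_num) hk
    have h4 : (2 : ℝ) ^ (2 * (k : ℝ)) = 2 ^ k * 2 ^ k := by
      rw [two_mul, Real.rpow_add (by norm_num), Real.rpow_natCast]
    rw [h4]
    nlinarith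
  have hR : ((m : ℝ) ^ m) ^ q * ((3 * (k : ℝ) ^ (-x)) ^ m * (L + 1)) ≤ (2 : ℝ) ^ (3 * (k : ℝ)) := by
    have h1 : ((m : ℝ) ^ m) ^ q ≤ (k : ℝ) ^ ((q : ℝ) * k) := by
      have h2 : (m : ℝ) ^ m ≤ (k : ℝ) ^ k := by
        calc (m : ℝ) ^ m ≤ (k : ℝ) ^ m := pow_le_pow_left₀ (by positivity) (by exact_mod_cast hmk) m
          _ ≤ (k : ℝ) ^ k := pow_le_pow_right₀ hkr hmk
      calc ((m : ℝ) ^ m) ^ q ≤ ((k : ℝ) ^ k) ^ q := pow_le_pow_left₀ (by positivity) h2 q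
        _ = (k : ℝ) ^ ((q : ℝ) * k) := by
            rw [← pow_mul, ← Real.rpow_natCast]
            congr 1
            push_cast
            ring
    have h3 : ((k : ℝ) ^ (-x)) ^ m ≤ (k : ℝ) ^ (-((q : ℝ) * k)) := by
      rw [← Real.rpow_natCast, ← Real.rpow_mul hk0.le]
      apply Real.rpow_le_rpow_of_exponent_le hkr
      have hm0 : (0 : ℝ) ≤ m := by positivity
      have hq0 : (0 : ℝ) ≤ q := by positivity
      nlinarith [mul_le_mul_of_nonneg_right hx hm0, mul_le_mul_of_nonneg_left hkm hq0]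
    have h4 : ((3 * (k : ℝ) ^ (-x)) ^ m * (L + 1)) ≤ 4 ^ k * (k : ℝ) ^ (-((q : ℝ) * k)) * 2 ^ k := by
      rw [mul_pow]
      have h5 : (3 : ℝ) ^ m ≤ 4 ^ k := by
        calc (3 : ℝ) ^ m ≤ 3 ^ k := pow_le_pow_right₀ (by norm_num) hmk
          _ ≤ 4 ^ k := pow_le_pow_left₀ (by norm_num) (by norm_num) k
      refine mul_le_mul (mul_le_mul h5 h3 (by positivity) (by positivity)) hL (by linarith) (by positivity)
    have h6 : (k : ℝ) ^ ((q : ℝ) * k) * (k : ℝ) ^ (-((q : ℝ) * k)) = 1 := by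
      rw [← Real.rpow_add hk0]
      simp
    calc ((m : ℝ) ^ m) ^ q * ((3 * (k : ℝ) ^ (-x)) ^ m * (L + 1))
        ≤ (k : ℝ) ^ ((q : ℝ) * k) * (4 ^ k * (k : ℝ) ^ (-((q : ℝ) * k)) * 2 ^ k) := by
          refine mul_le_mul h1 h4 (by positivity) (by positivity)
      _ = ((k : ℝ) ^ ((q : ℝ) * k) * (k : ℝ) ^ (-((q : ℝ) * k))) * (4 ^ k * 2 ^ k) := by ring
      _ = 4 ^ k * 2 ^ k := by rw [h6, one_mul]
      _ = (2 : ℝ) ^ (3 * (k : ℝ)) := by
          rw [show (3 : ℝ) * k = ((3 * k : ℕ) : ℝ) by push_cast; ring, Real.rpow_natCast, pow_mul,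
            ← mul_pow]
          norm_num
  have hA0 : (0 : ℝ) ≤ 2 ^ k + (3 * X1) ^ m * (T1 + 1) := by positivity
  have hN0 : (0 : ℝ) ≤ N ^ s := by positivity
  have t1 : N ^ s * (2 ^ k + (3 * X1) ^ m * (T1 + 1)) ≤ (2 : ℝ) ^ ((2 * β * s + 3) * k) := by
    calc N ^ s * (2 ^ k + (3 * X1) ^ m * (T1 + 1))
        ≤ (2 : ℝ) ^ (β * k * s) * (2 : ℝ) ^ (2 * (k : ℝ)) := mul_le_mul hNs hA hA0 (by positivity)
      _ = (2 : ℝ) ^ (β * k * s + 2 * k) := (Real.rpow_add (by norm_num) _ _).symm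
      _ ≤ _ := by
          apply Real.rpow_le_rpow_of_exponent_le (by norm_num)
          have : (0 : ℝ) ≤ β * k * s := by positivity
          nlinarith
  have t2 : ((m : ℝ) ^ m) ^ q * (N ^ s * N ^ s) * ((3 * (k : ℝ) ^ (-x)) ^ m * (L + 1)) ≤
      (2 : ℝ) ^ ((2 * β * s + 3) * k) := by
    calc ((m : ℝ) ^ m) ^ q * (N ^ s * N ^ s) * ((3 * (k : ℝ) ^ (-x)) ^ m * (L + 1))
        = (((m : ℝ) ^ m) ^ q * ((3 * (k : ℝ) ^ (-x)) ^ m * (L + 1))) * (N ^ s * N ^ s) := by ring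
      _ ≤ (2 : ℝ) ^ (3 * (k : ℝ)) * ((2 : ℝ) ^ (β * k * s) * (2 : ℝ) ^ (β * k * s)) :=
          mul_le_mul hR (mul_le_mul hNs hNs hN0 (by positivity)) (by positivity) (by positivity)
      _ = (2 : ℝ) ^ ((2 * β * s + 3) * k) := by
          rw [← Real.rpow_add (by norm_num), ← Real.rpow_add (by norm_num)]
          congr 1
          ring
  have t3 : (2 : ℝ) ^ ((2 * β * s + 4) * k) = (2 : ℝ) ^ ((2 * β * s + 3) * k) * 2 ^ k := by
    rw [← Real.rpow_natCast 2 k, ← Real.rpow_add (by norm_num)]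
    congr 1
    ring
  have h3 : (2 : ℝ) ≤ 2 ^ k := by
    calc (2 : ℝ) = 2 ^ 1 := by norm_num
      _ ≤ 2 ^ k := pow_le_pow_right₀ (by norm_num) hk
  have t4 : (0 : ℝ) < (2 : ℝ) ^ ((2 * β * s + 3) * k) := by positivity
  rw [t3]
  nlinarith

/-- the admissibility predicate -/
def PPd (k : ℕ) (δ : ℝ) {m : ℕ} (G : Type) [AddCommGroup G] (y : Fin m → G) : Prop :=
  NonSp ((k : ℝ) ^ (1 - δ / 4)) y ∧ MC.MinC ((k : ℝ) ^ (1 - δ / 4)) ((k : ℝ) ^ (-(3 / 2) : ℝ)) y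

theorem PPd.ns {k : ℕ} {δ : ℝ} {m : ℕ} {G : Type} [AddCommGroup G] {y : Fin m → G}
    (h : PPd k δ G y) : NonSp ((k : ℝ) ^ (1 - δ / 4)) y := And.left h

theorem PPd.mc {k : ℕ} {δ : ℝ} {m : ℕ} {G : Type} [AddCommGroup G] {y : Fin m → G}
    (h : PPd k δ G y) : MC.MinC ((k : ℝ) ^ (1 - δ / 4)) ((k : ℝ) ^ (-(3 / 2) : ℝ)) y := And.right h

open Classical in
/-- **LEMMA M**, generic moment `2q` and generic number of columns. -/
theorem mom_gen (q : ℕ) (hq : 1 ≤ q) (β η : ℝ) (hβ : 0 < β) (_hη0 : 0 ≤ η) (hη2 : η ≤ 1 / 2)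
    (hc : 2 * q * β < 1 - η) (δ b₁ B : ℝ) (hδ : 0 < δ) (hδ1 : δ ≤ 1 / 100) (hb1 : 1 ≤ b₁) (hB : b₁ ≤ B) :
    ∃ (C : ℝ) (k₀ : ℕ), ∀ k ≥ k₀, ∀ m : ℕ, m ≤ k → (1 - η) * k ≤ m → ∀ P : Finset ℕ,
      M67.Adm b₁ β B k P →
      ∑ ω ∈ (univ : Finset (Fin k → Fin m → Bool × Bool)).filter
        (fun ω => M67.rkQ (M67.mt M67.xi ω) = m ∧ ¬ M67.Sp P ((k : ℝ) ^ (1 - δ / 4)) (M67.mt M67.xi ω)),
        M67.W P (M67.mt M67.xi ω) ^ q ≤ (2 : ℝ) ^ (C * k) * (4 : ℝ) ^ (k * m) := by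
  set c : ℝ := (1 - η - 2 * q * β) * Real.log 2 with hcdef
  have hl2 : 0 < Real.log 2 := Real.log_pos (by norm_num)
  have hc0 : 0 < c := mul_pos (by linarith) hl2
  have hq1 : (1 : ℝ) ≤ q := by exact_mod_cast hq
  set C1 : ℝ := 10 * q + 1 with hC1
  set T1 : ℝ := 10 * q + 2 with hT1
  obtain ⟨k1, h1⟩ := Flat.countG4 δ c T1 hδ (by linarith) hc0 (by positivity)
  obtain ⟨k2, h2⟩ := MC.mc 4 le_rfl c (B + T1) C1 (δ / 4) hc0 (by linarith) (by positivity)
    (by positivity) (by linarith)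
  obtain ⟨k3, h3⟩ := MinM67.minC (d := δ / 4) (by positivity) (by linarith)
  have hev1 : ∀ᶠ k : ℕ in Filter.atTop, 3 * (k : ℝ) ^ (-(1 / 2) + δ) ≤ 1 := by
    have h := (tendsto_rpow_neg_atTop (show (0 : ℝ) < 1 / 2 - δ by linarith)).comp
      (tendsto_natCast_atTop_atTop (R := ℝ))
    have h4 := h.eventually (gt_mem_nhds (show (0 : ℝ) < 1 / 3 by norm_num))
    filter_upwards [h4] with k h4
    simp only [Function.comp_apply] at h4
    have : -(1 / 2 - δ) = -(1 / 2) + δ := by ring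
    rw [this] at h4
    linarith
  obtain ⟨k4, h4⟩ := Filter.eventually_atTop.1
    (hev1.and ((pow_growth T1).and ((pow_growth (B + T1)).and (Filter.eventually_ge_atTop 3))))
  refine ⟨2 * β * ((2 * q) * (2 * q) : ℕ) + 4, max (max k1 k2) (max k3 k4),
    fun k hk m hmk hkm P hP => ?_⟩
  have hk1 : k1 ≤ k := le_trans (le_trans (le_max_left _ _) (le_max_left _ _)) hk
  have hk2 : k2 ≤ k := le_trans (le_trans (le_max_right _ _) (le_max_left _ _)) hk
  have hk3 : k3 ≤ k := le_trans (le_trans (le_max_left _ _) (le_max_right _ _)) hk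
  have hk4 : k4 ≤ k := le_trans (le_trans (le_max_right _ _) (le_max_right _ _)) hk
  obtain ⟨hX1, hg1, hg2, hk33⟩ := h4 k hk4
  have hkr : (3 : ℝ) ≤ k := by exact_mod_cast hk33
  have hk0 : (0 : ℝ) < k := by linarith
  have hk1r : (1 : ℝ) ≤ k := by linarith
  have hkm2 : (k : ℝ) ≤ 2 * m := by nlinarith
  set N : ℕ := ∏ p ∈ P, p with hN
  have hNpos : 0 < N := prod_pos fun p hp => (hP.pr p hp).pos
  have hNZ : NeZero N := ⟨hNpos.ne'⟩
  have hN1 : (1 : ℝ) ≤ N := by exact_mod_cast hNpos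
  have hNk : (N : ℝ) ≤ (2 : ℝ) ^ (β * k) := by
    have := hP.size
    rw [hN]; push_cast
    exact this
  have hNp : ∀ p : ℕ, p.Prime → p ∣ N → p ∈ P := by
    intro p hp hpd
    obtain ⟨a, ha, hpa⟩ := (hp.prime.dvd_finsetProd_iff _).1 hpd
    have : p = a := (Nat.prime_dvd_prime_iff_eq hp (hP.pr a ha)).1 hpa
    rw [this]; exact ha
  set YY := (univ : Finset (Fin k → Fin m → Bool × Bool)).filter
        (fun ω => M67.rkQ (M67.mt M67.xi ω) = m ∧ ¬ M67.Sp P ((k : ℝ) ^ (1 - δ / 4)) (M67.mt M67.xi ω))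
    with hYY
  have habs : ∀ (ω : Fin k → Fin m → Bool × Bool) (i : Fin k) (j : Fin m),
      |M67.mt M67.xi ω i j| ≤ 1 := by
    intro ω i j
    have : ∀ b : Bool × Bool, |M67.xi b| ≤ 1 := by decide
    exact this _
  -- facts about the groups
  have hG1 : ∀ (G : Type) [AddCommGroup G] [Fintype G], (∀ g : G, N • g = 0) →
      ∀ p : ℕ, p.Prime → p ∣ Fintype.card G → k ≤ p := by
    intro G _ _ hG p hp hpd
    have h5 := hP.lo p (hNp p hp (prime_dvd hG p hp hpd))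
    have h6 : (k : ℝ) ≤ (k : ℝ) ^ b₁ := by
      calc (k : ℝ) = (k : ℝ) ^ (1 : ℝ) := (Real.rpow_one _).symm
        _ ≤ (k : ℝ) ^ b₁ := Real.rpow_le_rpow_of_exponent_le hk1r hb1
    exact_mod_cast h6.trans h5
  have hG2 : ∀ (G : Type) [AddCommGroup G] [Fintype G], Nat.card G ≤ N ^ (2 * q) →
      (Fintype.card G : ℝ) * (1 / 2) ^ m ≤ Real.exp (-c * k) := by
    intro G _ _ hG
    rw [Nat.card_eq_fintype_card] at hG
    have h5 : (Fintype.card G : ℝ) ≤ (2 : ℝ) ^ (β * k * ((2 * q : ℕ) : ℝ)) := by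
      calc (Fintype.card G : ℝ) ≤ (N : ℝ) ^ (2 * q) := by exact_mod_cast hG
        _ ≤ ((2 : ℝ) ^ (β * k)) ^ (2 * q) := pow_le_pow_left₀ (by positivity) hNk _
        _ = _ := by rw [← Real.rpow_natCast ((2 : ℝ) ^ (β * k)) (2 * q), ← Real.rpow_mul (by norm_num)]
    have h6 : ((1 : ℝ) / 2) ^ m ≤ (2 : ℝ) ^ (-((1 - η) * k)) := by
      rw [one_div, inv_pow, ← Real.rpow_natCast, ← Real.rpow_neg (by norm_num)]
      exact Real.rpow_le_rpow_of_exponent_le (by norm_num) (by linarith)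
    calc (Fintype.card G : ℝ) * (1 / 2) ^ m
        ≤ (2 : ℝ) ^ (β * k * ((2 * q : ℕ) : ℝ)) * (2 : ℝ) ^ (-((1 - η) * k)) :=
          mul_le_mul h5 h6 (by positivity) (by positivity)
      _ = (2 : ℝ) ^ (β * k * ((2 * q : ℕ) : ℝ) + -((1 - η) * k)) := (Real.rpow_add (by norm_num) _ _).symm
      _ = Real.exp (-c * k) := by
          rw [Real.rpow_def_of_pos (by norm_num), hcdef]
          congr 1
          push_cast
          ring
  have hgpos : ∀ (G : Type) [AddCommGroup G] [Fintype G], (1 : ℝ) ≤ (Nat.card G : ℝ) := by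
    intro G _ _
    exact_mod_cast Nat.card_pos
  -- the core
  have hcore := P4L.core (k := k) (m := m) M67.xi N (2 * q) ((k : ℝ) ^ T1) ((k : ℝ) ^ B)
    (((m : ℝ) ^ m) ^ q) (2 ^ k + (3 * (k : ℝ) ^ (-(1 / 2) + δ)) ^ m * ((k : ℝ) ^ T1 + 1))
    ((3 * (k : ℝ) ^ (-(C1 / 5) + 1 / 10)) ^ m * ((k : ℝ) ^ (B + T1) + 1))
    (Real.one_le_rpow hk1r (by positivity)) (by positivity) (by positivity) (by positivity)
    (by simp) (fun p hp hpd => hP.hi p (hNp p hp hpd))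
    (fun G _ y => PPd k δ G y) YY ?_ ?_ ?_ ?_
  · -- conclusion
    have hsum : ∑ ω ∈ YY, M67.W P (M67.mt M67.xi ω) ^ q =
        ∑ Y ∈ YY, (Nat.card (P4L.KerG M67.xi (ZMod N) Y) : ℝ) ^ (2 * q) := by
      refine sum_congr rfl fun Y _ => ?_
      rw [MomGlue539.W_pow _ P hP.pr q, ← Nat.cast_pow, P4L.ker_pow]
      rfl
    rw [hsum]
    refine hcore.trans ?_
    have hO : (Fintype.card (Bool × Bool) : ℝ) = 4 := by
      rw [Fintype.card_prod, Fintype.card_bool]; norm_num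
    rw [hO, mul_comm]
    refine mul_le_mul_of_nonneg_right ?_ (by positivity)
    have hx : -(C1 / 5) + 1 / 10 = -(C1 / 5 - 1 / 10) := by ring
    rw [hx]
    exact num q k m hq β N ((k : ℝ) ^ (-(1 / 2) + δ)) (C1 / 5 - 1 / 10) ((k : ℝ) ^ (B + T1)) hβ hN1
      (by omega) hNk hmk hkm2 (by positivity) hX1 (by rw [hC1]; linarith) (by positivity)
      ((k : ℝ) ^ T1) (by positivity) hg1 hg2
  · -- admissibility
    intro Y hY G _ _ hG y hy hz
    rw [hYY, mem_filter] at hY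
    obtain ⟨-, hr, hS⟩ := hY
    have hz' : ∀ i, ∑ j, M67.mt M67.xi Y i j • y j = 0 := hz
    have hS1 : ¬ M67.Sparse P ((k : ℝ) ^ (1 - δ / 4)) (M67.mt M67.xi Y) := fun h => hS (Or.inl h)
    have hS2 : ¬ M67.SpB ((k : ℝ) ^ (1 - δ / 4)) (M67.mt M67.xi Y) := fun h => hS (Or.inr h)
    have hns := MomGlue539.spread hNpos.ne' P hNp _ _ hS1 hG y hy hz'
    refine ⟨hns, ?_⟩
    have : Fintype G := Fintype.ofFinite G
    intro ψ hψ F hF
    have hex : ∃ c, ψ (y c) ≠ 1 := by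
      have h7 := hns ψ hψ
      have h8 : 0 < (univ.filter fun c => ψ (y c) ≠ 1).card := by
        have h9 : (0 : ℝ) < (k : ℝ) ^ (1 - δ / 4) := by positivity
        exact_mod_cast lt_of_lt_of_le h9 h7
      obtain ⟨c', hc'⟩ := card_pos.1 h8
      exact ⟨c', (mem_filter.1 hc').2⟩
    exact h3 k hk3 m hmk _ (habs Y) hr hS2 G y hz' ψ hex F hF
  · -- Hadamard
    intro Y hY
    rw [hYY, mem_filter] at hY
    have := MomGlue539.W_pow_le (M67.mt M67.xi Y) P hP.pr (habs Y) hY.2.1 q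
    rw [MomGlue539.W_pow _ P hP.pr q] at this
    rw [← Nat.cast_pow, P4L.ker_pow]
    exact this
  · -- low
    intro G _ _ hG hcard
    have hgc : (Nat.card G : ℝ) = Fintype.card G := by rw [Nat.card_eq_fintype_card]
    refine P4S.low _ (fun y => Zp M67.xi y) (Nat.card G) ((k : ℝ) ^ (-(1 / 2) + δ)) ((k : ℝ) ^ T1) k m
      hmk (fun y => by rw [Zp_eq]; exact FirstMom685.gZ_nonneg' (by norm_num) y) (hgpos G)
      (by positivity) (by positivity) ?_ ?_ ?_ ?_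
    · have h5 := card_le_univ ((univ : Finset (Fin m → G)).filter fun y =>
        PPd k δ G y ∧ Zp M67.xi y ≤ (k : ℝ) ^ T1)
      rw [Fintype.card_fun, Fintype.card_fin] at h5
      rw [hgc]
      exact_mod_cast h5
    · intro y hy
      have := (mem_filter.1 hy).2.2
      linarith
    · intro y _
      rw [Zp_eq, hgc]
      exact FirstMom685.gZ_le_card (by norm_num) y
    · intro T hT hTb
      have h5 := h1 k hk1 G m hmk hkm2 (hG1 G hG) (hG2 G hcard) T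
        (by
          have h6 : (1 : ℝ) / (k : ℝ) ^ 3 ≤ 1 := by
            rw [div_le_one (by positivity)]
            exact one_le_pow₀ hk1r
          linarith) hTb
      rw [max_eq_right hT] at h5
      rw [hgc]
      refine le_trans ?_ h5
      exact_mod_cast card_le_card fun y hy => by
        rw [mem_filter, mem_filter] at hy
        rw [mem_filter, ← Zp_eq]
        exact ⟨mem_univ _, hy.1.2.1.ns, hy.2⟩
  · -- big
    intro G _ _ hG hcard
    have hgc : (Nat.card G : ℝ) = Fintype.card G := by rw [Nat.card_eq_fintype_card]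
    have hBT : (k : ℝ) ^ B * (k : ℝ) ^ T1 = (k : ℝ) ^ (B + T1) := (Real.rpow_add hk0 _ _).symm
    have hT11 : (k : ℝ) ^ T1 = k * (k : ℝ) ^ C1 := by
      rw [hT1, hC1, show (10 : ℝ) * q + 2 = 1 + (10 * q + 1) by ring, Real.rpow_add hk0, Real.rpow_one]
    have hC11 : (1 : ℝ) ≤ (k : ℝ) ^ C1 := Real.one_le_rpow hk1r (by positivity)
    have hTa : (k : ℝ) ^ C1 ≤ ((k : ℝ) ^ T1 - 1) / 2 := by
      rw [hT11]; nlinarith
    refine P4S.levels _ (fun y => Zp M67.xi y) (Nat.card G) ((k : ℝ) ^ (-(C1 / 5) + 1 / 10))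
      (((k : ℝ) ^ T1 - 1) / 2) ((k : ℝ) ^ (B + T1)) k m
      hmk (fun y => by rw [Zp_eq]; exact FirstMom685.gZ_nonneg' (by norm_num) y) (hgpos G)
      (by positivity) (by linarith) (by positivity) ?_ ?_ ?_ ?_
    · intro y hy
      have := (mem_filter.1 hy).2.2.1
      linarith
    · intro y hy
      have := (mem_filter.1 hy).2.2.2
      rw [hBT] at this
      linarith
    · intro y _
      rw [Zp_eq, hgc]
      exact FirstMom685.gZ_le_card (by norm_num) y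
    · intro T hT1' hT hTb
      have h5 := h2 k hk2 G m hmk hkm2 (hG1 G hG)
        (by
          have h6 := hG2 G hcard
          have h7 : (1 - 2 / ((4 : ℕ) : ℝ)) = 1 / 2 := by norm_num
          rw [h7]; exact h6) T (by linarith) hTb
      rw [hgc]
      refine le_trans ?_ h5
      exact_mod_cast card_le_card fun y hy => by
        rw [mem_filter, mem_filter] at hy
        rw [mem_filter, ← Zp_eq]
        exact ⟨mem_univ _, hy.1.2.1.mc, by linarith [hy.2]⟩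

/-- **StmtMom** -/
theorem mom (q : ℕ) (hq : 1 ≤ q) (β : ℝ) (hβ : 0 < β) (hc : 2 * q * β < 99 / 100) :
    M67.StmtMom q β := by
  intro δ b₁ B hδ hδ1 hb1 hB
  obtain ⟨C, k₀, h⟩ := mom_gen q hq β (1 / 100) hβ (by norm_num) (by norm_num) (by linarith) δ b₁ B
    hδ hδ1 hb1 hB
  refine ⟨C, k₀, fun k hk m hmk hkm P hP => ?_⟩
  have h2 : (99 : ℝ) * k ≤ 100 * m := by exact_mod_cast hkm
  have h3 := h k hk m hmk (by linarith) P hP
  convert h3

theorem mom3 : M67.StmtMom 3 (1 / 8) := mom 3 (by norm_num) (1 / 8) (by norm_num) (by norm_num)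

end Vale.Agent.P160.Half.MomTop836
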