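import Vale.Agent.P160.Half.LA1

/-! # P160, rate 1/2, part (A), leaf A2: Cauchy-Schwarz and Step 1 -/

set_option linter.unusedVariables false

namespace Vale.Agent.P160.Half.A

open Finset Matrix Vale.Agent.P160.Half

namespace LA2

/-- Cauchy-Schwarz for the number of representations -/
theorem cs_aux {J β : Type*} [Fintype J] [DecidableEq J] [DecidableEq β] (Y : Finset β)
    (S : (J → β) → β) :
    ((Y.card : ℝ) ^ Fintype.card J) ^ 2 ≤
      (((Fintype.piFinset fun _ : J => Y).image S).card : ℝ) *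
      ((((Fintype.piFinset fun _ : J => Y) ×ˢ (Fintype.piFinset fun _ : J => Y)).filter
        fun fg => S fg.1 = S fg.2).card : ℝ) := by
  classical
  set A := Fintype.piFinset fun _ : J => Y with hA
  have hcard : (A.card : ℝ) = (Y.card : ℝ) ^ Fintype.card J := by
    rw [hA, Fintype.card_piFinset]
    simp
  have h1 : A.card = ∑ h ∈ A.image S, (A.filter fun f => S f = h).card :=
    Finset.card_eq_sum_card_image S A
  have h2 : ((A ×ˢ A).filter fun fg => S fg.1 = S fg.2).card =
      ∑ h ∈ A.image S, (A.filter fun f => S f = h).card ^ 2 := by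
    rw [Finset.card_eq_sum_card_fiberwise (f := fun fg : (J → β) × (J → β) => S fg.1)
      (t := A.image S)]
    · refine Finset.sum_congr rfl fun h hh => ?_
      rw [sq, ← Finset.card_product]
      congr 1
      ext ⟨f, g⟩
      simp only [Finset.mem_filter, Finset.mem_product]
      constructor
      · rintro ⟨⟨⟨hf, hg⟩, he⟩, hf'⟩
        exact ⟨⟨hf, hf'⟩, hg, he ▸ hf'⟩
      · rintro ⟨⟨hf, hf'⟩, hg, hg'⟩
        exact ⟨⟨⟨hf, hg⟩, hf'.trans hg'.symm⟩, hf'⟩
    · intro fg hfg
      have := (Finset.mem_filter.mp (Finset.mem_coe.mp hfg)).1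
      exact Finset.mem_coe.mpr (Finset.mem_image_of_mem _ (Finset.mem_product.mp this).1)
  rw [← hcard, h2]
  push_cast
  rw [h1]
  push_cast
  exact sq_sum_le_card_mul_sum_sq

/-- the two halves of an array -/
def glue {l M : ℕ} {β : Type*} (fg : (Fin l × Fin M → β) × (Fin l × Fin M → β)) : Co l M → β :=
  fun q => if q.2.2 then fg.1 (q.1, q.2.1) else fg.2 (q.1, q.2.1)

theorem glue_inj {l M : ℕ} {β : Type*} : Function.Injective (glue (l := l) (M := M) (β := β)) := by
  intro fg fg' h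
  refine Prod.ext ?_ ?_
  · funext j
    have := congrFun h (j.1, (j.2, true))
    simpa [glue] using this
  · funext j
    have := congrFun h (j.1, (j.2, false))
    simpa [glue] using this

/-- the weighted sum over one half -/
def hs {n l M : ℕ} (f : Fin l × Fin M → Fin n → ℤ) : Fin n → ℤ :=
  ∑ j : Fin l × Fin M, (2 ^ (j.1 : ℕ) : ℤ) • f j

theorem sum_glue {n l M : ℕ} (fg : (Fin l × Fin M → Fin n → ℤ) × (Fin l × Fin M → Fin n → ℤ)) :
    ∑ q : Co l M, cf q • glue fg q = hs fg.1 - hs fg.2 := by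
  unfold hs
  rw [Fintype.sum_prod_type, Fintype.sum_prod_type, Fintype.sum_prod_type, ← Finset.sum_sub_distrib]
  refine Finset.sum_congr rfl fun i _ => ?_
  rw [Fintype.sum_prod_type, ← Finset.sum_sub_distrib]
  refine Finset.sum_congr rfl fun m _ => ?_
  simp [cf, glue, sub_eq_add_neg]

theorem sum_two (l M : ℕ) : ∑ j : Fin l × Fin M, (2 ^ (j.1 : ℕ) : ℤ) = ((M * (2 ^ l - 1) : ℕ) : ℤ) := by
  rw [Fintype.sum_prod_type]
  simp only [Finset.sum_const, Finset.card_univ, Fintype.card_fin, nsmul_eq_mul]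
  rw [← Finset.mul_sum, Fin.sum_univ_eq_sum_range (fun i => (2 : ℤ) ^ i) l]
  have h := Nat.geomSum_eq (le_refl 2) l
  have h1 : (∑ i ∈ Finset.range l, (2 : ℤ) ^ i) = ((∑ i ∈ Finset.range l, 2 ^ i : ℕ) : ℤ) := by
    push_cast; rfl
  rw [h1, h]
  push_cast
  simp

theorem hs_apply {n l M : ℕ} (f : Fin l × Fin M → Fin n → ℤ) (i : Fin n) :
    hs f i = ∑ j : Fin l × Fin M, (2 ^ (j.1 : ℕ) : ℤ) * f j i := by
  simp [hs, Finset.sum_apply]

end LA2

open LA2 in
theorem stmtA2 (h1 : StmtA1) : StmtA2 := by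
  classical
  intro n l M P L hn hM hP hdet hL p _ Λ X k d hΛ hX hk hS hd E a Y hY
  obtain ⟨Q, V, hQ, hPV, hcl⟩ := h1 n P L hP hdet hL
  set N : ℕ := M * (2 ^ l - 1) with hN
  set A := Fintype.piFinset fun _ : Fin l × Fin M => Y with hA
  set K := A.image hs with hK
  have hmemA : ∀ f ∈ A, ∀ j, f j ∈ Y := fun f hf j => Fintype.mem_piFinset.mp hf j
  have hNR : ∀ x : ℝ, ∑ j : Fin l × Fin M, (2 : ℝ) ^ (j.1 : ℕ) * x = (N : ℝ) * x := by
    intro x
    rw [← Finset.sum_mul]
    congr 1
    have := sum_two l M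
    rw [← hN] at this
    exact_mod_cast this
  have hKc := Step1.step1 P Q V hQ hPV hdet hn p N Λ (N * X) hΛ (by positivity) k hk hS
    (fun j => if j ∈ E then (N : ℤ) * a j else 0) K
    (by
      intro h hh i
      obtain ⟨f, hf, rfl⟩ := Finset.mem_image.mp hh
      rw [hs_apply]
      by_cases hi : i ∈ E
      · have : ∑ j : Fin l × Fin M, (2 ^ (j.1 : ℕ) : ℤ) * f j i = (N : ℤ) * a i := by
          rw [Finset.sum_congr rfl fun j _ => by rw [((hY _ (hmemA f hf j)).1 i hi)], ← Finset.sum_mul,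
            sum_two]
        rw [if_pos hi, this]
        exact ⟨le_refl _, by linarith [Int.natCast_nonneg N]⟩
      · rw [if_neg hi, zero_add]
        have h01 : ∀ j, 0 ≤ f j i ∧ f j i ≤ 1 := fun j => by
          rcases (hY _ (hmemA f hf j)).2.1 i hi with h | h <;> rw [h] <;> norm_num
        refine ⟨Finset.sum_nonneg fun j _ => mul_nonneg (by positivity) (h01 j).1, ?_⟩
        rw [hN, ← sum_two l M]
        exact Finset.sum_le_sum fun j _ => mul_le_of_le_one_right (by positivity) (h01 j).2)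
    (by
      intro h hh
      obtain ⟨f, hf, rfl⟩ := Finset.mem_image.mp hh
      have : ∀ j, ∃ z : Fin n → ℤ, f j = Vᵀ *ᵥ (Q *ᵥ z) := fun j =>
        (hcl (f j)).mp (hY _ (hmemA f hf j)).2.2.1
      choose z hz using this
      refine ⟨∑ j, (2 ^ (j.1 : ℕ) : ℤ) • z j, ?_⟩
      unfold hs
      rw [Matrix.mulVec_sum, Matrix.mulVec_sum]
      refine Finset.sum_congr rfl fun j _ => ?_
      rw [Matrix.mulVec_smul, Matrix.mulVec_smul, ← hz j])
    (by
      intro h hh
      obtain ⟨f, hf, rfl⟩ := Finset.mem_image.mp hh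
      refine ⟨fun i => ∑ j, (2 ^ (j.1 : ℕ) : ℝ) * ((dual P (f j) i : ℚ) : ℝ), ?_, ?_⟩
      · have hu : IsUnit (PQ P).det := by
          rw [LA1.PQ_det]
          exact isUnit_iff_ne_zero.mpr (by exact_mod_cast hdet)
        have hd : ∀ y : Fin n → ℤ, ∀ i, ∑ k, (P i k : ℚ) * dual P y k = (y i : ℚ) := by
          intro y i
          have : PQ P *ᵥ dual P y = fun i => (y i : ℚ) := by
            rw [dual, Matrix.mulVec_mulVec, Matrix.mul_nonsing_inv _ hu, Matrix.one_mulVec]
          exact congrFun this i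
        have hdR : ∀ y : Fin n → ℤ, ∀ i, ∑ k, (P i k : ℝ) * ((dual P y k : ℚ) : ℝ) = (y i : ℝ) := by
          intro y i
          have := hd y i
          exact_mod_cast congrArg (fun q : ℚ => (q : ℝ)) this
        funext i
        have hL' : (Step1.toRM P *ᵥ fun i => ∑ j, (2 ^ (j.1 : ℕ) : ℝ) * ((dual P (f j) i : ℚ) : ℝ)) i =
            ∑ k, (P i k : ℝ) * ∑ j, (2 ^ (j.1 : ℕ) : ℝ) * ((dual P (f j) k : ℚ) : ℝ) := rfl
        rw [hL']
        have hR' : Step1.toR (hs f) i = ∑ j : Fin l × Fin M, (2 ^ (j.1 : ℕ) : ℝ) * (f j i : ℝ) := by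
          unfold Step1.toR
          rw [hs_apply]
          push_cast
          rfl
        rw [hR']
        simp_rw [Finset.mul_sum]
        rw [Finset.sum_comm]
        refine Finset.sum_congr rfl fun j _ => ?_
        rw [← hdR (f j) i, Finset.mul_sum]
        exact Finset.sum_congr rfl fun k _ => by ring
      · intro i
        refine (Finset.abs_sum_le_sum_abs _ _).trans ?_
        rw [← hNR X]
        refine Finset.sum_le_sum fun j _ => ?_
        rw [abs_mul, abs_of_nonneg (by positivity : (0 : ℝ) ≤ 2 ^ (j.1 : ℕ))]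
        exact mul_le_mul_of_nonneg_left ((hY _ (hmemA f hf j)).2.2.2 i) (by positivity))
    d hd
  have hcs := cs_aux (J := Fin l × Fin M) Y (hs (n := n))
  have hrep : (((A ×ˢ A).filter fun fg => hs (n := n) fg.1 = hs fg.2).card : ℝ) ≤
      (((Fintype.piFinset fun _ : Co l M => Y).filter fun f => ∑ q, cf q • f q = 0).card : ℝ) := by
    norm_cast
    refine Finset.card_le_card_of_injOn glue ?_ (glue_inj.injOn)
    intro fg hfg
    have h := Finset.mem_filter.mp (Finset.mem_coe.mp hfg)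
    have h' := Finset.mem_product.mp h.1
    refine Finset.mem_coe.mpr (Finset.mem_filter.mpr ⟨Fintype.mem_piFinset.mpr fun q => ?_, ?_⟩)
    · unfold glue
      split_ifs
      · exact hmemA _ h'.1 _
      · exact hmemA _ h'.2 _
    · rw [sum_glue, h.2, sub_self]
  set R : ℝ := (((Fintype.piFinset fun _ : Co l M => Y).filter fun f => ∑ q, cf q • f q = 0).card : ℝ)
    with hR
  have hR0 : 0 ≤ R := by positivity
  have hcs2 : ((Y.card : ℝ) ^ (l * M)) ^ 2 ≤ (K.card : ℝ) * R := by
    have : Fintype.card (Fin l × Fin M) = l * M := by simp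
    rw [this] at hcs
    exact hcs.trans (mul_le_mul_of_nonneg_left hrep (by positivity))
  calc ((Y.card : ℝ) ^ (2 * l * M)) ^ 2 = (((Y.card : ℝ) ^ (l * M)) ^ 2) ^ 2 := by
        rw [← pow_mul, ← pow_mul, ← pow_mul]; congr 1; ring
    _ ≤ ((K.card : ℝ) * R) ^ 2 := pow_le_pow_left₀ (by positivity) hcs2 2
    _ = (K.card : ℝ) ^ 2 * R ^ 2 := by ring
    _ ≤ _ := mul_le_mul_of_nonneg_right hKc (by positivity)

end Vale.Agent.P160.Half.A
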