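import Vale.Agent.P160.Half.AStmt

/-! P160, rate 1/2, part (A): leaf A3 (`wcount`, uncurried). -/

namespace Vale.Agent.P160.Half.A

open Finset Matrix Vale.Agent.P160.Half

namespace LA3

theorem cf_eq {l M : ℕ} (q : Co l M) :
    (cf q : ℚ) = (2 : ℚ) ^ (q.1 : ℕ) * (((if q.2.2 then 1 else -1 : ℤ)) : ℚ) := by
  unfold cf
  split <;> simp

theorem stmtA3 : StmtA3 := by
  classical
  intro α l M hα hM W hW v
  set W' : Submodule ℚ (Fin l → (Fin M × Bool) → ℚ) :=
    W.map (LinearEquiv.curry ℚ ℚ (Fin l) (Fin M × Bool)).toLinearMap with hW'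
  set v' : Fin l → (Fin M × Bool) → ℚ := fun i k => v (i, k) with hv'
  have hcard : Fintype.card (Fin M × Bool) = 2 * M := by
    simp [Fintype.card_prod, mul_comm]
  have hrel : ∀ w ∈ W', ∑ i : Fin l, (2 : ℚ) ^ (i : ℕ) * ∑ k : Fin M × Bool,
      (((fun (_ : Fin l) (k : Fin M × Bool) => (if k.2 then 1 else -1 : ℤ)) i k : ℤ) : ℚ) * w i k = 0 := by
    intro w hw
    obtain ⟨u, hu, rfl⟩ := hw
    have h1 := hW u hu
    rw [Fintype.sum_prod_type] at h1
    rw [← h1]
    apply Finset.sum_congr rfl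
    intro i _
    rw [Finset.mul_sum]
    apply Finset.sum_congr rfl
    intro k _
    rw [cf_eq]
    simp only [LinearEquiv.coe_coe, LinearEquiv.coe_curry, Function.curry_apply]
    ring
  have hodd : ∀ (i : Fin l) (k : Fin M × Bool),
      Odd ((fun (_ : Fin l) (k : Fin M × Bool) => (if k.2 then 1 else -1 : ℤ)) i k) := by
    intro i k
    show Odd (if k.2 then 1 else -1 : ℤ)
    split
    · exact ⟨0, rfl⟩
    · exact ⟨-1, rfl⟩
  have hmain := wcount (κ := Fin M × Bool) hα (by rw [hcard]; exact_mod_cast hM) l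
    (fun _ k => (if k.2 then 1 else -1 : ℤ)) hodd W' hrel v'
  have hfin : Module.finrank ℚ W' = Module.finrank ℚ W :=
    LinearEquiv.finrank_map_eq (LinearEquiv.curry ℚ ℚ (Fin l) (Fin M × Bool)) W
  have hle : ((univ : Finset (Co l M → Bool)).filter fun x => bq x - v ∈ W).card ≤
      (pts2 W' v').card := by
    apply Finset.card_le_card_of_injOn (fun x (i : Fin l) (k : Fin M × Bool) => x (i, k))
    · intro x hx
      have hx2 : bq x - v ∈ W := (Finset.mem_filter.1 (Finset.mem_coe.1 hx)).2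
      rw [Finset.mem_coe, mem_pts2]
      exact ⟨bq x - v, hx2, rfl⟩
    · intro x _ y _ hxy
      funext q
      exact congrFun (congrFun hxy q.1) q.2
  refine (Nat.cast_le.2 hle).trans (hmain.trans (le_of_eq ?_))
  rw [hfin, hcard]
  congr 1
  push_cast
  ring

end LA3

theorem stmtA3 : StmtA3 := LA3.stmtA3

end Vale.Agent.P160.Half.A
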