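import Vale.Agent.P160.Half.A5g
import Vale.Agent.P160.Half.LA2
import Vale.Agent.P160.Half.LA3
import Vale.Agent.P160.Half.A4

/-! # P160, part (A): rich classes from gap (G). -/

namespace Vale.Agent.P160.Half.A

/-- `RichSmall` from gap (G) alone -/
theorem rich_of_G (hG : StmtG) : RichSmall :=
  richSmall hG (stmtA2 stmtA1) stmtA3 A4.stmtA4

end Vale.Agent.P160.Half.A
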