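import Vale.Agent.P160.Half.M8Incl

/-! # P160, rate 1/2, part (M): the one-row interface for `MProd358.lean` (helper358, note 11396) -/

set_option linter.unusedVariables false

open Finset Matrix

namespace Vale.Agent.P160.Half.MProd

open Vale.Agent.P160.Half.M8Incl

/-- **ROW HYPOTHESIS.** `Gd n ι b'` (a good event, which contains `det ≠ 0`) has density at least
`1 - 2 ^ (-(1/8 + η) n)` at all sizes in `[n - τ, n)`, and given a good block `b'` the number of primes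
`p ∈ [n ^ b₁, n ^ B]` with `ker_p b' ≠ 0` orthogonal to the new row `x` (`KS b' x`) is at least `s` with
probability at most `2 ^ (- s + δ n)`, for EVERY `s`.  PROOF. `s ≤ δ n`: trivial.  `δ n ≤ s ≤ g n`: flat branch, good means
`GoodSym N b'` for all `N` in the window `2 ^ (g n) ≤ N` (NotGood), `4 / N` and naming `2 ^ (o(n))`.
`g n ≤ s`: volume Littlewood-Offord, binomial tail. -/
def RowHyp (b₁ : ℝ) : Prop := ∀ (δ B : ℝ) (τ : ℕ), 0 < δ →
  ∃ (Gd : ℕ → ∀ (ι : Type) [Fintype ι] [DecidableEq ι], (Sym2 ι → Bool) → Prop) (n₀ : ℕ) (η : ℝ), 0 < η ∧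
    ∀ n ≥ n₀, ∀ (ι : Type) [Fintype ι] [DecidableEq ι], n ≤ Fintype.card ι + τ → Fintype.card ι < n →
      (∀ b' : Sym2 ι → Bool, Gd n ι b' → (matZ b').det ≠ 0 ∧ ∀ s : ℕ,
        (Nat.card {x : ι → Bool // s ≤ (KS b' x ((n : ℝ) ^ b₁) ((n : ℝ) ^ B)).card} : ℝ) ≤
          2 ^ (-(s : ℝ) + δ * n) * 2 ^ Fintype.card ι) ∧
      (Nat.card {b' : Sym2 ι → Bool // ¬ Gd n ι b'} : ℝ) ≤
        2 ^ (-((1 / 8 + η) * n)) * 2 ^ Fintype.card (Sym2 ι)

end Vale.Agent.P160.Half.MProd
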