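import Vale.Agent.P160.Half.HadN
import Vale.Agent.P160.Half.Corank

/-! # P160, rate 1/2, part (M): the statements which the final assembly takes

`N2` counts the primes `p` in `[y, Y]` with `corank_p ≥ 2`.  `StmtM b₁ lam` is the output of part (M) with
loss `lam`; `stmtM_det` : the deterministic (Hadamard) form, `lam = 1 / (4 b₁)`. -/

open Finset Matrix

namespace Vale.Agent.P160.Half.MTop

open Vale.Agent.P160.Half.HadN (rQ rP)

/-- corank of an integer square matrix modulo `p` -/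
noncomputable def crk {α : Type*} [Fintype α] (P : Matrix α α ℤ) (p : ℕ) : ℕ := Fintype.card α - rP p P

open Classical in
/-- the primes `p` with `y ≤ p ≤ Y` and corank at least `2` -/
noncomputable def S2 {α : Type*} [Fintype α] (P : Matrix α α ℤ) (y Y : ℝ) : Finset ℕ :=
  (range (⌊Y⌋₊ + 1)).filter fun p => p.Prime ∧ y ≤ p ∧ 2 ≤ crk P p

/-- number of primes `p` with `y ≤ p ≤ Y` and corank at least `2` -/
noncomputable def N2 {α : Type*} [Fintype α] (P : Matrix α α ℤ) (y Y : ℝ) : ℕ := (S2 P y Y).card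

/-- zero event: for some modulus `q` with `Qs q` there is a kernel vector `u` of `P` modulo `q` with at
least `t` unit coordinates and at least `z` zeros (no condition if `z = 0`) -/
def Kill {α : Type*} [Fintype α] (Qs : ℕ → Prop) (t z : ℕ) (P : Matrix α α ℤ) : Prop :=
  z = 0 ∨ ∃ q : ℕ, Qs q ∧ ∃ u : α → ZMod q, t ≤ Nat.card {i // IsUnit (u i)} ∧
    P.map (Int.cast : ℤ → ZMod q) *ᵥ u = 0 ∧ z ≤ Nat.card {i // u i = 0}

/-- density of the zero event at size `m` -/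
noncomputable def kden (m : ℕ) (Qs : ℕ → Prop) (t z : ℕ) : ℝ :=
  (Nat.card {b : Sym2 (Fin m) → Bool // Kill Qs t z (matZ b)} : ℝ) / 2 ^ Fintype.card (Sym2 (Fin m))

/-- **Output of part (M)** with loss `lam` (target `lam = 0`; `lam = 1 / (4 b₁)` is trivial, see
`stmtM_det`).  `b₁` is slightly smaller than `2`.  For a nonsingular symmetric 0/1 matrix the event: at
least `s` primes of corank `≥ 2` in `[n ^ b₁, n ^ B]`, costs `2 ^ (-(s - lam n))`, multiplicatively with the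
zero event, up to `2 ^ (- n / 8)` (`b₁ → 2`). -/
def StmtM (b₁ lam : ℝ) : Prop := ∀ (ε B : ℝ), 0 < ε → ∃ τ n₀ : ℕ, ∀ n ≥ n₀,
  ∀ Qs : ℕ → Prop, (∀ q, Qs q → 2 ≤ q) → ∀ t z s : ℕ, ε * n ≤ s →
  (Nat.card {b : Sym2 (Fin n) → Bool // (matZ b).det ≠ 0 ∧ Kill Qs t z (matZ b) ∧
    s ≤ N2 (matZ b) ((n : ℝ) ^ b₁) ((n : ℝ) ^ B)} : ℝ) ≤
    ((∑ m ∈ Icc (n - τ) n, kden m Qs t (z - τ)) * 2 ^ (-(s - lam * n) + ε * n) +
      2 ^ (-(n / 8 : ℝ))) * 2 ^ Fintype.card (Sym2 (Fin n))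

/-- deterministic bound for the number of primes of corank `≥ 2` -/
theorem pow_N2_le {α : Type*} [Fintype α] [DecidableEq α] (P : Matrix α α ℤ) (hP : P.det ≠ 0)
    (h1 : ∀ i j, |P i j| ≤ 1) (y Y : ℝ) (hy : 0 ≤ y) :
    y ^ (4 * N2 P y Y) ≤ (Fintype.card α : ℝ) ^ Fintype.card α := by
  classical
  have hS : ∀ p ∈ S2 P y Y, p.Prime := fun p hp => by
    unfold S2 at hp; exact (mem_filter.1 hp).2.1
  have hr : rQ P = Fintype.card α := by
    have h : (P.map (Int.cast : ℤ → ℚ)).det ≠ 0 := by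
      have h2 := RingHom.map_det (Int.castRingHom ℚ) P
      have h3 : (P.map (Int.cast : ℤ → ℚ)).det = (P.det : ℚ) := by simpa using h2.symm
      rw [h3]
      exact_mod_cast hP
    exact Matrix.rank_of_det_ne_zero h
  have h2 := HadN.prod_pow_dvd P (S2 P y Y) hS h1
  rw [hr] at h2
  have h3 : y ^ (2 * N2 P y Y) ≤ ((∏ p ∈ S2 P y Y, p ^ (Fintype.card α - rP p P) : ℕ) : ℝ) := by
    rw [Nat.cast_prod, mul_comm 2, pow_mul, ← pow_mul, mul_comm (N2 P y Y), pow_mul]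
    unfold N2
    rw [← prod_const]
    refine prod_le_prod (fun _ _ => by positivity) fun p hp => ?_
    have hp' := (mem_filter.1 (show p ∈ (range (⌊Y⌋₊ + 1)).filter _ from hp)).2
    have hp1 : (1 : ℝ) ≤ p := by exact_mod_cast hp'.1.one_lt.le
    rw [Nat.cast_pow]
    calc y ^ 2 ≤ (p : ℝ) ^ 2 := pow_le_pow_left₀ hy hp'.2.1 2
      _ ≤ (p : ℝ) ^ (Fintype.card α - rP p P) := pow_le_pow_right₀ hp1 hp'.2.2
  have h4 : (((∏ p ∈ S2 P y Y, p ^ (Fintype.card α - rP p P) : ℕ)) : ℝ) ^ 2 ≤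
      (Fintype.card α : ℝ) ^ Fintype.card α := by exact_mod_cast h2
  calc y ^ (4 * N2 P y Y) = (y ^ (2 * N2 P y Y)) ^ 2 := by rw [← pow_mul]; ring_nf
    _ ≤ _ := (pow_le_pow_left₀ (by positivity) h3 2).trans h4

/-- `N2 ≤ n / (4 b₁)` -/
theorem N2_le {n : ℕ} (P : Matrix (Fin n) (Fin n) ℤ) (hP : P.det ≠ 0) (h1 : ∀ i j, |P i j| ≤ 1)
    (hn : 2 ≤ n) (N : ℝ) (hN : (n : ℝ) ≤ N) (b₁ Y : ℝ) (hb : 0 < b₁) : (N2 P (N ^ b₁) Y : ℝ) ≤ n / (4 * b₁) := by
  have hn1 : (1 : ℝ) < n := by exact_mod_cast hn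
  have hN0 : (0 : ℝ) < N := by linarith
  have h := pow_N2_le P hP h1 (N ^ b₁) Y (by positivity)
  rw [Fintype.card_fin] at h
  have hlog : 0 < Real.log n := Real.log_pos hn1
  have hlogN : Real.log n ≤ Real.log N := Real.log_le_log (by linarith) hN
  have h2 := Real.log_le_log (by positivity) h
  rw [Real.log_pow, Real.log_pow, Real.log_rpow hN0] at h2
  push_cast at h2
  rw [le_div_iff₀ (by positivity)]
  have h3 : (4 * (N2 P (N ^ b₁) Y : ℝ)) * (b₁ * Real.log n) ≤ n * Real.log n := by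
    refine le_trans ?_ h2
    gcongr
  have h4 : ((N2 P (N ^ b₁) Y : ℝ) * (4 * b₁)) * Real.log n ≤ n * Real.log n := by linarith
  exact le_of_mul_le_mul_right h4 hlog

theorem Kill.mono {α : Type*} [Fintype α] {Qs : ℕ → Prop} {t z z' : ℕ} {P : Matrix α α ℤ}
    (h : Kill Qs t z P) (hz : z' ≤ z) : Kill Qs t z' P := by
  rcases h with h | ⟨q, hq, u, hu, hPu, hzu⟩
  · exact Or.inl (by omega)
  · exact Or.inr ⟨q, hq, u, hu, hPu, hz.trans hzu⟩

/-- **Safety net**: part (M) with the loss `1 / (4 b₁)` is deterministic. -/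
theorem stmtM_det (b₁ : ℝ) (hb : 0 < b₁) : StmtM b₁ (1 / (4 * b₁)) := by
  intro ε B hε
  refine ⟨0, 2, fun n hn Qs hQ t z s hs => ?_⟩
  have hn0 : (0 : ℝ) < n := by exact_mod_cast (by omega : 0 < n)
  have h2 : (0 : ℝ) < 2 ^ Fintype.card (Sym2 (Fin n)) := by positivity
  by_cases hsn : (s : ℝ) ≤ n / (4 * b₁)
  · have h1 : (Nat.card {b : Sym2 (Fin n) → Bool // (matZ b).det ≠ 0 ∧ Kill Qs t z (matZ b) ∧
        s ≤ N2 (matZ b) ((n : ℝ) ^ b₁) ((n : ℝ) ^ B)} : ℝ) ≤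
        kden n Qs t z * 2 ^ Fintype.card (Sym2 (Fin n)) := by
      unfold kden
      rw [div_mul_cancel₀ _ h2.ne']
      exact_mod_cast Nat.card_le_card_of_injective
        (fun b : {b : Sym2 (Fin n) → Bool // (matZ b).det ≠ 0 ∧ Kill Qs t z (matZ b) ∧
          s ≤ N2 (matZ b) ((n : ℝ) ^ b₁) ((n : ℝ) ^ B)} =>
          (⟨b.1, b.2.2.1⟩ : {b : Sym2 (Fin n) → Bool // Kill Qs t z (matZ b)}))
        (fun b b' h => Subtype.ext (by simpa using h))
    have hz0 : 0 ≤ kden n Qs t z := by unfold kden; positivity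
    refine h1.trans (mul_le_mul_of_nonneg_right ?_ h2.le)
    rw [Nat.sub_zero, Nat.sub_zero, Icc_self, sum_singleton]
    have h3 : (1 : ℝ) ≤ 2 ^ (-((s : ℝ) - 1 / (4 * b₁) * n) + ε * n) := by
      apply Real.one_le_rpow (by norm_num)
      have : (n : ℝ) / (4 * b₁) = 1 / (4 * b₁) * n := by ring
      have := mul_pos hε hn0
      linarith
    have h4 : (0 : ℝ) < 2 ^ (-(n / 8 : ℝ)) := by positivity
    nlinarith [mul_le_mul_of_nonneg_left h3 hz0]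
  · have h0 : IsEmpty {b : Sym2 (Fin n) → Bool // (matZ b).det ≠ 0 ∧ Kill Qs t z (matZ b) ∧
        s ≤ N2 (matZ b) ((n : ℝ) ^ b₁) ((n : ℝ) ^ B)} := by
      rw [isEmpty_subtype]
      rintro b ⟨hdet, -, hN⟩
      apply hsn
      have h5 := N2_le (matZ b) hdet (fun i j => matZ_abs b i j) hn n le_rfl b₁ ((n : ℝ) ^ B) hb
      exact (by exact_mod_cast hN : (s : ℝ) ≤ _).trans h5
    rw [Nat.card_of_isEmpty]
    have : 0 ≤ ∑ m ∈ Icc (n - 0) n, kden m Qs t (z - 0) :=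
      sum_nonneg fun m _ => by unfold kden; positivity
    push_cast
    positivity

/-- **Last row bound** with rate `g` (M8): the event of at least `ε n` primes of corank `≥ 2` costs
`2 ^ (- g n)`. -/
def MRow (b₁ g : ℝ) : Prop := ∀ (ε B : ℝ), 0 < ε → ∃ τ n₀ : ℕ, ∀ n ≥ n₀,
  ∀ Qs : ℕ → Prop, (∀ q, Qs q → 2 ≤ q) → ∀ t z : ℕ,
  (Nat.card {b : Sym2 (Fin n) → Bool // (matZ b).det ≠ 0 ∧ Kill Qs t z (matZ b) ∧
    ε * n ≤ N2 (matZ b) ((n : ℝ) ^ b₁) ((n : ℝ) ^ B)} : ℝ) ≤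
    ((∑ m ∈ Icc (n - τ) n, kden m Qs t (z - τ)) * 2 ^ (-(g * n) + ε * n) +
      2 ^ (-(n / 8 : ℝ))) * 2 ^ Fintype.card (Sym2 (Fin n))

/-- every rate `g` in the last row bound gives part (M) with loss `1 / (4 b₁) - g` -/
theorem stmtM_of_row (b₁ g : ℝ) (hb : 0 < b₁) (h : MRow b₁ g) : StmtM b₁ (1 / (4 * b₁) - g) := by
  intro ε B hε
  obtain ⟨τ, n₀, h⟩ := h ε B hε
  refine ⟨τ, max 2 n₀, fun n hn Qs hQ t z s hs => ?_⟩
  have hn2 : 2 ≤ n := (le_max_left _ _).trans hn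
  have h2 : (0 : ℝ) < 2 ^ Fintype.card (Sym2 (Fin n)) := by positivity
  have hz0 : 0 ≤ ∑ m ∈ Icc (n - τ) n, kden m Qs t (z - τ) :=
    sum_nonneg fun m _ => by unfold kden; positivity
  by_cases hsn : (s : ℝ) ≤ n / (4 * b₁)
  · have h1 : (Nat.card {b : Sym2 (Fin n) → Bool // (matZ b).det ≠ 0 ∧ Kill Qs t z (matZ b) ∧
        s ≤ N2 (matZ b) ((n : ℝ) ^ b₁) ((n : ℝ) ^ B)} : ℝ) ≤
        (Nat.card {b : Sym2 (Fin n) → Bool // (matZ b).det ≠ 0 ∧ Kill Qs t z (matZ b) ∧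
        ε * n ≤ N2 (matZ b) ((n : ℝ) ^ b₁) ((n : ℝ) ^ B)} : ℝ) := by
      exact_mod_cast Nat.card_le_card_of_injective
        (fun b : {b : Sym2 (Fin n) → Bool // (matZ b).det ≠ 0 ∧ Kill Qs t z (matZ b) ∧
          s ≤ N2 (matZ b) ((n : ℝ) ^ b₁) ((n : ℝ) ^ B)} =>
          (⟨b.1, b.2.1, b.2.2.1, hs.trans (by exact_mod_cast b.2.2.2)⟩ :
            {b : Sym2 (Fin n) → Bool // (matZ b).det ≠ 0 ∧ Kill Qs t z (matZ b) ∧
              ε * n ≤ N2 (matZ b) ((n : ℝ) ^ b₁) ((n : ℝ) ^ B)}))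
        (fun b b' h => Subtype.ext (by simpa using h))
    refine h1.trans ((h n ((le_max_right _ _).trans hn) Qs hQ t z).trans ?_)
    refine mul_le_mul_of_nonneg_right (add_le_add ?_ le_rfl) h2.le
    refine mul_le_mul_of_nonneg_left (Real.rpow_le_rpow_of_exponent_le (by norm_num) ?_) hz0
    have : (n : ℝ) / (4 * b₁) = 1 / (4 * b₁) * n := by ring
    nlinarith
  · have h0 : IsEmpty {b : Sym2 (Fin n) → Bool // (matZ b).det ≠ 0 ∧ Kill Qs t z (matZ b) ∧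
        s ≤ N2 (matZ b) ((n : ℝ) ^ b₁) ((n : ℝ) ^ B)} := by
      rw [isEmpty_subtype]
      rintro b ⟨hdet, -, hN⟩
      apply hsn
      have h5 := N2_le (matZ b) hdet (fun i j => matZ_abs b i j) hn2 n le_rfl b₁ ((n : ℝ) ^ B) hb
      exact (by exact_mod_cast hN : (s : ℝ) ≤ _).trans h5
    rw [Nat.card_of_isEmpty]
    push_cast
    positivity

end Vale.Agent.P160.Half.MTop
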