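import Vale.Agent.P160.Half.M8Del
import Vale.Agent.P160.Half.M8Def
import Vale.Agent.P160.Half.MTop

/-!
# P160-HALF, block M8: deterministic inclusion

If all large principal minors are nonzero, a symmetric matrix with many primes of corank at least two
has a principal submatrix on some `T` and an index `i ∉ T` such that the row of `i` kills the nonzero
kernels modulo many primes; the zero event survives with `τ` zeros less.
-/

set_option linter.unusedSectionVars false

namespace Vale.Agent.P160.Half.M8Incl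

open Finset Matrix Vale.Agent.P160.Half.M8Del Vale.Agent.P160.Half.MTop Vale.Agent.P160.Half.HadN

open Classical in
/-- primes `p ∈ [y, Y]` modulo which `b'` has a nonzero kernel vector -/
noncomputable def KP {ι : Type*} [Fintype ι] [DecidableEq ι] (b' : Sym2 ι → Bool) (y Y : ℝ) :
    Finset ℕ :=
  (range (⌊Y⌋₊ + 1)).filter fun p => p.Prime ∧ y ≤ p ∧ ∃ w : ι → ZMod p, w ≠ 0 ∧ smul2 b' w = 0

open Classical in
/-- those for which the row `x` kills the kernel -/
noncomputable def KS {ι : Type*} [Fintype ι] [DecidableEq ι] (b' : Sym2 ι → Bool) (x : ι → Bool)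
    (y Y : ℝ) : Finset ℕ :=
  (KP b' y Y).filter fun p => ∀ w : ι → ZMod p, smul2 b' w = 0 → G.bdot x w = 0

section restr

variable {α : Type*} [Fintype α] [DecidableEq α]

/-- restriction of the bits to a principal submatrix -/
def bT (b : Sym2 α → Bool) (T : Finset α) : Sym2 T → Bool := fun e => b (e.map (fun a : T => (a : α)))

/-- the row of `i` restricted to `T` -/
def rw_ (b : Sym2 α → Bool) (T : Finset α) (i : α) : T → Bool := fun a => b s((a : α), i)

theorem bT_mk (b : Sym2 α → Bool) (T : Finset α) (i j : T) : bT b T s(i, j) = b s((i : α), (j : α)) := rfl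

theorem prin_matZ (b : Sym2 α → Bool) (T : Finset α) : prin (matZ b) T = matZ (bT b T) := by
  ext i j
  rfl

/-- extension by zero -/
def e0 {R : Type*} [Zero R] (T : Finset α) (w : T → R) : α → R := fun a => if h : a ∈ T then w ⟨a, h⟩ else 0

theorem sum_e0 {R : Type*} [CommRing R] (b : Sym2 α → Bool) (T : Finset α) (w : T → R) (i : α) :
    ∑ a, ((matZ b).map (Int.cast : ℤ → R)) i a * e0 T w a = ∑ a : T, if b s(i, (a : α)) then w a else 0 := by
  have h1 : ∀ a, ((matZ b).map (Int.cast : ℤ → R)) i a * e0 T w a =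
      if h : a ∈ T then (if b s(i, a) then w ⟨a, h⟩ else 0) else 0 := by
    intro a
    rw [Matrix.map_apply]
    unfold matZ e0
    split_ifs <;> simp
  rw [sum_congr rfl fun a _ => h1 a]
  have h2 := Finset.sum_coe_sort T (fun a : α => if h : a ∈ T then (if b s(i, a) then w ⟨a, h⟩ else 0) else 0)
  have h3 : ∑ a ∈ T, (if h : a ∈ T then (if b s(i, a) then w ⟨a, h⟩ else 0) else 0) =
      ∑ a, if h : a ∈ T then (if b s(i, a) then w ⟨a, h⟩ else 0) else 0 :=
    sum_subset (subset_univ T) fun a _ ha => dif_neg ha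
  rw [← h3, ← h2]
  exact sum_congr rfl fun a _ => dif_pos a.2

theorem mem_K_e0 {p : ℕ} [Fact p.Prime] (b : Sym2 α → Bool) (T : Finset α) (w : T → ZMod p)
    (h : smul2 (bT b T) w = 0) : e0 T w ∈ K ((matZ b).map (Int.cast : ℤ → ZMod p)) T := by
  refine ⟨fun a ha => dif_neg ha, fun a ha => ?_⟩
  rw [sum_e0]
  exact congrFun h ⟨a, ha⟩

theorem bdot_eq {p : ℕ} (b : Sym2 α → Bool) (T : Finset α) (i : α) (w : T → ZMod p) :
    G.bdot (rw_ b T i) w = ∑ a, ((matZ b).map (Int.cast : ℤ → ZMod p)) i a * e0 T w a := by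
  rw [sum_e0]
  unfold G.bdot rw_
  refine sum_congr rfl fun a _ => ?_
  rw [Sym2.eq_swap]

theorem smul2_restr {p : ℕ} [Fact p.Prime] (b : Sym2 α → Bool) (T : Finset α) (w : α → ZMod p)
    (h : w ∈ K ((matZ b).map (Int.cast : ℤ → ZMod p)) T) : smul2 (bT b T) (fun a : T => w a) = 0 := by
  funext i
  have h1 := h.2 i i.2
  have h2 : e0 T (fun a : T => w a) = w := by
    funext a
    unfold e0
    split_ifs with ha
    · rfl
    · exact (h.1 a ha).symm
  have h3 := sum_e0 (R := ZMod p) b T (fun a : T => w a) i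
  rw [h2, h1] at h3
  exact h3.symm

/-- a prime of the first kind -/
theorem mem_KS {p : ℕ} [hp : Fact p.Prime] (b : Sym2 α → Bool) (T : Finset α) (i : α) (y Y : ℝ)
    (hy : y ≤ p) (hY : (p : ℝ) ≤ Y)
    (hk : Kills ((matZ b).map (Int.cast : ℤ → ZMod p)) T i)
    (hne : K ((matZ b).map (Int.cast : ℤ → ZMod p)) T ≠ ⊥) : p ∈ KS (bT b T) (rw_ b T i) y Y := by
  classical
  unfold KS KP
  rw [mem_filter, mem_filter, mem_range]
  refine ⟨⟨Nat.lt_succ_of_le (Nat.le_floor hY), hp.out, hy, ?_⟩, fun w hw => ?_⟩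
  · obtain ⟨w, hw, hw0⟩ := (Submodule.ne_bot_iff _).1 hne
    refine ⟨fun a : T => w a, ?_, smul2_restr b T w hw⟩
    intro h0
    apply hw0
    funext a
    by_cases ha : a ∈ T
    · exact congrFun h0 ⟨a, ha⟩
    · exact hw.1 a ha
  · rw [bdot_eq]
    exact hk _ (mem_K_e0 b T w hw)

end restr

/-- Hadamard: few primes with large corank -/
theorem card_big_le {n : ℕ} (P : Matrix (Fin n) (Fin n) ℤ) (T : Finset (Fin n)) (c K' : ℕ) (y : ℝ)
    (h1 : ∀ i j, |P i j| ≤ 1) (hy : 1 ≤ y) (hdet : (prin P T).det ≠ 0) (S : Finset ℕ)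
    (hS : ∀ p ∈ S, p.Prime ∧ y ≤ p ∧ (prin (P.map (Int.cast : ℤ → ZMod p)) T).rank + c ≤ T.card)
    (hK : (n : ℝ) ^ n < y ^ (2 * c * (K' + 1))) : S.card ≤ K' := by
  classical
  by_contra hcon
  have hcon : K' + 1 ≤ S.card := by omega
  have hr : rQ (prin P T) = T.card := by
    have h : ((prin P T).map (Int.cast : ℤ → ℚ)).det ≠ 0 := by
      have h2 := RingHom.map_det (Int.castRingHom ℚ) (prin P T)
      have h3 : ((prin P T).map (Int.cast : ℤ → ℚ)).det = ((prin P T).det : ℚ) := by simpa using h2.symm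
      rw [h3]
      exact_mod_cast hdet
    have h4 := Matrix.rank_of_det_ne_zero h
    rw [Fintype.card_coe] at h4
    exact h4
  have h2 := HadN.prod_pow_dvd (prin P T) S (fun p hp => (hS p hp).1) (fun i j => h1 _ _)
  rw [hr] at h2
  have hTn : T.card ≤ n := by simpa using card_le_univ T
  have h3 : y ^ (c * S.card) ≤ ((∏ p ∈ S, p ^ (T.card - rP p (prin P T)) : ℕ) : ℝ) := by
    rw [Nat.cast_prod, pow_mul, ← prod_const]
    refine prod_le_prod (fun _ _ => by positivity) fun p hp => ?_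
    obtain ⟨hp1, hp2, hp3⟩ := hS p hp
    have hp1' : (1 : ℝ) ≤ p := by exact_mod_cast hp1.one_lt.le
    rw [Nat.cast_pow]
    calc y ^ c ≤ (p : ℝ) ^ c := pow_le_pow_left₀ (by linarith) hp2 c
      _ ≤ (p : ℝ) ^ (T.card - rP p (prin P T)) := by
          refine pow_le_pow_right₀ hp1' ?_
          have : rP p (prin P T) = (prin (P.map (Int.cast : ℤ → ZMod p)) T).rank := rfl
          omega
  have h4 : ((∏ p ∈ S, p ^ (T.card - rP p (prin P T)) : ℕ) : ℝ) ^ 2 ≤ (T.card : ℝ) ^ T.card := by
    exact_mod_cast h2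
  have h5 : (T.card : ℝ) ^ T.card ≤ (n : ℝ) ^ n := by
    rcases Nat.eq_zero_or_pos n with h0 | h0
    · have : T.card = 0 := by omega
      rw [this, h0]
    · calc (T.card : ℝ) ^ T.card ≤ (n : ℝ) ^ T.card := pow_le_pow_left₀ (by positivity) (by exact_mod_cast hTn) _
        _ ≤ (n : ℝ) ^ n := pow_le_pow_right₀ (by exact_mod_cast h0) hTn
  have h6 : y ^ (2 * c * (K' + 1)) ≤ y ^ (2 * (c * S.card)) := by
    refine pow_le_pow_right₀ hy ?_
    calc 2 * c * (K' + 1) ≤ 2 * c * S.card := Nat.mul_le_mul_left _ hcon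
      _ = 2 * (c * S.card) := by ring
  have h7 : y ^ (2 * (c * S.card)) = (y ^ (c * S.card)) ^ 2 := by rw [← pow_mul]; ring_nf
  have h8 : (y ^ (c * S.card)) ^ 2 ≤ (n : ℝ) ^ n :=
    (pow_le_pow_left₀ (by positivity) h3 2).trans (h4.trans h5)
  linarith

/-- the chain of index sets -/
def Ts {n : ℕ} (idx : ℕ → Fin n) (r : ℕ) : Finset (Fin n) := univ \ (range r).image idx

theorem Ts_succ {n : ℕ} {idx : ℕ → Fin n} {τ : ℕ} (hinj : Set.InjOn idx (Set.Iio τ)) {r : ℕ} (hr : r < τ) :
    Ts idx r = insert (idx r) (Ts idx (r + 1)) ∧ idx r ∉ Ts idx (r + 1) := by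
  classical
  constructor
  · ext a
    unfold Ts
    simp only [mem_sdiff, mem_univ, true_and, mem_image, mem_range, mem_insert, not_exists, not_and]
    constructor
    · intro h
      by_cases ha : a = idx r
      · exact Or.inl ha
      · refine Or.inr fun s hs => ?_
        rcases Nat.lt_succ_iff_lt_or_eq.1 hs with h1 | h1
        · exact h s h1
        · rw [h1]; exact fun h2 => ha h2.symm
    · rintro (h | h) s hs hsa
      · rw [h] at hsa
        have := hinj (show s ∈ Set.Iio τ from lt_trans hs hr) (show r ∈ Set.Iio τ from hr) hsa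
        omega
      · exact h s (by omega) hsa
  · unfold Ts
    simp only [mem_sdiff, mem_univ, true_and, mem_image, mem_range, not_not]
    exact ⟨r, by omega, rfl⟩

theorem card_Ts {n : ℕ} {idx : ℕ → Fin n} {τ : ℕ} (hinj : Set.InjOn idx (Set.Iio τ)) {r : ℕ} (hr : r ≤ τ) :
    (Ts idx r).card + r = n := by
  classical
  have h1 : ((range r).image idx).card = r := by
    rw [card_image_of_injOn, card_range]
    intro a ha b hb hab
    have ha' : a < r := by simpa using ha
    have hb' : b < r := by simpa using hb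
    exact hinj (show a ∈ Set.Iio τ from lt_of_lt_of_le ha' hr) (show b ∈ Set.Iio τ from lt_of_lt_of_le hb' hr) hab
  unfold Ts
  have h2 := card_sdiff_add_card_eq_card (subset_univ ((range r).image idx))
  rw [h1] at h2
  simpa using h2

/-- the zero event survives -/
theorem kill_restr {n : ℕ} (b : Sym2 (Fin n) → Bool) (Qs : ℕ → Prop) (hQ : ∀ q, Qs q → 2 ≤ q) (t z τ : ℕ)
    (T : Finset (Fin n)) (hT : n ≤ T.card + τ) {q : ℕ} (hq : Qs q) (u : Fin n → ZMod q)
    (ht : t ≤ Nat.card {i // IsUnit (u i)})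
    (hk : (matZ b).map (Int.cast : ℤ → ZMod q) *ᵥ u = 0) (hz : z ≤ Nat.card {i // u i = 0})
    (h0 : ∀ i ∉ T, u i = 0) : Kill Qs t (z - τ) (prin (matZ b) T) := by
  classical
  right
  have hnt : Nontrivial (ZMod q) := by
    have := hQ q hq
    exact ZMod.nontrivial_iff.2 (by omega)
  have hsum : ∀ i : T, ∑ a : T, ((prin (matZ b) T).map (Int.cast : ℤ → ZMod q)) i a * u a =
      ∑ a, ((matZ b).map (Int.cast : ℤ → ZMod q)) i a * u a := by
    intro i
    refine (Finset.sum_coe_sort T (fun a => ((matZ b).map (Int.cast : ℤ → ZMod q)) (i : Fin n) a * u a)).trans ?_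
    refine sum_subset (subset_univ T) fun a _ ha => ?_
    rw [h0 a ha, mul_zero]
  refine ⟨q, hq, fun a : T => u a, ?_, ?_, ?_⟩
  · refine ht.trans (le_of_eq ?_)
    rw [Nat.card_eq_fintype_card, Nat.card_eq_fintype_card, Fintype.card_subtype, Fintype.card_subtype]
    symm
    refine card_bij (fun a _ => (a : Fin n)) (fun a ha => ?_) (fun a _ a' _ h => Subtype.ext h) (fun a ha => ?_)
    · exact mem_filter.2 ⟨mem_univ _, (mem_filter.1 ha).2⟩
    · have ha' := (mem_filter.1 ha).2
      have haT : a ∈ T := by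
        by_contra hcon
        rw [h0 a hcon] at ha'
        exact not_isUnit_zero ha'
      exact ⟨⟨a, haT⟩, mem_filter.2 ⟨mem_univ _, ha'⟩, rfl⟩
  · funext i
    exact (hsum i).trans (congrFun hk i)
  · have h1 : Nat.card {i // u i = 0} = (univ.filter fun i => u i = 0).card := by
      rw [Nat.card_eq_fintype_card, Fintype.card_subtype]
    have h2 : Nat.card {i : T // u i = 0} = (T.filter fun i => u i = 0).card := by
      rw [Nat.card_eq_fintype_card, Fintype.card_subtype]
      refine card_bij (fun a _ => (a : Fin n)) (fun a ha => ?_) (fun a _ a' _ h => Subtype.ext h) (fun a ha => ?_)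
      · exact mem_filter.2 ⟨a.2, (mem_filter.1 ha).2⟩
      · exact ⟨⟨a, (mem_filter.1 ha).1⟩, mem_filter.2 ⟨mem_univ _, (mem_filter.1 ha).2⟩, rfl⟩
    have h3 : (univ.filter fun i => u i = 0).card ≤ (T.filter fun i => u i = 0).card + (univ \ T).card := by
      refine (card_le_card ?_).trans (card_union_le _ _)
      intro i hi
      by_cases hiT : i ∈ T
      · exact mem_union_left _ (mem_filter.2 ⟨hiT, (mem_filter.1 hi).2⟩)
      · exact mem_union_right _ (mem_sdiff.2 ⟨mem_univ _, hiT⟩)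
    have h4 := card_sdiff_add_card_eq_card (subset_univ T)
    rw [card_univ, Fintype.card_fin] at h4
    change z - τ ≤ Nat.card {i : T // u i = 0}
    omega

/-- indices to delete, inside the zero set if there are enough zeros -/
theorem exists_idx {n τ : ℕ} (hτn : τ < n) (S : Finset (Fin n)) (hS : τ ≤ S.card) :
    ∃ idx : ℕ → Fin n, Set.InjOn idx (Set.Iio τ) ∧ ∀ r < τ, idx r ∈ S := by
  classical
  obtain ⟨S', hS', hc⟩ := exists_subset_card_eq hS
  let e : S' ≃ Fin τ := S'.equivFinOfCardEq hc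
  refine ⟨fun r => if h : r < τ then (e.symm ⟨r, h⟩ : Fin n) else ⟨0, by omega⟩, ?_, ?_⟩
  · intro a ha b hb hab
    have ha' : a < τ := ha
    have hb' : b < τ := hb
    dsimp only at hab
    rw [dif_pos ha', dif_pos hb'] at hab
    have h1 := e.symm.injective (Subtype.ext hab)
    exact congrArg Fin.val h1
  · intro r hr
    dsimp only
    rw [dif_pos hr]
    exact hS' (e.symm ⟨r, hr⟩).2

/-- **Inclusion.** -/
theorem incl {n τ : ℕ} (b : Sym2 (Fin n) → Bool) (y Y : ℝ) (Qs : ℕ → Prop) (hQ : ∀ q, Qs q → 2 ≤ q)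
    (t z K' : ℕ) (hτ1 : 1 ≤ τ) (hτn : τ < n) (hy : 1 ≤ y) (hz : Kill Qs t z (matZ b))
    (hdet : ∀ T : Finset (Fin n), T.card + τ = n → (prin (matZ b) T).det ≠ 0)
    (hK : (n : ℝ) ^ n < y ^ (2 * (τ + 2) * (K' + 1))) :
    ∃ (T : Finset (Fin n)) (i : Fin n), i ∉ T ∧ T.card < n ∧ n ≤ T.card + τ ∧
      Kill Qs t (z - τ) (matZ (bT b T)) ∧
      N2 (matZ b) y Y ≤ K' + τ * (KS (bT b T) (rw_ b T i) y Y).card := by
  classical
  -- the indices
  have hidx : ∃ idx : ℕ → Fin n, Set.InjOn idx (Set.Iio τ) ∧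
      ∀ r < τ, Kill Qs t (z - τ) (matZ (bT b (Ts idx (r + 1)))) := by
    rcases Nat.lt_or_ge τ z with hzt | hzt
    · rcases hz with h0 | ⟨q, hq, u, hu, hk, hzc⟩
      · omega
      · have hc : Nat.card {i // u i = 0} = (univ.filter fun i => u i = 0).card := by
          rw [Nat.card_eq_fintype_card, Fintype.card_subtype]
        obtain ⟨idx, hinj, hidx⟩ := exists_idx hτn (univ.filter fun i => u i = 0) (by omega)
        refine ⟨idx, hinj, fun r hr => ?_⟩
        have hcT := card_Ts hinj (show r + 1 ≤ τ by omega)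
        rw [← prin_matZ]
        refine kill_restr b Qs hQ t z τ _ (by omega) hq u hu hk hzc fun i hi => ?_
        unfold Ts at hi
        simp only [mem_sdiff, mem_univ, true_and, not_not, mem_image, mem_range] at hi
        obtain ⟨s, hs, rfl⟩ := hi
        exact (mem_filter.1 (hidx s (by omega))).2
    · obtain ⟨idx, hinj, -⟩ := exists_idx hτn (univ : Finset (Fin n)) (by simpa using hτn.le)
      exact ⟨idx, hinj, fun r _ => Or.inl (by omega)⟩
  obtain ⟨idx, hinj, hzev⟩ := hidx
  -- classification of the primes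
  set S := S2 (matZ b) y Y with hS
  let A : ℕ → Finset ℕ := fun r => KS (bT b (Ts idx (r + 1))) (rw_ b (Ts idx (r + 1)) (idx r)) y Y
  let Bg : Finset ℕ := S.filter fun p =>
    (prin ((matZ b).map (Int.cast : ℤ → ZMod p)) (Ts idx τ)).rank + (τ + 2) ≤ (Ts idx τ).card
  have hsub : S ⊆ Bg ∪ (range τ).biUnion A := by
    intro p hp
    have hp' := hp
    rw [hS] at hp'
    unfold S2 at hp'
    obtain ⟨hpY, hpp, hpy, hc2⟩ := mem_filter.1 hp'
    have hfact : Fact p.Prime := ⟨hpp⟩
    have hY : (p : ℝ) ≤ Y := by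
      have h1 : p ≤ ⌊Y⌋₊ := Nat.lt_succ_iff.1 (mem_range.1 hpY)
      have h2 : ⌊Y⌋₊ ≠ 0 := by
        intro h0
        rw [h0] at h1
        exact hpp.ne_zero (by omega)
      exact (Nat.le_floor_iff' hpp.ne_zero).1 h1
    have hsym : ∀ i j, ((matZ b).map (Int.cast : ℤ → ZMod p)) i j =
        ((matZ b).map (Int.cast : ℤ → ZMod p)) j i := by
      intro i j
      rw [Matrix.map_apply, Matrix.map_apply, matZ_symm]
    have h0 : 2 ≤ Module.finrank (ZMod p) (K ((matZ b).map (Int.cast : ℤ → ZMod p)) (Ts idx 0)) := by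
      have h1 := finrank_K ((matZ b).map (Int.cast : ℤ → ZMod p)) (Ts idx 0)
      have h2 : (prin ((matZ b).map (Int.cast : ℤ → ZMod p)) (Ts idx 0)).rank ≤ rP p (matZ b) :=
        Matrix.rank_submatrix_le ((matZ b).map (Int.cast : ℤ → ZMod p)) _ _
      have h3 := card_Ts hinj (Nat.zero_le τ)
      unfold crk at hc2
      rw [Fintype.card_fin] at hc2
      omega
    rcases chain hsym (Ts idx) idx τ (fun r hr => (Ts_succ hinj hr).1) (fun r hr => (Ts_succ hinj hr).2)
      h0 with ⟨r, hr, hk, hne⟩ | hbig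
    · exact mem_union_right _ (mem_biUnion.2 ⟨r, mem_range.2 hr, mem_KS b _ _ y Y hpy hY hk hne⟩)
    · refine mem_union_left _ (mem_filter.2 ⟨hp, ?_⟩)
      have h1 := finrank_K ((matZ b).map (Int.cast : ℤ → ZMod p)) (Ts idx τ)
      omega
  have hBg : Bg.card ≤ K' := by
    refine card_big_le (matZ b) (Ts idx τ) (τ + 2) K' y (matZ_abs b) hy
      (hdet _ (card_Ts hinj le_rfl)) Bg (fun p hp => ?_) hK
    obtain ⟨hp1, hp2⟩ := mem_filter.1 hp
    rw [hS] at hp1
    unfold S2 at hp1
    obtain ⟨-, hpp, hpy, -⟩ := mem_filter.1 hp1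
    exact ⟨hpp, hpy, hp2⟩
  obtain ⟨r, hr, hmax⟩ := exists_max_image (range τ) (fun r => (A r).card) ⟨0, mem_range.2 (by omega)⟩
  have hr' := mem_range.1 hr
  have hcT := card_Ts hinj (show r + 1 ≤ τ by omega)
  refine ⟨Ts idx (r + 1), idx r, (Ts_succ hinj hr').2, by omega, by omega, hzev r hr', ?_⟩
  have h1 : S.card ≤ Bg.card + ((range τ).biUnion A).card :=
    (card_le_card hsub).trans (card_union_le _ _)
  have h2 : ((range τ).biUnion A).card ≤ τ * (A r).card := by
    refine card_biUnion_le.trans ?_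
    calc ∑ s ∈ range τ, (A s).card ≤ ∑ _s ∈ range τ, (A r).card := sum_le_sum fun s hs => hmax s hs
      _ = τ * (A r).card := by rw [sum_const, card_range, smul_eq_mul]
  have h3 : N2 (matZ b) y Y = S.card := rfl
  rw [h3]
  exact h1.trans (add_le_add hBg h2)

end Vale.Agent.P160.Half.M8Incl
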