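import Vale.Agent.P160.Half.RowR471
import Vale.Agent.P160.Half.M8Incl

/-!
(R) of note 11242 in terms of `M8Incl.KS`, and the Chernoff branch of the one-row threshold:
`b = 1.99`, `g = .0622`.
-/

namespace Vale.Agent.P160.Half.RowKS471

open Finset Filter Topology Vale.Agent.P160.Half.M8Incl

/-- the numerics of the threshold: with `z = 3.86`, `b >= 1.99`, `g = .0622`,
`(1 + z 2^(-2b))^(1/2b) <= ((1+z)/2)^g`. -/
theorem num {b : ℝ} (hb : 199 / 100 ≤ b) :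
    (1 + (193 / 50 : ℝ) * (2 : ℝ) ^ (-(2 * b))) ^ (1 / (2 * b)) ≤ (243 / 100 : ℝ) ^ (622 / 10000 : ℝ) := by
  have hq : (2 : ℝ) ^ (-(2 * b)) ≤ 1014 / 16000 := by
    have h1 : (2 : ℝ) ^ (-(2 * b)) ≤ (2 : ℝ) ^ (-(398 / 100) : ℝ) :=
      Real.rpow_le_rpow_of_exponent_le (by norm_num) (by linarith)
    have h2 : (2 : ℝ) ^ (-(398 / 100) : ℝ) = (2 : ℝ) ^ (1 / 50 : ℝ) / 16 := by
      rw [show (-(398 / 100) : ℝ) = 1 / 50 - 4 by norm_num, Real.rpow_sub (by norm_num)]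
      congr 1
      rw [show (4 : ℝ) = ((4 : ℕ) : ℝ) by norm_num, Real.rpow_natCast]; norm_num
    have h3 : (2 : ℝ) ^ (1 / 50 : ℝ) ≤ 1014 / 1000 := by
      have h4 : (2 : ℝ) ≤ (1014 / 1000 : ℝ) ^ (50 : ℕ) := by norm_num
      calc (2 : ℝ) ^ (1 / 50 : ℝ) ≤ ((1014 / 1000 : ℝ) ^ (50 : ℕ)) ^ (1 / 50 : ℝ) :=
            Real.rpow_le_rpow (by norm_num) h4 (by norm_num)
        _ = 1014 / 1000 := by
            rw [← Real.rpow_natCast, ← Real.rpow_mul (by norm_num)]; norm_num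
    rw [h2] at h1
    linarith
  have hq0 : (0 : ℝ) < (2 : ℝ) ^ (-(2 * b)) := by positivity
  have h5 : 1 + (193 / 50 : ℝ) * (2 : ℝ) ^ (-(2 * b)) ≤ 12447 / 10000 := by linarith
  have h6 : (1 + (193 / 50 : ℝ) * (2 : ℝ) ^ (-(2 * b))) ^ (1 / (2 * b))
      ≤ (12447 / 10000 : ℝ) ^ (1 / (2 * b)) :=
    Real.rpow_le_rpow (by positivity) h5 (by positivity)
  have h7 : (12447 / 10000 : ℝ) ^ (1 / (2 * b)) ≤ (12447 / 10000 : ℝ) ^ (100 / 398 : ℝ) := by
    refine Real.rpow_le_rpow_of_exponent_le (by norm_num) ?_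
    rw [div_le_div_iff₀ (by linarith) (by norm_num)]
    linarith
  have h8 : (12447 / 10000 : ℝ) ≤ (243 / 100 : ℝ) ^ (24 / 97 : ℝ) := by
    have h9 : (12447 / 10000 : ℝ) ^ (97 : ℕ) ≤ (243 / 100 : ℝ) ^ (24 : ℕ) := by norm_num
    calc (12447 / 10000 : ℝ) = ((12447 / 10000 : ℝ) ^ (97 : ℕ)) ^ (1 / 97 : ℝ) := by
          rw [← Real.rpow_natCast, ← Real.rpow_mul (by norm_num)]; norm_num
      _ ≤ ((243 / 100 : ℝ) ^ (24 : ℕ)) ^ (1 / 97 : ℝ) :=
          Real.rpow_le_rpow (by positivity) h9 (by norm_num)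
      _ = (243 / 100 : ℝ) ^ (24 / 97 : ℝ) := by
          rw [← Real.rpow_natCast, ← Real.rpow_mul (by norm_num)]; norm_num
  calc (1 + (193 / 50 : ℝ) * (2 : ℝ) ^ (-(2 * b))) ^ (1 / (2 * b))
      ≤ (12447 / 10000 : ℝ) ^ (100 / 398 : ℝ) := h6.trans h7
    _ ≤ ((243 / 100 : ℝ) ^ (24 / 97 : ℝ)) ^ (100 / 398 : ℝ) :=
        Real.rpow_le_rpow (by norm_num) h8 (by norm_num)
    _ = (243 / 100 : ℝ) ^ (24 / 97 * (100 / 398) : ℝ) := by
        rw [← Real.rpow_mul (by norm_num)]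
    _ ≤ (243 / 100 : ℝ) ^ (622 / 10000 : ℝ) :=
        Real.rpow_le_rpow_of_exponent_le (by norm_num) (by norm_num)

/-- the Chernoff branch, real-number step. -/
theorem branch {b d X : ℝ} (hb : 199 / 100 ≤ b) {m s : ℕ} (hs : 622 / 10000 * (m : ℝ) ≤ s)
    (h : X * (1 + (193 / 50 : ℝ)) ^ s ≤ (2 : ℝ) ^ m *
      (1 + (193 / 50 : ℝ) * (2 : ℝ) ^ (-(2 * b))) ^ ((m : ℝ) / (2 * b)) * (2 : ℝ) ^ (d * m)) :
    X ≤ (2 : ℝ) ^ m * (2 : ℝ) ^ (-(s : ℝ) + d * m) := by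
  have hq0 : (0 : ℝ) < (2 : ℝ) ^ (-(2 * b)) := by positivity
  have h1 : (1 + (193 / 50 : ℝ) * (2 : ℝ) ^ (-(2 * b))) ^ ((m : ℝ) / (2 * b))
      ≤ (243 / 100 : ℝ) ^ (s : ℕ) := by
    calc (1 + (193 / 50 : ℝ) * (2 : ℝ) ^ (-(2 * b))) ^ ((m : ℝ) / (2 * b))
        = ((1 + (193 / 50 : ℝ) * (2 : ℝ) ^ (-(2 * b))) ^ (1 / (2 * b))) ^ (m : ℝ) := by
          rw [← Real.rpow_mul (by positivity)]; congr 1; ring
      _ ≤ ((243 / 100 : ℝ) ^ (622 / 10000 : ℝ)) ^ (m : ℝ) :=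
          Real.rpow_le_rpow (by positivity) (num hb) (by positivity)
      _ = (243 / 100 : ℝ) ^ (622 / 10000 * (m : ℝ)) := by rw [← Real.rpow_mul (by norm_num)]
      _ ≤ (243 / 100 : ℝ) ^ (s : ℝ) := Real.rpow_le_rpow_of_exponent_le (by norm_num) hs
      _ = _ := Real.rpow_natCast _ _
  have h2 : X * (1 + (193 / 50 : ℝ)) ^ s
      ≤ ((2 : ℝ) ^ m * (2 : ℝ) ^ (-(s : ℝ) + d * m)) * (1 + (193 / 50 : ℝ)) ^ s := by
    refine h.trans ?_
    calc (2 : ℝ) ^ m * (1 + (193 / 50 : ℝ) * (2 : ℝ) ^ (-(2 * b))) ^ ((m : ℝ) / (2 * b))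
          * (2 : ℝ) ^ (d * m)
        ≤ (2 : ℝ) ^ m * (243 / 100 : ℝ) ^ s * (2 : ℝ) ^ (d * m) := by
          gcongr
      _ = ((2 : ℝ) ^ m * (2 : ℝ) ^ (-(s : ℝ) + d * m)) * (1 + (193 / 50 : ℝ)) ^ s := by
          rw [Real.rpow_add (by norm_num), Real.rpow_neg (by norm_num), Real.rpow_natCast,
            show (1 + (193 / 50 : ℝ)) = 2 * (243 / 100) by norm_num, mul_pow]
          field_simp
  exact le_of_mul_le_mul_right h2 (by positivity)

/-- (R) in terms of `KS`. -/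
theorem ks_asym {b z d : ℝ} (hb : 0 < b) (hz : 0 ≤ z) (hd : 0 < d) :
    ∃ m0 : ℕ, ∀ (ι : Type) [Fintype ι] [DecidableEq ι], m0 ≤ Fintype.card ι →
      ∀ b' : Sym2 ι → Bool, (matZ b').det ≠ 0 → ∀ y Y : ℝ, (Fintype.card ι : ℝ) ^ b ≤ y →
      ∀ s : ℕ,
      (Nat.card {x : ι → Bool // s ≤ (KS b' x y Y).card} : ℝ) * (1 + z) ^ s
        ≤ (2 : ℝ) ^ (Fintype.card ι) *
          (1 + z * (2 : ℝ) ^ (-(2 * b))) ^ ((Fintype.card ι : ℝ) / (2 * b))
            * (2 : ℝ) ^ (d * Fintype.card ι) := by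
  classical
  obtain ⟨m0, hm0⟩ := RowR471.row_asym hb hz hd
  refine ⟨m0, fun ι _ _ hm b' hdet y Y hy s => ?_⟩
  set m := Fintype.card ι with hmdef
  let e : ι ≃ Fin m := Fintype.equivFin ι
  let A : Matrix (Fin m) (Fin m) ℤ := (matZ b').submatrix e.symm e.symm
  have hAdet : A.det ≠ 0 := by
    have : A.det = (matZ b').det := Matrix.det_submatrix_equiv_self _ _
    rw [this]; exact hdet
  have hA1 : ∀ i c, |A i c| ≤ 1 := by
    intro i c
    simp only [A, Matrix.submatrix_apply, matZ]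
    split_ifs <;> simp
  -- the primes
  let S : Finset ℕ := KP b' y Y
  have hSm : ∀ p ∈ S, p.Prime ∧ y ≤ p ∧ ∃ w : ι → ZMod p, w ≠ 0 ∧ smul2 b' w = 0 := by
    intro p hp
    exact (mem_filter.1 hp).2
  have hw : ∀ p : ℕ, ∃ w : ι → ZMod p, p ∈ S → (w ≠ 0 ∧ smul2 b' w = 0) := by
    intro p
    by_cases hp : p ∈ S
    · obtain ⟨_, _, w, h⟩ := hSm p hp
      exact ⟨w, fun _ => h⟩
    · exact ⟨0, fun h => absurd h hp⟩
  choose w hw' using hw
  let W : ∀ p : ℕ, Fin m → ZMod p := fun p c => w p (e.symm c)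
  -- the rows
  let f : (ι → Bool) → (Fin m → ℤ) := fun x c => if x (e.symm c) then 1 else 0
  have hf : Function.Injective f := by
    intro x x' h
    funext i
    have h1 : (if x i then (1 : ℤ) else 0) = if x' i then 1 else 0 := by
      have h2 := congrFun h (e i)
      simpa only [f, Equiv.symm_apply_apply] using h2
    clear h
    revert h1
    cases x i <;> cases x' i <;> decide
  let T : Finset (Fin m → ℤ) := ((univ : Finset (ι → Bool)).filter fun x =>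
    s ≤ (KS b' x y Y).card).image f
  have hTcard : T.card = Nat.card {x : ι → Bool // s ≤ (KS b' x y Y).card} := by
    rw [card_image_of_injective _ hf, Nat.card_eq_fintype_card, Fintype.card_subtype]
  have hval : ∀ (x : ι → Bool) (p : ℕ), ∑ c, ((f x c : ℤ) : ZMod p) * W p c = G.bdot x (w p) := by
    intro x p
    unfold G.bdot
    rw [← Equiv.sum_comp e.symm]
    refine sum_congr rfl fun c _ => ?_
    simp only [f, W]
    split_ifs <;> simp
  have key := hm0 m hm A hAdet hA1 S (fun p hp => (hSm p hp).1)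
    (fun p hp => hy.trans (hSm p hp).2.1) W
    (fun p hp h0 => (hw' p hp).1 (by
      funext i
      have := congrFun h0 (e i)
      simpa [W] using this))
    (fun p hp i => by
      have h1 := congrFun (hw' p hp).2 (e.symm i)
      unfold smul2 at h1
      rw [← Equiv.sum_comp e.symm] at h1
      simp only [Pi.zero_apply] at h1
      rw [← h1]
      refine sum_congr rfl fun c _ => ?_
      simp only [A, W, Matrix.submatrix_apply, matZ]
      split_ifs <;> simp)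
    (fun _ => 0) T
    (by
      intro v hv c
      obtain ⟨x, _, rfl⟩ := mem_image.1 hv
      simp only [f]
      split_ifs <;> simp)
    s
    (by
      intro v hv
      obtain ⟨x, hx, rfl⟩ := mem_image.1 hv
      have hx2 := (mem_filter.1 hx).2
      refine hx2.trans (card_le_card ?_)
      intro p hp
      have hp2 := mem_filter.1 hp
      rw [mem_filter]
      refine ⟨hp2.1, ?_⟩
      rw [hval]
      exact hp2.2 _ (hw' p hp2.1).2)
  rw [hTcard] at key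
  exact key

/-- the Chernoff branch of the one-row bound: `b1 >= 1.99`, `s >= .0622 m`. -/
theorem ks_branch {b d : ℝ} (hb : 199 / 100 ≤ b) (hd : 0 < d) :
    ∃ m0 : ℕ, ∀ (ι : Type) [Fintype ι] [DecidableEq ι], m0 ≤ Fintype.card ι →
      ∀ b' : Sym2 ι → Bool, (matZ b').det ≠ 0 → ∀ y Y : ℝ, (Fintype.card ι : ℝ) ^ b ≤ y →
      ∀ s : ℕ, 622 / 10000 * (Fintype.card ι : ℝ) ≤ s →
      (Nat.card {x : ι → Bool // s ≤ (KS b' x y Y).card} : ℝ)
        ≤ (2 : ℝ) ^ (Fintype.card ι) * (2 : ℝ) ^ (-(s : ℝ) + d * Fintype.card ι) := by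
  obtain ⟨m0, hm0⟩ := ks_asym (b := b) (z := 193 / 50) (by linarith) (by norm_num) hd
  refine ⟨m0, fun ι _ _ hm b' hdet y Y hy s hs => ?_⟩
  exact branch hb hs (hm0 ι hm b' hdet y Y hy s)

end Vale.Agent.P160.Half.RowKS471
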