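import Vale.Agent.P160.Half.M8Asy
import Vale.Agent.P160.Half.M8NG
import Vale.Agent.P160.Half.SgnRed
import Vale.Agent.P160.Half.RowKS471
import Vale.Agent.P160.Half.MProdDef358
import Vale.Agent.P160.ST12

/-!
# P160-HALF, part (M): the one-row hypothesis

Input: `NotGoodStmt` and `StmtXi`; output: `MProd.RowHyp b₁`.
-/

set_option linter.unusedSectionVars false

namespace Vale.Agent.P160.Half.RowHyp537

open Finset Matrix Filter Vale.Agent.P160 Vale.Agent.P160.Half Vale.Agent.P160.Half.M8Incl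
  Vale.Agent.P160.Half.M8Asy Vale.Agent.P160.Half.MTop Vale.Agent.P160.Half.M8

/-- singular symmetric 0/1 matrices -/
theorem sing_le (κ : ℝ) (hκ0 : 0 ≤ κ) (hκ : κ < 1 / 2) : ∃ n₀ : ℕ, ∀ n : ℕ, n₀ ≤ n →
    (Nat.card {b : Sym2 (Fin n) → Bool // (matZ b).det = 0} : ℝ) ≤
      (2 : ℝ) ^ (-(κ * n)) * 2 ^ Fintype.card (Sym2 (Fin n)) := by
  classical
  have hlam : 1 / Real.sqrt 2 < (2 : ℝ) ^ (-κ) := by
    have h1 : 1 / Real.sqrt 2 = (2 : ℝ) ^ (-(1 / 2 : ℝ)) := by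
      rw [Real.rpow_neg (by norm_num), Real.sqrt_eq_rpow, one_div]
    rw [h1]
    exact Real.rpow_lt_rpow_of_exponent_lt (by norm_num) (by linarith)
  obtain ⟨n₀, h⟩ := eventually_atTop.1 (eventually_le6 hlam)
  refine ⟨n₀, fun n hn => ?_⟩
  have h1 := h (n + 1) (by omega)
  have h2 := SgnRed.prob_sgM n
  have h3 : Pb (fun b : Sym2 (Fin (n + 1)) → Bool => (signM b).det = 0) =
      ((univ.filter fun b : Sym2 (Fin (n + 1)) → Bool => (SgnRed.sgM b).det = 0).card : ℝ) /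
        2 ^ Fintype.card (Sym2 (Fin (n + 1))) := by
    unfold Pb
    congr!
  rw [h3, h2, div_le_iff₀ (by positivity)] at h1
  have h4 : Nat.card {b : Sym2 (Fin n) → Bool // (matZ b).det = 0} =
      (univ.filter fun c : Sym2 (Fin n) → Bool => (matZ c).det = 0).card := by
    rw [Nat.card_eq_fintype_card, Fintype.card_subtype]
  rw [h4]
  refine h1.trans (mul_le_mul_of_nonneg_right ?_ (by positivity))
  rw [← Real.rpow_natCast, ← Real.rpow_mul (by norm_num)]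
  refine Real.rpow_le_rpow_of_exponent_le (by norm_num) ?_
  push_cast
  nlinarith

theorem matZ_relab {α β : Type*} (e : α ≃ β) (b : Sym2 α → Bool) :
    matZ (relab e b) = (matZ b).submatrix e.symm e.symm := by
  ext i j
  rfl

/-- the same on every index type -/
theorem sing_le' {α : Type*} [Fintype α] [DecidableEq α] (κ : ℝ) (n : ℕ) (hα : Fintype.card α = n)
    (h : (Nat.card {b : Sym2 (Fin n) → Bool // (matZ b).det = 0} : ℝ) ≤
      (2 : ℝ) ^ (-(κ * n)) * 2 ^ Fintype.card (Sym2 (Fin n))) :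
    (Nat.card {b : Sym2 α → Bool // (matZ b).det = 0} : ℝ) ≤
      (2 : ℝ) ^ (-(κ * n)) * 2 ^ Fintype.card (Sym2 α) := by
  classical
  subst hα
  let e : α ≃ Fin (Fintype.card α) := Fintype.equivFin α
  have h1 : Fintype.card (Sym2 α) = Fintype.card (Sym2 (Fin (Fintype.card α))) :=
    Fintype.card_congr (s2e e)
  have h2 : Nat.card {b : Sym2 α → Bool // (matZ b).det = 0} =
      Nat.card {b : Sym2 (Fin (Fintype.card α)) → Bool // (matZ b).det = 0} := by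
    refine Nat.card_congr ((relab e).subtypeEquiv fun b => ?_)
    rw [matZ_relab, Matrix.det_submatrix_equiv_self]
  rw [h2, h1]
  exact h

theorem card_le_add {Ω : Type*} [Fintype Ω] (P Q1 Q2 : Ω → Prop) (h : ∀ ω, P ω → Q1 ω ∨ Q2 ω) :
    (Nat.card {ω // P ω} : ℝ) ≤ (Nat.card {ω // Q1 ω} : ℝ) + (Nat.card {ω // Q2 ω} : ℝ) := by
  classical
  have h2 : ∀ R : Ω → Prop, Nat.card {ω // R ω} = (univ.filter R).card := by
    intro R
    rw [Nat.card_eq_fintype_card, Fintype.card_subtype]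
  rw [h2, h2, h2]
  have h1 : (univ.filter P).card ≤ (univ.filter Q1).card + (univ.filter Q2).card := by
    refine (card_le_card ?_).trans (card_union_le _ _)
    intro ω hω
    rcases h ω (mem_filter.1 hω).2 with h | h
    · exact mem_union_left _ (mem_filter.2 ⟨mem_univ _, h⟩)
    · exact mem_union_right _ (mem_filter.2 ⟨mem_univ _, h⟩)
  exact_mod_cast h1

/-- the window at size `m` -/
def Win (b₁ g B' : ℝ) (m N : ℕ) : Prop :=
  Squarefree N ∧ (∀ p, p.Prime → p ∣ N → (m : ℝ) ^ b₁ ≤ p ∧ (p : ℝ) ≤ (m : ℝ) ^ B') ∧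
    (2 : ℝ) ^ (g * m) ≤ N ∧ (N : ℝ) ≤ (2 : ℝ) ^ (g * m) * (m : ℝ) ^ B'

/-- good blocks -/
def Gd (b₁ g B' : ℝ) (ι : Type) [Fintype ι] [DecidableEq ι] (b' : Sym2 ι → Bool) : Prop :=
  (matZ b').det ≠ 0 ∧ ∀ N : ℕ, Win b₁ g B' (Fintype.card ι) N → GoodSym N b'

/-- the one-row hypothesis with exception rate `κ` -/
def RowHypK (b₁ κ : ℝ) : Prop := ∀ (δ B : ℝ) (τ : ℕ), 0 < δ →
  ∃ (Gd : ℕ → ∀ (ι : Type) [Fintype ι] [DecidableEq ι], (Sym2 ι → Bool) → Prop) (n₀ : ℕ),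
    ∀ n ≥ n₀, ∀ (ι : Type) [Fintype ι] [DecidableEq ι], n ≤ Fintype.card ι + τ → Fintype.card ι < n →
      (∀ b' : Sym2 ι → Bool, Gd n ι b' → (matZ b').det ≠ 0 ∧ ∀ s : ℕ,
        (Nat.card {x : ι → Bool // s ≤ (KS b' x ((n : ℝ) ^ b₁) ((n : ℝ) ^ B)).card} : ℝ) ≤
          2 ^ (-(s : ℝ) + δ * n) * 2 ^ Fintype.card ι) ∧
      (Nat.card {b' : Sym2 ι → Bool // ¬ Gd n ι b'} : ℝ) ≤
        2 ^ (-(κ * n)) * 2 ^ Fintype.card (Sym2 ι)

/-- **flat branch** -/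
theorem flat {b₁ g B' δ : ℝ} (hb : 1 ≤ b₁) (hg : 0 < g) {n : ℕ} {B : ℝ} {ι : Type}
    [Fintype ι] [DecidableEq ι] (h2 : 2 ≤ Fintype.card ι) (hm : Fintype.card ι < n)
    (hB : (n : ℝ) ^ B ≤ (Fintype.card ι : ℝ) ^ B')
    (b' : Sym2 ι → Bool) (hG : Gd b₁ g B' ι b') (t : ℕ)
    (ht1 : (2 : ℝ) ^ (g * (Fintype.card ι : ℝ)) ≤ (((Fintype.card ι : ℝ)) ^ b₁) ^ t)
    (ht3 : ((∑ j ∈ range (t + 1), (Fintype.card ι).choose j : ℕ) : ℝ) ≤
      (2 : ℝ) ^ (δ / 2 * (Fintype.card ι : ℝ)))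
    (ht2 : (t : ℝ) ≤ δ * Fintype.card ι) (hn : 4 ≤ δ * n)
    (s : ℕ) (hs : (s : ℝ) ≤ g * Fintype.card ι) (hδ : 0 < δ) :
    (Nat.card {x : ι → Bool // s ≤ (KS b' x ((n : ℝ) ^ b₁) ((n : ℝ) ^ B)).card} : ℝ) ≤
      2 ^ (-(s : ℝ) + δ * n) * 2 ^ Fintype.card ι := by
  classical
  set m := Fintype.card ι with hmdef
  have hm1 : (1 : ℝ) ≤ m := by exact_mod_cast (by omega : 1 ≤ m)
  have hmn : (m : ℝ) ≤ n := by exact_mod_cast hm.le
  have hn1 : (1 : ℝ) ≤ n := hm1.trans hmn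
  rcases Nat.lt_or_ge t s with hts | hts
  · -- use the row count
    have hmono : (Nat.card {x : ι → Bool // s ≤ (KS b' x ((n : ℝ) ^ b₁) ((n : ℝ) ^ B)).card} : ℝ) ≤
        (Nat.card {x : ι → Bool // t ≤ (KS b' x ((n : ℝ) ^ b₁) ((n : ℝ) ^ B)).card} : ℝ) := by
      exact_mod_cast Nat.card_le_card_of_injective
        (fun x : {x : ι → Bool // s ≤ (KS b' x ((n : ℝ) ^ b₁) ((n : ℝ) ^ B)).card} =>
          (⟨x.1, hts.le.trans x.2⟩ :
            {x : ι → Bool // t ≤ (KS b' x ((n : ℝ) ^ b₁) ((n : ℝ) ^ B)).card}))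
        (fun x x' h => Subtype.ext (by simpa using h))
    have hKP : ∀ p ∈ KP b' ((n : ℝ) ^ b₁) ((n : ℝ) ^ B), p.Prime ∧ (n : ℝ) ^ b₁ ≤ p ∧
        (p : ℝ) ≤ (n : ℝ) ^ B ∧ ∃ w : ι → ZMod p, w ≠ 0 ∧ smul2 b' w = 0 := by
      intro p hp
      unfold KP at hp
      obtain ⟨h1, h2, h3, h4⟩ := mem_filter.1 hp
      refine ⟨h2, h3, ?_, h4⟩
      have h5 : p ≤ ⌊(n : ℝ) ^ B⌋₊ := Nat.lt_succ_iff.1 (mem_range.1 h1)
      exact (Nat.le_floor_iff' h2.ne_zero).1 h5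
    have hmb : (m : ℝ) ^ b₁ ≤ (n : ℝ) ^ b₁ := Real.rpow_le_rpow (by positivity) hmn (by linarith)
    have hmb1 : (1 : ℝ) ≤ (m : ℝ) ^ b₁ := Real.one_le_rpow hm1 (by linarith)
    have hlo : (1 : ℝ) < (2 : ℝ) ^ (g * m) := by
      apply Real.one_lt_rpow (by norm_num)
      positivity
    have h := M8Row.row_count b' (KP b' ((n : ℝ) ^ b₁) ((n : ℝ) ^ B)) (fun p hp => (hKP p hp).1)
      (fun p hp => (hKP p hp).2.2.2) ((2 : ℝ) ^ (g * m)) ((m : ℝ) ^ b₁) ((m : ℝ) ^ B') t hlo hmb1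
      (fun p hp => ⟨hmb.trans (hKP p hp).2.1, (hKP p hp).2.2.1.trans hB⟩) ht1
      (fun N hN1 hN2 hN3 hN4 => hG.2 N ⟨hN1, fun p hp hpN =>
        ⟨hmb.trans (hKP p (hN2 p hp hpN)).2.1, (hKP p (hN2 p hp hpN)).2.2.1.trans hB⟩, hN3, hN4⟩)
    have hKS : ∀ x : ι → Bool, KS b' x ((n : ℝ) ^ b₁) ((n : ℝ) ^ B) =
        (KP b' ((n : ℝ) ^ b₁) ((n : ℝ) ^ B)).filter (fun p => ∀ w : ι → ZMod p, smul2 b' w = 0 →
          G.bdot x w = 0) := by
      intro x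
      unfold KS
      congr!
    have h' : (Nat.card {x : ι → Bool // t ≤ (KS b' x ((n : ℝ) ^ b₁) ((n : ℝ) ^ B)).card} : ℝ) ≤
        ((∑ j ∈ range (t + 1), (KP b' ((n : ℝ) ^ b₁) ((n : ℝ) ^ B)).card.choose j : ℕ) : ℝ) *
          (4 / (2 : ℝ) ^ (g * m) * 2 ^ m) := by
      refine le_trans (le_of_eq ?_) h
      congr!
    have hcard : (KP b' ((n : ℝ) ^ b₁) ((n : ℝ) ^ B)).card ≤ m := by
      refine card_KP_le b' hG.1 _ _ ?_ h2
      calc (m : ℝ) ≤ n := hmn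
        _ = (n : ℝ) ^ (1 : ℝ) := (Real.rpow_one _).symm
        _ ≤ (n : ℝ) ^ b₁ := Real.rpow_le_rpow_of_exponent_le hn1 hb
    have hsum : ((∑ j ∈ range (t + 1), (KP b' ((n : ℝ) ^ b₁) ((n : ℝ) ^ B)).card.choose j : ℕ) : ℝ) ≤
        ((∑ j ∈ range (t + 1), m.choose j : ℕ) : ℝ) := by
      exact_mod_cast sum_le_sum fun j _ => Nat.choose_le_choose j hcard
    refine hmono.trans (h'.trans ?_)
    calc ((∑ j ∈ range (t + 1), (KP b' ((n : ℝ) ^ b₁) ((n : ℝ) ^ B)).card.choose j : ℕ) : ℝ) *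
          (4 / (2 : ℝ) ^ (g * m) * 2 ^ m) ≤ (2 : ℝ) ^ (δ / 2 * (m : ℝ)) * (4 / (2 : ℝ) ^ (g * m) * 2 ^ m) :=
          mul_le_mul_of_nonneg_right (hsum.trans ht3) (by positivity)
      _ = (2 : ℝ) ^ (δ / 2 * m + (2 - g * m)) * 2 ^ m := by
          rw [Real.rpow_add (by norm_num), Real.rpow_sub (by norm_num)]
          norm_num
          ring
      _ ≤ 2 ^ (-(s : ℝ) + δ * n) * 2 ^ m := by
          refine mul_le_mul_of_nonneg_right (Real.rpow_le_rpow_of_exponent_le (by norm_num) ?_)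
            (by positivity)
          have : δ / 2 * m ≤ δ / 2 * n := mul_le_mul_of_nonneg_left hmn (by positivity)
          linarith
  · -- trivial
    have h1 : (Nat.card {x : ι → Bool // s ≤ (KS b' x ((n : ℝ) ^ b₁) ((n : ℝ) ^ B)).card} : ℝ) ≤
        2 ^ m := by
      have h := Nat.card_le_card_of_injective
        (fun x : {x : ι → Bool // s ≤ (KS b' x ((n : ℝ) ^ b₁) ((n : ℝ) ^ B)).card} => x.1)
        Subtype.val_injective
      rw [Nat.card_eq_fintype_card (α := ι → Bool), Fintype.card_fun, Fintype.card_bool] at h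
      exact_mod_cast h
    refine h1.trans ?_
    have h2 : (1 : ℝ) ≤ 2 ^ (-(s : ℝ) + δ * n) := by
      apply Real.one_le_rpow (by norm_num)
      have h3 : (s : ℝ) ≤ t := by exact_mod_cast hts
      have h4 : δ * m ≤ δ * n := mul_le_mul_of_nonneg_left hmn hδ.le
      linarith
    nlinarith [show (0 : ℝ) < 2 ^ m by positivity]

/-- **The one-row hypothesis.** -/
theorem rowHypK (hNG : NotGoodStmt) (b₁ κ : ℝ) (hb : 199 / 100 ≤ b₁) (hκ0 : 0 ≤ κ) (hκ : κ < 1 / 2)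
    (hXi : ∀ B : ℝ, ∃ c d : ℝ, 0 < c ∧ 0 < d ∧ κ < c / 2 - 622 / 10000 - d ∧
      StmtXi b₁ (2 * (622 / 10000) + d) c B) : RowHypK b₁ κ := by
  intro δ B τ hδ
  set B₁ : ℝ := max B 1 with hB₁
  set B' : ℝ := B₁ + 1 with hB'
  have hB₁1 : 1 ≤ B₁ := le_max_right _ _
  have hBB₁ : B ≤ B₁ := le_max_left _ _
  obtain ⟨c, d, hc, hd, hκc, hXi'⟩ := hXi (B' + 1)
  obtain ⟨n₁, hn₁⟩ := hNG b₁ (622 / 10000) c B' d (by linarith) (by norm_num) hc (by linarith) hd hXi'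
  set κ' : ℝ := (κ + min (1 / 2) (c / 2 - 622 / 10000 - d)) / 2 with hκ'
  have hmin1 : min (1 / 2) (c / 2 - 622 / 10000 - d) ≤ 1 / 2 := min_le_left _ _
  have hmin2 : min (1 / 2) (c / 2 - 622 / 10000 - d) ≤ c / 2 - 622 / 10000 - d := min_le_right _ _
  have hmin3 : κ < min (1 / 2) (c / 2 - 622 / 10000 - d) := lt_min hκ hκc
  have hκ'1 : κ < κ' := by rw [hκ']; linarith
  have hκ'2 : κ' < 1 / 2 := by rw [hκ']; linarith
  have hκ'3 : κ' ≤ c / 2 - 622 / 10000 - d := by rw [hκ']; linarith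
  obtain ⟨n₂, hn₂⟩ := sing_le κ' (by linarith) hκ'2
  obtain ⟨n₃, hn₃⟩ := RowKS471.ks_branch (b := b₁) (d := δ) hb hδ
  obtain ⟨n₄, hn₄⟩ := exists_t b₁ (622 / 10000) (δ / 2) δ (by linarith) (by norm_num) (by positivity) hδ
  have hlim : Tendsto (fun n : ℕ => (n : ℝ)) atTop atTop := tendsto_natCast_atTop_atTop
  obtain ⟨n₅, hn₅⟩ := eventually_atTop.1 (((hlim.eventually_ge_atTop ((2 : ℝ) ^ (B₁ + 1) * 2)).and
    (hlim.eventually_ge_atTop (4 / δ))).and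
    (hlim.eventually_ge_atTop ((κ' * τ + 1) / (κ' - κ))))
  refine ⟨fun _ ι _ _ b' => Gd b₁ (622 / 10000) B' ι b', max (n₁ + n₂ + n₃ + n₄ + τ + τ + 4) n₅,
    fun n hn ι _ _ hι1 hι2 => ?_⟩
  have hna : n₁ + n₂ + n₃ + n₄ + τ + τ + 4 ≤ n := (le_max_left _ _).trans hn
  obtain ⟨⟨hf1, hf2⟩, hf3⟩ := hn₅ n ((le_max_right _ _).trans hn)
  set m := Fintype.card ι with hm
  have hm2 : 2 ≤ m := by omega
  have hmR : (2 : ℝ) ≤ m := by exact_mod_cast hm2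
  have hmn : (m : ℝ) ≤ n := by exact_mod_cast hι2.le
  have hnm : (n : ℝ) ≤ 2 * m := by exact_mod_cast (by omega : n ≤ 2 * m)
  have hnτ : (n : ℝ) ≤ m + τ := by exact_mod_cast hι1
  have hn0 : (0 : ℝ) < n := by linarith
  have hn1 : (1 : ℝ) ≤ n := by linarith
  have hBm : (n : ℝ) ^ B ≤ (m : ℝ) ^ B' := by
    have h1 : (n : ℝ) ^ B ≤ (n : ℝ) ^ B₁ := Real.rpow_le_rpow_of_exponent_le hn1 hBB₁
    have h2 : (n : ℝ) ^ B₁ ≤ (2 * m : ℝ) ^ B₁ := Real.rpow_le_rpow hn0.le hnm (by linarith)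
    have h3 : (2 * m : ℝ) ^ B₁ = 2 ^ B₁ * (m : ℝ) ^ B₁ := Real.mul_rpow (by norm_num) (by positivity)
    have h4 : (m : ℝ) ^ B' = (m : ℝ) ^ B₁ * m := by
      rw [hB', Real.rpow_add_one (by positivity)]
    have h5 : (2 : ℝ) ^ B₁ ≤ m := by
      have h6 : (2 : ℝ) ^ (B₁ + 1) = 2 ^ B₁ * 2 := Real.rpow_add_one (by norm_num) _
      rw [h6] at hf1
      have h7 : (0 : ℝ) < 2 ^ B₁ := by positivity
      linarith
    have h8 : (0 : ℝ) < (m : ℝ) ^ B₁ := by positivity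
    calc (n : ℝ) ^ B ≤ 2 ^ B₁ * (m : ℝ) ^ B₁ := h1.trans (h2.trans h3.le)
      _ ≤ m * (m : ℝ) ^ B₁ := mul_le_mul_of_nonneg_right h5 h8.le
      _ = (m : ℝ) ^ B' := by rw [h4, mul_comm]
  refine ⟨fun b' hG => ⟨hG.1, fun s => ?_⟩, ?_⟩
  · rcases le_total (622 / 10000 * (m : ℝ)) s with hs | hs
    · have h := hn₃ ι (by omega) b' hG.1 ((n : ℝ) ^ b₁) ((n : ℝ) ^ B)
        (Real.rpow_le_rpow (by positivity) hmn (by linarith)) s hs
      refine h.trans ?_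
      rw [mul_comm]
      refine mul_le_mul_of_nonneg_right (Real.rpow_le_rpow_of_exponent_le (by norm_num) ?_)
        (by positivity)
      have : δ * m ≤ δ * n := mul_le_mul_of_nonneg_left hmn hδ.le
      linarith
    · obtain ⟨t, ht1, ht2, ht3⟩ := hn₄ m (by omega)
      refine flat (by linarith) (by norm_num) hm2 hι2 hBm b' hG t ht1 ht3 ht2 ?_ s hs hδ
      rw [div_le_iff₀ hδ] at hf2
      linarith
  · have h1 := card_le_add (fun b' : Sym2 ι → Bool => ¬ Gd b₁ (622 / 10000) B' ι b')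
      (fun b' => (matZ b').det = 0)
      (fun b' => ∃ N : ℕ, Squarefree N ∧ (∀ p, p.Prime → p ∣ N → (m : ℝ) ^ b₁ ≤ p ∧ (p : ℝ) ≤ (m : ℝ) ^ B') ∧
        (2 : ℝ) ^ (622 / 10000 * m : ℝ) ≤ N ∧ (N : ℝ) ≤ (2 : ℝ) ^ (622 / 10000 * m : ℝ) * (m : ℝ) ^ B' ∧
        ¬ GoodSym N b') (fun b' h => by
        by_contra hcon
        rw [not_or] at hcon
        refine h ⟨hcon.1, fun N hN => ?_⟩
        by_contra hG
        exact hcon.2 ⟨N, hN.1, hN.2.1, hN.2.2.1, hN.2.2.2, hG⟩)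
    have h2 := sing_le' (α := ι) κ' m hm.symm (hn₂ m (by omega))
    have h3 := hn₁ m (by omega) ι hm.symm
    have h4 : (2 : ℝ) ^ (-((c / 2 - 622 / 10000 - d) * m)) ≤ 2 ^ (-(κ' * m)) := by
      refine Real.rpow_le_rpow_of_exponent_le (by norm_num) ?_
      have := mul_le_mul_of_nonneg_right hκ'3 (show (0 : ℝ) ≤ m by positivity)
      linarith
    have h5 : (2 : ℝ) ^ (-(κ' * m)) * 2 ≤ 2 ^ (-(κ * n)) := by
      rw [← Real.rpow_add_one (by norm_num)]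
      refine Real.rpow_le_rpow_of_exponent_le (by norm_num) ?_
      rw [div_le_iff₀ (by linarith)] at hf3
      have h6 : κ' * n ≤ κ' * (m + τ) := mul_le_mul_of_nonneg_left hnτ (by linarith)
      nlinarith
    have h7 : (0 : ℝ) < 2 ^ Fintype.card (Sym2 ι) := by positivity
    calc (Nat.card {b' : Sym2 ι → Bool // ¬ Gd b₁ (622 / 10000) B' ι b'} : ℝ)
        ≤ (2 : ℝ) ^ (-(κ' * m)) * 2 ^ Fintype.card (Sym2 ι) +
          (2 : ℝ) ^ (-((c / 2 - 622 / 10000 - d) * m)) * 2 ^ Fintype.card (Sym2 ι) :=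
          h1.trans (add_le_add h2 h3)
      _ ≤ (2 : ℝ) ^ (-(κ' * m)) * 2 ^ Fintype.card (Sym2 ι) +
          (2 : ℝ) ^ (-(κ' * m)) * 2 ^ Fintype.card (Sym2 ι) :=
          add_le_add le_rfl (mul_le_mul_of_nonneg_right h4 h7.le)
      _ = ((2 : ℝ) ^ (-(κ' * m)) * 2) * 2 ^ Fintype.card (Sym2 ι) := by ring
      _ ≤ _ := mul_le_mul_of_nonneg_right h5 h7.le

theorem rowHyp_of {b₁ κ : ℝ} (hκ : 1 / 8 < κ) (h : RowHypK b₁ κ) : MProd.RowHyp b₁ := by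
  intro δ B τ hδ
  obtain ⟨G, n₀, h⟩ := h δ B τ hδ
  refine ⟨G, n₀, κ - 1 / 8, by linarith, fun n hn ι _ _ h1 h2 => ?_⟩
  obtain ⟨h3, h4⟩ := h n hn ι h1 h2
  refine ⟨h3, ?_⟩
  rw [show (1 / 8 + (κ - 1 / 8)) = κ by ring]
  exact h4

/-- **RowHyp** -/
theorem rowHyp (hNG : NotGoodStmt) (b₁ κ : ℝ) (hb : 199 / 100 ≤ b₁) (hκ0 : 1 / 8 < κ) (hκ : κ < 1 / 2)
    (hXi : ∀ B : ℝ, ∃ c d : ℝ, 0 < c ∧ 0 < d ∧ κ < c / 2 - 622 / 10000 - d ∧
      StmtXi b₁ (2 * (622 / 10000) + d) c B) : MProd.RowHyp b₁ :=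
  rowHyp_of hκ0 (rowHypK hNG b₁ κ hb (by linarith) hκ hXi)

end Vale.Agent.P160.Half.RowHyp537
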