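import Vale.Agent.P160.Half.M67Stmt

set_option linter.unusedVariables false
set_option linter.unusedSectionVars false

/-! # P160, half rate, (M): `StmtSparse` of `M67Stmt.lean` (helper807) -/

namespace Vale.Agent.P160.Half.Sp807

open Finset Vale.Agent.P160 Vale.Agent.P160.Half Vale.Agent.P160.Half.M67

section supp

variable {R : Type*} [Fintype R] [Zero R]

open scoped Classical in
/-- number of vectors of support at most `t` -/
lemma card_small {k t : ℕ} (S : Finset (Fin k → R))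
    (hS : ∀ u ∈ S, (univ.filter fun j => u j ≠ 0).card ≤ t) :
    S.card ≤ (k * Fintype.card R + 1) ^ t := by
  let sp : (Fin k → R) → Finset (Fin k) := fun u => univ.filter fun j => u j ≠ 0
  let G : (Fin k → R) → (Fin t → Option (Fin k × R)) := fun u l =>
    if h : l.val < (sp u).card then
      some (((sp u).equivFin.symm ⟨l.val, h⟩ : sp u).val, u ((sp u).equivFin.symm ⟨l.val, h⟩ : sp u).val)
    else none
  have key : ∀ u, (sp u).card ≤ t → ∀ j, u j ≠ 0 → ∃ l, G u l = some (j, u j) := by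
    intro u hu j hj
    have hm : j ∈ sp u := by simp [sp, hj]
    have hlt : ((sp u).equivFin ⟨j, hm⟩).val < (sp u).card := ((sp u).equivFin ⟨j, hm⟩).isLt
    refine ⟨⟨((sp u).equivFin ⟨j, hm⟩).val, hlt.trans_le hu⟩, ?_⟩
    simp only [G]
    rw [dif_pos hlt]
    simp
  have key2 : ∀ u l j v, G u l = some (j, v) → u j = v ∧ u j ≠ 0 := by
    intro u l j v h
    simp only [G] at h
    split_ifs at h with hl
    · have hm := ((sp u).equivFin.symm ⟨l.val, hl⟩).2
      simp only [Option.some.injEq, Prod.mk.injEq] at h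
      obtain ⟨h1, h2⟩ := h
      rw [← h1]
      refine ⟨h2, ?_⟩
      have : ((sp u).equivFin.symm ⟨l.val, hl⟩ : sp u).val ∈ univ.filter fun j => u j ≠ 0 := hm
      exact (mem_filter.1 this).2
  have hinj : Set.InjOn G (S : Set (Fin k → R)) := by
    intro u hu u' hu' h
    have hu1 := hS u hu
    have hu2 := hS u' hu'
    ext j
    by_cases h0 : u j = 0
    · by_contra hne
      have h1 : u' j ≠ 0 := by
        intro h1; exact hne (by rw [h0, h1])
      obtain ⟨l, hl⟩ := key u' hu2 j h1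
      rw [← h] at hl
      exact (key2 u l j _ hl).2 h0
    · obtain ⟨l, hl⟩ := key u hu1 j h0
      rw [h] at hl
      exact ((key2 u' l j _ hl).1).symm
  calc S.card = (S.image G).card := (card_image_of_injOn hinj).symm
    _ ≤ (univ : Finset (Fin t → Option (Fin k × R))).card := card_le_univ _
    _ = (k * Fintype.card R + 1) ^ t := by simp

end supp

section col

variable {Ω : Type*} [Fintype Ω] [DecidableEq Ω] {k : ℕ}

/-- replace column `j` -/
def upd (ω : Fin k → Fin k → Ω) (j : Fin k) (x : Fin k → Ω) : Fin k → Fin k → Ω :=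
  fun i => Function.update (ω i) j (x i)

omit [Fintype Ω] [DecidableEq Ω] in
lemma upd_upd (ω : Fin k → Fin k → Ω) (j : Fin k) (x : Fin k → Ω) :
    upd (upd ω j x) j (fun i => ω i j) = ω := by
  ext i c; simp [upd]

omit [Fintype Ω] [DecidableEq Ω] in
lemma upd_apply_self (ω : Fin k → Fin k → Ω) (j : Fin k) (x : Fin k → Ω) (i : Fin k) :
    upd ω j x i j = x i := by simp [upd]

omit [Fintype Ω] [DecidableEq Ω] in
lemma upd_ne (ω : Fin k → Fin k → Ω) {j c : Fin k} (h : c ≠ j) (x : Fin k → Ω) (i : Fin k) :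
    upd ω j x i c = ω i c := by simp [upd, h]

/-- the involution -/
def sw (j : Fin k) : ((Fin k → Fin k → Ω) × (Fin k → Ω)) ≃ ((Fin k → Fin k → Ω) × (Fin k → Ω)) where
  toFun a := (upd a.1 j a.2, fun i => a.1 i j)
  invFun a := (upd a.1 j a.2, fun i => a.1 i j)
  left_inv := by
    rintro ⟨ω, x⟩
    simp only [upd_upd, upd_apply_self]
  right_inv := by
    rintro ⟨ω, x⟩
    simp only [upd_upd, upd_apply_self]

open scoped Classical in
lemma core (j : Fin k) (A : Finset (Fin k → Fin k → Ω)) (W : (Fin k → Fin k → Ω) → ℝ)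
    (hW : ∀ ω, 0 ≤ W ω) (N2 κ : ℝ) (hN : 0 ≤ N2) (h1 : ∀ ω x, W ω ≤ N2 * W (upd ω j x))
    (h2 : ∀ ω, ((univ.filter fun x => upd ω j x ∈ A).card : ℝ) ≤ κ) :
    (∑ ω ∈ A, W ω) * (Fintype.card Ω : ℝ) ^ k ≤ N2 * κ * ∑ ω, W ω := by
  have e1 : (∑ ω ∈ A, W ω) * (Fintype.card Ω : ℝ) ^ k =
      ∑ a : (Fin k → Fin k → Ω) × (Fin k → Ω), if a.1 ∈ A then W a.1 else 0 := by
    rw [Fintype.sum_prod_type]
    simp only [sum_const, card_univ, nsmul_eq_mul]
    rw [← mul_sum, ← sum_filter, mul_comm]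
    congr 1
    · simp
    · refine sum_congr ?_ fun _ _ => rfl
      ext ω; simp
  have e2 : ∑ a : (Fin k → Fin k → Ω) × (Fin k → Ω), (if a.1 ∈ A then W a.1 else 0) ≤
      ∑ a : (Fin k → Fin k → Ω) × (Fin k → Ω), (if a.1 ∈ A then N2 * W (upd a.1 j a.2) else 0) := by
    refine sum_le_sum fun a _ => ?_
    split_ifs
    · exact h1 _ _
    · exact le_rfl
  have e3 : ∑ a : (Fin k → Fin k → Ω) × (Fin k → Ω), (if a.1 ∈ A then N2 * W (upd a.1 j a.2) else 0) =
      ∑ a : (Fin k → Fin k → Ω) × (Fin k → Ω), (if upd a.1 j a.2 ∈ A then N2 * W a.1 else 0) := by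
    rw [← (sw j).sum_comp]
    refine sum_congr rfl fun a _ => ?_
    simp only [sw, Equiv.coe_fn_mk, upd_upd]
  rw [e1]
  refine e2.trans ?_
  rw [e3, Fintype.sum_prod_type, mul_sum]
  refine sum_le_sum fun ω _ => ?_
  simp only
  rw [← sum_filter, sum_const, nsmul_eq_mul]
  have := mul_le_mul_of_nonneg_right (h2 ω) (mul_nonneg hN (hW ω))
  linarith

lemma union_sum {α ι : Type*} (S : Finset α) (I : Finset ι) (A : ι → Finset α)
    (W : α → ℝ) (hW : ∀ a, 0 ≤ W a) (h : ∀ a ∈ S, ∃ i ∈ I, a ∈ A i) :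
    ∑ a ∈ S, W a ≤ ∑ i ∈ I, ∑ a ∈ A i, W a := by
  classical
  have e1 : ∑ a ∈ S, W a ≤ ∑ a ∈ S, ∑ i ∈ I, (if a ∈ A i then W a else 0) := by
    refine sum_le_sum fun a ha => ?_
    obtain ⟨i, hi, hai⟩ := h a ha
    refine le_trans ?_ (single_le_sum (f := fun i => if a ∈ A i then W a else 0) (fun i _ => ?_) hi)
    · simp [hai]
    · split_ifs
      · exact hW a
      · exact le_rfl
  refine e1.trans ?_
  rw [sum_comm]
  refine sum_le_sum fun i _ => ?_
  rw [← sum_filter]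
  refine sum_le_sum_of_subset_of_nonneg ?_ fun a _ _ => hW a
  intro a ha
  exact (mem_filter.1 ha).2

/-- column by rows -/
lemma card_pi (T : Fin k → Finset Ω) (κ : ℕ) (hT : ∀ i, (T i).card ≤ κ) :
    ((univ.filter fun x : Fin k → Ω => ∀ i, x i ∈ T i).card : ℝ) ≤ (κ : ℝ) ^ k := by
  have : (univ.filter fun x : Fin k → Ω => ∀ i, x i ∈ T i) = Fintype.piFinset T := by
    ext x; simp
  rw [this, Fintype.card_piFinset]
  have h2 : ∏ i, (T i).card ≤ κ ^ k := by
    calc ∏ i, (T i).card ≤ ∏ _i : Fin k, κ := prod_le_prod' fun i _ => hT i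
      _ = κ ^ k := by simp
  exact_mod_cast h2

end col



section rank

lemma rank_swap {F : Type*} [Field F] {k m : ℕ} (M M' : Matrix (Fin k) (Fin m) F) (j : Fin m)
    (h : ∀ i c, c ≠ j → M' i c = M i c) : M'.rank ≤ M.rank + 1 := by
  rw [Matrix.rank_eq_finrank_span_cols, Matrix.rank_eq_finrank_span_cols]
  have h1 : Submodule.span F (Set.range M'.col) ≤
      Submodule.span F (Set.range M.col) ⊔ Submodule.span F {M'.col j} := by
    rw [Submodule.span_le]
    rintro _ ⟨c, rfl⟩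
    by_cases hc : c = j
    · subst hc
      exact Submodule.mem_sup_right (Submodule.mem_span_singleton_self _)
    · have : M'.col c = M.col c := by
        ext i; exact h i c hc
      rw [this]
      exact Submodule.mem_sup_left (Submodule.subset_span ⟨c, rfl⟩)
  refine (Submodule.finrank_mono h1).trans ?_
  refine (Submodule.finrank_add_le_finrank_add_finrank _ _).trans ?_
  refine Nat.add_le_add_left ?_ _
  exact (finrank_span_le_card ({M'.col j} : Set _)).trans (by simp)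

lemma W_nonneg (P : Finset ℕ) {k m : ℕ} (M : Matrix (Fin k) (Fin m) ℤ) : 0 ≤ W P M :=
  prod_nonneg fun p _ => by positivity

lemma W_upd {P : Finset ℕ} (hP : ∀ p ∈ P, p.Prime) {Ω : Type} (e : Ω → ℤ) {k : ℕ}
    (ω : Fin k → Fin k → Ω) (j : Fin k) (x : Fin k → Ω) :
    W P (mt e ω) ≤ (∏ p ∈ P, (p : ℝ)) ^ 2 * W P (mt e (upd ω j x)) := by
  unfold W
  rw [← Finset.prod_pow, ← Finset.prod_mul_distrib]
  refine prod_le_prod (fun p hp => by positivity) fun p hp => ?_
  have := Fact.mk (hP p hp)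
  have hr : rkp p (mt e (upd ω j x)) ≤ rkp p (mt e ω) + 1 := by
    refine rank_swap _ _ j ?_
    intro i c hc
    change ((e (upd ω j x i c) : ℤ) : ZMod p) = ((e (ω i c) : ℤ) : ZMod p)
    rw [upd_ne _ hc]
  rw [← pow_add]
  exact pow_le_pow_right₀ (by exact_mod_cast (hP p hp).one_le) (by omega)

end rank

section atoms

lemma atom {k : ℕ} (hk : 0 < k) (Q : ℤ → Prop) [DecidablePred Q] (h1 : ¬ (Q 0 ∧ Q 1))
    (h2 : ¬ (Q 0 ∧ Q (-1))) :
    (univ.filter fun s : Fin (8 * k) => Q (stL (2 * k - 1) s)).card ≤ 4 * k + 2 := by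
  by_cases h0 : Q 0
  · calc (univ.filter fun s : Fin (8 * k) => Q (stL (2 * k - 1) s)).card
        ≤ (Finset.Ico (2 * (2 * k - 1)) (8 * k)).card := by
          refine card_le_card_of_injOn (fun s => s.val) ?_ (fun a _ b _ h => Fin.ext h)
          intro s hs
          simp only [coe_filter, mem_univ, true_and, Set.mem_ofPred_eq] at hs
          simp only [coe_Ico, Set.mem_Ico]
          refine ⟨?_, s.isLt⟩
          by_contra hlt
          push Not at hlt
          unfold stL at hs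
          split_ifs at hs with ha
          · exact h1 ⟨h0, hs⟩
          · exact h2 ⟨h0, hs⟩
      _ ≤ 4 * k + 2 := by
          rw [Nat.card_Ico]; omega
  · calc (univ.filter fun s : Fin (8 * k) => Q (stL (2 * k - 1) s)).card
        ≤ (Finset.range (2 * (2 * k - 1))).card := by
          refine card_le_card_of_injOn (fun s => s.val) ?_ (fun a _ b _ h => Fin.ext h)
          intro s hs
          simp only [coe_filter, mem_univ, true_and, Set.mem_ofPred_eq] at hs
          simp only [coe_range, Set.mem_Iio]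
          by_contra hlt
          unfold stL at hs
          rw [if_neg (by omega), if_neg (by omega)] at hs
          exact h0 hs
      _ ≤ 4 * k + 2 := by
          rw [card_range]; omega

lemma near_false {a b : ℝ} (hb : b ≤ 1 / 4) (h1 : b < |a|) (h2 : |a| ≤ 5 / 8) (n : ℤ)
    (h : |a - n| ≤ b) : False := by
  rcases eq_or_ne n 0 with rfl | hn
  · simp only [Int.cast_zero, sub_zero] at h; linarith
  · have h3 : (1 : ℝ) ≤ |(n : ℝ)| := by
      have : (1 : ℤ) ≤ |n| := Int.one_le_abs hn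
      exact_mod_cast this
    have h4 : |(n : ℝ)| ≤ |a| + |a - n| := by
      have := abs_sub_abs_le_abs_sub (n : ℝ) a
      rw [abs_sub_comm (n : ℝ) a] at this
      linarith
    linarith

end atoms

section events

open scoped Classical in
/-- (a) -/
noncomputable def AA (k p : ℕ) (u : Fin k → ZMod p) : Finset (Fin k → Fin k → Fin (8 * k)) :=
  univ.filter fun ω => ∀ i, ∑ c, (mt (stL (2 * k - 1)) ω i c : ZMod p) * u c = 0

/-- the real vector -/
noncomputable def vv {k L : ℕ} (v : Fin k → ZMod (2 * L + 1)) (c : Fin k) : ℝ := ((v c).valMinAbs : ℝ) / L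

open scoped Classical in
/-- (b) -/
noncomputable def BB (k L : ℕ) (dl : ℝ) (v : Fin k → ZMod (2 * L + 1)) :
    Finset (Fin k → Fin k → Fin (8 * k)) :=
  univ.filter fun ω => ∀ i, ∃ z : ℤ, |∑ c, (mt (stL (2 * k - 1)) ω i c : ℝ) * vv v c - z| ≤ dl

lemma mt_upd_self {k : ℕ} {Ω : Type} (e : Ω → ℤ) (ω : Fin k → Fin k → Ω) (j : Fin k)
    (x : Fin k → Ω) (i : Fin k) : M67.mt e (upd ω j x) i j = e (x i) := by
  change e (upd ω j x i j) = e (x i)
  rw [upd_apply_self]

lemma mt_upd_ne {k : ℕ} {Ω : Type} (e : Ω → ℤ) (ω : Fin k → Fin k → Ω) {j c : Fin k} (h : c ≠ j)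
    (x : Fin k → Ω) (i : Fin k) : M67.mt e (upd ω j x) i c = M67.mt e ω i c := by
  change e (upd ω j x i c) = e (ω i c)
  rw [upd_ne _ h]

open scoped Classical in
lemma card_AA {k p : ℕ} (hk : 0 < k) [Fact p.Prime] (u : Fin k → ZMod p) (j : Fin k) (hj : u j ≠ 0)
    (ω : Fin k → Fin k → Fin (8 * k)) :
    ((univ.filter fun x => upd ω j x ∈ AA k p u).card : ℝ) ≤ ((4 * k + 2 : ℕ) : ℝ) ^ k := by
  let r : Fin k → ZMod p := fun i => ∑ c ∈ univ.erase j, (mt (stL (2 * k - 1)) ω i c : ZMod p) * u c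
  let T : Fin k → Finset (Fin (8 * k)) := fun i =>
    univ.filter fun s => ((stL (2 * k - 1) s : ℤ) : ZMod p) * u j + r i = 0
  have h1 : (univ.filter fun x => upd ω j x ∈ AA k p u) = univ.filter fun x => ∀ i, x i ∈ T i := by
    ext x
    simp only [mem_filter, mem_univ, true_and, AA, T]
    refine forall_congr' fun i => ?_
    rw [← add_sum_erase univ _ (mem_univ j), mt_upd_self]
    have : ∑ c ∈ univ.erase j, (mt (stL (2 * k - 1)) (upd ω j x) i c : ZMod p) * u c = r i := by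
      refine sum_congr rfl fun c hc => ?_
      rw [mt_upd_ne _ _ (ne_of_mem_erase hc)]
    rw [this]
  rw [h1]
  refine card_pi T _ fun i => ?_
  refine atom hk (fun v : ℤ => (v : ZMod p) * u j + r i = 0) ?_ ?_
  · rintro ⟨h2, h3⟩
    simp only [Int.cast_zero, zero_mul, zero_add, Int.cast_one, one_mul] at h2 h3
    rw [h2, add_zero] at h3
    exact hj h3
  · rintro ⟨h2, h3⟩
    simp only [Int.cast_zero, zero_mul, zero_add, Int.cast_neg, Int.cast_one, neg_mul, one_mul] at h2 h3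
    rw [h2, add_zero, neg_eq_zero] at h3
    exact hj h3

open scoped Classical in
lemma card_BB {k L : ℕ} (hk : 0 < k) {dl : ℝ} (hdl : dl ≤ 1 / 8) (v : Fin k → ZMod (2 * L + 1))
    (j : Fin k) (hj1 : 2 * dl < |vv v j|) (hj2 : |vv v j| ≤ 5 / 8)
    (ω : Fin k → Fin k → Fin (8 * k)) :
    ((univ.filter fun x => upd ω j x ∈ BB k L dl v).card : ℝ) ≤ ((4 * k + 2 : ℕ) : ℝ) ^ k := by
  let r : Fin k → ℝ := fun i => ∑ c ∈ univ.erase j, (mt (stL (2 * k - 1)) ω i c : ℝ) * vv v c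
  let T : Fin k → Finset (Fin (8 * k)) := fun i =>
    univ.filter fun s => ∃ z : ℤ, |((stL (2 * k - 1) s : ℤ) : ℝ) * vv v j + r i - z| ≤ dl
  have h1 : (univ.filter fun x => upd ω j x ∈ BB k L dl v) = univ.filter fun x => ∀ i, x i ∈ T i := by
    ext x
    simp only [mem_filter, mem_univ, true_and, BB, T]
    refine forall_congr' fun i => ?_
    rw [← add_sum_erase univ _ (mem_univ j), mt_upd_self]
    have : ∑ c ∈ univ.erase j, (mt (stL (2 * k - 1)) (upd ω j x) i c : ℝ) * vv v c = r i := by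
      refine sum_congr rfl fun c hc => ?_
      rw [mt_upd_ne _ _ (ne_of_mem_erase hc)]
    rw [this]
  rw [h1]
  refine card_pi T _ fun i => ?_
  refine atom hk (fun w : ℤ => ∃ z : ℤ, |(w : ℝ) * vv v j + r i - z| ≤ dl) ?_ ?_
  · rintro ⟨⟨z, h2⟩, ⟨z', h3⟩⟩
    refine near_false (a := vv v j) (b := 2 * dl) (by linarith) hj1 hj2 (z' - z) ?_
    simp only [Int.cast_zero, zero_mul, zero_add, Int.cast_one, one_mul] at h2 h3
    push_cast
    have h2' := abs_le.1 h2
    have h3' := abs_le.1 h3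
    rw [abs_le]
    constructor <;> linarith [h2'.1, h2'.2, h3'.1, h3'.2]
  · rintro ⟨⟨z, h2⟩, ⟨z', h3⟩⟩
    refine near_false (a := vv v j) (b := 2 * dl) (by linarith) hj1 hj2 (z - z') ?_
    simp only [Int.cast_zero, zero_mul, zero_add, Int.cast_one, one_mul, Int.cast_neg, neg_mul] at h2 h3
    push_cast
    have h2' := abs_le.1 h2
    have h3' := abs_le.1 h3
    rw [abs_le]
    constructor <;> linarith [h2'.1, h2'.2, h3'.1, h3'.2]

end events


section bounds

lemma one {k : ℕ} (hk : 0 < k) {P : Finset ℕ} (hP : ∀ p ∈ P, p.Prime)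
    (A : Finset (Fin k → Fin k → Fin (8 * k))) (j : Fin k)
    (h2 : open scoped Classical in
      ∀ ω, ((univ.filter fun x => upd ω j x ∈ A).card : ℝ) ≤ ((4 * k + 2 : ℕ) : ℝ) ^ k) :
    ∑ ω ∈ A, W P (M67.mt (stL (2 * k - 1)) ω) ≤
      (∏ p ∈ P, (p : ℝ)) ^ 2 * (((4 * k + 2 : ℕ) : ℝ) / ((8 * k : ℕ) : ℝ)) ^ k *
        ∑ ω : Fin k → Fin k → Fin (8 * k), W P (M67.mt (stL (2 * k - 1)) ω) := by
  have h := core j A (fun ω => W P (M67.mt (stL (2 * k - 1)) ω)) (fun ω => W_nonneg _ _)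
    ((∏ p ∈ P, (p : ℝ)) ^ 2) (((4 * k + 2 : ℕ) : ℝ) ^ k) (by positivity)
    (fun ω x => W_upd hP _ ω j x) h2
  simp only [Fintype.card_fin] at h
  have h8 : (0 : ℝ) < ((8 * k : ℕ) : ℝ) ^ k := by positivity
  rw [div_pow]
  have e : (∏ p ∈ P, (p : ℝ)) ^ 2 * (((4 * k + 2 : ℕ) : ℝ) ^ k / ((8 * k : ℕ) : ℝ) ^ k) *
        ∑ ω : Fin k → Fin k → Fin (8 * k), W P (M67.mt (stL (2 * k - 1)) ω) =
      ((∏ p ∈ P, (p : ℝ)) ^ 2 * ((4 * k + 2 : ℕ) : ℝ) ^ k *
        ∑ ω : Fin k → Fin k → Fin (8 * k), W P (M67.mt (stL (2 * k - 1)) ω)) /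
        ((8 * k : ℕ) : ℝ) ^ k := by ring
  rw [e, le_div_iff₀ h8]
  exact h

/-- the constant of one event -/
noncomputable def CC (k : ℕ) (P : Finset ℕ) : ℝ :=
  (∏ p ∈ P, (p : ℝ)) ^ 2 * (((4 * k + 2 : ℕ) : ℝ) / ((8 * k : ℕ) : ℝ)) ^ k *
        ∑ ω : Fin k → Fin k → Fin (8 * k), W P (M67.mt (stL (2 * k - 1)) ω)

lemma CC_nonneg (k : ℕ) (P : Finset ℕ) : 0 ≤ CC k P :=
  mul_nonneg (by positivity) (sum_nonneg fun ω _ => W_nonneg _ _)

open scoped Classical in
lemma spA {k : ℕ} (hk : 0 < k) {P : Finset ℕ} (hP : ∀ p ∈ P, p.Prime) {p : ℕ} (hp : p.Prime) (s : ℝ) :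
    ∑ ω ∈ (univ : Finset (Fin k → Fin k → Fin (8 * k))).filter (fun ω =>
      ∃ u : Fin k → ZMod p, u ≠ 0 ∧ ((univ.filter fun j => u j ≠ 0).card : ℝ) < s ∧
        ∀ i, ∑ j, (M67.mt (stL (2 * k - 1)) ω i j : ZMod p) * u j = 0),
      W P (M67.mt (stL (2 * k - 1)) ω) ≤ ((k * p + 1 : ℕ) : ℝ) ^ ⌊s⌋₊ * CC k P := by
  have := Fact.mk hp
  have : NeZero p := ⟨hp.ne_zero⟩
  let I : Finset (Fin k → ZMod p) :=
    univ.filter fun u => u ≠ 0 ∧ (univ.filter fun j => u j ≠ 0).card ≤ ⌊s⌋₊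
  have hI : (I.card : ℝ) ≤ ((k * p + 1 : ℕ) : ℝ) ^ ⌊s⌋₊ := by
    have := card_small (R := ZMod p) (t := ⌊s⌋₊) I (fun u hu => by
      convert (mem_filter.1 hu).2.2)
    rw [ZMod.card] at this
    exact_mod_cast this
  refine (union_sum _ I (fun u => AA k p u) _ (fun ω => W_nonneg _ _) ?_).trans ?_
  · intro ω hω
    simp only [mem_filter, mem_univ, true_and] at hω
    obtain ⟨u, h0, hc, h⟩ := hω
    refine ⟨u, ?_, ?_⟩
    · simp only [I, mem_filter, mem_univ, true_and]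
      exact ⟨h0, Nat.le_floor hc.le⟩
    simp only [AA, mem_filter, mem_univ, true_and]
    exact h
  · calc ∑ u ∈ I, ∑ ω ∈ AA k p u, W P (M67.mt (stL (2 * k - 1)) ω) ≤ ∑ _u ∈ I, CC k P := by
          refine sum_le_sum fun u hu => ?_
          obtain ⟨j, hj⟩ := Function.ne_iff.1 (mem_filter.1 hu).2.1
          exact one hk hP _ j fun ω => card_AA hk u j hj ω
      _ = I.card * CC k P := by rw [sum_const, nsmul_eq_mul]
      _ ≤ _ := mul_le_mul_of_nonneg_right hI (CC_nonneg _ _)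

lemma stL_abs {L M : ℕ} (a : Fin M) : |((stL L a : ℤ) : ℝ)| ≤ 1 := by
  unfold stL
  split_ifs <;> simp

open scoped Classical in
lemma spB {k : ℕ} (hk : 0 < k) {P : Finset ℕ} (hP : ∀ p ∈ P, p.Prime) {s : ℝ} (hs : 1 ≤ s) {L : ℕ}
    (hL : 128 * s ^ 2 ≤ L) :
    ∑ ω ∈ (univ : Finset (Fin k → Fin k → Fin (8 * k))).filter (fun ω =>
      SpB s (M67.mt (stL (2 * k - 1)) ω)),
      W P (M67.mt (stL (2 * k - 1)) ω) ≤ ((k * (2 * L + 1) + 1 : ℕ) : ℝ) ^ ⌊s⌋₊ * CC k P := by
  have hs0 : 0 < s := by linarith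
  have hL1 : 128 * s ≤ L := by nlinarith
  have hL0 : (0 : ℝ) < L := by linarith
  let I : Finset (Fin k → ZMod (2 * L + 1)) :=
    univ.filter fun v => (∃ j, 1 / (8 * s) < |vv v j| ∧ |vv v j| ≤ 5 / 8) ∧
      (univ.filter fun j => v j ≠ 0).card ≤ ⌊s⌋₊
  have hI : (I.card : ℝ) ≤ ((k * (2 * L + 1) + 1 : ℕ) : ℝ) ^ ⌊s⌋₊ := by
    have := card_small (R := ZMod (2 * L + 1)) (t := ⌊s⌋₊) I (fun u hu => by
      convert (mem_filter.1 hu).2.2)
    rw [ZMod.card] at this
    exact_mod_cast this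
  refine (union_sum _ I (fun v => BB k L (1 / (32 * s)) v) _ (fun ω => W_nonneg _ _) ?_).trans ?_
  · intro ω hω
    simp only [mem_filter, mem_univ, true_and] at hω
    obtain ⟨ψ, hψ, hc, ⟨c0, hc0⟩, h⟩ := hω
    let v : Fin k → ZMod (2 * L + 1) := fun c => ((round (ψ c * L) : ℤ) : ZMod (2 * L + 1))
    have hr : ∀ c, |ψ c * L - round (ψ c * L)| ≤ 1 / 2 := fun c => abs_sub_round _
    have hval : ∀ c, (v c).valMinAbs = round (ψ c * L) := by
      intro c
      rw [ZMod.valMinAbs_spec]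
      refine ⟨rfl, ?_⟩
      have h1 := abs_le.1 (hr c)
      have h2 := abs_le.1 (hψ c)
      have h3 : ψ c * L ≤ 1 / 2 * L := mul_le_mul_of_nonneg_right h2.2 hL0.le
      have h4 : -(1 / 2) * L ≤ ψ c * L := mul_le_mul_of_nonneg_right (by linarith [h2.1]) hL0.le
      constructor
      · have : -(2 * (L : ℝ) + 1) < (round (ψ c * L) : ℝ) * 2 := by linarith [h1.1, h1.2]
        push_cast
        exact_mod_cast this
      · have : (round (ψ c * L) : ℝ) * 2 ≤ 2 * (L : ℝ) + 1 := by linarith [h1.1, h1.2]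
        push_cast
        exact_mod_cast this
    have hvv : ∀ c, vv v c = round (ψ c * L) / L := by
      intro c; unfold vv; rw [hval]
    have hdiff : ∀ c, |vv v c - ψ c| ≤ 1 / (2 * L) := by
      intro c
      rw [hvv]
      have : (round (ψ c * L) : ℝ) / L - ψ c = -(ψ c * L - round (ψ c * L)) / L := by
        field_simp; ring
      rw [this, abs_div, abs_neg, abs_of_pos hL0, div_le_div_iff₀ hL0 (by positivity)]
      have := hr c
      nlinarith
    have hzero : ∀ c, ψ c = 0 → v c = 0 := by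
      intro c h0
      simp [v, h0]
    have hzero' : ∀ c, ψ c = 0 → vv v c = 0 := by
      intro c h0
      rw [hvv, h0]; simp
    have h2L : 1 / (2 * (L : ℝ)) ≤ 1 / (256 * s) := by
      apply one_div_le_one_div_of_le (by positivity); linarith
    refine ⟨v, mem_filter.2 ⟨mem_univ _, ⟨c0, ?_, ?_⟩, ?_⟩, ?_⟩
    · have h1 := hdiff c0
      have h2 : |ψ c0| ≤ |vv v c0| + |vv v c0 - ψ c0| := by
        have := abs_sub_abs_le_abs_sub (ψ c0) (vv v c0)
        rw [abs_sub_comm (ψ c0)] at this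
        linarith
      have h3 : 1 / (4 * s) = 1 / (8 * s) + 1 / (8 * s) := by field_simp; norm_num
      have h4 : 1 / (256 * s) < 1 / (8 * s) := by
        apply one_div_lt_one_div_of_lt (by positivity); linarith
      linarith
    · have h1 := hdiff c0
      have h2 : |vv v c0| ≤ |ψ c0| + |vv v c0 - ψ c0| := by
        have := abs_sub_abs_le_abs_sub (vv v c0) (ψ c0)
        linarith
      have h3 : 1 / (256 * s) ≤ 1 / 8 := by
        apply one_div_le_one_div_of_le (by norm_num); linarith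
      linarith [hψ c0]
    · refine Nat.le_floor (le_trans ?_ hc)
      have : (univ.filter fun j => v j ≠ 0) ⊆ univ.filter fun j => ψ j ≠ 0 := by
        intro j hj
        simp only [mem_filter, mem_univ, true_and] at hj ⊢
        exact fun h0 => hj (hzero j h0)
      exact_mod_cast card_le_card this
    · simp only [BB, mem_filter, mem_univ, true_and]
      intro i
      obtain ⟨z, hz⟩ := h i
      refine ⟨z, ?_⟩
      have h1 : |∑ c, (M67.mt (stL (2 * k - 1)) ω i c : ℝ) * (vv v c - ψ c)| ≤ 1 / (256 * s) := by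
        calc |∑ c, (M67.mt (stL (2 * k - 1)) ω i c : ℝ) * (vv v c - ψ c)|
            ≤ ∑ c, |(M67.mt (stL (2 * k - 1)) ω i c : ℝ) * (vv v c - ψ c)| := abs_sum_le_sum_abs _ _
          _ ≤ ∑ c, (if ψ c ≠ 0 then 1 / (2 * (L : ℝ)) else 0) := by
              refine sum_le_sum fun c _ => ?_
              split_ifs with h0
              · rw [abs_mul]
                have h2 : |(M67.mt (stL (2 * k - 1)) ω i c : ℝ)| ≤ 1 := stL_abs _
                calc |(M67.mt (stL (2 * k - 1)) ω i c : ℝ)| * |vv v c - ψ c| ≤ 1 * |vv v c - ψ c| :=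
                      mul_le_mul_of_nonneg_right h2 (abs_nonneg _)
                  _ = |vv v c - ψ c| := one_mul _
                  _ ≤ _ := hdiff c
              · push Not at h0
                rw [hzero' c h0, h0]; simp
          _ = (univ.filter fun c => ψ c ≠ 0).card * (1 / (2 * (L : ℝ))) := by
              rw [← sum_filter, sum_const, nsmul_eq_mul]
          _ ≤ s * (1 / (2 * (L : ℝ))) := mul_le_mul_of_nonneg_right hc (by positivity)
          _ ≤ 1 / (256 * s) := by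
              rw [mul_one_div, div_le_div_iff₀ (by positivity) (by positivity)]
              nlinarith
      have h3 : ∑ c, (M67.mt (stL (2 * k - 1)) ω i c : ℝ) * vv v c - z =
          (∑ c, (M67.mt (stL (2 * k - 1)) ω i c : ℝ) * ψ c - z) +
            ∑ c, (M67.mt (stL (2 * k - 1)) ω i c : ℝ) * (vv v c - ψ c) := by
        simp only [mul_sub, sum_sub_distrib]; ring
      rw [h3]
      refine (abs_add_le _ _).trans ?_
      have h4 : 1 / (64 * s) + 1 / (256 * s) ≤ 1 / (32 * s) := by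
        rw [div_add_div _ _ (by positivity) (by positivity), div_le_div_iff₀ (by positivity) (by positivity)]
        nlinarith [mul_pos hs0 hs0]
      linarith
  · calc ∑ v ∈ I, ∑ ω ∈ BB k L (1 / (32 * s)) v, W P (M67.mt (stL (2 * k - 1)) ω) ≤ ∑ _v ∈ I, CC k P := by
          refine sum_le_sum fun v hv => ?_
          obtain ⟨j, hj1, hj2⟩ := (mem_filter.1 hv).2.1
          refine one hk hP _ j fun ω => card_BB hk ?_ v j ?_ hj2 ω
          · apply one_div_le_one_div_of_le (by norm_num); linarith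
          · refine lt_of_lt_of_le ?_ hj1.le
            rw [mul_one_div, div_lt_div_iff₀ (by positivity) (by positivity)]
            linarith
      _ = I.card * CC k P := by rw [sum_const, nsmul_eq_mul]
      _ ≤ _ := mul_le_mul_of_nonneg_right hI (CC_nonneg _ _)

end bounds


section final

open Filter Real

/-- asymptotics -/
lemma asym (δ η Bc : ℝ) (hδ : 0 < δ) (hη : 0 < η) (hB : 0 ≤ Bc) :
    ∀ᶠ k : ℕ in atTop, 3 + Bc * (2 * (k : ℝ) ^ (1 - δ / 4)) * Real.logb 2 k ≤ η * k := by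
  have h1 : ∀ᶠ x : ℝ in atTop, ‖Real.log x‖ ≤ (η * Real.log 2 / (4 * (Bc + 1))) * ‖x ^ (δ / 4)‖ :=
    (isLittleO_log_rpow_atTop (by positivity : 0 < δ / 4)).def
      (by have := Real.log_pos one_lt_two; positivity)
  have h1' := tendsto_natCast_atTop_atTop.eventually h1
  have h2 : ∀ᶠ k : ℕ in atTop, 6 / η ≤ (k : ℝ) :=
    tendsto_natCast_atTop_atTop.eventually (eventually_ge_atTop _)
  filter_upwards [h1', h2, eventually_ge_atTop 1] with k hk1 hk2 hk3
  have hk0 : (0 : ℝ) < k := by exact_mod_cast hk3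
  have hk1' : (1 : ℝ) ≤ k := by exact_mod_cast hk3
  have hl2 := Real.log_pos one_lt_two
  rw [Real.norm_of_nonneg (Real.log_nonneg hk1'), Real.norm_of_nonneg (by positivity)] at hk1
  have h3 : (k : ℝ) ^ (1 - δ / 4) * (k : ℝ) ^ (δ / 4) = k := by
    rw [← Real.rpow_add hk0]; simp
  have h4 : (k : ℝ) ^ (1 - δ / 4) * Real.log k ≤ η * Real.log 2 / (4 * (Bc + 1)) * k := by
    calc (k : ℝ) ^ (1 - δ / 4) * Real.log k
        ≤ (k : ℝ) ^ (1 - δ / 4) * (η * Real.log 2 / (4 * (Bc + 1)) * (k : ℝ) ^ (δ / 4)) :=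
          mul_le_mul_of_nonneg_left hk1 (by positivity)
      _ = η * Real.log 2 / (4 * (Bc + 1)) * ((k : ℝ) ^ (1 - δ / 4) * (k : ℝ) ^ (δ / 4)) := by ring
      _ = _ := by rw [h3]
  have h5 : Bc * (2 * (k : ℝ) ^ (1 - δ / 4)) * Real.logb 2 k ≤ η / 2 * k := by
    unfold Real.logb
    have : Bc * (2 * (k : ℝ) ^ (1 - δ / 4)) * (Real.log k / Real.log 2) =
        2 * Bc / Real.log 2 * ((k : ℝ) ^ (1 - δ / 4) * Real.log k) := by ring
    rw [this]
    calc 2 * Bc / Real.log 2 * ((k : ℝ) ^ (1 - δ / 4) * Real.log k)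
        ≤ 2 * Bc / Real.log 2 * (η * Real.log 2 / (4 * (Bc + 1)) * k) :=
          mul_le_mul_of_nonneg_left h4 (by positivity)
      _ = (Bc / (Bc + 1)) * (η / 2 * k) := by field_simp; ring
      _ ≤ 1 * (η / 2 * k) := by
          refine mul_le_mul_of_nonneg_right ?_ (by positivity)
          rw [div_le_one (by positivity)]; linarith
      _ = _ := one_mul _
  have h6 : 3 ≤ η / 2 * k := by
    rw [div_le_iff₀ hη] at hk2
    linarith
  linarith

lemma rho_le {k : ℕ} (hk : 0 < k) :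
    (((4 * k + 2 : ℕ) : ℝ) / ((8 * k : ℕ) : ℝ)) ^ k ≤ 2 * (2 : ℝ) ^ (-(k : ℝ)) := by
  have hk0 : (0 : ℝ) < k := by exact_mod_cast hk
  have h1 : ((4 * k + 2 : ℕ) : ℝ) / ((8 * k : ℕ) : ℝ) = (1 / 2) * (1 + 1 / (2 * k)) := by
    push_cast; field_simp; ring
  rw [h1, mul_pow]
  have h2 : (1 + 1 / (2 * (k : ℝ))) ^ k ≤ 2 := by
    calc (1 + 1 / (2 * (k : ℝ))) ^ k ≤ (Real.exp (1 / (2 * k))) ^ k := by
          refine pow_le_pow_left₀ (by positivity) ?_ _
          have := Real.add_one_le_exp (1 / (2 * (k : ℝ)))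
          linarith
      _ = Real.exp (1 / 2) := by
          rw [← Real.exp_nat_mul]; congr 1; field_simp
      _ ≤ 2 := by
          have h3 : Real.exp (1 / 2) ^ 2 = Real.exp 1 := by
            rw [← Real.exp_nat_mul]; norm_num
          have h4 := Real.exp_one_lt_d9
          have h5 := Real.exp_pos (1 / 2)
          nlinarith
  have h3 : ((1 : ℝ) / 2) ^ k = (2 : ℝ) ^ (-(k : ℝ)) := by
    rw [Real.rpow_neg (by norm_num), Real.rpow_natCast, one_div, inv_pow]
  rw [h3, mul_comm]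
  exact mul_le_mul_of_nonneg_right h2 (by positivity)

theorem stmtSparse : StmtSparse := by
  intro δ b₁ β B η hδ hδ1 hb₁ hβ hB hη
  have hB1 : 1 ≤ B := hb₁.trans hB
  obtain ⟨k₁, hk₁⟩ := eventually_atTop.1 (asym δ η (B + 5) hδ hη (by linarith))
  refine ⟨max k₁ 300, fun k hk P hP => ?_⟩
  have hkk1 : k₁ ≤ k := le_trans (le_max_left _ _) hk
  have hk300 : 300 ≤ k := le_trans (le_max_right _ _) hk
  have hk0 : 0 < k := by omega
  have hkR : (300 : ℝ) ≤ k := by exact_mod_cast hk300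
  have hkp : (0 : ℝ) < k := by linarith
  have hk1 : (1 : ℝ) ≤ k := by linarith
  set s : ℝ := (k : ℝ) ^ (1 - δ / 4) with hs
  have hs1 : 1 ≤ s := Real.one_le_rpow hk1 (by linarith)
  have hsk : s ≤ k := by
    calc s ≤ (k : ℝ) ^ (1 : ℝ) := Real.rpow_le_rpow_of_exponent_le hk1 (by linarith)
      _ = k := Real.rpow_one _
  set L : ℕ := ⌈128 * s ^ 2⌉₊ with hLdef
  have hL : 128 * s ^ 2 ≤ L := Nat.le_ceil _
  have hL2 : (L : ℝ) ≤ 128 * (k : ℝ) ^ 2 + 1 := by
    have h1 : (L : ℝ) < 128 * s ^ 2 + 1 := Nat.ceil_lt_add_one (by positivity)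
    have h2 : s ^ 2 ≤ (k : ℝ) ^ 2 := pow_le_pow_left₀ (by linarith) hsk 2
    linarith
  set F : (Fin k → Fin k → Fin (8 * k)) → ℝ := fun ω => W P (M67.mt (stL (2 * k - 1)) ω) with hF
  have hF0 : ∀ ω, 0 ≤ F ω := fun ω => W_nonneg _ _
  set t : ℕ := ⌊s⌋₊ with ht
  have hts : (t : ℝ) ≤ s := Nat.floor_le (by linarith)
  set q : ℝ := (k : ℝ) ^ (B + 5) with hq
  have hq1 : 1 ≤ q := Real.one_le_rpow hk1 (by linarith)
  have hCC := CC_nonneg k P
  classical
  -- split
  have hsplit : ∑ ω ∈ (univ : Finset (Fin k → Fin k → Fin (8 * k))).filter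
        (fun ω => Sp P s (M67.mt (stL (2 * k - 1)) ω)), F ω ≤
      ∑ p ∈ P, ((k * p + 1 : ℕ) : ℝ) ^ t * CC k P + ((k * (2 * L + 1) + 1 : ℕ) : ℝ) ^ t * CC k P := by
    have h1 : ∑ ω ∈ (univ : Finset (Fin k → Fin k → Fin (8 * k))).filter
        (fun ω => Sp P s (M67.mt (stL (2 * k - 1)) ω)), F ω ≤
        ∑ ω ∈ (univ : Finset (Fin k → Fin k → Fin (8 * k))).filter
          (fun ω => Sparse P s (M67.mt (stL (2 * k - 1)) ω)), F ω +
        ∑ ω ∈ (univ : Finset (Fin k → Fin k → Fin (8 * k))).filter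
          (fun ω => SpB s (M67.mt (stL (2 * k - 1)) ω)), F ω := by
      have h2 : (univ : Finset (Fin k → Fin k → Fin (8 * k))).filter
          (fun ω => Sp P s (M67.mt (stL (2 * k - 1)) ω)) ⊆
          (univ : Finset (Fin k → Fin k → Fin (8 * k))).filter
            (fun ω => Sparse P s (M67.mt (stL (2 * k - 1)) ω)) ∪
          (univ : Finset (Fin k → Fin k → Fin (8 * k))).filter
            (fun ω => SpB s (M67.mt (stL (2 * k - 1)) ω)) := by
        intro ω hω
        rcases (mem_filter.1 hω).2 with h | h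
        · exact mem_union_left _ (mem_filter.2 ⟨mem_univ _, h⟩)
        · exact mem_union_right _ (mem_filter.2 ⟨mem_univ _, h⟩)
      refine (sum_le_sum_of_subset_of_nonneg h2 fun ω _ _ => hF0 ω).trans ?_
      have h3 := sum_union_inter (f := F) (s₁ := (univ : Finset (Fin k → Fin k → Fin (8 * k))).filter
            (fun ω => Sparse P s (M67.mt (stL (2 * k - 1)) ω))) (s₂ :=
          (univ : Finset (Fin k → Fin k → Fin (8 * k))).filter
            (fun ω => SpB s (M67.mt (stL (2 * k - 1)) ω)))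
      have h4 : 0 ≤ ∑ x ∈ ((univ : Finset (Fin k → Fin k → Fin (8 * k))).filter
            (fun ω => Sparse P s (M67.mt (stL (2 * k - 1)) ω))) ∩
          (univ : Finset (Fin k → Fin k → Fin (8 * k))).filter
            (fun ω => SpB s (M67.mt (stL (2 * k - 1)) ω)), F x := sum_nonneg fun ω _ => hF0 ω
      linarith
    refine h1.trans (add_le_add ?_ ?_)
    · refine (union_sum _ P (fun p => (univ : Finset (Fin k → Fin k → Fin (8 * k))).filter (fun ω =>
        ∃ u : Fin k → ZMod p, u ≠ 0 ∧ ((univ.filter fun j => u j ≠ 0).card : ℝ) < s ∧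
        ∀ i, ∑ j, (M67.mt (stL (2 * k - 1)) ω i j : ZMod p) * u j = 0)) F hF0 ?_).trans ?_
      · intro ω hω
        obtain ⟨p, hp, u, h⟩ := (mem_filter.1 hω).2
        exact ⟨p, hp, mem_filter.2 ⟨mem_univ _, u, h⟩⟩
      · refine sum_le_sum fun p hp => ?_
        convert spA hk0 hP.pr (hP.pr p hp) s
    · convert spB hk0 hP.pr hs1 hL
  -- count
  have hNk : (∏ p ∈ P, (p : ℝ)) ^ 2 ≤ (2 : ℝ) ^ (2 * β * k) := by
    have h0 : (0 : ℝ) ≤ ∏ p ∈ P, (p : ℝ) := prod_nonneg fun p _ => Nat.cast_nonneg _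
    calc (∏ p ∈ P, (p : ℝ)) ^ 2 ≤ ((2 : ℝ) ^ (β * k)) ^ 2 := pow_le_pow_left₀ h0 hP.size 2
      _ = (2 : ℝ) ^ (2 * β * k) := by
          rw [← Real.rpow_natCast, ← Real.rpow_mul (by norm_num)]; congr 1; push_cast; ring
  have hcard : (P.card : ℝ) ≤ q := by
    have h1 : P ⊆ Finset.Icc 1 ⌊(k : ℝ) ^ B⌋₊ := by
      intro p hp
      rw [Finset.mem_Icc]
      exact ⟨(hP.pr p hp).one_le, Nat.le_floor (hP.hi p hp)⟩
    have h2 : P.card ≤ ⌊(k : ℝ) ^ B⌋₊ := by
      have := card_le_card h1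
      rwa [Nat.card_Icc, Nat.add_sub_cancel] at this
    calc (P.card : ℝ) ≤ (⌊(k : ℝ) ^ B⌋₊ : ℝ) := by exact_mod_cast h2
      _ ≤ (k : ℝ) ^ B := Nat.floor_le (by positivity)
      _ ≤ q := Real.rpow_le_rpow_of_exponent_le hk1 (by linarith)
  have hkp1 : ∀ p ∈ P, ((k * p + 1 : ℕ) : ℝ) ≤ q := by
    intro p hp
    have h1 := hP.hi p hp
    have h2 : (k : ℝ) ^ (B + 2) = (k : ℝ) ^ B * (k * k) := by
      rw [Real.rpow_add hkp, Real.rpow_two]; ring
    have h3 : (1 : ℝ) ≤ (k : ℝ) ^ B := Real.one_le_rpow hk1 (by linarith)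
    push_cast
    calc (k : ℝ) * p + 1 ≤ k * (k : ℝ) ^ B + (k : ℝ) ^ B := by
          have := mul_le_mul_of_nonneg_left h1 hkp.le
          linarith
      _ ≤ (k : ℝ) ^ B * (k * k) := by
          have h4 : (k : ℝ) + 1 ≤ k * k := by nlinarith
          have h5 := mul_le_mul_of_nonneg_left h4 (by linarith : (0 : ℝ) ≤ (k : ℝ) ^ B)
          linarith
      _ = (k : ℝ) ^ (B + 2) := h2.symm
      _ ≤ q := Real.rpow_le_rpow_of_exponent_le hk1 (by linarith)
  have hkL : ((k * (2 * L + 1) + 1 : ℕ) : ℝ) ≤ q := by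
    push_cast
    calc (k : ℝ) * (2 * L + 1) + 1 ≤ k * (2 * (128 * (k : ℝ) ^ 2 + 1) + 1) + 1 := by
          have := mul_le_mul_of_nonneg_left (show (2 * (L : ℝ) + 1) ≤ 2 * (128 * (k : ℝ) ^ 2 + 1) + 1 by linarith) hkp.le
          linarith
      _ ≤ (k : ℝ) ^ (4 : ℕ) := by nlinarith [sq_nonneg ((k : ℝ) ^ 2), mul_pos hkp hkp, mul_pos (mul_pos hkp hkp) hkp]
      _ = (k : ℝ) ^ (4 : ℝ) := by norm_cast
      _ ≤ q := Real.rpow_le_rpow_of_exponent_le hk1 (by linarith)
  have hcount : ∑ p ∈ P, ((k * p + 1 : ℕ) : ℝ) ^ t * CC k P + ((k * (2 * L + 1) + 1 : ℕ) : ℝ) ^ t * CC k P ≤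
      2 * q ^ (t + 1) * CC k P := by
    have h1 : ∑ p ∈ P, ((k * p + 1 : ℕ) : ℝ) ^ t * CC k P ≤ q ^ (t + 1) * CC k P := by
      calc ∑ p ∈ P, ((k * p + 1 : ℕ) : ℝ) ^ t * CC k P ≤ ∑ _p ∈ P, q ^ t * CC k P := by
            refine sum_le_sum fun p hp => mul_le_mul_of_nonneg_right ?_ hCC
            exact pow_le_pow_left₀ (Nat.cast_nonneg _) (hkp1 p hp) t
        _ = P.card * (q ^ t * CC k P) := by rw [sum_const, nsmul_eq_mul]
        _ ≤ q * (q ^ t * CC k P) := mul_le_mul_of_nonneg_right hcard (by positivity)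
        _ = _ := by ring
    have h2 : ((k * (2 * L + 1) + 1 : ℕ) : ℝ) ^ t * CC k P ≤ q ^ (t + 1) * CC k P := by
      refine mul_le_mul_of_nonneg_right ?_ hCC
      calc ((k * (2 * L + 1) + 1 : ℕ) : ℝ) ^ t ≤ q ^ t := pow_le_pow_left₀ (Nat.cast_nonneg _) hkL t
        _ ≤ q ^ (t + 1) := pow_le_pow_right₀ hq1 (Nat.le_succ t)
    linarith
  have hqt : q ^ (t + 1) ≤ (2 : ℝ) ^ ((B + 5) * (2 * s) * Real.logb 2 k) := by
    have h1 : (k : ℝ) = (2 : ℝ) ^ (Real.logb 2 k) := by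
      rw [Real.rpow_logb (by norm_num) (by norm_num) hkp]
    have hlog : 0 ≤ Real.logb 2 k := Real.logb_nonneg (by norm_num) hk1
    calc q ^ (t + 1) = (2 : ℝ) ^ ((B + 5) * ((t + 1 : ℕ) : ℝ) * Real.logb 2 k) := by
          rw [hq, ← Real.rpow_natCast, ← Real.rpow_mul hkp.le]
          conv_lhs => rw [h1]
          rw [← Real.rpow_mul (by norm_num)]
          congr 1; ring
      _ ≤ _ := by
          refine Real.rpow_le_rpow_of_exponent_le (by norm_num) ?_
          refine mul_le_mul_of_nonneg_right ?_ hlog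
          refine mul_le_mul_of_nonneg_left ?_ (by linarith)
          push_cast; linarith
  have hsum0 : 0 ≤ ∑ ω : Fin k → Fin k → Fin (8 * k), F ω := sum_nonneg fun ω _ => hF0 ω
  have hCCle : CC k P ≤ (2 : ℝ) ^ (2 * β * k) * (2 * (2 : ℝ) ^ (-(k : ℝ))) *
      ∑ ω : Fin k → Fin k → Fin (8 * k), F ω := by
    unfold CC
    refine mul_le_mul_of_nonneg_right ?_ hsum0
    exact mul_le_mul hNk (rho_le hk0) (by positivity) (by positivity)
  have hfin := hk₁ k hkk1
  have hexp : 2 * (2 : ℝ) ^ ((B + 5) * (2 * s) * Real.logb 2 k) *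
      ((2 : ℝ) ^ (2 * β * k) * (2 * (2 : ℝ) ^ (-(k : ℝ)))) ≤ (2 : ℝ) ^ (-(1 - 2 * β - η) * k) := by
    have e1 : 2 * (2 : ℝ) ^ ((B + 5) * (2 * s) * Real.logb 2 k) *
      ((2 : ℝ) ^ (2 * β * k) * (2 * (2 : ℝ) ^ (-(k : ℝ)))) =
      (2 : ℝ) ^ (2 + (B + 5) * (2 * s) * Real.logb 2 k + 2 * β * k + -(k : ℝ)) := by
      rw [Real.rpow_add (by norm_num), Real.rpow_add (by norm_num), Real.rpow_add (by norm_num)]
      norm_num; ring
    rw [e1]
    refine Real.rpow_le_rpow_of_exponent_le (by norm_num) ?_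
    have : 3 + (B + 5) * (2 * s) * Real.logb 2 k ≤ η * k := hfin
    linarith
  calc ∑ ω ∈ (univ : Finset (Fin k → Fin k → Fin (8 * k))).filter
        (fun ω => Sp P s (M67.mt (stL (2 * k - 1)) ω)), F ω
      ≤ 2 * q ^ (t + 1) * CC k P := hsplit.trans hcount
    _ ≤ 2 * (2 : ℝ) ^ ((B + 5) * (2 * s) * Real.logb 2 k) *
        ((2 : ℝ) ^ (2 * β * k) * (2 * (2 : ℝ) ^ (-(k : ℝ))) *
          ∑ ω : Fin k → Fin k → Fin (8 * k), F ω) := by
        refine mul_le_mul ?_ hCCle hCC (by positivity)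
        exact mul_le_mul_of_nonneg_left hqt (by norm_num)
    _ = 2 * (2 : ℝ) ^ ((B + 5) * (2 * s) * Real.logb 2 k) *
        ((2 : ℝ) ^ (2 * β * k) * (2 * (2 : ℝ) ^ (-(k : ℝ)))) *
          ∑ ω : Fin k → Fin k → Fin (8 * k), F ω := by ring
    _ ≤ _ := mul_le_mul_of_nonneg_right hexp hsum0

end final

end Vale.Agent.P160.Half.Sp807
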