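import Vale.Agent.P160.Half.M8Top
import Vale.Agent.P160.Half.SgnRed
import Vale.Agent.P160.ST12

/-! # P160, half rate: singular symmetric 0/1 matrices, every rate below `1 / 2` -/

open Finset Matrix Filter

namespace Vale.Agent.P160.Half.M8Top

open Vale.Agent.P160 Vale.Agent.P160.Half

theorem sing (r : ℝ) (hr : r < 1 / 2) : Sing r := by
  classical
  set s : ℝ := (r + 1 / 2) / 2 with hs
  have h1 : 1 / Real.sqrt 2 < (2 : ℝ) ^ (-s) := by
    have h2 : (1 : ℝ) / Real.sqrt 2 = 2 ^ (-(1 / 2 : ℝ)) := by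
      rw [Real.sqrt_eq_rpow, one_div, ← Real.rpow_neg (by norm_num)]
    rw [h2]
    exact Real.rpow_lt_rpow_of_exponent_lt (by norm_num) (by linarith)
  obtain ⟨n₀, hn₀⟩ := eventually_atTop.1 (eventually_le6 h1)
  refine ⟨n₀ + ⌈|s| / (s - r)⌉₊, fun n hn => ?_⟩
  have h2 := hn₀ (n + 1) (by omega)
  have h3 : Pb (fun b : Sym2 (Fin (n + 1)) → Bool => (signM b).det = 0) =
      ((univ.filter fun b : Sym2 (Fin (n + 1)) → Bool => (SgnRed.sgM b).det = 0).card : ℝ) /
        2 ^ Fintype.card (Sym2 (Fin (n + 1))) := by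
    unfold Pb
    congr!
  rw [h3, SgnRed.prob_sgM, div_le_iff₀ (by positivity)] at h2
  have h4 : (Nat.card {b : Sym2 (Fin n) → Bool // (matZ b).det = 0} : ℝ) =
      ((univ.filter fun c : Sym2 (Fin n) → Bool => (matZ c).det = 0).card : ℝ) := by
    rw [Nat.card_eq_fintype_card, Fintype.card_subtype]
  rw [h4]
  refine h2.trans (mul_le_mul_of_nonneg_right ?_ (by positivity))
  rw [← Real.rpow_natCast, ← Real.rpow_mul (by norm_num)]
  refine Real.rpow_le_rpow_of_exponent_le (by norm_num) ?_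
  have hsr : 0 < s - r := by rw [hs]; linarith
  have h5 : |s| / (s - r) ≤ n := (Nat.le_ceil _).trans (by exact_mod_cast (by omega : ⌈|s| / (s - r)⌉₊ ≤ n))
  rw [div_le_iff₀ hsr] at h5
  push_cast
  have h6 := neg_abs_le s
  nlinarith

end Vale.Agent.P160.Half.M8Top
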