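import Vale.Agent.P160.Half.Rich
import Vale.Agent.P160.Half.GFin

/-! # P160, half rate: part (A) is complete (helper667 for all of part (A)) -/

namespace Vale.Agent.P160.Half.A

/-- **part (A)**: rich classes are rare -/
theorem richSmallFin : RichSmall := rich_of_G G.stmtG

/-- the same (second name) -/
theorem richSmall_main : RichSmall := richSmallFin

end Vale.Agent.P160.Half.A
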