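import Vale.Agent.P160.Half.RowHyp428
import Vale.Agent.P160.Half.DetSmall428
import Vale.Agent.P160.Half.M8Key
import Vale.Agent.P160.Half.M8Even
import Vale.Agent.P160.Half.M8Mom
import Vale.Agent.P160.Half.M8NG

/-! # P160, rate 1/2, part (M): `RowHyp b₁` from the i.i.d. input alone (helper428) -/

namespace Vale.Agent.P160.Half.RowHypAll428

open Vale.Agent.P160.Half

/-- **The one-row hypothesis from the i.i.d. input.** -/
theorem rowHyp (b₁ : ℝ) (hb : 199 / 100 ≤ b₁) (hXi : ∀ B : ℝ, 2 ≤ B → M8.StmtXi b₁ (1 / 8) (3 / 5) B) :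
    MProd.RowHyp b₁ :=
  RowHyp428.rowHyp_of (M8.notGood (M8.mom (M8.even M8.key)))
    (DetSmall428.det_small (2 / 5) (by norm_num)) b₁ hb hXi

end Vale.Agent.P160.Half.RowHypAll428
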