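import Vale.Agent.P160.Half.SparseAB

set_option linter.unusedSectionVars false

/-! # P160/Half: `StmtSparse` of `M67Stmt` -/

namespace Vale.Agent.P160.Half.StmtSparse324

open Finset Module Vale.Agent.P160.Half.SparseDel Vale.Agent.P160.Half.SparseSq
  Vale.Agent.P160.Half.SparseAB

lemma W_eq {Ω : Type} [Fintype Ω] (e : Ω → ℤ) {P : Finset ℕ} (hP : ∀ p ∈ P, p.Prime) {k : ℕ}
    (ω : Fin k → Fin k → Ω) : M67.W P (M67.mt e ω) = SparseDel.W e P (tr ω) := by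
  unfold M67.W SparseDel.W
  apply Finset.prod_congr rfl
  intro p hp
  have : Fact p.Prime := ⟨hP p hp⟩
  unfold cor M67.rkp
  have h : (Matrix.of fun i j => ((e (tr ω i j) : ℤ) : ZMod p)) =
      ((M67.mt e ω).map (Int.cast : ℤ → ZMod p)).transpose := rfl
  rw [h, Matrix.rank_transpose]

lemma sp_of {Ω : Type} [Fintype Ω] (e : Ω → ℤ) {P : Finset ℕ} {k : ℕ} {E : ℝ}
    (ω : Fin k → Fin k → Ω) (h : M67.Sp P E (M67.mt e ω)) :
    Sp e P ⌊E⌋₊ univ (tr ω) ∨ SB e E (tr ω) := by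
  rcases h with ⟨p, hp, u, hu, hc, h⟩ | ⟨ψ, h1, h2, h3, h4⟩
  · left
    refine ⟨p, hp, u, hu, ?_, ?_⟩
    · apply Nat.le_floor
      exact hc.le
    · intro j _
      rw [← h j]
      apply Finset.sum_congr rfl
      intro i _
      rw [mul_comm]
      rfl
  · right
    refine ⟨ψ, h1, ?_, h3, h4⟩
    convert h2

section law

lemma stL_val (L : ℕ) {M : ℕ} (w : Fin M) : stL L w = 0 ∨ stL L w = 1 ∨ stL L w = -1 := by
  unfold stL
  split_ifs <;> simp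

lemma card_fin_filter (M : ℕ) (P : ℕ → Prop) [DecidablePred P] :
    (univ.filter fun w : Fin M => P w.val).card = ((range M).filter P).card := by
  rw [card_filter, card_filter, Fin.sum_univ_eq_sum_range (fun i => if P i then 1 else 0) M]

lemma card_stL_zero {k : ℕ} (hk : 0 < k) :
    ((univ.filter fun w : Fin (8 * k) => stL (2 * k - 1) w = 0).card : ℝ) ≤
      (1 / 2 * (1 + 1 / (2 * k))) * Fintype.card (Fin (8 * k)) := by
  have h1 : (univ.filter fun w : Fin (8 * k) => stL (2 * k - 1) w = 0).card ≤ 4 * k + 2 := by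
    have h2 : (univ.filter fun w : Fin (8 * k) => stL (2 * k - 1) w = 0) ⊆
        (univ.filter fun w : Fin (8 * k) => 4 * k - 2 ≤ w.val) := by
      intro w hw
      simp only [mem_filter, mem_univ, true_and] at hw ⊢
      by_contra hlt
      push Not at hlt
      unfold stL at hw
      split_ifs at hw
      all_goals omega
    refine (Finset.card_le_card h2).trans ?_
    rw [card_fin_filter (8 * k) (fun x => 4 * k - 2 ≤ x)]
    have h3 : (range (8 * k)).filter (fun x => 4 * k - 2 ≤ x) = Finset.Ico (4 * k - 2) (8 * k) := by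
      ext x
      simp only [mem_filter, mem_range, mem_Ico]
      tauto
    rw [h3, Nat.card_Ico]
    omega
  have hk0 : (0 : ℝ) < k := by exact_mod_cast hk
  calc _ ≤ ((4 * k + 2 : ℕ) : ℝ) := by exact_mod_cast h1
    _ = _ := by
      rw [Fintype.card_fin]
      push_cast
      field_simp
      ring

lemma card_stL_ne {k : ℕ} (hk : 0 < k) :
    ((univ.filter fun w : Fin (8 * k) => stL (2 * k - 1) w ≠ 0).card : ℝ) ≤
      (1 / 2 * (1 + 1 / (2 * k))) * Fintype.card (Fin (8 * k)) := by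
  have h1 : (univ.filter fun w : Fin (8 * k) => stL (2 * k - 1) w ≠ 0).card ≤ 4 * k - 2 := by
    have h2 : (univ.filter fun w : Fin (8 * k) => stL (2 * k - 1) w ≠ 0) ⊆
        (univ.filter fun w : Fin (8 * k) => w.val < 4 * k - 2) := by
      intro w hw
      simp only [mem_filter, mem_univ, true_and] at hw ⊢
      by_contra hlt
      push Not at hlt
      apply hw
      unfold stL
      rw [if_neg (by omega), if_neg (by omega)]
    refine (Finset.card_le_card h2).trans ?_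
    rw [card_fin_filter (8 * k) (fun x => x < 4 * k - 2)]
    have h3 : (range (8 * k)).filter (fun x => x < 4 * k - 2) ⊆ range (4 * k - 2) := by
      intro x
      simp only [mem_filter, mem_range]
      tauto
    refine (Finset.card_le_card h3).trans ?_
    rw [card_range]
  have hk0 : (0 : ℝ) < k := by exact_mod_cast hk
  calc _ ≤ ((4 * k + 2 : ℕ) : ℝ) := by exact_mod_cast h1.trans (by omega)
    _ = _ := by
      rw [Fintype.card_fin]
      push_cast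
      field_simp
      ring

lemma stL_atom {k : ℕ} (hk : 0 < k) {p : ℕ} (hp : p.Prime) (z : ZMod p) :
    ((univ.filter fun w : Fin (8 * k) => ((stL (2 * k - 1) w : ℤ) : ZMod p) = z).card : ℝ) ≤
      (1 / 2 * (1 + 1 / (2 * k))) * Fintype.card (Fin (8 * k)) := by
  have : Fact p.Prime := ⟨hp⟩
  by_cases hz : z = 0
  · refine le_trans ?_ (card_stL_zero hk)
    apply Nat.cast_le.2
    apply Finset.card_le_card
    intro w hw
    simp only [mem_filter, mem_univ, true_and] at hw ⊢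
    rw [hz] at hw
    rcases stL_val (2 * k - 1) w with h | h | h
    · exact h
    · rw [h] at hw; simp at hw
    · rw [h] at hw; simp at hw
  · refine le_trans ?_ (card_stL_ne hk)
    apply Nat.cast_le.2
    apply Finset.card_le_card
    intro w hw
    simp only [mem_filter, mem_univ, true_and] at hw ⊢
    intro h
    rw [h] at hw
    apply hz
    rw [← hw]
    simp

end law

lemma sum_choose_le {k s : ℕ} (hk : 1 ≤ k) :
    (∑ j ∈ range (s + 1), (k.choose j : ℝ)) ≤ (s + 1) * (k : ℝ) ^ s := by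
  have hk1 : (1 : ℝ) ≤ k := by exact_mod_cast hk
  calc (∑ j ∈ range (s + 1), (k.choose j : ℝ)) ≤ ∑ _j ∈ range (s + 1), (k : ℝ) ^ s := by
        apply Finset.sum_le_sum
        intro j hj
        rw [mem_range] at hj
        calc (k.choose j : ℝ) ≤ (k : ℝ) ^ j := by exact_mod_cast Nat.choose_le_pow k j
          _ ≤ (k : ℝ) ^ s := pow_le_pow_right₀ hk1 (by omega)
    _ = _ := by
        rw [sum_const, card_range, nsmul_eq_mul]
        push_cast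
        ring

/-- the numerical inequality -/
lemma numerics (δ B η : ℝ) (hδ : 0 < δ) (hδ1 : δ ≤ 1) (hB : 1 ≤ B) (hη : 0 < η) :
    ∃ k₀ : ℕ, ∀ k ≥ k₀, ∀ s Q : ℕ, (s : ℝ) ≤ (k : ℝ) ^ (1 - δ / 4) → (Q : ℝ) ≤ 65 * (k : ℝ) ^ 2 →
      ∀ c : ℝ, 0 ≤ c → c ≤ 2 * (k : ℝ) ^ B →
      1 ≤ k ∧ (c * (∑ j ∈ range (s + 1), (k.choose j : ℝ)) * (2 : ℝ) ^ s +
        k * ((∑ j ∈ range (s + 1), (k.choose j : ℝ)) * (2 * Q + 1) ^ s)) * 2 ≤
        (2 : ℝ) ^ (η * k) := by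
  have hδ4 : 0 < δ / 4 := by positivity
  have hlog := (isLittleO_log_rpow_atTop hδ4).bound
    (show (0 : ℝ) < η * Real.log 2 / (B + 13) from by
      have := Real.log_pos one_lt_two; positivity)
  have hlog' := tendsto_natCast_atTop_atTop (R := ℝ) |>.eventually hlog
  have hev := hlog'.and (Filter.eventually_ge_atTop 131)
  obtain ⟨k₀, hk₀⟩ := Filter.eventually_atTop.1 hev
  refine ⟨k₀, fun k hk s Q hs hQ c hc0 hc => ?_⟩
  obtain ⟨h1, h3⟩ := hk₀ k hk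
  have hk1 : (131 : ℝ) ≤ k := by exact_mod_cast h3
  have hk0 : (0 : ℝ) < k := by linarith
  have hk1' : (1 : ℝ) ≤ k := by linarith
  refine ⟨by omega, ?_⟩
  have hpow1 : (k : ℝ) ^ (1 - δ / 4) ≤ k := by
    calc (k : ℝ) ^ (1 - δ / 4) ≤ (k : ℝ) ^ (1 : ℝ) :=
          Real.rpow_le_rpow_of_exponent_le hk1' (by linarith)
      _ = k := Real.rpow_one _
  have hsk : (s : ℝ) ≤ k := hs.trans hpow1
  have hS := sum_choose_le (k := k) (s := s) (by omega)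
  set S : ℝ := ∑ j ∈ range (s + 1), (k.choose j : ℝ) with hSdef
  have hS0 : 0 ≤ S := Finset.sum_nonneg fun j _ => by positivity
  have hS2 : S ≤ (k : ℝ) ^ (s + 2) := by
    calc S ≤ (s + 1) * (k : ℝ) ^ s := hS
      _ ≤ (k : ℝ) ^ 2 * (k : ℝ) ^ s := by
        gcongr
        nlinarith
      _ = _ := by ring
  have hQ2 : (2 * Q + 1 : ℝ) ≤ (k : ℝ) ^ 3 := by
    calc (2 * Q + 1 : ℝ) ≤ 130 * (k : ℝ) ^ 2 + 1 := by linarith
      _ ≤ 131 * (k : ℝ) ^ 2 := by nlinarith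
      _ ≤ k * (k : ℝ) ^ 2 := by gcongr
      _ = _ := by ring
  have h2s : (2 : ℝ) ^ s ≤ (k : ℝ) ^ s := by gcongr; linarith
  have hkB : (0 : ℝ) < (k : ℝ) ^ B := by positivity
  have hkB1 : (1 : ℝ) ≤ (k : ℝ) ^ B := Real.one_le_rpow hk1' (by linarith)
  -- everything is at most k ^ (4 s + 5) * k ^ B
  have hT1 : c * S * (2 : ℝ) ^ s ≤ (k : ℝ) ^ B * (k : ℝ) ^ (4 * s + 3) := by
    calc c * S * (2 : ℝ) ^ s ≤ (2 * (k : ℝ) ^ B) * (k : ℝ) ^ (s + 2) * (k : ℝ) ^ s := by gcongr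
      _ ≤ (k * (k : ℝ) ^ B) * (k : ℝ) ^ (s + 2) * (k : ℝ) ^ s := by gcongr; linarith
      _ = (k : ℝ) ^ B * (k : ℝ) ^ (2 * s + 3) := by
        rw [show 2 * s + 3 = 1 + (s + 2) + s by ring, pow_add, pow_add]
        ring
      _ ≤ _ := by
        apply mul_le_mul_of_nonneg_left _ hkB.le
        exact pow_le_pow_right₀ hk1' (by omega)
  have hT2 : k * (S * (2 * Q + 1 : ℝ) ^ s) ≤ (k : ℝ) ^ B * (k : ℝ) ^ (4 * s + 3) := by
    calc k * (S * (2 * Q + 1 : ℝ) ^ s) ≤ k * ((k : ℝ) ^ (s + 2) * ((k : ℝ) ^ 3) ^ s) := by gcongr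
      _ = 1 * (k : ℝ) ^ (4 * s + 3) := by
        rw [← pow_mul, show 4 * s + 3 = 1 + (s + 2) + 3 * s by ring, pow_add, pow_add]
        ring
      _ ≤ _ := by gcongr
  have hT : (c * S * (2 : ℝ) ^ s + k * (S * (2 * Q + 1 : ℝ) ^ s)) * 2 ≤
      (k : ℝ) ^ (B + 4 * s + 5) := by
    calc _ ≤ ((k : ℝ) ^ B * (k : ℝ) ^ (4 * s + 3) + (k : ℝ) ^ B * (k : ℝ) ^ (4 * s + 3)) * 2 := by
          gcongr
      _ = 4 * ((k : ℝ) ^ B * (k : ℝ) ^ (4 * s + 3)) := by ring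
      _ ≤ (k : ℝ) ^ 2 * ((k : ℝ) ^ B * (k : ℝ) ^ (4 * s + 3)) := by
          gcongr
          nlinarith
      _ = (k : ℝ) ^ B * (k : ℝ) ^ (4 * s + 5) := by ring
      _ = (k : ℝ) ^ (B + 4 * s + 5) := by
          rw [← Real.rpow_natCast, ← Real.rpow_add hk0]
          congr 1
          push_cast
          ring
  refine hT.trans ?_
  rw [Real.rpow_def_of_pos hk0, Real.rpow_def_of_pos (by norm_num : (0 : ℝ) < 2)]
  apply Real.exp_le_exp.2
  have hl0 : 0 ≤ Real.log k := Real.log_nonneg hk1'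
  rw [Real.norm_of_nonneg hl0, Real.norm_of_nonneg (by positivity)] at h1
  have hone : (1 : ℝ) ≤ (k : ℝ) ^ (1 - δ / 4) := Real.one_le_rpow hk1' (by linarith)
  have hkd : (k : ℝ) ^ (1 - δ / 4) * (k : ℝ) ^ (δ / 4) = k := by
    rw [← Real.rpow_add hk0]; simp
  have hexp : B + 4 * s + 5 ≤ (B + 13) * (k : ℝ) ^ (1 - δ / 4) := by
    nlinarith
  calc Real.log k * (B + 4 * s + 5) ≤ Real.log k * ((B + 13) * (k : ℝ) ^ (1 - δ / 4)) := by gcongr
    _ ≤ (η * Real.log 2 / (B + 13) * (k : ℝ) ^ (δ / 4)) * ((B + 13) * (k : ℝ) ^ (1 - δ / 4)) := by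
        gcongr
    _ = η * Real.log 2 * ((k : ℝ) ^ (1 - δ / 4) * (k : ℝ) ^ (δ / 4)) := by
        field_simp
    _ = Real.log 2 * (η * k) := by rw [hkd]; ring

open scoped Classical in
lemma finite_form {Ω : Type} [Fintype Ω] (e : Ω → ℤ) (he : ∀ w, e w = 0 ∨ e w = 1 ∨ e w = -1)
    {P : Finset ℕ} (hP : ∀ p ∈ P, p.Prime) {al : ℝ} (h0 : 0 ≤ al) (h1 : al ≤ 1)
    (hz : ((univ.filter fun w : Ω => e w = 0).card : ℝ) ≤ al * Fintype.card Ω)
    (hn : ((univ.filter fun w : Ω => e w ≠ 0).card : ℝ) ≤ al * Fintype.card Ω)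
    (hat : ∀ p ∈ P, ∀ z : ZMod p,
      ((univ.filter fun w : Ω => ((e w : ℤ) : ZMod p) = z).card : ℝ) ≤ al * Fintype.card Ω)
    {E : ℝ} (hE : 1 ≤ E) {Q a : ℕ} (hQ : 64 * E ^ 2 ≤ Q) :
    ∑ ω ∈ (univ : Finset (Fin (a + 1) → Fin (a + 1) → Ω)).filter
      (fun ω => M67.Sp P E (M67.mt e ω)), M67.W P (M67.mt e ω) ≤
      ((P.card : ℝ) * (∑ j ∈ range (⌊E⌋₊ + 1), ((a + 1).choose j : ℝ)) *
        ((∏ p ∈ P, (p : ℝ)) ^ 2 * al ^ (a + 1 - ⌊E⌋₊)) +
      (a + 1) * ((∑ j ∈ range (⌊E⌋₊ + 1), ((a + 1).choose j : ℝ)) * (2 * Q + 1) ^ ⌊E⌋₊) *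
        ((∏ p ∈ P, (p : ℝ)) ^ 2 * al ^ (a + 1))) *
      ∑ ω : Fin (a + 1) → Fin (a + 1) → Ω, M67.W P (M67.mt e ω) := by
  have hA := part_a e hP h0 h1 hat a (a + 1) ⌊E⌋₊
  have hB := part_b e he hP h0 hz hn hE a (a + 1) hQ le_rfl
  have hW : ∑ ω : Fin (a + 1) → Fin (a + 1) → Ω, M67.W P (M67.mt e ω) =
      ∑ M : Fin (a + 1) → Fin (a + 1) → Ω, SparseDel.W e P M := by
    rw [sum_tr (fun M : Fin (a + 1) → Fin (a + 1) → Ω => SparseDel.W e P M)]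
    exact Finset.sum_congr rfl fun ω _ => W_eq e hP ω
  rw [Finset.sum_filter, hW]
  have hstep : ∀ ω : Fin (a + 1) → Fin (a + 1) → Ω,
      (if M67.Sp P E (M67.mt e ω) then M67.W P (M67.mt e ω) else 0) ≤
      (if Sp e P ⌊E⌋₊ univ (tr ω) then SparseDel.W e P (tr ω) else 0) +
        (if SB e E (tr ω) then SparseDel.W e P (tr ω) else 0) := by
    intro ω
    have hnn := W_nonneg e P (tr ω)
    rw [W_eq e hP ω]
    by_cases h : M67.Sp P E (M67.mt e ω)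
    · rcases sp_of e ω h with h2 | h2
      · rw [if_pos h, if_pos h2]
        have : 0 ≤ (if SB e E (tr ω) then SparseDel.W e P (tr ω) else 0) := by
          split_ifs <;> simp [hnn]
        linarith
      · rw [if_pos h, if_pos h2]
        have : 0 ≤ (if Sp e P ⌊E⌋₊ univ (tr ω) then SparseDel.W e P (tr ω) else 0) := by
          split_ifs <;> simp [hnn]
        linarith
    · rw [if_neg h]
      apply add_nonneg <;> split_ifs <;> simp [hnn]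
  have htr1 := sum_tr (fun M : Fin (a + 1) → Fin (a + 1) → Ω =>
    if Sp e P ⌊E⌋₊ univ M then SparseDel.W e P M else 0)
  have htr2 := sum_tr (fun M : Fin (a + 1) → Fin (a + 1) → Ω =>
    if SB e E M then SparseDel.W e P M else 0)
  calc _ ≤ ∑ ω : Fin (a + 1) → Fin (a + 1) → Ω,
        ((if Sp e P ⌊E⌋₊ univ (tr ω) then SparseDel.W e P (tr ω) else 0) +
        (if SB e E (tr ω) then SparseDel.W e P (tr ω) else 0)) :=
        Finset.sum_le_sum fun ω _ => hstep ω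
    _ = ∑ M : Fin (a + 1) → Fin (a + 1) → Ω,
          (if Sp e P ⌊E⌋₊ univ M then SparseDel.W e P M else 0) +
        ∑ M : Fin (a + 1) → Fin (a + 1) → Ω, (if SB e E M then SparseDel.W e P M else 0) := by
        rw [Finset.sum_add_distrib, htr1, htr2]
    _ ≤ _ := by
        refine (add_le_add hA hB).trans (le_of_eq ?_)
        ring

lemma card_P_le {k : ℕ} {B : ℝ} {P : Finset ℕ} (hP : ∀ p ∈ P, p.Prime)
    (hhi : ∀ p ∈ P, (p : ℝ) ≤ (k : ℝ) ^ B) : (P.card : ℝ) ≤ (k : ℝ) ^ B := by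
  have h1 : P ⊆ Finset.Icc 1 ⌊(k : ℝ) ^ B⌋₊ := by
    intro p hp
    rw [mem_Icc]
    exact ⟨(hP p hp).one_le, Nat.le_floor (hhi p hp)⟩
  have h2 := Finset.card_le_card h1
  rw [Nat.card_Icc] at h2
  calc (P.card : ℝ) ≤ (⌊(k : ℝ) ^ B⌋₊ : ℝ) := by exact_mod_cast (by omega : P.card ≤ ⌊(k : ℝ) ^ B⌋₊)
    _ ≤ _ := Nat.floor_le (by positivity)

lemma al_pow {k : ℕ} (hk : 0 < k) : (1 / 2 * (1 + 1 / (2 * (k : ℝ)))) ^ k ≤ 2 * (2 : ℝ) ^ (-(k : ℝ)) := by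
  have hk0 : (0 : ℝ) < k := by exact_mod_cast hk
  have h1 : (1 + 1 / (2 * (k : ℝ))) ^ k ≤ 2 := by
    have h2 : 1 + 1 / (2 * (k : ℝ)) ≤ Real.exp (1 / (2 * k)) := by
      have := Real.add_one_le_exp (1 / (2 * (k : ℝ)))
      linarith
    calc (1 + 1 / (2 * (k : ℝ))) ^ k ≤ (Real.exp (1 / (2 * k))) ^ k := by gcongr
      _ = Real.exp (1 / 2) := by
        rw [← Real.exp_nat_mul]
        congr 1
        field_simp
      _ ≤ 2 := by
        have h3 : Real.exp (1 / 2) ^ 2 ≤ 2 ^ 2 := by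
          rw [← Real.exp_nat_mul]
          norm_num
          have := Real.exp_one_lt_d9
          linarith
        exact le_of_sq_le_sq h3 (by norm_num)
  rw [mul_pow]
  have h4 : (1 / 2 : ℝ) ^ k = (2 : ℝ) ^ (-(k : ℝ)) := by
    rw [Real.rpow_neg (by norm_num), Real.rpow_natCast]
    simp
  rw [h4, mul_comm]
  gcongr

theorem sparse : M67.StmtSparse := by
  intro δ b₁ β B η hδ hδ1 hb₁ hβ hbB hη
  have hB : 1 ≤ B := hb₁.trans hbB
  obtain ⟨k₀, hk₀⟩ := numerics δ B η hδ hδ1 hB hη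
  refine ⟨max k₀ 1, fun k hk P hP => ?_⟩
  have hkk : k₀ ≤ k := le_trans (le_max_left _ _) hk
  have hk1 : 1 ≤ k := le_trans (le_max_right _ _) hk
  obtain ⟨a, rfl⟩ : ∃ a, k = a + 1 := ⟨k - 1, by omega⟩
  have hk1' : (1 : ℝ) ≤ ((a + 1 : ℕ) : ℝ) := by exact_mod_cast hk1
  set E : ℝ := ((a + 1 : ℕ) : ℝ) ^ (1 - δ / 4) with hEdef
  have hE : 1 ≤ E := Real.one_le_rpow hk1' (by linarith)
  have hEk : E ≤ ((a + 1 : ℕ) : ℝ) := by
    calc E ≤ ((a + 1 : ℕ) : ℝ) ^ (1 : ℝ) :=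
          Real.rpow_le_rpow_of_exponent_le hk1' (by linarith)
      _ = _ := Real.rpow_one _
  set Q : ℕ := ⌈64 * E ^ 2⌉₊ with hQdef
  have hQ1 : 64 * E ^ 2 ≤ Q := Nat.le_ceil _
  have hQ2 : (Q : ℝ) ≤ 65 * ((a + 1 : ℕ) : ℝ) ^ 2 := by
    have h1 : (Q : ℝ) < 64 * E ^ 2 + 1 := Nat.ceil_lt_add_one (by positivity)
    have h2 : E ^ 2 ≤ ((a + 1 : ℕ) : ℝ) ^ 2 := by gcongr
    nlinarith
  have hpc := card_P_le (B := B) hP.pr hP.hi
  obtain ⟨-, hnum⟩ := hk₀ (a + 1) hkk ⌊E⌋₊ Q (Nat.floor_le (by positivity)) hQ2 (P.card : ℝ)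
    (by positivity) (by
      have : (0 : ℝ) ≤ ((a + 1 : ℕ) : ℝ) ^ B := by positivity
      linarith)
  set al : ℝ := 1 / 2 * (1 + 1 / (2 * ((a + 1 : ℕ) : ℝ))) with hal
  have hal0 : 1 / 2 ≤ al := by
    have : (0 : ℝ) ≤ 1 / (2 * ((a + 1 : ℕ) : ℝ)) := by positivity
    rw [hal]; linarith
  have hal1 : al ≤ 1 := by
    have : 1 / (2 * ((a + 1 : ℕ) : ℝ)) ≤ 1 := by
      rw [div_le_one (by positivity)]
      linarith
    rw [hal]; linarith
  have hfin := finite_form (stL (2 * (a + 1) - 1) : Fin (8 * (a + 1)) → ℤ)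
    (fun w => stL_val _ w) hP.pr (by linarith : 0 ≤ al) hal1 (card_stL_zero (Nat.succ_pos a))
    (card_stL_ne (Nat.succ_pos a)) (fun p hp z => stL_atom (Nat.succ_pos a) (hP.pr p hp) z)
    hE (a := a) hQ1
  refine hfin.trans ?_
  apply mul_le_mul_of_nonneg_right _ (Finset.sum_nonneg fun ω _ => by
    unfold M67.W
    exact Finset.prod_nonneg fun p _ => by positivity)
  have hN0 : 0 ≤ ∏ p ∈ P, (p : ℝ) := Finset.prod_nonneg fun p _ => by positivity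
  have hN2 : (∏ p ∈ P, (p : ℝ)) ^ 2 ≤ (2 : ℝ) ^ (2 * β * ((a + 1 : ℕ) : ℝ)) := by
    calc (∏ p ∈ P, (p : ℝ)) ^ 2 ≤ ((2 : ℝ) ^ (β * ((a + 1 : ℕ) : ℝ))) ^ 2 := by
          gcongr
          exact hP.size
      _ = _ := by
          rw [← Real.rpow_natCast, ← Real.rpow_mul (by norm_num)]
          congr 1
          push_cast
          ring
  have halk := al_pow (Nat.succ_pos a)
  have hsplit : al ^ (a + 1 - ⌊E⌋₊) ≤ al ^ (a + 1) * (2 : ℝ) ^ ⌊E⌋₊ := by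
    have hle : ⌊E⌋₊ ≤ a + 1 := by
      have : (⌊E⌋₊ : ℝ) ≤ ((a + 1 : ℕ) : ℝ) := (Nat.floor_le (by positivity)).trans hEk
      exact_mod_cast this
    have h1 : al ^ (a + 1) = al ^ (a + 1 - ⌊E⌋₊) * al ^ ⌊E⌋₊ := by
      rw [← pow_add]; congr 1; omega
    have h2 : 1 ≤ al ^ ⌊E⌋₊ * (2 : ℝ) ^ ⌊E⌋₊ := by
      rw [← mul_pow]
      exact one_le_pow₀ (by linarith)
    calc al ^ (a + 1 - ⌊E⌋₊) = al ^ (a + 1 - ⌊E⌋₊) * 1 := (mul_one _).symm
      _ ≤ al ^ (a + 1 - ⌊E⌋₊) * (al ^ ⌊E⌋₊ * (2 : ℝ) ^ ⌊E⌋₊) :=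
        mul_le_mul_of_nonneg_left h2 (by positivity)
      _ = _ := by rw [h1]; ring
  set S : ℝ := ∑ j ∈ range (⌊E⌋₊ + 1), ((a + 1).choose j : ℝ) with hS
  have hS0 : 0 ≤ S := Finset.sum_nonneg fun j _ => by positivity
  have halp : 0 ≤ al ^ (a + 1) := by positivity
  calc _ ≤ ((P.card : ℝ) * S * ((∏ p ∈ P, (p : ℝ)) ^ 2 * (al ^ (a + 1) * (2 : ℝ) ^ ⌊E⌋₊)) +
      (a + 1) * (S * (2 * Q + 1) ^ ⌊E⌋₊) *
        ((∏ p ∈ P, (p : ℝ)) ^ 2 * al ^ (a + 1))) := by gcongr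
    _ = ((P.card : ℝ) * S * (2 : ℝ) ^ ⌊E⌋₊ + ((a + 1 : ℕ) : ℝ) * (S * (2 * Q + 1) ^ ⌊E⌋₊)) *
        ((∏ p ∈ P, (p : ℝ)) ^ 2 * al ^ (a + 1)) := by push_cast; ring
    _ ≤ ((P.card : ℝ) * S * (2 : ℝ) ^ ⌊E⌋₊ + ((a + 1 : ℕ) : ℝ) * (S * (2 * Q + 1) ^ ⌊E⌋₊)) *
        ((2 : ℝ) ^ (2 * β * ((a + 1 : ℕ) : ℝ)) * (2 * (2 : ℝ) ^ (-((a + 1 : ℕ) : ℝ)))) := by
        apply mul_le_mul_of_nonneg_left _ (by positivity)
        exact mul_le_mul hN2 halk halp (by positivity)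
    _ = (((P.card : ℝ) * S * (2 : ℝ) ^ ⌊E⌋₊ + ((a + 1 : ℕ) : ℝ) *
        (S * (2 * Q + 1) ^ ⌊E⌋₊)) * 2) *
        ((2 : ℝ) ^ (2 * β * ((a + 1 : ℕ) : ℝ)) * (2 : ℝ) ^ (-((a + 1 : ℕ) : ℝ))) := by ring
    _ ≤ (2 : ℝ) ^ (η * ((a + 1 : ℕ) : ℝ)) *
        ((2 : ℝ) ^ (2 * β * ((a + 1 : ℕ) : ℝ)) * (2 : ℝ) ^ (-((a + 1 : ℕ) : ℝ))) :=
        mul_le_mul_of_nonneg_right hnum (by positivity)
    _ = (2 : ℝ) ^ (-(1 - 2 * β - η) * ((a + 1 : ℕ) : ℝ)) := by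
        rw [← Real.rpow_add (by norm_num), ← Real.rpow_add (by norm_num)]
        congr 1
        ring

end Vale.Agent.P160.Half.StmtSparse324
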