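import Vale.Agent.P160.Half.KSmall418

/-! # P160, half rate, final assembly, small primes: asymptotic forms (helper418) -/

open Finset Matrix Filter

namespace Vale.Agent.P160.Half.G.KS

theorem ev_log (c : ℝ) (hc : 0 < c) : ∀ᶠ n : ℕ in atTop, Real.sqrt n * Real.log n ≤ c * n := by
  have h1 := (isLittleO_log_rpow_atTop (show (0 : ℝ) < 1 / 2 by norm_num)).bound hc
  have h2 := (tendsto_natCast_atTop_atTop (R := ℝ)).eventually h1
  filter_upwards [h2] with n hn
  have h3 : Real.log n ≤ c * Real.sqrt n := by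
    have := (le_abs_self _).trans hn
    rwa [Real.norm_of_nonneg (by positivity), ← Real.sqrt_eq_rpow] at this
  calc Real.sqrt n * Real.log n ≤ Real.sqrt n * (c * Real.sqrt n) :=
        mul_le_mul_of_nonneg_left h3 (Real.sqrt_nonneg _)
    _ = c * (Real.sqrt n * Real.sqrt n) := by ring
    _ = c * n := by rw [Real.mul_self_sqrt (Nat.cast_nonneg n)]

/-- the corank cut-off -/
def kk (C n : ℕ) : ℕ := Nat.sqrt (2 * (C + 12) * n) + 1

theorem kk_sq (C n : ℕ) : 2 * (C + 12) * n ≤ kk C n ^ 2 := by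
  unfold kk
  rw [pow_two]
  exact (Nat.lt_succ_sqrt _).le

theorem kk_le (C n : ℕ) (hn : 1 ≤ n) : (kk C n : ℝ) ≤ (2 * (C + 12) + 1) * Real.sqrt n := by
  unfold kk
  push_cast
  have h1 : ((Nat.sqrt (2 * (C + 12) * n) : ℕ) : ℝ) ≤ Real.sqrt ((2 * (C + 12) * n : ℕ) : ℝ) :=
    Real.nat_sqrt_le_real_sqrt
  have h2 : Real.sqrt ((2 * (C + 12) * n : ℕ) : ℝ) ≤ (2 * (C + 12)) * Real.sqrt n := by
    rw [Real.sqrt_le_left (by positivity), mul_pow, Real.sq_sqrt (Nat.cast_nonneg n)]
    push_cast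
    have h3 : (1 : ℝ) ≤ 2 * ((C : ℝ) + 12) := by
      have : (0 : ℝ) ≤ C := Nat.cast_nonneg C
      linarith
    have h4 : (0 : ℝ) ≤ n := Nat.cast_nonneg n
    have h6 : 0 ≤ (2 * ((C : ℝ) + 12)) * (2 * ((C : ℝ) + 12) - 1) * n :=
      mul_nonneg (mul_nonneg (by linarith) (by linarith)) h4
    nlinarith
  have h5 : (1 : ℝ) ≤ Real.sqrt n := by
    rw [Real.one_le_sqrt]
    exact_mod_cast hn
  linarith

theorem cor_fail (C n : ℕ) (hn : 1 ≤ n) :
    (Nat.card {b : Sym2 (Fin n) → Bool // ¬ CorLt (matZ b) (kk C n)} : ℝ) ≤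
      Real.exp (-(C * n * Real.log 2)) * 2 ^ Fintype.card (Sym2 (Fin n)) := by
  classical
  have h1 := card_corank_le_exp (α := Fin n) C (kk C n) (by simpa using hn) (by simpa using kk_sq C n)
  rw [Fintype.card_fin] at h1
  have h2 : (univ.filter fun b : Sym2 (Fin n) → Bool => ¬ CorLt (matZ b) (kk C n)) ⊆
      (univ.filter fun b : Sym2 (Fin n) → Bool => ∃ (p : ℕ) (_ : Fact p.Prime) (T : Finset (Fin n)),
      (prin ((matZ b).map (Int.cast : ℤ → ZMod p)) T).rank + kk C n ≤ T.card) := by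
    intro b hb
    rw [mem_filter] at hb ⊢
    refine ⟨mem_univ _, ?_⟩
    have := hb.2
    unfold CorLt at this
    push Not at this
    obtain ⟨p, hp, T, hT⟩ := this
    exact ⟨p, ⟨hp⟩, T, hT⟩
  have h3 := Finset.card_le_card h2
  rw [Nat.card_eq_fintype_card, Fintype.card_subtype]
  have h4 : ((univ.filter fun b : Sym2 (Fin n) → Bool => ¬ CorLt (matZ b) (kk C n)).card : ℝ) * 2 ^ (C * n) ≤
      2 ^ Fintype.card (Sym2 (Fin n)) := by
    exact_mod_cast (Nat.mul_le_mul_right _ h3).trans h1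
  have h5 : Real.exp (-(C * n * Real.log 2)) = ((2 : ℝ) ^ (C * n))⁻¹ := by
    rw [Real.exp_neg]
    congr 1
    rw [← Real.rpow_natCast, Real.rpow_def_of_pos (by norm_num)]
    congr 1
    push_cast
    ring
  rw [h5, inv_mul_eq_div, le_div_iff₀ (by positivity)]
  exact h4

theorem sum_small (n t : ℕ) (x : ℝ) (hx : 0 < x) (hx1 : x ≤ 1) :
    (((univ : Finset (Finset (Fin n))).filter fun S => (Sᶜ : Finset (Fin n)).card ≤ t).card : ℝ) * x ^ t ≤
      (1 + x) ^ n := by
  have h1 : ∑ S : Finset (Fin n), x ^ (Sᶜ : Finset (Fin n)).card = (1 + x) ^ n := by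
    have h2 := Finset.sum_pow_mul_eq_add_pow (1 : ℝ) x (univ : Finset (Fin n))
    rw [Finset.powerset_univ, card_univ, Fintype.card_fin] at h2
    rw [← h2]
    refine Finset.sum_congr rfl fun S _ => ?_
    rw [one_pow, one_mul, Finset.card_compl, Fintype.card_fin]
  rw [← h1]
  calc _ = ∑ S ∈ (univ : Finset (Finset (Fin n))).filter (fun S => (Sᶜ : Finset (Fin n)).card ≤ t), x ^ t := by
        rw [Finset.sum_const, nsmul_eq_mul]
    _ ≤ ∑ S ∈ (univ : Finset (Finset (Fin n))).filter (fun S => (Sᶜ : Finset (Fin n)).card ≤ t),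
        x ^ (Sᶜ : Finset (Fin n)).card :=
        Finset.sum_le_sum fun S hS => pow_le_pow_of_le_one hx.le hx1 (mem_filter.1 hS).2
    _ ≤ _ := Finset.sum_le_sum_of_subset_of_nonneg (filter_subset _ _) fun S _ _ => by positivity

theorem choose_small (n z : ℕ) (x : ℝ) (hx : 0 < x) : (n.choose z : ℝ) * x ^ z ≤ (1 + x) ^ n := by
  by_cases hz : z ≤ n
  · rw [add_comm, add_pow]
    have := Finset.single_le_sum (f := fun m => x ^ m * 1 ^ (n - m) * (n.choose m : ℝ)) (s := range (n + 1))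
      (fun i _ => by positivity) (mem_range.2 (Nat.lt_succ_of_le hz))
    refine le_trans (le_of_eq ?_) this
    simp only [one_pow, mul_one]
    ring
  · rw [Nat.choose_eq_zero_of_lt (by omega)]
    simp only [Nat.cast_zero, zero_mul]
    positivity

theorem exists_eta (c : ℝ) (hc : 0 < c) : ∃ η : ℝ, 0 < η ∧ η ≤ 1 ∧
    Real.log (1 + η) + Real.negMulLog η + η * Real.log 2 ≤ c := by
  have hcont : ContinuousAt (fun η : ℝ => Real.log (1 + η) + Real.negMulLog η + η * Real.log 2) 0 := by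
    refine ContinuousAt.add (ContinuousAt.add ?_ Real.continuous_negMulLog.continuousAt) ?_
    · exact ContinuousAt.log (by fun_prop) (by norm_num)
    · fun_prop
  have h0 : (fun η : ℝ => Real.log (1 + η) + Real.negMulLog η + η * Real.log 2) 0 < c := by
    simpa using hc
  have h1 := hcont.eventually_lt_const h0
  obtain ⟨δ, hδ, h2⟩ := Metric.eventually_nhds_iff.1 h1
  refine ⟨min (δ / 2) 1, by positivity, min_le_right _ _, ?_⟩
  refine (h2 ?_).le
  rw [Real.dist_eq, sub_zero, abs_of_pos (by positivity)]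
  exact (min_le_left _ _).trans_lt (by linarith)

theorem card_split {X : Type} [Fintype X] (A C : X → Prop) :
    (Nat.card {x // A x} : ℝ) ≤ (Nat.card {x // ¬ C x} : ℝ) + Nat.card {x // C x ∧ A x} := by
  classical
  rw [Nat.card_eq_fintype_card, Nat.card_eq_fintype_card, Nat.card_eq_fintype_card, Fintype.card_subtype,
    Fintype.card_subtype, Fintype.card_subtype, ← Nat.cast_add]
  refine Nat.cast_le.2 ((Finset.card_le_card fun x hx => ?_).trans (Finset.card_union_le _ _))
  rw [mem_union, mem_filter, mem_filter]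
  by_cases hC : C x
  · exact Or.inr ⟨mem_univ _, hC, (mem_filter.1 hx).2⟩
  · exact Or.inl ⟨mem_univ _, hC⟩

/-- **(N) no sparse kernel vector modulo the primes `≤ n`** -/
theorem nosp_small (ε : ℝ) (hε : 0 < ε) : ∃ η : ℝ, 0 < η ∧ ∃ n₀ : ℕ, ∀ n ≥ n₀,
    (Nat.card {b : Sym2 (Fin n) → Bool // ∃ p, p.Prime ∧ p ≤ n ∧ ∃ g : Fin n → ZMod p, g ≠ 0 ∧
      (matZ b).map (Int.cast : ℤ → ZMod p) *ᵥ g = 0 ∧ ((univ.filter fun i => g i ≠ 0).card : ℝ) ≤ η * n} : ℝ) ≤
      (2 : ℝ) ^ (-((1 - ε) * n)) * 2 ^ Fintype.card (Sym2 (Fin n)) := by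
  classical
  have hl2 : 0 < Real.log 2 := Real.log_pos (by norm_num)
  obtain ⟨η, hη, hη1, hη2⟩ := exists_eta (ε / 2 * Real.log 2) (by positivity)
  refine ⟨η, hη, ?_⟩
  have hev1 := ev_log (ε * Real.log 2 / (4 * 28)) (by positivity)
  have hev2 : ∀ᶠ n : ℕ in atTop, 8 / ε ≤ n := tendsto_natCast_atTop_atTop.eventually_ge_atTop _
  rw [← Filter.eventually_atTop]
  filter_upwards [hev1, hev2, eventually_ge_atTop 1] with n h1 h2 hn
  have hn0 : (1 : ℝ) ≤ n := by exact_mod_cast hn
  set A : ℝ := 2 ^ Fintype.card (Sym2 (Fin n)) with hA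
  have hA0 : 0 < A := by positivity
  set k := kk 1 n with hk
  set t := ⌊η * n⌋₊ with ht
  have htn : (t : ℝ) ≤ η * n := Nat.floor_le (by positivity)
  have htn' : t ≤ n := by
    have : (t : ℝ) ≤ n := htn.trans (by nlinarith)
    exact_mod_cast this
  have hkn : (k : ℝ) ≤ 27 * Real.sqrt n := by
    have := kk_le 1 n hn
    push_cast at this
    linarith
  have hsq1 : (1 : ℝ) ≤ Real.sqrt n := Real.one_le_sqrt.2 hn0
  have hlogn : 0 ≤ Real.log n := Real.log_nonneg hn0
  -- the main part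
  have hmain : (Nat.card {b : Sym2 (Fin n) → Bool // CorLt (matZ b) k ∧ ∃ p, p.Prime ∧ p ≤ n ∧
      ∃ g : Fin n → ZMod p, g ≠ 0 ∧ (matZ b).map (Int.cast : ℤ → ZMod p) *ᵥ g = 0 ∧
        ((univ.filter fun i => g i ≠ 0).card : ℝ) ≤ η * n} : ℝ) ≤
      1 / 2 * Real.exp (-((1 - ε) * n * Real.log 2)) * A := by
    have hu := card_union_le ((range (n + 1)).filter Nat.Prime)
      (fun b : Sym2 (Fin n) → Bool => CorLt (matZ b) k ∧ ∃ p, p.Prime ∧ p ≤ n ∧
        ∃ g : Fin n → ZMod p, g ≠ 0 ∧ (matZ b).map (Int.cast : ℤ → ZMod p) *ᵥ g = 0 ∧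
          ((univ.filter fun i => g i ≠ 0).card : ℝ) ≤ η * n)
      (fun p b => CorLt (matZ b) k ∧ ∃ g : Fin n → ZMod p, g ≠ 0 ∧
        (matZ b).map (Int.cast : ℤ → ZMod p) *ᵥ g = 0 ∧ (univ.filter fun i => g i ≠ 0).card ≤ t)
      (by
        rintro b ⟨hc, p, hp, hpn, g, hg, hg0, hgt⟩
        exact ⟨p, mem_filter.2 ⟨mem_range.2 (by omega), hp⟩, hc, g, hg, hg0, Nat.le_floor hgt⟩)
      ((1 + η) ^ n / η ^ t * ((n : ℝ) ^ k * (1 / 2) ^ (n - t) * A)) (by
        intro p hp
        rw [mem_filter, mem_range] at hp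
        refine (nosp_one hp.2 k t).trans ?_
        rw [Fintype.card_fin]
        have hs := sum_small n t η hη hη1
        rw [← le_div_iff₀ (by positivity)] at hs
        have hpn : (p : ℝ) ≤ n := by
          have : p ≤ n := by omega
          exact_mod_cast this
        have hpk : (p : ℝ) ^ k ≤ (n : ℝ) ^ k := pow_le_pow_left₀ (Nat.cast_nonneg _) hpn k
        exact mul_le_mul hs (mul_le_mul_of_nonneg_right (mul_le_mul_of_nonneg_right hpk (by positivity)) hA0.le)
          (by positivity) (by positivity))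
    have hcard : (((range (n + 1)).filter Nat.Prime).card : ℝ) ≤ Real.exp (Real.log n + Real.log 2) := by
      rw [Real.exp_add, Real.exp_log (by linarith), Real.exp_log (by norm_num)]
      have h3 : ((range (n + 1)).filter Nat.Prime).card ≤ n + 1 :=
        (Finset.card_filter_le _ _).trans (by rw [card_range])
      have h4 : (((range (n + 1)).filter Nat.Prime).card : ℝ) ≤ n + 1 := by exact_mod_cast h3
      linarith
    have he1 : (1 + η) ^ n = Real.exp (n * Real.log (1 + η)) := by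
      rw [mul_comm, Real.exp_mul, Real.exp_log (by linarith), Real.rpow_natCast]
    have he2 : (η ^ t)⁻¹ = Real.exp (t * (-Real.log η)) := by
      rw [mul_neg, Real.exp_neg, mul_comm, Real.exp_mul, Real.exp_log hη, Real.rpow_natCast]
    have he2' : (t : ℝ) * (-Real.log η) ≤ n * Real.negMulLog η := by
      rw [Real.negMulLog]
      have : 0 ≤ -Real.log η := by
        have := Real.log_nonpos hη.le hη1
        linarith
      nlinarith
    have he3 : (n : ℝ) ^ k = Real.exp (k * Real.log n) := by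
      rw [mul_comm, Real.exp_mul, Real.exp_log (by linarith), Real.rpow_natCast]
    have he4 : ((1 : ℝ) / 2) ^ (n - t) = Real.exp (-((n - t) * Real.log 2)) := by
      rw [Real.exp_neg, mul_comm, Real.exp_mul, Real.exp_log (by norm_num), one_div, inv_pow, ← Nat.cast_sub htn',
        Real.rpow_natCast]
    have h28 : ((k : ℝ) + 1) * Real.log n ≤ ε * Real.log 2 / 4 * n := by
      have h3 : ((k : ℝ) + 1) ≤ 28 * Real.sqrt n := by linarith
      calc ((k : ℝ) + 1) * Real.log n ≤ 28 * Real.sqrt n * Real.log n := mul_le_mul_of_nonneg_right h3 hlogn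
        _ = 28 * (Real.sqrt n * Real.log n) := by ring
        _ ≤ 28 * (ε * Real.log 2 / (4 * 28) * n) := by linarith
        _ = ε * Real.log 2 / 4 * n := by ring
    have h8 : 2 * Real.log 2 ≤ ε * Real.log 2 / 4 * n := by
      rw [div_le_iff₀ hε] at h2
      nlinarith
    refine hu.trans ?_
    calc (((range (n + 1)).filter Nat.Prime).card : ℝ) * ((1 + η) ^ n / η ^ t * ((n : ℝ) ^ k * (1 / 2) ^ (n - t) * A))
        ≤ Real.exp (Real.log n + Real.log 2) * ((1 + η) ^ n / η ^ t * ((n : ℝ) ^ k * (1 / 2) ^ (n - t) * A)) :=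
          mul_le_mul_of_nonneg_right hcard (by positivity)
      _ = Real.exp (Real.log n + Real.log 2 + (n * Real.log (1 + η) + t * (-Real.log η)) + k * Real.log n +
          -((n - t) * Real.log 2)) * A := by
          rw [div_eq_mul_inv, he1, he2, he3, he4, Real.exp_add (Real.log n + Real.log 2 +
            (n * Real.log (1 + η) + t * (-Real.log η)) + k * Real.log n),
            Real.exp_add (Real.log n + Real.log 2 + (n * Real.log (1 + η) + t * (-Real.log η))),
            Real.exp_add (Real.log n + Real.log 2), Real.exp_add (n * Real.log (1 + η))]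
          ring
      _ ≤ Real.exp (-Real.log 2 + -((1 - ε) * n * Real.log 2)) * A := by
          refine mul_le_mul_of_nonneg_right (Real.exp_le_exp.2 ?_) hA0.le
          have h9 : (t : ℝ) * Real.log 2 ≤ η * n * Real.log 2 := mul_le_mul_of_nonneg_right htn hl2.le
          have h10 := mul_le_mul_of_nonneg_left hη2 (show (0 : ℝ) ≤ n by linarith)
          nlinarith
      _ = 1 / 2 * Real.exp (-((1 - ε) * n * Real.log 2)) * A := by
          rw [Real.exp_add, Real.exp_neg (Real.log 2), Real.exp_log (by norm_num)]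
          ring
  have hcor := cor_fail 1 n hn
  rw [← hA, ← hk] at hcor
  have hcor2 : Real.exp (-(((1 : ℕ) : ℝ) * n * Real.log 2)) ≤ 1 / 2 * Real.exp (-((1 - ε) * n * Real.log 2)) := by
    have h3 : (1 : ℝ) / 2 * Real.exp (-((1 - ε) * n * Real.log 2)) =
        Real.exp (-Real.log 2 + -((1 - ε) * n * Real.log 2)) := by
      rw [Real.exp_add, Real.exp_neg (Real.log 2), Real.exp_log (by norm_num)]
      ring
    rw [h3]
    refine Real.exp_le_exp.2 ?_
    rw [div_le_iff₀ hε] at h2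
    push_cast
    nlinarith
  have hrp : (2 : ℝ) ^ (-((1 - ε) * n)) = Real.exp (-((1 - ε) * n * Real.log 2)) := by
    rw [Real.rpow_def_of_pos (by norm_num)]
    congr 1
    ring
  rw [hrp]
  have h5 := mul_le_mul_of_nonneg_right hcor2 hA0.le
  refine (card_split _ (fun b => CorLt (matZ b) k)).trans ((add_le_add hcor hmain).trans ?_)
  linarith

/-- **(Z) sharp killed lemma modulo all prime powers in `[√n, n]` at once** -/
theorem kill_small (ε η K : ℝ) (hε : 0 < ε) (hη : 0 < η) (hK : 0 ≤ K) : ∃ n₀ : ℕ, ∀ n ≥ n₀, ∀ z : ℕ,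
    (z : ℝ) * Real.log n ≤ K * n →
    (Nat.card {b : Sym2 (Fin n) → Bool // ∃ p a : ℕ, p.Prime ∧ 1 ≤ a ∧ Real.sqrt n ≤ (p : ℝ) ^ a ∧ p ^ a ≤ n ∧
      ∃ g : Fin n → ZMod (p ^ a), (matZ b).map (Int.cast : ℤ → ZMod (p ^ a)) *ᵥ g = 0 ∧
        η * n ≤ (Nat.card {i // IsUnit (g i)} : ℝ) ∧ z ≤ (univ.filter fun i => g i = 0).card} : ℝ) ≤
      Real.exp (-(z / 2 * Real.log n) + ε * n) * 2 ^ Fintype.card (Sym2 (Fin n)) := by
  classical
  have hl2 : 0 < Real.log 2 := Real.log_pos (by norm_num)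
  -- constants
  obtain ⟨C, hC⟩ := exists_nat_gt ((K + 1) / Real.log 2)
  obtain ⟨x, hx0, hx1, hx2⟩ : ∃ x : ℝ, 0 < x ∧ x ≤ 1 ∧ Real.log (1 + x) ≤ ε / 8 := by
    refine ⟨min (ε / 8) 1, by positivity, min_le_right _ _, ?_⟩
    have h1 : Real.log (1 + min (ε / 8) 1) ≤ min (ε / 8) 1 := by
      have := Real.log_le_sub_one_of_pos (show 0 < 1 + min (ε / 8) 1 by positivity)
      linarith
    exact h1.trans (min_le_left _ _)
  set D : ℝ := 1 + 3 / 2 / Real.sqrt η with hD
  have hD1 : 1 ≤ D := by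
    rw [hD]
    have : 0 ≤ 3 / 2 / Real.sqrt η := by positivity
    linarith
  have hlD : 0 ≤ Real.log D := Real.log_nonneg hD1
  have hlx : 0 ≤ -Real.log x := by
    have := Real.log_nonpos hx0.le hx1
    linarith
  have hev1 := ev_log (ε / (8 * (2 * (C + 12) + 1 + 4))) (by positivity)
  have hev2 : ∀ᶠ n : ℕ in atTop, 8 * Real.log 4 / ε + 8 / ε + 1 ≤ n :=
    tendsto_natCast_atTop_atTop.eventually_ge_atTop _
  have hev3 : ∀ᶠ n : ℕ in atTop, 8 * K * (-Real.log x + Real.log D) / ε + 1 ≤ Real.log n :=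
    (Real.tendsto_log_atTop.comp (tendsto_natCast_atTop_atTop (R := ℝ))).eventually_ge_atTop _
  rw [← Filter.eventually_atTop]
  filter_upwards [hev1, hev2, hev3, eventually_ge_atTop 1] with n h1 h2 h3 hn z hz
  have hn0 : (1 : ℝ) ≤ n := by exact_mod_cast hn
  set A : ℝ := 2 ^ Fintype.card (Sym2 (Fin n)) with hA
  have hA0 : 0 < A := by positivity
  set k := kk C n with hk
  have hkn : (k : ℝ) ≤ (2 * (C + 12) + 1) * Real.sqrt n := kk_le C n hn
  have hsq1 : (1 : ℝ) ≤ Real.sqrt n := Real.one_le_sqrt.2 hn0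
  have hlogn : 0 < Real.log n := by
    have : 0 ≤ 8 * K * (-Real.log x + Real.log D) / ε := by positivity
    linarith
  set t := ⌈η * n⌉₊ with ht
  have ht0 : 0 < t := Nat.ceil_pos.2 (by positivity)
  have htn : η * n ≤ t := Nat.le_ceil _
  -- few zeros: the small quantities
  have hzL : (z : ℝ) * (-Real.log x + Real.log D) ≤ ε / 8 * n := by
    have h4 : (z : ℝ) ≤ K * n / Real.log n := by rwa [le_div_iff₀ hlogn]
    have h5 : 0 ≤ -Real.log x + Real.log D := by linarith
    refine (mul_le_mul_of_nonneg_right h4 h5).trans ?_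
    rw [div_mul_eq_mul_div, div_le_iff₀ hlogn]
    have h6 : 8 * K * (-Real.log x + Real.log D) / ε ≤ Real.log n := by linarith
    rw [div_le_iff₀ hε] at h6
    have h7 := mul_le_mul_of_nonneg_right h6 (show (0 : ℝ) ≤ n by linarith)
    linarith
  -- the main part
  have hmain : (Nat.card {b : Sym2 (Fin n) → Bool // CorLt (matZ b) k ∧ ∃ p a : ℕ, p.Prime ∧ 1 ≤ a ∧
      Real.sqrt n ≤ (p : ℝ) ^ a ∧ p ^ a ≤ n ∧
      ∃ g : Fin n → ZMod (p ^ a), (matZ b).map (Int.cast : ℤ → ZMod (p ^ a)) *ᵥ g = 0 ∧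
        η * n ≤ (Nat.card {i // IsUnit (g i)} : ℝ) ∧ z ≤ (univ.filter fun i => g i = 0).card} : ℝ) ≤
      1 / 2 * Real.exp (-(z / 2 * Real.log n) + ε * n) * A := by
    have hu := card_union_le (((range (n + 1)) ×ˢ (range (n + 1))).filter fun y => y.1.Prime ∧ 1 ≤ y.2 ∧
        Real.sqrt n ≤ (y.1 : ℝ) ^ y.2 ∧ y.1 ^ y.2 ≤ n)
      (fun b : Sym2 (Fin n) → Bool => CorLt (matZ b) k ∧ ∃ p a : ℕ, p.Prime ∧ 1 ≤ a ∧
        Real.sqrt n ≤ (p : ℝ) ^ a ∧ p ^ a ≤ n ∧
        ∃ g : Fin n → ZMod (p ^ a), (matZ b).map (Int.cast : ℤ → ZMod (p ^ a)) *ᵥ g = 0 ∧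
          η * n ≤ (Nat.card {i // IsUnit (g i)} : ℝ) ∧ z ≤ (univ.filter fun i => g i = 0).card)
      (fun y b => CorLt (matZ b) k ∧ ∃ g : Fin n → ZMod (y.1 ^ y.2),
        (matZ b).map (Int.cast : ℤ → ZMod (y.1 ^ y.2)) *ᵥ g = 0 ∧
          t ≤ Nat.card {i // IsUnit (g i)} ∧ z ≤ (univ.filter fun i => g i = 0).card)
      (by
        rintro b ⟨hc, p, a, hp, ha, hs, hpn, g, hg, hgt, hgz⟩
        have hpp : p ≤ n := (Nat.le_self_pow (by omega) p).trans hpn
        have haa : a ≤ n := (Nat.lt_pow_self hp.one_lt).le.trans hpn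
        exact ⟨(p, a), mem_filter.2 ⟨mem_product.2 ⟨mem_range.2 (by omega), mem_range.2 (by omega)⟩, hp, ha, hs, hpn⟩,
          hc, g, hg, Nat.ceil_le.2 hgt, hgz⟩)
      ((1 + x) ^ n / x ^ z * ((n : ℝ) ^ k * (D / Real.sqrt n) ^ z * A)) (by
        rintro ⟨p, a⟩ hy
        obtain ⟨-, hp, ha, hs, hpn⟩ := mem_filter.1 hy
        refine (kill_pp hp a k t z ha ht0).trans ?_
        rw [Fintype.card_fin]
        have hs' := choose_small n z x hx0
        rw [← le_div_iff₀ (by positivity)] at hs'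
        have hpk : (p : ℝ) ^ (a * k) ≤ (n : ℝ) ^ k := by
          rw [pow_mul]
          exact pow_le_pow_left₀ (by positivity) (by exact_mod_cast hpn) k
        have hq : 1 / (p : ℝ) ^ a + 3 / 2 / Real.sqrt t ≤ D / Real.sqrt n := by
          have hsn : 0 < Real.sqrt n := by linarith
          have h4 : 1 / (p : ℝ) ^ a ≤ 1 / Real.sqrt n := one_div_le_one_div_of_le hsn hs
          have h5 : 3 / 2 / Real.sqrt t ≤ 3 / 2 / Real.sqrt η / Real.sqrt n := by
            rw [div_div (3 / 2), ← Real.sqrt_mul hη.le]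
            exact div_le_div_of_nonneg_left (by norm_num) (Real.sqrt_pos.2 (by positivity)) (Real.sqrt_le_sqrt htn)
          rw [hD, add_div]
          linarith
        have hqz : (1 / (p : ℝ) ^ a + 3 / 2 / Real.sqrt t) ^ z ≤ (D / Real.sqrt n) ^ z :=
          pow_le_pow_left₀ (by positivity) hq z
        exact mul_le_mul hs' (mul_le_mul_of_nonneg_right (mul_le_mul hpk hqz (by positivity) (by positivity)) hA0.le)
          (by positivity) (by positivity))
    have hcard : (((((range (n + 1)) ×ˢ (range (n + 1))).filter fun y => y.1.Prime ∧ 1 ≤ y.2 ∧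
        Real.sqrt n ≤ (y.1 : ℝ) ^ y.2 ∧ y.1 ^ y.2 ≤ n).card : ℕ) : ℝ) ≤ Real.exp (2 * Real.log n + Real.log 4) := by
      have h4 : (((((range (n + 1)) ×ˢ (range (n + 1))).filter fun y => y.1.Prime ∧ 1 ≤ y.2 ∧
        Real.sqrt n ≤ (y.1 : ℝ) ^ y.2 ∧ y.1 ^ y.2 ≤ n).card : ℕ) : ℝ) ≤ (n + 1) * (n + 1) := by
        have := Finset.card_filter_le ((range (n + 1)) ×ˢ (range (n + 1))) (fun y => y.1.Prime ∧ 1 ≤ y.2 ∧
          Real.sqrt n ≤ (y.1 : ℝ) ^ y.2 ∧ y.1 ^ y.2 ≤ n)
        rw [card_product, card_range] at this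
        exact_mod_cast this
      refine h4.trans ?_
      rw [Real.exp_add, Real.exp_log (by norm_num), mul_comm (2 : ℝ), Real.exp_mul, Real.exp_log (by linarith)]
      have h5 : (n : ℝ) ^ (2 : ℝ) = n * n := by
        rw [← Nat.cast_ofNat, Real.rpow_natCast, pow_two]
      rw [h5]
      have h6 : (n : ℝ) + 1 ≤ 2 * n := by linarith
      calc ((n : ℝ) + 1) * (n + 1) ≤ (2 * n) * (2 * n) := mul_le_mul h6 h6 (by positivity) (by positivity)
        _ = n * n * 4 := by ring
    have he1 : (1 + x) ^ n = Real.exp (n * Real.log (1 + x)) := by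
      rw [mul_comm, Real.exp_mul, Real.exp_log (by linarith), Real.rpow_natCast]
    have he2 : (x ^ z)⁻¹ = Real.exp (z * (-Real.log x)) := by
      rw [mul_neg, Real.exp_neg, mul_comm, Real.exp_mul, Real.exp_log hx0, Real.rpow_natCast]
    have he3 : (n : ℝ) ^ k = Real.exp (k * Real.log n) := by
      rw [mul_comm, Real.exp_mul, Real.exp_log (by linarith), Real.rpow_natCast]
    have he4 : (D / Real.sqrt n) ^ z = Real.exp (z * (Real.log D - Real.log n / 2)) := by
      have hsn : 0 < Real.sqrt n := by linarith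
      have h4 : Real.log D - Real.log n / 2 = Real.log (D / Real.sqrt n) := by
        rw [Real.log_div (by linarith) hsn.ne', Real.log_sqrt (by linarith)]
      rw [h4, mul_comm, Real.exp_mul, Real.exp_log (by positivity), Real.rpow_natCast]
    have hkl : ((k : ℝ) + 2) * Real.log n ≤ ε / 8 * n := by
      have h4 : ((k : ℝ) + 2) ≤ (2 * (C + 12) + 1 + 4) * Real.sqrt n := by linarith
      calc ((k : ℝ) + 2) * Real.log n ≤ (2 * (C + 12) + 1 + 4) * Real.sqrt n * Real.log n :=
            mul_le_mul_of_nonneg_right h4 hlogn.le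
        _ = (2 * (C + 12) + 1 + 4) * (Real.sqrt n * Real.log n) := by ring
        _ ≤ (2 * (C + 12) + 1 + 4) * (ε / (8 * (2 * (C + 12) + 1 + 4)) * n) :=
            mul_le_mul_of_nonneg_left h1 (by positivity)
        _ = ε / 8 * n := by
            have : (2 * ((C : ℝ) + 12) + 1 + 4) ≠ 0 := by positivity
            field_simp
    have hl4 : Real.log 4 ≤ ε / 8 * n := by
      have h4 : 8 * Real.log 4 / ε ≤ n := by
        have : 0 ≤ 8 / ε := by positivity
        linarith
      rw [div_le_iff₀ hε] at h4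
      linarith
    have hl2' : Real.log 2 ≤ ε / 8 * n := by
      have : Real.log 2 ≤ Real.log 4 := Real.log_le_log (by norm_num) (by norm_num)
      linarith
    refine hu.trans ?_
    calc _ ≤ Real.exp (2 * Real.log n + Real.log 4) *
          ((1 + x) ^ n / x ^ z * ((n : ℝ) ^ k * (D / Real.sqrt n) ^ z * A)) :=
          mul_le_mul_of_nonneg_right hcard (by positivity)
      _ = Real.exp (2 * Real.log n + Real.log 4 + (n * Real.log (1 + x) + z * (-Real.log x)) +
          (k * Real.log n + z * (Real.log D - Real.log n / 2))) * A := by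
          rw [div_eq_mul_inv, he1, he2, he3, he4, Real.exp_add (2 * Real.log n + Real.log 4 +
            (n * Real.log (1 + x) + z * (-Real.log x))), Real.exp_add (2 * Real.log n + Real.log 4),
            Real.exp_add (n * Real.log (1 + x)), Real.exp_add (k * Real.log n)]
          ring
      _ ≤ Real.exp (-Real.log 2 + (-(z / 2 * Real.log n) + ε * n)) * A := by
          refine mul_le_mul_of_nonneg_right (Real.exp_le_exp.2 ?_) hA0.le
          have h10 := mul_le_mul_of_nonneg_left hx2 (show (0 : ℝ) ≤ n by linarith)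
          linarith
      _ = 1 / 2 * Real.exp (-(z / 2 * Real.log n) + ε * n) * A := by
          rw [Real.exp_add (-Real.log 2), Real.exp_neg (Real.log 2), Real.exp_log (by norm_num)]
          ring
  have hcor := cor_fail C n hn
  rw [← hA, ← hk] at hcor
  have hcor2 : Real.exp (-(C * n * Real.log 2)) ≤ 1 / 2 * Real.exp (-(z / 2 * Real.log n) + ε * n) := by
    have h3 : (1 : ℝ) / 2 * Real.exp (-(z / 2 * Real.log n) + ε * n) =
        Real.exp (-Real.log 2 + (-(z / 2 * Real.log n) + ε * n)) := by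
      rw [Real.exp_add (-Real.log 2), Real.exp_neg (Real.log 2), Real.exp_log (by norm_num)]
      ring
    rw [h3]
    refine Real.exp_le_exp.2 ?_
    rw [div_lt_iff₀ hl2] at hC
    have h4 : (K + 1) * n ≤ C * Real.log 2 * n := mul_le_mul_of_nonneg_right hC.le (by linarith)
    have h5 : Real.log 2 ≤ ε * n := by
      have h6 : 8 * Real.log 4 / ε ≤ n := by
        have : 0 ≤ 8 / ε := by positivity
        linarith
      rw [div_le_iff₀ hε] at h6
      have : Real.log 2 ≤ Real.log 4 := Real.log_le_log (by norm_num) (by norm_num)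
      have h7 : 0 ≤ Real.log 4 := Real.log_nonneg (by norm_num)
      linarith
    have h8 : 0 ≤ K * n := by positivity
    linarith
  have h5 := mul_le_mul_of_nonneg_right hcor2 hA0.le
  refine (card_split _ (fun b => CorLt (matZ b) k)).trans ((add_le_add hcor hmain).trans ?_)
  linarith

end Vale.Agent.P160.Half.G.KS
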