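import Vale.Agent.P160.Half.MRec613b

/-! # P160: iteration of the recursion and part (M) with a small loss -/

set_option linter.unusedSectionVars false

namespace Vale.Agent.P160.Half.MR

open Finset Matrix Filter Vale.Agent.P160 Vale.Agent.P160.Half.CO Vale.Agent.P160.Half.MTop
  Vale.Agent.P160.Half.ML

theorem p0_eq (m : ℕ) :
    p0 m = Pb (fun b : Sym2 (Fin (m + 1)) → Bool => (signM b).det = 0) := by
  classical
  have h := SgnRed.prob_sgM m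
  unfold p0 Pb
  refine Eq.trans ?_ (h.symm.trans ?_)
  · congr!
  · congr!

theorem p0_le (ε : ℝ) (hε : 0 < ε) (hε1 : ε ≤ 1 / 2) : ∃ m₁ : ℕ, ∀ m ≥ m₁,
    p0 m ≤ (2 : ℝ) ^ (-(1 / 2 - ε) * m) := by
  have h1 : 1 / Real.sqrt 2 < (2 : ℝ) ^ (-(1 / 2 - ε)) := by
    have h2 : 1 / Real.sqrt 2 = (2 : ℝ) ^ (-(1 / 2) : ℝ) := by
      rw [Real.sqrt_eq_rpow, Real.rpow_neg (by norm_num), one_div]
    rw [h2]
    apply Real.rpow_lt_rpow_of_exponent_lt (by norm_num)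
    linarith
  obtain ⟨m₁, hm₁⟩ := eventually_atTop.1 (eventually_le6 h1)
  refine ⟨m₁, fun m hm => ?_⟩
  rw [p0_eq]
  refine (hm₁ (m + 1) (by omega)).trans ?_
  rw [← Real.rpow_natCast, ← Real.rpow_mul (by norm_num)]
  apply Real.rpow_le_rpow_of_exponent_le (by norm_num)
  push_cast
  nlinarith

/-- the factor of one step -/
noncomputable def Cf (n : ℕ) (ε β : ℝ) (r : ℕ) : ℝ :=
  n * ((2 : ℝ) ^ (ε * n) * (1 + (4 : ℝ) ^ (-(β * r))) ^ ((n : ℝ) / (2 * (β * r))))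

/-- the additive term of one step -/
noncomputable def Df (n : ℕ) (ε β : ℝ) (τ : ℕ) : ℝ :=
  n * ((2 : ℝ) ^ (-(1 / 2 - ε) * ((n : ℝ) - τ)) * (2 : ℝ) ^ ((n : ℝ) / (4 * β)))

theorem one_le_Cf {n : ℕ} (hn : 1 ≤ n) {ε β : ℝ} (hε : 0 ≤ ε) (hβ : 0 < β) (r : ℕ) :
    1 ≤ Cf n ε β r := by
  unfold Cf
  have h1 : (1 : ℝ) ≤ n := by exact_mod_cast hn
  have h2 : (1 : ℝ) ≤ (2 : ℝ) ^ (ε * n) := Real.one_le_rpow (by norm_num) (by positivity)
  have h3 : (1 : ℝ) ≤ (1 + (4 : ℝ) ^ (-(β * r))) ^ ((n : ℝ) / (2 * (β * r))) := by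
    apply Real.one_le_rpow
    · have : (0 : ℝ) < (4 : ℝ) ^ (-(β * r)) := by positivity
      linarith
    · positivity
  exact one_le_mul_of_one_le_of_one_le h1 (one_le_mul_of_one_le_of_one_le h2 h3)

/-- **Iteration.** -/
theorem iter (ε : ℝ) (hε : 0 < ε) (hε1 : ε ≤ 1 / 2) (β : ℝ) (hβ : 0 < β) (τ : ℕ) :
    ∃ n₀ : ℕ, ∀ n ≥ n₀, ∀ (Y : ℝ) (Qs : ℕ → Prop), (∀ q, Qs q → 2 ≤ q) → ∀ t z k : ℕ, k ≤ τ →
    em n ((n : ℝ) ^ β) Y Qs t z 1 ≤ (∏ r ∈ range k, Cf n ε β (r + 1)) *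
      (em (n - k) ((n : ℝ) ^ β) Y Qs t (z - k) (k + 1) + k * Df n ε β τ) := by
  obtain ⟨m₀, hm₀⟩ := step ε hε β hβ
  obtain ⟨m₁, hm₁⟩ := p0_le ε hε hε1
  refine ⟨m₀ + m₁ + τ + 1, fun n hn Y Qs hQs t z k hk => ?_⟩
  induction k with
  | zero => simp
  | succ k ih =>
    refine (ih (by omega)).trans ?_
    rw [prod_range_succ, mul_assoc]
    refine mul_le_mul_of_nonneg_left ?_ (prod_nonneg fun r _ =>
      zero_le_one.trans (one_le_Cf (by omega) hε.le hβ _))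
    obtain ⟨m, hm⟩ : ∃ m, n - k = m + 1 := ⟨n - k - 1, by omega⟩
    have h1 := hm₀ m (by omega) n (by omega) Y Qs hQs t (z - k) (k + 1) (by omega)
    have h2 := hm₁ m (by omega)
    have hmn : (m : ℝ) ≤ n := by exact_mod_cast (by omega : m ≤ n)
    have hm1n : (m : ℝ) + 1 ≤ n := by exact_mod_cast (by omega : m + 1 ≤ n)
    have hmt : (n : ℝ) - τ ≤ m := by
      have : n ≤ m + τ := by omega
      have : (n : ℝ) ≤ m + τ := by exact_mod_cast this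
      linarith
    have e1 : n - (k + 1) = m := by omega
    have e2 : z - (k + 1) = z - k - 1 := by omega
    rw [hm, e1, e2]
    have hC := one_le_Cf (n := n) (by omega) hε.le hβ (k + 1)
    have hD0 : 0 ≤ Df n ε β τ := by unfold Df; positivity
    have hem := em_nonneg m ((n : ℝ) ^ β) Y Qs t (z - k - 1) (k + 1 + 1)
    have h3 : ((m : ℝ) + 1) * ((2 : ℝ) ^ (ε * m) *
        (1 + (4 : ℝ) ^ (-(β * ((k + 1 : ℕ) : ℝ)))) ^ ((m : ℝ) / (2 * (β * ((k + 1 : ℕ) : ℝ))))) ≤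
        Cf n ε β (k + 1) := by
      unfold Cf
      have h4 : (0 : ℝ) < (4 : ℝ) ^ (-(β * ((k + 1 : ℕ) : ℝ))) := by positivity
      refine mul_le_mul hm1n (mul_le_mul ?_ ?_ (by positivity) (by positivity)) (by positivity)
        (by positivity)
      · exact Real.rpow_le_rpow_of_exponent_le (by norm_num)
          (mul_le_mul_of_nonneg_left hmn hε.le)
      · exact Real.rpow_le_rpow_of_exponent_le (by linarith)
          (div_le_div_of_nonneg_right hmn (by positivity))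
    have h5 : ((m : ℝ) + 1) * (p0 m * (2 : ℝ) ^ ((n : ℝ) / (4 * β))) ≤ Df n ε β τ := by
      unfold Df
      refine mul_le_mul hm1n (mul_le_mul_of_nonneg_right (h2.trans ?_) (by positivity))
        (mul_nonneg (p0_nonneg m) (by positivity)) (by positivity)
      apply Real.rpow_le_rpow_of_exponent_le (by norm_num)
      nlinarith
    calc em (m + 1) ((n : ℝ) ^ β) Y Qs t (z - k) (k + 1) + k * Df n ε β τ
        ≤ (m + 1) * ((2 : ℝ) ^ (ε * m) *
          (1 + (4 : ℝ) ^ (-(β * ((k + 1 : ℕ) : ℝ)))) ^ ((m : ℝ) / (2 * (β * ((k + 1 : ℕ) : ℝ)))) *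
          em m ((n : ℝ) ^ β) Y Qs t (z - k - 1) (k + 1 + 1) +
            p0 m * (2 : ℝ) ^ ((n : ℝ) / (4 * β))) + k * Df n ε β τ := by
          exact add_le_add h1 le_rfl
      _ = ((m : ℝ) + 1) * ((2 : ℝ) ^ (ε * m) *
          (1 + (4 : ℝ) ^ (-(β * ((k + 1 : ℕ) : ℝ)))) ^ ((m : ℝ) / (2 * (β * ((k + 1 : ℕ) : ℝ))))) *
          em m ((n : ℝ) ^ β) Y Qs t (z - k - 1) (k + 1 + 1) +
            ((m : ℝ) + 1) * (p0 m * (2 : ℝ) ^ ((n : ℝ) / (4 * β))) + k * Df n ε β τ := by ring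
      _ ≤ Cf n ε β (k + 1) * em m ((n : ℝ) ^ β) Y Qs t (z - k - 1) (k + 1 + 1) +
            Df n ε β τ + k * Df n ε β τ := by
          refine add_le_add (add_le_add (mul_le_mul_of_nonneg_right h3 hem) h5) le_rfl
      _ ≤ Cf n ε β (k + 1) * (em m ((n : ℝ) ^ β) Y Qs t (z - k - 1) (k + 1 + 1) +
            ((k + 1 : ℕ) : ℝ) * Df n ε β τ) := by
          push_cast
          have hk0 : (0 : ℝ) ≤ k := Nat.cast_nonneg k
          have h6 : (k + 1 : ℝ) * Df n ε β τ ≤ Cf n ε β (k + 1) * ((k + 1 : ℝ) * Df n ε β τ) := by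
            have : 0 ≤ (k + 1 : ℝ) * Df n ε β τ := by positivity
            nlinarith
          rw [mul_add]
          linarith

end Vale.Agent.P160.Half.MR
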