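import Vale.Agent.P160.Half.MRow205
import Vale.Agent.P160.Half.SgnRed
import Vale.Agent.P160.ST12

/-! # P160, rate 1/2, part (M), milestone (c): `SingHalf` from the landed rate `1 / √2` -/

open Finset Matrix

namespace Vale.Agent.P160.Half.MRow205

open Vale.Agent.P160.Half Vale.Agent.P160.Half.MTop

/-- the landed rate `1 / √2`, for symmetric 0/1 matrices -/
theorem singHalf : SingHalf := by
  classical
  intro ε hε
  set δ : ℝ := min ε (1 / 4) with hδ
  have hδ0 : 0 < δ := lt_min hε (by norm_num)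
  have hδε : δ ≤ ε := min_le_left _ _
  have hlam : 1 / Real.sqrt 2 < (2 : ℝ) ^ (-(1 / 2 - δ)) := by
    have h1 : 1 / Real.sqrt 2 = (2 : ℝ) ^ (-(1 / 2) : ℝ) := by
      rw [Real.sqrt_eq_rpow, Real.rpow_neg (by norm_num), one_div]
    rw [h1]
    apply Real.rpow_lt_rpow_of_exponent_lt (by norm_num)
    linarith
  obtain ⟨n₀, h⟩ := Filter.eventually_atTop.1 (eventually_le6 hlam)
  refine ⟨n₀ + 1, fun n hn => ?_⟩
  have h1 := h (n + 1) (by omega)
  have h2 : Pb (fun b : Sym2 (Fin (n + 1)) → Bool => (signM b).det = 0) =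
      ((univ.filter fun b : Sym2 (Fin (n + 1)) → Bool => (SgnRed.sgM b).det = 0).card : ℝ) /
        2 ^ Fintype.card (Sym2 (Fin (n + 1))) := by
    unfold Pb
    have h5 : ∀ b : Sym2 (Fin (n + 1)) → Bool, signM b = SgnRed.sgM b := fun _ => rfl
    simp only [h5]
  rw [h2, SgnRed.prob_sgM] at h1
  have h3 : sing n = ((univ.filter fun c : Sym2 (Fin n) → Bool => (matZ c).det = 0).card : ℝ) := by
    unfold sing
    congr!
  rw [h3]
  unfold Dn
  rw [div_le_iff₀ (by positivity)] at h1
  refine h1.trans ?_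
  refine mul_le_mul_of_nonneg_right ?_ (by positivity)
  rw [← Real.rpow_natCast, ← Real.rpow_mul (by norm_num)]
  apply Real.rpow_le_rpow_of_exponent_le (by norm_num)
  push_cast
  have h4 : δ * n ≤ ε * n := mul_le_mul_of_nonneg_right hδε (by positivity)
  have h5 : δ ≤ 1 / 4 := min_le_right _ _
  nlinarith

/-- **Milestone (c)**, no hypothesis. -/
theorem stmtM_row' (b : ℝ) (hb : 3 / 2 ≤ b) : StmtM b (lamRow b) := stmtM_row b hb singHalf

end Vale.Agent.P160.Half.MRow205
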