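import Vale.Agent.P160.Half.M67Close
import Vale.Agent.P160.Half.Sparse807
import Vale.Agent.P160.Half.MomTop836

/-! # P160, half rate, (M): the i.i.d. part, unconditional -/

namespace Vale.Agent.P160.Half.M67

/-- the i.i.d. part, all parameters used by the outer part -/
theorem xi_all : StmtTop' (1 / 8) :=
  close (by norm_num) le_rfl MomTop836.mom3 Sp807.stmtSparse

/-- unfolded form -/
theorem xi_eighth {b₁ c B : ℝ} (hb₁ : 1 ≤ b₁) (hB : b₁ ≤ B) (hc : c < 5 / 8) :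
    M8.StmtXi b₁ (1 / 8) c B :=
  xi_all b₁ c B hb₁ hB (by linarith)

/-- every smaller `β` -/
theorem xi_of_le {β b₁ c B : ℝ} (hβ : β ≤ 1 / 8) (hb₁ : 1 ≤ b₁) (hB : b₁ ≤ B) (hc : c < 5 / 8) :
    M8.StmtXi b₁ β c B := by
  obtain ⟨k₀, hk₀⟩ := xi_eighth hb₁ hB hc
  refine ⟨k₀, fun k hk N hN hp hsize => hk₀ k hk N hN hp (hsize.trans ?_)⟩
  apply Real.rpow_le_rpow_of_exponent_le (by norm_num)
  exact mul_le_mul_of_nonneg_right hβ (Nat.cast_nonneg k)

end Vale.Agent.P160.Half.M67
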