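import Vale.Agent.P160.Half.GStmt2

/-! # P160, half rate: G4 (helper731): zero counts of the words modulo the large primes -/

open Finset Matrix

set_option linter.unusedSectionVars false

namespace Vale.Agent.P160.Half.G

namespace KZ1

/-- double counting: re-randomise the bits indexed by `K` -/
theorem count_extend {I K : Type} [Fintype I] [Fintype K] [DecidableEq I] [DecidableEq K] (e : K → I)
    (he : Function.Injective e) (Q : (I → Bool) → Prop) (B : ℝ)
    (h : ∀ f₀ : I → Bool, (Nat.card {x : K → Bool // Q (Function.extend e x f₀)} : ℝ) ≤ B) :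
    (Nat.card {f : I → Bool // Q f} : ℝ) * 2 ^ Fintype.card K ≤ B * 2 ^ Fintype.card I := by
  classical
  have h1 : ((univ : Finset (I → Bool)).filter Q).card * 2 ^ Fintype.card K ≤
      ∑ f₀ : I → Bool, ((univ : Finset (K → Bool)).filter fun x => Q (Function.extend e x f₀)).card := by
    have h2 : ∑ f₀ : I → Bool, ((univ : Finset (K → Bool)).filter fun x => Q (Function.extend e x f₀)).card =
        ((univ : Finset ((I → Bool) × (K → Bool))).filter fun z => Q (Function.extend e z.2 z.1)).card := by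
      simp only [Finset.card_filter]
      rw [Fintype.sum_prod_type]
    have h3 : 2 ^ Fintype.card K = (univ : Finset (K → Bool)).card := by simp
    rw [h2, h3, ← Finset.card_product]
    refine Finset.card_le_card_of_injOn (fun p => (Function.extend e p.2 p.1, p.1 ∘ e)) ?_ ?_
    · intro p hp
      simp only [Finset.coe_product, Set.mem_prod, Finset.mem_coe, mem_filter, mem_univ, true_and, and_true] at hp ⊢
      have : Function.extend e (p.1 ∘ e) (Function.extend e p.2 p.1) = p.1 := by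
        funext i
        by_cases hi : ∃ k, e k = i
        · obtain ⟨k, rfl⟩ := hi
          rw [he.extend_apply]; rfl
        · rw [Function.extend_apply' _ _ _ hi, Function.extend_apply' _ _ _ hi]
      rw [this]; exact hp
    · intro p _ p' _ hpp
      simp only [Prod.mk.injEq] at hpp
      obtain ⟨ha, hb⟩ := hpp
      refine Prod.ext ?_ ?_
      · funext i
        by_cases hi : ∃ k, e k = i
        · obtain ⟨k, rfl⟩ := hi
          exact congrFun hb k
        · have := congrFun ha i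
          rwa [Function.extend_apply' _ _ _ hi, Function.extend_apply' _ _ _ hi] at this
      · funext k
        have := congrFun ha (e k)
        rwa [he.extend_apply, he.extend_apply] at this
  have h4 : (Nat.card {f : I → Bool // Q f} : ℝ) = ((univ : Finset (I → Bool)).filter Q).card := by
    rw [Nat.card_eq_fintype_card, Fintype.card_subtype]
  rw [h4]
  calc ((((univ : Finset (I → Bool)).filter Q).card : ℝ)) * 2 ^ Fintype.card K
      ≤ ∑ f₀ : I → Bool, (((univ : Finset (K → Bool)).filter fun x => Q (Function.extend e x f₀)).card : ℝ) := by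
        exact_mod_cast h1
    _ ≤ ∑ f₀ : I → Bool, B := by
        refine Finset.sum_le_sum fun f₀ _ => ?_
        have := h f₀
        rwa [Nat.card_eq_fintype_card, Fintype.card_subtype] at this
    _ = B * 2 ^ Fintype.card I := by
        rw [Finset.sum_const, nsmul_eq_mul, mul_comm]
        simp

/-- a rational vector made integral and nonzero modulo `p` -/
theorem exists_int {ι : Type} [Fintype ι] (w : ι → ℚ) (hw : w ≠ 0) (p : ℕ) (hp : p.Prime) :
    ∃ (v : ι → ℤ) (c : ℚ), (∀ i, (v i : ℚ) = c * w i) ∧ (fun i => ((v i : ℤ) : ZMod p)) ≠ 0 := by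
  classical
  set D : ℤ := ∏ i, ((w i).den : ℤ) with hD
  have hD0 : D ≠ 0 := Finset.prod_ne_zero_iff.2 fun i _ => by exact_mod_cast (w i).den_ne_zero
  have hu : ∀ i, ∃ u : ℤ, (u : ℚ) = D * w i := by
    intro i
    refine ⟨(w i).num * ∏ j ∈ univ.erase i, ((w j).den : ℤ), ?_⟩
    rw [hD, ← Finset.mul_prod_erase univ _ (mem_univ i)]
    push_cast
    have h1 : (w i) * (w i).den = (w i).num := Rat.mul_den_eq_num _
    linear_combination (-(∏ j ∈ univ.erase i, ((w j).den : ℚ))) * h1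
  choose u hu using hu
  obtain ⟨i₀, hi₀⟩ := Function.ne_iff.1 hw
  obtain ⟨g, hg, hg1⟩ := Finset.extract_gcd u (s := univ) ⟨i₀, mem_univ i₀⟩
  have hd0 : (univ.gcd u : ℤ) ≠ 0 := by
    intro h0
    have := (Finset.gcd_eq_zero_iff.1 h0) i₀ (mem_univ _)
    have h2 := hu i₀
    rw [this] at h2
    push_cast at h2
    have : (D : ℚ) * w i₀ ≠ 0 := mul_ne_zero (by exact_mod_cast hD0) hi₀
    exact this h2.symm
  refine ⟨g, D / (univ.gcd u : ℤ), fun i => ?_, fun h => ?_⟩
  · have h1 := hg i (mem_univ i)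
    have h2 := hu i
    have h3 : ((univ.gcd u : ℤ) : ℚ) ≠ 0 := by exact_mod_cast hd0
    have h4 : ((univ.gcd u : ℤ) : ℚ) * g i = D * w i := by
      rw [← h2]; exact_mod_cast h1.symm
    field_simp
    linarith
  · have : (p : ℤ) ∣ univ.gcd g := by
      refine Finset.dvd_gcd fun i _ => ?_
      exact (ZMod.intCast_zmod_eq_zero_iff_dvd _ _).1 (congrFun h i)
    rw [hg1] at this
    have h5 := Int.eq_one_of_dvd_one (by positivity) this
    exact hp.one_lt.ne' (by exact_mod_cast h5)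

theorem rank_submatrix_le' {K m n m' n' : Type} [Field K] [Fintype m] [Fintype n] [Fintype m'] [Fintype n'] [DecidableEq m]
    [DecidableEq n] (M : Matrix m n K) (f : m' → m) (g : n' → n) : (M.submatrix f g).rank ≤ M.rank := by
  have hcol : ∀ {a b c : Type} [Fintype a] [Fintype b] [Fintype c] [DecidableEq b] (N : Matrix a b K) (g : c → b),
      (N.submatrix id g).rank ≤ N.rank := by
    intro a b c _ _ _ _ N g
    have h := Matrix.mul_submatrix_one (Equiv.refl b) g N
    have h2 : N.submatrix id g = N * (1 : Matrix b b K).submatrix (Equiv.refl b) g := by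
      rw [h]; rfl
    rw [h2]
    exact Matrix.rank_mul_le_left _ _
  calc (M.submatrix f g).rank = ((M.submatrix f id).submatrix id g).rank := rfl
    _ ≤ (M.submatrix f id).rank := hcol _ _
    _ = (Mᵀ.submatrix id f).rank := by rw [← Matrix.rank_transpose (M.submatrix f id)]; rfl
    _ ≤ Mᵀ.rank := hcol _ _
    _ = M.rank := Matrix.rank_transpose _


section

variable {α β : Type} [Fintype α] [Fintype β] [DecidableEq α] [DecidableEq β]

/-- the bits of the rows in `S`, columns outside `S` -/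
def emb (S : Finset α) : S × (Sᶜ : Finset α) → Sym2 α := fun p => s((p.1 : α), (p.2 : α))

theorem emb_inj (S : Finset α) : Function.Injective (emb S) := by
  rintro ⟨s, t⟩ ⟨s', t'⟩ h
  simp only [emb, Sym2.eq_iff] at h
  rcases h with ⟨h1, h2⟩ | ⟨h1, -⟩
  · rw [Subtype.ext h1, Subtype.ext h2]
  · exact absurd (h1 ▸ s.2) (mem_compl.1 t'.2)

/-- the matrix of the rows outside `S` -/
def Em (S : Finset α) (F : Matrix α β ℤ) (b : Sym2 α → Bool) : Matrix (Sᶜ : Finset α) ((Sᶜ : Finset α) ⊕ β) ℤ :=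
  fun t u => match u with
    | Sum.inl t' => matZ b t t'
    | Sum.inr j => F t j

theorem Em_abs (S : Finset α) (F : Matrix α β ℤ) (X : ℕ) (hX : 1 ≤ X) (hF : ∀ i j, |F i j| ≤ (X : ℤ)) (b : Sym2 α → Bool)
    (i j) : |Em S F b i j| ≤ (X : ℤ) := by
  rcases j with t' | j
  · exact (matZ_abs b _ _).trans (by exact_mod_cast hX)
  · exact hF _ _

theorem Em_extend (S : Finset α) (F : Matrix α β ℤ) (x : S × (Sᶜ : Finset α) → Bool) (b₀ : Sym2 α → Bool) :
    Em S F (Function.extend (emb S) x b₀) = Em S F b₀ := by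
  funext t u
  rcases u with t' | j
  · simp only [Em, matZ]
    rw [Function.extend_apply']
    rintro ⟨⟨s, v⟩, h⟩
    simp only [emb, Sym2.eq_iff] at h
    rcases h with ⟨h1, -⟩ | ⟨h1, -⟩
    · exact absurd (h1 ▸ s.2) (mem_compl.1 t.2)
    · exact absurd (h1 ▸ s.2) (mem_compl.1 t'.2)
  · rfl

/-- a word vanishing on `S` -/
theorem word_iff (R : Type) [CommRing R] (S : Finset α) (F : Matrix α β ℤ) (x : S × (Sᶜ : Finset α) → Bool)
    (b₀ : Sym2 α → Bool) (g : α → R) (c : β → R) (hg : ∀ s ∈ S, g s = 0) :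
    Word R (matZ (Function.extend (emb S) x b₀)) F g c ↔
      (Em S F b₀).map (Int.cast : ℤ → R) *ᵥ (Sum.elim (fun t => g (t : α)) c) = 0 ∧
      ∀ s : S, bdot (fun u => x (s, u)) ((Sum.elim (fun t : (Sᶜ : Finset α) => g (t : α)) c) ∘ Sum.inl) +
        ∑ j, (F s j : R) * (Sum.elim (fun t : (Sᶜ : Finset α) => g (t : α)) c) (Sum.inr j) = 0 := by
  set b := Function.extend (emb S) x b₀ with hb
  have hsum : ∀ h : α → R, ∑ i, h i * g i = ∑ t : (Sᶜ : Finset α), h t * g t := by
    intro h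
    rw [Finset.sum_coe_sort (Sᶜ) (fun i => h i * g i), ← Finset.sum_add_sum_compl S]
    rw [Finset.sum_eq_zero (fun s hs => by rw [hg s hs, mul_zero]), zero_add]
  have hT : ∀ t : (Sᶜ : Finset α), ((matZ b).map (Int.cast : ℤ → R) *ᵥ g + F.map (Int.cast : ℤ → R) *ᵥ c) (t : α) =
      ((Em S F b₀).map (Int.cast : ℤ → R) *ᵥ (Sum.elim (fun t => g (t : α)) c)) t := by
    intro t
    rw [← Em_extend S F x b₀, ← hb]
    simp only [Pi.add_apply, mulVec, dotProduct, Matrix.map_apply, Fintype.sum_sum_type, Sum.elim_inl, Sum.elim_inr]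
    rw [hsum]
    rfl
  have hS : ∀ s : S, ((matZ b).map (Int.cast : ℤ → R) *ᵥ g + F.map (Int.cast : ℤ → R) *ᵥ c) (s : α) =
      bdot (fun u => x (s, u)) ((Sum.elim (fun t : (Sᶜ : Finset α) => g (t : α)) c) ∘ Sum.inl) +
        ∑ j, (F s j : R) * (Sum.elim (fun t : (Sᶜ : Finset α) => g (t : α)) c) (Sum.inr j) := by
    intro s
    simp only [Pi.add_apply, mulVec, dotProduct, Matrix.map_apply, bdot, Function.comp_apply, Sum.elim_inl, Sum.elim_inr]
    rw [hsum]
    congr 1
    refine Finset.sum_congr rfl fun t _ => ?_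
    have h1 : b s((s : α), (t : α)) = x (s, t) := (emb_inj S).extend_apply x b₀ (s, t)
    simp only [matZ, h1]
    split_ifs <;> simp
  constructor
  · intro h
    unfold Word at h
    refine ⟨funext fun t => ?_, fun s => ?_⟩
    · rw [← hT t, h]; rfl
    · rw [← hS s, h]; rfl
  · rintro ⟨h1, h2⟩
    unfold Word
    funext i
    by_cases hi : i ∈ S
    · rw [hS ⟨i, hi⟩, h2]; rfl
    · rw [hT ⟨i, mem_compl.2 hi⟩, h1]; rfl

theorem prin_eq {R : Type} [CommRing R] (S : Finset α) (F : Matrix α β ℤ) (b : Sym2 α → Bool) :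
    prin ((matZ b).map (Int.cast : ℤ → R)) Sᶜ = ((Em S F b).map (Int.cast : ℤ → R)).submatrix id Sum.inl := rfl

theorem rank_p (S : Finset α) (F : Matrix α β ℤ) (b : Sym2 α → Bool) (k : ℕ) (h : CorLt (matZ b) k) (p : ℕ) (hp : p.Prime) :
    Fintype.card (Sᶜ : Finset α) + Fintype.card β ≤ ((Em S F b).map (Int.cast : ℤ → ZMod p)).rank + (k + Fintype.card β) := by
  have := Fact.mk hp
  have h1 := h p hp Sᶜ
  rw [prin_eq S F] at h1
  have h2 := rank_submatrix_le' ((Em S F b).map (Int.cast : ℤ → ZMod p)) (id : (Sᶜ : Finset α) → (Sᶜ : Finset α)) Sum.inl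
  rw [Fintype.card_coe]
  omega

theorem rank_q (S : Finset α) (F : Matrix α β ℤ) (b : Sym2 α → Bool) (k : ℕ) (h : CorLt (matZ b) k) :
    Fintype.card (Sᶜ : Finset α) + Fintype.card β ≤ ((Em S F b).map (Int.cast : ℤ → ℚ)).rank + (k + Fintype.card β) := by
  have := Fact.mk Nat.prime_two
  have h1 := h 2 Nat.prime_two Sᶜ
  obtain ⟨A, hA, hcard, hdet, -⟩ := exists_base ((matZ b).map (Int.cast : ℤ → ZMod 2))
    (fun i j => by simp only [Matrix.map_apply]; rw [matZ_symm]) Sᶜ
  have hdz : (prin (matZ b) A).det ≠ 0 := by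
    intro h0
    apply hdet
    have : prin ((matZ b).map (Int.cast : ℤ → ZMod 2)) A = (prin (matZ b) A).map (Int.castRingHom (ZMod 2)) := rfl
    rw [this, ← RingHom.mapMatrix_apply, ← RingHom.map_det, h0, map_zero]
  have hdq : (prin ((matZ b).map (Int.cast : ℤ → ℚ)) A).det ≠ 0 := by
    have : prin ((matZ b).map (Int.cast : ℤ → ℚ)) A = (prin (matZ b) A).map (Int.castRingHom ℚ) := rfl
    rw [this, ← RingHom.mapMatrix_apply, ← RingHom.map_det]
    simpa using hdz
  have hr : (prin ((matZ b).map (Int.cast : ℤ → ℚ)) A).rank = A.card := by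
    rw [Matrix.rank_of_isUnit _ ((Matrix.isUnit_iff_isUnit_det _).2 (isUnit_iff_ne_zero.2 hdq)), Fintype.card_coe]
  have h2 := rank_submatrix_le' ((Em S F b).map (Int.cast : ℤ → ℚ))
    (fun a : A => (⟨(a : α), hA a.2⟩ : (Sᶜ : Finset α)))
    (fun a : A => (Sum.inl (⟨(a : α), hA a.2⟩ : (Sᶜ : Finset α)) : (Sᶜ : Finset α) ⊕ β))
  have h3 : ((Em S F b).map (Int.cast : ℤ → ℚ)).submatrix
    (fun a : A => (⟨(a : α), hA a.2⟩ : (Sᶜ : Finset α)))
    (fun a : A => (Sum.inl (⟨(a : α), hA a.2⟩ : (Sᶜ : Finset α)) : (Sᶜ : Finset α) ⊕ β)) =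
      prin ((matZ b).map (Int.cast : ℤ → ℚ)) A := rfl
  rw [h3, hr, hcard] at h2
  rw [Fintype.card_coe]
  omega

/-- heavy vectors -/
def Hv (S : Finset α) (t : ℕ) (p : ℕ) (w : (Sᶜ : Finset α) ⊕ β → ZMod p) : Prop :=
  w ≠ 0 ∧ t < (univ.filter fun i : (Sᶜ : Finset α) => w (Sum.inl i) ≠ 0).card

theorem hv_atom (S : Finset α) (y t : ℕ) (q : ℝ) (hy : 2 ≤ y) (hq : q = 1 / y + 3 / 2 / Real.sqrt (t + 1)) (p : ℕ)
    (hp : p.Prime) (hyp : y ≤ p) (w : (Sᶜ : Finset α) ⊕ β → ZMod p) (hw : Hv S t p w) (c : ZMod p) :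
    (Nat.card {x : (Sᶜ : Finset α) → Bool // bdot x (w ∘ Sum.inl) = c} : ℝ) ≤ q * 2 ^ Fintype.card (Sᶜ : Finset α) := by
  classical
  have := Fact.mk hp
  have : NeZero p := ⟨hp.ne_zero⟩
  set U : Finset (Sᶜ : Finset α) := univ.filter fun i : (Sᶜ : Finset α) => w (Sum.inl i) ≠ 0 with hU
  have hUc : t < U.card := hw.2
  have h1 := LOq.atom_le (w ∘ Sum.inl) c U (by omega) (fun i hi => isUnit_iff_ne_zero.2 (mem_filter.1 hi).2)
  have h2 : (1 : ℝ) / p + 3 / 2 / Real.sqrt U.card ≤ q := by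
    rw [hq]
    have hy0 : (0 : ℝ) < y := by positivity
    have ha : (1 : ℝ) / p ≤ 1 / y := one_div_le_one_div_of_le hy0 (by exact_mod_cast hyp)
    have hb : (3 : ℝ) / 2 / Real.sqrt U.card ≤ 3 / 2 / Real.sqrt (t + 1) := by
      refine div_le_div_of_nonneg_left (by norm_num) (Real.sqrt_pos.2 (by positivity)) (Real.sqrt_le_sqrt ?_)
      exact_mod_cast hUc
    linarith
  have h3 : LOq.atom (w ∘ Sum.inl) c * 2 ^ Fintype.card (Sᶜ : Finset α) =
      (Nat.card {x : (Sᶜ : Finset α) → Bool // bdot x (w ∘ Sum.inl) = c} : ℝ) := by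
    rw [LOq.atom, div_mul_cancel₀ _ (by positivity), Nat.card_eq_fintype_card, Fintype.card_subtype]
    rfl
  rw [← h3]
  exact mul_le_mul_of_nonneg_right (h1.trans h2) (by positivity)

/-- the event for a fixed zero set -/
def Ev (S : Finset α) (F : Matrix α β ℤ) (y t k : ℕ) (b : Sym2 α → Bool) : Prop :=
  CorLt (matZ b) k ∧ NoSparse (matZ b) F y t ∧
    ∃ p, p.Prime ∧ y ≤ p ∧ ∃ (g : α → ZMod p) (c : β → ZMod p), Word _ (matZ b) F g c ∧ (g ≠ 0 ∨ c ≠ 0) ∧ ∀ s ∈ S, g s = 0

/-- a nonzero vector killed by everything is heavy -/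
theorem heavy (S : Finset α) (F : Matrix α β ℤ) (y t : ℕ) (x : S × (Sᶜ : Finset α) → Bool) (b₀ : Sym2 α → Bool)
    (hN : NoSparse (matZ (Function.extend (emb S) x b₀)) F y t) (p : ℕ) (hp : p.Prime)
    (hyp : y ≤ p) (w : (Sᶜ : Finset α) ⊕ β → ZMod p) (hw : w ≠ 0) (h1 : (Em S F b₀).map (Int.cast : ℤ → ZMod p) *ᵥ w = 0)
    (h2 : ∀ s : S, bdot (fun u => x (s, u)) (w ∘ Sum.inl) + ∑ j, (F s j : ZMod p) * w (Sum.inr j) = 0) : Hv S t p w := by
  classical
  set g : α → ZMod p := fun i => if h : i ∈ Sᶜ then w (Sum.inl ⟨i, h⟩) else 0 with hg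
  set c : β → ZMod p := fun j => w (Sum.inr j) with hc
  have hgS : ∀ s ∈ S, g s = 0 := fun s hs => by
    rw [hg]; simp only [mem_compl]; rw [dif_neg (not_not.2 hs)]
  have hgT : ∀ t : (Sᶜ : Finset α), g t = w (Sum.inl t) := fun t => by
    rw [hg]; simp only; rw [dif_pos t.2]
  have hE : Sum.elim (fun t : (Sᶜ : Finset α) => g (t : α)) c = w := by
    funext u
    rcases u with t' | j
    · exact hgT t'
    · rfl
  have hword := (word_iff (ZMod p) S F x b₀ g c hgS).2 (by rw [hE]; exact ⟨h1, h2⟩)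
  have hne : g ≠ 0 ∨ c ≠ 0 := by
    by_contra hcon
    push Not at hcon
    apply hw
    rw [← hE, hcon.1, hcon.2]
    funext u
    rcases u with t' | j <;> rfl
  have h3 := hN p hp hyp g c hword hne
  refine ⟨hw, lt_of_lt_of_le h3 ?_⟩
  rw [← Finset.card_map (Function.Embedding.subtype fun i => i ∈ Sᶜ)]
  refine Finset.card_le_card fun i hi => ?_
  rw [mem_filter] at hi
  have hiS : i ∈ Sᶜ := by
    by_contra hcon
    exact hi.2 (hgS i (by simpa using hcon))
  rw [Finset.mem_map]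
  refine ⟨⟨i, hiS⟩, mem_filter.2 ⟨mem_univ _, ?_⟩, rfl⟩
  rw [← hgT]
  exact hi.2

theorem card_le_add {X Y : Type} [Fintype X] [Fintype Y] (e : X ≃ Y) (A : X → Prop) (B₁ B₂ : Y → Prop)
    (h : ∀ x, A x → B₁ (e x) ∨ B₂ (e x)) :
    (Nat.card {x // A x} : ℝ) ≤ (Nat.card {y // B₁ y} : ℝ) + Nat.card {y // B₂ y} := by
  classical
  rw [Nat.card_eq_fintype_card, Nat.card_eq_fintype_card, Nat.card_eq_fintype_card, Fintype.card_subtype,
    Fintype.card_subtype, Fintype.card_subtype, ← Nat.cast_add]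
  refine Nat.cast_le.2 ?_
  calc (univ.filter A).card = ((univ.filter A).map e.toEmbedding).card := (Finset.card_map _).symm
    _ ≤ ((univ.filter B₁) ∪ (univ.filter B₂)).card := by
        refine Finset.card_le_card fun z hz => ?_
        obtain ⟨x, hx, rfl⟩ := Finset.mem_map.1 hz
        rw [mem_union, mem_filter, mem_filter]
        rcases h x (mem_filter.1 hx).2 with h1 | h1
        · exact Or.inl ⟨mem_univ _, h1⟩
        · exact Or.inr ⟨mem_univ _, h1⟩
    _ ≤ _ := Finset.card_union_le _ _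

theorem fixed (hR : RowsStmt2) (hC : CoreStmt2) (S : Finset α) (F : Matrix α β ℤ) (b₀ : Sym2 α → Bool) (X y t k : ℕ) (q : ℝ)
    (hX : 1 ≤ X) (hF : ∀ i j, |F i j| ≤ (X : ℤ))
    (hy : 2 ≤ y) (hq : q = 1 / y + 3 / 2 / Real.sqrt (t + 1)) (hq1 : q ≤ 1) :
    (Nat.card {x : S × (Sᶜ : Finset α) → Bool // Ev S F y t k (Function.extend (emb S) x b₀)} : ℝ) ≤
      3 * X * ((Fintype.card α : ℝ) + Fintype.card β) ^ 2 * 4 ^ S.card * q ^ (S.card - 2 * (k + Fintype.card β)) *
        2 ^ (Fintype.card (Sᶜ : Finset α) * S.card) := by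
  classical
  have hq0 : 0 ≤ q := by rw [hq]; positivity
  by_cases hex : ∃ x : S × (Sᶜ : Finset α) → Bool, Ev S F y t k (Function.extend (emb S) x b₀)
  swap
  · have : IsEmpty {x : S × (Sᶜ : Finset α) → Bool // Ev S F y t k (Function.extend (emb S) x b₀)} :=
      ⟨fun x => hex ⟨x.1, x.2⟩⟩
    rw [Nat.card_of_isEmpty]
    push_cast
    positivity
  obtain ⟨x₁, hcor, -, p₁, hp₁, hy₁, g₁, c₁, hw₁, hne₁, hz₁⟩ := hex
  have hrp : ∀ p, p.Prime → Fintype.card (Sᶜ : Finset α) + Fintype.card β ≤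
      ((Em S F b₀).map (Int.cast : ℤ → ZMod p)).rank + (k + Fintype.card β) := fun p hp => by
    have := rank_p S F _ k hcor p hp
    rwa [Em_extend] at this
  have hrq : Fintype.card (Sᶜ : Finset α) + Fintype.card β ≤
      ((Em S F b₀).map (Int.cast : ℤ → ℚ)).rank + (k + Fintype.card β) := by
    have := rank_q S F _ k hcor
    rwa [Em_extend] at this
  have hne : Nonempty ((Sᶜ : Finset α) ⊕ β) := by
    by_contra hcon
    rw [not_nonempty_iff] at hcon
    rcases hne₁ with h | h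
    · apply h
      funext i
      by_cases hi : i ∈ S
      · exact hz₁ i hi
      · exact (hcon.false (Sum.inl ⟨i, mem_compl.2 hi⟩)).elim
    · apply h
      funext j
      exact (hcon.false (Sum.inr j)).elim
  -- the fixed prime
  obtain ⟨p₀, hyp₀, hp₀⟩ := Nat.exists_infinite_primes y
  have := Fact.mk hp₀
  set U : Submodule (ZMod p₀) ((Sᶜ : Finset α) ⊕ β → ZMod p₀) :=
    LinearMap.ker ((Em S F b₀).map (Int.cast : ℤ → ZMod p₀)).mulVecLin with hU
  have hUr : Module.finrank (ZMod p₀) U ≤ k + Fintype.card β := by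
    have h1 := LinearMap.finrank_range_add_finrank_ker ((Em S F b₀).map (Int.cast : ℤ → ZMod p₀)).mulVecLin
    have h2 := hrp p₀ hp₀
    rw [Module.finrank_fintype_fun_eq_card, Fintype.card_sum] at h1
    rw [Matrix.rank] at h2
    rw [hU]
    omega
  have hA := hR (ZMod p₀) (Sᶜ : Finset α) β S (Hv S t p₀) (fun V => Module.finrank (ZMod p₀) V) q
    (fun s j => (F s j : ZMod p₀))
    (fun U V h => Submodule.finrank_lt_finrank_of_lt h) hq0 hq1
    (fun w hw c => hv_atom S y t q hy hq p₀ hp₀ hyp₀ w hw c)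
    U (k + Fintype.card β) hUr
  have hB := hC (Sᶜ : Finset α) (Sᶜ : Finset α) β S (Em S F b₀) (fun s j => F s j) X y (k + Fintype.card β) (Hv S t) q hX
    (Em_abs S F X hX hF b₀) (fun s j => hF _ _) hq0 hq1
    (fun p w hw => hw.1) (fun p hp hyp w hw c => hv_atom S y t q hy hq p hp hyp w hw c) (fun p hp _ => hrp p hp) hrq
  have hle := card_le_add (Equiv.curry S (Sᶜ : Finset α) Bool)
    (fun x => Ev S F y t k (Function.extend (emb S) x b₀))
    (fun x => ∃ w ∈ U, Hv S t p₀ w ∧ ∀ s, bdot (x s) (w ∘ Sum.inl) + ∑ j, (F s j : ZMod p₀) * w (Sum.inr j) = 0)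
    (fun x => (∀ w : (Sᶜ : Finset α) ⊕ β → ℚ, (Em S F b₀).map (Int.cast : ℤ → ℚ) *ᵥ w = 0 →
        (∀ s : S, bdot (x s) (w ∘ Sum.inl) + ∑ j, (F s j : ℚ) * w (Sum.inr j) = 0) → w = 0) ∧
      ∃ p, p.Prime ∧ y ≤ p ∧ ∃ w : (Sᶜ : Finset α) ⊕ β → ZMod p, Hv S t p w ∧
        (Em S F b₀).map (Int.cast : ℤ → ZMod p) *ᵥ w = 0 ∧
        ∀ s : S, bdot (x s) (w ∘ Sum.inl) + ∑ j, (F s j : ZMod p) * w (Sum.inr j) = 0) (by
    rintro x ⟨-, hN, p, hp, hyp, g, c, hword, hne, hz⟩
    by_cases hrat : ∀ w : (Sᶜ : Finset α) ⊕ β → ℚ, (Em S F b₀).map (Int.cast : ℤ → ℚ) *ᵥ w = 0 →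
        (∀ s : S, bdot (fun u => x (s, u)) (w ∘ Sum.inl) + ∑ j, (F s j : ℚ) * w (Sum.inr j) = 0) → w = 0
    · right
      refine ⟨hrat, p, hp, hyp, Sum.elim (fun t : (Sᶜ : Finset α) => g (t : α)) c, ?_⟩
      have h1 := (word_iff (ZMod p) S F x b₀ g c hz).1 hword
      have hw0 : Sum.elim (fun t : (Sᶜ : Finset α) => g (t : α)) c ≠ 0 := by
        intro h0
        rcases hne with h | h
        · apply h
          funext i
          by_cases hi : i ∈ S
          · exact hz i hi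
          · exact congrFun h0 (Sum.inl ⟨i, mem_compl.2 hi⟩)
        · apply h
          funext j
          exact congrFun h0 (Sum.inr j)
      exact ⟨heavy S F y t x b₀ hN p hp hyp _ hw0 h1.1 h1.2, h1.1, h1.2⟩
    · left
      push Not at hrat
      obtain ⟨w, hw1, hw2, hw0⟩ := hrat
      obtain ⟨v, d, hv, hv0⟩ := exists_int w hw0 p₀ hp₀
      have hk1 : (Em S F b₀).map (Int.cast : ℤ → ZMod p₀) *ᵥ (fun i => ((v i : ℤ) : ZMod p₀)) = 0 := by
        have hz1 : Em S F b₀ *ᵥ v = 0 := by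
          funext i
          have h4 := congrFun hw1 i
          simp only [mulVec, dotProduct, Matrix.map_apply, Pi.zero_apply] at h4 ⊢
          have h5 : ((∑ j, Em S F b₀ i j * v j : ℤ) : ℚ) = 0 := by
            push_cast
            calc ∑ j, (Em S F b₀ i j : ℚ) * (v j : ℚ) = d * ∑ j, (Em S F b₀ i j : ℚ) * w j := by
                  rw [Finset.mul_sum]
                  exact Finset.sum_congr rfl fun j _ => by rw [hv j]; ring
              _ = 0 := by rw [h4, mul_zero]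
          exact_mod_cast h5
        funext i
        have h6 := congrArg (Int.cast : ℤ → ZMod p₀) (congrFun hz1 i)
        simp only [mulVec, dotProduct, Matrix.map_apply, Pi.zero_apply] at h6 ⊢
        push_cast at h6
        exact h6
      have hk2 : ∀ s : S, bdot (fun u => x (s, u)) ((fun i => ((v i : ℤ) : ZMod p₀)) ∘ Sum.inl) +
          ∑ j, (F s j : ZMod p₀) * ((v (Sum.inr j) : ℤ) : ZMod p₀) = 0 := by
        intro s
        have h4 := hw2 s
        have h5 : (((∑ j, (if x (s, j) then v (Sum.inl j) else 0)) + ∑ j, F s j * v (Sum.inr j) : ℤ) : ℚ) = 0 := by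
          push_cast
          calc (∑ j, (if x (s, j) then (v (Sum.inl j) : ℚ) else 0)) + ∑ j, (F s j : ℚ) * (v (Sum.inr j) : ℚ)
              = d * (bdot (fun u => x (s, u)) (w ∘ Sum.inl) + ∑ j, (F s j : ℚ) * w (Sum.inr j)) := by
                rw [bdot, mul_add, Finset.mul_sum, Finset.mul_sum]
                congr 1
                · refine Finset.sum_congr rfl fun j _ => ?_
                  split_ifs
                  · exact hv _
                  · ring
                · exact Finset.sum_congr rfl fun j _ => by rw [hv]; ring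
            _ = 0 := by rw [h4, mul_zero]
        have h6 : ((∑ j, (if x (s, j) then v (Sum.inl j) else 0)) + ∑ j, F s j * v (Sum.inr j) : ℤ) = 0 := by
          exact_mod_cast h5
        have h7 := congrArg (Int.cast : ℤ → ZMod p₀) h6
        push_cast at h7
        exact h7
      refine ⟨fun i => ((v i : ℤ) : ZMod p₀), ?_, heavy S F y t x b₀ hN p₀ hp₀ hyp₀ _ hv0 hk1 hk2, hk2⟩
      rw [hU, LinearMap.mem_ker, Matrix.mulVecLin_apply]
      exact hk1)
  refine hle.trans ((add_le_add hA hB).trans ?_)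
  have hcs : Fintype.card S = S.card := Fintype.card_coe S
  rw [hcs]
  have hnle : (Fintype.card (Sᶜ : Finset α) : ℝ) + Fintype.card β ≤ (Fintype.card α : ℝ) + Fintype.card β := by
    rw [Fintype.card_coe]
    have : ((Sᶜ : Finset α).card : ℝ) ≤ Fintype.card α := by exact_mod_cast Finset.card_le_univ _
    linarith
  have hn1 : (1 : ℝ) ≤ (Fintype.card (Sᶜ : Finset α) : ℝ) + Fintype.card β := by
    have h := Fintype.card_pos (α := (Sᶜ : Finset α) ⊕ β)
    rw [Fintype.card_sum] at h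
    exact_mod_cast h
  set s := S.card
  set K := k + Fintype.card β
  set m := Fintype.card (Sᶜ : Finset α)
  set n : ℝ := (m : ℝ) + Fintype.card β with hn
  have hX1 : (1 : ℝ) ≤ X := by exact_mod_cast hX
  have h1 : q ^ (s - K) ≤ q ^ (s - 2 * K) := pow_le_pow_of_le_one hq0 hq1 (by omega)
  have h2 : (2 : ℝ) ^ s ≤ 4 ^ s := pow_le_pow_left₀ (by norm_num) (by norm_num) _
  have h3 : n ^ 2 ≤ ((Fintype.card α : ℝ) + Fintype.card β) ^ 2 := pow_le_pow_left₀ (by linarith) hnle 2
  have h4 : (1 : ℝ) ≤ n ^ 2 := one_le_pow₀ hn1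
  have hXX : 0 ≤ (4 : ℝ) ^ s * q ^ (s - 2 * K) := by positivity
  have h5 : (2 : ℝ) ^ s * q ^ (s - K) ≤ 4 ^ s * q ^ (s - 2 * K) := mul_le_mul h2 h1 (by positivity) (by positivity)
  have h7 : (1 : ℝ) ≤ X * n ^ 2 := by nlinarith
  have h8 : (X : ℝ) * n ^ 2 ≤ X * ((Fintype.card α : ℝ) + Fintype.card β) ^ 2 :=
    mul_le_mul_of_nonneg_left h3 (by positivity)
  have h6 : (2 : ℝ) ^ s * q ^ (s - K) + X * n ^ 2 * 4 ^ s * q ^ (s - 2 * K) ≤
      3 * X * ((Fintype.card α : ℝ) + Fintype.card β) ^ 2 * 4 ^ s * q ^ (s - 2 * K) := by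
    nlinarith [mul_le_mul_of_nonneg_right h8 hXX, mul_le_mul_of_nonneg_right h7 hXX]
  calc _ = ((2 : ℝ) ^ s * q ^ (s - K) + X * n ^ 2 * 4 ^ s * q ^ (s - 2 * K)) * 2 ^ (m * s) := by ring
    _ ≤ _ := mul_le_mul_of_nonneg_right h6 (by positivity)

end

end KZ1

/-- **G4'**, sharp constant -/
theorem kz1_sharp (hR : RowsStmt2) (hC : CoreStmt2) (α β : Type) [Fintype α] [Fintype β] [DecidableEq α] [DecidableEq β]
    (F : Matrix α β ℤ) (X y t z k : ℕ) (q : ℝ) (hX : 1 ≤ X) (hF : ∀ i j, |F i j| ≤ (X : ℤ)) (hy : 2 ≤ y)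
    (hq : q = 1 / y + 3 / 2 / Real.sqrt (t + 1)) (hq1 : q ≤ 1) :
    (Nat.card {b : Sym2 α → Bool // CorLt (matZ b) k ∧ NoSparse (matZ b) F y t ∧
      ∃ p, p.Prime ∧ y ≤ p ∧ ∃ (g : α → ZMod p) (c : β → ZMod p), Word _ (matZ b) F g c ∧ (g ≠ 0 ∨ c ≠ 0) ∧
        z ≤ (univ.filter fun i => g i = 0).card} : ℝ) ≤
      3 * X * ((Fintype.card α : ℝ) + Fintype.card β) ^ 2 * (Nat.choose (Fintype.card α) z * 4 ^ z) *
        q ^ (z - 2 * (k + Fintype.card β)) * 2 ^ Fintype.card (Sym2 α) := by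
  classical
  have hq0 : 0 ≤ q := by rw [hq]; positivity
  set C : ℝ := 3 * X * ((Fintype.card α : ℝ) + Fintype.card β) ^ 2 * 4 ^ z * q ^ (z - 2 * (k + Fintype.card β)) *
    2 ^ Fintype.card (Sym2 α) with hC'
  have hfix : ∀ S : Finset α, S.card = z →
      (((univ : Finset (Sym2 α → Bool)).filter fun b => KZ1.Ev S F y t k b).card : ℝ) ≤ C := by
    intro S hS
    have h1 := KZ1.count_extend (KZ1.emb S) (KZ1.emb_inj S) (KZ1.Ev S F y t k) _
      (fun b₀ => KZ1.fixed hR hC S F b₀ X y t k q hX hF hy hq hq1)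
    have hcs : Fintype.card S = S.card := Fintype.card_coe S
    rw [Fintype.card_prod, Nat.card_eq_fintype_card, Fintype.card_subtype, hcs, hS] at h1
    have h2 : (2 : ℝ) ^ (Fintype.card (Sᶜ : Finset α) * z) = 2 ^ (z * Fintype.card (Sᶜ : Finset α)) := by
      rw [mul_comm]
    rw [h2] at h1
    have h3 : (0 : ℝ) < 2 ^ (z * Fintype.card (Sᶜ : Finset α)) := by positivity
    refine le_of_mul_le_mul_right (h1.trans (le_of_eq ?_)) h3
    rw [hC']
    ring
  have hcov : Nat.card {b : Sym2 α → Bool // CorLt (matZ b) k ∧ NoSparse (matZ b) F y t ∧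
      ∃ p, p.Prime ∧ y ≤ p ∧ ∃ (g : α → ZMod p) (c : β → ZMod p), Word _ (matZ b) F g c ∧ (g ≠ 0 ∨ c ≠ 0) ∧
        z ≤ (univ.filter fun i => g i = 0).card} ≤
      ∑ S ∈ (univ : Finset α).powersetCard z,
        ((univ : Finset (Sym2 α → Bool)).filter fun b => KZ1.Ev S F y t k b).card := by
    rw [Nat.card_eq_fintype_card, Fintype.card_subtype]
    refine le_trans (Finset.card_le_card fun b hb => ?_) Finset.card_biUnion_le
    obtain ⟨h1, h2, p, hp, hyp, g, c, hw, hne, hz⟩ := (mem_filter.1 hb).2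
    obtain ⟨S, hS, hSz⟩ := Finset.exists_subset_card_eq hz
    rw [Finset.mem_biUnion]
    refine ⟨S, Finset.mem_powersetCard.2 ⟨subset_univ _, hSz⟩, mem_filter.2 ⟨mem_univ _, ?_⟩⟩
    exact ⟨h1, h2, p, hp, hyp, g, c, hw, hne, fun s hs => (mem_filter.1 (hS hs)).2⟩
  calc (Nat.card {b : Sym2 α → Bool // CorLt (matZ b) k ∧ NoSparse (matZ b) F y t ∧
      ∃ p, p.Prime ∧ y ≤ p ∧ ∃ (g : α → ZMod p) (c : β → ZMod p), Word _ (matZ b) F g c ∧ (g ≠ 0 ∨ c ≠ 0) ∧
        z ≤ (univ.filter fun i => g i = 0).card} : ℝ)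
      ≤ ∑ S ∈ (univ : Finset α).powersetCard z,
        (((univ : Finset (Sym2 α → Bool)).filter fun b => KZ1.Ev S F y t k b).card : ℝ) := by exact_mod_cast hcov
    _ ≤ ∑ S ∈ (univ : Finset α).powersetCard z, C :=
        Finset.sum_le_sum fun S hS => hfix S (Finset.mem_powersetCard.1 hS).2
    _ = ((univ : Finset α).powersetCard z).card * C := by rw [Finset.sum_const, nsmul_eq_mul]
    _ = _ := by
        rw [Finset.card_powersetCard, Finset.card_univ, hC']
        ring

/-- **G4'** -/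
theorem kz1 (hR : RowsStmt2) (hC : CoreStmt2) (_ : NSZStmt) : KZ1Stmt2 := by
  intro α β _ _ _ _ F X y t z k q hX hF hy hq hq1
  have hq0 : 0 ≤ q := by rw [hq]; positivity
  refine (kz1_sharp hR hC α β F X y t z k q hX hF hy hq hq1).trans ?_
  have h1 : (Nat.choose (Fintype.card α) z : ℝ) * 4 ^ z ≤ 8 ^ Fintype.card α := by
    by_cases hz : z ≤ Fintype.card α
    · calc (Nat.choose (Fintype.card α) z : ℝ) * 4 ^ z ≤ 2 ^ Fintype.card α * 4 ^ Fintype.card α := by
            refine mul_le_mul ?_ (pow_le_pow_right₀ (by norm_num) hz) (by positivity) (by positivity)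
            exact_mod_cast Nat.choose_le_two_pow _ _
        _ = 8 ^ Fintype.card α := by rw [← mul_pow]; norm_num
    · rw [Nat.choose_eq_zero_of_lt (not_le.1 hz)]
      push_cast
      rw [zero_mul]
      positivity
  have h2 : 0 ≤ 3 * (X : ℝ) * ((Fintype.card α : ℝ) + Fintype.card β) ^ 2 := by positivity
  have h3 : 0 ≤ q ^ (z - 2 * (k + Fintype.card β)) := by positivity
  exact mul_le_mul_of_nonneg_right (mul_le_mul_of_nonneg_right (mul_le_mul_of_nonneg_left h1 h2) h3) (by positivity)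

end Vale.Agent.P160.Half.G
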