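import Vale.Agent.P160.Half.GStmt
import Vale.Agent.P160.Rank

/-! # P160, half rate, G6: two algebraic lemmas (helper557) -/

open Finset Matrix

namespace Vale.Agent.P160.Half.G

/-- number of solutions modulo `p ^ a` of a system of corank at most `k` modulo `p` -/
theorem card_ker_pow_le {τ ι : Type} [Fintype τ] [DecidableEq τ] [Fintype ι] [DecidableEq ι] (p a k : ℕ)
    [Fact p.Prime] (E : Matrix τ ι ℤ)
    (h : Fintype.card ι ≤ (E.map (Int.cast : ℤ → ZMod p)).rank + k) :
    Nat.card {w : ι → ZMod (p ^ a) // E.map (Int.cast : ℤ → ZMod (p ^ a)) *ᵥ w = 0} ≤ p ^ (a * k) := by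
  classical
  have hp : 0 < p := (Fact.out : p.Prime).pos
  have e1 : ∀ (N : ℕ) [NeZero N], Nat.card {w : ι → ZMod N // E.map (Int.cast : ℤ → ZMod N) *ᵥ w = 0} =
      (kerT N (fun (i : ι) (l : τ) => E l i)).card := by
    intro N _
    rw [Nat.card_eq_fintype_card, Fintype.card_subtype]
    congr 1
    ext w
    simp only [mem_filter, mem_univ, true_and, kerT]
    constructor
    · intro hw l
      exact congrFun hw l
    · intro hw
      funext l
      exact hw l
  rw [e1 (p ^ a)]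
  refine (card_kerT_le p _ a).trans ?_
  rw [mul_comm, pow_mul]
  refine Nat.pow_le_pow_left ?_ a
  have h2 := card_ker_mulVecLin p (E.map (Int.cast : ℤ → ZMod p))
  have h3 : (univ.filter (fun u : ι → ZMod p => (E.map (Int.cast : ℤ → ZMod p)).mulVec u = 0)).card =
      (kerT p (fun (i : ι) (l : τ) => E l i)).card := by
    rw [← e1 p, Nat.card_eq_fintype_card, Fintype.card_subtype]
  rw [h3] at h2
  have h4 : (kerT p (fun (i : ι) (l : τ) => E l i)).card * p ^ (E.map (Int.cast : ℤ → ZMod p)).rank ≤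
      p ^ k * p ^ (E.map (Int.cast : ℤ → ZMod p)).rank := by
    rw [h2, ← pow_add]
    exact Nat.pow_le_pow_right hp (by omega)
  exact Nat.le_of_mul_le_mul_right h4 (pow_pos hp _)

/-- a nonzero maximal minor of a matrix with independent columns -/
theorem exists_minor {τ κ : Type} [Fintype τ] [Fintype κ] [DecidableEq κ] (E : Matrix τ κ ℤ)
    (h : ∀ v : κ → ℚ, E.map (Int.cast : ℤ → ℚ) *ᵥ v = 0 → v = 0) :
    ∃ f : κ → τ, (E.submatrix f id).det ≠ 0 := by
  classical
  set A : Matrix τ κ ℚ := E.map (Int.cast : ℤ → ℚ) with hA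
  have hker : LinearMap.ker A.mulVecLin = ⊥ := by
    rw [LinearMap.ker_eq_bot']
    intro v hv
    exact h v hv
  have hrank : A.rank = Fintype.card κ := by
    have h3 := LinearMap.finrank_range_add_finrank_ker A.mulVecLin
    rw [hker, finrank_bot, add_zero, Module.finrank_fintype_fun_eq_card] at h3
    exact h3
  rw [Matrix.rank_eq_finrank_span_row] at hrank
  obtain ⟨κ', a, ha, hspan, hli⟩ := exists_linearIndependent' ℚ A.row
  have hfin : Finite κ' := Finite.of_injective a ha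
  have : Fintype κ' := Fintype.ofFinite κ'
  have hcard : Fintype.card κ' = Fintype.card κ := by
    rw [← hrank, ← hspan, finrank_span_eq_card hli]
  let e : κ ≃ κ' := Fintype.equivOfCardEq hcard.symm
  refine ⟨fun i => a (e i), ?_⟩
  have hli2 : LinearIndependent ℚ (A.row ∘ a ∘ e) := hli.comp e e.injective
  have hu : IsUnit (A.submatrix (fun i => a (e i)) id) := by
    rw [← Matrix.linearIndependent_rows_iff_isUnit]
    exact hli2
  rw [Matrix.isUnit_iff_isUnit_det] at hu
  intro h0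
  apply hu.ne_zero
  have : A.submatrix (fun i => a (e i)) id = (E.submatrix (fun i => a (e i)) id).map (Int.cast : ℤ → ℚ) := rfl
  rw [this]
  have h5 := (Int.castRingHom ℚ).map_det (E.submatrix (fun i => a (e i)) id)
  rw [h0, map_zero] at h5
  exact h5.symm

/-- a square matrix with entries 0, 1 has determinant at most `card !` -/
theorem abs_det_le_fact {κ : Type} [Fintype κ] [DecidableEq κ] (M : Matrix κ κ ℤ)
    (h : ∀ i j, M i j = 0 ∨ M i j = 1) : |M.det| ≤ (Fintype.card κ).factorial := by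
  have h1 := Matrix.det_le (A := M) (abv := AbsoluteValue.abs) (x := 1) (by
    intro i j
    rcases h i j with h | h <;> simp [h])
  simpa using h1

/-- primitive words are not sparse -/
theorem no_prim_of_indep {τ κ : Type} [Fintype τ] [Fintype κ] [DecidableEq κ] (p r : ℕ) (hp : p.Prime)
    (E : Matrix τ κ ℤ) (h01 : ∀ i j, E i j = 0 ∨ E i j = 1)
    (h : ∀ v : κ → ℚ, E.map (Int.cast : ℤ → ℚ) *ᵥ v = 0 → v = 0)
    (hr : (Fintype.card κ).factorial < 2 ^ r) (w : κ → ZMod (p ^ r))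
    (hw : E.map (Int.cast : ℤ → ZMod (p ^ r)) *ᵥ w = 0) (j : κ) : ¬ IsUnit (w j) := by
  classical
  intro hu
  obtain ⟨f, hf⟩ := exists_minor E h
  set M := E.submatrix f id with hM
  have hMw : M.map (Int.cast : ℤ → ZMod (p ^ r)) *ᵥ w = 0 := by
    funext i
    exact congrFun hw (f i)
  have hdet : (M.map (Int.cast : ℤ → ZMod (p ^ r))).det * w j = 0 := by
    have h2 : (M.map (Int.cast : ℤ → ZMod (p ^ r))).adjugate *ᵥ (M.map (Int.cast : ℤ → ZMod (p ^ r)) *ᵥ w) = 0 := by
      rw [hMw, Matrix.mulVec_zero]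
    rw [Matrix.mulVec_mulVec, Matrix.adjugate_mul, Matrix.smul_mulVec, Matrix.one_mulVec] at h2
    exact congrFun h2 j
  have hdet0 : (M.map (Int.cast : ℤ → ZMod (p ^ r))).det = 0 := by
    exact (hu.mul_left_eq_zero).1 hdet
  have h5 := (Int.castRingHom (ZMod (p ^ r))).map_det M
  have h6 : ((M.det : ℤ) : ZMod (p ^ r)) = 0 := by
    have : (Int.castRingHom (ZMod (p ^ r))) M.det = (M.map (Int.cast : ℤ → ZMod (p ^ r))).det := h5
    rw [hdet0] at this
    exact this
  rw [ZMod.intCast_zmod_eq_zero_iff_dvd] at h6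
  have h7 := Int.le_of_dvd (abs_pos.2 hf) ((dvd_abs _ _).2 h6)
  have h8 := abs_det_le_fact M (fun i j => h01 (f i) j)
  have h9 : (2 : ℤ) ^ r ≤ ((p ^ r : ℕ) : ℤ) := by
    push_cast
    exact pow_le_pow_left₀ (by norm_num) (by exact_mod_cast hp.two_le) r
  have h10 : ((Fintype.card κ).factorial : ℤ) < 2 ^ r := by exact_mod_cast hr
  push_cast at h7 h9
  linarith

/-- `card_ker_pow_le` in the form used by `KZA.lean` -/
theorem card_ker_le {τ ι : Type} [Fintype τ] [DecidableEq τ] [Fintype ι] [DecidableEq ι] (E : Matrix τ ι ℤ)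
    {p a k : ℕ} (hp : p.Prime) (h : Fintype.card ι ≤ (E.map (Int.cast : ℤ → ZMod p)).rank + k) :
    Nat.card {w : ι → ZMod (p ^ a) // E.map (Int.cast : ℤ → ZMod (p ^ a)) *ᵥ w = 0} ≤ p ^ (a * k) := by
  haveI : Fact p.Prime := ⟨hp⟩
  exact card_ker_pow_le p a k E h

/-- a matrix injective on integer vectors is injective on rational vectors -/
theorem rat_indep {α κ : Type} [Fintype κ] (N : Matrix α κ ℤ) (hN : ∀ v : κ → ℤ, N *ᵥ v = 0 → v = 0)
    (v : κ → ℚ) (hv : N.map (Int.cast : ℤ → ℚ) *ᵥ v = 0) : v = 0 := by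
  classical
  obtain ⟨d, hd⟩ := IsLocalization.exist_integer_multiples_of_finite (nonZeroDivisors ℤ) v
  have hd0 : ((d : ℤ) : ℚ) ≠ 0 := by
    have := nonZeroDivisors.ne_zero d.2
    exact_mod_cast this
  choose z hz using hd
  have hz' : ∀ j, (z j : ℚ) = (d : ℤ) * v j := by
    intro j
    have := hz j
    simpa [Algebra.smul_def] using this
  have h1 : N *ᵥ z = 0 := by
    funext i
    have h2 := congrFun hv i
    simp only [Matrix.mulVec, dotProduct, Matrix.map_apply, Pi.zero_apply] at h2 ⊢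
    have h3 : ((∑ j, N i j * z j : ℤ) : ℚ) = 0 := by
      push_cast
      calc ∑ j, (N i j : ℚ) * (z j : ℚ) = ∑ j, ((d : ℤ) : ℚ) * ((N i j : ℚ) * v j) := by
            refine Finset.sum_congr rfl fun j _ => ?_
            rw [hz' j]; ring
        _ = 0 := by rw [← Finset.mul_sum, h2, mul_zero]
    exact_mod_cast h3
  have h4 := hN z h1
  funext j
  have h5 := hz' j
  rw [h4] at h5
  simp only [Pi.zero_apply, Int.cast_zero] at h5 ⊢
  rcases mul_eq_zero.1 h5.symm with h | h
  · exact absurd h hd0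
  · exact h

/-- primitive vectors are not almost in the kernel of a matrix with independent columns and small minors -/
theorem prim_not_sparse {α κ : Type} [Fintype α] [DecidableEq α] [Fintype κ] [DecidableEq κ]
    (N : Matrix α κ ℤ) (hN : ∀ v : κ → ℤ, N *ᵥ v = 0 → v = 0) (B : ℕ)
    (hB : ∀ f : κ → α, |(N.submatrix f id).det| ≤ B) {p a r : ℕ} (hp : p.Prime) (hr : r ≤ a)
    (hBr : B < 2 ^ r) (w : κ → ZMod (p ^ a))
    (hw : ∀ i, (p : ZMod (p ^ a)) ^ r ∣ (N.map (Int.cast : ℤ → ZMod (p ^ a)) *ᵥ w) i) (j : κ)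
    (hj : IsUnit (w j)) : False := by
  classical
  obtain ⟨f, hf⟩ := exists_minor N (rat_indep N hN)
  set M := N.submatrix f id with hM
  have hMw : ∀ i, (p : ZMod (p ^ a)) ^ r ∣ (M.map (Int.cast : ℤ → ZMod (p ^ a)) *ᵥ w) i := fun i => hw (f i)
  have h2 : (M.map (Int.cast : ℤ → ZMod (p ^ a))).det * w j =
      ((M.map (Int.cast : ℤ → ZMod (p ^ a))).adjugate *ᵥ (M.map (Int.cast : ℤ → ZMod (p ^ a)) *ᵥ w)) j := by
    rw [Matrix.mulVec_mulVec, Matrix.adjugate_mul, Matrix.smul_mulVec, Matrix.one_mulVec]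
    rfl
  have h3 : (p : ZMod (p ^ a)) ^ r ∣ (M.map (Int.cast : ℤ → ZMod (p ^ a))).det * w j := by
    rw [h2]
    exact Finset.dvd_sum fun i _ => Dvd.dvd.mul_left (hMw i) _
  have h4 : (p : ZMod (p ^ a)) ^ r ∣ (M.map (Int.cast : ℤ → ZMod (p ^ a))).det := by
    obtain ⟨u, hu⟩ := hj
    rw [← hu] at h3
    exact (Units.dvd_mul_right).1 h3
  have h5 : (Int.castRingHom (ZMod (p ^ a))) M.det = (M.map (Int.cast : ℤ → ZMod (p ^ a))).det :=
    (Int.castRingHom (ZMod (p ^ a))).map_det M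
  rw [← h5] at h4
  obtain ⟨c, hc⟩ := h4
  have h6 : ((p ^ r : ℕ) : ℤ) ∣ M.det := by
    have h7 : ZMod.castHom (pow_dvd_pow p hr) (ZMod (p ^ r)) ((M.det : ℤ) : ZMod (p ^ a)) = 0 := by
      have h8 : ((M.det : ℤ) : ZMod (p ^ a)) = (p : ZMod (p ^ a)) ^ r * c := hc
      rw [h8, map_mul, map_pow, map_natCast]
      have h9 : ((p : ZMod (p ^ r))) ^ r = 0 := by
        have := ZMod.natCast_self (p ^ r)
        rwa [Nat.cast_pow] at this
      rw [h9, zero_mul]
    rw [map_intCast] at h7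
    exact (ZMod.intCast_zmod_eq_zero_iff_dvd _ _).1 h7
  have h7 := Int.le_of_dvd (abs_pos.2 hf) ((dvd_abs _ _).2 h6)
  have h8 := hB f
  have h9 : (2 : ℤ) ^ r ≤ ((p ^ r : ℕ) : ℤ) := by
    push_cast
    exact pow_le_pow_left₀ (by norm_num) (by exact_mod_cast hp.two_le) r
  have h10 : (B : ℤ) < 2 ^ r := by exact_mod_cast hBr
  push_cast at h7 h9
  linarith

end Vale.Agent.P160.Half.G
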