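import Vale.Agent.P160.Half.GStmt2
import Vale.Agent.P160.Half.Fib456
import Vale.Agent.P160.Half.KZA557

/-! # P160, half rate, gap (G), leaf G6': zero counts modulo `p ^ a` for small primes (helper456) -/

set_option linter.unusedSectionVars false

open Finset Matrix

namespace Vale.Agent.P160.Half.G

namespace KZ6

lemma card_lt_of_lt {R M : Type*} [Ring R] [AddCommGroup M] [Module R M] [Finite M]
    {U V : Submodule R M} (h : V < U) : Nat.card V < Nat.card U := by
  have h1 : (V : Set M) ⊂ (U : Set M) := SetLike.coe_ssubset_coe.2 h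
  have h2 := Set.ncard_lt_ncard h1 (Set.toFinite _)
  exact h2

lemma card_pow {R M : Type*} [Ring R] [AddCommGroup M] [Module R M] [Finite M] {p N : ℕ}
    (hp : p.Prime) (hM : Nat.card M = p ^ N) (U : Submodule R M) :
    ∃ u, Nat.card U = p ^ u := by
  have h1 : Nat.card U.toAddSubgroup ∣ Nat.card M := AddSubgroup.card_addSubgroup_dvd_card _
  have h2 : Nat.card U ∣ p ^ N := by rw [← hM]; exact h1
  obtain ⟨u, -, hu⟩ := (Nat.dvd_prime_pow hp).1 h2
  exact ⟨u, hu⟩

/-- the length function -/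
lemma log_card_lt {R M : Type*} [Ring R] [AddCommGroup M] [Module R M] [Finite M] {p N : ℕ}
    (hp : p.Prime) (hM : Nat.card M = p ^ N) {U V : Submodule R M} (h : V < U) :
    Nat.log p (Nat.card V) < Nat.log p (Nat.card U) := by
  obtain ⟨u, hu⟩ := card_pow hp hM U
  obtain ⟨v, hv⟩ := card_pow hp hM V
  have h1 := card_lt_of_lt h
  rw [hu, hv] at h1 ⊢
  rw [Nat.log_pow hp.one_lt, Nat.log_pow hp.one_lt]
  exact (Nat.pow_lt_pow_iff_right hp.one_lt).1 h1

/-- heaviness from the Littlewood-Offord inequality modulo `p ^ a` -/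
lemma heavy (hL : LOppStmt) {ι : Type} [Fintype ι] [DecidableEq ι] {p a s L t : ℕ} (hp : p.Prime)
    (hs : s ≤ a) (hL1 : 1 ≤ L) (ht : 1 ≤ t) {q : ℝ}
    (hq : q = max ((1 / 2) ^ L) (1 / (2 : ℝ) ^ s + 3 / 2 / Real.sqrt (t / L)))
    (u : ι → ZMod (p ^ a)) (hu : t ≤ Nat.card {j // ¬ ((p : ZMod (p ^ a)) ^ (a - s) ∣ u j)})
    (c : ZMod (p ^ a)) :
    (Nat.card {x : ι → Bool // bdot x u = c} : ℝ) ≤ q * 2 ^ Fintype.card ι := by
  have h1 := hL ι p a s L t hp hs hL1 ht u c hu
  have h2 : (1 : ℝ) / (p : ℝ) ^ s ≤ 1 / (2 : ℝ) ^ s := by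
    have hp2 : (2 : ℝ) ≤ p := by exact_mod_cast hp.two_le
    gcongr
  have h3 : LOq.atom u c ≤ q := by
    refine h1.trans ?_
    rw [hq]
    exact max_le_max le_rfl (by linarith)
  unfold LOq.atom at h3
  rw [div_le_iff₀ (by positivity)] at h3
  refine le_trans (le_of_eq ?_) h3
  norm_cast
  rw [Nat.card_eq_fintype_card, Fintype.card_subtype]
  rfl

section main

variable {α β : Type} [Fintype α] [Fintype β] [DecidableEq α] [DecidableEq β]

/-- the block `[P_TT F_T]` -/
def blk (S : Finset α) (F : Matrix α β ℤ) (b : Sym2 α → Bool) :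
    Matrix {i // i ∉ S} ({i // i ∉ S} ⊕ β) ℤ :=
  fun i v => Sum.elim (fun j : {i // i ∉ S} => matZ b i.1 j.1) (fun j => F i.1 j) v

lemma blk_repl (S : Finset α) (F : Matrix α β ℤ) (b : Sym2 α → Bool) (x : Fib.Rw S) :
    blk S F (Fib.repl S b x) = blk S F b := by
  funext i v
  rcases v with j | j
  · show matZ (Fib.repl S b x) i.1 j.1 = matZ b i.1 j.1
    unfold matZ
    rw [Fib.repl_TT S b x i.2 j.2]
  · rfl

/-- splitting a sum over `S` and its complement, the terms in `S` vanish -/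
lemma sum_compl {R : Type*} [AddCommMonoid R] (S : Finset α) (h : α → R) (h0 : ∀ i ∈ S, h i = 0) :
    ∑ i, h i = ∑ i : {i // i ∉ S}, h i.1 := by
  classical
  have e1 : (∑ i, h i) = ∑ i ∈ univ.filter (fun i => i ∉ S), h i := by
    rw [Finset.sum_filter]
    refine Finset.sum_congr rfl fun i _ => ?_
    by_cases hi : i ∈ S
    · rw [h0 i hi, if_neg (not_not.2 hi)]
    · rw [if_pos hi]
  rw [e1]
  exact Finset.sum_subtype _ (fun i => by simp) h

/-- the bad event for one prime and one set of zeros -/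
def Bad (p a k t : ℕ) (F : Matrix α β ℤ) (S : Finset α) (b : Sym2 α → Bool) : Prop :=
  CorLt (matZ b) k ∧ NoSparseZ (matZ b) F t ∧ ∃ (g : α → ZMod (p ^ a)) (c : β → ZMod (p ^ a)),
    Word _ (matZ b) F g c ∧ Prim g c ∧ ∀ i ∈ S, g i = 0

/-- rank of the block -/
lemma rank_blk {p k : ℕ} (hp : p.Prime) (S : Finset α) (F : Matrix α β ℤ) (b : Sym2 α → Bool)
    (h : CorLt (matZ b) k) :
    Fintype.card ({i // i ∉ S} ⊕ β) ≤
      ((blk S F b).map (Int.cast : ℤ → ZMod p)).rank + (k + Fintype.card β) := by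
  classical
  have : Fact p.Prime := ⟨hp⟩
  have h1 := h p hp Sᶜ
  let e : {i // i ∉ S} ≃ ↥(Sᶜ) :=
    { toFun := fun i => ⟨i.1, Finset.mem_compl.2 i.2⟩
      invFun := fun i => ⟨i.1, Finset.mem_compl.1 i.2⟩
      left_inv := fun i => rfl
      right_inv := fun i => rfl }
  have e1 : Fintype.card {i // i ∉ S} = (Sᶜ).card := by
    rw [Fintype.card_congr e, Fintype.card_coe]
  set M : Matrix {i // i ∉ S} {i // i ∉ S} (ZMod p) :=
    fun i j => ((matZ b i.1 j.1 : ℤ) : ZMod p) with hM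
  have e2 : (prin ((matZ b).map (Int.cast : ℤ → ZMod p)) Sᶜ).rank = M.rank := by
    have : M = (prin ((matZ b).map (Int.cast : ℤ → ZMod p)) Sᶜ).submatrix e e := rfl
    rw [this, Matrix.rank_submatrix]
  have e3 : M.rank ≤ ((blk S F b).map (Int.cast : ℤ → ZMod p)).rank := by
    set D : Matrix ({i // i ∉ S} ⊕ β) {i // i ∉ S} (ZMod p) :=
      fun v j => Sum.elim (fun i => if i = j then 1 else 0) (fun _ => 0) v with hD
    have e4 : M = (blk S F b).map (Int.cast : ℤ → ZMod p) * D := by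
      funext i j
      rw [Matrix.mul_apply, Fintype.sum_sum_type]
      simp [hD, hM, blk]
    rw [e4]
    exact Matrix.rank_mul_le_left _ _
  rw [Fintype.card_sum, e1]
  omega

/-- the word restricted to the complement of `S` is in the kernel of the block -/
lemma mem_ker {p a : ℕ} (S : Finset α) (F : Matrix α β ℤ) (b : Sym2 α → Bool)
    (g : α → ZMod (p ^ a)) (c : β → ZMod (p ^ a)) (hw : Word _ (matZ b) F g c)
    (h0 : ∀ i ∈ S, g i = 0) :
    (blk S F b).map (Int.cast : ℤ → ZMod (p ^ a)) *ᵥ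
      (Sum.elim (fun j : {i // i ∉ S} => g j.1) c) = 0 := by
  funext i
  have h1 := congrFun hw i.1
  rw [Pi.add_apply] at h1
  rw [Matrix.mulVec, dotProduct, Fintype.sum_sum_type]
  rw [Matrix.mulVec, dotProduct, sum_compl S _ (fun j hj => by rw [h0 j hj, mul_zero])] at h1
  exact h1

/-- the rows `S` -/
lemma row_eq {p a : ℕ} (S : Finset α) (F : Matrix α β ℤ) (b : Sym2 α → Bool) (x : Fib.Rw S)
    (g : α → ZMod (p ^ a)) (c : β → ZMod (p ^ a)) (hw : Word _ (matZ (Fib.repl S b x)) F g c)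
    (h0 : ∀ i ∈ S, g i = 0) (s : {i // i ∈ S}) :
    bdot (x s) (fun j : {i // i ∉ S} => g j.1) + ∑ j, ((F s.1 j : ℤ) : ZMod (p ^ a)) * c j = 0 := by
  have h1 := congrFun hw s.1
  rw [Pi.add_apply] at h1
  rw [Matrix.mulVec, dotProduct, sum_compl S _ (fun j hj => by rw [h0 j hj, mul_zero])] at h1
  refine Eq.trans ?_ h1
  congr 1
  unfold bdot
  refine Finset.sum_congr rfl fun j _ => ?_
  rw [Matrix.map_apply, matZ, Fib.repl_ST S b x s.2 j.2]
  by_cases hx : x s j = true
  · simp [hx]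
  · simp [hx]

/-- units are not divisible by powers of `p` -/
lemma unit_not_dvd {p a r : ℕ} (hp : p.Prime) (hr : 1 ≤ r) (hra : r ≤ a) (u : ZMod (p ^ a))
    (hu : IsUnit u) : ¬ (p : ZMod (p ^ a)) ^ r ∣ u := by
  intro h
  have h1 : IsUnit ((p : ZMod (p ^ a)) ^ r) := isUnit_of_dvd_unit h hu
  have h2 : IsUnit (((p : ZMod (p ^ a)) ^ r) ^ a) := h1.pow a
  have h3 : ((p : ZMod (p ^ a)) ^ r) ^ a = 0 := by
    rw [← pow_mul, mul_comm, pow_mul]
    have : (p : ZMod (p ^ a)) ^ a = 0 := by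
      have := ZMod.natCast_self (p ^ a)
      push_cast at this
      exact this
    rw [this, zero_pow (by omega)]
  rw [h3, isUnit_zero_iff] at h2
  have : Fact (1 < p ^ a) := ⟨Nat.one_lt_pow (by omega) hp.one_lt⟩
  exact zero_ne_one h2

/-- a primitive word is not sparse modulo `p ^ r` -/
lemma heavy_word {p a r t X : ℕ} (hp : p.Prime) (hr : 1 ≤ r) (hra : r ≤ a) (hX : 1 ≤ X)
    (F : Matrix α β ℤ) (hF : ∀ i j, |F i j| ≤ (X : ℤ)) (b : Sym2 α → Bool)
    (hB : (t + Fintype.card β).factorial * X ^ (t + Fintype.card β) < 2 ^ r)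
    (hns : NoSparseZ (matZ b) F t) (g : α → ZMod (p ^ a)) (c : β → ZMod (p ^ a))
    (hw : Word _ (matZ b) F g c) (hpr : Prim g c) :
    t < Nat.card {i // ¬ (p : ZMod (p ^ a)) ^ r ∣ g i} := by
  classical
  by_contra hlt
  rw [not_lt] at hlt
  set J := {i // ¬ (p : ZMod (p ^ a)) ^ r ∣ g i} with hJ
  have hJc : Fintype.card J ≤ t := by rw [← Nat.card_eq_fintype_card]; exact hlt
  set N : Matrix α (J ⊕ β) ℤ := fun i v => Sum.elim (fun j : J => matZ b i j.1) (fun j => F i j) v with hN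
  have hN0 : ∀ v : J ⊕ β → ℤ, N *ᵥ v = 0 → v = 0 := by
    intro v hv
    set g' : α → ℤ := fun i => if h : ¬ (p : ZMod (p ^ a)) ^ r ∣ g i then v (Sum.inl ⟨i, h⟩) else 0 with hg'
    have hg1 : ∀ j : J, g' j.1 = v (Sum.inl j) := by
      intro j
      rw [hg']
      simp only
      rw [dif_pos j.2]
    have hsum : ∀ h : α → ℤ, (∑ i, h i * g' i) = ∑ j : J, h j.1 * v (Sum.inl j) := by
      intro h
      have e1 : (∑ i, h i * g' i) = ∑ i ∈ univ.filter (fun i => ¬ (p : ZMod (p ^ a)) ^ r ∣ g i), h i * g' i := by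
        rw [Finset.sum_filter]
        refine Finset.sum_congr rfl fun i _ => ?_
        by_cases hi : ¬ (p : ZMod (p ^ a)) ^ r ∣ g i
        · rw [if_pos hi]
        · rw [if_neg hi, hg']
          simp only
          rw [dif_neg hi, mul_zero]
      rw [e1, Finset.sum_subtype _ (p := fun i => ¬ (p : ZMod (p ^ a)) ^ r ∣ g i) (fun i => by simp)]
      refine Finset.sum_congr rfl fun j _ => ?_
      rw [hg1]
    have hword : Word ℤ (matZ b) F g' (fun j => v (Sum.inr j)) := by
      unfold Word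
      funext i
      have h1 := congrFun hv i
      rw [Matrix.mulVec, dotProduct, Fintype.sum_sum_type] at h1
      rw [Pi.add_apply, Matrix.mulVec, dotProduct, Matrix.mulVec, dotProduct]
      simp only [Matrix.map_apply, Int.cast_id]
      rw [hsum]
      exact h1
    by_contra hv0
    have h2 : g' ≠ 0 ∨ (fun j => v (Sum.inr j)) ≠ 0 := by
      by_contra h3
      rw [not_or, not_not, not_not] at h3
      apply hv0
      funext w
      rcases w with j | j
      · rw [← hg1 j, h3.1]; rfl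
      · exact congrFun h3.2 j
    have h4 := hns g' _ hword h2
    have h5 : (univ.filter fun i => g' i ≠ 0).card ≤ Fintype.card J := by
      have h6 : Fintype.card J = (univ.filter fun i => ¬ (p : ZMod (p ^ a)) ^ r ∣ g i).card :=
        Fintype.card_subtype _
      rw [h6]
      refine Finset.card_le_card ?_
      intro i hi
      rw [mem_filter] at hi ⊢
      refine ⟨mem_univ _, ?_⟩
      intro hd
      apply hi.2
      rw [hg']
      simp only
      rw [dif_neg (not_not.2 hd)]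
    omega
  have hNX : ∀ i v, |N i v| ≤ (X : ℤ) := by
    intro i v
    rcases v with j | j
    · have h1 := matZ_abs b i j.1
      have h2 : (1 : ℤ) ≤ X := by exact_mod_cast hX
      exact le_trans h1 h2
    · exact hF i j
  have hcard : Fintype.card (J ⊕ β) ≤ t + Fintype.card β := by
    rw [Fintype.card_sum]
    omega
  have hdet : ∀ f : (J ⊕ β) → α, |(N.submatrix f id).det| ≤
      (((t + Fintype.card β).factorial * X ^ (t + Fintype.card β) : ℕ) : ℤ) := by
    intro f
    have h1 := Matrix.det_le (A := N.submatrix f id) (abv := AbsoluteValue.abs) (x := (X : ℤ)) (by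
      intro i j
      exact hNX (f i) j)
    have h2 : |(N.submatrix f id).det| ≤ ((Fintype.card (J ⊕ β)).factorial : ℤ) * (X : ℤ) ^ Fintype.card (J ⊕ β) := by
      simpa [nsmul_eq_mul] using h1
    refine h2.trans ?_
    have h3 : (Fintype.card (J ⊕ β)).factorial * X ^ Fintype.card (J ⊕ β) ≤
        (t + Fintype.card β).factorial * X ^ (t + Fintype.card β) :=
      Nat.mul_le_mul (Nat.factorial_le hcard) (Nat.pow_le_pow_right hX hcard)
    exact_mod_cast h3
  set w : (J ⊕ β) → ZMod (p ^ a) := Sum.elim (fun j : J => g j.1) c with hwd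
  have hdvd : ∀ i, (p : ZMod (p ^ a)) ^ r ∣ (N.map (Int.cast : ℤ → ZMod (p ^ a)) *ᵥ w) i := by
    intro i
    have h1 := congrFun hw i
    rw [Pi.add_apply, Matrix.mulVec, dotProduct] at h1
    rw [← Finset.sum_filter_add_sum_filter_not univ (fun j => ¬ (p : ZMod (p ^ a)) ^ r ∣ g j)] at h1
    rw [Finset.sum_subtype (univ.filter fun j => ¬ (p : ZMod (p ^ a)) ^ r ∣ g j)
      (p := fun i => ¬ (p : ZMod (p ^ a)) ^ r ∣ g i) (fun i => by simp)] at h1
    rw [Matrix.mulVec, dotProduct, Fintype.sum_sum_type]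
    have h2 : (p : ZMod (p ^ a)) ^ r ∣ ∑ j ∈ univ.filter (fun j => ¬ ¬ (p : ZMod (p ^ a)) ^ r ∣ g j),
        (matZ b).map (Int.cast : ℤ → ZMod (p ^ a)) i j * g j := by
      refine Finset.dvd_sum fun j hj => ?_
      exact Dvd.dvd.mul_left (not_not.1 (mem_filter.1 hj).2) _
    have h3 : (∑ j : J, (N.map (Int.cast : ℤ → ZMod (p ^ a))) i (Sum.inl j) * w (Sum.inl j)) +
        ∑ j, (N.map (Int.cast : ℤ → ZMod (p ^ a))) i (Sum.inr j) * w (Sum.inr j) =
        - ∑ j ∈ univ.filter (fun j => ¬ ¬ (p : ZMod (p ^ a)) ^ r ∣ g j),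
        (matZ b).map (Int.cast : ℤ → ZMod (p ^ a)) i j * g j := by
      have e2 : (F.map (Int.cast : ℤ → ZMod (p ^ a)) *ᵥ c) i =
          ∑ j, (N.map (Int.cast : ℤ → ZMod (p ^ a))) i (Sum.inr j) * w (Sum.inr j) := rfl
      have e3 : (∑ j : J, (matZ b).map (Int.cast : ℤ → ZMod (p ^ a)) i j.1 * g j.1) =
          (∑ j : J, (N.map (Int.cast : ℤ → ZMod (p ^ a))) i (Sum.inl j) * w (Sum.inl j)) := rfl
      rw [← e2, ← e3]
      rw [Pi.zero_apply] at h1
      linear_combination h1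
    rw [h3]
    exact (dvd_neg).2 h2
  rcases hpr with ⟨i, hi⟩ | ⟨j, hj⟩
  · exact prim_not_sparse N hN0 _ hdet hp hra hB w hdvd
      (Sum.inl ⟨i, unit_not_dvd hp hr hra _ hi⟩) hi
  · exact prim_not_sparse N hN0 _ hdet hp hra hB w hdvd (Sum.inr j) hj

/-- the fibre count -/
lemma fibre (hR : RowsStmt2) (hL : LOppStmt) (F : Matrix α β ℤ) (X p a s L t k : ℕ) (q : ℝ)
    (hX : 1 ≤ X) (hF : ∀ i j, |F i j| ≤ (X : ℤ)) (hs : s ≤ a) (hL1 : 1 ≤ L) (ht : 1 ≤ t)
    (hB : (t + Fintype.card β).factorial * X ^ (t + Fintype.card β) < 2 ^ (a - s))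
    (hq : q = max ((1 / 2) ^ L) (1 / (2 : ℝ) ^ s + 3 / 2 / Real.sqrt (t / L))) (hq1 : q ≤ 1)
    (hp : p.Prime) (S : Finset α) (b : Sym2 α → Bool) :
    (Nat.card {x : Fib.Rw S // Bad p a k t F S (Fib.repl S b x)} : ℝ) ≤
      2 ^ S.card * q ^ (S.card - a * (k + Fintype.card β)) *
        2 ^ (Fintype.card {i // i ∉ S} * S.card) := by
  classical
  have hq0 : 0 ≤ q := by
    rw [hq]
    exact le_trans (by positivity) (le_max_left _ _)
  have hr1 : 1 ≤ a - s := by
    by_contra h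
    have h0 : a - s = 0 := by omega
    rw [h0, pow_zero] at hB
    have h1 : 0 < (t + Fintype.card β).factorial * X ^ (t + Fintype.card β) :=
      Nat.mul_pos (Nat.factorial_pos _) (pow_pos (by omega) _)
    omega
  have : NeZero (p ^ a) := ⟨pow_ne_zero _ hp.ne_zero⟩
  have : Fact (1 < p ^ a) := ⟨Nat.one_lt_pow (by omega) hp.one_lt⟩
  by_cases hne : ∃ x : Fib.Rw S, Bad p a k t F S (Fib.repl S b x)
  swap
  · have : IsEmpty {x : Fib.Rw S // Bad p a k t F S (Fib.repl S b x)} :=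
      ⟨fun x => hne ⟨x.1, x.2⟩⟩
    rw [Nat.card_of_isEmpty, Nat.cast_zero]
    positivity
  obtain ⟨x0, hx0⟩ := hne
  set U : Submodule (ZMod (p ^ a)) ({i // i ∉ S} ⊕ β → ZMod (p ^ a)) :=
    LinearMap.ker ((blk S F b).map (Int.cast : ℤ → ZMod (p ^ a))).mulVecLin with hU
  have hmemU : ∀ w, w ∈ U ↔ (blk S F b).map (Int.cast : ℤ → ZMod (p ^ a)) *ᵥ w = 0 := by
    intro w
    rw [hU, LinearMap.mem_ker, Matrix.mulVecLin_apply]
  have hcU : Nat.card U ≤ p ^ (a * (k + Fintype.card β)) := by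
    have h1 := rank_blk hp S F _ hx0.1
    rw [blk_repl] at h1
    refine le_trans (le_of_eq ?_) (card_ker_le (blk S F b) hp h1)
    exact Nat.card_congr (Equiv.subtypeEquivRight fun w => hmemU w)
  set ℓ : Submodule (ZMod (p ^ a)) ({i // i ∉ S} ⊕ β → ZMod (p ^ a)) → ℕ :=
    fun V => Nat.log p (Nat.card V) with hℓ
  have hM : Nat.card ({i // i ∉ S} ⊕ β → ZMod (p ^ a)) =
      p ^ (a * Fintype.card ({i // i ∉ S} ⊕ β)) := by
    rw [Nat.card_eq_fintype_card, Fintype.card_fun, ZMod.card, ← pow_mul]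
  have hmono : ∀ U V : Submodule (ZMod (p ^ a)) ({i // i ∉ S} ⊕ β → ZMod (p ^ a)),
      V < U → ℓ V < ℓ U := fun U V h => log_card_lt hp hM h
  have hℓU : ℓ U ≤ a * (k + Fintype.card β) := by
    rw [hℓ]
    simp only
    have := Nat.log_mono_right (b := p) hcU
    rwa [Nat.log_pow hp.one_lt] at this
  have h1 := hR (ZMod (p ^ a)) {i // i ∉ S} β {i // i ∈ S}
    (fun w => t ≤ Nat.card {j : {i // i ∉ S} // ¬ ((p : ZMod (p ^ a)) ^ (a - s) ∣ (w ∘ Sum.inl) j)})
    ℓ q (fun s' j => ((F s'.1 j : ℤ) : ZMod (p ^ a))) hmono hq0 hq1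
    (fun w hw c => heavy hL hp hs hL1 ht hq (w ∘ Sum.inl) hw c) U _ hℓU
  rw [Fintype.card_coe] at h1
  refine le_trans ?_ h1
  rw [Nat.cast_le]
  refine Nat.card_mono (Set.toFinite _) ?_
  rintro x ⟨hc, hns, g, c, hw, hpr, h0⟩
  refine ⟨Sum.elim (fun j : {i // i ∉ S} => g j.1) c, ?_, ?_, ?_⟩
  · rw [hmemU, ← blk_repl S F b x]
    exact mem_ker S F _ g c hw h0
  · have h2 := heavy_word hp hr1 (Nat.sub_le _ _) hX F hF _ hB hns g c hw hpr
    refine le_trans h2.le ?_
    refine Nat.card_le_card_of_injective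
      (fun i : {i // ¬ (p : ZMod (p ^ a)) ^ (a - s) ∣ g i} =>
        (⟨⟨i.1, fun hi => i.2 (by rw [h0 i.1 hi]; exact dvd_zero _)⟩, i.2⟩ :
          {j : {i // i ∉ S} // ¬ ((p : ZMod (p ^ a)) ^ (a - s) ∣
            ((Sum.elim (fun j : {i // i ∉ S} => g j.1) c) ∘ Sum.inl) j)})) ?_
    intro i j hij
    have := congrArg (fun z => z.1.1) hij
    exact Subtype.ext this
  · intro s'
    exact row_eq S F b x g c hw h0 s'

end main

end KZ6

open KZ6 in
/-- **G6'**: zero counts modulo `p ^ a` for the primes `p < y` -/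
theorem kza2 (hR : RowsStmt2) (hL : LOppStmt) : KZAStmt2 := by
  classical
  intro α β _ _ _ _ F X y a s L t z k q hX hF hs hL1 ht hB hq hq1
  have hq0 : 0 ≤ q := by
    rw [hq]
    exact le_trans (by positivity) (le_max_left _ _)
  have key := Fib.card_union_le (Ω := Sym2 α → Bool)
    ((range y) ×ˢ (powersetCard z (univ : Finset α)))
    (fun i b => i.1.Prime ∧ Bad i.1 a k t F i.2 b)
    (2 ^ Fintype.card α * q ^ (z - a * (k + Fintype.card β)) * 2 ^ Fintype.card (Sym2 α))
    (fun b => CorLt (matZ b) k ∧ NoSparseZ (matZ b) F t ∧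
      ∃ p, p.Prime ∧ p < y ∧ ∃ (g : α → ZMod (p ^ a)) (c : β → ZMod (p ^ a)),
        Word _ (matZ b) F g c ∧ Prim g c ∧ z ≤ (univ.filter fun i => g i = 0).card)
    (by
      rintro b ⟨hc, hns, p, hp, hpy, g, c, hw, hpr, hz⟩
      obtain ⟨S, hS, hSc⟩ := Finset.exists_subset_card_eq hz
      refine ⟨(p, S), ?_, hp, hc, hns, g, c, hw, hpr, ?_⟩
      · rw [mem_product, mem_range, mem_powersetCard]
        exact ⟨hpy, subset_univ _, hSc⟩
      · intro i hi
        exact (mem_filter.1 (hS hi)).2)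
    (by
      rintro ⟨p, S⟩ hpS
      rw [mem_product, mem_range, mem_powersetCard] at hpS
      obtain ⟨-, -, hSc⟩ := hpS
      simp only at hSc
      simp only
      by_cases hp : p.Prime
      · have h1 := Fib.fib S (fun b => Bad p a k t F S b)
          (2 ^ S.card * q ^ (S.card - a * (k + Fintype.card β)) *
            2 ^ (Fintype.card {i // i ∉ S} * S.card))
          (fun b => fibre hR hL F X p a s L t k q hX hF hs hL1 ht hB hq hq1 hp S b)
        have h2 : (Nat.card {b // p.Prime ∧ Bad p a k t F S b} : ℝ) =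
            Nat.card {b // Bad p a k t F S b} := by
          congr 1
          exact Nat.card_congr (Equiv.subtypeEquivRight fun b => by simp [hp])
        rw [h2]
        have h3 : (0 : ℝ) < 2 ^ (S.card * Fintype.card {i // i ∉ S}) := by positivity
        have h4 : (Nat.card {b // Bad p a k t F S b} : ℝ) ≤
            2 ^ S.card * q ^ (S.card - a * (k + Fintype.card β)) * 2 ^ Fintype.card (Sym2 α) := by
          rw [mul_comm (Fintype.card {i // i ∉ S}) S.card] at h1
          refine le_of_mul_le_mul_right (h1.trans (le_of_eq ?_)) h3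
          ring
        rw [hSc] at h4
        refine h4.trans ?_
        have h5 : z ≤ Fintype.card α := by
          rw [← hSc]
          exact card_le_univ _
        have h6 : (2 : ℝ) ^ z ≤ 2 ^ Fintype.card α := pow_le_pow_right₀ (by norm_num) h5
        have h7 : 0 ≤ q ^ (z - a * (k + Fintype.card β)) := pow_nonneg hq0 _
        gcongr
      · have : IsEmpty {b // p.Prime ∧ Bad p a k t F S b} := ⟨fun b => hp b.2.1⟩
        rw [Nat.card_of_isEmpty, Nat.cast_zero]
        positivity)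
  refine key.trans ?_
  rw [card_product, card_range, card_powersetCard]
  have h1 : ((Fintype.card α).choose z : ℝ) ≤ 2 ^ Fintype.card α := by
    have := Nat.choose_le_two_pow (Fintype.card α) z
    exact_mod_cast this
  have h7 : 0 ≤ q ^ (z - a * (k + Fintype.card β)) := pow_nonneg hq0 _
  have h8 : (4 : ℝ) ^ Fintype.card α = 2 ^ Fintype.card α * 2 ^ Fintype.card α := by
    rw [← mul_pow]; norm_num
  rw [h8]
  push_cast
  rw [card_univ]
  calc (y : ℝ) * ((Fintype.card α).choose z : ℝ) *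
      (2 ^ Fintype.card α * q ^ (z - a * (k + Fintype.card β)) * 2 ^ Fintype.card (Sym2 α))
      ≤ (y : ℝ) * 2 ^ Fintype.card α *
      (2 ^ Fintype.card α * q ^ (z - a * (k + Fintype.card β)) * 2 ^ Fintype.card (Sym2 α)) := by
        gcongr
    _ = _ := by ring

end Vale.Agent.P160.Half.G
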