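import Vale.Agent.P160.Half.GStmt

/-! # P160, half rate: G3 (helper950): no sparse kernel vector of `P` modulo a prime `p ≥ y` -/

open Finset Matrix

namespace Vale.Agent.P160.Half.G

namespace NS

/-- a matrix with trivial kernel has a nonzero maximal minor -/
theorem exists_minor {α ι : Type*} [Fintype α] [Fintype ι] [DecidableEq ι] (M : Matrix α ι ℚ)
    (h : ∀ w : ι → ℚ, M *ᵥ w = 0 → w = 0) : ∃ r : ι → α, (M.submatrix r id).det ≠ 0 := by
  classical
  have hinj : Function.Injective M.mulVecLin := by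
    rw [← LinearMap.ker_eq_bot, LinearMap.ker_eq_bot']
    intro w hw
    exact h w (by simpa using hw)
  have hrank : M.rank = Fintype.card ι := by
    unfold Matrix.rank
    rw [LinearMap.finrank_range_of_inj hinj, Module.finrank_fintype_fun_eq_card]
  have hspan : Submodule.span ℚ (Set.range M.row) = ⊤ := by
    apply Submodule.eq_top_of_finrank_eq
    rw [← M.rank_eq_finrank_span_row, hrank, Module.finrank_fintype_fun_eq_card]
  obtain ⟨B, hB1, hB2, hB3⟩ := exists_linearIndependent ℚ (Set.range M.row)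
  rw [hspan] at hB2
  have hbas : Module.Basis B ℚ (ι → ℚ) := Module.Basis.mk hB3 (by
    rw [Subtype.range_coe]; exact hB2.ge)
  have : Fintype B := FiniteDimensional.fintypeBasisIndex hbas
  have hcard : Fintype.card ι = Fintype.card B := by
    have h1 := Module.finrank_eq_card_basis hbas
    rw [Module.finrank_fintype_fun_eq_card] at h1
    exact h1
  let e : ι ≃ B := Fintype.equivOfCardEq hcard
  have hr : ∀ i : ι, ∃ a : α, M.row a = (e i : ι → ℚ) := fun i => hB1 (e i).2
  choose r hr using hr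
  refine ⟨r, ?_⟩
  have hli : LinearIndependent ℚ (M.submatrix r id).row := by
    have h1 : (M.submatrix r id).row = (fun b : B => (b : ι → ℚ)) ∘ e := by
      funext i
      have h2 := hr i
      funext j
      have h3 := congrFun h2 j
      simpa [Matrix.row] using h3
    rw [h1]
    exact hB3.comp e e.injective
  rw [Matrix.linearIndependent_rows_iff_isUnit, Matrix.isUnit_iff_isUnit_det] at hli
  exact hli.ne_zero

/-- minors of a 0/1 matrix -/
theorem minor_le {α ι : Type*} [Fintype ι] [DecidableEq ι] (M : Matrix α ι ℤ) (h : ∀ i j, M i j = 0 ∨ M i j = 1)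
    (r : ι → α) : |(M.submatrix r id).det| ≤ (Fintype.card ι).factorial := by
  have h1 := Matrix.det_le (A := M.submatrix r id) (abv := AbsoluteValue.abs) (x := 1) (by
    intro i j
    rw [AbsoluteValue.abs_apply, Matrix.submatrix_apply]
    rcases h (r i) (id j) with h2 | h2 <;> rw [h2] <;> norm_num)
  rw [one_pow, nsmul_eq_mul, mul_one, AbsoluteValue.abs_apply] at h1
  exact_mod_cast h1

/-- no kernel vector modulo a large prime if the columns are independent over `ℚ` -/
theorem no_small {α ι : Type*} [Fintype α] [Fintype ι] [DecidableEq ι] (M : Matrix α ι ℤ)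
    (h : ∀ i j, M i j = 0 ∨ M i j = 1) (hind : ∀ w : ι → ℚ, M.map (Int.cast : ℤ → ℚ) *ᵥ w = 0 → w = 0)
    {p : ℕ} (hp : p.Prime) (hlt : (Fintype.card ι).factorial < p) (w : ι → ZMod p)
    (hw : M.map (Int.cast : ℤ → ZMod p) *ᵥ w = 0) : w = 0 := by
  have : Fact p.Prime := ⟨hp⟩
  obtain ⟨r, hr⟩ := exists_minor _ hind
  by_contra hne
  have h1 : ((M.submatrix r id).det : ℚ) ≠ 0 := by
    have h2 : (M.map (Int.cast : ℤ → ℚ)).submatrix r id = (Int.castRingHom ℚ).mapMatrix (M.submatrix r id) := by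
      ext i j; simp
    rw [h2, ← RingHom.map_det] at hr
    simpa using hr
  have h3 : (M.submatrix r id).det ≠ 0 := fun h0 => h1 (by rw [h0]; simp)
  have h4 : ((M.submatrix r id).det : ZMod p) = 0 := by
    have h5 : ((Int.castRingHom (ZMod p)).mapMatrix (M.submatrix r id)).det = 0 := by
      refine Matrix.exists_mulVec_eq_zero_iff.1 ⟨w, hne, ?_⟩
      funext i
      have h6 := congrFun hw (r i)
      simp only [Matrix.mulVec, dotProduct, Matrix.map_apply, Pi.zero_apply] at h6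
      simp only [Matrix.mulVec, dotProduct, RingHom.mapMatrix_apply, Matrix.map_apply, Matrix.submatrix_apply,
        Pi.zero_apply, id, eq_intCast]
      exact h6
    rw [← RingHom.map_det] at h5
    simpa using h5
  rw [ZMod.intCast_zmod_eq_zero_iff_dvd] at h4
  have h7 : (p : ℤ) ≤ |(M.submatrix r id).det| := Int.le_of_dvd (abs_pos.2 h3) ((dvd_abs _ _).2 h4)
  have h8 := minor_le M h r
  have h9 : ((Fintype.card ι).factorial : ℤ) < p := by exact_mod_cast hlt
  omega

section

variable {α : Type} [Fintype α] [DecidableEq α]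

/-- the edges between the complement of `S` and `S` -/
def cross (S : Finset α) : Finset (Sym2 α) := (Sᶜ ×ˢ S).image fun e => s(e.1, e.2)

theorem mem_cross {S : Finset α} {i j : α} (hi : i ∉ S) (hj : j ∈ S) : s(i, j) ∈ cross S :=
  mem_image.2 ⟨(i, j), mem_product.2 ⟨mem_compl.2 hi, hj⟩, rfl⟩

theorem not_mem_cross {S : Finset α} {i j : α} (hi : i ∈ S) (hj : j ∈ S) : s(i, j) ∉ cross S := by
  intro h
  obtain ⟨⟨a, b⟩, hab, he⟩ := mem_image.1 h
  obtain ⟨ha, hb⟩ := mem_product.1 hab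
  simp only at ha hb he
  have ha' := mem_compl.1 ha
  rcases Sym2.eq_iff.1 he with ⟨h1, -⟩ | ⟨h1, -⟩
  · exact ha' (h1 ▸ hi)
  · exact ha' (h1 ▸ hj)

theorem card_cross (S : Finset α) : (cross S).card = Sᶜ.card * S.card := by
  unfold cross
  rw [card_image_of_injOn, card_product]
  rintro ⟨a, b⟩ hab ⟨c, d⟩ hcd he
  obtain ⟨ha, hb⟩ := mem_product.1 (Finset.mem_coe.1 hab)
  obtain ⟨hc, hd⟩ := mem_product.1 (Finset.mem_coe.1 hcd)
  simp only at ha hb hc hd he
  have ha' := mem_compl.1 ha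
  have hc' := mem_compl.1 hc
  rcases Sym2.eq_iff.1 he with ⟨h1, h2⟩ | ⟨h1, h2⟩
  · rw [h1, h2]
  · exact absurd hd (h1 ▸ ha')

omit [Fintype α] [DecidableEq α] in
theorem matZ01 (b : Sym2 α → Bool) (i j : α) : matZ b i j = 0 ∨ matZ b i j = 1 := by
  unfold matZ
  split_ifs
  · exact Or.inr rfl
  · exact Or.inl rfl

/-- the columns in `S` -/
def cols (b : Sym2 α → Bool) (S : Finset α) : Matrix α S ℤ := fun i j => matZ b i j

/-- the bad event for one support -/
def Bad (y : ℕ) (S : Finset α) (b : Sym2 α → Bool) : Prop :=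
  (∀ w : S → ℚ, (cols b S).map (Int.cast : ℤ → ℚ) *ᵥ w = 0 → w = 0) ∧
    ∃ p, p.Prime ∧ y ≤ p ∧ ∃ w : S → ZMod p, (∀ i, w i ≠ 0) ∧ (cols b S).map (Int.cast : ℤ → ZMod p) *ᵥ w = 0

theorem cols_indep {b : Sym2 α → Bool} (hb : (matZ b).det ≠ 0) (S : Finset α) (w : S → ℚ)
    (hw : (cols b S).map (Int.cast : ℤ → ℚ) *ᵥ w = 0) : w = 0 := by
  classical
  set v : α → ℚ := fun i => if h : i ∈ S then w ⟨i, h⟩ else 0 with hv
  have h1 : (matZ b).map (Int.cast : ℤ → ℚ) *ᵥ v = 0 := by
    funext i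
    have h2 := congrFun hw i
    simp only [Matrix.mulVec, dotProduct, Matrix.map_apply, Pi.zero_apply] at h2 ⊢
    rw [← h2]
    have h3 : ∑ x, ((matZ b i x : ℤ) : ℚ) * v x = ∑ x ∈ S, ((matZ b i x : ℤ) : ℚ) * v x := by
      refine (sum_subset (subset_univ S) fun x _ hx => ?_).symm
      rw [hv]; simp [hx]
    rw [h3, ← sum_coe_sort S]
    refine sum_congr rfl fun x _ => ?_
    rw [hv]
    simp [cols]
  have hdet : ((matZ b).map (Int.cast : ℤ → ℚ)).det ≠ 0 := by
    have h4 : (matZ b).map (Int.cast : ℤ → ℚ) = (Int.castRingHom ℚ).mapMatrix (matZ b) := by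
      ext i j; simp
    rw [h4, ← RingHom.map_det]
    simpa using hb
  have h5 : v = 0 := by
    by_contra hne
    exact hdet (Matrix.exists_mulVec_eq_zero_iff.1 ⟨v, hne, h1⟩)
  funext i
  have h6 := congrFun h5 i
  rw [hv] at h6
  simpa using h6

theorem bad_of_supp {y : ℕ} {b : Sym2 α → Bool} (hb : (matZ b).det ≠ 0) {p : ℕ} (hp : p.Prime) (hy : y ≤ p)
    {g : α → ZMod p} (hg : (matZ b).map (Int.cast : ℤ → ZMod p) *ᵥ g = 0) :
    Bad y (univ.filter fun i => g i ≠ 0) b := by
  classical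
  refine ⟨cols_indep hb _, p, hp, hy, fun i => g i, fun i => (mem_filter.1 i.2).2, ?_⟩
  funext i
  have h2 := congrFun hg i
  simp only [Matrix.mulVec, dotProduct, Matrix.map_apply, Pi.zero_apply] at h2 ⊢
  refine Eq.trans ?_ h2
  have h3 : ∑ x, ((matZ b i x : ℤ) : ZMod p) * g x =
      ∑ x ∈ univ.filter (fun i => g i ≠ 0), ((matZ b i x : ℤ) : ZMod p) * g x := by
    refine (sum_subset (subset_univ _) fun x _ hx => ?_).symm
    have hx' : g x = 0 := by
      by_contra hne
      exact hx (mem_filter.2 ⟨mem_univ _, hne⟩)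
    rw [hx', mul_zero]
  rw [h3, ← sum_coe_sort (univ.filter fun i => g i ≠ 0)]
  rfl

/-- small supports are impossible -/
theorem not_bad_small {y s₀ : ℕ} (hy : s₀.factorial < y) {S : Finset α} (hS : S.card ≤ s₀) (hne : S.Nonempty)
    (b : Sym2 α → Bool) : ¬ Bad y S b := by
  rintro ⟨hind, p, hp, hyp, w, hw0, hw⟩
  have h1 : (Fintype.card S).factorial < p := by
    rw [Fintype.card_coe]
    exact lt_of_lt_of_le (lt_of_le_of_lt (Nat.factorial_le hS) hy) hyp
  have h2 := no_small (cols b S) (fun i j => matZ01 b i j) hind hp h1 w hw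
  obtain ⟨i, hi⟩ := hne
  exact hw0 ⟨i, hi⟩ (congrFun h2 _)

/-- the number of vectors in the 0/1 cube in a hyperplane orthogonal to a vector with nonzero coordinates -/
theorem card_bdot_le {ι : Type} [Fintype ι] [DecidableEq ι] [Nonempty ι] {y s₀ : ℕ} (hy : 0 < y)
    (hs : s₀ < Fintype.card ι) {p : ℕ} (hp : p.Prime) (hyp : y ≤ p) (w : ι → ZMod p) (hw : ∀ i, w i ≠ 0)
    (c : ZMod p) : (Nat.card {x : ι → Bool // bdot x w = c} : ℝ) ≤ (1 / y + 3 / 2 / Real.sqrt (s₀ + 1)) * 2 ^ Fintype.card ι := by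
  classical
  have : Fact p.Prime := ⟨hp⟩
  have : NeZero p := ⟨hp.ne_zero⟩
  have h1 := LOq.atom_le w c univ (by rw [card_univ]; exact Fintype.card_pos) (fun i _ => isUnit_iff_ne_zero.2 (hw i))
  have h2 : (Nat.card {x : ι → Bool // bdot x w = c} : ℝ) = LOq.atom w c * 2 ^ Fintype.card ι := by
    unfold LOq.atom
    rw [Nat.card_eq_fintype_card, Fintype.card_subtype]
    have h3 : (2 : ℝ) ^ Fintype.card ι ≠ 0 := by positivity
    rw [div_mul_cancel₀ _ h3]
    rfl
  rw [h2]
  refine mul_le_mul_of_nonneg_right (h1.trans ?_) (by positivity)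
  have hy' : (0 : ℝ) < y := by exact_mod_cast hy
  have h4 : (1 : ℝ) / p ≤ 1 / y := one_div_le_one_div_of_le hy' (by exact_mod_cast hyp)
  have h5 : (3 : ℝ) / 2 / Real.sqrt (univ : Finset ι).card ≤ 3 / 2 / Real.sqrt (s₀ + 1) := by
    refine div_le_div_of_nonneg_left (by norm_num) (Real.sqrt_pos.2 (by positivity)) (Real.sqrt_le_sqrt ?_)
    rw [card_univ]
    exact_mod_cast hs
  linarith

end

/-- `CoreStmt` for `{0,1}`-blocks and vectors all of whose atoms are small -/
def CoreC : Prop := ∀ (τ ι σ : Type) [Fintype τ] [DecidableEq τ] [Fintype ι] [DecidableEq ι] [Fintype σ] [DecidableEq σ]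
  (E : Matrix τ ι ℤ) (y k : ℕ) (hv : ∀ p : ℕ, (ι → ZMod p) → Prop) (q : ℝ), (∀ i j, E i j = 0 ∨ E i j = 1) → 0 ≤ q → q ≤ 1 →
  (∀ p w, hv p w → w ≠ 0) →
  (∀ p, p.Prime → y ≤ p → ∀ w, hv p w → ∀ c : ZMod p,
    (Nat.card {x : ι → Bool // bdot x w = c} : ℝ) ≤ q * 2 ^ Fintype.card ι) →
  (∀ p, p.Prime → y ≤ p → Fintype.card ι ≤ (E.map (Int.cast : ℤ → ZMod p)).rank + k) →
  Fintype.card ι ≤ (E.map (Int.cast : ℤ → ℚ)).rank + k →
  (Nat.card {x : σ → ι → Bool // (∀ w : ι → ℚ, E.map (Int.cast : ℤ → ℚ) *ᵥ w = 0 → (∀ s, bdot (x s) w = 0) → w = 0) ∧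
    ∃ p, p.Prime ∧ y ≤ p ∧ ∃ w : ι → ZMod p, hv p w ∧ E.map (Int.cast : ℤ → ZMod p) *ᵥ w = 0 ∧ ∀ s, bdot (x s) w = 0} : ℝ) ≤
    (Fintype.card ι : ℝ) ^ 2 * 4 ^ Fintype.card σ * q ^ (Fintype.card σ - 2 * k) * 2 ^ (Fintype.card ι * Fintype.card σ)

theorem coreC_of (h : CoreStmt) : CoreC := by
  intro τ ι σ _ _ _ _ _ _ E y k hv q hE hq0 hq1 hv0 hat hr hrQ
  exact h τ ι σ E y k hv q hE hq0 hq1 hv0 (fun p hp hy w hw => hat p hp hy w hw 0) hr hrQ

section

variable {α : Type} [Fintype α] [DecidableEq α]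

/-- count for one support -/
theorem card_bad_le (hcore : CoreC) {y s₀ : ℕ} {q : ℝ} (hy : s₀.factorial < y)
    (hq : q = 1 / y + 3 / 2 / Real.sqrt (s₀ + 1)) (hq1 : q ≤ 1) (S : Finset α) (hS : s₀ < S.card)
    [DecidablePred (Bad y S)] :
    ((univ.filter (Bad y S)).card : ℝ) ≤
      (S.card : ℝ) ^ 2 * 4 ^ Sᶜ.card * q ^ (Sᶜ.card - 2 * S.card) * 2 ^ Fintype.card (Sym2 α) := by
  classical
  have hy0 : 0 < y := lt_of_le_of_lt (Nat.zero_le _) hy
  have hq0 : 0 ≤ q := by rw [hq]; positivity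
  have hSne : S.Nonempty := card_pos.1 (lt_of_le_of_lt (Nat.zero_le _) hS)
  have : Nonempty S := hSne.to_subtype
  set K : ℝ := (S.card : ℝ) ^ 2 * 4 ^ Sᶜ.card * q ^ (Sᶜ.card - 2 * S.card) * 2 ^ (S.card * Sᶜ.card) with hK
  have hK0 : 0 ≤ K := by positivity
  set f : (Sym2 α → Bool) → ({e // e ∉ cross S} → Bool) := fun b e => b e with hf
  have hcS : Fintype.card {i // i ∉ S} = Sᶜ.card := by
    rw [Fintype.card_subtype]
    congr 1
    ext i; simp
  have hfib : ∀ g ∈ (univ.filter (Bad y S)).image f,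
      (((univ.filter (Bad y S)).filter (fun b => f b = g)).card : ℝ) ≤ K := by
    intro g hg
    obtain ⟨b0, -, hb0⟩ := mem_image.1 hg
    set E : Matrix S S ℤ := fun i j => matZ b0 i j with hE
    have hmain := hcore S S {i // i ∉ S} E y S.card (fun p w => ∀ i, w i ≠ 0) q
      (fun i j => matZ01 b0 i j) hq0 hq1
      (fun p w h h0 => by
        obtain ⟨i⟩ := (inferInstance : Nonempty S)
        exact h i (congrFun h0 i))
      (fun p hp hyp w hw c => by
        have := card_bdot_le hy0 (by rw [Fintype.card_coe]; exact hS) hp hyp w hw c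
        rw [hq]; exact this)
      (fun p hp hyp => by rw [Fintype.card_coe]; omega)
      (by rw [Fintype.card_coe]; omega)
    rw [hcS, Fintype.card_coe] at hmain
    refine le_trans ?_ hmain
    rw [Nat.card_eq_fintype_card, Fintype.card_subtype]
    have hcard : ((univ.filter (Bad y S)).filter (fun b => f b = g)).card ≤ (univ.filter
        (fun x : {i // i ∉ S} → S → Bool => (∀ w : S → ℚ, E.map (Int.cast : ℤ → ℚ) *ᵥ w = 0 →
          (∀ s, bdot (x s) w = 0) → w = 0) ∧ ∃ p, p.Prime ∧ y ≤ p ∧ ∃ w : S → ZMod p, (∀ i, w i ≠ 0) ∧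
          E.map (Int.cast : ℤ → ZMod p) *ᵥ w = 0 ∧ ∀ s, bdot (x s) w = 0)).card := by
      refine card_le_card_of_injOn (fun b i j => b s((i : α), (j : α))) ?_ ?_
      · intro b hb
        rw [mem_coe, mem_filter, mem_filter] at hb
        obtain ⟨⟨-, hind, p, hp, hyp, w, hw0, hw⟩, hbg⟩ := hb
        have hout : ∀ e, e ∉ cross S → b e = b0 e := by
          intro e he
          rw [← hb0] at hbg
          exact congrFun hbg ⟨e, he⟩
        have hEb : ∀ i j : S, matZ b i j = E i j := by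
          intro i j
          rw [hE]
          unfold matZ
          rw [hout _ (not_mem_cross i.2 j.2)]
        have hrow : ∀ {R : Type} [CommRing R] (w : S → R) (i : {i // i ∉ S}),
            bdot (fun j : S => b s((i : α), (j : α))) w = ((cols b S).map (Int.cast : ℤ → R) *ᵥ w) i := by
          intro R _ w i
          unfold bdot
          simp only [Matrix.mulVec, dotProduct, Matrix.map_apply, cols, matZ]
          refine sum_congr rfl fun j _ => ?_
          split_ifs <;> simp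
        have hin : ∀ {R : Type} [CommRing R] (w : S → R) (i : S),
            (E.map (Int.cast : ℤ → R) *ᵥ w) i = ((cols b S).map (Int.cast : ℤ → R) *ᵥ w) i := by
          intro R _ w i
          simp only [Matrix.mulVec, dotProduct, Matrix.map_apply, cols]
          refine sum_congr rfl fun j _ => ?_
          rw [hEb]
        rw [mem_coe, mem_filter]
        refine ⟨mem_univ _, ?_, p, hp, hyp, w, hw0, ?_, ?_⟩
        · intro v hv1 hv2
          refine hind v ?_
          funext i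
          by_cases hi : i ∈ S
          · have h1 := congrFun hv1 ⟨i, hi⟩
            rw [hin] at h1
            exact h1
          · have h1 := hv2 ⟨i, hi⟩
            rw [hrow] at h1
            exact h1
        · funext i
          rw [hin, hw]
          rfl
        · intro i
          rw [hrow, hw]
          rfl
      · intro b hb b' hb' hbb
        rw [mem_coe, mem_filter] at hb hb'
        funext e
        by_cases he : e ∈ cross S
        · obtain ⟨⟨i, j⟩, hij, rfl⟩ := mem_image.1 he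
          obtain ⟨hi, hj⟩ := mem_product.1 hij
          exact congrFun (congrFun hbb ⟨i, mem_compl.1 hi⟩) ⟨j, hj⟩
        · have h1 := hb.2.trans hb'.2.symm
          exact congrFun h1 ⟨e, he⟩
    exact_mod_cast hcard
  have h1 : ((univ.filter (Bad y S)).card : ℝ) ≤ ((univ.filter (Bad y S)).image f).card * K := by
    rw [card_eq_sum_card_image f (univ.filter (Bad y S))]
    push_cast
    refine (sum_le_sum hfib).trans ?_
    rw [sum_const, nsmul_eq_mul]
  have h2 : (((univ.filter (Bad y S)).image f).card : ℝ) ≤ 2 ^ Fintype.card {e // e ∉ cross S} := by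
    have h3 : ((univ.filter (Bad y S)).image f).card ≤ 2 ^ Fintype.card {e // e ∉ cross S} := by
      refine (card_le_univ _).trans ?_
      rw [Fintype.card_fun, Fintype.card_bool]
    exact_mod_cast h3
  have h3 : Fintype.card {e // e ∉ cross S} + S.card * Sᶜ.card = Fintype.card (Sym2 α) := by
    have h4 := Fintype.card_subtype_compl (fun e : Sym2 α => e ∈ cross S)
    have h5 : Fintype.card {e // e ∈ cross S} = (cross S).card := Fintype.card_coe _
    have h6 : (cross S).card ≤ Fintype.card (Sym2 α) := card_le_univ _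
    rw [card_cross] at h5 h6
    have h7 : Sᶜ.card * S.card = S.card * Sᶜ.card := mul_comm _ _
    omega
  refine h1.trans ((mul_le_mul_of_nonneg_right h2 hK0).trans (le_of_eq ?_))
  rw [hK, ← h3, pow_add]
  ring

end

end NS

/-- G3 from `CoreC` -/
theorem ns_of (hcore : NS.CoreC) : NSStmt := by
  classical
  intro α _ _ y s₀ t q hy hq hq1
  have hy0 : 0 < y := lt_of_le_of_lt (Nat.zero_le _) hy
  have hq0 : 0 ≤ q := by rw [hq]; positivity
  set n := Fintype.card α with hn
  set F : Finset (Finset α) := univ.filter fun S => s₀ < S.card ∧ S.card ≤ t with hF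
  have hsub : (univ.filter fun b : Sym2 α → Bool => (matZ b).det ≠ 0 ∧ ∃ p, p.Prime ∧ y ≤ p ∧ ∃ g : α → ZMod p,
      g ≠ 0 ∧ (matZ b).map (Int.cast : ℤ → ZMod p) *ᵥ g = 0 ∧ (univ.filter fun i => g i ≠ 0).card ≤ t) ⊆
      F.biUnion fun S => univ.filter (NS.Bad y S) := by
    intro b hb
    obtain ⟨-, hdet, p, hp, hyp, g, hg0, hg, ht⟩ := mem_filter.1 hb
    have hbad := NS.bad_of_supp hdet hp hyp hg
    have hne : (univ.filter fun i => g i ≠ 0).Nonempty := by
      obtain ⟨i, hi⟩ := Function.ne_iff.1 hg0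
      exact ⟨i, mem_filter.2 ⟨mem_univ _, hi⟩⟩
    refine mem_biUnion.2 ⟨univ.filter fun i => g i ≠ 0, mem_filter.2 ⟨mem_univ _, ?_, ht⟩,
      mem_filter.2 ⟨mem_univ _, hbad⟩⟩
    by_contra hle
    push Not at hle
    exact NS.not_bad_small hy hle hne b hbad
  rw [Nat.card_eq_fintype_card, Fintype.card_subtype]
  have h1 : ((univ.filter fun b : Sym2 α → Bool => (matZ b).det ≠ 0 ∧ ∃ p, p.Prime ∧ y ≤ p ∧ ∃ g : α → ZMod p,
      g ≠ 0 ∧ (matZ b).map (Int.cast : ℤ → ZMod p) *ᵥ g = 0 ∧ (univ.filter fun i => g i ≠ 0).card ≤ t).card : ℝ) ≤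
      ∑ S ∈ F, ((univ.filter (NS.Bad y S)).card : ℝ) := by
    have h2 := (card_le_card hsub).trans card_biUnion_le
    exact_mod_cast h2
  refine h1.trans ?_
  have h3 : ∀ S ∈ F, ((univ.filter (NS.Bad y S)).card : ℝ) ≤
      ((t : ℝ) + 1) ^ 2 * 4 ^ n * q ^ (n - 3 * t) * 2 ^ Fintype.card (Sym2 α) := by
    intro S hS
    obtain ⟨-, hS1, hS2⟩ := mem_filter.1 hS
    refine (NS.card_bad_le hcore hy hq hq1 S hS1).trans ?_
    have hc : Sᶜ.card = n - S.card := by rw [card_compl]
    have e1 : (S.card : ℝ) ^ 2 ≤ ((t : ℝ) + 1) ^ 2 := by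
      have : (S.card : ℝ) ≤ t := by exact_mod_cast hS2
      have h0 : (0 : ℝ) ≤ S.card := Nat.cast_nonneg _
      exact pow_le_pow_left₀ h0 (by linarith) 2
    have e2 : (4 : ℝ) ^ Sᶜ.card ≤ 4 ^ n := pow_le_pow_right₀ (by norm_num) (by rw [hc]; omega)
    have e3 : q ^ (Sᶜ.card - 2 * S.card) ≤ q ^ (n - 3 * t) :=
      pow_le_pow_of_le_one hq0 hq1 (by rw [hc]; omega)
    have e4 : (S.card : ℝ) ^ 2 * 4 ^ Sᶜ.card ≤ ((t : ℝ) + 1) ^ 2 * 4 ^ n :=
      mul_le_mul e1 e2 (by positivity) (by positivity)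
    have e5 : (S.card : ℝ) ^ 2 * 4 ^ Sᶜ.card * q ^ (Sᶜ.card - 2 * S.card) ≤
        ((t : ℝ) + 1) ^ 2 * 4 ^ n * q ^ (n - 3 * t) :=
      mul_le_mul e4 e3 (by positivity) (by positivity)
    exact mul_le_mul_of_nonneg_right e5 (by positivity)
  refine (sum_le_sum h3).trans ?_
  rw [sum_const, nsmul_eq_mul]
  have h4 : (F.card : ℝ) ≤ 2 ^ n := by
    have h5 : F.card ≤ 2 ^ n := by
      refine (card_le_univ _).trans ?_
      rw [Fintype.card_finset]
    exact_mod_cast h5
  have h6 : (0 : ℝ) ≤ ((t : ℝ) + 1) ^ 2 * 4 ^ n * q ^ (n - 3 * t) * 2 ^ Fintype.card (Sym2 α) := by positivity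
  refine (mul_le_mul_of_nonneg_right h4 h6).trans (le_of_eq ?_)
  have h7 : (8 : ℝ) ^ n = 2 ^ n * 4 ^ n := by rw [← mul_pow]; norm_num
  rw [h7]
  ring

/-- **G3** -/
theorem ns (hcore : CoreStmt) : NSStmt := ns_of (NS.coreC_of hcore)

end Vale.Agent.P160.Half.G
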