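import Vale.Agent.P160.Half.GStmt2
import Vale.Agent.P160.Half.NoSp

/-! # P160, half rate: G3 from `CoreStmt2` (helper950) -/

open Finset Matrix

namespace Vale.Agent.P160.Half.G

namespace NS

/-- add an empty block of columns -/
def ext {τ ι : Type} (E : Matrix τ ι ℤ) : Matrix τ (ι ⊕ Empty) ℤ := fun i j => Sum.elim (E i) Empty.elim j

theorem ext_eq {τ ι : Type} (E : Matrix τ ι ℤ) : ext E = E.submatrix id (Equiv.sumEmpty ι Empty) := by
  ext i j
  rcases j with j | j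
  · rfl
  · exact j.elim

theorem ext_mulVec {τ ι : Type} [Fintype ι] {R : Type} [CommRing R] (E : Matrix τ ι ℤ) (w : ι ⊕ Empty → R) :
    (ext E).map (Int.cast : ℤ → R) *ᵥ w = E.map (Int.cast : ℤ → R) *ᵥ (w ∘ Sum.inl) := by
  funext i
  simp only [Matrix.mulVec, dotProduct, Matrix.map_apply, Fintype.sum_sum_type, Finset.univ_eq_empty,
    Finset.sum_empty, add_zero]
  rfl

theorem ext_rank {τ ι : Type} [Fintype ι] {R : Type} [Field R] (E : Matrix τ ι ℤ) :
    ((ext E).map (Int.cast : ℤ → R)).rank = (E.map (Int.cast : ℤ → R)).rank := by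
  have h : LinearMap.range ((ext E).map (Int.cast : ℤ → R)).mulVecLin =
      LinearMap.range (E.map (Int.cast : ℤ → R)).mulVecLin := by
    ext v
    simp only [LinearMap.mem_range, Matrix.mulVecLin_apply]
    constructor
    · rintro ⟨w, hw⟩
      exact ⟨w ∘ Sum.inl, by rw [← ext_mulVec]; exact hw⟩
    · rintro ⟨w, hw⟩
      refine ⟨Sum.elim w Empty.elim, ?_⟩
      rw [ext_mulVec]
      exact hw
  unfold Matrix.rank
  rw [h]

theorem coreC_of2 (h : CoreStmt2) : CoreC := by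
  intro τ ι σ _ _ _ _ _ _ E y k hv q hE hq0 hq1 hv0 hat hr hrQ
  have hmain := h τ ι Empty σ (ext E) (fun _ b => b.elim) 1 y k (fun p w => hv p (w ∘ Sum.inl)) q le_rfl
    (fun i j => by
      rcases j with j | j
      · rcases hE i j with h1 | h1
        · simp [ext, h1]
        · simp [ext, h1]
      · exact j.elim)
    (fun _ j => j.elim) hq0 hq1
    (fun p w hw h0 => hv0 p _ hw (by rw [h0]; rfl))
    (fun p hp hy w hw c => hat p hp hy _ hw c)
    (fun p hp hy => by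
      have : Fact p.Prime := ⟨hp⟩
      rw [Fintype.card_empty, add_zero, ext_rank]
      exact hr p hp hy)
    (by
      rw [Fintype.card_empty, add_zero, ext_rank]
      exact hrQ)
  simp only [Finset.univ_eq_empty, Finset.sum_empty, add_zero, ext_mulVec, Fintype.card_empty, Nat.cast_zero,
    Nat.cast_one, one_mul] at hmain
  refine le_trans ?_ hmain
  have hinj : Nat.card {x : σ → ι → Bool // (∀ w : ι → ℚ, E.map (Int.cast : ℤ → ℚ) *ᵥ w = 0 →
      (∀ s, bdot (x s) w = 0) → w = 0) ∧ ∃ p, p.Prime ∧ y ≤ p ∧ ∃ w : ι → ZMod p, hv p w ∧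
      E.map (Int.cast : ℤ → ZMod p) *ᵥ w = 0 ∧ ∀ s, bdot (x s) w = 0} ≤
      Nat.card {x : σ → ι → Bool // (∀ w : ι ⊕ Empty → ℚ, E.map (Int.cast : ℤ → ℚ) *ᵥ (w ∘ Sum.inl) = 0 →
      (∀ s, bdot (x s) (w ∘ Sum.inl) = 0) → w = 0) ∧ ∃ p, p.Prime ∧ y ≤ p ∧ ∃ w : ι ⊕ Empty → ZMod p,
      hv p (w ∘ Sum.inl) ∧ E.map (Int.cast : ℤ → ZMod p) *ᵥ (w ∘ Sum.inl) = 0 ∧
      ∀ s, bdot (x s) (w ∘ Sum.inl) = 0} := by
    refine Nat.card_le_card_of_injective (fun x => ⟨x.1, ?_, ?_⟩) ?_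
    · intro w h1 h2
      have h3 := x.2.1 _ h1 h2
      funext j
      rcases j with j | j
      · exact congrFun h3 j
      · exact j.elim
    · obtain ⟨p, hp, hy, w, hw1, hw2, hw3⟩ := x.2.2
      exact ⟨p, hp, hy, Sum.elim w Empty.elim, hw1, hw2, hw3⟩
    · intro x x' hxx
      have h1 := congrArg Subtype.val hxx
      exact Subtype.ext h1
  exact_mod_cast hinj

end NS

/-- **G3** from `CoreStmt2` -/
theorem ns2 (hcore : CoreStmt2) : NSStmt := ns_of (NS.coreC_of2 hcore)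

end Vale.Agent.P160.Half.G
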