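import Vale.Agent.P160.Half.GStmt

/-! # P160, half rate: G3b (helper603): a sparse integral word is a sparse word modulo every large prime -/

open Finset Matrix

namespace Vale.Agent.P160.Half.G

/-- reduction of an integral word -/
theorem word_cast {α β : Type*} [Fintype α] [Fintype β] {P : Matrix α α ℤ} {F : Matrix α β ℤ} {g : α → ℤ} {c : β → ℤ}
    (h : Word ℤ P F g c) (R : Type*) [CommRing R] : Word R P F (fun i => (g i : R)) (fun j => (c j : R)) := by
  unfold Word at h ⊢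
  funext i
  have h1 := congrFun h i
  simp only [Pi.add_apply, Matrix.mulVec, dotProduct, Matrix.map_apply, Pi.zero_apply, Int.cast_id] at h1 ⊢
  have h2 := congrArg (Int.cast : ℤ → R) h1
  push_cast at h2
  exact h2

/-- a nonzero integer is nonzero modulo some prime `p ≥ y` -/
theorem exists_prime_ne (y : ℕ) {v : ℤ} (hv : v ≠ 0) : ∃ p : ℕ, p.Prime ∧ y ≤ p ∧ ((v : ZMod p) ≠ 0) := by
  obtain ⟨p, hp, hpr⟩ := Nat.exists_infinite_primes (max y (v.natAbs + 1))
  refine ⟨p, hpr, le_trans (le_max_left _ _) hp, fun h => ?_⟩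
  rw [ZMod.intCast_zmod_eq_zero_iff_dvd] at h
  have h1 := Nat.le_of_dvd (Int.natAbs_pos.2 hv) (Int.natCast_dvd.1 h)
  have h2 := le_trans (le_max_right _ _) hp
  omega

/-- **G3b** -/
theorem nsz : NSZStmt := by
  intro α β _ _ _ _ P F y t H g c hw hne
  obtain ⟨p, hp, hy, hne'⟩ : ∃ p : ℕ, p.Prime ∧ y ≤ p ∧
      ((fun i => (g i : ZMod p)) ≠ 0 ∨ (fun j => (c j : ZMod p)) ≠ 0) := by
    rcases hne with hg | hc
    · obtain ⟨i, hi⟩ := Function.ne_iff.1 hg
      obtain ⟨p, hp, hy, h⟩ := exists_prime_ne y (v := g i) hi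
      exact ⟨p, hp, hy, Or.inl (Function.ne_iff.2 ⟨i, h⟩)⟩
    · obtain ⟨i, hi⟩ := Function.ne_iff.1 hc
      obtain ⟨p, hp, hy, h⟩ := exists_prime_ne y (v := c i) hi
      exact ⟨p, hp, hy, Or.inr (Function.ne_iff.2 ⟨i, h⟩)⟩
  refine lt_of_lt_of_le (H p hp hy _ _ (word_cast hw (ZMod p)) hne') (Finset.card_le_card fun i hi => ?_)
  simp only [mem_filter, mem_univ, true_and] at hi ⊢
  intro h0
  exact hi (by simp [h0])

end Vale.Agent.P160.Half.G
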