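import Vale.Agent.P160.Half.GStmt4

/-! # P160, half rate, gap (G): `Num1` (helper604) -/

namespace Vale.Agent.P160.Half.Num1_604

open Filter Vale.Agent.P160.Half.G

theorem pv_tendsto : Tendsto pv atTop atTop := by
  refine tendsto_atTop.2 fun b => ?_
  filter_upwards [eventually_ge_atTop (2 ^ (10 * b))] with n hn
  have h0 : n ≠ 0 := by
    have : 0 < 2 ^ (10 * b) := by positivity
    omega
  have h1 : 10 * b ≤ Nat.log 2 n := Nat.le_log_of_pow_le (by norm_num) hn
  unfold pv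
  omega

theorem py_pow_le {n : ℕ} (hn : n ≠ 0) : py n ^ 10 ≤ n := by
  unfold py pv
  rw [← pow_mul]
  calc 2 ^ (Nat.log 2 n / 10 * 10) ≤ 2 ^ Nat.log 2 n :=
        Nat.pow_le_pow_right (by norm_num) (by omega)
    _ ≤ n := Nat.pow_log_le_self 2 hn

theorem lt_pow (n : ℕ) : n < 2 ^ (10 * pv n + 10) := by
  have h1 : n < 2 ^ (Nat.log 2 n + 1) := Nat.lt_pow_succ_log_self (by norm_num) n
  refine h1.trans_le (Nat.pow_le_pow_right (by norm_num) ?_)
  unfold pv
  omega

theorem cube_lt (v : ℕ) (hv : 10 ≤ v) : v ^ 3 < 2 ^ v := by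
  induction v, hv using Nat.le_induction with
  | base => norm_num
  | succ v hv ih =>
    have h1 : (v + 1) ^ 3 ≤ 2 * v ^ 3 := by nlinarith [mul_self_nonneg v, Nat.mul_le_mul hv hv, Nat.mul_le_mul (Nat.mul_le_mul hv le_rfl : 10 * v ≤ v * v) (le_refl v)]
    rw [pow_succ 2]
    omega

theorem num1 : Num1 := by
  intro J A s₀ m
  filter_upwards [eventually_gt_atTop 0,
    pv_tendsto.eventually_ge_atTop (10 + m + s₀.factorial + J + 40 * (A + 1))] with n hn hv
  set v := pv n with hvdef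
  set y := py n with hydef
  have hyv : y = 2 ^ v := rfl
  have hn0 : n ≠ 0 := by omega
  have hy10 : y ^ 10 ≤ n := py_pow_le hn0
  have hnlt : n < 2 ^ (10 * v + 10) := lt_pow n
  have hcube : v ^ 3 < y := cube_lt v (by omega)
  have hv10 : 10 ≤ v := by omega
  have hvv : v ≤ v ^ 3 := Nat.le_self_pow (by norm_num) v
  have hvy : v < y := by omega
  have hy1 : 1 ≤ y := by omega
  have hy3 : y ≤ y ^ 3 := Nat.le_self_pow (by norm_num) y
  have hpt : pt n = v * y ^ 2 := rfl
  have hpa : pa n = y ^ 3 := rfl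
  have ht3 : pt n ≤ y ^ 3 := by
    rw [hpt, pow_succ y 2, mul_comm (y ^ 2)]
    exact Nat.mul_le_mul_right _ hvy.le
  have hvt : v ≤ pt n := by
    rw [hpt]
    exact Nat.le_mul_of_pos_right _ (by positivity)
  have hy10' : 10 ≤ y := by omega
  have h4 : pt n + J ≤ n := by
    have h1 : pt n + J ≤ 2 * y ^ 3 := by omega
    have h2 : 2 * y ^ 3 ≤ y ^ 4 := by
      rw [pow_succ y 3, mul_comm]
      exact Nat.mul_le_mul_left _ (by omega)
    have h3 : y ^ 4 ≤ y ^ 10 := Nat.pow_le_pow_right hy1 (by norm_num)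
    omega
  refine ⟨by omega, by omega, by rw [hpa]; omega, ?_, ?_, ?_⟩
  · have h1 : pt n + m ≤ 2 * y ^ 3 := by omega
    calc m * (pt n + m) ≤ y * (2 * y ^ 3) := Nat.mul_le_mul (by omega) h1
      _ = 2 * y ^ 4 := by ring
      _ ≤ y * y ^ 4 := Nat.mul_le_mul_right _ (by omega)
      _ = y ^ 5 := by ring
      _ ≤ y ^ 10 := Nat.pow_le_pow_right hy1 (by norm_num)
      _ ≤ n := hy10
  · have hexp : (10 * v + 10) * ((A + 1) * (pt n + J)) < pa n - v := by
      have h1 : pt n + J ≤ 2 * pt n := by omega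
      have h2 : (10 * v + 10) * ((A + 1) * (pt n + J)) ≤ (40 * (A + 1)) * (v * pt n) := by
        calc (10 * v + 10) * ((A + 1) * (pt n + J)) ≤ (20 * v) * ((A + 1) * (2 * pt n)) := by
              gcongr
              omega
          _ = (40 * (A + 1)) * (v * pt n) := by ring
      have h3 : (40 * (A + 1)) * (v * pt n) ≤ v ^ 3 * y ^ 2 := by
        calc (40 * (A + 1)) * (v * pt n) ≤ v * (v * pt n) := Nat.mul_le_mul_right _ (by omega)
          _ = v ^ 3 * y ^ 2 := by rw [hpt]; ring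
      have h4 : v ^ 3 * y ^ 2 + y ^ 2 ≤ y ^ 3 := by
        calc v ^ 3 * y ^ 2 + y ^ 2 = (v ^ 3 + 1) * y ^ 2 := by ring
          _ ≤ y * y ^ 2 := Nat.mul_le_mul_right _ (by omega)
          _ = y ^ 3 := by ring
      have h5 : v < y ^ 2 := hvy.trans_le (Nat.le_self_pow (by norm_num) y)
      rw [hpa]
      omega
    calc (pt n + J).factorial * (n ^ A) ^ (pt n + J) ≤ n ^ (pt n + J) * (n ^ A) ^ (pt n + J) := by
          refine Nat.mul_le_mul_right _ ((Nat.factorial_le_pow _).trans ?_)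
          exact Nat.pow_le_pow_left h4 _
      _ = n ^ ((A + 1) * (pt n + J)) := by rw [← pow_mul, ← pow_add]; ring_nf
      _ ≤ (2 ^ (10 * v + 10)) ^ ((A + 1) * (pt n + J)) := Nat.pow_le_pow_left hnlt.le _
      _ = 2 ^ ((10 * v + 10) * ((A + 1) * (pt n + J))) := by rw [← pow_mul]
      _ < 2 ^ (pa n - v) := Nat.pow_lt_pow_right (by norm_num) hexp
  · rw [hyv, ← pow_succ', hpa]
    exact Nat.pow_le_pow_right (by norm_num) (by omega)

end Vale.Agent.P160.Half.Num1_604
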