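import Vale.Agent.P160.Half.GStmt4

/-! # P160, half rate: `Num2` (helper655) -/

namespace Vale.Agent.P160.Half.G

open Filter

theorem num2_pv_ge (N : ℕ) : ∀ᶠ n : ℕ in atTop, N ≤ pv n := by
  filter_upwards [eventually_ge_atTop (2 ^ (10 * N))] with n hn
  unfold pv
  rw [Nat.le_div_iff_mul_le (by norm_num)]
  have := Nat.log_mono_right (b := 2) hn
  rw [Nat.log_pow (by norm_num)] at this
  omega

theorem num2_py_le (n : ℕ) (hn : n ≠ 0) : py n ^ 10 ≤ n := by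
  unfold py pv
  rw [← pow_mul]
  calc 2 ^ (Nat.log 2 n / 10 * 10) ≤ 2 ^ Nat.log 2 n :=
        Nat.pow_le_pow_right (by norm_num) (Nat.div_mul_le_self _ _)
    _ ≤ n := Nat.pow_log_le_self 2 hn

theorem num2_n_le (n : ℕ) : n ≤ 2 ^ (10 * pv n + 10) := by
  have h1 := Nat.lt_pow_succ_log_self (b := 2) (by norm_num) n
  refine h1.le.trans (Nat.pow_le_pow_right (by norm_num) ?_)
  unfold pv; omega

theorem num2 : Num2 := by
  intro J ε hε
  obtain ⟨N, hN⟩ := exists_nat_ge (((J * (25 + 2 * J) : ℕ) : ℝ) / ε)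
  rw [div_le_iff₀ hε] at hN
  filter_upwards [num2_pv_ge (N + 1), eventually_ge_atTop 1] with n hv hn
  have h10 := num2_py_le n (by omega)
  have hnl := num2_n_le n
  have hvy : pv n < py n := Nat.lt_two_pow_self
  have hpt : pt n = pv n * py n ^ 2 := rfl
  have hpa : pa n = py n ^ 3 := rfl
  set v := pv n with hvd
  set y := py n with hyd
  set a := pa n with had
  set t := pt n with htd
  have hy1 : 1 ≤ y := by omega
  have e1 : 2 ^ a + 1 ≤ 2 ^ (a + 1) := by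
    have := Nat.one_le_two_pow (n := a)
    rw [pow_succ]; omega
  have e2 : (2 ^ a + 1) * (n * (2 ^ a + 1)) ^ t * (2 ^ a + 1) ^ J ≤
      2 ^ (a + 1 + t * (10 * v + 10 + (a + 1)) + (a + 1) * J) := by
    calc (2 ^ a + 1) * (n * (2 ^ a + 1)) ^ t * (2 ^ a + 1) ^ J
        ≤ 2 ^ (a + 1) * (2 ^ (10 * v + 10) * 2 ^ (a + 1)) ^ t * (2 ^ (a + 1)) ^ J := by gcongr
      _ = _ := by
        rw [← pow_add, ← pow_mul, ← pow_mul, ← pow_add, ← pow_add]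
        congr 1
        ring
  have e3 : ((2 ^ a + 1) * (n * (2 ^ a + 1)) ^ t * (2 ^ a + 1) ^ J + 1) ^ J ≤
      2 ^ (J * (a + 1 + t * (10 * v + 10 + (a + 1)) + (a + 1) * J + 1)) := by
    have h1 : (2 ^ a + 1) * (n * (2 ^ a + 1)) ^ t * (2 ^ a + 1) ^ J + 1 ≤
        2 ^ (a + 1 + t * (10 * v + 10 + (a + 1)) + (a + 1) * J + 1) := by
      have := Nat.one_le_two_pow (n := a + 1 + t * (10 * v + 10 + (a + 1)) + (a + 1) * J)
      rw [pow_succ]; omega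
    calc _ ≤ (2 ^ (a + 1 + t * (10 * v + 10 + (a + 1)) + (a + 1) * J + 1)) ^ J :=
          Nat.pow_le_pow_left h1 J
      _ = _ := by rw [← pow_mul, mul_comm]
  have e4 : J * (a + 1 + t * (10 * v + 10 + (a + 1)) + (a + 1) * J + 1) ≤
      J * (25 + 2 * J) * y ^ 6 := by
    have hy6 : 1 ≤ y ^ 6 := Nat.one_le_pow _ _ hy1
    have h36 : y ^ 3 ≤ y ^ 6 := Nat.pow_le_pow_right hy1 (by norm_num)
    have ht3 : t ≤ y ^ 3 := by
      rw [hpt]
      calc v * y ^ 2 ≤ y * y ^ 2 := Nat.mul_le_mul_right _ hvy.le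
        _ = y ^ 3 := by ring
    have hy3 : y ≤ y ^ 3 := Nat.le_self_pow (by norm_num) y
    have h1 : 10 * v + 10 + (a + 1) ≤ 22 * y ^ 3 := by
      rw [hpa]
      have : 1 ≤ y ^ 3 := Nat.one_le_pow _ _ hy1
      omega
    have h2 : t * (10 * v + 10 + (a + 1)) ≤ 22 * y ^ 6 := by
      calc t * (10 * v + 10 + (a + 1)) ≤ y ^ 3 * (22 * y ^ 3) := Nat.mul_le_mul ht3 h1
        _ = 22 * y ^ 6 := by ring
    have h3 : a + 1 ≤ 2 * y ^ 6 := by rw [hpa]; omega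
    have h4 : (a + 1) * J ≤ 2 * y ^ 6 * J := Nat.mul_le_mul_right _ h3
    have h5 : a + 1 + t * (10 * v + 10 + (a + 1)) + (a + 1) * J + 1 ≤ (25 + 2 * J) * y ^ 6 := by
      have : (25 + 2 * J) * y ^ 6 = 2 * y ^ 6 + 22 * y ^ 6 + 2 * y ^ 6 * J + y ^ 6 := by ring
      omega
    calc _ ≤ J * ((25 + 2 * J) * y ^ 6) := Nat.mul_le_mul_left _ h5
      _ = _ := by ring
  have e5 : ((J * (25 + 2 * J) * y ^ 6 : ℕ) : ℝ) ≤ ε * n := by
    have h1 : ((J * (25 + 2 * J) : ℕ) : ℝ) ≤ ε * (y : ℝ) ^ 4 := by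
      have hyN : (N : ℝ) ≤ (y : ℝ) ^ 4 := by
        have h2 : N ≤ y ^ 4 := (by omega : N ≤ y).trans (Nat.le_self_pow (by norm_num) y)
        exact_mod_cast h2
      calc ((J * (25 + 2 * J) : ℕ) : ℝ) ≤ N * ε := hN
        _ ≤ (y : ℝ) ^ 4 * ε := mul_le_mul_of_nonneg_right hyN hε.le
        _ = _ := mul_comm _ _
    have h10' : (y : ℝ) ^ 10 ≤ n := by exact_mod_cast h10
    calc ((J * (25 + 2 * J) * y ^ 6 : ℕ) : ℝ) = ((J * (25 + 2 * J) : ℕ) : ℝ) * (y : ℝ) ^ 6 := by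
          push_cast; ring
      _ ≤ ε * (y : ℝ) ^ 4 * (y : ℝ) ^ 6 := mul_le_mul_of_nonneg_right h1 (by positivity)
      _ = ε * (y : ℝ) ^ 10 := by ring
      _ ≤ ε * n := mul_le_mul_of_nonneg_left h10' hε.le
  calc ((((2 ^ a + 1) * (n * (2 ^ a + 1)) ^ t * (2 ^ a + 1) ^ J + 1) ^ J : ℕ) : ℝ)
      ≤ ((2 ^ (J * (25 + 2 * J) * y ^ 6) : ℕ) : ℝ) := by
        exact_mod_cast e3.trans (Nat.pow_le_pow_right (by norm_num) e4)
    _ = (2 : ℝ) ^ ((J * (25 + 2 * J) * y ^ 6 : ℕ) : ℝ) := by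
        rw [Real.rpow_natCast]; push_cast; rfl
    _ ≤ (2 : ℝ) ^ (ε * n) := Real.rpow_le_rpow_of_exponent_le (by norm_num) e5

end Vale.Agent.P160.Half.G
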