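import Vale.Agent.P160.Half.GStmt4

/-! # P160, half rate: gap (G), numbers N3 (helper349) -/

open Finset Matrix Filter

namespace Vale.Agent.P160.Half.G

namespace Num3h

theorem pv_ge (m : ℕ) : ∀ᶠ n : ℕ in atTop, m ≤ pv n := by
  filter_upwards [eventually_ge_atTop (2 ^ (10 * m))] with n hn
  have h : 10 * m ≤ Nat.log 2 n := Nat.le_log_of_pow_le (by norm_num) hn
  unfold pv
  omega

theorem py_pow (n : ℕ) (hn : n ≠ 0) : py n ^ 10 ≤ n := by
  unfold py pv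
  rw [← pow_mul]
  exact (Nat.pow_le_pow_right (by norm_num) (by omega)).trans (Nat.pow_log_le_self 2 hn)

theorem pv_le (n : ℕ) : pv n ≤ py n := (Nat.lt_two_pow_self).le

theorem pt_le (n : ℕ) : pt n ≤ py n ^ 3 := by
  unfold pt
  calc pv n * py n ^ 2 ≤ py n * py n ^ 2 := Nat.mul_le_mul_right _ (pv_le n)
    _ = py n ^ 3 := by ring

theorem mul_pt (K : ℕ) : ∀ᶠ n : ℕ in atTop, K * pt n ≤ n := by
  filter_upwards [pv_ge K, eventually_ge_atTop 1] with n hn h1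
  have hK : K ≤ py n := hn.trans (pv_le n)
  have hp : 1 ≤ py n := Nat.one_le_two_pow
  calc K * pt n ≤ py n * py n ^ 3 := Nat.mul_le_mul hK (pt_le n)
    _ = py n ^ 4 := by ring
    _ ≤ py n ^ 10 := Nat.pow_le_pow_right hp (by norm_num)
    _ ≤ n := py_pow n (by omega)

end Num3h

open Num3h

/-- **N3** -/
theorem num3 : Num3 := by
  intro C
  refine ⟨4 ^ (C + 7), ?_⟩
  filter_upwards [pv_ge (C + 6), mul_pt (3 * C + 17), eventually_ge_atTop 1] with n hv ht h1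
  set t := pt n with htdef
  have hs : Real.sqrt (((4 ^ (C + 7) : ℕ) : ℝ) + 1) ≥ 2 ^ (C + 7) := by
    apply Real.le_sqrt_of_sq_le
    push_cast
    rw [← pow_mul, mul_comm, pow_mul]
    norm_num
  have hA : 3 / 2 / Real.sqrt (((4 ^ (C + 7) : ℕ) : ℝ) + 1) ≤ (1 / 2) ^ (C + 6) := by
    calc 3 / 2 / Real.sqrt (((4 ^ (C + 7) : ℕ) : ℝ) + 1) ≤ 3 / 2 / (2 ^ (C + 7)) :=
          div_le_div_of_nonneg_left (by norm_num) (by positivity) hs
      _ ≤ (1 / 2) ^ (C + 6) := by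
          rw [div_pow, one_pow, pow_succ (2 : ℝ) (C + 6), div_le_div_iff₀ (by positivity) (by positivity)]
          have : (0 : ℝ) < 2 ^ (C + 6) := by positivity
          nlinarith
  have hB : 1 / (py n : ℝ) ≤ (1 / 2) ^ (C + 6) := by
    unfold py
    push_cast
    rw [← _root_.one_div_pow]
    exact pow_le_pow_of_le_one (by norm_num) (by norm_num) hv
  set q : ℝ := 1 / (py n : ℝ) + 3 / 2 / Real.sqrt (((4 ^ (C + 7) : ℕ) : ℝ) + 1) with hq
  have hq0 : 0 ≤ q := by positivity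
  have hqle : q ≤ (1 / 2) ^ (C + 5) := by
    have : ((1 : ℝ) / 2) ^ (C + 5) = 2 * (1 / 2) ^ (C + 6) := by rw [pow_succ _ (C + 5)]; ring
    rw [this]; linarith
  refine ⟨hqle.trans (pow_le_one₀ (by norm_num) (by norm_num)), ?_⟩
  have h2 : (2 : ℝ) ^ (-(C * n : ℝ)) = (1 / 2) ^ (C * n) := by
    rw [Real.rpow_neg (by norm_num), ← Nat.cast_mul, Real.rpow_natCast, one_div, inv_pow]
  rw [h2]
  have h3 : q ^ (n - 3 * t) ≤ (1 / 2) ^ ((C + 5) * (n - 3 * t)) := by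
    rw [pow_mul]
    exact pow_le_pow_left₀ hq0 hqle _
  have h4 : ((t : ℝ) + 1) ^ 2 ≤ 2 ^ (2 * t) := by
    rw [mul_comm, pow_mul]
    refine pow_le_pow_left₀ (by positivity) ?_ 2
    have : t + 1 ≤ 2 ^ t := Nat.lt_two_pow_self
    exact_mod_cast this
  have h5 : (8 : ℝ) ^ n = 2 ^ (3 * n) := by rw [pow_mul]; norm_num
  have hexp : 2 * t + 3 * n + C * n ≤ (C + 5) * (n - 3 * t) := by
    have h3t : 3 * t ≤ n := (Nat.mul_le_mul_right t (by omega)).trans ht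
    obtain ⟨d, hd⟩ : ∃ d, n = 3 * t + d := ⟨n - 3 * t, by omega⟩
    have h6 : n - 3 * t = d := by omega
    rw [h6]
    nlinarith
  calc ((t : ℝ) + 1) ^ 2 * 8 ^ n * q ^ (n - 3 * t)
      ≤ 2 ^ (2 * t) * 2 ^ (3 * n) * (1 / 2) ^ ((C + 5) * (n - 3 * t)) := by
        rw [h5]
        exact mul_le_mul (mul_le_mul_of_nonneg_right h4 (by positivity)) h3 (by positivity) (by positivity)
    _ ≤ 2 ^ (2 * t) * 2 ^ (3 * n) * (1 / 2) ^ (2 * t + 3 * n + C * n) :=
        mul_le_mul_of_nonneg_left (pow_le_pow_of_le_one (by norm_num) (by norm_num) hexp) (by positivity)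
    _ = (1 / 2) ^ (C * n) := by
        rw [pow_add ((1 : ℝ) / 2), pow_add ((1 : ℝ) / 2), ← pow_add, one_div, inv_pow, inv_pow]
        have : (2 : ℝ) ^ (2 * t + 3 * n) ≠ 0 := by positivity
        rw [← mul_assoc, pow_add (2 : ℝ)]
        have a1 : (2 : ℝ) ^ (2 * t) ≠ 0 := by positivity
        have a2 : (2 : ℝ) ^ (3 * n) ≠ 0 := by positivity
        field_simp

end Vale.Agent.P160.Half.G
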