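import Vale.Agent.P160.Half.GStmt4

/-! # P160, half rate, (G): numeric leaf N4 -/

namespace Vale.Agent.P160.Half.G

namespace N4

open Filter Real

theorem tendsto_pv : Tendsto pv atTop atTop := by
  unfold pv
  refine tendsto_atTop.2 fun m => ?_
  filter_upwards [eventually_ge_atTop (2 ^ (10 * m))] with n hn
  rw [Nat.le_div_iff_mul_le (by norm_num)]
  have h0 : n ≠ 0 := by
    have : 0 < 2 ^ (10 * m) := by positivity
    omega
  rw [mul_comm]
  exact (Nat.le_log_iff_pow_le (by norm_num) h0).2 hn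

/-- `2 ^ (10 v) ≤ n` -/
theorem pow_pv_le {n : ℕ} (hn : n ≠ 0) : 2 ^ (10 * pv n) ≤ n := by
  refine le_trans (Nat.pow_le_pow_right (by norm_num) ?_) (Nat.pow_log_le_self 2 hn)
  unfold pv
  exact Nat.mul_div_le _ _

/-- `q ≤ 2 / y` -/
theorem q_le {n : ℕ} (hv : 3 ≤ pv n) :
    1 / (py n : ℝ) + 3 / 2 / Real.sqrt (pt n + 1) ≤ 2 / (2 : ℝ) ^ pv n := by
  have hy : (py n : ℝ) = 2 ^ pv n := by unfold py; push_cast; rfl
  have hy0 : (0 : ℝ) < 2 ^ pv n := by positivity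
  have ht : (pt n : ℝ) = pv n * (2 ^ pv n) ^ 2 := by unfold pt; push_cast; rw [hy]
  have hv' : (3 : ℝ) ≤ pv n := by exact_mod_cast hv
  have h1 : 3 / 2 * (2 : ℝ) ^ pv n ≤ Real.sqrt (pt n + 1) := by
    apply Real.le_sqrt_of_sq_le
    rw [ht]
    have h2 : (0 : ℝ) < (2 ^ pv n) ^ 2 := by positivity
    have h3 := mul_le_mul_of_nonneg_right hv' h2.le
    nlinarith
  have h2 : 3 / 2 / Real.sqrt (pt n + 1) ≤ 1 / 2 ^ pv n := by
    have hs : 0 < Real.sqrt (pt n + 1) := lt_of_lt_of_le (by positivity) h1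
    rw [div_le_div_iff₀ hs hy0]
    linarith
  rw [hy]
  have : 2 / (2 : ℝ) ^ pv n = 1 / 2 ^ pv n + 1 / 2 ^ pv n := by ring
  linarith

end N4

open Filter in
theorem num4 : Num4 := by
  intro C J A ρ hρ
  -- eventual facts
  have hv := N4.tendsto_pv.eventually (eventually_ge_atTop (100 * (C + 10) + 2 * ρ + A + 100))
  have hlog : ∀ᶠ n : ℕ in atTop, 3 * ((n ^ A : ℕ) : ℝ) * ((n : ℝ) + ρ) ^ 2 ≤ 2 ^ (n : ℝ) := by
    have h1 := tendsto_pow_const_div_const_pow_of_one_lt (A + 2) (show (1 : ℝ) < 2 by norm_num)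
    have h2 : (0 : ℝ) < 1 / (3 * (1 + ρ) ^ 2) := by positivity
    filter_upwards [h1.eventually (gt_mem_nhds h2), eventually_ge_atTop 1] with n hn hn1
    rw [div_lt_div_iff₀ (by positivity) (by positivity), one_mul] at hn
    have hn1' : (1 : ℝ) ≤ n := by exact_mod_cast hn1
    have h3 : (n : ℝ) + ρ ≤ (1 + ρ) * n := by
      have : (0 : ℝ) ≤ ρ := Nat.cast_nonneg _
      nlinarith
    rw [Real.rpow_natCast]
    refine le_trans ?_ hn.le
    have h4 : ((n : ℝ) + ρ) ^ 2 ≤ ((1 + ρ) * n) ^ 2 := pow_le_pow_left₀ (by positivity) h3 2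
    calc 3 * ((n ^ A : ℕ) : ℝ) * ((n : ℝ) + ρ) ^ 2
        ≤ 3 * ((n ^ A : ℕ) : ℝ) * ((1 + ρ) * n) ^ 2 :=
          mul_le_mul_of_nonneg_left h4 (by positivity)
      _ = (n : ℝ) ^ (A + 2) * (3 * (1 + ρ) ^ 2) := by push_cast; ring
  filter_upwards [hv, hlog, eventually_ge_atTop 1, eventually_ge_atTop (100 ^ 2 * (C + 12))]
    with n hv hlog hn1 hnC
  have hv3 : 3 ≤ pv n := by omega
  have hq := N4.q_le hv3
  set q : ℝ := 1 / (py n : ℝ) + 3 / 2 / Real.sqrt (pt n + 1) with hqd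
  have hq0 : 0 ≤ q := by rw [hqd]; positivity
  have hq2 : q ≤ (2 : ℝ) ^ (-((pv n : ℝ) - 1)) := by
    refine hq.trans (le_of_eq ?_)
    rw [neg_sub, Real.rpow_sub (by norm_num), Real.rpow_one, Real.rpow_natCast]
  have hv1 : (1 : ℝ) ≤ (pv n : ℝ) - 1 := by
    have : (3 : ℝ) ≤ pv n := by exact_mod_cast hv3
    linarith
  have hq1 : q ≤ 1 := hq2.trans (by
    rw [← Real.rpow_zero 2]
    exact Real.rpow_le_rpow_of_exponent_le (by norm_num) (by linarith))
  refine ⟨hq1, ?_⟩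
  -- sizes
  have hn0 : (0 : ℝ) < n := by exact_mod_cast hn1
  have hvpos : (0 : ℝ) < pv n := by linarith
  have hpv_le : 2 ^ (10 * pv n) ≤ n := N4.pow_pv_le (by omega)
  have hvn : (pv n) ^ 10 ≤ n := by
    refine le_trans ?_ hpv_le
    rw [mul_comm, pow_mul]
    exact Nat.pow_le_pow_left (Nat.lt_two_pow_self).le 10
  -- `z ≥ 4 (C+10) n / v - 1`
  have hz : (4 * (C + 10) * n / pv n : ℝ) - 1 ≤ (pz (4 * (C + 10)) n : ℝ) := by
    unfold pz
    have h1 := Nat.lt_div_mul_add (a := 4 * (C + 10) * n) (b := pv n) (by omega)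
    have h2 : ((4 * (C + 10) * n : ℕ) : ℝ) < ((4 * (C + 10) * n / pv n : ℕ) : ℝ) * pv n + pv n := by
      exact_mod_cast h1
    push_cast at h2
    rw [sub_le_iff_le_add, div_le_iff₀ hvpos]
    linarith
  -- `k ≤ n / (100 v)`-ish
  have hk : (2 * (pk C n + ρ) : ℝ) ≤ n / pv n := by
    rw [le_div_iff₀ hvpos]
    have h1 : (Nat.sqrt (2 * (C + 12) * n) : ℝ) ≤ Real.sqrt (2 * (C + 12) * n) := by
      apply Real.le_sqrt_of_sq_le
      have := Nat.sqrt_le' (2 * (C + 12) * n)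
      exact_mod_cast this
    have hvr : ((pv n : ℝ)) ^ 10 ≤ n := by exact_mod_cast hvn
    have hvC : (100 * (C + 10) + 2 * ρ + A + 100 : ℝ) ≤ pv n := by exact_mod_cast hv
    have hC0 : (0 : ℝ) ≤ C := Nat.cast_nonneg _
    have hρ0 : (0 : ℝ) ≤ ρ := Nat.cast_nonneg _
    have hA0 : (0 : ℝ) ≤ A := Nat.cast_nonneg _
    have hv100 : (100 : ℝ) ≤ pv n := by linarith
    -- `sqrt (2 (C+12) n) * 4 v ≤ n`
    have h3 : Real.sqrt (2 * (C + 12) * n) ≤ n / (8 * pv n) := by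
      apply Real.sqrt_le_iff.2
      refine ⟨by positivity, ?_⟩
      rw [div_pow, le_div_iff₀ (by positivity)]
      have h4 : 2 * ((C : ℝ) + 12) * (8 * pv n) ^ 2 ≤ n := by
        refine le_trans ?_ hvr
        have h5 : 2 * ((C : ℝ) + 12) ≤ pv n := by linarith
        have h6 : (64 : ℝ) ≤ pv n := by linarith
        calc 2 * ((C : ℝ) + 12) * (8 * (pv n : ℝ)) ^ 2 = 2 * ((C : ℝ) + 12) * (64 * (pv n : ℝ) ^ 2) := by ring
          _ ≤ (pv n : ℝ) * ((pv n : ℝ) * (pv n : ℝ) ^ 2) := by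
              apply mul_le_mul h5 _ (by positivity) hvpos.le
              exact mul_le_mul_of_nonneg_right h6 (by positivity)
          _ = (pv n : ℝ) ^ 4 := by ring
          _ ≤ (pv n : ℝ) ^ 10 := pow_le_pow_right₀ (by linarith) (by norm_num)
      calc 2 * ((C : ℝ) + 12) * n * (8 * (pv n : ℝ)) ^ 2 =
            (2 * ((C : ℝ) + 12) * (8 * (pv n : ℝ)) ^ 2) * n := by ring
        _ ≤ (n : ℝ) * n := mul_le_mul_of_nonneg_right h4 hn0.le
        _ = (n : ℝ) ^ 2 := by ring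
    have h4 : (1 + (ρ : ℝ)) * (8 * pv n) ≤ n := by
      refine le_trans ?_ hvr
      calc (1 + (ρ : ℝ)) * (8 * pv n) ≤ (pv n : ℝ) * ((pv n : ℝ) * (pv n : ℝ)) := by
            apply mul_le_mul (by linarith) _ (by positivity) hvpos.le
            exact mul_le_mul_of_nonneg_right (by linarith) hvpos.le
        _ = (pv n : ℝ) ^ 3 := by ring
        _ ≤ (pv n : ℝ) ^ 10 := pow_le_pow_right₀ (by linarith) (by norm_num)
    have h5 : (pk C n : ℝ) = Nat.sqrt (2 * (C + 12) * n) + 1 := by unfold pk; push_cast; rfl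
    rw [h5]
    have h6 : Real.sqrt (2 * (C + 12) * n) * (8 * pv n) ≤ n := by
      rw [le_div_iff₀ (by positivity)] at h3
      exact h3
    have h7 := mul_le_mul_of_nonneg_right h1 (show (0 : ℝ) ≤ 8 * pv n by positivity)
    nlinarith
  -- the exponent
  set E : ℕ := pz (4 * (C + 10)) n - 2 * (pk C n + ρ) with hE
  have hEr : (4 * (C + 10) * n / pv n : ℝ) - 1 - n / pv n ≤ E := by
    have h1 : ((pz (4 * (C + 10)) n : ℕ) : ℝ) ≤ E + (2 * (pk C n + ρ) : ℕ) := by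
      have : pz (4 * (C + 10)) n ≤ E + 2 * (pk C n + ρ) := by omega
      exact_mod_cast this
    push_cast at h1
    linarith
  have hmain : ((C : ℝ) + 4) * n ≤ ((pv n : ℝ) - 1) * E := by
    have hC0 : (0 : ℝ) ≤ C := Nat.cast_nonneg _
    have h1 : ((pv n : ℝ) - 1) * ((4 * (C + 10) * n / pv n : ℝ) - 1 - n / pv n) ≤
        ((pv n : ℝ) - 1) * E := mul_le_mul_of_nonneg_left hEr (by linarith)
    refine le_trans ?_ h1
    have h2 : ((4 * (C + 10) * n / pv n : ℝ) - 1 - n / pv n) =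
        ((4 * C + 39) * n - pv n) / pv n := by field_simp; ring
    rw [h2, mul_div_assoc', le_div_iff₀ hvpos]
    have hvr : ((pv n : ℝ)) ^ 10 ≤ n := by exact_mod_cast hvn
    have hvle : (pv n : ℝ) ≤ n := by
      refine le_trans ?_ hvr
      calc (pv n : ℝ) = (pv n : ℝ) ^ 1 := (pow_one _).symm
        _ ≤ _ := pow_le_pow_right₀ (by linarith) (by norm_num)
    have h3 : (pv n : ℝ) / 2 ≤ (pv n : ℝ) - 1 := by linarith
    have h4 : ((4 * (C : ℝ) + 38) * n) ≤ ((4 * C + 39) * n - pv n) := by nlinarith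
    have h5 : (pv n : ℝ) / 2 * ((4 * (C : ℝ) + 38) * n) ≤
        ((pv n : ℝ) - 1) * ((4 * C + 39) * n - pv n) :=
      mul_le_mul h3 h4 (by positivity) (by linarith)
    refine le_trans ?_ h5
    have h6 : 0 ≤ (n : ℝ) * pv n := by positivity
    nlinarith
  have hqE : q ^ E ≤ (2 : ℝ) ^ (-(((C : ℝ) + 4) * n)) := by
    calc q ^ E ≤ ((2 : ℝ) ^ (-((pv n : ℝ) - 1))) ^ E := pow_le_pow_left₀ hq0 hq2 _
      _ = (2 : ℝ) ^ (-(((pv n : ℝ) - 1) * E)) := by
          rw [← Real.rpow_natCast, ← Real.rpow_mul (by norm_num)]; ring_nf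
      _ ≤ _ := Real.rpow_le_rpow_of_exponent_le (by norm_num) (by linarith)
  have h8 : (8 : ℝ) ^ n = (2 : ℝ) ^ (3 * n : ℝ) := by
    rw [show (8 : ℝ) = (2 : ℝ) ^ (3 : ℝ) by norm_num, ← Real.rpow_natCast, ← Real.rpow_mul (by norm_num)]
  calc 3 * ((n ^ A : ℕ) : ℝ) * ((n : ℝ) + ρ) ^ 2 * 8 ^ n * q ^ E
      ≤ 2 ^ (n : ℝ) * 2 ^ (3 * n : ℝ) * 2 ^ (-(((C : ℝ) + 4) * n)) := by
        rw [h8]
        apply mul_le_mul _ hqE (pow_nonneg hq0 _) (by positivity)
        exact mul_le_mul_of_nonneg_right hlog (by positivity)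
    _ = 2 ^ (-(C * n : ℝ)) := by
        rw [← Real.rpow_add (by norm_num), ← Real.rpow_add (by norm_num)]
        congr 1
        ring

end Vale.Agent.P160.Half.G
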