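import Vale.Agent.P160.Half.GStmt4

/-! # P160, half rate: N5 (helper572) -/

open Finset Matrix Filter

namespace Vale.Agent.P160.Half.G.Num5x572

lemma pv_ge {m n : ℕ} (h : 2 ^ (10 * m) ≤ n) : m ≤ pv n := by
  unfold pv
  have hn : n ≠ 0 := by
    have : 0 < 2 ^ (10 * m) := by positivity
    omega
  have h1 : 10 * m ≤ Nat.log 2 n := Nat.le_log_of_pow_le (by norm_num) h
  omega

lemma pow_pv_le {n : ℕ} (hn : n ≠ 0) : (2 ^ pv n) ^ 10 ≤ n := by
  rw [← pow_mul]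
  refine le_trans (Nat.pow_le_pow_right (by norm_num) ?_) (Nat.pow_log_le_self 2 hn)
  unfold pv
  omega

/-- the nat inequality between the exponents -/
lemma key {C J ρ n : ℕ} (hρ : ρ ≤ J) (hn : 2 ^ (10 * (4 * (4 * (C + 12) + 2 * (J + 1) ^ 2) + 4)) ≤ n) :
    pv n + 2 * n + C * n ≤ (pv n - 2) * (pz (4 * (C + 10)) n - pa n * (pk C n + ρ)) := by
  set K := 4 * (C + 12) + 2 * (J + 1) ^ 2 with hK
  have hn0 : n ≠ 0 := by
    have : 0 < 2 ^ (10 * (4 * K + 4)) := by positivity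
    omega
  have hv := pv_ge hn
  have hy := pow_pv_le hn0
  set v := pv n with hvd
  set y := 2 ^ v with hyd
  have hvy : v ≤ y := (Nat.lt_two_pow_self (n := v)).le
  have hy1 : 1 ≤ y := Nat.one_le_two_pow
  set S := pa n * (pk C n + ρ) with hS
  have hpa : pa n = y ^ 3 := rfl
  have hpk : pk C n = Nat.sqrt (2 * (C + 12) * n) + 1 := rfl
  have h1 : (pk C n + ρ) ^ 2 ≤ K * n := by
    have h2 := Nat.sqrt_le' (2 * (C + 12) * n)
    set r := Nat.sqrt (2 * (C + 12) * n) with hr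
    rw [hpk]
    have h3 : (r + 1 + ρ) ^ 2 ≤ (r + (J + 1)) ^ 2 := Nat.pow_le_pow_left (by omega) 2
    have h4 : (r + (J + 1)) ^ 2 ≤ 2 * r ^ 2 + 2 * (J + 1) ^ 2 := by
      have := sq_nonneg ((r : ℤ) - (J + 1))
      have h5 : ((r : ℤ) + (J + 1)) ^ 2 ≤ 2 * r ^ 2 + 2 * (J + 1) ^ 2 := by nlinarith
      exact_mod_cast h5
    have h6 : 2 * (J + 1) ^ 2 ≤ 2 * (J + 1) ^ 2 * n := Nat.le_mul_of_pos_right _ (by omega)
    calc (r + 1 + ρ) ^ 2 ≤ 2 * r ^ 2 + 2 * (J + 1) ^ 2 := h3.trans h4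
      _ ≤ 2 * (2 * (C + 12) * n) + 2 * (J + 1) ^ 2 * n := by omega
      _ = K * n := by rw [hK]; ring
  have h7 : (2 * (v * S)) ^ 2 ≤ n ^ 2 := by
    calc (2 * (v * S)) ^ 2 = 4 * v ^ 2 * (y ^ 6 * (pk C n + ρ) ^ 2) := by
          rw [hS, hpa]; ring
      _ ≤ 4 * y ^ 2 * (y ^ 6 * (K * n)) := by
          refine Nat.mul_le_mul (Nat.mul_le_mul_left 4 (Nat.pow_le_pow_left hvy 2)) ?_
          exact Nat.mul_le_mul_left _ h1
      _ = (4 * K) * y ^ 8 * n := by ring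
      _ ≤ (y * y) * y ^ 8 * n := by
          refine Nat.mul_le_mul_right n (Nat.mul_le_mul_right _ ?_)
          calc 4 * K ≤ y := by omega
            _ = y * 1 := (mul_one y).symm
            _ ≤ y * y := Nat.mul_le_mul_left y hy1
      _ = y ^ 10 * n := by ring
      _ ≤ n * n := Nat.mul_le_mul_right n hy
      _ = n ^ 2 := by ring
  have h8 : 2 * (v * S) ≤ n := by
    by_contra hcon
    push Not at hcon
    have := Nat.pow_lt_pow_left hcon (n := 2) (by norm_num)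
    omega
  have h9 : 4 * v ≤ n := by
    have h10 : y * y ^ 9 ≤ n := by
      have : y * y ^ 9 = y ^ 10 := by ring
      omega
    have h11 : 4 ≤ y ^ 9 := by
      have h12 : 4 ≤ y := by omega
      calc 4 ≤ y := h12
        _ = y ^ 1 := (pow_one y).symm
        _ ≤ y ^ 9 := Nat.pow_le_pow_right hy1 (by norm_num)
    calc 4 * v ≤ y ^ 9 * y := Nat.mul_le_mul h11 hvy
      _ = y * y ^ 9 := by ring
      _ ≤ n := h10
  have hz : pz (4 * (C + 10)) n = 4 * (C + 10) * n / v := rfl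
  set z0 := pz (4 * (C + 10)) n with hz0
  have h13 : 4 * (C + 10) * n < v * z0 + v := by
    rw [hz]
    have h14 := Nat.div_add_mod (4 * (C + 10) * n) v
    have h15 := Nat.mod_lt (4 * (C + 10) * n) (show 0 < v by omega)
    omega
  set N := z0 - S with hN
  have h16 : v * z0 ≤ v * N + v * S := by
    rw [← mul_add]
    exact Nat.mul_le_mul_left v (by omega)
  have h17 : v * N ≤ 2 * ((v - 2) * N) := by
    rw [← mul_assoc]
    exact Nat.mul_le_mul_right N (by omega)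
  have h18 : 4 * (C + 10) * n = 4 * (C * n) + 40 * n := by ring
  omega

end Vale.Agent.P160.Half.G.Num5x572

namespace Vale.Agent.P160.Half.G

/-- **N5** -/
theorem num5 : Num5 := by
  intro C J ρ hρ
  filter_upwards [eventually_ge_atTop (2 ^ (10 * (4 * (4 * (C + 12) + 2 * (J + 1) ^ 2) + 4)))]
    with n hn
  have hkey := Num5x572.key hρ hn
  have hv := Num5x572.pv_ge hn
  set v := pv n with hvd
  set N := pz (4 * (C + 10)) n - pa n * (pk C n + ρ) with hN
  have hv4 : 4 ≤ v := by omega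
  have hvpos : (0 : ℝ) < v := by
    have : 0 < v := by omega
    exact_mod_cast this
  have hpt : (pt n : ℝ) / v = ((2 : ℝ) ^ v) ^ 2 := by
    have h1 : pt n = v * (2 ^ v) ^ 2 := rfl
    rw [h1]
    push_cast
    field_simp
  have hq : max ((1 / 2) ^ v) (1 / (2 : ℝ) ^ v + 3 / 2 / Real.sqrt (pt n / v)) ≤
      (1 / 2) ^ (v - 2) := by
    have h2 : (2 : ℝ) ^ v = 2 ^ (v - 2) * 4 := by
      rw [show (4 : ℝ) = 2 ^ 2 by norm_num, ← pow_add]
      congr 1
      omega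
    have h3 : (0 : ℝ) < 2 ^ (v - 2) := by positivity
    rw [hpt, Real.sqrt_sq (by positivity)]
    refine max_le ?_ ?_
    · exact pow_le_pow_of_le_one (by norm_num) (by norm_num) (by omega)
    · rw [_root_.one_div_pow, h2]
      rw [← add_div, div_le_div_iff₀ (by positivity) h3]
      nlinarith
  have hq0 : (0 : ℝ) ≤ max ((1 / 2) ^ v) (1 / (2 : ℝ) ^ v + 3 / 2 / Real.sqrt (pt n / v)) :=
    le_max_of_le_left (by positivity)
  refine ⟨hq.trans (pow_le_one₀ (by norm_num) (by norm_num)), ?_⟩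
  have h4 : (max ((1 / 2) ^ v) (1 / (2 : ℝ) ^ v + 3 / 2 / Real.sqrt (pt n / v))) ^ N ≤
      (1 / 2) ^ ((v - 2) * N) := by
    rw [pow_mul]
    exact pow_le_pow_left₀ hq0 hq N
  have h5 : (py n : ℝ) = 2 ^ v := by
    have : py n = 2 ^ v := rfl
    rw [this]; push_cast; rfl
  have h6 : (2 : ℝ) ^ (-(C * n : ℝ)) = ((2 : ℝ) ^ (C * n))⁻¹ := by
    rw [Real.rpow_neg (by norm_num), ← Nat.cast_mul, Real.rpow_natCast]
  rw [h5, h6, show (4 : ℝ) ^ n = 2 ^ (2 * n) by rw [pow_mul]; norm_num]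
  calc (2 : ℝ) ^ v * 2 ^ (2 * n) *
        (max ((1 / 2) ^ v) (1 / (2 : ℝ) ^ v + 3 / 2 / Real.sqrt (pt n / v))) ^ N
      ≤ (2 : ℝ) ^ v * 2 ^ (2 * n) * (1 / 2) ^ ((v - 2) * N) :=
        mul_le_mul_of_nonneg_left h4 (by positivity)
    _ = (2 : ℝ) ^ (v + 2 * n) * ((2 : ℝ) ^ ((v - 2) * N))⁻¹ := by
        rw [_root_.one_div_pow, one_div, pow_add]
    _ ≤ ((2 : ℝ) ^ (C * n))⁻¹ := by
        rw [← div_eq_mul_inv, div_le_iff₀ (by positivity), inv_mul_eq_div,
          le_div_iff₀ (by positivity), ← pow_add]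
        exact pow_le_pow_right₀ (by norm_num) hkey

end Vale.Agent.P160.Half.G
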