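import Vale.Agent.P160.Half.GStmt4

/-! # P160, half rate: `Num6` (helper907, hedge of helper576) -/

open Finset Matrix Filter

namespace Vale.Agent.P160.Half.Num6907

open G

theorem pv_ge (K : ℕ) : ∀ᶠ n : ℕ in atTop, K ≤ pv n := by
  filter_upwards [eventually_ge_atTop (2 ^ (10 * K))] with n hn
  have hn0 : n ≠ 0 := by
    intro h
    rw [h] at hn
    have := Nat.two_pow_pos (10 * K)
    omega
  have h1 : 10 * K ≤ Nat.log 2 n := Nat.le_log_of_pow_le (by norm_num) hn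
  unfold pv
  omega

theorem pow_le (n : ℕ) (hn : 1 ≤ n) : 2 ^ (10 * pv n) ≤ n := by
  have h1 : 10 * pv n ≤ Nat.log 2 n := by unfold pv; omega
  exact Nat.pow_le_of_le_log (by omega) h1

theorem logb_le (n : ℕ) (hn : 1 ≤ n) : Real.logb 2 n ≤ 10 * (pv n : ℝ) + 10 := by
  have h1 : n < 2 ^ (Nat.log 2 n + 1) := Nat.lt_pow_succ_log_self (by norm_num) n
  have h2 : Nat.log 2 n + 1 ≤ 10 * pv n + 10 := by unfold pv; omega
  have h3 : (n : ℝ) ≤ 2 ^ (10 * pv n + 10) := by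
    have : n ≤ 2 ^ (10 * pv n + 10) := h1.le.trans (Nat.pow_le_pow_right (by norm_num) h2)
    exact_mod_cast this
  have h4 : Real.logb 2 n ≤ Real.logb 2 ((2 : ℝ) ^ (10 * pv n + 10)) := by
    apply Real.logb_le_logb_of_le (by norm_num) (by exact_mod_cast hn) h3
  rw [Real.logb_pow] at h4
  simp only [Real.logb_self_eq_one (show (1 : ℝ) < 2 by norm_num), mul_one] at h4
  push_cast at h4
  exact h4

theorem logb_fact_le (n : ℕ) (hn : 1 ≤ n) : Real.logb 2 n.factorial ≤ n * Real.logb 2 n := by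
  have h1 : (n.factorial : ℝ) ≤ (n : ℝ) ^ n := by exact_mod_cast Nat.factorial_le_pow n
  have h2 : (0 : ℝ) < n.factorial := by exact_mod_cast Nat.factorial_pos n
  have h3 : Real.logb 2 n.factorial ≤ Real.logb 2 ((n : ℝ) ^ n) :=
    Real.logb_le_logb_of_le (by norm_num) h2 h1
  rwa [Real.logb_pow] at h3

/-- the first part of the real inequality -/
theorem first (J C : ℝ) (hJ0 : 0 ≤ J) (hC0 : 0 ≤ C) (h : ℝ) (hh0 : 0 ≤ h) (hh : h * (10 ^ 6 * (C + 10) * (J + 2) ^ 4) ≤ 1) :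
    (J + 1) * (21 + 80 * J * (J + 2)) * (h * (4 * J * (C + 10))) ≤ 1 / 4 := by
  have f1 : J + 1 ≤ J + 2 := by linarith
  have f2 : 21 + 80 * J * (J + 2) ≤ 101 * (J + 2) ^ 2 := by nlinarith
  have f3 : 4 * J ≤ 4 * (J + 2) := by linarith
  have f4 : (J + 1) * (21 + 80 * J * (J + 2)) ≤ (J + 2) * (101 * (J + 2) ^ 2) :=
    mul_le_mul f1 f2 (by positivity) (by positivity)
  have e1 : (J + 1) * (21 + 80 * J * (J + 2)) * (4 * J) ≤ (J + 2) * (101 * (J + 2) ^ 2) * (4 * (J + 2)) :=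
    mul_le_mul f4 f3 (by positivity) (by positivity)
  have e3 : 0 ≤ h * (C + 10) := by positivity
  have e4 := mul_le_mul_of_nonneg_right e1 e3
  have e5 : (J + 1) * (21 + 80 * J * (J + 2)) * (h * (4 * J * (C + 10))) = (J + 1) * (21 + 80 * J * (J + 2)) * (4 * J) * (h * (C + 10)) := by ring
  have e6 : (J + 2) * (101 * (J + 2) ^ 2) * (4 * (J + 2)) * (h * (C + 10)) = 404 / 10 ^ 6 * (h * (10 ^ 6 * (C + 10) * (J + 2) ^ 4)) := by ring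
  rw [e5]
  refine e4.trans ?_
  rw [e6]
  linarith

/-- the real inequality -/
theorem core (J C ρ : ℕ) (hρ : ρ ≤ J) (n V ζ h Lf E : ℝ) (hn : 0 < n) (hV : 1 ≤ V) (hζ0 : 0 ≤ ζ) (hζ : ζ ≤ 4 * (C + 10) / V)
    (hh0 : 0 ≤ h) (hh : h * (10 ^ 6 * (C + 10) * (J + 2) ^ 4) ≤ 1) (hL : Lf ≤ n * (20 * V)) (hL0 : 0 ≤ Lf) (hE : E ≤ n) (hE0 : 0 ≤ E)
    (Ln : ℝ) (hLn0 : 0 ≤ Ln) (hLn : Ln ≤ 20 * V)
    (hVbig : 4 * (((J : ℝ) + 1) * (21 + 80 * J ^ 2 * (J + 2)) * (4 * J * (C + 10)) ^ 2) ≤ V) :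
    ((ρ : ℝ) + 1) * ((Lf + E) * (h * (ρ * ζ) + (ρ * ζ) ^ 2) + 2 * (ρ * (2 * (J + 2) * n * Ln)) * (h * (ρ * ζ) + ρ * (ρ * ζ) ^ 2)) ≤ n / 2 := by
  have hJ0 : (0 : ℝ) ≤ J := Nat.cast_nonneg _
  have hC0 : (0 : ℝ) ≤ C := Nat.cast_nonneg _
  have hρ0 : (0 : ℝ) ≤ ρ := Nat.cast_nonneg _
  have hρJ : (ρ : ℝ) ≤ J := by exact_mod_cast hρ
  have hV0 : 0 < V := by linarith
  set a : ℝ := 4 * J * (C + 10) with ha
  have ha0 : 0 ≤ a := by positivity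
  have hz : (ρ : ℝ) * ζ ≤ a / V := by
    calc (ρ : ℝ) * ζ ≤ J * (4 * (C + 10) / V) := mul_le_mul hρJ hζ hζ0 hJ0
      _ = a / V := by rw [ha]; ring
  have hz0 : 0 ≤ (ρ : ℝ) * ζ := mul_nonneg hρ0 hζ0
  have haV : 0 ≤ a / V := div_nonneg ha0 hV0.le
  have hsq : ((ρ : ℝ) * ζ) ^ 2 ≤ (a / V) ^ 2 := pow_le_pow_left₀ hz0 hz 2
  have h1 : h * (ρ * ζ) + (ρ * ζ) ^ 2 ≤ h * (a / V) + (a / V) ^ 2 := by
    have := mul_le_mul_of_nonneg_left hz hh0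
    linarith
  have h1' : 0 ≤ h * (ρ * ζ) + (ρ * ζ) ^ 2 := by positivity
  have h2 : h * (ρ * ζ) + ρ * (ρ * ζ) ^ 2 ≤ h * (a / V) + J * (a / V) ^ 2 := by
    have := mul_le_mul_of_nonneg_left hz hh0
    have h3 : (ρ : ℝ) * (ρ * ζ) ^ 2 ≤ J * (a / V) ^ 2 := mul_le_mul hρJ hsq (by positivity) hJ0
    linarith
  have h2' : 0 ≤ h * (ρ * ζ) + ρ * (ρ * ζ) ^ 2 := by positivity
  have h3 : Lf + E ≤ 21 * n * V := by
    have : n * 1 ≤ n * V := mul_le_mul_of_nonneg_left hV hn.le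
    linarith
  have h3' : 0 ≤ Lf + E := by linarith
  have h4 : 2 * ((ρ : ℝ) * (2 * (J + 2) * n * Ln)) ≤ 80 * J * (J + 2) * n * V := by
    have h5 : (ρ : ℝ) * (2 * (J + 2) * n * Ln) ≤ J * (2 * (J + 2) * n * (20 * V)) := by
      apply mul_le_mul hρJ _ (by positivity) hJ0
      apply mul_le_mul_of_nonneg_left hLn (by positivity)
    linarith
  have h4' : 0 ≤ 2 * ((ρ : ℝ) * (2 * (J + 2) * n * Ln)) := by positivity
  have h5 : (Lf + E) * (h * (ρ * ζ) + (ρ * ζ) ^ 2) ≤ (21 * n * V) * (h * (a / V) + (a / V) ^ 2) :=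
    mul_le_mul h3 h1 h1' (by positivity)
  have h6 : 2 * ((ρ : ℝ) * (2 * (J + 2) * n * Ln)) * (h * (ρ * ζ) + ρ * (ρ * ζ) ^ 2) ≤
      (80 * J * (J + 2) * n * V) * (h * (a / V) + J * (a / V) ^ 2) :=
    mul_le_mul h4 h2 h2' (by positivity)
  have h7 : (21 * n * V) * (h * (a / V) + (a / V) ^ 2) = n * (21 * (h * a) + 21 * a ^ 2 / V) := by
    field_simp
  have h8 : (80 * J * (J + 2) * n * V) * (h * (a / V) + J * (a / V) ^ 2) = n * (80 * J * (J + 2) * (h * a) + 80 * J ^ 2 * (J + 2) * a ^ 2 / V) := by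
    field_simp
  have h9 : ((ρ : ℝ) + 1) * ((Lf + E) * (h * (ρ * ζ) + (ρ * ζ) ^ 2) + 2 * (ρ * (2 * (J + 2) * n * Ln)) * (h * (ρ * ζ) + ρ * (ρ * ζ) ^ 2)) ≤
      ((J : ℝ) + 1) * (n * (21 * (h * a) + 21 * a ^ 2 / V) + n * (80 * J * (J + 2) * (h * a) + 80 * J ^ 2 * (J + 2) * a ^ 2 / V)) := by
    apply mul_le_mul (by linarith) _ (by positivity) (by positivity)
    rw [← h7, ← h8]
    exact add_le_add h5 h6
  refine h9.trans ?_
  -- first part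
  have hA : ((J : ℝ) + 1) * (21 + 80 * J * (J + 2)) * (h * a) ≤ 1 / 4 := by
    rw [ha]; exact first J C hJ0 hC0 h hh0 hh
  have hB : ((J : ℝ) + 1) * (21 + 80 * J ^ 2 * (J + 2)) * (a ^ 2 / V) ≤ 1 / 4 := by
    have : ((J : ℝ) + 1) * (21 + 80 * J ^ 2 * (J + 2)) * (a ^ 2 / V) = (((J : ℝ) + 1) * (21 + 80 * J ^ 2 * (J + 2)) * a ^ 2) / V := by ring
    rw [this, div_le_iff₀ hV0]
    linarith
  have hfin : ((J : ℝ) + 1) * (n * (21 * (h * a) + 21 * a ^ 2 / V) + n * (80 * J * (J + 2) * (h * a) + 80 * J ^ 2 * (J + 2) * a ^ 2 / V)) =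
      n * (((J : ℝ) + 1) * (21 + 80 * J * (J + 2)) * (h * a) + ((J : ℝ) + 1) * (21 + 80 * J ^ 2 * (J + 2)) * (a ^ 2 / V)) := by ring
  rw [hfin]
  have := mul_le_mul_of_nonneg_left (add_le_add hA hB) hn.le
  linarith

theorem num6 : Num6 := by
  intro C J s₁ hs ρ hρ
  filter_upwards [pv_ge (4 * ((J + 1) * (21 + 80 * J ^ 2 * (J + 2)) * (4 * J * (C + 10)) ^ 2) + 4 * J ^ 2 + 1), eventually_ge_atTop 1] with n hK hn
  have hnR : (0 : ℝ) < n := by exact_mod_cast hn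
  have hv1 : 1 ≤ pv n := by omega
  have hV : (1 : ℝ) ≤ (pv n : ℝ) := by exact_mod_cast hv1
  have hVbig : 4 * (((J : ℝ) + 1) * (21 + 80 * J ^ 2 * (J + 2)) * (4 * J * (C + 10)) ^ 2) ≤ (pv n : ℝ) := by
    have : 4 * ((J + 1) * (21 + 80 * J ^ 2 * (J + 2)) * (4 * J * (C + 10)) ^ 2) ≤ pv n := by omega
    exact_mod_cast this
  have hJv : 4 * J ^ 2 ≤ pv n := by omega
  have hlog := logb_le n hn
  have hlog0 : 0 ≤ Real.logb 2 n := Real.logb_nonneg (by norm_num) (by exact_mod_cast hn)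
  have hLn : Real.logb 2 n ≤ 20 * (pv n : ℝ) := by linarith
  have hfact := logb_fact_le n hn
  have hfact0 : 0 ≤ Real.logb 2 n.factorial := Real.logb_nonneg (by norm_num) (by exact_mod_cast Nat.factorial_pos n)
  have hLf : Real.logb 2 n.factorial ≤ n * (20 * (pv n : ℝ)) := hfact.trans (mul_le_mul_of_nonneg_left hLn hnR.le)
  -- the small term
  have hpy1 : (1 : ℝ) ≤ (py n : ℝ) := by
    unfold py; exact_mod_cast Nat.one_le_two_pow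
  have hlogpy : Real.logb 2 ((py n : ℝ) + 1) ≤ 2 * (pv n : ℝ) := by
    have e1 : (py n : ℝ) + 1 ≤ 2 ^ (pv n + 1) := by
      unfold py at hpy1 ⊢
      push_cast at hpy1 ⊢
      rw [pow_succ]; linarith
    have e2 : Real.logb 2 ((py n : ℝ) + 1) ≤ Real.logb 2 ((2 : ℝ) ^ (pv n + 1)) :=
      Real.logb_le_logb_of_le (by norm_num) (by linarith) e1
    rw [Real.logb_pow] at e2
    simp only [Real.logb_self_eq_one (show (1 : ℝ) < 2 by norm_num), mul_one] at e2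
    push_cast at e2
    linarith
  have hlogpy0 : 0 ≤ Real.logb 2 ((py n : ℝ) + 1) := Real.logb_nonneg (by norm_num) (by linarith)
  have hE0 : 0 ≤ 2 * (ρ : ℝ) * (ρ * pa n) * py n * Real.logb 2 (py n + 1) := by positivity
  have hE : 2 * (ρ : ℝ) * (ρ * pa n) * py n * Real.logb 2 (py n + 1) ≤ n := by
    have e1 : 4 * J ^ 2 * pv n * py n ^ 4 ≤ n := by
      have f1 : pv n < 2 ^ pv n := Nat.lt_two_pow_self
      have f2 : 4 * J ^ 2 * pv n ≤ 2 ^ pv n * 2 ^ pv n := Nat.mul_le_mul (hJv.trans f1.le) f1.le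
      calc 4 * J ^ 2 * pv n * py n ^ 4 ≤ (2 ^ pv n * 2 ^ pv n) * py n ^ 4 := Nat.mul_le_mul_right _ f2
        _ = 2 ^ (6 * pv n) := by unfold py; rw [← pow_mul, ← pow_add, ← pow_add]; congr 1; ring
        _ ≤ 2 ^ (10 * pv n) := Nat.pow_le_pow_right (by norm_num) (by omega)
        _ ≤ n := pow_le n hn
    have e2 : (4 * (J : ℝ) ^ 2 * pv n * py n ^ 4) ≤ n := by exact_mod_cast e1
    have hρJ : (ρ : ℝ) ≤ J := by exact_mod_cast hρ
    have hρ0 : (0 : ℝ) ≤ ρ := Nat.cast_nonneg _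
    have e3 : (ρ : ℝ) ^ 2 ≤ (J : ℝ) ^ 2 := pow_le_pow_left₀ hρ0 hρJ 2
    calc 2 * (ρ : ℝ) * (ρ * pa n) * py n * Real.logb 2 (py n + 1)
        = 2 * (ρ : ℝ) ^ 2 * (py n : ℝ) ^ 4 * Real.logb 2 (py n + 1) := by unfold pa; push_cast; ring
      _ ≤ 2 * (J : ℝ) ^ 2 * (py n : ℝ) ^ 4 * (2 * pv n) := by
          apply mul_le_mul _ hlogpy hlogpy0 (by positivity)
          apply mul_le_mul_of_nonneg_right _ (by positivity)
          linarith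
      _ = 4 * (J : ℝ) ^ 2 * pv n * py n ^ 4 := by ring
      _ ≤ n := e2
  -- ζ
  have hζ0 : (0 : ℝ) ≤ (pz (4 * (C + 10)) n : ℝ) / n := by positivity
  have hζ : (pz (4 * (C + 10)) n : ℝ) / n ≤ 4 * ((C : ℝ) + 10) / (pv n : ℝ) := by
    have e1 : (pz (4 * (C + 10)) n : ℝ) ≤ ((4 * (C + 10) * n : ℕ) : ℝ) / (pv n : ℝ) := by
      unfold pz; exact Nat.cast_div_le
    rw [div_le_iff₀ hnR]
    refine e1.trans (le_of_eq ?_)
    push_cast; ring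
  have hh0 : (0 : ℝ) ≤ (1 / 2) ^ s₁ := by positivity
  have hh : ((1 : ℝ) / 2) ^ s₁ * (10 ^ 6 * (C + 10) * (J + 2) ^ 4) ≤ 1 := by
    have e1 : (10 ^ 6 * ((C : ℝ) + 10) * (J + 2) ^ 4) ≤ 2 ^ s₁ := by exact_mod_cast hs
    calc ((1 : ℝ) / 2) ^ s₁ * (10 ^ 6 * (C + 10) * (J + 2) ^ 4) ≤ (1 / 2) ^ s₁ * 2 ^ s₁ := mul_le_mul_of_nonneg_left e1 hh0
      _ = 1 := by rw [← mul_pow]; norm_num
  have key := core J C ρ hρ n (pv n) ((pz (4 * (C + 10)) n : ℝ) / n) ((1 / 2) ^ s₁) (Real.logb 2 n.factorial)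
    (2 * (ρ : ℝ) * (ρ * pa n) * py n * Real.logb 2 (py n + 1)) hnR hV hζ0 hζ hh0 hh hLf hfact0 hE hE0 (Real.logb 2 n) hlog0 hLn hVbig
  refine le_trans (le_of_eq ?_) key
  ring

end Vale.Agent.P160.Half.Num6907
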