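import Vale.Agent.P160.Half.GStmt4

/-! # P160, half rate: numbers for gap (G) (helper868): `Num7` -/

set_option linter.all false

open Finset Filter

namespace Vale.Agent.P160.Half.G.N868

theorem pv_tendsto : Tendsto pv atTop atTop := by
  refine tendsto_atTop.2 fun b => ?_
  filter_upwards [eventually_ge_atTop (2 ^ (10 * b))] with n hn
  unfold pv
  have h1 : 10 * b ≤ Nat.log 2 n := by
    have := Nat.log_mono_right (b := 2) hn
    rwa [Nat.log_pow (by norm_num)] at this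
  omega

theorem py_pow_le {n : ℕ} (hn : n ≠ 0) : py n ^ 10 ≤ n := by
  unfold py pv
  rw [← pow_mul]
  refine le_trans (Nat.pow_le_pow_right (by norm_num) ?_) (Nat.pow_log_le_self 2 hn)
  omega

theorem lt_py_pow (n : ℕ) : n < 1024 * py n ^ 10 := by
  unfold py pv
  rw [← pow_mul, show (1024 : ℕ) = 2 ^ 10 by norm_num, ← pow_add]
  refine lt_of_lt_of_le (Nat.lt_pow_succ_log_self (b := 2) (by norm_num) n) ?_
  exact Nat.pow_le_pow_right (by norm_num) (by omega)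

theorem py_pos (n : ℕ) : 1 ≤ py n := Nat.one_le_two_pow

theorem logb_py (n : ℕ) : Real.logb 2 (py n) = pv n := by
  unfold py
  push_cast
  rw [Real.logb_pow, Real.logb_self_eq_one (by norm_num)]
  simp

theorem logb_le (n : ℕ) (hn : n ≠ 0) : Real.logb 2 n ≤ 10 * pv n + 10 := by
  have h1 : (n : ℝ) ≤ 2 ^ (10 * pv n + 10) := by
    have := (lt_py_pow n).le
    unfold py at this
    have h2 : (n : ℝ) ≤ ((1024 * (2 ^ pv n) ^ 10 : ℕ) : ℝ) := by exact_mod_cast this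
    refine h2.trans (le_of_eq ?_)
    push_cast
    rw [← pow_mul, pow_add]
    ring
  have h3 : Real.logb 2 n ≤ Real.logb 2 (2 ^ (10 * pv n + 10)) :=
    Real.logb_le_logb_of_le (by norm_num) (by exact_mod_cast Nat.pos_of_ne_zero hn) h1
  rw [Real.logb_pow, Real.logb_self_eq_one (by norm_num)] at h3
  push_cast at h3
  linarith

theorem pk_le (C n : ℕ) : pk C n ≤ 2048 * (C + 12) * py n ^ 5 + 1 := by
  unfold pk
  have h0 : 2 * (C + 12) * n ≤ (2048 * (C + 12) * py n ^ 5) * (2048 * (C + 12) * py n ^ 5) := by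
    have h := (lt_py_pow n).le
    calc 2 * (C + 12) * n ≤ 2 * (C + 12) * (1024 * py n ^ 10) := Nat.mul_le_mul_left _ h
      _ = (2048 * (C + 12) * py n ^ 5) * (1 * py n ^ 5) := by ring
      _ ≤ _ := Nat.mul_le_mul_left _ (Nat.mul_le_mul_right _ (by nlinarith))
  have h1 : Nat.sqrt (2 * (C + 12) * n) ≤ 2048 * (C + 12) * py n ^ 5 := by
    have := Nat.sqrt_le_sqrt h0
    rwa [Nat.sqrt_eq] at this
  omega

theorem logb_factorial_le {n : ℕ} : Real.logb 2 (n.factorial : ℝ) ≤ n * Real.logb 2 n := by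
  have h1 : ((n.factorial : ℕ) : ℝ) ≤ ((n ^ n : ℕ) : ℝ) := by exact_mod_cast Nat.factorial_le_pow n
  have h2 := Real.logb_le_logb_of_le (b := 2) (by norm_num) (by exact_mod_cast n.factorial_pos) h1
  push_cast at h2
  rwa [Real.logb_pow] at h2

theorem logb_nat_nonneg (n : ℕ) : 0 ≤ Real.logb 2 (n : ℝ) := by
  rcases Nat.eq_zero_or_pos n with h | h
  · subst h; simp
  · exact Real.logb_nonneg (by norm_num) (by exact_mod_cast h)

/-- eventually `K v ≤ y` -/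
theorem ev_lin (K : ℕ) : ∀ᶠ n : ℕ in atTop, K * pv n ≤ py n := by
  have h : ∀ᶠ v : ℕ in atTop, K * v ≤ 2 ^ v := by
    have h1 : Tendsto (fun v : ℕ => (v : ℝ) ^ 1 / (2 : ℝ) ^ v) atTop (nhds 0) :=
      tendsto_pow_const_div_const_pow_of_one_lt 1 (by norm_num)
    have h2 := h1.eventually_le_const (show (0 : ℝ) < 1 / (K + 1) by positivity)
    filter_upwards [h2] with v hv
    rw [pow_one, div_le_div_iff₀ (by positivity) (by positivity)] at hv
    have : ((K * v : ℕ) : ℝ) ≤ ((2 ^ v : ℕ) : ℝ) := by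
      push_cast
      nlinarith [show (0 : ℝ) ≤ v from Nat.cast_nonneg v]
    exact_mod_cast this
  exact pv_tendsto.eventually h

theorem ev_pv (K : ℕ) : ∀ᶠ n : ℕ in atTop, K ≤ pv n := pv_tendsto.eventually_ge_atTop K

theorem logb_ge_one {n : ℕ} (hn : 2 ≤ n) : 1 ≤ Real.logb 2 (n : ℝ) := by
  have := Real.logb_le_logb_of_le (b := 2) (by norm_num) (by norm_num : (0 : ℝ) < 2)
    (show (2 : ℝ) ≤ n by exact_mod_cast hn)
  rwa [Real.logb_self_eq_one (by norm_num)] at this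

theorem part1 (J A ρ : ℕ) (hρ : ρ ≤ J) : ∀ᶠ n : ℕ in atTop,
    Real.logb 2 (((ρ + 1).factorial * ((ρ + 1) * (n * n.factorial * n ^ A)) ^ (ρ + 1) : ℕ) : ℝ) ≤
      2 * (J + 2) * n * Real.logb 2 n := by
  obtain ⟨K, hK⟩ := exists_nat_ge (Real.logb 2 ((ρ + 1).factorial : ℝ) +
    (ρ + 1) * (Real.logb 2 ((ρ + 1 : ℕ) : ℝ) + A + 1))
  filter_upwards [eventually_ge_atTop 2, eventually_ge_atTop K] with n h2 hKn
  have hn0 : n ≠ 0 := by omega
  have hL := logb_ge_one h2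
  have hf := logb_factorial_le (n := n)
  set L := Real.logb 2 (n : ℝ) with hLdef
  have hnr : (n : ℝ) ≠ 0 := by exact_mod_cast hn0
  have hfr : (n.factorial : ℝ) ≠ 0 := by exact_mod_cast n.factorial_ne_zero
  have e1 : Real.logb 2 (((ρ + 1).factorial * ((ρ + 1) * (n * n.factorial * n ^ A)) ^ (ρ + 1) : ℕ) : ℝ) =
      Real.logb 2 ((ρ + 1).factorial : ℝ) + (ρ + 1) * (Real.logb 2 ((ρ + 1 : ℕ) : ℝ) +
        (L + Real.logb 2 (n.factorial : ℝ) + A * L)) := by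
    have a1 : ((ρ : ℝ) + 1) ≠ 0 := by positivity
    push_cast
    rw [Real.logb_mul (by positivity) (by positivity), Real.logb_pow, Real.logb_mul a1 (by positivity),
      Real.logb_mul (by positivity) (by positivity), Real.logb_mul hnr hfr, Real.logb_pow]
    push_cast
    ring
  rw [e1]
  have hKn' : (K : ℝ) ≤ n := by exact_mod_cast hKn
  have g0 := logb_nat_nonneg (ρ + 1).factorial
  have g1 := logb_nat_nonneg (ρ + 1)
  have hρr : (ρ : ℝ) ≤ J := by exact_mod_cast hρ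
  have hA : (0 : ℝ) ≤ A := Nat.cast_nonneg A
  have hρ0 : (0 : ℝ) ≤ ρ := Nat.cast_nonneg ρ
  have hn1 : (1 : ℝ) ≤ n := by exact_mod_cast (by omega : 1 ≤ n)
  set F := Real.logb 2 ((ρ + 1).factorial : ℝ)
  set G := Real.logb 2 ((ρ + 1 : ℕ) : ℝ)
  have s1 : F + (ρ + 1) * (G + (L + Real.logb 2 (n.factorial : ℝ) + A * L)) ≤
      (F + (ρ + 1) * (G + A + 1)) * L + (ρ + 1) * (n * L) := by
    have t1 : F ≤ F * L := le_mul_of_one_le_right g0 hL
    have t2 : G ≤ G * L := le_mul_of_one_le_right g1 hL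
    nlinarith [mul_le_mul_of_nonneg_left t2 (by positivity : (0 : ℝ) ≤ ρ + 1),
      mul_le_mul_of_nonneg_left hf (by positivity : (0 : ℝ) ≤ ρ + 1)]
  refine s1.trans ?_
  have s2 : (F + (ρ + 1) * (G + A + 1)) * L ≤ n * L :=
    mul_le_mul_of_nonneg_right (hK.trans hKn') (by linarith)
  have s3 : ((ρ : ℝ) + 1) * (n * L) ≤ (J + 1) * (n * L) :=
    mul_le_mul_of_nonneg_right (by linarith) (by positivity)
  have s4 : 0 ≤ ((J : ℝ) + 2) * (n * L) := by positivity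
  nlinarith

theorem part2 (J A ρ : ℕ) (hρ : ρ ≤ J) : ∀ᶠ n : ℕ in atTop,
    Real.logb 2 (n.factorial * (ρ.factorial * ((n : ℝ) ^ (A : ℝ)) ^ ρ) ^ 2) ≤ 2 * n * Real.logb 2 n := by
  obtain ⟨K, hK⟩ := exists_nat_ge (2 * (Real.logb 2 (ρ.factorial : ℝ) + ρ * A))
  filter_upwards [eventually_ge_atTop 2, eventually_ge_atTop K] with n h2 hKn
  have hn0 : n ≠ 0 := by omega
  have hL := logb_ge_one h2
  have hf := logb_factorial_le (n := n)
  set L := Real.logb 2 (n : ℝ) with hLdef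
  have hnr : (n : ℝ) ≠ 0 := by exact_mod_cast hn0
  have hnp : (0 : ℝ) < n := by exact_mod_cast (by omega : 0 < n)
  have hfr : (n.factorial : ℝ) ≠ 0 := by exact_mod_cast n.factorial_ne_zero
  have hfr' : (ρ.factorial : ℝ) ≠ 0 := by exact_mod_cast ρ.factorial_ne_zero
  have e1 : Real.logb 2 (n.factorial * (ρ.factorial * ((n : ℝ) ^ (A : ℝ)) ^ ρ) ^ 2) =
      Real.logb 2 (n.factorial : ℝ) + 2 * (Real.logb 2 (ρ.factorial : ℝ) + ρ * (A * L)) := by
    rw [Real.rpow_natCast, Real.logb_mul hfr (by positivity), Real.logb_pow, Real.logb_mul hfr' (by positivity),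
      Real.logb_pow, Real.logb_pow]
    push_cast
    ring
  rw [e1]
  have hKn' : (K : ℝ) ≤ n := by exact_mod_cast hKn
  have g0 := logb_nat_nonneg ρ.factorial
  set F := Real.logb 2 (ρ.factorial : ℝ)
  have t1 : F ≤ F * L := le_mul_of_one_le_right g0 hL
  have s2 : (2 * (F + ρ * A)) * L ≤ n * L :=
    mul_le_mul_of_nonneg_right (hK.trans hKn') (by linarith)
  nlinarith

theorem core3 (n L v Y c J ρ K a k lg : ℝ) (hn : 4 ≤ n) (hL1 : 1 ≤ L) (hL : L ≤ 10 * v + 10) (hv : 10 ≤ v)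
    (hlg : lg ≤ 3 * (10 * v + 10)) (hY : 1 ≤ Y) (hY10 : Y ^ 10 ≤ n) (ha : a = Y ^ 3) (hk0 : 0 ≤ k)
    (hk : k ≤ (c + 1 + J) * Y ^ 5) (hKv : K * v ≤ Y) (hK : K = 124 + 2 * J ^ 2 * (c + 1 + J)) (hρ0 : 0 ≤ ρ)
    (hρ : ρ ≤ J) (hc : 0 ≤ c) :
    n + 6 * (2 * n * L) / v + Y * (4 + 2 * lg + 2 * ρ * (ρ * a) * k * v) ≤ 200 * n := by
  have s1 : 6 * (2 * n * L) / v ≤ 132 * n := by
    rw [div_le_iff₀ (by linarith)]
    nlinarith
  have hJ : 0 ≤ J := hρ0.trans hρ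
  have s3 : 2 * ρ * (ρ * a) * k * v ≤ 2 * J ^ 2 * (c + 1 + J) * (Y ^ 8 * v) := by
    rw [ha]
    calc 2 * ρ * (ρ * Y ^ 3) * k * v
        = 2 * ρ ^ 2 * Y ^ 3 * k * v := by ring
      _ ≤ 2 * J ^ 2 * Y ^ 3 * ((c + 1 + J) * Y ^ 5) * v := by
          have : 0 ≤ v := by linarith
          gcongr
      _ = _ := by ring
  have s4 : 4 + 2 * lg ≤ 124 * (Y ^ 8 * v) := by
    have h1 : (1 : ℝ) ≤ Y ^ 8 := one_le_pow₀ hY
    have h2 : v ≤ Y ^ 8 * v := le_mul_of_one_le_left (by linarith) h1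
    nlinarith
  have s5 : Y * (4 + 2 * lg + 2 * ρ * (ρ * a) * k * v) ≤ n := by
    calc Y * (4 + 2 * lg + 2 * ρ * (ρ * a) * k * v)
        ≤ Y * (124 * (Y ^ 8 * v) + 2 * J ^ 2 * (c + 1 + J) * (Y ^ 8 * v)) := by
          apply mul_le_mul_of_nonneg_left _ (by linarith)
          linarith
      _ = Y ^ 9 * (K * v) := by
          rw [hK]; ring
      _ ≤ Y ^ 9 * Y := mul_le_mul_of_nonneg_left hKv (by positivity)
      _ = Y ^ 10 := by ring
      _ ≤ n := hY10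
  linarith

theorem logb_le_self (n : ℕ) (hn : 1 ≤ n) : Real.logb 2 (n : ℝ) ≤ n := by
  have h1 : (n : ℝ) ≤ 2 ^ n := by exact_mod_cast (Nat.lt_two_pow_self (n := n)).le
  have h2 := Real.logb_le_logb_of_le (b := 2) (by norm_num) (by exact_mod_cast hn : (0 : ℝ) < n) h1
  rw [Real.logb_pow, Real.logb_self_eq_one (by norm_num)] at h2
  linarith

theorem log_term (n L : ℝ) (hn : 4 ≤ n) (hL1 : 1 ≤ L) (hL : L ≤ n) :
    Real.logb 2 (2 * n * L + 1) ≤ 3 * Real.logb 2 n := by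
  have h0 : 2 * n * L ≤ 2 * n * n := mul_le_mul_of_nonneg_left hL (by linarith)
  have h1 : 2 * n * L + 1 ≤ n ^ 3 := by nlinarith [sq_nonneg (n - 4), mul_nonneg (by linarith : 0 ≤ n) (by linarith : 0 ≤ n - 4), mul_nonneg (mul_nonneg (by linarith : 0 ≤ n) (by linarith : 0 ≤ n)) (by linarith : 0 ≤ n - 4)]
  have h2 := Real.logb_le_logb_of_le (b := 2) (by norm_num) (by positivity : (0 : ℝ) < 2 * n * L + 1) h1
  rw [Real.logb_pow] at h2
  exact_mod_cast h2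

theorem part3 (C J ρ : ℕ) (hρ : ρ ≤ J) : ∀ᶠ n : ℕ in atTop,
    (n : ℝ) + 6 * (2 * n * Real.logb 2 n) / Real.logb 2 (py n) + py n * (4 + 2 * Real.logb 2 (2 * n * Real.logb 2 n + 1) +
      2 * ρ * (ρ * pa n) * (pk C n + ρ : ℕ) * Real.logb 2 (py n)) ≤ 200 * n := by
  obtain ⟨c, hc⟩ : ∃ c : ℕ, c = 2048 * (C + 12) := ⟨_, rfl⟩
  obtain ⟨K, hKdef⟩ : ∃ K : ℕ, K = 124 + 2 * J ^ 2 * (c + 1 + J) := ⟨_, rfl⟩
  filter_upwards [eventually_ge_atTop 4, ev_pv 10, ev_lin K] with n h4 hv hK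
  have hn0 : n ≠ 0 := by omega
  have hL1 := logb_ge_one (show 2 ≤ n by omega)
  have hLle := logb_le n hn0
  have hLn := logb_le_self n (by omega)
  have hn4 : (4 : ℝ) ≤ (n : ℝ) := by exact_mod_cast h4
  have hlg := log_term n _ hn4 hL1 hLn
  rw [logb_py]
  have hv' : (10 : ℝ) ≤ (pv n : ℝ) := by exact_mod_cast hv
  have hY1 : (1 : ℝ) ≤ (py n : ℝ) := by exact_mod_cast py_pos n
  have hY10 : (py n : ℝ) ^ 10 ≤ n := by exact_mod_cast py_pow_le hn0
  have hpa : (pa n : ℝ) = (py n : ℝ) ^ 3 := by unfold pa; push_cast; rfl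
  have hpk : ((pk C n + ρ : ℕ) : ℝ) ≤ (c + 1 + J) * (py n : ℝ) ^ 5 := by
    have h1 := pk_le C n
    rw [← hc] at h1
    have h2 : ((pk C n + ρ : ℕ) : ℝ) ≤ ((c * py n ^ 5 + 1 + J : ℕ) : ℝ) :=
      Nat.cast_le.2 (by omega)
    refine h2.trans ?_
    push_cast
    have h3 : (1 : ℝ) ≤ (py n : ℝ) ^ 5 := one_le_pow₀ hY1
    nlinarith [show (0 : ℝ) ≤ (J : ℝ) from Nat.cast_nonneg J]
  have hKr : (K : ℝ) * (pv n : ℝ) ≤ (py n : ℝ) := by exact_mod_cast hK
  exact core3 n _ (pv n) (py n) c J ρ K (pa n) _ _ hn4 hL1 hLle hv' (hlg.trans (by linarith)) hY1 hY10 hpa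
    (Nat.cast_nonneg _) hpk hKr (by rw [hKdef]; push_cast; ring) (Nat.cast_nonneg _) (by exact_mod_cast hρ)
    (Nat.cast_nonneg _)

theorem num7h : Num7 := by
  intro C J A ρ hρ
  filter_upwards [part1 J A ρ hρ, part2 J A ρ hρ, part3 C J ρ hρ] with n h1 h2 h3
  exact ⟨h1, h2, h3⟩

end Vale.Agent.P160.Half.G.N868
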