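import Vale.Agent.P160.Half.GStmt4

/-! # P160, half rate: numbers N8 (helper574) -/

open Filter

namespace Vale.Agent.P160.Half.G.N574

theorem num8 : Num8 := by
  intro M hM
  have hMr : (1 : ℝ) ≤ M := by exact_mod_cast hM
  have hK : (0 : ℝ) < 10 ^ 6 * 20 * 256 * (M : ℝ) ^ 5 := by positivity
  have ht := (tendsto_pow_const_div_const_pow_of_one_lt 10 (one_lt_two (α := ℝ))).comp (tendsto_add_atTop_nat 1)
  have he := ht.eventually_le_const (show (0 : ℝ) < 1 / (2 * (10 ^ 6 * 20 * 256 * (M : ℝ) ^ 5)) by positivity)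
  obtain ⟨q₀, hq⟩ := eventually_atTop.1 he
  refine ⟨max (q₀ ^ 2) (max 1 (96 ^ 4 * 5 * M)), fun l hl => ⟨Nat.sqrt l, ?_, ?_⟩⟩
  · have hl1 : 1 ≤ l := le_trans (le_trans (le_max_left _ _) (le_max_right _ _)) hl
    have hl2 : 96 ^ 4 * 5 * M ≤ l := le_trans (le_trans (le_max_right _ _) (le_max_right _ _)) hl
    have hl1r : (1 : ℝ) ≤ l := by exact_mod_cast hl1
    have hl2r : (96 : ℝ) ^ 4 * (5 * M) ≤ l := by
      have : ((96 ^ 4 * 5 * M : ℕ) : ℝ) ≤ l := by exact_mod_cast hl2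
      push_cast at this
      linarith
    set x : ℝ := 4 * l * M + 1 with hx
    have hx1 : 1 ≤ x := by rw [hx]; nlinarith
    have hx5 : x ≤ 5 * M * l := by rw [hx]; nlinarith
    have hlog : Real.log x ≤ x ^ (1 / 4 : ℝ) / (1 / 4) := Real.log_le_rpow_div (by linarith) (by norm_num)
    have hlb : Real.logb 2 x ≤ 6 * x ^ (1 / 4 : ℝ) := by
      rw [Real.logb, div_le_iff₀ (Real.log_pos one_lt_two)]
      have h2 := Real.log_two_gt_d9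
      have hp : 0 ≤ x ^ (1 / 4 : ℝ) := Real.rpow_nonneg (by linarith) _
      nlinarith
    have hx6 : x ^ (1 / 4 : ℝ) ≤ (5 * M : ℝ) ^ (1 / 4 : ℝ) * (l : ℝ) ^ (1 / 4 : ℝ) := by
      rw [← Real.mul_rpow (by positivity) (by positivity)]
      exact Real.rpow_le_rpow (by linarith) hx5 (by norm_num)
    have hl4 : 96 * (5 * M : ℝ) ^ (1 / 4 : ℝ) ≤ (l : ℝ) ^ (1 / 4 : ℝ) := by
      have h96 : (96 : ℝ) = ((96 : ℝ) ^ (4 : ℕ)) ^ (1 / 4 : ℝ) := by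
        rw [← Real.rpow_natCast, ← Real.rpow_mul (by norm_num)]
        norm_num
      calc 96 * (5 * M : ℝ) ^ (1 / 4 : ℝ) = ((96 : ℝ) ^ (4 : ℕ)) ^ (1 / 4 : ℝ) * (5 * M : ℝ) ^ (1 / 4 : ℝ) := by rw [← h96]
        _ = ((96 : ℝ) ^ (4 : ℕ) * (5 * M)) ^ (1 / 4 : ℝ) := by
          rw [Real.mul_rpow (x := (96 : ℝ) ^ (4 : ℕ)) (y := 5 * M) (by positivity) (by positivity)]
        _ ≤ _ := Real.rpow_le_rpow (by positivity) hl2r (by norm_num)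
    have hsq : ((Nat.sqrt l : ℕ) : ℝ) ≤ (l : ℝ) ^ (1 / 2 : ℝ) := by
      rw [← Real.sqrt_eq_rpow]
      exact Real.nat_sqrt_le_real_sqrt
    have hhalf : (l : ℝ) ^ (1 / 4 : ℝ) * (l : ℝ) ^ (1 / 4 : ℝ) = (l : ℝ) ^ (1 / 2 : ℝ) := by
      rw [← Real.rpow_add (by linarith)]; norm_num
    have hone : (l : ℝ) ^ (1 / 2 : ℝ) * (l : ℝ) ^ (1 / 2 : ℝ) = l := by
      rw [← Real.rpow_add (by linarith)]; norm_num
    have hp4 : 0 ≤ (l : ℝ) ^ (1 / 4 : ℝ) := by positivity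
    have hp2 : 0 ≤ (l : ℝ) ^ (1 / 2 : ℝ) := by positivity
    have hb : Real.logb 2 x ≤ (l : ℝ) ^ (1 / 2 : ℝ) / 16 := by
      calc Real.logb 2 x ≤ 6 * x ^ (1 / 4 : ℝ) := hlb
        _ ≤ 6 * ((5 * M : ℝ) ^ (1 / 4 : ℝ) * (l : ℝ) ^ (1 / 4 : ℝ)) := by linarith
        _ ≤ 6 * ((l : ℝ) ^ (1 / 4 : ℝ) / 96 * (l : ℝ) ^ (1 / 4 : ℝ)) := by
          apply mul_le_mul_of_nonneg_left _ (by norm_num)
          apply mul_le_mul_of_nonneg_right _ hp4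
          linarith
        _ = (l : ℝ) ^ (1 / 2 : ℝ) / 16 := by rw [← hhalf]; ring
    have hb0 : 0 ≤ Real.logb 2 x := Real.logb_nonneg one_lt_two hx1
    calc ((Nat.sqrt l : ℕ) : ℝ) * Real.logb 2 x ≤ (l : ℝ) ^ (1 / 2 : ℝ) * ((l : ℝ) ^ (1 / 2 : ℝ) / 16) :=
          mul_le_mul hsq hb hb0 hp2
      _ = l / 16 := by rw [← mul_div_assoc, hone]
  · set q := Nat.sqrt l with hqd
    have hq0 : q₀ ≤ q := by
      rw [hqd, Nat.le_sqrt']
      exact le_trans (le_max_left _ _) hl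
    have h := hq q hq0
    have hll : l ≤ (q + 1) ^ 2 := le_of_lt (by rw [hqd]; exact Nat.lt_succ_sqrt' l)
    have hq1 : (1 : ℝ) ≤ ((q + 1 : ℕ) : ℝ) := by
      exact_mod_cast Nat.le_add_left 1 q
    have hsq1 : (1 : ℝ) ≤ ((q + 1 : ℕ) : ℝ) ^ 2 := by nlinarith
    have hllr : (l : ℝ) ≤ ((q + 1 : ℕ) : ℝ) ^ 2 := by exact_mod_cast hll
    simp only [Function.comp] at h
    rw [div_le_div_iff₀ (by positivity) (by positivity), one_mul] at h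
    have hpow : ((2 : ℝ)) ^ (q + 1) = 2 * 2 ^ q := by rw [pow_succ]; ring
    rw [hpow] at h
    have hfin : (10 : ℝ) ^ 6 * (10 * l * M + 10) * (2 * l * M + 2) ^ 4 ≤ 2 ^ q := by
      set w : ℝ := ((q + 1 : ℕ) : ℝ) with hw
      have hMw : (1 : ℝ) ≤ M * w ^ 2 := by nlinarith
      have hlM : (l : ℝ) * M ≤ M * w ^ 2 := by nlinarith
      have hlM0 : (0 : ℝ) ≤ (l : ℝ) * M := by positivity
      have e1 : (10 * (l : ℝ) * M + 10) ≤ 20 * (M * w ^ 2) := by nlinarith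
      have e2 : (2 * (l : ℝ) * M + 2) ≤ 4 * (M * w ^ 2) := by nlinarith
      have e3 : (2 * (l : ℝ) * M + 2) ^ 4 ≤ (4 * (M * w ^ 2)) ^ 4 := pow_le_pow_left₀ (by nlinarith) e2 4
      calc (10 : ℝ) ^ 6 * (10 * l * M + 10) * (2 * l * M + 2) ^ 4
          ≤ 10 ^ 6 * (20 * (M * w ^ 2)) * (4 * (M * w ^ 2)) ^ 4 := by
            apply mul_le_mul _ e3 (by positivity) (by positivity)
            exact mul_le_mul_of_nonneg_left e1 (by norm_num)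
        _ = 10 ^ 6 * 20 * 256 * (M : ℝ) ^ 5 * w ^ 10 := by ring
        _ ≤ 2 ^ q := by linarith
    exact_mod_cast hfin

end Vale.Agent.P160.Half.G.N574
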