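import Vale.Agent.P160.Half.RCfin133

/-! # P160, half rate, (RC) real conditioning -/

namespace Vale.Agent.P160.Half.G

theorem rc : RCStmt := RCG.rc_of RCp.rcProb

end Vale.Agent.P160.Half.G
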