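import Vale.Agent.P160.Half.Rel837

/-! # P160, half rate: `rel : RelStmt` -/

set_option linter.unusedVariables false
set_option linter.unusedSectionVars false

open Finset Matrix

namespace Vale.Agent.P160.Half.G.Rel837

open A Labels

variable {n : ℕ} {β : Type*} [Fintype β] [DecidableEq β]
variable {P : Matrix (Fin n) (Fin n) ℤ} {F : Matrix (Fin n) β ℤ} {gr : Matrix β β ℤ}

theorem gcomb (hP : P.det ≠ 0) (d : β → ℤ) :
    PQ P *ᵥ (∑ i, (d i : ℚ) • gF P F i) = fun j => (((F *ᵥ d) j : ℤ) : ℚ) := by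
  rw [mulVec_sum]
  funext j
  rw [Finset.sum_apply]
  have h : ∀ i, (PQ P *ᵥ ((d i : ℚ) • gF P F i)) j = (d i : ℚ) * F j i := by
    intro i
    rw [mulVec_smul, Pi.smul_apply, smul_eq_mul]
    have := congrFun (Geo.PQ_dual P hP (fun j => F j i)) j
    have h2 : (PQ P *ᵥ gF P F i) j = (F j i : ℚ) := this
    rw [h2]
  simp_rw [h]
  rw [mulVec, dotProduct]
  push_cast
  exact Finset.sum_congr rfl fun i _ => mul_comm _ _

/-- `∑ c_i e_(R i)` -/
noncomputable def ec (R : β → Fin n) (c : β → ℤ) : Fin n → ℚ := ∑ i, (c i : ℚ) • Pi.single (R i) (1 : ℚ)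

theorem ec_img {R : β → Fin n} (hR : Function.Injective R) (c : β → ℤ) (i : β) :
    ec R c (R i) = c i := by
  unfold ec
  rw [Finset.sum_apply, Finset.sum_eq_single i]
  · simp
  · intro k _ hk
    have : R i ≠ R k := fun h => hk (hR h).symm
    simp [Pi.single_eq_of_ne this]
  · intro h; exact absurd (mem_univ i) h

theorem ec_off {R : β → Fin n} (c : β → ℤ) {j : Fin n} (hj : ¬ ∃ q, R q = j) : ec R c j = 0 := by
  unfold ec
  rw [Finset.sum_apply]
  apply Finset.sum_eq_zero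
  intro k _
  have : j ≠ R k := fun h => hj ⟨k, h.symm⟩
  simp [Pi.single_eq_of_ne this]

theorem hh_sum (hs : P.IsSymm) (hP : P.det ≠ 0) {R : β → Fin n} (hR : Function.Injective R) (c : β → ℤ) :
    (fun j => (((∑ i, c i • hh P F R i : Fin n → ℤ) j : ℤ) : ℚ)) =
      (cob R (gF P F))ᵀ *ᵥ (PQ P *ᵥ ec R c) := by
  unfold ec
  rw [mulVec_sum, mulVec_sum]
  funext j
  rw [Finset.sum_apply, Finset.sum_apply]
  push_cast
  refine Finset.sum_congr rfl fun i _ => ?_
  rw [mulVec_smul, mulVec_smul, hh_cast hs hP hR i]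
  simp

theorem newP_eq' (hs : P.IsSymm) (hP : P.det ≠ 0)
    (hgr : ∀ i k, gF P F i ⬝ᵥ (PQ P *ᵥ gF P F k) = gr i k) {R : β → Fin n}
    (hR : Function.Injective R) (v : Fin n → ℚ) :
    PQ (MM P F gr R) *ᵥ v = (cob R (gF P F))ᵀ *ᵥ (PQ P *ᵥ (cob R (gF P F) *ᵥ v)) := by
  have h : PQ (MM P F gr R) = newP P R (gF P F) := MM_cast hs hP hgr hR
  rw [h, Geo.newP_mulVec]

/-- cancel `cobᵀ P` -/
theorem cancel (hP : P.det ≠ 0) {R : β → Fin n} (hR : Function.Injective R)
    (hm : minor R (gF P F) ≠ 0) {x y : Fin n → ℚ}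
    (h : (cob R (gF P F))ᵀ *ᵥ (PQ P *ᵥ x) = (cob R (gF P F))ᵀ *ᵥ (PQ P *ᵥ y)) : x = y := by
  have h1 : ((cob R (gF P F))ᵀ * PQ P).det ≠ 0 := by
    rw [det_mul, det_transpose, cob_det_eq hR, PQ_det_eq]
    exact mul_ne_zero hm (by exact_mod_cast hP)
  have h2 : ((cob R (gF P F))ᵀ * PQ P) *ᵥ (x - y) = 0 := by
    rw [mulVec_sub, ← mulVec_mulVec, ← mulVec_mulVec, h, sub_self]
  exact sub_eq_zero.1 (Matrix.eq_zero_of_mulVec_eq_zero h1 h2)

theorem cancelP (hP : P.det ≠ 0) {x y : Fin n → ℚ} (h : PQ P *ᵥ x = PQ P *ᵥ y) : x = y := by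
  have h1 : (PQ P).det ≠ 0 := by rw [PQ_det_eq]; exact_mod_cast hP
  have h2 : PQ P *ᵥ (x - y) = 0 := by rw [mulVec_sub, h, sub_self]
  exact sub_eq_zero.1 (Matrix.eq_zero_of_mulVec_eq_zero h1 h2)

open Classical in
/-- integer vector with prescribed values on `R` and off `R` -/
noncomputable def glue (R : β → Fin n) (d : β → ℤ) (a : Fin n → ℤ) : Fin n → ℤ := fun j =>
  if h : ∃ q, R q = j then d h.choose else a j

theorem glue_i {R : β → Fin n} (hR : Function.Injective R) (d : β → ℤ) (a : Fin n → ℤ) (i : β) :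
    glue R d a (R i) = d i := by
  unfold glue
  have h : ∃ q, R q = R i := ⟨i, rfl⟩
  rw [dif_pos h, hR h.choose_spec]

theorem glue_o {R : β → Fin n} (d : β → ℤ) (a : Fin n → ℤ) {j : Fin n} (hj : ¬ ∃ q, R q = j) :
    glue R d a j = a j := by
  unfold glue
  rw [dif_neg hj]

/-- `cob (glue d a) = ∑ d_i g_i + a - ∑ a(R i) e_(R i)` -/
theorem cob_glue {R : β → Fin n} (hR : Function.Injective R) (g : β → Fin n → ℚ) (d : β → ℤ)
    (a : Fin n → ℤ) : cob R g *ᵥ (fun j => ((glue R d a j : ℤ) : ℚ)) =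
      (∑ i, (d i : ℚ) • g i) + (fun j => ((a j : ℤ) : ℚ)) - ec R (fun i => a (R i)) := by
  funext j
  rw [Geo.cob_mulVec]
  simp only [Pi.sub_apply, Pi.add_apply, Finset.sum_apply, Pi.smul_apply, smul_eq_mul]
  have h1 : ∑ i, g i j * ((glue R d a (R i) : ℤ) : ℚ) = ∑ i, (d i : ℚ) * g i j := by
    refine Finset.sum_congr rfl fun i _ => ?_
    rw [glue_i hR, mul_comm]
  rw [h1]
  by_cases hj : ∃ q, R q = j
  · obtain ⟨q, rfl⟩ := hj
    rw [if_pos (mem_image_of_mem R (mem_univ q)), ec_img hR]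
    ring
  · rw [if_neg (not_img hj), ec_off _ hj, glue_o _ _ hj]
    ring

/-- relations -/
theorem rel_iff (hs : P.IsSymm) (hP : P.det ≠ 0)
    (hgr : ∀ i k, gF P F i ⬝ᵥ (PQ P *ᵥ gF P F k) = gr i k) {R : β → Fin n}
    (hR : Function.Injective R) (hm : minor R (gF P F) ≠ 0) (c : β → ℤ) :
    (∑ i, c i • (QuotientAddGroup.mk (hh P F R i) : Coker (MM P F gr R)) = 0 ↔
      ∃ u ∈ KW P F, ∀ i, u (R i) = c i) := by
  have h0 : ∑ i, c i • (QuotientAddGroup.mk (hh P F R i) : Coker (MM P F gr R)) =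
      QuotientAddGroup.mk (∑ i, c i • hh P F R i) := by
    have := map_sum (QuotientAddGroup.mk' (lat (MM P F gr R))) (fun i => c i • hh P F R i) univ
    simp only [map_zsmul] at this
    exact this.symm
  rw [h0, QuotientAddGroup.eq_zero_iff, mem_lat]
  constructor
  · rintro ⟨z, hz⟩
    have h1 : cob R (gF P F) *ᵥ (fun j => ((z j : ℤ) : ℚ)) = ec R c := by
      apply cancel hP hR hm
      rw [← newP_eq' hs hP hgr hR, castV, hz, hh_sum hs hP hR]
    -- z = glue (z ∘ R) z
    have h2 : z = glue R (fun i => z (R i)) z := by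
      funext j
      by_cases hj : ∃ q, R q = j
      · obtain ⟨q, rfl⟩ := hj
        rw [glue_i hR]
      · rw [glue_o _ _ hj]
    have h3 := h1
    rw [h2, cob_glue hR] at h3
    -- u = ∑ c_i e_(R i) - z_off
    refine ⟨glue R c (fun j => - z j), ⟨fun i => - z (R i), ?_⟩, fun i => glue_i hR _ _ i⟩
    apply cast_inj'
    have h4 : (fun j => ((glue R c (fun j => - z j) j : ℤ) : ℚ)) =
        ∑ i, ((z (R i) : ℤ) : ℚ) • gF P F i := by
      funext j
      have h5 := congrFun h3 j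
      simp only [Pi.sub_apply, Pi.add_apply, Finset.sum_apply, Pi.smul_apply, smul_eq_mul] at h5 ⊢
      by_cases hj : ∃ q, R q = j
      · obtain ⟨q, rfl⟩ := hj
        rw [ec_img hR, ec_img hR] at h5
        rw [glue_i hR]
        linarith
      · rw [ec_off _ hj, ec_off _ hj] at h5
        rw [glue_o _ _ hj]
        push_cast
        linarith
    have h6 : (fun j => (((P *ᵥ glue R c (fun j => - z j)) j : ℤ) : ℚ)) =
        fun j => (((F *ᵥ fun i => z (R i)) j : ℤ) : ℚ) := by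
      rw [← castV, h4, gcomb hP]
    funext j
    have h7 := congrFun h6 j
    have h8 : (F *ᵥ fun i => - z (R i)) = - (F *ᵥ fun i => z (R i)) := by
      rw [← mulVec_neg]; rfl
    rw [h8]
    simp only [Pi.add_apply, Pi.neg_apply, Pi.zero_apply]
    push_cast
    rw [h7]
    simp
  · rintro ⟨u, ⟨d, hd⟩, hu⟩
    refine ⟨glue R (fun i => - d i) (fun j => - u j), ?_⟩
    apply cast_inj'
    rw [← castV, newP_eq' hs hP hgr hR, cob_glue hR, hh_sum hs hP hR]
    congr 2
    have h1 : ∑ i, ((d i : ℤ) : ℚ) • gF P F i = - fun j => ((u j : ℤ) : ℚ) := by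
      apply cancelP hP
      rw [gcomb hP, mulVec_neg, castV]
      funext j
      have := congrFun hd j
      simp only [Pi.add_apply, Pi.zero_apply] at this
      have h2 : (F *ᵥ d) j = - (P *ᵥ u) j := by linarith
      simp only [Pi.neg_apply]
      rw [h2]; push_cast; rfl
    have h3 : ∑ i, (((- d i : ℤ)) : ℚ) • gF P F i = fun j => ((u j : ℤ) : ℚ) := by
      have : ∑ i, (((- d i : ℤ)) : ℚ) • gF P F i = - ∑ i, ((d i : ℤ) : ℚ) • gF P F i := by
        rw [← Finset.sum_neg_distrib]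
        refine Finset.sum_congr rfl fun i _ => ?_
        push_cast
        rw [neg_smul]
      rw [this, h1, neg_neg]
    rw [h3]
    funext j
    simp only [Pi.sub_apply, Pi.add_apply]
    by_cases hj : ∃ q, R q = j
    · obtain ⟨q, rfl⟩ := hj
      rw [ec_img hR, ec_img hR, hu q]
      push_cast
      ring
    · rw [ec_off _ hj, ec_off _ hj]
      push_cast
      ring

/-- members of `L_F` -/
theorem mem_LFg {v : Fin n → ℚ} (hv : v ∈ LFg P F) : ∃ (a : Fin n → ℤ) (d : β → ℤ),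
    v = (∑ i, (d i : ℚ) • gF P F i) + fun j => ((a j : ℤ) : ℚ) := by
  unfold LFg at hv
  induction hv using Submodule.span_induction with
  | mem x hx =>
    rcases hx with ⟨j, rfl⟩ | ⟨q, rfl⟩
    · refine ⟨Pi.single j 1, 0, ?_⟩
      funext k
      by_cases h : k = j
      · subst h; simp
      · simp [Pi.single_eq_of_ne h]
    · refine ⟨0, Pi.single q 1, ?_⟩
      rw [Finset.sum_eq_single q]
      · funext k; simp
      · intro i _ hi; simp [Pi.single_eq_of_ne hi]
      · intro h; exact absurd (mem_univ q) h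
  | zero => exact ⟨0, 0, by funext k; simp⟩
  | add x y _ _ hx hy =>
    obtain ⟨a, d, rfl⟩ := hx
    obtain ⟨a', d', rfl⟩ := hy
    refine ⟨a + a', d + d', ?_⟩
    funext k
    simp only [Pi.add_apply, Finset.sum_apply, Pi.smul_apply, smul_eq_mul]
    push_cast
    simp_rw [add_mul]
    rw [Finset.sum_add_distrib]
    ring
  | smul t x _ hx =>
    obtain ⟨a, d, rfl⟩ := hx
    refine ⟨t • a, t • d, ?_⟩
    funext k
    simp only [Pi.add_apply, Finset.sum_apply, Pi.smul_apply, smul_eq_mul, zsmul_eq_mul]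
    push_cast
    rw [mul_add, Finset.mul_sum]
    simp_rw [mul_assoc]

theorem std_LFg (a : Fin n → ℤ) : (fun j => ((a j : ℤ) : ℚ)) ∈ LFg P F := by
  have h : (fun i => ((a i : ℤ) : ℚ)) = ∑ i, a i • (Pi.single i (1 : ℚ) : Fin n → ℚ) := by
    funext j
    rw [Finset.sum_apply, Finset.sum_eq_single j]
    · simp
    · intro i _ hi; simp [Pi.single_eq_of_ne (Ne.symm hi)]
    · intro h; exact absurd (mem_univ j) h
  rw [h]
  exact Submodule.sum_mem _ fun i _ => Submodule.smul_mem _ _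
    (Submodule.subset_span (Or.inl ⟨i, rfl⟩))

theorem comb_LFg (d : β → ℤ) : (∑ i, (d i : ℚ) • gF P F i) ∈ LFg P F := by
  refine Submodule.sum_mem _ fun i _ => ?_
  rw [Int.cast_smul_eq_zsmul]
  exact Submodule.smul_mem _ _ (Submodule.subset_span (Or.inr ⟨i, rfl⟩))

theorem ec_LFg (R : β → Fin n) (c : β → ℤ) : ec R c ∈ LFg P F := by
  unfold ec
  refine Submodule.sum_mem _ fun i _ => ?_
  rw [Int.cast_smul_eq_zsmul]
  exact Submodule.smul_mem _ _ (Submodule.subset_span (Or.inl ⟨R i, rfl⟩))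

theorem glue_self {R : β → Fin n} (hR : Function.Injective R) (z : Fin n → ℤ) :
    glue R (fun i => z (R i)) z = z := by
  funext j
  by_cases hj : ∃ q, R q = j
  · obtain ⟨q, rfl⟩ := hj
    rw [glue_i hR]
  · rw [glue_o _ _ hj]

theorem cob_LFg {R : β → Fin n} (hR : Function.Injective R) (z : Fin n → ℤ) :
    cob R (gF P F) *ᵥ (fun j => ((z j : ℤ) : ℚ)) ∈ LFg P F := by
  rw [← glue_self hR z, cob_glue hR]
  exact Submodule.sub_mem _ (Submodule.add_mem _ (comb_LFg _) (std_LFg _)) (ec_LFg _ _)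

/-- membership -/
theorem mem_iff (hs : P.IsSymm) (hP : P.det ≠ 0)
    (hgr : ∀ i k, gF P F i ⬝ᵥ (PQ P *ᵥ gF P F k) = gr i k) {R : β → Fin n}
    (hR : Function.Injective R) (hm : minor R (gF P F) ≠ 0) (w : Fin n → ℤ) :
    (QuotientAddGroup.mk w : Coker (MM P F gr R)) ∈
        AddSubgroup.closure (Set.range fun i => (QuotientAddGroup.mk (hh P F R i) : Coker (MM P F gr R))) ↔
      ∃ v, cob R (gF P F) *ᵥ v ∈ LFg P F ∧ PQ (MM P F gr R) *ᵥ v = fun j => ((w j : ℤ) : ℚ) := by
  have hC : (cob R (gF P F)).det ≠ 0 := by rw [cob_det_eq hR]; exact hm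
  have hCinv : cob R (gF P F) * (cob R (gF P F))⁻¹ = 1 :=
    Matrix.mul_nonsing_inv _ (isUnit_iff_ne_zero.2 hC)
  constructor
  · intro h
    have key : ∀ x : Coker (MM P F gr R), x ∈ AddSubgroup.closure
        (Set.range fun i => (QuotientAddGroup.mk (hh P F R i) : Coker (MM P F gr R))) →
        ∀ w : Fin n → ℤ, (QuotientAddGroup.mk w : Coker (MM P F gr R)) = x →
        ∃ v, cob R (gF P F) *ᵥ v ∈ LFg P F ∧ PQ (MM P F gr R) *ᵥ v = fun j => ((w j : ℤ) : ℚ) := by
      intro x hx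
      induction hx using AddSubgroup.closure_induction with
      | mem x hx =>
        obtain ⟨i, rfl⟩ := hx
        intro w hw
        simp only at hw
        rw [QuotientAddGroup.eq] at hw
        obtain ⟨u, hu⟩ := (mem_lat _).1 hw
        -- M u = -w + hh i
        refine ⟨(cob R (gF P F))⁻¹ *ᵥ Pi.single (R i) 1 - fun j => ((u j : ℤ) : ℚ), ?_, ?_⟩
        · rw [mulVec_sub, mulVec_mulVec, hCinv, one_mulVec]
          refine Submodule.sub_mem _ (Submodule.subset_span (Or.inl ⟨R i, rfl⟩)) (cob_LFg hR u)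
        · rw [mulVec_sub, newP_eq' hs hP hgr hR, mulVec_mulVec (M := cob R (gF P F)), hCinv, one_mulVec,
            hh_cast hs hP hR, castV, hu]
          funext j
          simp
      | zero =>
        intro w hw
        rw [QuotientAddGroup.eq_zero_iff, mem_lat] at hw
        obtain ⟨u, hu⟩ := hw
        exact ⟨fun j => ((u j : ℤ) : ℚ), cob_LFg hR u, by rw [castV, hu]⟩
      | add x y _ _ hx hy =>
        intro w hw
        obtain ⟨w1, rfl⟩ := QuotientAddGroup.mk_surjective x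
        have h2 : (QuotientAddGroup.mk (w - w1) : Coker (MM P F gr R)) = y := by
          rw [QuotientAddGroup.mk_sub, hw]; abel
        obtain ⟨v1, a1, b1⟩ := hx w1 rfl
        obtain ⟨v2, a2, b2⟩ := hy (w - w1) h2
        refine ⟨v1 + v2, by rw [mulVec_add]; exact Submodule.add_mem _ a1 a2, ?_⟩
        rw [mulVec_add, b1, b2]
        funext j
        simp
      | neg x _ hx =>
        intro w hw
        have h2 : (QuotientAddGroup.mk (-w) : Coker (MM P F gr R)) = x := by
          rw [QuotientAddGroup.mk_neg, hw, neg_neg]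
        obtain ⟨v1, a1, b1⟩ := hx (-w) h2
        refine ⟨-v1, by rw [mulVec_neg]; exact Submodule.neg_mem _ a1, ?_⟩
        rw [mulVec_neg, b1]
        funext j
        simp
    exact key _ h w rfl
  · rintro ⟨v, hv, hvw⟩
    obtain ⟨a, d, had⟩ := mem_LFg hv
    have h1 : cob R (gF P F) *ᵥ (v - fun j => ((glue R d a j : ℤ) : ℚ)) = ec R (fun i => a (R i)) := by
      rw [mulVec_sub, cob_glue hR, had]
      abel
    have h2 : w = MM P F gr R *ᵥ glue R d a + ∑ i, a (R i) • hh P F R i := by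
      apply cast_inj'
      have h3 : (fun j => (((MM P F gr R *ᵥ glue R d a + ∑ i, a (R i) • hh P F R i) j : ℤ) : ℚ)) =
          (fun j => (((MM P F gr R *ᵥ glue R d a) j : ℤ) : ℚ)) +
            fun j => (((∑ i, a (R i) • hh P F R i : Fin n → ℤ) j : ℤ) : ℚ) := by
        funext j
        simp only [Pi.add_apply]
        push_cast
        rfl
      rw [h3, hh_sum hs hP hR, ← h1, ← newP_eq' hs hP hgr hR, ← castV, ← mulVec_add, ← hvw]
      congr 1
      abel
    have h4 : (QuotientAddGroup.mk w : Coker (MM P F gr R)) =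
        ∑ i, a (R i) • (QuotientAddGroup.mk (hh P F R i) : Coker (MM P F gr R)) := by
      have h0 := map_sum (QuotientAddGroup.mk' (lat (MM P F gr R))) (fun i => a (R i) • hh P F R i) univ
      simp only [map_zsmul] at h0
      have h5 : (QuotientAddGroup.mk (MM P F gr R *ᵥ glue R d a) : Coker (MM P F gr R)) = 0 := by
        rw [QuotientAddGroup.eq_zero_iff, mem_lat]
        exact ⟨_, rfl⟩
      rw [h2, QuotientAddGroup.mk_add, h5, zero_add]
      exact h0
    rw [h4]
    refine AddSubgroup.sum_mem _ fun i _ => AddSubgroup.zsmul_mem _ ?_ _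
    exact AddSubgroup.subset_closure (Set.mem_range_self i)

end Vale.Agent.P160.Half.G.Rel837

namespace Vale.Agent.P160.Half.G

open A Labels Rel837

theorem rel837 : RelStmt := by
  classical
  intro n β _ _ b F gr hdet hgr
  have hs : (matZ b).IsSymm := by
    ext i j
    exact matZ_symm b j i
  obtain ⟨D, hD0, hDle, hD⟩ := card_formula hs hdet (LFg (matZ b) F) (over_LFg hs hdet hgr)
  refine ⟨MM (matZ b) F gr, fun R i => hh (matZ b) F R i, D, hD0, hDle, ?_⟩
  intro R hR hm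
  have hdetM := MM_det hs hdet hgr hR
  refine ⟨MM_cast hs hdet hgr hR, MM_symm hs hdet hgr hR, ?_, hdetM, ?_, ?_, ?_, ?_, ?_⟩
  · intro h0
    rw [h0] at hdetM
    have h1 : ((matZ b).det : ℚ) * (minor R (gF (matZ b) F)) ^ 2 ≠ 0 :=
      mul_ne_zero (by exact_mod_cast hdet) (pow_ne_zero _ hm)
    apply h1
    rw [← hdetM]
    simp
  · intro j k hj hk
    exact MM_oo _ _ _ R hj hk
  · intro c
    exact newH_sum hs hdet hR c
  · intro c
    exact rel_iff hs hdet hgr hR hm c
  · exact hD (cob R (gF (matZ b) F)) (by rw [cob_det_eq hR]; exact hm) (fun z => cob_LFg hR z)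
      (MM (matZ b) F gr R) (MM_cast hs hdet hgr hR) _ (fun w => mem_iff hs hdet hgr hR hm w)
  · intro w
    rw [mem_iff hs hdet hgr hR hm w]
    rfl

end Vale.Agent.P160.Half.G
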