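import Vale.Agent.P160.Half.GAsm
import Vale.Agent.P160.Half.GDet837
import Vale.Agent.P160.Half.RelFin837
import Vale.Agent.P160.Half.RC
import Vale.Agent.P160.Half.Avg
import Vale.Agent.P160.Half.KZF
import Vale.Agent.P160.Half.Con679
import Vale.Agent.P160.Half.GoodR
import Vale.Agent.P160.Half.CntH840
import Vale.Agent.P160.Half.NoSp2
import Vale.Agent.P160.Half.KZ1
import Vale.Agent.P160.Half.KZA2
import Vale.Agent.P160.Half.NoSpZ
import Vale.Agent.P160.Half.Core
import Vale.Agent.P160.Half.Rows2
import Vale.Agent.P160.Half.LOpp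
import Vale.Agent.P160.Half.Num1_604
import Vale.Agent.P160.Half.Num2
import Vale.Agent.P160.Half.Num3
import Vale.Agent.P160.Half.Num4
import Vale.Agent.P160.Half.Num5
import Vale.Agent.P160.Half.Num6_907
import Vale.Agent.P160.Half.Num868
import Vale.Agent.P160.Half.Num8_574
import Vale.Agent.P160.Half.Rich

/-! # P160, half rate: part (A) closed: `StmtG` and `RichSmall` without hypotheses (composition, helper126) -/

namespace Vale.Agent.P160.Half.G.Done126

theorem stmtG : A.StmtG :=
  gasm (ns2 (core2 rows2)) (kz1 rows2 (core2 rows2) nsz) (kza2 rows2 lopp) nsz rc C840.countL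
    (Det837.gdet kzf Con679.con rel837 goodr AvgF.avg)
    Num1_604.num1 num2 num3 num4 num5 Num6907.num6 N868.num7h N574.num8

theorem richSmall : A.RichSmall := A.rich_of_G stmtG

end Vale.Agent.P160.Half.G.Done126
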