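import Vale.Agent.P160.Half.Cor1
import Vale.Agent.P160.Half.SgnRed

/-! # P160: from the bound for corank one to the limit `q_n^(1/n) → 1/2` -/

set_option linter.unusedSectionVars false

namespace Vale.Agent.P160.Half.FinP

open Finset Matrix Filter Topology Vale.Agent.P160.Half Vale.Agent.P160.Half.Cor1
  Vale.Agent.P160.Half.SgnRed

theorem grow (δ : ℝ) (hδ : 0 < δ) : ∃ n₀ : ℕ, ∀ n : ℕ, n₀ ≤ n →
    (2 * ((n : ℝ) + 1)) ^ (Nat.sqrt (26 * n) + 2) ≤ (2 : ℝ) ^ (δ * n) := by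
  have hl2 : 0 < Real.log 2 := Real.log_pos (by norm_num)
  set A : ℝ := 48 / (δ * Real.log 2) with hA
  have hA0 : 0 < A := by positivity
  refine ⟨max 1 ⌈A ^ 4⌉₊, fun n hn => ?_⟩
  have hn1 : 1 ≤ n := (le_max_left _ _).trans hn
  have hnA : A ^ 4 ≤ (n : ℝ) := (Nat.le_ceil _).trans (by exact_mod_cast (le_max_right _ _).trans hn)
  have hnr : (1 : ℝ) ≤ n := by exact_mod_cast hn1
  set t : ℝ := Real.sqrt (Real.sqrt n) with ht
  have ht2 : t ^ 2 = Real.sqrt n := Real.sq_sqrt (Real.sqrt_nonneg _)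
  have hs2 : Real.sqrt n ^ 2 = n := Real.sq_sqrt (by positivity)
  have ht4 : t ^ 4 = n := by
    have : t ^ 4 = (t ^ 2) ^ 2 := by ring
    rw [this, ht2, hs2]
  have ht0 : 0 ≤ t := Real.sqrt_nonneg _
  have ht1 : 1 ≤ t := by
    by_contra hcon
    push Not at hcon
    have : t ^ 4 < 1 := pow_lt_one₀ ht0 hcon (by norm_num)
    linarith
  have htA : A ≤ t := by
    by_contra hcon
    push Not at hcon
    have : t ^ 4 < A ^ 4 := pow_lt_pow_left₀ hcon ht0 (by norm_num)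
    linarith
  -- the square root
  have hs : ((Nat.sqrt (26 * n) : ℕ) : ℝ) ≤ 6 * t ^ 2 := by
    have h1 : Nat.sqrt (26 * n) ^ 2 ≤ 26 * n := Nat.sqrt_le' _
    have h2 : ((Nat.sqrt (26 * n) : ℕ) : ℝ) ^ 2 ≤ 26 * n := by exact_mod_cast h1
    refine (sq_le_sq₀ (by positivity) (by positivity)).1 ?_
    calc ((Nat.sqrt (26 * n) : ℕ) : ℝ) ^ 2 ≤ 26 * n := h2
      _ ≤ (6 * t ^ 2) ^ 2 := by
        rw [← ht4]
        nlinarith [pow_nonneg ht0 4]
  have hk : ((Nat.sqrt (26 * n) + 2 : ℕ) : ℝ) ≤ 8 * t ^ 2 := by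
    push_cast
    have : 1 ≤ t ^ 2 := one_le_pow₀ ht1
    linarith
  have hlog : Real.log (2 * ((n : ℝ) + 1)) ≤ 6 * t := by
    have h1 : 2 * ((n : ℝ) + 1) ≤ 4 * t ^ 4 := by rw [ht4]; linarith
    calc Real.log (2 * ((n : ℝ) + 1)) ≤ Real.log (4 * t ^ 4) := Real.log_le_log (by positivity) h1
      _ = Real.log 4 + 4 * Real.log t := by
        rw [Real.log_mul (by norm_num) (by positivity), Real.log_pow]
        norm_num
      _ ≤ 3 + 4 * (t - 1) := by
        have h2 := Real.log_le_sub_one_of_pos (show (0 : ℝ) < t by linarith)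
        have h3 := Real.log_le_sub_one_of_pos (show (0 : ℝ) < 4 by norm_num)
        linarith
      _ ≤ 6 * t := by linarith
  have hlog0 : 0 ≤ Real.log (2 * ((n : ℝ) + 1)) := Real.log_nonneg (by linarith)
  have hmain : ((Nat.sqrt (26 * n) + 2 : ℕ) : ℝ) * Real.log (2 * ((n : ℝ) + 1)) ≤
      Real.log 2 * (δ * n) := by
    calc ((Nat.sqrt (26 * n) + 2 : ℕ) : ℝ) * Real.log (2 * ((n : ℝ) + 1)) ≤ 8 * t ^ 2 * (6 * t) :=
          mul_le_mul hk hlog hlog0 (by positivity)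
      _ = 48 * t ^ 3 := by ring
      _ = A * (δ * Real.log 2) * t ^ 3 := by
        rw [hA, div_mul_cancel₀ _ (by positivity)]
      _ ≤ t * (δ * Real.log 2) * t ^ 3 := by
        gcongr
      _ = Real.log 2 * (δ * n) := by rw [← ht4]; ring
  have hb : (0 : ℝ) < 2 * ((n : ℝ) + 1) := by positivity
  rw [← Real.rpow_natCast, Real.rpow_def_of_pos hb, Real.rpow_def_of_pos (by norm_num : (0 : ℝ) < 2)]
  refine Real.exp_le_exp.2 ?_
  rw [mul_comm]
  exact hmain

open Classical in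
/-- density of singular 0/1 matrices -/
noncomputable def sing (n : ℕ) : ℝ :=
  ((univ.filter fun b : Sym2 (Fin n) → Bool => (matZ b).det = 0).card : ℝ) /
    2 ^ Fintype.card (Sym2 (Fin n))

theorem sing_le (n k : ℕ) (hn : 1 ≤ n) (hk : 26 * n ≤ k ^ 2) :
    sing n ≤ ∑ ρ ∈ (range n).filter (fun ρ => n < ρ + k), (n.choose (ρ + 1) : ℝ) * p1 (ρ + 1) +
        2 ^ (-(n : ℝ)) := by
  classical
  unfold sing
  rw [div_le_iff₀ (by positivity)]
  exact card_sing_le n k hn hk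

theorem sing_of_p1 (h : ∀ ε : ℝ, 0 < ε → ∃ n₀ : ℕ, ∀ n ≥ n₀, p1 n ≤ (2 : ℝ) ^ (-((1 - ε) * n)))
    (ε : ℝ) (hε : 0 < ε) : ∃ n₀ : ℕ, ∀ n ≥ n₀, sing n ≤ (2 : ℝ) ^ (-((1 - ε) * n)) := by
  set η : ℝ := min ε 1 / 2 with hη
  have hη0 : 0 < η := by
    have : 0 < min ε 1 := lt_min hε one_pos
    positivity
  have hη1 : η ≤ 1 / 2 := by
    have := min_le_right ε 1
    rw [hη]
    linarith
  have hηε : 2 * η ≤ ε := by
    have := min_le_left ε 1
    rw [hη]
    linarith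
  obtain ⟨n₁, h1⟩ := h η hη0
  obtain ⟨n₂, h2⟩ := grow η hη0
  refine ⟨max (max 200 (2 * n₁)) n₂, fun n hn => ?_⟩
  have hn200 : 200 ≤ n := (le_max_left _ _).trans ((le_max_left _ _).trans hn)
  have hn1 : 2 * n₁ ≤ n := (le_max_right _ _).trans ((le_max_left _ _).trans hn)
  have hn2 : n₂ ≤ n := (le_max_right _ _).trans hn
  set s := Nat.sqrt (26 * n) with hs
  have hs1 : s * s ≤ 26 * n := Nat.sqrt_le _
  have hs2 : 26 * n ≤ (s + 1) ^ 2 := by
    have := Nat.lt_succ_sqrt' (26 * n)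
    exact this.le
  have hs3 : 2 * (s + 1) ≤ n := by
    by_contra hcon
    push Not at hcon
    have h3 : s ≤ 52 := by
      by_contra hc2
      push Not at hc2
      have h4 : 53 * s ≤ s * s := Nat.mul_le_mul_right _ hc2
      omega
    omega
  have hle := sing_le n (s + 1) (by omega) hs2
  have hterm : ∀ ρ ∈ (range n).filter (fun ρ => n < ρ + (s + 1)),
      (n.choose (ρ + 1) : ℝ) * p1 (ρ + 1) ≤
        ((n : ℝ) + 1) ^ (s + 1) * (2 ^ (s + 1) * (2 : ℝ) ^ (-((1 - η) * n))) := by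
    intro ρ hρ
    obtain ⟨hρ1, hρ2⟩ := mem_filter.1 hρ
    have hρ1' := mem_range.1 hρ1
    have e1 : (n.choose (ρ + 1) : ℝ) ≤ ((n : ℝ) + 1) ^ (s + 1) := by
      have e2 : n.choose (ρ + 1) = n.choose (n - (ρ + 1)) := (Nat.choose_symm (by omega)).symm
      have e3 : n.choose (n - (ρ + 1)) ≤ n ^ (n - (ρ + 1)) := Nat.choose_le_pow _ _
      have e4 : n ^ (n - (ρ + 1)) ≤ (n + 1) ^ (s + 1) :=
        (Nat.pow_le_pow_left (by omega) _).trans (Nat.pow_le_pow_right (by omega) (by omega))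
      have e5 : n.choose (ρ + 1) ≤ (n + 1) ^ (s + 1) := by rw [e2]; exact e3.trans e4
      exact_mod_cast e5
    have e6 : p1 (ρ + 1) ≤ 2 ^ (s + 1) * (2 : ℝ) ^ (-((1 - η) * n)) := by
      refine (h1 (ρ + 1) (by omega)).trans ?_
      rw [← Real.rpow_natCast 2 (s + 1), ← Real.rpow_add (by norm_num)]
      refine Real.rpow_le_rpow_of_exponent_le (by norm_num) ?_
      have e7 : (n : ℝ) ≤ ((ρ + 1 : ℕ) : ℝ) + ((s + 1 : ℕ) : ℝ) := by
        have : n ≤ (ρ + 1) + (s + 1) := by omega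
        exact_mod_cast this
      have e8 : (0 : ℝ) ≤ ((s + 1 : ℕ) : ℝ) := by positivity
      have e9 : 0 ≤ 1 - η := by linarith
      nlinarith [mul_le_mul_of_nonneg_left e7 e9, mul_nonneg hη0.le e8]
    exact mul_le_mul e1 e6 (p1_nonneg _) (by positivity)
  have hsum : ∑ ρ ∈ (range n).filter (fun ρ => n < ρ + (s + 1)), (n.choose (ρ + 1) : ℝ) * p1 (ρ + 1) ≤
      ((n : ℝ) + 1) * (((n : ℝ) + 1) ^ (s + 1) * (2 ^ (s + 1) * (2 : ℝ) ^ (-((1 - η) * n)))) := by
    refine (sum_le_sum hterm).trans ?_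
    rw [sum_const, nsmul_eq_mul]
    refine mul_le_mul_of_nonneg_right ?_ (by positivity)
    have : ((range n).filter (fun ρ => n < ρ + (s + 1))).card ≤ n + 1 :=
      (card_filter_le _ _).trans (by rw [card_range]; omega)
    exact_mod_cast this
  have hP : (2 : ℝ) ^ (-(n : ℝ)) ≤ (2 : ℝ) ^ (-((1 - η) * n)) := by
    refine Real.rpow_le_rpow_of_exponent_le (by norm_num) ?_
    have : (0 : ℝ) ≤ n := by positivity
    nlinarith [mul_nonneg hη0.le this]
  set E : ℝ := (2 : ℝ) ^ (-((1 - η) * n)) with hE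
  have hE0 : 0 < E := by positivity
  have hfin : ((n : ℝ) + 1) * (((n : ℝ) + 1) ^ (s + 1) * (2 ^ (s + 1) * E)) + E ≤
      (2 * ((n : ℝ) + 1)) ^ (s + 2) * E := by
    have e1 : (2 * ((n : ℝ) + 1)) ^ (s + 2) = 2 * (((n : ℝ) + 1) * (((n : ℝ) + 1) ^ (s + 1) *
        2 ^ (s + 1))) := by
      rw [mul_pow]
      ring
    have e2 : 1 ≤ ((n : ℝ) + 1) * (((n : ℝ) + 1) ^ (s + 1) * 2 ^ (s + 1)) := by
      have e3 : (1 : ℝ) ≤ (n : ℝ) + 1 := by
        have : (0 : ℝ) ≤ n := by positivity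
        linarith
      have e4 : (1 : ℝ) ≤ ((n : ℝ) + 1) ^ (s + 1) := one_le_pow₀ e3
      have e5 : (1 : ℝ) ≤ 2 ^ (s + 1) := one_le_pow₀ (by norm_num)
      exact one_le_mul_of_one_le_of_one_le e3 (one_le_mul_of_one_le_of_one_le e4 e5)
    rw [e1]
    nlinarith [mul_le_mul_of_nonneg_right e2 hE0.le]
  calc sing n ≤ ((n : ℝ) + 1) * (((n : ℝ) + 1) ^ (s + 1) * (2 ^ (s + 1) * E)) + E := by
        refine hle.trans (add_le_add hsum hP)
    _ ≤ (2 * ((n : ℝ) + 1)) ^ (s + 2) * E := hfin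
    _ ≤ (2 : ℝ) ^ (η * n) * E := mul_le_mul_of_nonneg_right (h2 n hn2) hE0.le
    _ = (2 : ℝ) ^ (-((1 - 2 * η) * n)) := by
        rw [hE, ← Real.rpow_add (by norm_num)]
        congr 1
        ring
    _ ≤ (2 : ℝ) ^ (-((1 - ε) * n)) := by
        refine Real.rpow_le_rpow_of_exponent_le (by norm_num) ?_
        have : (0 : ℝ) ≤ n := by positivity
        nlinarith [mul_le_mul_of_nonneg_right hηε this]

/-! ## Lower bound -/

theorem le_sing (m : ℕ) : (2 : ℝ) ^ (-((m : ℝ) + 1)) ≤ sing (m + 1) := by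
  classical
  have h1 : ((univ : Finset (Sym2 (Fin m) → Bool)).card) ≤
      (univ.filter fun b : Sym2 (Fin (m + 1)) → Bool => (matZ b).det = 0).card := by
    refine Finset.card_le_card_of_injOn (fun c => (eqv m).symm (fun _ => false, c)) ?_ ?_
    · intro c _
      rw [mem_coe, mem_filter]
      refine ⟨mem_univ _, ?_⟩
      refine Matrix.det_eq_zero_of_row_eq_zero 0 fun j => ?_
      have h2 : ((eqv m) ((eqv m).symm (fun _ => false, c))).1 j = false := by
        rw [Equiv.apply_symm_apply]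
      have h3 : (eqv m).symm (fun _ => false, c) s(0, j) = false := h2
      show (if (eqv m).symm (fun _ => false, c) s(0, j) then (1 : ℤ) else 0) = 0
      rw [h3]
      simp
    · intro c _ c' _ h
      have := (eqv m).symm.injective h
      exact (Prod.ext_iff.1 this).2
  rw [card_univ, Fintype.card_fun, Fintype.card_bool] at h1
  unfold sing
  rw [le_div_iff₀ (by positivity)]
  have h4 : (2 : ℝ) ^ Fintype.card (Sym2 (Fin (m + 1))) =
      2 ^ (m + 1) * 2 ^ Fintype.card (Sym2 (Fin m)) := by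
    exact_mod_cast card_bits m
  have h5 : (2 : ℝ) ^ (-((m : ℝ) + 1)) * 2 ^ (m + 1) = 1 := by
    rw [← Real.rpow_natCast, ← Real.rpow_add (by norm_num)]
    push_cast
    rw [neg_add_cancel, Real.rpow_zero]
  rw [h4, ← mul_assoc, h5, one_mul]
  exact_mod_cast h1

/-! ## The probability `q_n` -/

/-- The set of all symmetric `n × n` integer matrices with every entry equal to `1` or `-1`. -/
def SSM (n : ℕ) : Set (Matrix (Fin n) (Fin n) ℤ) :=
  {A | A.IsSymm ∧ ∀ i j, A i j = 1 ∨ A i j = -1}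

/-- The probability that a uniformly random symmetric sign matrix of size `n` is singular. -/
noncomputable def q (n : ℕ) : ℝ :=
  (Set.ncard {A : Matrix (Fin n) (Fin n) ℤ | A ∈ SSM n ∧ A.det = 0} : ℝ) /
    (Set.ncard (SSM n) : ℝ)

theorem sgM_injective (n : ℕ) : Function.Injective (sgM (n := n)) := by
  intro b b' h
  funext e
  induction e using Sym2.ind with
  | _ i j =>
    have h1 := congrFun (congrFun h i) j
    unfold sgM at h1
    by_cases hb : b s(i, j) = true <;> by_cases hb' : b' s(i, j) = true <;> simp_all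

theorem range_sgM (n : ℕ) : Set.range (sgM (n := n)) = SSM n := by
  ext A
  constructor
  · rintro ⟨b, rfl⟩
    refine ⟨?_, fun i j => ?_⟩
    · ext i j
      rw [Matrix.transpose_apply]
      unfold sgM
      rw [Sym2.eq_swap]
    · unfold sgM
      split_ifs
      · exact Or.inr rfl
      · exact Or.inl rfl
  · rintro ⟨hs, hA⟩
    refine ⟨Sym2.lift ⟨fun i j => decide (A i j = -1), fun i j => ?_⟩, ?_⟩
    · have := hs.apply i j
      show decide (A i j = -1) = decide (A j i = -1)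
      rw [this]
    · ext i j
      unfold sgM
      rw [Sym2.lift_mk]
      rcases hA i j with h | h
      · simp [h]
      · simp [h]

theorem q_eq (n : ℕ) : q (n + 1) = sing n := by
  classical
  have h1 : {A : Matrix (Fin (n + 1)) (Fin (n + 1)) ℤ | A ∈ SSM (n + 1) ∧ A.det = 0} =
      sgM '' {b : Sym2 (Fin (n + 1)) → Bool | (sgM b).det = 0} := by
    ext A
    constructor
    · rintro ⟨hA, hdet⟩
      rw [← range_sgM] at hA
      obtain ⟨b, rfl⟩ := hA
      exact ⟨b, hdet, rfl⟩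
    · rintro ⟨b, hb, rfl⟩
      exact ⟨by rw [← range_sgM]; exact ⟨b, rfl⟩, hb⟩
  have h2 : Set.ncard {b : Sym2 (Fin (n + 1)) → Bool | (sgM b).det = 0} =
      (Finset.univ.filter (fun b : Sym2 (Fin (n + 1)) → Bool => (sgM b).det = 0)).card := by
    rw [← Set.ncard_coe_finset]
    congr 1
    ext b
    simp
  have h3 : Set.ncard (SSM (n + 1)) = 2 ^ Fintype.card (Sym2 (Fin (n + 1))) := by
    rw [← range_sgM, ← Set.image_univ, Set.ncard_image_of_injective _ (sgM_injective (n + 1)),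
      Set.ncard_univ, Nat.card_eq_fintype_card, Fintype.card_fun, Fintype.card_bool]
  unfold q sing
  rw [h1, Set.ncard_image_of_injective _ (sgM_injective (n + 1)), h2, h3]
  push_cast
  rw [← prob_sgM n]

theorem q_nonneg (n : ℕ) : 0 ≤ q n := by
  unfold q
  positivity

/-- **Final step**: the bound for corank one gives the rate. -/
theorem tendsto_of_p1
    (h : ∀ ε : ℝ, 0 < ε → ∃ n₀ : ℕ, ∀ n ≥ n₀, p1 n ≤ (2 : ℝ) ^ (-((1 - ε) * n))) :
    (∀ ε : ℝ, 0 < ε → ∀ᶠ n : ℕ in atTop, q n ≤ (1 / 2 + ε) ^ n) ∧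
    (∀ n : ℕ, 2 ≤ n → (1 / 2) ^ n ≤ q n) ∧
    Tendsto (fun n : ℕ => q n ^ (1 / (n : ℝ))) atTop (𝓝 (1 / 2)) := by
  -- upper bound
  have hup : ∀ ε : ℝ, 0 < ε → ∀ᶠ n : ℕ in atTop, q n ≤ (1 / 2 + ε) ^ n := by
    intro ε hε
    -- choose `δ` with `2^(-(1-2δ)) < 1/2 + ε`
    have hc : Tendsto (fun δ : ℝ => (2 : ℝ) ^ (-(1 - 2 * δ))) (𝓝[>] 0) (𝓝 (1 / 2)) := by
      have h1 : ContinuousAt (fun δ : ℝ => (2 : ℝ) ^ (-(1 - 2 * δ))) 0 := by
        refine ContinuousAt.rpow continuousAt_const ?_ (Or.inl (by norm_num))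
        fun_prop
      have h2 : (2 : ℝ) ^ (-(1 - 2 * (0 : ℝ))) = 1 / 2 := by
        rw [mul_zero, sub_zero, Real.rpow_neg (by norm_num), Real.rpow_one, one_div]
      have h3 := h1.tendsto
      rw [h2] at h3
      exact h3.mono_left nhdsWithin_le_nhds
    have hev : ∀ᶠ δ : ℝ in 𝓝[>] 0, (2 : ℝ) ^ (-(1 - 2 * δ)) < 1 / 2 + ε :=
      hc.eventually (gt_mem_nhds (by linarith))
    obtain ⟨δ, hδ, hδ0⟩ := (hev.and self_mem_nhdsWithin).exists
    have hδ0' : 0 < δ := hδ0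
    obtain ⟨n₀, hn₀⟩ := sing_of_p1 h δ hδ0'
    obtain ⟨n₃, hn₃⟩ := exists_nat_ge (1 / δ)
    filter_upwards [eventually_ge_atTop (max (n₀ + 1) (n₃ + 1))] with n hn
    have hn1 : n₀ + 1 ≤ n := (le_max_left _ _).trans hn
    have hn3 : n₃ + 1 ≤ n := (le_max_right _ _).trans hn
    obtain ⟨m, rfl⟩ : ∃ m, n = m + 1 := ⟨n - 1, by omega⟩
    rw [q_eq]
    refine (hn₀ m (by omega)).trans ?_
    have hm : 1 / δ ≤ (m : ℝ) := hn₃.trans (by exact_mod_cast (by omega : n₃ ≤ m))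
    have hm' : 1 ≤ δ * m := by
      rw [div_le_iff₀ hδ0'] at hm
      linarith
    calc (2 : ℝ) ^ (-((1 - δ) * m)) ≤ (2 : ℝ) ^ (-(1 - 2 * δ) * ((m + 1 : ℕ) : ℝ)) := by
          refine Real.rpow_le_rpow_of_exponent_le (by norm_num) ?_
          push_cast
          nlinarith
      _ = ((2 : ℝ) ^ (-(1 - 2 * δ))) ^ (m + 1) := by
          rw [Real.rpow_mul (by norm_num), Real.rpow_natCast]
      _ ≤ (1 / 2 + ε) ^ (m + 1) := pow_le_pow_left₀ (by positivity) hδ.le _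
  have hlow : ∀ n : ℕ, 2 ≤ n → ((1 : ℝ) / 2) ^ n ≤ q n := by
    intro n hn
    obtain ⟨m, rfl⟩ : ∃ m, n = m + 2 := ⟨n - 2, by omega⟩
    rw [q_eq]
    refine le_trans ?_ (le_sing m)
    have h1 : ((1 : ℝ) / 2) ^ (m + 2) = (2 : ℝ) ^ (-((m : ℝ) + 2)) := by
      rw [Real.rpow_neg (by norm_num), one_div, inv_pow, ← Real.rpow_natCast]
      push_cast
      rfl
    rw [h1]
    exact Real.rpow_le_rpow_of_exponent_le (by norm_num) (by linarith)
  refine ⟨hup, hlow, ?_⟩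
  rw [Metric.tendsto_nhds]
  intro ε hε
  filter_upwards [hup (ε / 2) (half_pos hε), eventually_ge_atTop 2] with n hn hn2
  have hn0 : (n : ℝ) ≠ 0 := by
    have : 0 < n := by omega
    positivity
  have e1 : q n ^ (1 / (n : ℝ)) ≤ 1 / 2 + ε / 2 := by
    calc q n ^ (1 / (n : ℝ)) ≤ ((1 / 2 + ε / 2) ^ n) ^ (1 / (n : ℝ)) :=
          Real.rpow_le_rpow (q_nonneg n) hn (by positivity)
      _ = 1 / 2 + ε / 2 := by
          rw [← Real.rpow_natCast, ← Real.rpow_mul (by positivity), mul_one_div_cancel hn0,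
            Real.rpow_one]
  have e2 : 1 / 2 ≤ q n ^ (1 / (n : ℝ)) := by
    calc (1 : ℝ) / 2 = ((1 / 2) ^ n) ^ (1 / (n : ℝ)) := by
          rw [← Real.rpow_natCast, ← Real.rpow_mul (by norm_num), mul_one_div_cancel hn0,
            Real.rpow_one]
      _ ≤ q n ^ (1 / (n : ℝ)) := Real.rpow_le_rpow (by positivity) (hlow n hn2) (by positivity)
  rw [Real.dist_eq, abs_lt]
  constructor <;> linarith

end Vale.Agent.P160.Half.FinP
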