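import Vale.Agent.P160.Half.M67Stmt

/-! # P160, half rate, block (M), leaf (9c) of `M67Stmt`: neither sparse nor bad gives flat (helper86) -/

namespace Vale.Agent.P160.Half.M67.F86

open Finset Vale.Agent.P160 Vale.Agent.P160.Half Vale.Agent.P160.Half.Flat

/-- `|1 + ζ| ≤ 2 (3/4 + Re ζ / 4)` -/
theorem norm_one_add_le (z : ℂ) (hz : ‖z‖ = 1) : ‖1 + z‖ ≤ 2 * cf 8 z := by
  have hre : |z.re| ≤ 1 := by
    have := Complex.abs_re_le_norm z
    rwa [hz] at this
  have h1 := (abs_le.1 hre).1
  have h2 : ‖1 + z‖ ^ 2 = 2 + 2 * z.re := by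
    rw [← Complex.normSq_eq_norm_sq, Complex.normSq_apply]
    have h3 : z.re * z.re + z.im * z.im = 1 := by
      have := Complex.normSq_apply z
      rw [Complex.normSq_eq_norm_sq, hz] at this
      linarith
    simp only [Complex.add_re, Complex.one_re, Complex.add_im, Complex.one_im, zero_add]
    nlinarith
  have h4 : 2 * cf 8 z = 3 / 2 + z.re / 2 := by
    unfold cf
    push_cast
    ring
  rw [h4]
  refine (sq_le_sq₀ (norm_nonneg _) (by linarith)).1 ?_
  rw [h2]
  nlinarith [sq_nonneg (1 - z.re)]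

/-- atoms in a finite group by `gZ` -/
theorem atom_gZ {G : Type} [AddCommGroup G] [Fintype G] {m : ℕ} (y : Fin m → G) (h : G) :
    (Fintype.card G : ℝ) * (Nat.card {x : Fin m → Bool // bwalk x y = h} : ℝ) ≤ 2 ^ m * gZ 8 y := by
  classical
  have h1 := card_filter_eq_sum (fun x : Fin m → Bool => bwalk x y) h
  have h2 : (Nat.card {x : Fin m → Bool // bwalk x y = h}) =
      (univ.filter (fun x : Fin m → Bool => bwalk x y = h)).card := by
    rw [Nat.card_eq_fintype_card, Fintype.card_subtype]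
  rw [h2]
  have h3 : ((Fintype.card G : ℝ) * ((univ.filter (fun x : Fin m → Bool => bwalk x y = h)).card : ℝ)) =
      ‖(Fintype.card G : ℂ) * ((univ.filter (fun x : Fin m → Bool => bwalk x y = h)).card : ℂ)‖ := by
    rw [norm_mul, Complex.norm_natCast, Complex.norm_natCast]
  rw [h3, h1]
  refine (norm_sum_le _ _).trans ?_
  unfold gZ
  rw [mul_sum]
  refine sum_le_sum fun ψ _ => ?_
  rw [norm_mul, norm_addChar, one_mul, sum_addChar_bwalk, norm_prod]
  unfold gP
  have h5 : (2 : ℝ) ^ m * ∏ e, cf 8 (ψ (y e)) = ∏ e, (2 * cf 8 (ψ (y e))) := by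
    rw [prod_mul_distrib, prod_const, card_univ, Fintype.card_fin]
  rw [h5]
  exact prod_le_prod (fun e _ => norm_nonneg _) fun e _ => norm_one_add_le _ (norm_addChar _ _)

/-- a unimodular tuple generates `ℤ/q` -/
theorem closure_top {k q : ℕ} [NeZero q] (w : Fin k → ZMod q) (hw : M8.Unim q w) :
    AddSubgroup.closure (Set.range w) = ⊤ := by
  set K : AddSubgroup ℤ := (AddSubgroup.closure (Set.range w)).comap (Int.castAddHom (ZMod q)) with hK
  obtain ⟨g, hg⟩ := Int.subgroup_cyclic K
  have hmem : ∀ a : ℤ, a ∈ K → g ∣ a := by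
    intro a ha
    rw [hg, AddSubgroup.mem_closure_singleton] at ha
    obtain ⟨n, hn⟩ := ha
    exact ⟨n, by rw [← hn, smul_eq_mul, mul_comm]⟩
  have hgK : g ∈ K := by
    rw [hg]
    exact AddSubgroup.mem_closure_singleton_self g
  have hq : (q : ℤ) ∈ K := by
    rw [hK, AddSubgroup.mem_comap]
    simp
  have hwj : ∀ j, (((w j).val : ℕ) : ℤ) ∈ K := by
    intro j
    rw [hK, AddSubgroup.mem_comap]
    have : (Int.castAddHom (ZMod q)) (((w j).val : ℕ) : ℤ) = w j := by simp
    rw [this]
    exact AddSubgroup.subset_closure ⟨j, rfl⟩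
  have hunit : g.natAbs = 1 := by
    by_contra hne
    obtain ⟨p, hp, hpg⟩ := Nat.exists_prime_and_dvd hne
    have hpg' : (p : ℤ) ∣ g := Int.natCast_dvd.2 hpg
    have hpq : p ∣ q := by
      have := hpg'.trans (hmem _ hq)
      exact_mod_cast this
    obtain ⟨i, hi⟩ := hw p hp hpq
    apply hi
    have hpw : p ∣ (w i).val := by
      have := hpg'.trans (hmem _ (hwj i))
      exact_mod_cast this
    rw [ZMod.cast_eq_val]
    exact (ZMod.natCast_eq_zero_iff _ _).2 hpw
  have h1K : (1 : ℤ) ∈ K := by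
    have h1 : g = 1 ∨ g = -1 := Int.natAbs_eq_iff.1 (by simpa using hunit)
    rcases h1 with h1 | h1
    · rwa [← h1]
    · have := K.neg_mem hgK
      rw [h1] at this
      simpa using this
  have h1 : (1 : ZMod q) ∈ AddSubgroup.closure (Set.range w) := by
    rw [hK, AddSubgroup.mem_comap] at h1K
    simpa using h1K
  rw [eq_top_iff]
  intro x _
  have h2 : x = x.val • (1 : ZMod q) := by simp
  rw [h2]
  exact AddSubgroup.nsmul_mem _ h1 _

/-- the embedding `x ↦ ((N/q) x, 0)` -/
noncomputable def emb (q d : ℕ) : ZMod q →+ ZMod (q * d) × ZMod (q * d) :=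
  AddMonoidHom.prod (ZMod.lift q ⟨(AddMonoidHom.mulLeft ((d : ℕ) : ZMod (q * d))).comp (Int.castAddHom (ZMod (q * d))), by
    simp only [AddMonoidHom.coe_comp, Function.comp_apply, AddMonoidHom.coe_mulLeft, Int.coe_castAddHom,
      Int.cast_natCast]
    rw [← Nat.cast_mul, mul_comm d q]
    exact ZMod.natCast_self _⟩) 0

theorem emb_injective (q d : ℕ) (hd : d ≠ 0) : Function.Injective (emb q d) := by
  have h : Function.Injective (ZMod.lift q (⟨(AddMonoidHom.mulLeft ((d : ℕ) : ZMod (q * d))).comp (Int.castAddHom (ZMod (q * d))), by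
    simp only [AddMonoidHom.coe_comp, Function.comp_apply, AddMonoidHom.coe_mulLeft, Int.coe_castAddHom,
      Int.cast_natCast]
    rw [← Nat.cast_mul, mul_comm d q]
    exact ZMod.natCast_self _⟩ : {f : ℤ →+ ZMod (q * d) // f q = 0})) := by
    rw [ZMod.lift_injective]
    intro m hm
    simp only [AddMonoidHom.coe_comp, Function.comp_apply, AddMonoidHom.coe_mulLeft, Int.coe_castAddHom] at hm
    have h1 : (((d : ℤ) * m : ℤ) : ZMod (q * d)) = 0 := by
      push_cast
      exact hm
    rw [ZMod.intCast_zmod_eq_zero_iff_dvd] at h1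
    rw [ZMod.intCast_zmod_eq_zero_iff_dvd]
    have h2 : (d : ℤ) * (q : ℤ) ∣ (d : ℤ) * m := by
      have : ((q * d : ℕ) : ℤ) = (d : ℤ) * (q : ℤ) := by push_cast; ring
      rwa [this] at h1
    exact (mul_dvd_mul_iff_left (by exact_mod_cast hd)).1 h2
  intro x y hxy
  apply h
  have := congrArg Prod.fst hxy
  exact this

theorem atom_le {k q d : ℕ} (hq : q ≠ 0) (hd : d ≠ 0) (w : Fin k → ZMod q) (hw : M8.Unim q w)
    (hZ : ∀ inst : Fintype (AddSubgroup.closure (Set.range fun j => emb q d (w j))),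
      gZ 8 (toCl fun j => emb q d (w j)) ≤ 2) : M8.AtomLe q 2 w := by
  classical
  have : NeZero q := ⟨hq⟩
  have : NeZero (q * d) := ⟨mul_ne_zero hq hd⟩
  intro a
  have hmem : ∀ x : ZMod q, emb q d x ∈ AddSubgroup.closure (Set.range fun j => emb q d (w j)) := by
    intro x
    have h1 : x ∈ AddSubgroup.closure (Set.range w) := by rw [closure_top w hw]; trivial
    have h2 : emb q d x ∈ (AddSubgroup.closure (Set.range w)).map (emb q d) := ⟨x, h1, rfl⟩
    rw [AddMonoidHom.map_closure] at h2
    have h3 : (⇑(emb q d) '' Set.range w) = Set.range fun j => emb q d (w j) := by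
      rw [← Set.range_comp]; rfl
    rwa [h3] at h2
  set H := AddSubgroup.closure (Set.range fun j => emb q d (w j)) with hH
  have h0 := hZ (inferInstance : Fintype H)
  have h1 := atom_gZ (toCl fun j => emb q d (w j)) (⟨emb q d a, hmem a⟩ : H)
  have h2 : q ≤ Fintype.card H := by
    have : Fintype.card (ZMod q) ≤ Fintype.card H :=
      Fintype.card_le_of_injective (fun x => (⟨emb q d x, hmem x⟩ : H)) (by
        intro x y hxy
        exact emb_injective q d hd (congrArg Subtype.val hxy))
    rwa [ZMod.card] at this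
  have hinj := emb_injective q d hd
  have h3 : Nat.card {x : Fin k → Bool // G.bdot x w = a} ≤
      Nat.card {x : Fin k → Bool // bwalk x (toCl fun j => emb q d (w j)) = (⟨emb q d a, hmem a⟩ : H)} := by
    refine Nat.card_le_card_of_injective (fun x => ⟨x.1, ?_⟩) (fun x y hxy => ?_)
    · have hx := x.2
      apply Subtype.ext
      have h4 : (bwalk x.1 (toCl fun j => emb q d (w j)) : H).1 = ∑ e, if x.1 e then emb q d (w e) else 0 := by
        unfold bwalk
        rw [AddSubgroup.val_finsetSum]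
        refine sum_congr rfl fun e _ => ?_
        split <;> rfl
      rw [h4]
      have h6 : emb q d (G.bdot x.1 w) = emb q d a := by rw [hx]
      refine Eq.trans ?_ h6
      unfold G.bdot
      rw [map_sum]
      refine sum_congr rfl fun e _ => ?_
      split
      · rfl
      · rw [map_zero]
    · have := congrArg Subtype.val hxy
      exact Subtype.ext this
  have h5 : (Nat.card {x : Fin k → Bool // G.bdot x w = a} : ℝ) ≤
      (Nat.card {x : Fin k → Bool // bwalk x (toCl fun j => emb q d (w j)) = (⟨emb q d a, hmem a⟩ : H)} : ℝ) := by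
    exact_mod_cast h3
  rw [Fintype.card_fin]
  calc (Nat.card {x : Fin k → Bool // G.bdot x w = a} : ℝ) * q
      ≤ (Nat.card {x : Fin k → Bool // bwalk x (toCl fun j => emb q d (w j)) = (⟨emb q d a, hmem a⟩ : H)} : ℝ) *
          (Fintype.card H : ℝ) := by
        apply mul_le_mul h5 (by exact_mod_cast h2) (by positivity) (by positivity)
    _ ≤ 2 ^ k * gZ 8 (toCl fun j => emb q d (w j)) := by rw [mul_comm]; exact h1
    _ ≤ 2 ^ k * 2 := by gcongr
    _ = 2 * 2 ^ k := by ring

/-- **(9c)** -/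
theorem flat : StmtSpread → StmtFlat := by
  classical
  intro hspread k hk P hP s ω hS hB q hq w hw hker
  have hN : (∏ p ∈ P, p) ≠ 0 := Finset.prod_ne_zero_iff.2 fun p hp => (hP p hp).ne_zero
  obtain ⟨d, hd⟩ := hq
  have hq0 : q ≠ 0 := fun h => hN (by rw [hd, h, zero_mul])
  have hd0 : d ≠ 0 := fun h => hN (by rw [hd, h, mul_zero])
  have hspread' := hspread k P hP
  unfold Bad at hB
  rw [hd] at hspread' hB
  have hz : ∀ i, ∑ j, (mt (stL (2 * k - 1)) ω) i j • emb q d (w j) = 0 := by
    intro i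
    have h1 := hker i
    unfold gwL at h1
    have h2 := congrArg (emb q d) h1
    rw [map_sum, map_zero] at h2
    rw [← h2]
    refine sum_congr rfl fun j _ => ?_
    rw [map_zsmul]
    rfl
  have hNZ : NeZero (q * d) := ⟨mul_ne_zero hq0 hd0⟩
  have h1 := hspread' hNZ s _ hS (fun j => emb q d (w j)) hz
  refine atom_le hq0 hd0 w hw fun inst => ?_
  by_contra hcon
  push Not at hcon
  apply hB
  refine ⟨hNZ, fun j => emb q d (w j), hz, h1, ?_⟩
  have h2 : (1 : ℝ) + 1 / k ≤ 2 := by
    have : (1 : ℝ) / k ≤ 1 := by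
      rw [div_le_one (by exact_mod_cast hk)]
      exact_mod_cast hk
    linarith
  refine lt_of_le_of_lt h2 ?_
  convert hcon

end Vale.Agent.P160.Half.M67.F86
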