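import Vale.Agent.P160.Half.M67Stmt

/-! # P160, half rate, (9c) of `M67Stmt`: neither sparse nor bad gives flat (helper489) -/

namespace Vale.Agent.P160.Half.M67

open Finset Vale.Agent.P160 Vale.Agent.P160.Half Vale.Agent.P160.Half.Flat

/-- a unimodular family generates -/
theorem closure_unim {ι : Type*} {q : ℕ} [NeZero q] {w : ι → ZMod q} (hw : M8.Unim q w) :
    AddSubgroup.closure (Set.range w) = ⊤ := by
  obtain ⟨I, hI⟩ : ∃ I : Ideal ℤ, I = Ideal.span (insert (q : ℤ) (Set.range fun j => ((w j).val : ℤ))) := ⟨_, rfl⟩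
  obtain ⟨g, hg⟩ := (IsPrincipalIdealRing.principal I).principal
  have hdvd : ∀ n ∈ I, g ∣ n := by
    intro n hn
    rw [hg] at hn
    exact Ideal.mem_span_singleton.1 hn
  have hqI : (q : ℤ) ∈ I := by rw [hI]; exact Ideal.subset_span (Set.mem_insert _ _)
  have hwI : ∀ j, ((w j).val : ℤ) ∈ I := fun j => by
    rw [hI]; exact Ideal.subset_span (Set.mem_insert_of_mem _ ⟨j, rfl⟩)
  by_cases hu : g.natAbs = 1
  · have h1 : (1 : ℤ) ∈ I := by
      rw [hg]
      exact Ideal.mem_span_singleton.2 (Int.natAbs_dvd.1 (by rw [hu]; exact one_dvd _))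
    have key : ∀ n ∈ I, ((n : ℤ) : ZMod q) ∈ AddSubgroup.closure (Set.range w) := by
      intro n hn
      rw [hI] at hn
      induction hn using Submodule.span_induction with
      | mem x hx =>
        rcases hx with hx | ⟨j, hj⟩
        · rw [hx]
          have : (((q : ℕ) : ℤ) : ZMod q) = 0 := by rw [Int.cast_natCast]; exact ZMod.natCast_self q
          rw [this]
          exact zero_mem _
        · have : ((x : ℤ) : ZMod q) = w j := by
            rw [← hj]
            simp
          rw [this]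
          exact AddSubgroup.subset_closure ⟨j, rfl⟩
      | zero => rw [Int.cast_zero]; exact zero_mem _
      | add x y _ _ hx hy => rw [Int.cast_add]; exact add_mem hx hy
      | smul a x _ hx =>
        have : ((a • x : ℤ) : ZMod q) = a • ((x : ℤ) : ZMod q) := by
          rw [smul_eq_mul, Int.cast_mul, zsmul_eq_mul]
        rw [this]
        exact zsmul_mem hx a
    have h2 := key 1 h1
    rw [Int.cast_one] at h2
    rw [eq_top_iff]
    intro x _
    have h3 : x = x.val • (1 : ZMod q) := by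
      rw [nsmul_eq_mul, mul_one, ZMod.natCast_val, ZMod.cast_id]
    rw [h3]
    exact nsmul_mem h2 _
  · exfalso
    obtain ⟨p, hp, hpg⟩ := Nat.exists_prime_and_dvd hu
    have hpg' : (p : ℤ) ∣ g := Int.natCast_dvd.2 hpg
    have hpq : p ∣ q := Int.natCast_dvd_natCast.1 (hpg'.trans (hdvd _ hqI))
    obtain ⟨i, hi⟩ := hw p hp hpq
    apply hi
    have h4 : p ∣ (w i).val := Int.natCast_dvd_natCast.1 (hpg'.trans (hdvd _ (hwI i)))
    rw [← ZMod.natCast_val]
    exact (ZMod.natCast_eq_zero_iff _ _).2 h4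

/-- atoms of a random subset sum -/
theorem atom_le {H : Type} [AddCommGroup H] [Fintype H] {m : ℕ} (y : Fin m → H) (h : H) :
    (Nat.card {b : Fin m → Bool // bwalk b y = h} : ℝ) * Nat.card H ≤ gZ 8 y * 2 ^ m := by
  classical
  have h1 := bpr_le_gpr (le_refl 8) (id : Fin m → Fin m) Function.injective_id y h
  have h2 := gpr_zero_eq (by norm_num : 2 ≤ 8) y
  have h3 : (Nat.card {b : Fin m → Bool // bwalk b y = h} : ℝ) = bpr y h * 2 ^ m := by
    unfold bpr
    rw [Fintype.card_fin, div_mul_cancel₀ _ (by positivity), Nat.card_eq_fintype_card, Fintype.card_subtype]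
  have h4 : gZ 8 y = Fintype.card H * gpr 8 y 0 := by
    rw [h2]
    rfl
  rw [h3, h4, Nat.card_eq_fintype_card]
  have h5 : bpr y h ≤ gpr 8 y 0 := h1
  calc bpr y h * 2 ^ m * (Fintype.card H : ℝ) = Fintype.card H * bpr y h * 2 ^ m := by ring
    _ ≤ Fintype.card H * gpr 8 y 0 * 2 ^ m := by gcongr

/-- the embedding `ℤ/q → ℤ/(qt) × ℤ/(qt)`, `x ↦ (t x, 0)` -/
theorem exists_emb (q t N : ℕ) (hN : N = q * t) (ht : t ≠ 0) :
    ∃ f : ZMod q →+ ZMod N × ZMod N, Function.Injective f := by
  let g : ℤ →+ ZMod N × ZMod N := zmultiplesHom _ (((t : ℕ) : ZMod N), (0 : ZMod N))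
  have hg : g (q : ℤ) = 0 := by
    change (q : ℤ) • (((t : ℕ) : ZMod N), (0 : ZMod N)) = 0
    rw [natCast_zsmul, Prod.smul_mk, smul_zero, nsmul_eq_mul, ← Nat.cast_mul, ← hN, ZMod.natCast_self]
    rfl
  refine ⟨ZMod.lift q ⟨g, hg⟩, ?_⟩
  rw [ZMod.lift_injective]
  intro m hm
  have h1 : (m : ℤ) • (((t : ℕ) : ZMod N), (0 : ZMod N)) = 0 := hm
  rw [Prod.smul_mk] at h1
  have h2 := congrArg Prod.fst h1
  change m • ((t : ℕ) : ZMod N) = 0 at h2
  have h3 : (((m * t : ℤ)) : ZMod N) = 0 := by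
    rw [Int.cast_mul, Int.cast_natCast, ← zsmul_eq_mul]
    exact h2
  rw [ZMod.intCast_zmod_eq_zero_iff_dvd, hN] at h3
  rw [ZMod.intCast_zmod_eq_zero_iff_dvd]
  push_cast at h3
  exact Int.dvd_of_mul_dvd_mul_right (by exact_mod_cast ht) h3

/-- **(9c)** from (9a) -/
theorem flat_of (hS : StmtSpread) : StmtFlat := by
  classical
  intro k hk P hP s ω hsp hbad q hq w hw hker a
  have hN0 : (∏ p ∈ P, p) ≠ 0 := Finset.prod_ne_zero_iff.2 fun p hp => (hP p hp).ne_zero
  have : NeZero (∏ p ∈ P, p) := ⟨hN0⟩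
  obtain ⟨t, ht⟩ := hq
  have hq0 : q ≠ 0 := fun h => hN0 (by rw [ht, h, zero_mul])
  have ht0 : t ≠ 0 := fun h => hN0 (by rw [ht, h, mul_zero])
  have : NeZero q := ⟨hq0⟩
  obtain ⟨f, hf⟩ := exists_emb q t _ ht ht0
  have hz : ∀ i, ∑ j, mt (stL (2 * k - 1)) ω i j • f (w j) = 0 := by
    intro i
    have h1 : ∑ j, mt (stL (2 * k - 1)) ω i j • f (w j) = f (gwL (2 * k - 1) (ω i) w) := by
      unfold gwL
      rw [map_sum]
      exact Finset.sum_congr rfl fun j _ => (map_zsmul f _ _).symm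
    rw [h1, hker i, map_zero]
  have hns : NonSp s (toCl fun j => f (w j)) := hS k P hP ⟨hN0⟩ s _ hsp _ hz
  have hcl : AddSubgroup.closure (Set.range fun j => f (w j)) = f.range := by
    have h1 : (Set.range fun j => f (w j)) = f '' Set.range w := by
      rw [← Set.range_comp]
      rfl
    rw [h1, ← AddMonoidHom.map_closure, closure_unim hw, AddMonoidHom.range_eq_map]
  have hcard : (q : ℝ) ≤ Nat.card (AddSubgroup.closure (Set.range fun j => f (w j))) := by
    have h1 : q ≤ Nat.card (AddSubgroup.closure (Set.range fun j => f (w j))) := by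
      rw [hcl]
      have h2 : Nat.card (ZMod q) = q := Nat.card_zmod q
      have h3 : Nat.card (ZMod q) = Nat.card f.range := Nat.card_congr (AddMonoidHom.ofInjective hf).toEquiv
      rw [← h3, h2]
    exact_mod_cast h1
  have hfl : gZ 8 (toCl fun j => f (w j)) ≤ 1 + 1 / k := by
    by_contra h
    refine hbad ⟨⟨hN0⟩, fun j => f (w j), hz, hns, ?_⟩
    rw [not_le] at h
    convert h
  have ha : f a ∈ AddSubgroup.closure (Set.range fun j => f (w j)) := by
    rw [hcl]
    exact ⟨a, rfl⟩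
  have h1 := atom_le (toCl fun j => f (w j)) ⟨f a, ha⟩
  have h2 : (Nat.card {x : Fin k → Bool // G.bdot x w = a} : ℝ) ≤
      Nat.card {b : Fin k → Bool // bwalk b (toCl fun j => f (w j)) = ⟨f a, ha⟩} := by
    have : Nat.card {x : Fin k → Bool // G.bdot x w = a} ≤
        Nat.card {b : Fin k → Bool // bwalk b (toCl fun j => f (w j)) = ⟨f a, ha⟩} := by
      refine Nat.card_le_card_of_injective (fun x => ⟨x.1, ?_⟩) fun x y h => Subtype.ext (by simpa using h)
      apply Subtype.ext
      have h3 := congrArg f x.2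
      unfold G.bdot at h3
      rw [map_sum] at h3
      unfold bwalk
      rw [AddSubgroup.val_finsetSum]
      refine Eq.trans (Finset.sum_congr rfl fun j _ => ?_) h3
      by_cases hx : x.1 j = true
      · rw [if_pos hx, if_pos hx]
        rfl
      · rw [if_neg hx, if_neg hx, map_zero]
        rfl
    exact_mod_cast this
  have hk1 : (1 : ℝ) / k ≤ 1 := by
    rw [div_le_one (by exact_mod_cast hk)]
    exact_mod_cast hk
  have h3 : (Nat.card {x : Fin k → Bool // G.bdot x w = a} : ℝ) * q ≤ 2 * 2 ^ k := by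
    calc (Nat.card {x : Fin k → Bool // G.bdot x w = a} : ℝ) * q ≤
        Nat.card {b : Fin k → Bool // bwalk b (toCl fun j => f (w j)) = ⟨f a, ha⟩} *
          Nat.card (AddSubgroup.closure (Set.range fun j => f (w j))) := by gcongr
      _ ≤ gZ 8 (toCl fun j => f (w j)) * 2 ^ k := h1
      _ ≤ 2 * 2 ^ k := by
        gcongr
        linarith
  rw [Fintype.card_fin]
  exact h3

end Vale.Agent.P160.Half.M67
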