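import Vale.Agent.P160.Half.FlatI

/-! COUNT (986, note 11105): the final count from the four leaves. -/

namespace Vale.Agent.P160.Half.Flat.C

open Finset Vale.Agent.P160 Vale.Agent.P160.Half.Flat

section

variable {G : Type} [AddCommGroup G] [Fintype G]

lemma mem_bohr {S : Finset (AddChar G ℂ)} {r : ℝ} {v : G} :
    v ∈ bohr S r ↔ ∀ ψ ∈ S, ‖ψ v - 1‖ ≤ r := by
  classical
  unfold bohr
  simp

lemma mem_Lam {m : ℕ} {y : Fin m → G} {t : ℝ} {ψ : AddChar G ℂ} :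
    ψ ∈ Lam y t ↔ ψ ≠ 1 ∧ t ≤ gP 8 y ψ := by
  classical
  unfold Lam
  simp

/-- selection of few characters with a small Bohr set -/
lemma sel (hS : StmtSplit) (Λ : Finset (AddChar G ℂ)) (hΛ : Λ.Nonempty) (J : ℕ) (θ : ℝ)
    (h8 : 8 ≤ θ * J) (hθ : 0 < θ)
    (hp : ∀ p : ℕ, p.Prime → p ∣ Fintype.card G → J ≤ p) (a : ℕ) :
    ∃ S ⊆ Λ, S.Nonempty ∧ S.card ≤ a + 1 ∧
      ((Λ.card : ℝ) * (bohr S (1 / J)).card * θ ^ 2 ≤ 256 * Fintype.card G ∨
       ((bohr S (1 / J)).card : ℝ) ≤ θ ^ a * Fintype.card G) := by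
  classical
  induction a with
  | zero =>
    obtain ⟨ψ, hψ⟩ := hΛ
    refine ⟨{ψ}, by simpa using hψ, by simp, by simp, Or.inr ?_⟩
    rw [pow_zero, one_mul]
    exact_mod_cast card_le_univ _
  | succ a ih =>
    obtain ⟨S, hSΛ, hSn, hSc, h⟩ := ih
    by_cases hl : (Λ.card : ℝ) * (bohr S (1 / J)).card * θ ^ 2 ≤ 256 * Fintype.card G
    · exact ⟨S, hSΛ, hSn, by omega, Or.inl hl⟩
    · have hr := h.resolve_left hl
      have hex : ∃ ψ ∈ Λ, (((bohr S (1 / J)).filter fun v => ‖ψ v - 1‖ ≤ 1 / J).card : ℝ) <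
          θ * (bohr S (1 / J)).card := by
        by_contra hcon
        push Not at hcon
        exact hl (hS G Λ (bohr S (1 / J)) J θ h8 hp hcon)
      obtain ⟨ψ, hψ, hψc⟩ := hex
      refine ⟨insert ψ S, insert_subset hψ hSΛ, insert_nonempty _ _,
        (card_insert_le _ _).trans (by omega), Or.inr ?_⟩
      have he : bohr (insert ψ S) (1 / J) = (bohr S (1 / J)).filter fun v => ‖ψ v - 1‖ ≤ 1 / J := by
        ext v
        rw [mem_filter, mem_bohr, mem_bohr]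
        constructor
        · intro hv
          exact ⟨fun φ hφ => hv φ (mem_insert_of_mem hφ), hv ψ (mem_insert_self _ _)⟩
        · rintro ⟨h1, h2⟩ φ hφ
          rcases mem_insert.1 hφ with rfl | hφ
          · exact h2
          · exact h1 φ hφ
      rw [he]
      refine hψc.le.trans ?_
      calc θ * (bohr S (1 / J)).card ≤ θ * (θ ^ a * Fintype.card G) :=
            mul_le_mul_of_nonneg_left hr hθ.le
        _ = θ ^ (a + 1) * Fintype.card G := by ring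

lemma cf8 {z : ℂ} (hz : ‖z‖ = 1) : cf 8 z = 1 - ‖z - 1‖ ^ 2 / 8 := by
  have h1 : ‖z - 1‖ ^ 2 = (z.re - 1) ^ 2 + z.im ^ 2 := by
    rw [← Complex.normSq_eq_norm_sq, Complex.normSq_apply]
    simp
    ring
  have h2 : z.re ^ 2 + z.im ^ 2 = 1 := by
    have := Complex.normSq_eq_norm_sq z
    rw [hz, Complex.normSq_apply] at this
    nlinarith
  rw [h1]
  unfold cf
  push_cast
  nlinarith

open scoped Classical in
/-- few coordinates far from the kernel -/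
lemma few {m : ℕ} (y : Fin m → G) (ψ : AddChar G ℂ) {t ρ : ℝ} (ht : 0 < t) (hρ : 0 < ρ)
    (h : t ≤ gP 8 y ψ) :
    ((univ.filter fun c => ¬ ‖ψ (y c) - 1‖ ≤ ρ).card : ℝ) * ρ ^ 2 ≤ 8 * (-Real.log t) := by
  have h1 : gP 8 y ψ ≤ Real.exp (-(∑ c, ‖ψ (y c) - 1‖ ^ 2) / 8) := by
    unfold gP
    have : -(∑ c, ‖ψ (y c) - 1‖ ^ 2) / 8 = ∑ c, (-(‖ψ (y c) - 1‖ ^ 2 / 8)) := by
      rw [sum_neg_distrib, ← sum_div, neg_div]
    rw [this, Real.exp_sum]
    refine prod_le_prod (fun c _ => cf_nonneg (by norm_num) (norm_addChar ψ _)) fun c _ => ?_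
    rw [cf8 (norm_addChar ψ _)]
    have := Real.add_one_le_exp (-(‖ψ (y c) - 1‖ ^ 2 / 8))
    linarith
  have h2 : Real.log t ≤ -(∑ c, ‖ψ (y c) - 1‖ ^ 2) / 8 := by
    rw [← Real.log_exp (-(∑ c, ‖ψ (y c) - 1‖ ^ 2) / 8)]
    exact Real.log_le_log ht (h.trans h1)
  have h3 : ((univ.filter fun c => ¬ ‖ψ (y c) - 1‖ ≤ ρ).card : ℝ) * ρ ^ 2 ≤
      ∑ c, ‖ψ (y c) - 1‖ ^ 2 := by
    rw [← nsmul_eq_mul, ← sum_const]
    refine (sum_le_sum fun c hc => ?_).trans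
      (sum_le_sum_of_subset_of_nonneg (filter_subset (fun c => ¬ ‖ψ (y c) - 1‖ ≤ ρ) univ)
        fun _ _ _ => by positivity)
    rw [mem_filter] at hc
    have := hc.2
    push Not at this
    exact pow_le_pow_left₀ hρ.le this.le 2
  linarith

open scoped Classical in
/-- structure of a nonsparse vector with many large characters -/
lemma struct (hG : StmtGrowth) (hS : StmtSplit) {m : ℕ} (y : Fin m → G) {e t K θ ρ : ℝ} {J a N₀ : ℕ}
    (ht : 0 < t) (h8 : 8 ≤ θ * J) (hθ : 0 < θ) (hρ : 0 < ρ) (hJ : 0 < J)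
    (hρJ : 20 * ρ ≤ 1 / J)
    (hp : ∀ p : ℕ, p.Prime → p ∣ Fintype.card G → J ≤ p) (hy : NonSp e y)
    (hK1 : 1 ≤ K) (hK : K ≤ (Lam y t).card) (ha : θ ^ a * θ ^ 2 * K ≤ 256)
    (hN : (a + 1) * (8 * (-Real.log t)) / ρ ^ 2 ≤ N₀) (hNe : (N₀ : ℝ) < e) :
    ∃ S : Finset (AddChar G ℂ), S.Nonempty ∧ S.card ≤ a + 1 ∧
      ((bohr S ρ).card : ℝ) ≤ 25600 * ρ * J / (K * θ ^ 2) * Fintype.card G ∧
      (univ.filter fun c => y c ∉ bohr S ρ).card ≤ N₀ := by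
  have hne : (Lam y t).Nonempty := by
    rw [← card_pos]
    have : (0 : ℝ) < (Lam y t).card := lt_of_lt_of_le (by linarith) hK
    exact_mod_cast this
  obtain ⟨S, hSΛ, hSn, hSc, h⟩ := sel hS (Lam y t) hne J θ h8 hθ hp a
  have hG0 : (0 : ℝ) ≤ Fintype.card G := by positivity
  have hB : K * (bohr S (1 / J)).card * θ ^ 2 ≤ 256 * Fintype.card G := by
    rcases h with h | h
    · refine le_trans ?_ h
      gcongr
    · calc K * (bohr S (1 / J)).card * θ ^ 2 ≤ K * (θ ^ a * Fintype.card G) * θ ^ 2 := by gcongr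
        _ = (θ ^ a * θ ^ 2 * K) * Fintype.card G := by ring
        _ ≤ 256 * Fintype.card G := by gcongr
  have hfew : (univ.filter fun c => y c ∉ bohr S ρ).card ≤ N₀ := by
    have h1 : (univ.filter fun c => y c ∉ bohr S ρ) ⊆
        S.biUnion fun ψ => univ.filter fun c => ¬ ‖ψ (y c) - 1‖ ≤ ρ := by
      intro c hc
      rw [mem_filter, mem_bohr] at hc
      have h2 := hc.2
      push Not at h2
      obtain ⟨ψ, hψ, h3⟩ := h2
      rw [mem_biUnion]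
      exact ⟨ψ, hψ, by rw [mem_filter]; exact ⟨mem_univ _, not_le.2 h3⟩⟩
    have h2 : ((univ.filter fun c => y c ∉ bohr S ρ).card : ℝ) ≤
        ∑ ψ ∈ S, ((univ.filter fun c => ¬ ‖ψ (y c) - 1‖ ≤ ρ).card : ℝ) := by
      exact_mod_cast (card_le_card h1).trans card_biUnion_le
    have h3 : ∑ ψ ∈ S, ((univ.filter fun c => ¬ ‖ψ (y c) - 1‖ ≤ ρ).card : ℝ) ≤
        ∑ ψ ∈ S, 8 * (-Real.log t) / ρ ^ 2 := by
      refine sum_le_sum fun ψ hψ => ?_
      rw [le_div_iff₀ (by positivity)]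
      exact few y ψ ht hρ (mem_Lam.1 (hSΛ hψ)).2
    have h4 : 0 ≤ 8 * (-Real.log t) / ρ ^ 2 := by
      obtain ⟨ψ, hψ⟩ := hSn
      have := few y ψ ht hρ (mem_Lam.1 (hSΛ hψ)).2
      have h5 : (0 : ℝ) ≤ ((univ.filter fun c => ¬ ‖ψ (y c) - 1‖ ≤ ρ).card : ℝ) * ρ ^ 2 := by
        positivity
      have h6 : 0 ≤ 8 * (-Real.log t) := h5.trans this
      positivity
    rw [sum_const, nsmul_eq_mul] at h3
    have h5 : (S.card : ℝ) * (8 * (-Real.log t) / ρ ^ 2) ≤ N₀ := by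
      refine le_trans ?_ hN
      rw [mul_div_assoc (a := ((a : ℝ) + 1))]
      refine mul_le_mul_of_nonneg_right ?_ h4
      exact_mod_cast hSc
    exact_mod_cast (h2.trans h3).trans h5
  refine ⟨S, hSn, hSc, ?_, hfew⟩
  have hJ' : (0 : ℝ) < J := by exact_mod_cast hJ
  have hJ1 : (1 : ℝ) / J ≤ 1 := by
    rw [div_le_one hJ']
    exact_mod_cast hJ
  rcases hG G S ρ (1 / J) hρ hρJ hJ1 with h1 | h1
  · exfalso
    obtain ⟨ψ, hψ⟩ := hSn
    have h2 := hy ψ (mem_Lam.1 (hSΛ hψ)).1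
    have h3 : (univ.filter fun c => ψ (y c) ≠ 1).card ≤ (univ.filter fun c => y c ∉ bohr S ρ).card := by
      refine card_le_card fun c hc => ?_
      rw [mem_filter] at hc ⊢
      exact ⟨mem_univ _, fun hb => hc.2 (h1 _ hb ψ hψ)⟩
    have h4 : ((univ.filter fun c => ψ (y c) ≠ 1).card : ℝ) ≤ N₀ := by
      exact_mod_cast h3.trans hfew
    have h5 : e ≤ (N₀ : ℝ) := by
      refine le_trans ?_ h4
      convert h2
    linarith
  · have hK0 : 0 < K * θ ^ 2 := by positivity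
    rw [mul_one_div, div_le_iff₀ hJ'] at h1
    have h2 : ((bohr S (1 / J)).card : ℝ) ≤ 256 * Fintype.card G / (K * θ ^ 2) := by
      rw [le_div_iff₀ hK0]
      linarith
    calc ((bohr S ρ).card : ℝ) ≤ 100 * ρ * (bohr S (1 / J)).card * J := h1
      _ ≤ 100 * ρ * (256 * Fintype.card G / (K * θ ^ 2)) * J := by gcongr
      _ = 25600 * ρ * J / (K * θ ^ 2) * Fintype.card G := by ring

/-- a nonempty finset of size at most `L` is the image of a map from `Fin L` -/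
lemma exists_fun {α : Type*} [DecidableEq α] (S : Finset α) (hS : S.Nonempty) {L : ℕ}
    (hL : S.card ≤ L) : ∃ f : Fin L → α, univ.image f = S := by
  have e := S.equivFin
  obtain ⟨x, hx⟩ := hS
  refine ⟨fun i => if h : i.val < S.card then (e.symm ⟨i.val, h⟩ : α) else x, ?_⟩
  ext z
  rw [mem_image]
  constructor
  · rintro ⟨i, _, rfl⟩
    split_ifs with h
    · exact (e.symm ⟨i.val, h⟩).2
    · exact hx
  · intro hz
    refine ⟨⟨(e ⟨z, hz⟩).val, lt_of_lt_of_le (e ⟨z, hz⟩).2 hL⟩, mem_univ _, ?_⟩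
    rw [dif_pos (e ⟨z, hz⟩).2]
    simp

open scoped Classical in
/-- vectors with few coordinates outside a fixed set -/
lemma card_out {m : ℕ} (B : Finset G) {u : ℝ} (hu0 : 0 < u) (hu1 : u ≤ 1)
    (hB : (B.card : ℝ) ≤ u * Fintype.card G) {N₀ : ℕ} (hN : N₀ ≤ m) :
    ((univ.filter fun y : Fin m → G => (univ.filter fun c => y c ∉ B).card ≤ N₀).card : ℝ) ≤
      2 ^ m * ((Fintype.card G : ℝ) ^ m * u ^ (m - N₀)) := by
  have hG0 : (0 : ℝ) ≤ Fintype.card G := by positivity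
  have h1 : (univ.filter fun y : Fin m → G => (univ.filter fun c => y c ∉ B).card ≤ N₀) ⊆
      ((univ : Finset (Finset (Fin m))).filter fun D => D.card ≤ N₀).biUnion fun D =>
        Fintype.piFinset fun c => if c ∈ D then (univ : Finset G) else B := by
    intro y hy
    rw [mem_filter] at hy
    rw [mem_biUnion]
    refine ⟨univ.filter fun c => y c ∉ B, by rw [mem_filter]; exact ⟨mem_univ _, hy.2⟩, ?_⟩
    rw [Fintype.mem_piFinset]
    intro c
    split_ifs with h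
    · exact mem_univ _
    · rw [mem_filter] at h
      by_contra hc
      exact h ⟨mem_univ _, hc⟩
  have h2 : ∀ D ∈ ((univ : Finset (Finset (Fin m))).filter fun D => D.card ≤ N₀),
      ((Fintype.piFinset fun c => if c ∈ D then (univ : Finset G) else B).card : ℝ) ≤
        (Fintype.card G : ℝ) ^ m * u ^ (m - N₀) := by
    intro D hD
    rw [mem_filter] at hD
    rw [Fintype.card_piFinset]
    push_cast
    have h3 : ∀ c, (((if c ∈ D then (univ : Finset G) else B).card : ℕ) : ℝ) ≤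
        Fintype.card G * (if c ∈ D then 1 else u) := by
      intro c
      split_ifs
      · rw [mul_one, card_univ]
      · rw [mul_comm]; exact hB
    refine (prod_le_prod (fun c _ => by positivity) fun c _ => h3 c).trans ?_
    rw [prod_mul_distrib, prod_const, card_univ, Fintype.card_fin]
    refine mul_le_mul_of_nonneg_left ?_ (by positivity)
    rw [prod_ite, prod_const_one, one_mul, prod_const]
    refine pow_le_pow_of_le_one hu0.le hu1 ?_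
    have h4 : (univ.filter fun c => c ∉ D).card = m - D.card := by
      have : (univ.filter fun c => c ∉ D) = Dᶜ := by
        ext c; simp
      rw [this, card_compl, Fintype.card_fin]
    rw [h4]
    have := hD.2
    omega
  have h3 := (card_le_card h1).trans card_biUnion_le
  have h4 : ((univ.filter fun y : Fin m → G => (univ.filter fun c => y c ∉ B).card ≤ N₀).card : ℝ) ≤
      ∑ D ∈ ((univ : Finset (Finset (Fin m))).filter fun D => D.card ≤ N₀),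
        ((Fintype.piFinset fun c => if c ∈ D then (univ : Finset G) else B).card : ℝ) := by
    exact_mod_cast h3
  refine h4.trans ((sum_le_sum h2).trans ?_)
  rw [sum_const, nsmul_eq_mul]
  refine mul_le_mul_of_nonneg_right ?_ (by positivity)
  calc ((((univ : Finset (Finset (Fin m))).filter fun D => D.card ≤ N₀).card : ℕ) : ℝ)
      ≤ ((univ : Finset (Finset (Fin m))).card : ℕ) := by
        exact_mod_cast card_le_card (filter_subset _ _)
    _ = 2 ^ m := by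
        rw [card_univ, Fintype.card_finset, Fintype.card_fin]
        push_cast
        rfl

open scoped Classical in
/-- the covering count -/
lemma cover {m L : ℕ} {ρ u : ℝ} (hu0 : 0 < u) (hu1 : u ≤ 1) {N₀ : ℕ} (hN : N₀ ≤ m) :
    ((univ.filter fun y : Fin m → G => ∃ S : Finset (AddChar G ℂ), S.Nonempty ∧ S.card ≤ L ∧
      ((bohr S ρ).card : ℝ) ≤ u * Fintype.card G ∧
      (univ.filter fun c => y c ∉ bohr S ρ).card ≤ N₀).card : ℝ) ≤
      (Fintype.card G : ℝ) ^ L * (2 ^ m * ((Fintype.card G : ℝ) ^ m * u ^ (m - N₀))) := by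
  have hG0 : (0 : ℝ) ≤ Fintype.card G := by positivity
  set F : (Fin L → AddChar G ℂ) → Finset (Fin m → G) := fun f =>
    if ((bohr (univ.image f) ρ).card : ℝ) ≤ u * Fintype.card G then
      univ.filter fun y : Fin m → G =>
        (univ.filter fun c => y c ∉ bohr (univ.image f) ρ).card ≤ N₀
    else ∅ with hF
  have h1 : (univ.filter fun y : Fin m → G => ∃ S : Finset (AddChar G ℂ), S.Nonempty ∧
      S.card ≤ L ∧ ((bohr S ρ).card : ℝ) ≤ u * Fintype.card G ∧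
      (univ.filter fun c => y c ∉ bohr S ρ).card ≤ N₀) ⊆
      (univ : Finset (Fin L → AddChar G ℂ)).biUnion F := by
    intro y hy
    rw [mem_filter] at hy
    obtain ⟨_, S, hSn, hSc, hSB, hSN⟩ := hy
    obtain ⟨f, hf⟩ := exists_fun S hSn hSc
    rw [mem_biUnion]
    refine ⟨f, mem_univ _, ?_⟩
    rw [hF]
    simp only [hf]
    rw [if_pos hSB, mem_filter]
    exact ⟨mem_univ _, hSN⟩
  have h2 : ∀ f ∈ (univ : Finset (Fin L → AddChar G ℂ)), ((F f).card : ℝ) ≤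
      2 ^ m * ((Fintype.card G : ℝ) ^ m * u ^ (m - N₀)) := by
    intro f _
    rw [hF]
    by_cases hb : ((bohr (univ.image f) ρ).card : ℝ) ≤ u * Fintype.card G
    · simp only [if_pos hb]
      exact card_out _ hu0 hu1 hb hN
    · simp only [if_neg hb, card_empty]
      push_cast
      positivity
  have h3 := (card_le_card h1).trans card_biUnion_le
  have h4 : ((univ.filter fun y : Fin m → G => ∃ S : Finset (AddChar G ℂ), S.Nonempty ∧
      S.card ≤ L ∧ ((bohr S ρ).card : ℝ) ≤ u * Fintype.card G ∧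
      (univ.filter fun c => y c ∉ bohr S ρ).card ≤ N₀).card : ℝ) ≤
      ∑ f ∈ (univ : Finset (Fin L → AddChar G ℂ)), ((F f).card : ℝ) := by
    exact_mod_cast h3
  refine h4.trans ((sum_le_sum h2).trans ?_)
  rw [sum_const, nsmul_eq_mul, card_univ, Fintype.card_fun, Fintype.card_fin, AddChar.card_eq]
  push_cast
  exact le_rfl

open scoped Classical in
/-- medium levels -/
lemma medium (hG : StmtGrowth) (hS : StmtSplit) {m : ℕ} {e t K θ ρ : ℝ} {J a N₀ : ℕ}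
    (ht : 0 < t) (h8 : 8 ≤ θ * J) (hθ : 0 < θ) (hρ : 0 < ρ) (hJ : 0 < J)
    (hρJ : 20 * ρ ≤ 1 / J)
    (hp : ∀ p : ℕ, p.Prime → p ∣ Fintype.card G → J ≤ p)
    (hK0 : 0 < K) (ha : θ ^ a * θ ^ 2 * max 1 K ≤ 256)
    (hN : (a + 1) * (8 * (-Real.log t)) / ρ ^ 2 ≤ N₀) (hNe : (N₀ : ℝ) < e) (hNm : N₀ ≤ m)
    (hu : 25600 * ρ * J / (max 1 K * θ ^ 2) ≤ 1) :
    ((univ.filter fun y : Fin m → G => NonSp e y ∧ K ≤ (Lam y t).card).card : ℝ) ≤
      (Fintype.card G : ℝ) ^ (a + 1) * (2 ^ m * ((Fintype.card G : ℝ) ^ m *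
        (25600 * ρ * J / (max 1 K * θ ^ 2)) ^ (m - N₀))) := by
  have hJ' : (0 : ℝ) < J := by exact_mod_cast hJ
  have hK1 : 0 < max 1 K := lt_of_lt_of_le one_pos (le_max_left _ _)
  have hu0 : 0 < 25600 * ρ * J / (max 1 K * θ ^ 2) := by positivity
  refine le_trans ?_ (cover (G := G) (L := a + 1) (ρ := ρ) hu0 hu hNm)
  have : (univ.filter fun y : Fin m → G => NonSp e y ∧ K ≤ (Lam y t).card) ⊆
      (univ.filter fun y : Fin m → G => ∃ S : Finset (AddChar G ℂ), S.Nonempty ∧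
      S.card ≤ a + 1 ∧ ((bohr S ρ).card : ℝ) ≤ 25600 * ρ * J / (max 1 K * θ ^ 2) * Fintype.card G ∧
      (univ.filter fun c => y c ∉ bohr S ρ).card ≤ N₀) := by
    intro y hy
    rw [mem_filter] at hy ⊢
    refine ⟨mem_univ _, ?_⟩
    have h1 : max 1 K ≤ (Lam y t).card := by
      refine max_le ?_ hy.2.2
      have : (0 : ℝ) < (Lam y t).card := lt_of_lt_of_le hK0 hy.2.2
      have : 0 < (Lam y t).card := by exact_mod_cast this
      exact_mod_cast this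
    obtain ⟨S, h2, h3, h4, h5⟩ := struct hG hS y ht h8 hθ hρ hJ hρJ hp hy.2.1 (le_max_left 1 K)
      h1 ha hN hNe
    refine ⟨S, h2, h3, h4, ?_⟩
    convert h5
  exact_mod_cast card_le_card this

open scoped Classical in
/-- high levels -/
lemma high (hL : StmtLarge) {m k l : ℕ} {c K t V : ℝ} (ht : 0 < t)
    (hGc : (Fintype.card G : ℝ) * (3 / 4) ^ m ≤ Real.exp (-c * k)) (hl : (8 : ℝ) ^ l ≤ K)
    (hKt : Real.exp (-(7 * Real.log k)) ≤ K / 2 * t) (hc : 7 * Real.log k ≤ c / 2 * k)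
    (hV : Real.exp (-(c / 2 * k * l)) ≤ V) :
    ((univ.filter fun y : Fin m → G => K ≤ (Lam y t).card).card : ℝ) ≤
      (Fintype.card G : ℝ) ^ m * V := by
  have hG0 : (0 : ℝ) ≤ Fintype.card G := by positivity
  have h := hL G m l K t ht hl
  have e1 : (Fintype.card G : ℝ) ^ l * (Fintype.card G * (3 / 4) ^ l) ^ m =
      (Fintype.card G : ℝ) ^ m * ((Fintype.card G : ℝ) * (3 / 4) ^ m) ^ l := by
    rw [mul_pow, mul_pow, ← pow_mul, ← pow_mul, mul_comm l m]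
    ring
  rw [e1, ← mul_pow] at h
  have h2 : ((Fintype.card G : ℝ) * (3 / 4) ^ m) ^ l ≤ (Real.exp (-c * k)) ^ l :=
    pow_le_pow_left₀ (by positivity) hGc l
  have h3 : (Real.exp (-(7 * Real.log k))) ^ l ≤ (K / 2 * t) ^ l :=
    pow_le_pow_left₀ (Real.exp_pos _).le hKt l
  set N : ℝ := ((univ.filter fun y : Fin m → G => K ≤ (Lam y t).card).card : ℝ) with hN
  have hN0 : 0 ≤ N := by positivity
  have h4 : N * (Real.exp (-(7 * Real.log k))) ^ l ≤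
      (Fintype.card G : ℝ) ^ m * (Real.exp (-c * k)) ^ l :=
    (mul_le_mul_of_nonneg_left h3 hN0).trans
      (h.trans (mul_le_mul_of_nonneg_left h2 (by positivity)))
  have h5 : N ≤ (Fintype.card G : ℝ) ^ m *
      ((Real.exp (-c * k)) ^ l / (Real.exp (-(7 * Real.log k))) ^ l) := by
    rw [← mul_div_assoc, le_div_iff₀ (by positivity)]
    exact h4
  refine h5.trans (mul_le_mul_of_nonneg_left (le_trans ?_ hV) (by positivity))
  rw [← div_pow, ← Real.exp_sub, ← Real.exp_nat_mul]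
  rw [Real.exp_le_exp]
  have hl0 : (0 : ℝ) ≤ l := by positivity
  nlinarith

end

section final

lemma ev_log_le {s : ℝ} (hs : 0 < s) : ∀ᶠ x : ℝ in Filter.atTop, Real.log x ≤ x ^ s := by
  have h := (isLittleO_log_rpow_atTop hs).bound (one_pos)
  filter_upwards [h, Filter.eventually_ge_atTop 1] with x hx h1
  rw [one_mul, Real.norm_of_nonneg (Real.log_nonneg h1),
    Real.norm_of_nonneg (by positivity)] at hx
  exact hx

lemma exp15 : (1382400 : ℝ) ≤ Real.exp 15 := by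
  have h1 : (2.7 : ℝ) ≤ Real.exp 1 := by
    have := Real.exp_one_gt_d9
    linarith
  have h2 : Real.exp 15 = (Real.exp 1) ^ 15 := by
    rw [← Real.exp_nat_mul]
    norm_num
  rw [h2]
  refine le_trans ?_ (pow_le_pow_left₀ (by norm_num) h1 15)
  norm_num

lemma two_le_exp : (2 : ℝ) ≤ Real.exp 1 := by
  have := Real.add_one_le_exp (1 : ℝ)
  linarith

/-- the number `K_i` -/
noncomputable def Ki (T : ℝ) (i : ℕ) : ℝ := (2 : ℝ) ^ i * T / ((i + 1) * (i + 2))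

lemma Ki_pos {T : ℝ} (hT : 0 < T) (i : ℕ) : 0 < Ki T i := by
  unfold Ki
  positivity

lemma Ki_le {T : ℝ} (hT : 0 < T) (i : ℕ) : Ki T i ≤ (2 : ℝ) ^ i * T := by
  unfold Ki
  refine div_le_self (by positivity) ?_
  have : (0 : ℝ) ≤ i := by positivity
  nlinarith

lemma poly_le (i : ℕ) : ((i : ℝ) + 1) * (i + 2) ≤ 3 * 2 ^ i := by
  have h : ∀ n : ℕ, (n + 1) * (n + 2) ≤ 3 * 2 ^ n := by
    intro n
    match n with
    | 0 => norm_num
    | 1 => norm_num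
    | n + 2 =>
      induction n with
      | zero => norm_num
      | succ n ih =>
        rw [pow_succ]
        nlinarith
  exact_mod_cast h i

lemma le_Ki {T : ℝ} (hT : 0 < T) (i : ℕ) : T ≤ 3 * Ki T i := by
  unfold Ki
  rw [mul_div_assoc', le_div_iff₀ (by positivity)]
  have := poly_le i
  nlinarith

lemma max_le_Ki {T : ℝ} (hT : 0 < T) (i : ℕ) : max 1 T ≤ 3 * max 1 (Ki T i) := by
  refine max_le ?_ ?_
  · have := le_max_left 1 (Ki T i)
    linarith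
  · have := le_max_right 1 (Ki T i)
    have := le_Ki hT i
    linarith

/-- lower bound for the target -/
lemma target_low {k m : ℕ} {δ C₀ T : ℝ} (hk : 2 ≤ k) (hm : m ≤ k) (hδ : 0 < δ) (hC₀ : 0 < C₀)
    (hT2 : T ≤ (k : ℝ) ^ C₀) :
    Real.exp (-((3 + C₀) * (k * Real.log k))) ≤
      ((k : ℝ) ^ (-(1 / 2) + δ) / max 1 T) ^ m / (k + 1) := by
  have hk0 : (0 : ℝ) < k := by
    have : 0 < k := by omega
    exact_mod_cast this
  have hk2 : (2 : ℝ) ≤ k := by exact_mod_cast hk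
  have hl : 0 ≤ Real.log k := Real.log_nonneg (by linarith)
  have hM : 0 < max 1 T := lt_of_lt_of_le one_pos (le_max_left _ _)
  have hmax : max 1 T ≤ Real.exp (C₀ * Real.log k) := by
    refine max_le ?_ ?_
    · exact Real.one_le_exp (by positivity)
    · rw [Real.rpow_def_of_pos hk0] at hT2
      rwa [mul_comm]
  have hV : Real.exp (-((1 + C₀) * Real.log k)) ≤ (k : ℝ) ^ (-(1 / 2) + δ) / max 1 T := by
    rw [le_div_iff₀ hM, Real.rpow_def_of_pos hk0]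
    refine (mul_le_mul_of_nonneg_left hmax (Real.exp_pos _).le).trans ?_
    rw [← Real.exp_add, Real.exp_le_exp]
    nlinarith
  have hk1 : (k : ℝ) + 1 ≤ Real.exp (2 * (k * Real.log k)) := by
    have h1 : (k : ℝ) + 1 ≤ k ^ 2 := by nlinarith
    have h2 : (k : ℝ) ^ 2 = Real.exp (2 * Real.log k) := by
      rw [two_mul, Real.exp_add, Real.exp_log hk0]
      ring
    rw [h2] at h1
    refine h1.trans (Real.exp_le_exp.2 ?_)
    nlinarith
  rw [le_div_iff₀ (by positivity)]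
  calc Real.exp (-((3 + C₀) * (k * Real.log k))) * (k + 1)
      ≤ Real.exp (-((3 + C₀) * (k * Real.log k))) * Real.exp (2 * (k * Real.log k)) := by gcongr
    _ = Real.exp (-((1 + C₀) * Real.log k) * k) := by
        rw [← Real.exp_add]; congr 1; ring
    _ ≤ Real.exp (-((1 + C₀) * Real.log k) * m) := by
        rw [Real.exp_le_exp]
        have hmk : (m : ℝ) ≤ k := by exact_mod_cast hm
        have : 0 ≤ (1 + C₀) * Real.log k := by positivity
        nlinarith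
    _ = (Real.exp (-((1 + C₀) * Real.log k))) ^ m := by
        rw [← Real.exp_nat_mul]; congr 1; ring
    _ ≤ _ := pow_le_pow_left₀ (Real.exp_pos _).le hV m

lemma exp_r_le {A s r ℓ : ℝ} (hs : 0 < s) (hr : s ≤ r) (hA0 : 0 ≤ A) (h : A / s < ℓ) :
    A < Real.exp (r * ℓ) := by
  have h1 : A < s * ℓ := by
    rw [div_lt_iff₀ hs] at h
    linarith
  have hl : 0 < ℓ := by
    refine lt_of_le_of_lt ?_ h
    positivity
  have h2 : s * ℓ ≤ r * ℓ := by gcongr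
  have h3 := Real.add_one_le_exp (r * ℓ)
  linarith

open scoped Classical in
lemma key_high {G : Type} [AddCommGroup G] [Fintype G] (hL : StmtLarge) {m k i : ℕ}
    {c C C₀ T ℓ V e : ℝ} (hc : 0 < c) (hC₀ : 0 < C₀) (hC : C = 6 + 3 * (1 + 2 * (3 + C₀) / c))
    (hk4 : (4 : ℝ) ≤ k) (hℓ : ℓ = Real.log k) (hkl : Real.exp ℓ = k) (hℓ1 : 1 ≤ ℓ)
    (hik : (i : ℝ) ≤ k) (hcube : ((i : ℝ) + 1) * (i + 2) ≤ Real.exp (3 * ℓ))
    (hT0 : 0 < T) (hT1' : Real.exp (-(3 * ℓ)) ≤ T)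
    (hGc : (Fintype.card G : ℝ) * (3 / 4) ^ m ≤ Real.exp (-c * k))
    (hE3 : 7 * Real.log k ≤ c / 2 * k)
    (hVlow : Real.exp (-((3 + C₀) * (k * ℓ))) ≤ V)
    (hbig : Real.exp (C * ℓ) < (2 : ℝ) ^ i) :
    ((univ.filter fun y : Fin m → G => NonSp e y ∧
        Ki T i ≤ (Lam y ((1 / 2) ^ (i + 1))).card).card : ℝ) ≤
      (Fintype.card G : ℝ) ^ m * V := by
  have hsub : ((univ.filter fun y : Fin m → G => NonSp e y ∧
      Ki T i ≤ (Lam y ((1 / 2) ^ (i + 1))).card).card : ℝ) ≤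
      ((univ.filter fun y : Fin m → G =>
        Ki T i ≤ (Lam y ((1 / 2) ^ (i + 1))).card).card : ℝ) := by
    exact_mod_cast card_le_card fun y hy => by
      rw [mem_filter] at hy ⊢
      exact ⟨hy.1, hy.2.2⟩
  refine hsub.trans ?_
  have hC6 : 0 ≤ C - 6 := by
    have : 0 ≤ 3 * (1 + 2 * (3 + C₀) / c) := by positivity
    linarith
  have hKbig : Real.exp ((C - 6) * ℓ) ≤ Ki T i := by
    unfold Ki
    rw [le_div_iff₀ (by positivity)]
    calc Real.exp ((C - 6) * ℓ) * ((i + 1) * (i + 2))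
        ≤ Real.exp ((C - 6) * ℓ) * Real.exp (3 * ℓ) :=
          mul_le_mul_of_nonneg_left hcube (Real.exp_pos _).le
      _ = Real.exp (C * ℓ) * Real.exp (-(3 * ℓ)) := by
          rw [← Real.exp_add, ← Real.exp_add]; congr 1; ring
      _ ≤ (2 : ℝ) ^ i * T :=
          mul_le_mul hbig.le hT1' (Real.exp_pos _).le (by positivity)
  have hf1 : (C - 6) / 3 * ℓ - 1 ≤ (⌊(C - 6) / 3 * ℓ⌋₊ : ℝ) := by
    have := Nat.lt_floor_add_one ((C - 6) / 3 * ℓ)
    linarith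
  refine high hL (l := ⌊(C - 6) / 3 * ℓ⌋₊) (c := c) (t := (1 / 2) ^ (i + 1)) (by positivity) hGc
    ?_ ?_ hE3 ?_
  · refine le_trans ?_ hKbig
    have h8 : (8 : ℝ) ≤ Real.exp 3 := by
      have h1 := two_le_exp
      have h2 : Real.exp 3 = (Real.exp 1) ^ 3 := by
        rw [← Real.exp_nat_mul]; norm_num
      rw [h2]
      refine le_trans ?_ (pow_le_pow_left₀ (by norm_num) h1 3)
      norm_num
    refine (pow_le_pow_left₀ (by norm_num) h8 _).trans ?_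
    rw [← Real.exp_nat_mul, Real.exp_le_exp]
    have h1 : 0 ≤ (C - 6) / 3 * ℓ := by positivity
    have := Nat.floor_le h1
    linarith
  · have h1 : Ki T i / 2 * (1 / 2) ^ (i + 1) = T / (4 * ((i + 1) * (i + 2))) := by
      unfold Ki
      have h3 : (2 : ℝ) ^ i * (1 / 2) ^ (i + 1) = 1 / 2 := by
        rw [pow_succ, ← mul_assoc, ← mul_pow]
        norm_num
      have h2 : ((i : ℝ) + 1) * (i + 2) ≠ 0 := by positivity
      calc (2 : ℝ) ^ i * T / ((i + 1) * (i + 2)) / 2 * (1 / 2) ^ (i + 1)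
          = ((2 : ℝ) ^ i * (1 / 2) ^ (i + 1)) * T / ((i + 1) * (i + 2)) / 2 := by ring
        _ = T / (4 * ((i + 1) * (i + 2))) := by
            rw [h3]
            field_simp
            ring
    rw [h1, le_div_iff₀ (by positivity), ← hℓ]
    have h4 : 4 * (((i : ℝ) + 1) * (i + 2)) ≤ Real.exp ℓ * Real.exp (3 * ℓ) := by
      refine mul_le_mul ?_ hcube (by positivity) (Real.exp_pos _).le
      rw [hkl]; exact hk4
    calc Real.exp (-(7 * ℓ)) * (4 * ((i + 1) * (i + 2)))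
        ≤ Real.exp (-(7 * ℓ)) * (Real.exp ℓ * Real.exp (3 * ℓ)) :=
          mul_le_mul_of_nonneg_left h4 (Real.exp_pos _).le
      _ = Real.exp (-(3 * ℓ)) := by
          rw [← Real.exp_add, ← Real.exp_add]; congr 1; ring
      _ ≤ T := hT1'
  · refine le_trans ?_ hVlow
    rw [Real.exp_le_exp, neg_le_neg_iff]
    have h2 : (C - 6) / 3 = 1 + 2 * (3 + C₀) / c := by rw [hC]; ring
    have h3 : 2 * (3 + C₀) / c * ℓ ≤ (⌊(C - 6) / 3 * ℓ⌋₊ : ℝ) := by
      refine le_trans ?_ hf1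
      rw [h2]
      linarith
    have h4 : (3 + C₀) * ℓ ≤ c / 2 * (⌊(C - 6) / 3 * ℓ⌋₊ : ℝ) := by
      have h5 : (3 + C₀) * ℓ = c / 2 * (2 * (3 + C₀) / c * ℓ) := by field_simp
      rw [h5]
      exact mul_le_mul_of_nonneg_left h3 (by positivity)
    calc (3 + C₀) * (k * ℓ) = k * ((3 + C₀) * ℓ) := by ring
      _ ≤ k * (c / 2 * (⌊(C - 6) / 3 * ℓ⌋₊ : ℝ)) := mul_le_mul_of_nonneg_left h4 (by linarith)
      _ = c / 2 * k * (⌊(C - 6) / 3 * ℓ⌋₊ : ℝ) := by ring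

lemma N_bounds {δ C A ℓ : ℝ} {a : ℕ} (hδ : 0 < δ) (hδ1 : δ ≤ 1) (hC6 : 6 ≤ C)
    (hA : A = 8 * (a + 1) * (C + 1) + 2) (hℓ : 400 ≤ ℓ) (hRA : A / (δ / 32) < ℓ)
    (hE1 : ℓ ≤ Real.exp (δ / 32 * ℓ)) :
    ℓ * (⌈((a : ℝ) + 1) * (8 * (C * ℓ + 1)) / (Real.exp ((-(1 / 2) + δ / 4) * ℓ)) ^ 2⌉₊ : ℝ) ≤
      Real.exp ℓ ∧
    (⌈((a : ℝ) + 1) * (8 * (C * ℓ + 1)) / (Real.exp ((-(1 / 2) + δ / 4) * ℓ)) ^ 2⌉₊ : ℝ) <
      Real.exp ((1 - δ / 4) * ℓ) := by
  obtain ⟨N₀, hN₀⟩ : ∃ N₀ : ℕ, N₀ =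
    ⌈((a : ℝ) + 1) * (8 * (C * ℓ + 1)) / (Real.exp ((-(1 / 2) + δ / 4) * ℓ)) ^ 2⌉₊ := ⟨_, rfl⟩
  rw [← hN₀]
  have hone : ∀ x : ℝ, 0 ≤ x → 1 ≤ Real.exp (x * ℓ) := fun x hx =>
    Real.one_le_exp (by positivity)
  have hA0 : 2 ≤ A := by
    rw [hA]
    have : 0 ≤ 8 * ((a : ℝ) + 1) * (C + 1) := by positivity
    linarith
  have hρ2 : (Real.exp ((-(1 / 2) + δ / 4) * ℓ)) ^ 2 = Real.exp (-((1 - δ / 2) * ℓ)) := by
    rw [← Real.exp_nat_mul]; congr 1; push_cast; ring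
  have hCl : C * ℓ + 1 ≤ (C + 1) * Real.exp (δ / 32 * ℓ) := by
    have : C * ℓ + 1 ≤ (C + 1) * ℓ := by linarith
    exact this.trans (mul_le_mul_of_nonneg_left hE1 (by linarith))
  have hNup : (N₀ : ℝ) ≤ A * Real.exp ((1 - 15 * δ / 32) * ℓ) := by
    have h0 : (0 : ℝ) ≤ (a + 1) * (8 * (C * ℓ + 1)) /
        (Real.exp ((-(1 / 2) + δ / 4) * ℓ)) ^ 2 := by positivity
    have h1 := Nat.ceil_lt_add_one h0
    rw [← hN₀] at h1
    have h2 : (a + 1) * (8 * (C * ℓ + 1)) / (Real.exp ((-(1 / 2) + δ / 4) * ℓ)) ^ 2 ≤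
        8 * (a + 1) * (C + 1) * Real.exp ((1 - 15 * δ / 32) * ℓ) := by
      rw [hρ2, Real.exp_neg, div_inv_eq_mul]
      calc (a + 1) * (8 * (C * ℓ + 1)) * Real.exp ((1 - δ / 2) * ℓ)
          ≤ (a + 1) * (8 * ((C + 1) * Real.exp (δ / 32 * ℓ))) * Real.exp ((1 - δ / 2) * ℓ) := by
            gcongr
        _ = 8 * (a + 1) * (C + 1) * (Real.exp (δ / 32 * ℓ) * Real.exp ((1 - δ / 2) * ℓ)) := by
            ring
        _ = _ := by
            rw [← Real.exp_add]; congr 2; ring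
    have h3 := hone (1 - 15 * δ / 32) (by linarith)
    rw [hA]
    linarith
  have hs : 0 < δ / 32 := by positivity
  have hN0' : (0 : ℝ) ≤ N₀ := by positivity
  constructor
  · have h1 := (exp_r_le (r := 14 * δ / 32) hs (by linarith) (by linarith) hRA).le
    calc ℓ * N₀ ≤ Real.exp (δ / 32 * ℓ) * (A * Real.exp ((1 - 15 * δ / 32) * ℓ)) :=
          mul_le_mul hE1 hNup hN0' (Real.exp_pos _).le
      _ = A * (Real.exp (δ / 32 * ℓ) * Real.exp ((1 - 15 * δ / 32) * ℓ)) := by ring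
      _ ≤ Real.exp (14 * δ / 32 * ℓ) *
          (Real.exp (δ / 32 * ℓ) * Real.exp ((1 - 15 * δ / 32) * ℓ)) :=
          mul_le_mul_of_nonneg_right h1 (by positivity)
      _ = Real.exp ℓ := by
          rw [← Real.exp_add, ← Real.exp_add]; congr 1; ring
  · have h1 := exp_r_le (r := 7 * δ / 32) hs (by linarith) (by linarith) hRA
    refine lt_of_le_of_lt hNup ?_
    calc A * Real.exp ((1 - 15 * δ / 32) * ℓ)
        < Real.exp (7 * δ / 32 * ℓ) * Real.exp ((1 - 15 * δ / 32) * ℓ) :=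
          mul_lt_mul_of_pos_right h1 (Real.exp_pos _)
      _ = Real.exp ((1 - δ / 4) * ℓ) := by
          rw [← Real.exp_add]; congr 1; ring

/-- the numbers `ρ`, `J`, `θ` -/
lemma w_bounds {δ ℓ ρ θ J : ℝ} (hδ : 0 < δ) (hδ1 : δ ≤ 1) (hℓ : 400 ≤ ℓ)
    (hρ : ρ = Real.exp ((-(1 / 2) + δ / 4) * ℓ)) (hθ : θ = Real.exp (-(δ / 16) * ℓ))
    (hJ0 : 0 < J) (hJup : J ≤ 9 * Real.exp (δ / 16 * ℓ)) :
    θ ^ 2 ≤ 1 ∧ ρ * J / θ ^ 2 ≤ 9 * Real.exp ((-(1 / 2) + 7 * δ / 16) * ℓ) ∧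
      230400 * Real.exp ((-(1 / 2) + 7 * δ / 16) * ℓ) ≤ 1 ∧ ρ * J ≤ ρ * J / θ ^ 2 := by
  have hℓ0 : 0 < ℓ := by linarith
  have hρ0 : 0 < ρ := by rw [hρ]; exact Real.exp_pos _
  have hθ0 : 0 < θ := by rw [hθ]; exact Real.exp_pos _
  have hθ2 : θ ^ 2 = Real.exp (-(δ / 8 * ℓ)) := by
    rw [hθ, ← Real.exp_nat_mul]; congr 1; push_cast; ring
  have hθ1 : θ ^ 2 ≤ 1 := by
    rw [hθ2, Real.exp_le_one_iff]
    have : 0 ≤ δ / 8 * ℓ := by positivity
    linarith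
  refine ⟨hθ1, ?_, ?_, ?_⟩
  · rw [hθ2, Real.exp_neg, div_inv_eq_mul]
    calc ρ * J * Real.exp (δ / 8 * ℓ) ≤ ρ * (9 * Real.exp (δ / 16 * ℓ)) * Real.exp (δ / 8 * ℓ) := by
          gcongr
      _ = 9 * (Real.exp ((-(1 / 2) + δ / 4) * ℓ) * Real.exp (δ / 16 * ℓ) *
            Real.exp (δ / 8 * ℓ)) := by rw [hρ]; ring
      _ = _ := by
          rw [← Real.exp_add, ← Real.exp_add]; congr 2; ring
  · have h1 := exp15
    have hle16 : Real.exp ((-(1 / 2) + 7 * δ / 16) * ℓ) ≤ Real.exp (-(1 / 16) * ℓ) := by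
      rw [Real.exp_le_exp]
      exact mul_le_mul_of_nonneg_right (by linarith) hℓ0.le
    calc 230400 * Real.exp ((-(1 / 2) + 7 * δ / 16) * ℓ)
        ≤ Real.exp 15 * Real.exp (-(1 / 16) * ℓ) :=
          mul_le_mul (by linarith) hle16 (Real.exp_pos _).le (Real.exp_pos _).le
      _ = Real.exp (15 + -(1 / 16) * ℓ) := by rw [Real.exp_add]
      _ ≤ 1 := by
          rw [Real.exp_le_one_iff]
          linarith
  · rw [le_div_iff₀ (by positivity)]
    exact mul_le_of_le_one_right (by positivity) hθ1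

/-- bounds of `u` -/
lemma u_bounds {δ ℓ ρ θ J C C₀ T K V u : ℝ} (hδ : 0 < δ) (hδ1 : δ ≤ 1) (hℓ : 400 ≤ ℓ)
    (hρ : ρ = Real.exp ((-(1 / 2) + δ / 4) * ℓ)) (hθ : θ = Real.exp (-(δ / 16) * ℓ))
    (hJ0 : 1 ≤ J) (hJup : J ≤ 9 * Real.exp (δ / 16 * ℓ))
    (hK1 : 1 ≤ K) (hKup : K ≤ Real.exp ((C + C₀) * ℓ)) (hKT : max 1 T ≤ 3 * K)
    (hV : V = Real.exp ((-(1 / 2) + δ) * ℓ) / max 1 T)
    (hu : u = 25600 * ρ * J / (K * θ ^ 2)) :
    u ≤ 1 ∧ u ≤ V * (691200 * Real.exp (-(9 * δ / 16 * ℓ))) ∧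
      Real.exp (-((C + C₀ + 1) * ℓ)) ≤ u := by
  have hℓ0 : 0 < ℓ := by linarith
  have hρ0 : 0 < ρ := by rw [hρ]; exact Real.exp_pos _
  have hθ0 : 0 < θ := by rw [hθ]; exact Real.exp_pos _
  have hK0 : 0 < K := by linarith
  have hJ0' : 0 < J := by linarith
  have hM : 0 < max 1 T := lt_of_lt_of_le one_pos (le_max_left _ _)
  obtain ⟨hθ1, hw, hsmall, hwle⟩ := w_bounds hδ hδ1 hℓ hρ hθ hJ0' hJup
  have hu0 : 0 < u := by rw [hu]; positivity
  have hueq : u * K = 25600 * (ρ * J / θ ^ 2) := by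
    rw [hu]
    have : θ ^ 2 ≠ 0 := by positivity
    field_simp
  have huw : u ≤ 25600 * (ρ * J / θ ^ 2) := by
    rw [← hueq]
    exact le_mul_of_one_le_right hu0.le hK1
  refine ⟨by linarith, ?_, ?_⟩
  · rw [hV, div_mul_eq_mul_div, le_div_iff₀ hM]
    calc u * max 1 T ≤ u * (3 * K) := mul_le_mul_of_nonneg_left hKT hu0.le
      _ = 3 * (u * K) := by ring
      _ = 76800 * (ρ * J / θ ^ 2) := by rw [hueq]; ring
      _ ≤ 76800 * (9 * Real.exp ((-(1 / 2) + 7 * δ / 16) * ℓ)) :=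
          mul_le_mul_of_nonneg_left hw (by norm_num)
      _ = 691200 * Real.exp ((-(1 / 2) + 7 * δ / 16) * ℓ) := by ring
      _ = 691200 * (Real.exp ((-(1 / 2) + δ) * ℓ) * Real.exp (-(9 * δ / 16 * ℓ))) := by
          rw [← Real.exp_add]; congr 2; ring
      _ = _ := by ring
  · have h1 : ρ ≤ u * K := by
      rw [hueq]
      have h2 : ρ ≤ ρ * J := le_mul_of_one_le_right hρ0.le hJ0
      have h5 : 0 < ρ * J / θ ^ 2 := by positivity
      linarith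
    have h2 : u * K ≤ u * Real.exp ((C + C₀) * ℓ) := mul_le_mul_of_nonneg_left hKup hu0.le
    have h3 : Real.exp (-((C + C₀ + 1) * ℓ)) * Real.exp ((C + C₀) * ℓ) ≤ ρ := by
      rw [← Real.exp_add, hρ, Real.exp_le_exp]
      have h4 : 0 ≤ (1 / 2 + δ / 4) * ℓ := by positivity
      linarith
    exact le_of_mul_le_mul_right (h3.trans (h1.trans h2)) (Real.exp_pos _)

/-- the final power bound -/
lemma pow_bound {k m N₀ a : ℕ} {g δ ℓ C C₀ V u : ℝ} (hδ : 0 < δ) (hC : 0 ≤ C + C₀) (hℓ : 400 ≤ ℓ)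
    (hg0 : 0 ≤ g) (hgk : g ≤ Real.exp k) (hV0 : 0 < V) (hu0 : 0 < u)
    (h2 : u ≤ V * (691200 * Real.exp (-(9 * δ / 16 * ℓ))))
    (h3 : Real.exp (-((C + C₀ + 1) * ℓ)) ≤ u)
    (hRB : (a : ℝ) + 19 + C + C₀ ≤ 9 * δ / 32 * ℓ) (hNl : ℓ * N₀ ≤ k) (hNm : N₀ ≤ m)
    (hm2 : (k : ℝ) ≤ 2 * m) (hmk : (m : ℝ) ≤ k) :
    g ^ (a + 1) * (2 ^ m * (g ^ m * u ^ (m - N₀))) ≤ g ^ m * (V ^ m / (k + 1)) := by
  have hk0 : (0 : ℝ) ≤ k := by positivity
  have e1 : u ^ (m - N₀) * Real.exp (-((C + C₀ + 1) * ℓ) * N₀) ≤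
      V ^ m * (691200 ^ m * Real.exp (-(9 * δ / 16 * ℓ) * m)) := by
    calc u ^ (m - N₀) * Real.exp (-((C + C₀ + 1) * ℓ) * N₀)
        = u ^ (m - N₀) * (Real.exp (-((C + C₀ + 1) * ℓ))) ^ N₀ := by
          rw [← Real.exp_nat_mul]; congr 2; ring
      _ ≤ u ^ (m - N₀) * u ^ N₀ :=
          mul_le_mul_of_nonneg_left (pow_le_pow_left₀ (Real.exp_pos _).le h3 _) (by positivity)
      _ = u ^ m := by rw [← pow_add, Nat.sub_add_cancel hNm]
      _ ≤ (V * (691200 * Real.exp (-(9 * δ / 16 * ℓ)))) ^ m := pow_le_pow_left₀ hu0.le h2 m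
      _ = _ := by
          rw [mul_pow, mul_pow, ← Real.exp_nat_mul]
          congr 3
          ring
  have e2 : u ^ (m - N₀) ≤
      V ^ m * (691200 ^ m * Real.exp (-(9 * δ / 16 * ℓ) * m)) * Real.exp ((C + C₀ + 1) * k) := by
    calc u ^ (m - N₀) = u ^ (m - N₀) * Real.exp (-((C + C₀ + 1) * ℓ) * N₀) *
          Real.exp ((C + C₀ + 1) * (ℓ * N₀)) := by
          rw [mul_assoc, ← Real.exp_add]
          have : -((C + C₀ + 1) * ℓ) * N₀ + (C + C₀ + 1) * (ℓ * N₀) = 0 := by ring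
          rw [this, Real.exp_zero, mul_one]
      _ ≤ _ := by
          refine mul_le_mul e1 ?_ (Real.exp_pos _).le (by positivity)
          rw [Real.exp_le_exp]
          exact mul_le_mul_of_nonneg_left hNl (by linarith)
  have e3 : g ^ (a + 1) ≤ Real.exp ((a + 1) * k) := by
    refine (pow_le_pow_left₀ hg0 hgk _).trans ?_
    rw [← Real.exp_nat_mul]
    push_cast
    exact le_rfl
  have e4 : (2 : ℝ) ^ m * 691200 ^ m ≤ Real.exp (15 * k) := by
    rw [← mul_pow]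
    have h := pow_le_pow_left₀ (by norm_num) exp15 m
    rw [← Real.exp_nat_mul] at h
    calc ((2 : ℝ) * 691200) ^ m = 1382400 ^ m := by norm_num
      _ ≤ Real.exp (m * 15) := h
      _ ≤ Real.exp (15 * k) := by
          rw [Real.exp_le_exp]; linarith
  have e5 : (k : ℝ) + 1 ≤ Real.exp k := Real.add_one_le_exp _
  rw [mul_div_assoc', le_div_iff₀ (by positivity)]
  have hgm : 0 ≤ g ^ m := by positivity
  calc g ^ (a + 1) * (2 ^ m * (g ^ m * u ^ (m - N₀))) * (k + 1)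
      = g ^ m * (g ^ (a + 1) * 2 ^ m * u ^ (m - N₀) * (k + 1)) := by ring
    _ ≤ g ^ m * (Real.exp ((a + 1) * k) * 2 ^ m *
        (V ^ m * (691200 ^ m * Real.exp (-(9 * δ / 16 * ℓ) * m)) * Real.exp ((C + C₀ + 1) * k)) *
        Real.exp k) := by
        gcongr
    _ = g ^ m * (V ^ m * ((2 ^ m * 691200 ^ m) * (Real.exp ((a + 1) * k) *
        Real.exp (-(9 * δ / 16 * ℓ) * m) * Real.exp ((C + C₀ + 1) * k) * Real.exp k))) := by
        ring
    _ ≤ g ^ m * (V ^ m * (Real.exp (15 * k) * (Real.exp ((a + 1) * k) *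
        Real.exp (-(9 * δ / 16 * ℓ) * m) * Real.exp ((C + C₀ + 1) * k) * Real.exp k))) := by
        gcongr
    _ = g ^ m * (V ^ m * Real.exp (15 * k + ((a + 1) * k + -(9 * δ / 16 * ℓ) * m +
        (C + C₀ + 1) * k + k))) := by
        rw [Real.exp_add, Real.exp_add, Real.exp_add, Real.exp_add]
    _ ≤ g ^ m * (V ^ m * 1) := by
        refine mul_le_mul_of_nonneg_left (mul_le_mul_of_nonneg_left ?_ (by positivity)) hgm
        rw [Real.exp_le_one_iff]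
        have h5 : (9 * δ / 16 * ℓ) * m ≥ (9 * δ / 32 * ℓ) * k := by
          have h6 : 0 ≤ 9 * δ / 32 * ℓ := by positivity
          have h7 := mul_le_mul_of_nonneg_left hm2 h6
          linarith
        have h8 := mul_le_mul_of_nonneg_right hRB hk0
        linarith
    _ = g ^ m * V ^ m := by rw [mul_one]

lemma card_le_exp {g c : ℝ} {k m : ℕ} (hg0 : 0 ≤ g) (hc : 0 < c) (hmk : (m : ℝ) ≤ k)
    (hGc : g * (3 / 4) ^ m ≤ Real.exp (-c * k)) : g ≤ Real.exp k := by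
  have h1 : Real.exp (-c * k) ≤ 1 := by
    rw [Real.exp_le_one_iff]
    have : 0 ≤ c * k := by positivity
    linarith
  have h2 : g * (3 / 4) ^ m ≤ 1 := hGc.trans h1
  have h3 : (3 / 4 : ℝ) ^ m * (4 / 3) ^ m = 1 := by
    rw [← mul_pow]; norm_num
  have h4 : g ≤ (4 / 3) ^ m := by
    calc g = g * ((3 / 4 : ℝ) ^ m * (4 / 3) ^ m) := by
          rw [h3, mul_one]
      _ = g * (3 / 4 : ℝ) ^ m * (4 / 3) ^ m := by ring
      _ ≤ 1 * (4 / 3) ^ m := mul_le_mul_of_nonneg_right h2 (by positivity)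
      _ = (4 / 3) ^ m := one_mul _
  have h5 : (4 / 3 : ℝ) ^ m ≤ (Real.exp 1) ^ m := by
    refine pow_le_pow_left₀ (by norm_num) ?_ m
    have := two_le_exp
    linarith
  refine h4.trans (h5.trans ?_)
  rw [← Real.exp_nat_mul, Real.exp_le_exp]
  linarith

lemma log_t {C ℓ : ℝ} {i : ℕ} (hbig : (2 : ℝ) ^ i ≤ Real.exp (C * ℓ)) :
    -Real.log ((1 / 2) ^ (i + 1)) ≤ C * ℓ + 1 := by
  have h2 : -Real.log ((1 / 2 : ℝ) ^ (i + 1)) = Real.log (2 ^ i) + Real.log 2 := by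
    rw [one_div, inv_pow, Real.log_inv, neg_neg, pow_succ,
      Real.log_mul (by positivity) (by norm_num)]
  rw [h2]
  have h3 : Real.log (2 ^ i) ≤ C * ℓ := by
    rw [← Real.log_exp (C * ℓ)]
    exact Real.log_le_log (by positivity) hbig
  have h4 := Real.log_two_lt_d9
  linarith

open scoped Classical in
lemma key_med {G : Type} [AddCommGroup G] [Fintype G] (hG : StmtGrowth) (hS : StmtSplit)
    {m k i a : ℕ} {δ c C C₀ A T ℓ V : ℝ} (hδ : 0 < δ) (hδ1 : δ ≤ 1)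
    (hc : 0 < c) (hC₀ : 0 < C₀) (hC6 : 6 ≤ C)
    (ha : 16 * (C + C₀) / δ ≤ a) (hA : A = 8 * (a + 1) * (C + 1) + 2)
    (hkl : Real.exp ℓ = k) (hℓ : 400 ≤ ℓ)
    (hRA : A / (δ / 32) < ℓ) (hRB : (a : ℝ) + 19 + C + C₀ ≤ 9 * δ / 32 * ℓ)
    (hE1 : ℓ ≤ Real.exp (δ / 32 * ℓ))
    (hp : ∀ p : ℕ, p.Prime → p ∣ Fintype.card G → k ≤ p)
    (hm2 : (k : ℝ) ≤ 2 * m) (hmk : (m : ℝ) ≤ k)
    (hT0 : 0 < T) (hT2 : T ≤ Real.exp (C₀ * ℓ))
    (hGc : (Fintype.card G : ℝ) * (3 / 4) ^ m ≤ Real.exp (-c * k))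
    (hV : V = Real.exp ((-(1 / 2) + δ) * ℓ) / max 1 T)
    (hbig : (2 : ℝ) ^ i ≤ Real.exp (C * ℓ)) :
    ((univ.filter fun y : Fin m → G => NonSp (Real.exp ((1 - δ / 4) * ℓ)) y ∧
        Ki T i ≤ (Lam y ((1 / 2) ^ (i + 1))).card).card : ℝ) ≤
      (Fintype.card G : ℝ) ^ m * (V ^ m / (k + 1)) := by
  obtain ⟨θ, hθ⟩ : ∃ θ : ℝ, θ = Real.exp (-(δ / 16) * ℓ) := ⟨_, rfl⟩
  obtain ⟨ρ, hρ⟩ : ∃ ρ : ℝ, ρ = Real.exp ((-(1 / 2) + δ / 4) * ℓ) := ⟨_, rfl⟩
  obtain ⟨J, hJ⟩ : ∃ J : ℕ, J = ⌈8 * Real.exp (δ / 16 * ℓ)⌉₊ := ⟨_, rfl⟩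
  obtain ⟨N₀, hN₀⟩ : ∃ N₀ : ℕ, N₀ = ⌈((a : ℝ) + 1) * (8 * (C * ℓ + 1)) / ρ ^ 2⌉₊ := ⟨_, rfl⟩
  have hℓ0 : 0 < ℓ := by linarith
  have hθ0 : 0 < θ := by rw [hθ]; exact Real.exp_pos _
  have hρ0 : 0 < ρ := by rw [hρ]; exact Real.exp_pos _
  have hJlow : 8 * Real.exp (δ / 16 * ℓ) ≤ J := by rw [hJ]; exact Nat.le_ceil _
  have hJ0' : (0 : ℝ) < J := lt_of_lt_of_le (by positivity) hJlow
  have hJ0 : 0 < J := by exact_mod_cast hJ0'
  have hJ1 : (1 : ℝ) ≤ J := by exact_mod_cast hJ0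
  have hJup : (J : ℝ) ≤ 9 * Real.exp (δ / 16 * ℓ) := by
    have h1 := Nat.ceil_lt_add_one (a := 8 * Real.exp (δ / 16 * ℓ)) (by positivity)
    have h2 : 1 ≤ Real.exp (δ / 16 * ℓ) := Real.one_le_exp (by positivity)
    rw [← hJ] at h1
    linarith
  have hN1 := N_bounds hδ hδ1 hC6 hA hℓ hRA hE1
  rw [← hρ, ← hN₀, hkl] at hN1
  obtain ⟨hNl, hNe⟩ := hN1
  have hN0' : (0 : ℝ) ≤ N₀ := by positivity
  have hNm : N₀ ≤ m := by
    have h1 : 2 * (N₀ : ℝ) ≤ ℓ * N₀ := mul_le_mul_of_nonneg_right (by linarith) hN0'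
    have h2 : (N₀ : ℝ) ≤ m := by linarith
    exact_mod_cast h2
  have hKi0 : 0 < Ki T i := Ki_pos hT0 i
  obtain ⟨K, hK⟩ : ∃ K : ℝ, K = max 1 (Ki T i) := ⟨_, rfl⟩
  have hK1 : 1 ≤ K := by rw [hK]; exact le_max_left _ _
  have hK0 : 0 < K := by linarith
  have hKup : K ≤ Real.exp ((C + C₀) * ℓ) := by
    rw [hK]
    refine max_le (Real.one_le_exp (by positivity)) ?_
    refine (Ki_le hT0 i).trans ?_
    rw [add_mul, Real.exp_add]
    exact mul_le_mul hbig hT2 hT0.le (Real.exp_pos _).le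
  have hKT : max 1 T ≤ 3 * K := by rw [hK]; exact max_le_Ki hT0 i
  have hM : 0 < max 1 T := lt_of_lt_of_le one_pos (le_max_left _ _)
  have hV0 : 0 < V := by rw [hV]; positivity
  obtain ⟨u, hu⟩ : ∃ u : ℝ, u = 25600 * ρ * J / (K * θ ^ 2) := ⟨_, rfl⟩
  have hu0 : 0 < u := by rw [hu]; positivity
  obtain ⟨hu1, huup, hulow⟩ := u_bounds hδ hδ1 hℓ hρ hθ hJ1 hJup hK1 hKup hKT hV hu
  obtain ⟨hθ1, hw, hsmall, hwle⟩ := w_bounds hδ hδ1 hℓ hρ hθ hJ0' hJup
  have c1 : (8 : ℝ) ≤ θ * J := by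
    calc (8 : ℝ) = Real.exp (-(δ / 16) * ℓ) * (8 * Real.exp (δ / 16 * ℓ)) := by
          rw [mul_left_comm, ← Real.exp_add]
          simp
      _ ≤ θ * J := by rw [hθ]; exact mul_le_mul_of_nonneg_left hJlow (Real.exp_pos _).le
  have c2 : 20 * ρ ≤ 1 / J := by
    rw [le_div_iff₀ hJ0']
    linarith
  have c3 : ∀ p : ℕ, p.Prime → p ∣ Fintype.card G → J ≤ p := by
    intro p hpp hpd
    have h1 : (J : ℝ) ≤ k := by
      refine hJup.trans ?_
      rw [← hkl]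
      have h2 : Real.exp (δ / 16 * ℓ) ≤ Real.exp (1 / 2 * ℓ) := by
        rw [Real.exp_le_exp]
        exact mul_le_mul_of_nonneg_right (by linarith) hℓ0.le
      have h3 : (9 : ℝ) ≤ Real.exp (1 / 2 * ℓ) := by
        have := Real.add_one_le_exp (1 / 2 * ℓ)
        linarith
      calc 9 * Real.exp (δ / 16 * ℓ) ≤ Real.exp (1 / 2 * ℓ) * Real.exp (1 / 2 * ℓ) :=
            mul_le_mul h3 h2 (Real.exp_pos _).le (Real.exp_pos _).le
        _ = Real.exp ℓ := by rw [← Real.exp_add]; congr 1; ring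
    have h2 : J ≤ k := by exact_mod_cast h1
    exact h2.trans (hp p hpp hpd)
  have c4 : θ ^ a * θ ^ 2 * max 1 (Ki T i) ≤ 256 := by
    rw [← hK]
    have h1 : θ ^ a ≤ Real.exp (-((C + C₀) * ℓ)) := by
      rw [hθ, ← Real.exp_nat_mul, Real.exp_le_exp]
      have h2 : C + C₀ ≤ a * (δ / 16) := by
        rw [div_le_iff₀ hδ] at ha
        linarith
      have h3 : (C + C₀) * ℓ ≤ a * (δ / 16) * ℓ := mul_le_mul_of_nonneg_right h2 hℓ0.le
      linarith
    calc θ ^ a * θ ^ 2 * K ≤ Real.exp (-((C + C₀) * ℓ)) * 1 * Real.exp ((C + C₀) * ℓ) :=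
          mul_le_mul (mul_le_mul h1 hθ1 (by positivity) (Real.exp_pos _).le) hKup hK0.le
            (by positivity)
      _ = 1 := by rw [mul_one, ← Real.exp_add]; simp
      _ ≤ 256 := by norm_num
  have c5 : ((a : ℝ) + 1) * (8 * (-Real.log ((1 / 2) ^ (i + 1)))) / ρ ^ 2 ≤ N₀ := by
    rw [hN₀]
    refine le_trans ?_ (Nat.le_ceil _)
    have h1 := log_t hbig
    gcongr
  have hmed := medium (G := G) hG hS (m := m) (e := Real.exp ((1 - δ / 4) * ℓ))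
    (t := (1 / 2) ^ (i + 1)) (K := Ki T i) (θ := θ) (ρ := ρ) (J := J) (a := a) (N₀ := N₀)
    (by positivity) c1 hθ0 hρ0 hJ0 c2 c3 hKi0 c4 c5 hNe hNm (by rw [← hK, ← hu]; exact hu1)
  rw [← hK, ← hu] at hmed
  refine hmed.trans ?_
  exact pow_bound hδ (by linarith) hℓ (by positivity)
    (card_le_exp (by positivity) hc hmk hGc) hV0 hu0 huup hulow hRB hNl hNm hm2 hmk

open scoped Classical in
/-- COUNT (986, note 11105) with thresholds `T ≥ k^{-3}`. -/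
def StmtCountG3 : Prop :=
  ∀ δ c C₀ : ℝ, 0 < δ → δ ≤ 1 → 0 < c → 0 < C₀ → ∃ k₀ : ℕ, ∀ k : ℕ, k₀ ≤ k →
    ∀ (G : Type) [AddCommGroup G] [Fintype G] (m : ℕ), m ≤ k → (k : ℝ) ≤ 2 * m →
    (∀ p : ℕ, p.Prime → p ∣ Fintype.card G → k ≤ p) →
    (Fintype.card G : ℝ) * (3 / 4) ^ m ≤ Real.exp (-c * k) →
    ∀ T : ℝ, 1 / (k : ℝ) ^ 3 ≤ T → T ≤ (k : ℝ) ^ C₀ →
    ((univ.filter fun y : Fin m → G =>
      NonSp ((k : ℝ) ^ (1 - δ / 4)) y ∧ 1 + T ≤ gZ 8 y).card : ℝ) ≤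
      (Fintype.card G : ℝ) ^ m * ((k : ℝ) ^ (-(1 / 2) + δ) / max 1 T) ^ m

theorem stmtCountG3 (hG : StmtGrowth) (hS : StmtSplit) (hL : StmtLarge) (hD : StmtDyadic) :
    StmtCountG3 := by
  classical
  intro δ c C₀ hδ hδ1 hc hC₀
  set C : ℝ := 6 + 3 * (1 + 2 * (3 + C₀) / c) with hCdef
  have hC6 : 6 ≤ C := by
    have : 0 ≤ 3 * (1 + 2 * (3 + C₀) / c) := by positivity
    linarith
  set a : ℕ := ⌈16 * (C + C₀) / δ⌉₊ with hadef
  set A : ℝ := 8 * (a + 1) * (C + 1) + 2 with hAdef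
  have hA2 : 2 ≤ A := by
    have : 0 ≤ 8 * ((a : ℝ) + 1) * (C + 1) := by positivity
    linarith
  set R : ℝ := 400 + 32 * A / δ + 32 * (a + 19 + C + C₀) / (9 * δ) with hRdef
  have hev : ∀ᶠ x : ℝ in Filter.atTop, Real.log x ≤ x ^ (δ / 32) ∧ R + 1 ≤ Real.log x ∧
      7 * Real.log x ≤ c / 2 * x := by
    have h1 := ev_log_le (s := δ / 32) (by positivity)
    have h2 := Real.tendsto_log_atTop.eventually_ge_atTop (R + 1)
    have h3 : ∀ᶠ x : ℝ in Filter.atTop, ‖Real.log x‖ ≤ c / 14 * ‖x‖ :=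
      Real.isLittleO_log_id_atTop.bound (by positivity)
    filter_upwards [h1, h2, h3, Filter.eventually_ge_atTop 1] with x hx1 hx2 hx3 hx4
    refine ⟨hx1, hx2, ?_⟩
    rw [Real.norm_of_nonneg (Real.log_nonneg hx4), Real.norm_of_nonneg (by linarith)] at hx3
    linarith
  obtain ⟨x₀, hx₀⟩ := Filter.eventually_atTop.1 hev
  refine ⟨max ⌈x₀⌉₊ 4, fun k hk G _ _ m hm hm2 hp hGc T hT1 hT2 => ?_⟩
  have hk4 : 4 ≤ k := (le_max_right _ _).trans hk
  have hkx : x₀ ≤ (k : ℝ) := (Nat.le_ceil _).trans (by exact_mod_cast (le_max_left _ _).trans hk)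
  obtain ⟨hE1, hE2, hE3⟩ := hx₀ k hkx
  have hk0 : (0 : ℝ) < k := by
    have : 0 < k := by omega
    exact_mod_cast this
  have hk4' : (4 : ℝ) ≤ k := by exact_mod_cast hk4
  obtain ⟨ℓ, hℓ⟩ : ∃ ℓ : ℝ, ℓ = Real.log k := ⟨_, rfl⟩
  rw [← hℓ] at hE1 hE2
  have hkl : Real.exp ℓ = k := by rw [hℓ]; exact Real.exp_log hk0
  have h32A : 0 ≤ 32 * A / δ := by positivity
  have h32B : 0 ≤ 32 * (a + 19 + C + C₀) / (9 * δ) := by positivity
  have hRA : A / (δ / 32) < ℓ := by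
    have h3 : A / (δ / 32) = 32 * A / δ := by field_simp
    rw [h3]
    linarith
  have hRB : (a : ℝ) + 19 + C + C₀ ≤ 9 * δ / 32 * ℓ := by
    have h2 : 32 * (a + 19 + C + C₀) / (9 * δ) ≤ ℓ := by linarith
    rw [div_le_iff₀ (by positivity)] at h2
    linarith
  have hℓ400 : 400 ≤ ℓ := by linarith
  have hrp : ∀ x : ℝ, (k : ℝ) ^ x = Real.exp (x * ℓ) := fun x => by
    rw [Real.rpow_def_of_pos hk0, ← hℓ, mul_comm]
  rw [hrp] at hE1 hT2
  have hT0 : 0 < T := lt_of_lt_of_le (by positivity) hT1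
  have hT1' : Real.exp (-(3 * ℓ)) ≤ T := by
    refine le_trans (le_of_eq ?_) hT1
    rw [Real.exp_neg, show 3 * ℓ = ℓ + ℓ + ℓ by ring, Real.exp_add, Real.exp_add, hkl, one_div]
    congr 1
    ring
  have hmk : (m : ℝ) ≤ k := by exact_mod_cast hm
  have hM : 0 < max 1 T := lt_of_lt_of_le one_pos (le_max_left _ _)
  have hVlow := target_low (T := T) (by omega) hm hδ hC₀ (by rw [hrp]; exact hT2)
  rw [← hℓ, hrp] at hVlow
  rw [hrp, hrp]
  obtain ⟨V, hV⟩ : ∃ V : ℝ, V = Real.exp ((-(1 / 2) + δ) * ℓ) / max 1 T := ⟨_, rfl⟩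
  rw [← hV] at hVlow ⊢
  have hV0 : 0 < V := by
    rw [hV]
    positivity
  -- the bound at each level
  have key : ∀ i ∈ range (m + 1),
      ((univ.filter fun y : Fin m → G => NonSp (Real.exp ((1 - δ / 4) * ℓ)) y ∧
        Ki T i ≤ (Lam y ((1 / 2) ^ (i + 1))).card).card : ℝ) ≤
        (Fintype.card G : ℝ) ^ m * (V ^ m / (k + 1)) := by
    intro i hi
    have him : i ≤ m := by
      have := mem_range.1 hi
      omega
    have hik : (i : ℝ) ≤ k := (by exact_mod_cast him : (i : ℝ) ≤ m).trans hmk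
    have hi0 : (0 : ℝ) ≤ i := by positivity
    have hcube : ((i : ℝ) + 1) * (i + 2) ≤ Real.exp (3 * ℓ) := by
      rw [show 3 * ℓ = ℓ + ℓ + ℓ by ring, Real.exp_add, Real.exp_add, hkl]
      have h1 : ((i : ℝ) + 1) * (i + 2) ≤ (k + 1) * (k + 2) := by gcongr
      have h2 : ((k : ℝ) + 1) * (k + 2) ≤ k * k * k := by nlinarith
      linarith
    by_cases hbig : Real.exp (C * ℓ) < (2 : ℝ) ^ i
    · exact key_high hL hc hC₀ hCdef hk4' hℓ hkl (by linarith) hik hcube hT0 hT1' hGc hE3 hVlow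
        hbig
    · push Not at hbig
      exact key_med hG hS hδ hδ1 hc hC₀ hC6 (Nat.le_ceil _) hAdef hkl hℓ400 hRA hRB hE1 hp hm2
        hmk hT0 hT2 hGc hV hbig
  -- the union
  have hsub : (univ.filter fun y : Fin m → G =>
      NonSp (Real.exp ((1 - δ / 4) * ℓ)) y ∧ 1 + T ≤ gZ 8 y) ⊆
      (range (m + 1)).biUnion fun i => univ.filter fun y : Fin m → G =>
        NonSp (Real.exp ((1 - δ / 4) * ℓ)) y ∧
          Ki T i ≤ (Lam y ((1 / 2) ^ (i + 1))).card := by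
    intro y hy
    rw [mem_filter] at hy
    obtain ⟨i, hi, h⟩ := hD G m y T hT0 hy.2.2
    rw [mem_biUnion]
    exact ⟨i, mem_range.2 (by omega), by rw [mem_filter]; exact ⟨mem_univ _, hy.2.1, h⟩⟩
  have h1 : ((univ.filter fun y : Fin m → G =>
      NonSp (Real.exp ((1 - δ / 4) * ℓ)) y ∧ 1 + T ≤ gZ 8 y).card : ℝ) ≤
      ∑ i ∈ range (m + 1), ((univ.filter fun y : Fin m → G =>
        NonSp (Real.exp ((1 - δ / 4) * ℓ)) y ∧
          Ki T i ≤ (Lam y ((1 / 2) ^ (i + 1))).card).card : ℝ) := by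
    exact_mod_cast (card_le_card hsub).trans card_biUnion_le
  have h2 := h1.trans (sum_le_sum key)
  rw [sum_const, card_range, nsmul_eq_mul] at h2
  have h3 : (((m + 1 : ℕ) : ℝ)) * ((Fintype.card G : ℝ) ^ m * (V ^ m / (k + 1))) ≤
      (Fintype.card G : ℝ) ^ m * V ^ m := by
    have h4 : (((m + 1 : ℕ) : ℝ)) ≤ k + 1 := by
      push_cast
      linarith
    calc (((m + 1 : ℕ) : ℝ)) * ((Fintype.card G : ℝ) ^ m * (V ^ m / (k + 1)))
        ≤ (k + 1) * ((Fintype.card G : ℝ) ^ m * (V ^ m / (k + 1))) := by gcongr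
      _ = (Fintype.card G : ℝ) ^ m * V ^ m := by
          field_simp
  refine le_trans (le_of_eq ?_) (h2.trans h3)
  congr

theorem countG_of_countG3 (h : StmtCountG3) : StmtCountG := by
  intro δ c C₀ hδ hδ1 hc hC₀
  obtain ⟨k₀, hk₀⟩ := h δ c C₀ hδ hδ1 hc hC₀
  refine ⟨max k₀ 1, fun k hk G _ _ m hm hm2 hp hGc T hT1 hT2 => ?_⟩
  refine hk₀ k ((le_max_left _ _).trans hk) G m hm hm2 hp hGc T (le_trans ?_ hT1) hT2
  have hk1 : 1 ≤ k := (le_max_right _ _).trans hk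
  have hk1' : (1 : ℝ) ≤ k := by exact_mod_cast hk1
  refine one_div_le_one_div_of_le (by linarith) ?_
  calc (k : ℝ) = k ^ 1 := (pow_one _).symm
    _ ≤ k ^ 3 := pow_le_pow_right₀ hk1' (by norm_num)

theorem stmtCountG (hG : StmtGrowth) (hS : StmtSplit) (hL : StmtLarge) (hD : StmtDyadic) :
    StmtCountG :=
  countG_of_countG3 (stmtCountG3 hG hS hL hD)

end final

end Vale.Agent.P160.Half.Flat.C
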