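import Vale.Agent.P160.Half.MCTail373

/-! COUNT for the law `(1/4,1/2,1/4)` (`gZ 4`, barrier `|G| 2^{-m}`), every finite abelian group. -/

namespace Vale.Agent.P160.Half.Flat.C4

open Finset Vale.Agent.P160 Vale.Agent.P160.Half.Flat Vale.Agent.P160.Half.Flat.C
open Vale.Agent.P160.Half.Flat.Tail

section

variable {G : Type} [AddCommGroup G] [Fintype G]

/-- nontrivial characters with product at least `t`, law `(1/4,1/2,1/4)` -/
noncomputable def Lam4 {m : ℕ} (y : Fin m → G) (t : ℝ) : Finset (AddChar G ℂ) := by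
  classical exact univ.filter fun ψ => ψ ≠ 1 ∧ t ≤ gP 4 y ψ

lemma mem_Lam4 {m : ℕ} {y : Fin m → G} {t : ℝ} {ψ : AddChar G ℂ} :
    ψ ∈ Lam4 y t ↔ ψ ≠ 1 ∧ t ≤ gP 4 y ψ := by
  classical
  unfold Lam4
  simp

lemma cf4 {z : ℂ} (hz : ‖z‖ = 1) : cf 4 z = 1 - ‖z - 1‖ ^ 2 / 4 := by
  have h1 : ‖z - 1‖ ^ 2 = (z.re - 1) ^ 2 + z.im ^ 2 := by
    rw [← Complex.normSq_eq_norm_sq, Complex.normSq_apply]
    simp
    ring
  have h2 : z.re ^ 2 + z.im ^ 2 = 1 := by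
    have := Complex.normSq_eq_norm_sq z
    rw [hz, Complex.normSq_apply] at this
    nlinarith
  rw [h1]
  unfold cf
  push_cast
  nlinarith

lemma cf4_le {z : ℂ} (hz : ‖z‖ = 1) : cf 4 z ≤ 1 - ‖z - 1‖ ^ 2 / 8 := by
  rw [cf4 hz]
  have : 0 ≤ ‖z - 1‖ ^ 2 := by positivity
  linarith

open scoped Classical in
/-- few coordinates far from the kernel -/
lemma few4 {m : ℕ} (y : Fin m → G) (ψ : AddChar G ℂ) {t ρ : ℝ} (ht : 0 < t) (hρ : 0 < ρ)
    (h : t ≤ gP 4 y ψ) :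
    ((univ.filter fun c => ¬ ‖ψ (y c) - 1‖ ≤ ρ).card : ℝ) * ρ ^ 2 ≤ 8 * (-Real.log t) := by
  have h1 : gP 4 y ψ ≤ Real.exp (-(∑ c, ‖ψ (y c) - 1‖ ^ 2) / 8) := by
    unfold gP
    have : -(∑ c, ‖ψ (y c) - 1‖ ^ 2) / 8 = ∑ c, (-(‖ψ (y c) - 1‖ ^ 2 / 8)) := by
      rw [sum_neg_distrib, ← sum_div, neg_div]
    rw [this, Real.exp_sum]
    refine prod_le_prod (fun c _ => cf_nonneg (by norm_num) (norm_addChar ψ _)) fun c _ => ?_
    refine (cf4_le (norm_addChar ψ _)).trans ?_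
    have := Real.add_one_le_exp (-(‖ψ (y c) - 1‖ ^ 2 / 8))
    linarith
  have h2 : Real.log t ≤ -(∑ c, ‖ψ (y c) - 1‖ ^ 2) / 8 := by
    rw [← Real.log_exp (-(∑ c, ‖ψ (y c) - 1‖ ^ 2) / 8)]
    exact Real.log_le_log ht (h.trans h1)
  have h3 : ((univ.filter fun c => ¬ ‖ψ (y c) - 1‖ ≤ ρ).card : ℝ) * ρ ^ 2 ≤
      ∑ c, ‖ψ (y c) - 1‖ ^ 2 := by
    rw [← nsmul_eq_mul, ← sum_const]
    refine (sum_le_sum fun c hc => ?_).trans
      (sum_le_sum_of_subset_of_nonneg (filter_subset (fun c => ¬ ‖ψ (y c) - 1‖ ≤ ρ) univ)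
        fun _ _ _ => by positivity)
    rw [mem_filter] at hc
    have := hc.2
    push Not at this
    exact pow_le_pow_left₀ hρ.le this.le 2
  linarith

open scoped Classical in
/-- structure of a nonsparse vector with many large characters -/
lemma struct4 (hG : StmtGrowth) (hS : StmtSplit) {m : ℕ} (y : Fin m → G) {e t K θ ρ : ℝ} {J a N₀ : ℕ}
    (ht : 0 < t) (h8 : 8 ≤ θ * J) (hθ : 0 < θ) (hρ : 0 < ρ) (hJ : 0 < J)
    (hρJ : 20 * ρ ≤ 1 / J)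
    (hp : ∀ p : ℕ, p.Prime → p ∣ Fintype.card G → J ≤ p) (hy : NonSp e y)
    (hK1 : 1 ≤ K) (hK : K ≤ (Lam4 y t).card) (ha : θ ^ a * θ ^ 2 * K ≤ 256)
    (hN : (a + 1) * (8 * (-Real.log t)) / ρ ^ 2 ≤ N₀) (hNe : (N₀ : ℝ) < e) :
    ∃ S : Finset (AddChar G ℂ), S.Nonempty ∧ S.card ≤ a + 1 ∧
      ((bohr S ρ).card : ℝ) ≤ 25600 * ρ * J / (K * θ ^ 2) * Fintype.card G ∧
      (univ.filter fun c => y c ∉ bohr S ρ).card ≤ N₀ := by
  have hne : (Lam4 y t).Nonempty := by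
    rw [← card_pos]
    have : (0 : ℝ) < (Lam4 y t).card := lt_of_lt_of_le (by linarith) hK
    exact_mod_cast this
  obtain ⟨S, hSΛ, hSn, hSc, h⟩ := sel hS (Lam4 y t) hne J θ h8 hθ hp a
  have hG0 : (0 : ℝ) ≤ Fintype.card G := by positivity
  have hB : K * (bohr S (1 / J)).card * θ ^ 2 ≤ 256 * Fintype.card G := by
    rcases h with h | h
    · refine le_trans ?_ h
      gcongr
    · calc K * (bohr S (1 / J)).card * θ ^ 2 ≤ K * (θ ^ a * Fintype.card G) * θ ^ 2 := by gcongr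
        _ = (θ ^ a * θ ^ 2 * K) * Fintype.card G := by ring
        _ ≤ 256 * Fintype.card G := by gcongr
  have hfew : (univ.filter fun c => y c ∉ bohr S ρ).card ≤ N₀ := by
    have h1 : (univ.filter fun c => y c ∉ bohr S ρ) ⊆
        S.biUnion fun ψ => univ.filter fun c => ¬ ‖ψ (y c) - 1‖ ≤ ρ := by
      intro c hc
      rw [mem_filter, mem_bohr] at hc
      have h2 := hc.2
      push Not at h2
      obtain ⟨ψ, hψ, h3⟩ := h2
      rw [mem_biUnion]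
      exact ⟨ψ, hψ, by rw [mem_filter]; exact ⟨mem_univ _, not_le.2 h3⟩⟩
    have h2 : ((univ.filter fun c => y c ∉ bohr S ρ).card : ℝ) ≤
        ∑ ψ ∈ S, ((univ.filter fun c => ¬ ‖ψ (y c) - 1‖ ≤ ρ).card : ℝ) := by
      exact_mod_cast (card_le_card h1).trans card_biUnion_le
    have h3 : ∑ ψ ∈ S, ((univ.filter fun c => ¬ ‖ψ (y c) - 1‖ ≤ ρ).card : ℝ) ≤
        ∑ ψ ∈ S, 8 * (-Real.log t) / ρ ^ 2 := by
      refine sum_le_sum fun ψ hψ => ?_
      rw [le_div_iff₀ (by positivity)]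
      exact few4 y ψ ht hρ (mem_Lam4.1 (hSΛ hψ)).2
    have h4 : 0 ≤ 8 * (-Real.log t) / ρ ^ 2 := by
      obtain ⟨ψ, hψ⟩ := hSn
      have := few4 y ψ ht hρ (mem_Lam4.1 (hSΛ hψ)).2
      have h5 : (0 : ℝ) ≤ ((univ.filter fun c => ¬ ‖ψ (y c) - 1‖ ≤ ρ).card : ℝ) * ρ ^ 2 := by
        positivity
      have h6 : 0 ≤ 8 * (-Real.log t) := h5.trans this
      positivity
    rw [sum_const, nsmul_eq_mul] at h3
    have h5 : (S.card : ℝ) * (8 * (-Real.log t) / ρ ^ 2) ≤ N₀ := by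
      refine le_trans ?_ hN
      rw [mul_div_assoc (a := ((a : ℝ) + 1))]
      refine mul_le_mul_of_nonneg_right ?_ h4
      exact_mod_cast hSc
    exact_mod_cast (h2.trans h3).trans h5
  refine ⟨S, hSn, hSc, ?_, hfew⟩
  have hJ' : (0 : ℝ) < J := by exact_mod_cast hJ
  have hJ1 : (1 : ℝ) / J ≤ 1 := by
    rw [div_le_one hJ']
    exact_mod_cast hJ
  rcases hG G S ρ (1 / J) hρ hρJ hJ1 with h1 | h1
  · exfalso
    obtain ⟨ψ, hψ⟩ := hSn
    have h2 := hy ψ (mem_Lam4.1 (hSΛ hψ)).1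
    have h3 : (univ.filter fun c => ψ (y c) ≠ 1).card ≤ (univ.filter fun c => y c ∉ bohr S ρ).card := by
      refine card_le_card fun c hc => ?_
      rw [mem_filter] at hc ⊢
      exact ⟨mem_univ _, fun hb => hc.2 (h1 _ hb ψ hψ)⟩
    have h4 : ((univ.filter fun c => ψ (y c) ≠ 1).card : ℝ) ≤ N₀ := by
      exact_mod_cast h3.trans hfew
    have h5 : e ≤ (N₀ : ℝ) := by
      refine le_trans ?_ h4
      convert h2
    linarith
  · have hK0 : 0 < K * θ ^ 2 := by positivity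
    rw [mul_one_div, div_le_iff₀ hJ'] at h1
    have h2 : ((bohr S (1 / J)).card : ℝ) ≤ 256 * Fintype.card G / (K * θ ^ 2) := by
      rw [le_div_iff₀ hK0]
      linarith
    calc ((bohr S ρ).card : ℝ) ≤ 100 * ρ * (bohr S (1 / J)).card * J := h1
      _ ≤ 100 * ρ * (256 * Fintype.card G / (K * θ ^ 2)) * J := by gcongr
      _ = 25600 * ρ * J / (K * θ ^ 2) * Fintype.card G := by ring

open scoped Classical in
/-- medium levels -/
lemma medium4 (hG : StmtGrowth) (hS : StmtSplit) {m : ℕ} {e t K θ ρ : ℝ} {J a N₀ : ℕ}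
    (ht : 0 < t) (h8 : 8 ≤ θ * J) (hθ : 0 < θ) (hρ : 0 < ρ) (hJ : 0 < J)
    (hρJ : 20 * ρ ≤ 1 / J)
    (hp : ∀ p : ℕ, p.Prime → p ∣ Fintype.card G → J ≤ p)
    (hK0 : 0 < K) (ha : θ ^ a * θ ^ 2 * max 1 K ≤ 256)
    (hN : (a + 1) * (8 * (-Real.log t)) / ρ ^ 2 ≤ N₀) (hNe : (N₀ : ℝ) < e) (hNm : N₀ ≤ m)
    (hu : 25600 * ρ * J / (max 1 K * θ ^ 2) ≤ 1) :
    ((univ.filter fun y : Fin m → G => NonSp e y ∧ K ≤ (Lam4 y t).card).card : ℝ) ≤
      (Fintype.card G : ℝ) ^ (a + 1) * (2 ^ m * ((Fintype.card G : ℝ) ^ m *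
        (25600 * ρ * J / (max 1 K * θ ^ 2)) ^ (m - N₀))) := by
  have hJ' : (0 : ℝ) < J := by exact_mod_cast hJ
  have hK1 : 0 < max 1 K := lt_of_lt_of_le one_pos (le_max_left _ _)
  have hu0 : 0 < 25600 * ρ * J / (max 1 K * θ ^ 2) := by positivity
  refine le_trans ?_ (cover (G := G) (L := a + 1) (ρ := ρ) hu0 hu hNm)
  have : (univ.filter fun y : Fin m → G => NonSp e y ∧ K ≤ (Lam4 y t).card) ⊆
      (univ.filter fun y : Fin m → G => ∃ S : Finset (AddChar G ℂ), S.Nonempty ∧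
      S.card ≤ a + 1 ∧ ((bohr S ρ).card : ℝ) ≤ 25600 * ρ * J / (max 1 K * θ ^ 2) * Fintype.card G ∧
      (univ.filter fun c => y c ∉ bohr S ρ).card ≤ N₀) := by
    intro y hy
    rw [mem_filter] at hy ⊢
    refine ⟨mem_univ _, ?_⟩
    have h1 : max 1 K ≤ (Lam4 y t).card := by
      refine max_le ?_ hy.2.2
      have : (0 : ℝ) < (Lam4 y t).card := lt_of_lt_of_le hK0 hy.2.2
      have : 0 < (Lam4 y t).card := by exact_mod_cast this
      exact_mod_cast this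
    obtain ⟨S, h2, h3, h4, h5⟩ := struct4 hG hS y ht h8 hθ hρ hJ hρJ hp hy.2.1 (le_max_left 1 K)
      h1 ha hN hNe
    refine ⟨S, h2, h3, h4, ?_⟩
    convert h5
  exact_mod_cast card_le_card this

open scoped Classical in
lemma high4 {m k l : ℕ} {c K t V : ℝ} (ht : 0 < t)
    (hGc : (Fintype.card G : ℝ) * (1 / 2) ^ m ≤ Real.exp (-c * k)) (hl : (8 : ℝ) ^ l ≤ K)
    (hKt : Real.exp (-(7 * Real.log k)) ≤ K / 2 * t) (hc : 7 * Real.log k ≤ c / 2 * k)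
    (hV : Real.exp (-(c / 2 * k * l)) ≤ V) :
    ((univ.filter fun y : Fin m → G => K ≤ (Lam4 y t).card).card : ℝ) ≤
      (Fintype.card G : ℝ) ^ m * V := by
  have h1 : (1 / 2 : ℝ) = 1 - 2 / (4 : ℕ) := by push_cast; norm_num
  rw [h1] at hGc
  refine le_trans ?_ (highM (M := 4) le_rfl ht hGc hl hKt hc hV)
  have : (univ.filter fun y : Fin m → G => K ≤ ((Lam4 y t).card : ℝ)) ⊆
      (univ.filter fun y : Fin m → G => K ≤ ((LM 4 y t).card : ℝ)) := by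
    intro y hy
    rw [mem_filter] at hy ⊢
    refine ⟨mem_univ _, hy.2.trans ?_⟩
    have h2 : Lam4 y t ⊆ LM 4 y t := by
      intro ψ hψ
      rw [mem_Lam4] at hψ
      rw [mem_LM]
      exact hψ.2
    exact_mod_cast card_le_card h2
  exact_mod_cast card_le_card this

end

open scoped Classical in
lemma key_high4 {G : Type} [AddCommGroup G] [Fintype G] {m k i : ℕ}
    {c C C₀ T ℓ V e : ℝ} (hc : 0 < c) (hC₀ : 0 < C₀) (hC : C = 6 + 3 * (1 + 2 * (3 + C₀) / c))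
    (hk4 : (4 : ℝ) ≤ k) (hℓ : ℓ = Real.log k) (hkl : Real.exp ℓ = k) (hℓ1 : 1 ≤ ℓ)
    (hik : (i : ℝ) ≤ k) (hcube : ((i : ℝ) + 1) * (i + 2) ≤ Real.exp (3 * ℓ))
    (hT0 : 0 < T) (hT1' : Real.exp (-(3 * ℓ)) ≤ T)
    (hGc : (Fintype.card G : ℝ) * (1 / 2) ^ m ≤ Real.exp (-c * k))
    (hE3 : 7 * Real.log k ≤ c / 2 * k)
    (hVlow : Real.exp (-((3 + C₀) * (k * ℓ))) ≤ V)
    (hbig : Real.exp (C * ℓ) < (2 : ℝ) ^ i) :
    ((univ.filter fun y : Fin m → G => NonSp e y ∧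
        Ki T i ≤ (Lam4 y ((1 / 2) ^ (i + 1))).card).card : ℝ) ≤
      (Fintype.card G : ℝ) ^ m * V := by
  have hsub : ((univ.filter fun y : Fin m → G => NonSp e y ∧
      Ki T i ≤ (Lam4 y ((1 / 2) ^ (i + 1))).card).card : ℝ) ≤
      ((univ.filter fun y : Fin m → G =>
        Ki T i ≤ (Lam4 y ((1 / 2) ^ (i + 1))).card).card : ℝ) := by
    exact_mod_cast card_le_card fun y hy => by
      rw [mem_filter] at hy ⊢
      exact ⟨hy.1, hy.2.2⟩
  refine hsub.trans ?_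
  have hC6 : 0 ≤ C - 6 := by
    have : 0 ≤ 3 * (1 + 2 * (3 + C₀) / c) := by positivity
    linarith
  have hKbig : Real.exp ((C - 6) * ℓ) ≤ Ki T i := by
    unfold Ki
    rw [le_div_iff₀ (by positivity)]
    calc Real.exp ((C - 6) * ℓ) * ((i + 1) * (i + 2))
        ≤ Real.exp ((C - 6) * ℓ) * Real.exp (3 * ℓ) :=
          mul_le_mul_of_nonneg_left hcube (Real.exp_pos _).le
      _ = Real.exp (C * ℓ) * Real.exp (-(3 * ℓ)) := by
          rw [← Real.exp_add, ← Real.exp_add]; congr 1; ring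
      _ ≤ (2 : ℝ) ^ i * T :=
          mul_le_mul hbig.le hT1' (Real.exp_pos _).le (by positivity)
  have hf1 : (C - 6) / 3 * ℓ - 1 ≤ (⌊(C - 6) / 3 * ℓ⌋₊ : ℝ) := by
    have := Nat.lt_floor_add_one ((C - 6) / 3 * ℓ)
    linarith
  refine high4 (l := ⌊(C - 6) / 3 * ℓ⌋₊) (c := c) (t := (1 / 2) ^ (i + 1)) (by positivity) hGc
    ?_ ?_ hE3 ?_
  · refine le_trans ?_ hKbig
    have h8 : (8 : ℝ) ≤ Real.exp 3 := by
      have h1 := two_le_exp
      have h2 : Real.exp 3 = (Real.exp 1) ^ 3 := by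
        rw [← Real.exp_nat_mul]; norm_num
      rw [h2]
      refine le_trans ?_ (pow_le_pow_left₀ (by norm_num) h1 3)
      norm_num
    refine (pow_le_pow_left₀ (by norm_num) h8 _).trans ?_
    rw [← Real.exp_nat_mul, Real.exp_le_exp]
    have h1 : 0 ≤ (C - 6) / 3 * ℓ := by positivity
    have := Nat.floor_le h1
    linarith
  · have h1 : Ki T i / 2 * (1 / 2) ^ (i + 1) = T / (4 * ((i + 1) * (i + 2))) := by
      unfold Ki
      have h3 : (2 : ℝ) ^ i * (1 / 2) ^ (i + 1) = 1 / 2 := by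
        rw [pow_succ, ← mul_assoc, ← mul_pow]
        norm_num
      have h2 : ((i : ℝ) + 1) * (i + 2) ≠ 0 := by positivity
      calc (2 : ℝ) ^ i * T / ((i + 1) * (i + 2)) / 2 * (1 / 2) ^ (i + 1)
          = ((2 : ℝ) ^ i * (1 / 2) ^ (i + 1)) * T / ((i + 1) * (i + 2)) / 2 := by ring
        _ = T / (4 * ((i + 1) * (i + 2))) := by
            rw [h3]
            field_simp
            ring
    rw [h1, le_div_iff₀ (by positivity), ← hℓ]
    have h4 : 4 * (((i : ℝ) + 1) * (i + 2)) ≤ Real.exp ℓ * Real.exp (3 * ℓ) := by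
      refine mul_le_mul ?_ hcube (by positivity) (Real.exp_pos _).le
      rw [hkl]; exact hk4
    calc Real.exp (-(7 * ℓ)) * (4 * ((i + 1) * (i + 2)))
        ≤ Real.exp (-(7 * ℓ)) * (Real.exp ℓ * Real.exp (3 * ℓ)) :=
          mul_le_mul_of_nonneg_left h4 (Real.exp_pos _).le
      _ = Real.exp (-(3 * ℓ)) := by
          rw [← Real.exp_add, ← Real.exp_add]; congr 1; ring
      _ ≤ T := hT1'
  · refine le_trans ?_ hVlow
    rw [Real.exp_le_exp, neg_le_neg_iff]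
    have h2 : (C - 6) / 3 = 1 + 2 * (3 + C₀) / c := by rw [hC]; ring
    have h3 : 2 * (3 + C₀) / c * ℓ ≤ (⌊(C - 6) / 3 * ℓ⌋₊ : ℝ) := by
      refine le_trans ?_ hf1
      rw [h2]
      linarith
    have h4 : (3 + C₀) * ℓ ≤ c / 2 * (⌊(C - 6) / 3 * ℓ⌋₊ : ℝ) := by
      have h5 : (3 + C₀) * ℓ = c / 2 * (2 * (3 + C₀) / c * ℓ) := by field_simp
      rw [h5]
      exact mul_le_mul_of_nonneg_left h3 (by positivity)
    calc (3 + C₀) * (k * ℓ) = k * ((3 + C₀) * ℓ) := by ring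
      _ ≤ k * (c / 2 * (⌊(C - 6) / 3 * ℓ⌋₊ : ℝ)) := mul_le_mul_of_nonneg_left h4 (by linarith)
      _ = c / 2 * k * (⌊(C - 6) / 3 * ℓ⌋₊ : ℝ) := by ring

lemma card_le_exp4 {g c : ℝ} {k m : ℕ} (hc : 0 < c) (hmk : (m : ℝ) ≤ k)
    (hGc : g * (1 / 2) ^ m ≤ Real.exp (-c * k)) : g ≤ Real.exp k := by
  have h1 : Real.exp (-c * k) ≤ 1 := by
    rw [Real.exp_le_one_iff]
    have : 0 ≤ c * k := by positivity
    linarith
  have h2 : g * (1 / 2) ^ m ≤ 1 := hGc.trans h1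
  have h3 : (1 / 2 : ℝ) ^ m * 2 ^ m = 1 := by
    rw [← mul_pow]; norm_num
  have h4 : g ≤ 2 ^ m := by
    calc g = g * ((1 / 2 : ℝ) ^ m * 2 ^ m) := by
          rw [h3, mul_one]
      _ = g * (1 / 2 : ℝ) ^ m * 2 ^ m := by ring
      _ ≤ 1 * 2 ^ m := mul_le_mul_of_nonneg_right h2 (by positivity)
      _ = 2 ^ m := one_mul _
  have h5 : (2 : ℝ) ^ m ≤ (Real.exp 1) ^ m :=
    pow_le_pow_left₀ (by norm_num) two_le_exp m
  refine h4.trans (h5.trans ?_)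
  rw [← Real.exp_nat_mul, Real.exp_le_exp]
  linarith

open scoped Classical in
lemma key_med4 {G : Type} [AddCommGroup G] [Fintype G] (hG : StmtGrowth) (hS : StmtSplit)
    {m k i a : ℕ} {δ c C C₀ A T ℓ V : ℝ} (hδ : 0 < δ) (hδ1 : δ ≤ 1)
    (hc : 0 < c) (hC₀ : 0 < C₀) (hC6 : 6 ≤ C)
    (ha : 16 * (C + C₀) / δ ≤ a) (hA : A = 8 * (a + 1) * (C + 1) + 2)
    (hkl : Real.exp ℓ = k) (hℓ : 400 ≤ ℓ)
    (hRA : A / (δ / 32) < ℓ) (hRB : (a : ℝ) + 19 + C + C₀ ≤ 9 * δ / 32 * ℓ)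
    (hE1 : ℓ ≤ Real.exp (δ / 32 * ℓ))
    (hp : ∀ p : ℕ, p.Prime → p ∣ Fintype.card G → k ≤ p)
    (hm2 : (k : ℝ) ≤ 2 * m) (hmk : (m : ℝ) ≤ k)
    (hT0 : 0 < T) (hT2 : T ≤ Real.exp (C₀ * ℓ))
    (hGc : (Fintype.card G : ℝ) * (1 / 2) ^ m ≤ Real.exp (-c * k))
    (hV : V = Real.exp ((-(1 / 2) + δ) * ℓ) / max 1 T)
    (hbig : (2 : ℝ) ^ i ≤ Real.exp (C * ℓ)) :
    ((univ.filter fun y : Fin m → G => NonSp (Real.exp ((1 - δ / 4) * ℓ)) y ∧
        Ki T i ≤ (Lam4 y ((1 / 2) ^ (i + 1))).card).card : ℝ) ≤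
      (Fintype.card G : ℝ) ^ m * (V ^ m / (k + 1)) := by
  obtain ⟨θ, hθ⟩ : ∃ θ : ℝ, θ = Real.exp (-(δ / 16) * ℓ) := ⟨_, rfl⟩
  obtain ⟨ρ, hρ⟩ : ∃ ρ : ℝ, ρ = Real.exp ((-(1 / 2) + δ / 4) * ℓ) := ⟨_, rfl⟩
  obtain ⟨J, hJ⟩ : ∃ J : ℕ, J = ⌈8 * Real.exp (δ / 16 * ℓ)⌉₊ := ⟨_, rfl⟩
  obtain ⟨N₀, hN₀⟩ : ∃ N₀ : ℕ, N₀ = ⌈((a : ℝ) + 1) * (8 * (C * ℓ + 1)) / ρ ^ 2⌉₊ := ⟨_, rfl⟩
  have hℓ0 : 0 < ℓ := by linarith
  have hθ0 : 0 < θ := by rw [hθ]; exact Real.exp_pos _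
  have hρ0 : 0 < ρ := by rw [hρ]; exact Real.exp_pos _
  have hJlow : 8 * Real.exp (δ / 16 * ℓ) ≤ J := by rw [hJ]; exact Nat.le_ceil _
  have hJ0' : (0 : ℝ) < J := lt_of_lt_of_le (by positivity) hJlow
  have hJ0 : 0 < J := by exact_mod_cast hJ0'
  have hJ1 : (1 : ℝ) ≤ J := by exact_mod_cast hJ0
  have hJup : (J : ℝ) ≤ 9 * Real.exp (δ / 16 * ℓ) := by
    have h1 := Nat.ceil_lt_add_one (a := 8 * Real.exp (δ / 16 * ℓ)) (by positivity)
    have h2 : 1 ≤ Real.exp (δ / 16 * ℓ) := Real.one_le_exp (by positivity)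
    rw [← hJ] at h1
    linarith
  have hN1 := N_bounds hδ hδ1 hC6 hA hℓ hRA hE1
  rw [← hρ, ← hN₀, hkl] at hN1
  obtain ⟨hNl, hNe⟩ := hN1
  have hN0' : (0 : ℝ) ≤ N₀ := by positivity
  have hNm : N₀ ≤ m := by
    have h1 : 2 * (N₀ : ℝ) ≤ ℓ * N₀ := mul_le_mul_of_nonneg_right (by linarith) hN0'
    have h2 : (N₀ : ℝ) ≤ m := by linarith
    exact_mod_cast h2
  have hKi0 : 0 < Ki T i := Ki_pos hT0 i
  obtain ⟨K, hK⟩ : ∃ K : ℝ, K = max 1 (Ki T i) := ⟨_, rfl⟩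
  have hK1 : 1 ≤ K := by rw [hK]; exact le_max_left _ _
  have hK0 : 0 < K := by linarith
  have hKup : K ≤ Real.exp ((C + C₀) * ℓ) := by
    rw [hK]
    refine max_le (Real.one_le_exp (by positivity)) ?_
    refine (Ki_le hT0 i).trans ?_
    rw [add_mul, Real.exp_add]
    exact mul_le_mul hbig hT2 hT0.le (Real.exp_pos _).le
  have hKT : max 1 T ≤ 3 * K := by rw [hK]; exact max_le_Ki hT0 i
  have hM : 0 < max 1 T := lt_of_lt_of_le one_pos (le_max_left _ _)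
  have hV0 : 0 < V := by rw [hV]; positivity
  obtain ⟨u, hu⟩ : ∃ u : ℝ, u = 25600 * ρ * J / (K * θ ^ 2) := ⟨_, rfl⟩
  have hu0 : 0 < u := by rw [hu]; positivity
  obtain ⟨hu1, huup, hulow⟩ := u_bounds hδ hδ1 hℓ hρ hθ hJ1 hJup hK1 hKup hKT hV hu
  obtain ⟨hθ1, hw, hsmall, hwle⟩ := w_bounds hδ hδ1 hℓ hρ hθ hJ0' hJup
  have c1 : (8 : ℝ) ≤ θ * J := by
    calc (8 : ℝ) = Real.exp (-(δ / 16) * ℓ) * (8 * Real.exp (δ / 16 * ℓ)) := by
          rw [mul_left_comm, ← Real.exp_add]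
          simp
      _ ≤ θ * J := by rw [hθ]; exact mul_le_mul_of_nonneg_left hJlow (Real.exp_pos _).le
  have c2 : 20 * ρ ≤ 1 / J := by
    rw [le_div_iff₀ hJ0']
    linarith
  have c3 : ∀ p : ℕ, p.Prime → p ∣ Fintype.card G → J ≤ p := by
    intro p hpp hpd
    have h1 : (J : ℝ) ≤ k := by
      refine hJup.trans ?_
      rw [← hkl]
      have h2 : Real.exp (δ / 16 * ℓ) ≤ Real.exp (1 / 2 * ℓ) := by
        rw [Real.exp_le_exp]
        exact mul_le_mul_of_nonneg_right (by linarith) hℓ0.le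
      have h3 : (9 : ℝ) ≤ Real.exp (1 / 2 * ℓ) := by
        have := Real.add_one_le_exp (1 / 2 * ℓ)
        linarith
      calc 9 * Real.exp (δ / 16 * ℓ) ≤ Real.exp (1 / 2 * ℓ) * Real.exp (1 / 2 * ℓ) :=
            mul_le_mul h3 h2 (Real.exp_pos _).le (Real.exp_pos _).le
        _ = Real.exp ℓ := by rw [← Real.exp_add]; congr 1; ring
    have h2 : J ≤ k := by exact_mod_cast h1
    exact h2.trans (hp p hpp hpd)
  have c4 : θ ^ a * θ ^ 2 * max 1 (Ki T i) ≤ 256 := by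
    rw [← hK]
    have h1 : θ ^ a ≤ Real.exp (-((C + C₀) * ℓ)) := by
      rw [hθ, ← Real.exp_nat_mul, Real.exp_le_exp]
      have h2 : C + C₀ ≤ a * (δ / 16) := by
        rw [div_le_iff₀ hδ] at ha
        linarith
      have h3 : (C + C₀) * ℓ ≤ a * (δ / 16) * ℓ := mul_le_mul_of_nonneg_right h2 hℓ0.le
      linarith
    calc θ ^ a * θ ^ 2 * K ≤ Real.exp (-((C + C₀) * ℓ)) * 1 * Real.exp ((C + C₀) * ℓ) :=
          mul_le_mul (mul_le_mul h1 hθ1 (by positivity) (Real.exp_pos _).le) hKup hK0.le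
            (by positivity)
      _ = 1 := by rw [mul_one, ← Real.exp_add]; simp
      _ ≤ 256 := by norm_num
  have c5 : ((a : ℝ) + 1) * (8 * (-Real.log ((1 / 2) ^ (i + 1)))) / ρ ^ 2 ≤ N₀ := by
    rw [hN₀]
    refine le_trans ?_ (Nat.le_ceil _)
    have h1 := log_t hbig
    gcongr
  have hmed := medium4 (G := G) hG hS (m := m) (e := Real.exp ((1 - δ / 4) * ℓ))
    (t := (1 / 2) ^ (i + 1)) (K := Ki T i) (θ := θ) (ρ := ρ) (J := J) (a := a) (N₀ := N₀)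
    (by positivity) c1 hθ0 hρ0 hJ0 c2 c3 hKi0 c4 c5 hNe hNm (by rw [← hK, ← hu]; exact hu1)
  rw [← hK, ← hu] at hmed
  refine hmed.trans ?_
  exact pow_bound hδ (by linarith) hℓ (by positivity)
    (card_le_exp4 hc hmk hGc) hV0 hu0 huup hulow hRB hNl hNm hm2 hmk

section dyadic

variable {G : Type} [AddCommGroup G] [Fintype G]

open scoped Classical in
/-- some level has many characters -/
lemma dyadic4 {m : ℕ} (y : Fin m → G) {T : ℝ} (hT : 0 < T)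
    (hres : (Fintype.card G : ℝ) * (1 / 2) ^ (m + 1) < T / (m + 2)) (h2 : 1 + T ≤ gZ 4 y) :
    ∃ i ∈ range (m + 1), Ki T i ≤ (Lam4 y ((1 / 2) ^ (i + 1))).card := by
  by_contra hcon
  push Not at hcon
  have hM : 4 ≤ 4 := le_rfl
  have hpt : ∀ ψ ∈ (univ.filter fun ψ : AddChar G ℂ => ψ ≠ 1), gP 4 y ψ ≤
      ∑ i ∈ range (m + 1),
        (if (1 / 2 : ℝ) ^ (i + 1) ≤ gP 4 y ψ then (1 / 2 : ℝ) ^ i else 0) +
      (1 / 2 : ℝ) ^ (m + 1) := by
    intro ψ _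
    have h0 := gP_nonnegM hM y ψ
    have h1 := gP_le_oneM hM y ψ
    have hn : 0 ≤ ∑ i ∈ range (m + 1),
        (if (1 / 2 : ℝ) ^ (i + 1) ≤ gP 4 y ψ then (1 / 2 : ℝ) ^ i else 0) :=
      sum_nonneg fun i _ => by split_ifs <;> positivity
    have hk0 : (0 : ℝ) < (1 / 2) ^ (m + 1) := by positivity
    by_cases hb : gP 4 y ψ < (1 / 2 : ℝ) ^ (m + 1)
    · linarith
    · push Not at hb
      have hex : ∃ i, (1 / 2 : ℝ) ^ (i + 1) ≤ gP 4 y ψ := ⟨m, hb⟩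
      set i := Nat.find hex with hi
      have hi1 : (1 / 2 : ℝ) ^ (i + 1) ≤ gP 4 y ψ := Nat.find_spec hex
      have hik : i ≤ m := Nat.find_min' hex hb
      have hi2 : gP 4 y ψ ≤ (1 / 2 : ℝ) ^ i := by
        rcases Nat.eq_zero_or_pos i with h | h
        · rw [h, pow_zero]; exact h1
        · have h3 := Nat.find_min hex (m := i - 1) (by omega)
          push Not at h3
          have h4 : i - 1 + 1 = i := by omega
          rw [h4] at h3
          exact h3.le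
      have hmem : i ∈ range (m + 1) := by
        rw [mem_range]
        omega
      have h5 := single_le_sum (f := fun i : ℕ =>
        (if (1 / 2 : ℝ) ^ (i + 1) ≤ gP 4 y ψ then (1 / 2 : ℝ) ^ i else 0))
        (fun i _ => by split_ifs <;> positivity) hmem
      simp only [if_pos hi1] at h5
      linarith
  have hsum := sum_le_sum hpt
  rw [sum_add_distrib, sum_const, nsmul_eq_mul, sum_comm] at hsum
  have e0 : (((univ.filter fun ψ : AddChar G ℂ => ψ ≠ 1).card : ℕ) : ℝ) ≤ Fintype.card G := by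
    have := card_le_card (filter_subset (fun ψ : AddChar G ℂ => ψ ≠ 1) univ)
    rw [card_univ, AddChar.card_eq] at this
    exact_mod_cast this
  have e2 : ∀ i, ∑ ψ ∈ (univ.filter fun ψ : AddChar G ℂ => ψ ≠ 1),
      (if (1 / 2 : ℝ) ^ (i + 1) ≤ gP 4 y ψ then (1 / 2 : ℝ) ^ i
      else 0) = (Lam4 y ((1 / 2) ^ (i + 1))).card * (1 / 2) ^ i := by
    intro i
    rw [← sum_filter, sum_const, nsmul_eq_mul, filter_filter]
    unfold Lam4
    congr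
  simp only [e2] at hsum
  have e3 : ∑ i ∈ range (m + 1),
      ((Lam4 y ((1 / 2) ^ (i + 1))).card : ℝ) * (1 / 2) ^ i ≤
      ∑ i ∈ range (m + 1), T * (1 / ((i : ℝ) + 1) - 1 / ((i : ℝ) + 2)) := by
    refine sum_le_sum fun i hi => ?_
    have h6 := hcon i hi
    have h7 : ((Lam4 y ((1 / 2) ^ (i + 1))).card : ℝ) * (1 / 2) ^ i ≤
        (2 : ℝ) ^ i * T / ((i + 1) * (i + 2)) * (1 / 2) ^ i := by
      refine mul_le_mul_of_nonneg_right ?_ (by positivity)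
      exact h6.le
    refine h7.trans (le_of_eq ?_)
    have h8 : (2 : ℝ) ^ i * (1 / 2) ^ i = 1 := by
      rw [← mul_pow]; norm_num
    have h9 : ((i : ℝ) + 1) ≠ 0 := by positivity
    have h10 : ((i : ℝ) + 2) ≠ 0 := by positivity
    calc (2 : ℝ) ^ i * T / ((i + 1) * (i + 2)) * (1 / 2) ^ i
        = ((2 : ℝ) ^ i * (1 / 2) ^ i) * T / ((i + 1) * (i + 2)) := by ring
      _ = T * (1 / ((i : ℝ) + 1) - 1 / ((i : ℝ) + 2)) := by
          rw [h8]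
          field_simp
          ring
  have e4 : ∀ n : ℕ, ∑ i ∈ range n, T * (1 / ((i : ℝ) + 1) - 1 / ((i : ℝ) + 2)) =
      T * (1 - 1 / ((n : ℝ) + 1)) := by
    intro n
    induction n with
    | zero => simp
    | succ n ih =>
      rw [sum_range_succ, ih]
      push_cast
      ring_nf
  rw [e4] at e3
  have e5 : T * (1 - 1 / (((m + 1 : ℕ) : ℝ) + 1)) = T - T / (m + 2) := by
    push_cast
    have : (m : ℝ) + 2 ≠ 0 := by positivity
    have h11 : (m : ℝ) + 1 + 1 = m + 2 := by ring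
    rw [h11]
    ring
  rw [e5] at e3
  have e6 : (((univ.filter fun ψ : AddChar G ℂ => ψ ≠ 1).card : ℕ) : ℝ) * (1 / 2) ^ (m + 1) ≤
      (Fintype.card G : ℝ) * (1 / 2) ^ (m + 1) :=
    mul_le_mul_of_nonneg_right e0 (by positivity)
  have e7 : gZ 4 y = 1 + ∑ ψ ∈ (univ.filter fun ψ : AddChar G ℂ => ψ ≠ 1), gP 4 y ψ := by
    unfold gZ
    rw [← add_sum_erase univ (fun ψ => gP 4 y ψ) (mem_univ (1 : AddChar G ℂ))]
    congr 1
    · unfold gP
      simp [cf]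
    · refine sum_congr ?_ fun _ _ => rfl
      ext ψ
      simp
  linarith

end dyadic

section final

open scoped Classical in
/-- COUNT for the law `(1/4,1/2,1/4)`: thresholds `T ≥ k^{-3}`, barrier `|G| 2^{-m}`. -/
def StmtCountG4 : Prop :=
  ∀ δ c C₀ : ℝ, 0 < δ → δ ≤ 1 → 0 < c → 0 < C₀ → ∃ k₀ : ℕ, ∀ k : ℕ, k₀ ≤ k →
    ∀ (G : Type) [AddCommGroup G] [Fintype G] (m : ℕ), m ≤ k → (k : ℝ) ≤ 2 * m →
    (∀ p : ℕ, p.Prime → p ∣ Fintype.card G → k ≤ p) →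
    (Fintype.card G : ℝ) * (1 / 2) ^ m ≤ Real.exp (-c * k) →
    ∀ T : ℝ, 1 / (k : ℝ) ^ 3 ≤ T → T ≤ (k : ℝ) ^ C₀ →
    ((univ.filter fun y : Fin m → G =>
      NonSp ((k : ℝ) ^ (1 - δ / 4)) y ∧ 1 + T ≤ gZ 4 y).card : ℝ) ≤
      (Fintype.card G : ℝ) ^ m * ((k : ℝ) ^ (-(1 / 2) + δ) / max 1 T) ^ m

theorem stmtCountG4' (hG : StmtGrowth) (hS : StmtSplit) :
    StmtCountG4 := by
  classical
  intro δ c C₀ hδ hδ1 hc hC₀
  set C : ℝ := 6 + 3 * (1 + 2 * (3 + C₀) / c) with hCdef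
  have hC6 : 6 ≤ C := by
    have : 0 ≤ 3 * (1 + 2 * (3 + C₀) / c) := by positivity
    linarith
  set a : ℕ := ⌈16 * (C + C₀) / δ⌉₊ with hadef
  set A : ℝ := 8 * (a + 1) * (C + 1) + 2 with hAdef
  have hA2 : 2 ≤ A := by
    have : 0 ≤ 8 * ((a : ℝ) + 1) * (C + 1) := by positivity
    linarith
  set R : ℝ := 400 + 32 * A / δ + 32 * (a + 19 + C + C₀) / (9 * δ) with hRdef
  have hev : ∀ᶠ x : ℝ in Filter.atTop, Real.log x ≤ x ^ (δ / 32) ∧ R + 1 ≤ Real.log x ∧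
      7 * Real.log x ≤ c / 2 * x := by
    have h1 := ev_log_le (s := δ / 32) (by positivity)
    have h2 := Real.tendsto_log_atTop.eventually_ge_atTop (R + 1)
    have h3 : ∀ᶠ x : ℝ in Filter.atTop, ‖Real.log x‖ ≤ c / 14 * ‖x‖ :=
      Real.isLittleO_log_id_atTop.bound (by positivity)
    filter_upwards [h1, h2, h3, Filter.eventually_ge_atTop 1] with x hx1 hx2 hx3 hx4
    refine ⟨hx1, hx2, ?_⟩
    rw [Real.norm_of_nonneg (Real.log_nonneg hx4), Real.norm_of_nonneg (by linarith)] at hx3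
    linarith
  obtain ⟨x₀, hx₀⟩ := Filter.eventually_atTop.1 hev
  refine ⟨max ⌈x₀⌉₊ 4, fun k hk G _ _ m hm hm2 hp hGc T hT1 hT2 => ?_⟩
  have hk4 : 4 ≤ k := (le_max_right _ _).trans hk
  have hkx : x₀ ≤ (k : ℝ) := (Nat.le_ceil _).trans (by exact_mod_cast (le_max_left _ _).trans hk)
  obtain ⟨hE1, hE2, hE3⟩ := hx₀ k hkx
  have hk0 : (0 : ℝ) < k := by
    have : 0 < k := by omega
    exact_mod_cast this
  have hk4' : (4 : ℝ) ≤ k := by exact_mod_cast hk4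
  obtain ⟨ℓ, hℓ⟩ : ∃ ℓ : ℝ, ℓ = Real.log k := ⟨_, rfl⟩
  rw [← hℓ] at hE1 hE2
  have hkl : Real.exp ℓ = k := by rw [hℓ]; exact Real.exp_log hk0
  have h32A : 0 ≤ 32 * A / δ := by positivity
  have h32B : 0 ≤ 32 * (a + 19 + C + C₀) / (9 * δ) := by positivity
  have hRA : A / (δ / 32) < ℓ := by
    have h3 : A / (δ / 32) = 32 * A / δ := by field_simp
    rw [h3]
    linarith
  have hRB : (a : ℝ) + 19 + C + C₀ ≤ 9 * δ / 32 * ℓ := by
    have h2 : 32 * (a + 19 + C + C₀) / (9 * δ) ≤ ℓ := by linarith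
    rw [div_le_iff₀ (by positivity)] at h2
    linarith
  have hℓ400 : 400 ≤ ℓ := by linarith
  have hrp : ∀ x : ℝ, (k : ℝ) ^ x = Real.exp (x * ℓ) := fun x => by
    rw [Real.rpow_def_of_pos hk0, ← hℓ, mul_comm]
  rw [hrp] at hE1 hT2
  have hT0 : 0 < T := lt_of_lt_of_le (by positivity) hT1
  have hT1' : Real.exp (-(3 * ℓ)) ≤ T := by
    refine le_trans (le_of_eq ?_) hT1
    rw [Real.exp_neg, show 3 * ℓ = ℓ + ℓ + ℓ by ring, Real.exp_add, Real.exp_add, hkl, one_div]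
    congr 1
    ring
  have hmk : (m : ℝ) ≤ k := by exact_mod_cast hm
  have hM : 0 < max 1 T := lt_of_lt_of_le one_pos (le_max_left _ _)
  have hVlow := target_low (T := T) (by omega) hm hδ hC₀ (by rw [hrp]; exact hT2)
  rw [← hℓ, hrp] at hVlow
  rw [hrp, hrp]
  obtain ⟨V, hV⟩ : ∃ V : ℝ, V = Real.exp ((-(1 / 2) + δ) * ℓ) / max 1 T := ⟨_, rfl⟩
  rw [← hV] at hVlow ⊢
  have hV0 : 0 < V := by
    rw [hV]
    positivity
  have hres : (Fintype.card G : ℝ) * (1 / 2) ^ (m + 1) < T / (m + 2) := by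
    rw [lt_div_iff₀ (by positivity)]
    have h1 : (Fintype.card G : ℝ) * (1 / 2) ^ (m + 1) ≤ Real.exp (-c * k) := by
      rw [pow_succ, ← mul_assoc]
      have h2 : 0 ≤ (Fintype.card G : ℝ) * (1 / 2) ^ m := by positivity
      linarith
    have h3 : Real.exp (-c * k) ≤ Real.exp (-(14 * ℓ)) := by
      rw [Real.exp_le_exp]
      rw [← hℓ] at hE3
      linarith
    have h4 : (m : ℝ) + 2 ≤ Real.exp (2 * ℓ) := by
      rw [two_mul, Real.exp_add, hkl]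
      nlinarith
    calc (Fintype.card G : ℝ) * (1 / 2) ^ (m + 1) * (m + 2)
        ≤ Real.exp (-(14 * ℓ)) * Real.exp (2 * ℓ) :=
          mul_le_mul (h1.trans h3) h4 (by positivity) (Real.exp_pos _).le
      _ = Real.exp (-(12 * ℓ)) := by
          rw [← Real.exp_add]; congr 1; ring
      _ < Real.exp (-(3 * ℓ)) := by
          rw [Real.exp_lt_exp]; linarith
      _ ≤ T := hT1'
  -- the bound at each level
  have key : ∀ i ∈ range (m + 1),
      ((univ.filter fun y : Fin m → G => NonSp (Real.exp ((1 - δ / 4) * ℓ)) y ∧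
        Ki T i ≤ (Lam4 y ((1 / 2) ^ (i + 1))).card).card : ℝ) ≤
        (Fintype.card G : ℝ) ^ m * (V ^ m / (k + 1)) := by
    intro i hi
    have him : i ≤ m := by
      have := mem_range.1 hi
      omega
    have hik : (i : ℝ) ≤ k := (by exact_mod_cast him : (i : ℝ) ≤ m).trans hmk
    have hi0 : (0 : ℝ) ≤ i := by positivity
    have hcube : ((i : ℝ) + 1) * (i + 2) ≤ Real.exp (3 * ℓ) := by
      rw [show 3 * ℓ = ℓ + ℓ + ℓ by ring, Real.exp_add, Real.exp_add, hkl]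
      have h1 : ((i : ℝ) + 1) * (i + 2) ≤ (k + 1) * (k + 2) := by gcongr
      have h2 : ((k : ℝ) + 1) * (k + 2) ≤ k * k * k := by nlinarith
      linarith
    by_cases hbig : Real.exp (C * ℓ) < (2 : ℝ) ^ i
    · exact key_high4 hc hC₀ hCdef hk4' hℓ hkl (by linarith) hik hcube hT0 hT1' hGc hE3 hVlow
        hbig
    · push Not at hbig
      exact key_med4 hG hS hδ hδ1 hc hC₀ hC6 (Nat.le_ceil _) hAdef hkl hℓ400 hRA hRB hE1 hp hm2
        hmk hT0 hT2 hGc hV hbig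
  -- the union
  have hsub : (univ.filter fun y : Fin m → G =>
      NonSp (Real.exp ((1 - δ / 4) * ℓ)) y ∧ 1 + T ≤ gZ 4 y) ⊆
      (range (m + 1)).biUnion fun i => univ.filter fun y : Fin m → G =>
        NonSp (Real.exp ((1 - δ / 4) * ℓ)) y ∧
          Ki T i ≤ (Lam4 y ((1 / 2) ^ (i + 1))).card := by
    intro y hy
    rw [mem_filter] at hy
    obtain ⟨i, hi, h⟩ := dyadic4 y hT0 hres hy.2.2
    rw [mem_biUnion]
    exact ⟨i, hi, by rw [mem_filter]; exact ⟨mem_univ _, hy.2.1, h⟩⟩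
  have h1 : ((univ.filter fun y : Fin m → G =>
      NonSp (Real.exp ((1 - δ / 4) * ℓ)) y ∧ 1 + T ≤ gZ 4 y).card : ℝ) ≤
      ∑ i ∈ range (m + 1), ((univ.filter fun y : Fin m → G =>
        NonSp (Real.exp ((1 - δ / 4) * ℓ)) y ∧
          Ki T i ≤ (Lam4 y ((1 / 2) ^ (i + 1))).card).card : ℝ) := by
    exact_mod_cast (card_le_card hsub).trans card_biUnion_le
  have h2 := h1.trans (sum_le_sum key)
  rw [sum_const, card_range, nsmul_eq_mul] at h2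
  have h3 : (((m + 1 : ℕ) : ℝ)) * ((Fintype.card G : ℝ) ^ m * (V ^ m / (k + 1))) ≤
      (Fintype.card G : ℝ) ^ m * V ^ m := by
    have h4 : (((m + 1 : ℕ) : ℝ)) ≤ k + 1 := by
      push_cast
      linarith
    calc (((m + 1 : ℕ) : ℝ)) * ((Fintype.card G : ℝ) ^ m * (V ^ m / (k + 1)))
        ≤ (k + 1) * ((Fintype.card G : ℝ) ^ m * (V ^ m / (k + 1))) := by gcongr
      _ = (Fintype.card G : ℝ) ^ m * V ^ m := by
          field_simp
  refine le_trans (le_of_eq ?_) (h2.trans h3)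
  congr

end final

end Vale.Agent.P160.Half.Flat.C4
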