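import Vale.Agent.P160.Half.FlatI

/-! P160-HALF, COUNT (hedge of helper743): structural lemmas. -/

namespace Vale.Agent.P160.Half.Flat.C743

open Finset Vale.Agent.P160 Vale.Agent.P160.Half.Flat

lemma norm_sub_one_sq {z : ℂ} (hz : ‖z‖ = 1) : ‖z - 1‖ ^ 2 = 2 - 2 * z.re := by
  have h1 : ‖z‖ ^ 2 = z.re ^ 2 + z.im ^ 2 := by
    rw [← Complex.normSq_eq_norm_sq, Complex.normSq_apply]; ring
  have h2 : ‖z - 1‖ ^ 2 = (z.re - 1) ^ 2 + z.im ^ 2 := by
    rw [← Complex.normSq_eq_norm_sq, Complex.normSq_apply]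
    simp
    ring
  rw [hz] at h1
  rw [h2]
  nlinarith

lemma cf8_eq {z : ℂ} (hz : ‖z‖ = 1) : cf 8 z = 1 - ‖z - 1‖ ^ 2 / 8 := by
  rw [norm_sub_one_sq hz]
  unfold cf
  push_cast
  ring

lemma cf8_le_exp {z : ℂ} (hz : ‖z‖ = 1) : cf 8 z ≤ Real.exp (-(‖z - 1‖ ^ 2 / 8)) := by
  rw [cf8_eq hz]
  have := Real.add_one_le_exp (-(‖z - 1‖ ^ 2 / 8))
  linarith

section
variable {G : Type} [AddCommGroup G] [Fintype G]

lemma energy {m : ℕ} {y : Fin m → G} {ψ : AddChar G ℂ} {t : ℝ} (ht : 0 < t)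
    (h : t ≤ gP 8 y ψ) : ∑ c, ‖ψ (y c) - 1‖ ^ 2 ≤ 8 * -Real.log t := by
  have h1 : gP 8 y ψ ≤ ∏ c, Real.exp (-(‖ψ (y c) - 1‖ ^ 2 / 8)) := by
    unfold gP
    refine prod_le_prod (fun c _ => cf_nonneg (by norm_num) (AddChar.norm_apply ψ _)) ?_
    intro c _
    exact cf8_le_exp (AddChar.norm_apply ψ _)
  rw [← Real.exp_sum] at h1
  have h2 := Real.log_le_log ht (h.trans h1)
  rw [Real.log_exp, sum_neg_distrib, ← sum_div] at h2
  linarith

lemma few {m : ℕ} {y : Fin m → G} {ψ : AddChar G ℂ} {t r : ℝ} (ht : 0 < t)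
    (hr : 0 < r) (h : t ≤ gP 8 y ψ) :
    ((univ.filter fun c => r < ‖ψ (y c) - 1‖).card : ℝ) * r ^ 2 ≤ 8 * -Real.log t := by
  refine le_trans ?_ (energy ht h)
  calc ((univ.filter fun c => r < ‖ψ (y c) - 1‖).card : ℝ) * r ^ 2
      = ∑ c ∈ univ.filter (fun c => r < ‖ψ (y c) - 1‖), r ^ 2 := by
        rw [sum_const, nsmul_eq_mul]
    _ ≤ ∑ c ∈ univ.filter (fun c => r < ‖ψ (y c) - 1‖), ‖ψ (y c) - 1‖ ^ 2 := by
        refine sum_le_sum fun c hc => ?_
        rw [mem_filter] at hc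
        exact pow_le_pow_left₀ hr.le hc.2.le 2
    _ ≤ ∑ c, ‖ψ (y c) - 1‖ ^ 2 :=
        sum_le_sum_of_subset_of_nonneg (filter_subset _ _) fun c _ _ => sq_nonneg _

/-- the Bohr set of a tuple of characters -/
noncomputable def tb {n : ℕ} (s : Fin n → AddChar G ℂ) (r : ℝ) : Finset G := by
  classical exact bohr (univ.image s) r

lemma mem_tb {n : ℕ} {s : Fin n → AddChar G ℂ} {r : ℝ} {v : G} :
    v ∈ tb s r ↔ ∀ i, ‖s i v - 1‖ ≤ r := by
  classical
  unfold tb bohr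
  simp

/-- iteration of SPLIT -/
lemma chain (hS : StmtSplit) {Λ : Finset (AddChar G ℂ)} (hΛ : Λ.Nonempty) {J : ℕ} {θ K₀ : ℝ}
    (hθ : 0 < θ) (hJ : 8 ≤ θ * J) (hp : ∀ p : ℕ, p.Prime → p ∣ Fintype.card G → J ≤ p)
    (hK : 0 < K₀) (hK' : K₀ ≤ Λ.card) (n : ℕ) :
    ∃ s : Fin n → AddChar G ℂ, (∀ i, s i ∈ Λ) ∧
      ((tb s (1 / J)).card : ℝ) ≤
        max (θ ^ n * Fintype.card G) (256 * Fintype.card G / (θ ^ 2 * K₀)) := by
  classical
  induction n with
  | zero =>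
    refine ⟨Fin.elim0, fun i => i.elim0, ?_⟩
    refine le_max_of_le_left ?_
    rw [pow_zero, one_mul]
    exact_mod_cast card_le_univ _
  | succ n ih =>
    obtain ⟨s, hs, hb⟩ := ih
    have hpos : 0 < θ ^ 2 * K₀ := by positivity
    by_cases hc : ((tb s (1 / J)).card : ℝ) ≤ 256 * Fintype.card G / (θ ^ 2 * K₀)
    · obtain ⟨ψ, hψ⟩ := hΛ
      refine ⟨Fin.cons ψ s, ?_, ?_⟩
      · intro i
        refine Fin.cases ?_ ?_ i
        · simpa using hψ
        · intro j; simpa using hs j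
      · refine le_max_of_le_right (le_trans ?_ hc)
        have : tb (Fin.cons ψ s : Fin (n + 1) → AddChar G ℂ) (1 / J) ⊆ tb s (1 / J) := by
          intro v hv
          rw [mem_tb] at hv ⊢
          intro i
          simpa using hv i.succ
        exact_mod_cast card_le_card this
    · push Not at hc
      have hb' : ((tb s (1 / J)).card : ℝ) ≤ θ ^ n * Fintype.card G := by
        rcases le_max_iff.1 hb with h | h
        · exact h
        · exact absurd h (not_le.2 hc)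
      have hex : ∃ ψ ∈ Λ, (((tb s (1 / J)).filter fun v => ‖ψ v - 1‖ ≤ 1 / J).card : ℝ) <
          θ * (tb s (1 / J)).card := by
        by_contra hno
        push Not at hno
        have h := hS G Λ (tb s (1 / J)) J θ hJ hp hno
        have h2 : 256 * (Fintype.card G : ℝ) < (tb s (1 / J)).card * (θ ^ 2 * K₀) := by
          rwa [div_lt_iff₀ hpos] at hc
        have h3 : K₀ * ((tb s (1 / J)).card * θ ^ 2)
            ≤ (Λ.card : ℝ) * ((tb s (1 / J)).card * θ ^ 2) :=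
          mul_le_mul_of_nonneg_right hK' (by positivity)
        nlinarith
      obtain ⟨ψ, hψ, hlt⟩ := hex
      refine ⟨Fin.cons ψ s, ?_, ?_⟩
      · intro i
        refine Fin.cases ?_ ?_ i
        · simpa using hψ
        · intro j; simpa using hs j
      · refine le_max_of_le_left ?_
        have he : tb (Fin.cons ψ s : Fin (n + 1) → AddChar G ℂ) (1 / J)
            = (tb s (1 / J)).filter fun v => ‖ψ v - 1‖ ≤ 1 / J := by
          ext v
          rw [mem_filter, mem_tb, mem_tb, Fin.forall_fin_succ]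
          simp only [Fin.cons_zero, Fin.cons_succ]
          tauto
        rw [he]
        refine hlt.le.trans ?_
        calc θ * ((tb s (1 / J)).card : ℝ) ≤ θ * (θ ^ n * Fintype.card G) :=
              mul_le_mul_of_nonneg_left hb' hθ.le
          _ = θ ^ (n + 1) * Fintype.card G := by ring

/-- coordinates outside the Bohr set -/
lemma out_le {m n : ℕ} {y : Fin m → G} {s : Fin n → AddChar G ℂ} {t r : ℝ} (ht : 0 < t)
    (hr : 0 < r) (h : ∀ i, t ≤ gP 8 y (s i)) :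
    ((univ.filter fun c => ¬ ∀ i, ‖s i (y c) - 1‖ ≤ r).card : ℝ) * r ^ 2
      ≤ n * (8 * -Real.log t) := by
  classical
  have h1 : (univ.filter fun c => ¬ ∀ i, ‖s i (y c) - 1‖ ≤ r)
      ⊆ univ.biUnion fun i => univ.filter fun c => r < ‖s i (y c) - 1‖ := by
    intro c hc
    rw [mem_filter] at hc
    have hc2 := hc.2
    push Not at hc2
    obtain ⟨i, hi⟩ := hc2
    rw [mem_biUnion]
    exact ⟨i, mem_univ _, by rw [mem_filter]; exact ⟨mem_univ _, hi⟩⟩
  have h2 : ((univ.filter fun c => ¬ ∀ i, ‖s i (y c) - 1‖ ≤ r).card : ℝ)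
      ≤ ∑ i, ((univ.filter fun c => r < ‖s i (y c) - 1‖).card : ℝ) := by
    exact_mod_cast (card_le_card h1).trans card_biUnion_le
  calc ((univ.filter fun c => ¬ ∀ i, ‖s i (y c) - 1‖ ≤ r).card : ℝ) * r ^ 2
      ≤ (∑ i, ((univ.filter fun c => r < ‖s i (y c) - 1‖).card : ℝ)) * r ^ 2 :=
        mul_le_mul_of_nonneg_right h2 (sq_nonneg _)
    _ = ∑ i, ((univ.filter fun c => r < ‖s i (y c) - 1‖).card : ℝ) * r ^ 2 := by
        rw [sum_mul]
    _ ≤ ∑ _i : Fin n, 8 * -Real.log t := sum_le_sum fun i _ => few ht hr (h i)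
    _ = _ := by rw [sum_const, card_univ, Fintype.card_fin, nsmul_eq_mul]

end

end Vale.Agent.P160.Half.Flat.C743
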