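import Vale.Agent.P160.Half.FlatC743a

/-! P160-HALF, COUNT (hedge of helper743): the union bound. -/

namespace Vale.Agent.P160.Half.Flat.C743

open Finset Vale.Agent.P160 Vale.Agent.P160.Half.Flat

section
variable {G : Type} [AddCommGroup G] [Fintype G]

open scoped Classical in
lemma card_box {m : ℕ} (B : Finset G) (D : Finset (Fin m)) :
    (univ.filter fun y : Fin m → G => ∀ c, c ∉ D → y c ∈ B).card
      = Fintype.card G ^ D.card * B.card ^ (m - D.card) := by
  have h : (univ.filter fun y : Fin m → G => ∀ c, c ∉ D → y c ∈ B)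
      = Fintype.piFinset fun c => if c ∈ D then univ else B := by
    ext y
    rw [mem_filter, Fintype.mem_piFinset]
    constructor
    · rintro ⟨-, h⟩ c
      split_ifs with hc
      · exact mem_univ _
      · exact h c hc
    · intro h
      refine ⟨mem_univ _, fun c hc => ?_⟩
      have := h c
      rwa [if_neg hc] at this
  rw [h, Fintype.card_piFinset]
  have h2 : ∀ c : Fin m, (if c ∈ D then (univ : Finset G) else B).card
      = if c ∈ D then Fintype.card G else B.card := by
    intro c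
    split_ifs
    · rfl
    · rfl
  simp only [h2]
  rw [prod_ite, prod_const, prod_const]
  congr 2
  · simp
  · have : (univ.filter fun c : Fin m => c ∉ D) = Dᶜ := by
      ext c; simp
    rw [this, card_compl, Fintype.card_fin]

open scoped Classical in
/-- the union bound over tuples of characters and exceptional sets -/
lemma count_core {m n : ℕ} {r U R E : ℝ} (hU : 0 < U) (hR : 1 ≤ R)
    (hUR : (Fintype.card G : ℝ) ≤ U * R) :
    ((univ.filter fun y : Fin m → G => ∃ s : Fin n → AddChar G ℂ,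
      ((tb s r).card : ℝ) ≤ U ∧
      ((univ.filter fun c => ¬ ∀ i, ‖s i (y c) - 1‖ ≤ r).card : ℝ) ≤ E).card : ℝ)
      ≤ (Fintype.card G : ℝ) ^ n * 2 ^ m * (U ^ m * R ^ E) := by
  set SS : Finset (Fin n → AddChar G ℂ) := univ.filter fun s => ((tb s r).card : ℝ) ≤ U with hSS
  set DD : Finset (Finset (Fin m)) := univ.filter fun D => (D.card : ℝ) ≤ E with hDD
  have hsub : (univ.filter fun y : Fin m → G => ∃ s : Fin n → AddChar G ℂ,
      ((tb s r).card : ℝ) ≤ U ∧
      ((univ.filter fun c => ¬ ∀ i, ‖s i (y c) - 1‖ ≤ r).card : ℝ) ≤ E)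
      ⊆ SS.biUnion fun s => DD.biUnion fun D =>
        univ.filter fun y : Fin m → G => ∀ c, c ∉ D → y c ∈ tb s r := by
    intro y hy
    rw [mem_filter] at hy
    obtain ⟨-, s, h1, h2⟩ := hy
    rw [mem_biUnion]
    refine ⟨s, by rw [hSS, mem_filter]; exact ⟨mem_univ _, h1⟩, ?_⟩
    rw [mem_biUnion]
    refine ⟨univ.filter fun c => ¬ ∀ i, ‖s i (y c) - 1‖ ≤ r, ?_, ?_⟩
    · rw [hDD, mem_filter]; exact ⟨mem_univ _, h2⟩
    · rw [mem_filter]
      refine ⟨mem_univ _, fun c hc => ?_⟩
      rw [mem_filter] at hc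
      rw [mem_tb]
      by_contra hno
      exact hc ⟨mem_univ _, hno⟩
  have hterm : ∀ s ∈ SS, ∀ D ∈ DD,
      ((univ.filter fun y : Fin m → G => ∀ c, c ∉ D → y c ∈ tb s r).card : ℝ)
        ≤ U ^ m * R ^ E := by
    intro s hs D hD
    rw [hSS, mem_filter] at hs
    rw [hDD, mem_filter] at hD
    rw [card_box]
    push_cast
    have hDm : D.card ≤ m := by
      have := card_le_univ D
      rwa [Fintype.card_fin] at this
    calc (Fintype.card G : ℝ) ^ D.card * ((tb s r).card : ℝ) ^ (m - D.card)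
        ≤ (U * R) ^ D.card * U ^ (m - D.card) := by
          refine mul_le_mul (pow_le_pow_left₀ (by positivity) hUR _)
            (pow_le_pow_left₀ (by positivity) hs.2 _) (by positivity) (by positivity)
      _ = U ^ m * R ^ D.card := by
          rw [mul_pow, mul_right_comm, ← pow_add, Nat.add_sub_cancel' hDm]
      _ ≤ U ^ m * R ^ E := by
          refine mul_le_mul_of_nonneg_left ?_ (by positivity)
          rw [← Real.rpow_natCast R D.card]
          exact Real.rpow_le_rpow_of_exponent_le hR hD.2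
  have hnn : 0 ≤ U ^ m * R ^ E := by
    have : 0 ≤ R ^ E := Real.rpow_nonneg (by linarith) _
    positivity
  have h1 : ((univ.filter fun y : Fin m → G => ∃ s : Fin n → AddChar G ℂ,
      ((tb s r).card : ℝ) ≤ U ∧
      ((univ.filter fun c => ¬ ∀ i, ‖s i (y c) - 1‖ ≤ r).card : ℝ) ≤ E).card : ℝ)
      ≤ ∑ s ∈ SS, ∑ D ∈ DD,
        ((univ.filter fun y : Fin m → G => ∀ c, c ∉ D → y c ∈ tb s r).card : ℝ) := by
    have h2 := card_le_card hsub
    have h3 := h2.trans card_biUnion_le
    have h4 : ∑ s ∈ SS, (DD.biUnion fun D =>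
        univ.filter fun y : Fin m → G => ∀ c, c ∉ D → y c ∈ tb s r).card
        ≤ ∑ s ∈ SS, ∑ D ∈ DD,
          (univ.filter fun y : Fin m → G => ∀ c, c ∉ D → y c ∈ tb s r).card :=
      sum_le_sum fun s _ => card_biUnion_le
    exact_mod_cast h3.trans h4
  have hS1 : (SS.card : ℝ) ≤ (Fintype.card G : ℝ) ^ n := by
    have h2 : SS.card ≤ Fintype.card G ^ n := by
      refine (card_le_univ _).trans ?_
      rw [Fintype.card_fun, Fintype.card_fin, AddChar.card_eq]
    exact_mod_cast h2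
  have hD1 : (DD.card : ℝ) ≤ 2 ^ m := by
    have h2 : DD.card ≤ 2 ^ m := by
      refine (card_le_univ _).trans ?_
      rw [Fintype.card_finset, Fintype.card_fin]
    exact_mod_cast h2
  calc _ ≤ ∑ s ∈ SS, ∑ D ∈ DD,
        ((univ.filter fun y : Fin m → G => ∀ c, c ∉ D → y c ∈ tb s r).card : ℝ) := h1
    _ ≤ ∑ _s ∈ SS, ∑ _D ∈ DD, U ^ m * R ^ E :=
        sum_le_sum fun s hs => sum_le_sum fun D hD => hterm s hs D hD
    _ = SS.card * (DD.card * (U ^ m * R ^ E)) := by
        rw [sum_const, sum_const, nsmul_eq_mul, nsmul_eq_mul]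
    _ ≤ (Fintype.card G : ℝ) ^ n * (2 ^ m * (U ^ m * R ^ E)) := by
        refine mul_le_mul hS1 (mul_le_mul_of_nonneg_right hD1 hnn) (by positivity) (by positivity)
    _ = _ := by ring

open scoped Classical in
/-- LARGE with explicit numbers -/
lemma large_count (hL : StmtLarge) {m l i : ℕ} {T t c k : ℝ} (hT : 1 / k ≤ T) (hk : 1 ≤ k)
    (hmk : (m : ℝ) ≤ k) (him : i ≤ m) (ht : t = (1 / 2) ^ (i + 1))
    (hg : (Fintype.card G : ℝ) * (3 / 4) ^ m ≤ Real.exp (-c * k))
    (hl : (8 : ℝ) ^ l ≤ 2 ^ i * T / ((i + 1) * (i + 2))) :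
    ((univ.filter fun y : Fin m → G =>
      2 ^ i * T / ((i + 1) * (i + 2)) ≤ (Lam y t).card).card : ℝ)
      ≤ (Fintype.card G : ℝ) ^ m * (24 * k ^ 3 * Real.exp (-c * k)) ^ l := by
  have hk0 : 0 < k := by linarith
  have hT0 : 0 < T := lt_of_lt_of_le (by positivity) hT
  have ht0 : 0 < t := by rw [ht]; positivity
  set K : ℝ := 2 ^ i * T / ((i + 1) * (i + 2)) with hK
  have hK0 : 0 < K := by rw [hK]; positivity
  have h := hL G m l K t ht0 hl
  have hKt : 1 / (24 * k ^ 3) ≤ K / 2 * t := by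
    have e : K / 2 * t = T / (4 * ((i + 1) * (i + 2))) := by
      rw [hK, ht, pow_succ, one_div, inv_pow]
      field_simp
      ring
    rw [e, div_le_div_iff₀ (by positivity) (by positivity)]
    have h1 : (i : ℝ) ≤ k := le_trans (by exact_mod_cast him) hmk
    have h2 : ((i : ℝ) + 1) * (i + 2) ≤ (k + 1) * (k + 2) := by
      have := Nat.cast_nonneg (α := ℝ) i
      nlinarith
    have h3 : (k + 1) * (k + 2) ≤ 6 * k ^ 2 := by nlinarith
    have h4 : 1 ≤ T * k := by
      rwa [div_le_iff₀ hk0] at hT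
    have h5 : 6 * k ^ 2 ≤ 6 * k ^ 2 * (T * k) := by
      have : 0 ≤ 6 * k ^ 2 := by positivity
      nlinarith
    nlinarith
  have hpos : 0 < (K / 2) ^ l * t ^ l := by positivity
  have h6 : ((univ.filter fun y : Fin m → G => K ≤ (Lam y t).card).card : ℝ)
      ≤ (Fintype.card G : ℝ) ^ l * (Fintype.card G * (3 / 4) ^ l) ^ m
        / ((K / 2) ^ l * t ^ l) := by
    rw [le_div_iff₀ hpos]
    convert h using 3
  refine h6.trans ?_
  rw [div_le_iff₀ hpos]
  have e1 : (Fintype.card G : ℝ) ^ l * (Fintype.card G * (3 / 4) ^ l) ^ m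
      = (Fintype.card G : ℝ) ^ m * (Fintype.card G * (3 / 4) ^ m) ^ l := by
    rw [mul_pow, mul_pow, ← pow_mul, ← pow_mul, mul_comm l m]
    ring
  rw [e1, mul_assoc, ← mul_pow, ← mul_pow]
  refine mul_le_mul_of_nonneg_left ?_ (by positivity)
  refine pow_le_pow_left₀ (by positivity) (hg.trans ?_) _
  have h7 : 1 ≤ 24 * k ^ 3 * (K / 2 * t) := by
    have := mul_le_mul_of_nonneg_left hKt (show (0 : ℝ) ≤ 24 * k ^ 3 by positivity)
    rwa [mul_one_div, div_self (by positivity)] at this
  calc Real.exp (-c * k) = Real.exp (-c * k) * 1 := by ring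
    _ ≤ Real.exp (-c * k) * (24 * k ^ 3 * (K / 2 * t)) :=
        mul_le_mul_of_nonneg_left h7 (Real.exp_pos _).le
    _ = _ := by ring

end

end Vale.Agent.P160.Half.Flat.C743
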