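import Vale.Agent.P160.Half.FlatC743b

/-! P160-HALF, COUNT (hedge of helper743): real-number facts and the two cases. -/

namespace Vale.Agent.P160.Half.Flat.C743

open Finset Filter Vale.Agent.P160 Vale.Agent.P160.Half.Flat

lemma poly_le (i : ℕ) : ((i : ℝ) + 1) * (i + 2) ≤ 3 * 2 ^ i := by
  have key : (i + 1) * (i + 2) ≤ 3 * 2 ^ i := by
    rcases Nat.lt_or_ge i 3 with h | h
    · interval_cases i <;> norm_num
    · induction i, h using Nat.le_induction with
      | base => norm_num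
      | succ i hi ih =>
        have e : 3 * 2 ^ (i + 1) = 2 * (3 * 2 ^ i) := by ring
        rw [e]
        nlinarith
  exact_mod_cast key

lemma ev_log (C : ℝ) {r : ℝ} (hC : 0 < C) (hr : 0 < r) :
    ∀ᶠ k : ℕ in atTop, C * Real.log k ≤ (k : ℝ) ^ r := by
  have h := (isLittleO_log_rpow_atTop hr).def (show (0 : ℝ) < 1 / C by positivity)
  have h2 := tendsto_natCast_atTop_atTop (R := ℝ) |>.eventually h
  filter_upwards [h2, eventually_ge_atTop 1] with k hk hk1
  have hk1' : (1 : ℝ) ≤ k := by exact_mod_cast hk1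
  rw [Real.norm_of_nonneg (Real.log_nonneg hk1'),
    Real.norm_of_nonneg (Real.rpow_nonneg (by positivity) _)] at hk
  calc C * Real.log k ≤ C * (1 / C * (k : ℝ) ^ r) := mul_le_mul_of_nonneg_left hk hC.le
    _ = (k : ℝ) ^ r := by field_simp

lemma ev_const (C : ℝ) {r : ℝ} (hr : 0 < r) :
    ∀ᶠ k : ℕ in atTop, C ≤ (k : ℝ) ^ r :=
  ((tendsto_rpow_atTop hr).comp tendsto_natCast_atTop_atTop).eventually_ge_atTop C

lemma ev_exp {c : ℝ} (hc : 0 < c) :
    ∀ᶠ k : ℕ in atTop, 24 * (k : ℝ) ^ 3 ≤ Real.exp (c / 2 * k) := by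
  have h1 : Tendsto (fun x : ℝ => Real.exp x / x ^ 3) atTop atTop :=
    Real.tendsto_exp_div_pow_atTop 3
  have h2 : Tendsto (fun k : ℕ => c / 2 * (k : ℝ)) atTop atTop :=
    tendsto_natCast_atTop_atTop.const_mul_atTop (by positivity)
  have h3 := (h1.comp h2).eventually_ge_atTop (24 / (c / 2) ^ 3)
  filter_upwards [h3, eventually_ge_atTop 1] with k hk hk1
  have hk1' : (0 : ℝ) < k := by
    have : (1 : ℝ) ≤ k := by exact_mod_cast hk1
    linarith
  simp only [Function.comp_apply] at hk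
  rw [div_le_div_iff₀ (by positivity) (by positivity)] at hk
  have e : 24 * (c / 2 * (k : ℝ)) ^ 3 = 24 * (k : ℝ) ^ 3 * (c / 2) ^ 3 := by ring
  rw [e] at hk
  exact le_of_mul_le_mul_right hk (by positivity)

section
variable {G : Type} [AddCommGroup G] [Fintype G]

lemma mem_Lam' {m : ℕ} {y : Fin m → G} {t : ℝ} {ψ : AddChar G ℂ} :
    ψ ∈ Lam y t ↔ ψ ≠ 1 ∧ t ≤ gP 8 y ψ := by
  classical
  unfold Lam
  simp

open scoped Classical in
/-- the large case -/
lemma large_case (hL : StmtLarge) {m : ℕ} {T c C₀ δ x A : ℝ} (hc : 0 < c) (hC₀ : 0 < C₀)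
    (hδ : 0 < δ)
    (hA : A = (4 + 2 * C₀) / c) (hT : 1 / x ≤ T) (hT' : T ≤ x ^ C₀) (hx : 96 ≤ x)
    (hmk : (m : ℝ) ≤ x) (hm1 : x ≤ 2 * m)
    (hg : (Fintype.card G : ℝ) * (3 / 4) ^ m ≤ Real.exp (-c * x))
    (hexp : 24 * x ^ 3 ≤ Real.exp (c / 2 * x)) :
    ((univ.filter fun y : Fin m → G => ∃ i : ℕ, i ≤ m ∧ (1 / 2 : ℝ) ^ (i + 1) < x ^ (-(3 * A + 4))
      ∧ 2 ^ i * T / ((i + 1) * (i + 2)) ≤ (Lam y ((1 / 2) ^ (i + 1))).card).card : ℝ)
      ≤ (Fintype.card G : ℝ) ^ m * (x ^ (-(1 / 2) + δ) / max 1 T) ^ m / 2 := by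
  have hx0 : 0 < x := by linarith
  have hx1 : 1 ≤ x := by linarith
  have hT0 : 0 < T := lt_of_lt_of_le (by positivity) hT
  have hA0 : 0 < A := by rw [hA]; positivity
  have hlog : 0 ≤ Real.log x := Real.log_nonneg hx1
  set l : ℕ := ⌈A * Real.log x⌉₊ with hl
  have hl1 : A * Real.log x ≤ l := Nat.le_ceil _
  have hl2 : (l : ℝ) ≤ A * Real.log x + 1 := (Nat.ceil_lt_add_one (by positivity)).le
  have h8 : (8 : ℝ) ^ l ≤ 8 * x ^ (3 * A) := by
    have hlog8 : Real.log 8 ≤ 3 := by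
      have e : (8 : ℝ) = 2 ^ 3 := by norm_num
      rw [e, Real.log_pow]
      have := Real.log_two_lt_d9
      push_cast
      linarith
    calc (8 : ℝ) ^ l = (8 : ℝ) ^ (l : ℝ) := (Real.rpow_natCast _ _).symm
      _ ≤ (8 : ℝ) ^ (A * Real.log x + 1) := Real.rpow_le_rpow_of_exponent_le (by norm_num) hl2
      _ = 8 ^ (A * Real.log x) * 8 := by
          rw [Real.rpow_add (by norm_num), Real.rpow_one]
      _ ≤ x ^ (3 * A) * 8 := by
          refine mul_le_mul_of_nonneg_right ?_ (by norm_num)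
          rw [Real.rpow_def_of_pos (by norm_num), Real.rpow_def_of_pos hx0]
          refine Real.exp_le_exp.2 ?_
          have : 0 ≤ A * Real.log x := by positivity
          nlinarith
      _ = _ := by ring
  have hone : ∀ i ∈ range (m + 1), ((univ.filter fun y : Fin m → G =>
      (1 / 2 : ℝ) ^ (i + 1) < x ^ (-(3 * A + 4))
      ∧ 2 ^ i * T / ((i + 1) * (i + 2)) ≤ (Lam y ((1 / 2) ^ (i + 1))).card).card : ℝ)
      ≤ (Fintype.card G : ℝ) ^ m * x ^ (-((2 + C₀) * x)) := by
    intro i hi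
    rw [mem_range] at hi
    have him : i ≤ m := by omega
    by_cases hlt : (1 / 2 : ℝ) ^ (i + 1) < x ^ (-(3 * A + 4))
    · have hK : (8 : ℝ) ^ l ≤ 2 ^ i * T / ((i + 1) * (i + 2)) := by
        have hix : (i : ℝ) ≤ x := le_trans (by exact_mod_cast him) hmk
        have hi0 := Nat.cast_nonneg (α := ℝ) i
        have h2i : x ^ (3 * A + 4) ≤ 2 * 2 ^ i := by
          have h1 : (2 : ℝ) * 2 ^ i = ((1 / 2 : ℝ) ^ (i + 1))⁻¹ := by
            rw [one_div, inv_pow, inv_inv, pow_succ]; ring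
          have h2 : x ^ (3 * A + 4) = (x ^ (-(3 * A + 4)))⁻¹ := by
            rw [Real.rpow_neg hx0.le, inv_inv]
          rw [h1, h2]
          exact inv_anti₀ (by positivity) hlt.le
        have h3 : x ^ (3 * A + 4) = x ^ (3 * A) * x ^ 4 := by
          rw [Real.rpow_add hx0]
          norm_cast
        rw [le_div_iff₀ (by positivity)]
        have hq : ((i : ℝ) + 1) * (i + 2) ≤ 6 * x ^ 2 := by nlinarith
        have hp : 0 < x ^ (3 * A) := Real.rpow_pos_of_pos hx0 _
        have hTx : 1 ≤ T * x := by rwa [div_le_iff₀ hx0] at hT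
        calc (8 : ℝ) ^ l * ((i + 1) * (i + 2)) ≤ (8 * x ^ (3 * A)) * (6 * x ^ 2) :=
              mul_le_mul h8 hq (by positivity) (by positivity)
          _ = 48 * x ^ (3 * A) * x ^ 2 := by ring
          _ ≤ x ^ (3 * A) * x ^ 3 / 2 := by nlinarith [mul_pos hp (pow_pos hx0 2)]
          _ = (x ^ (3 * A) * x ^ 3 / 2) * 1 := by ring
          _ ≤ (x ^ (3 * A) * x ^ 3 / 2) * (T * x) :=
              mul_le_mul_of_nonneg_left hTx (by positivity)
          _ = (x ^ (3 * A) * x ^ 4) / 2 * T := by ring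
          _ ≤ 2 ^ i * T := by
              rw [← h3]
              refine mul_le_mul_of_nonneg_right ?_ hT0.le
              linarith
      have h := large_count hL hT hx1 hmk him rfl hg hK
      refine le_trans ?_ (h.trans ?_)
      · refine Nat.cast_le.2 (card_le_card ?_)
        intro y hy
        rw [mem_filter] at hy ⊢
        exact ⟨hy.1, hy.2.2⟩
      · refine mul_le_mul_of_nonneg_left ?_ (by positivity)
        have h4 : 24 * x ^ 3 * Real.exp (-c * x) ≤ Real.exp (-(c / 2 * x)) := by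
          calc 24 * x ^ 3 * Real.exp (-c * x) ≤ Real.exp (c / 2 * x) * Real.exp (-c * x) :=
                mul_le_mul_of_nonneg_right hexp (Real.exp_pos _).le
            _ = _ := by rw [← Real.exp_add]; congr 1; ring
        calc (24 * x ^ 3 * Real.exp (-c * x)) ^ l ≤ (Real.exp (-(c / 2 * x))) ^ l :=
              pow_le_pow_left₀ (by positivity) h4 _
          _ = Real.exp (-(c / 2 * x * l)) := by
              rw [← Real.exp_nat_mul]; congr 1; ring
          _ ≤ Real.exp (-(c / 2 * x * (A * Real.log x))) := by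
              refine Real.exp_le_exp.2 (neg_le_neg ?_)
              exact mul_le_mul_of_nonneg_left hl1 (by positivity)
          _ = _ := by
              rw [Real.rpow_def_of_pos hx0]
              congr 1
              rw [hA]
              field_simp
              ring
    · have : (univ.filter fun y : Fin m → G =>
          (1 / 2 : ℝ) ^ (i + 1) < x ^ (-(3 * A + 4))
          ∧ 2 ^ i * T / ((i + 1) * (i + 2)) ≤ (Lam y ((1 / 2) ^ (i + 1))).card) = ∅ := by
        rw [filter_eq_empty_iff]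
        rintro y - ⟨h, -⟩
        exact hlt h
      rw [this, card_empty, Nat.cast_zero]
      positivity
  have hsum : ((univ.filter fun y : Fin m → G => ∃ i : ℕ, i ≤ m ∧
      (1 / 2 : ℝ) ^ (i + 1) < x ^ (-(3 * A + 4))
      ∧ 2 ^ i * T / ((i + 1) * (i + 2)) ≤ (Lam y ((1 / 2) ^ (i + 1))).card).card : ℝ)
      ≤ ∑ i ∈ range (m + 1), ((univ.filter fun y : Fin m → G =>
      (1 / 2 : ℝ) ^ (i + 1) < x ^ (-(3 * A + 4))
      ∧ 2 ^ i * T / ((i + 1) * (i + 2)) ≤ (Lam y ((1 / 2) ^ (i + 1))).card).card : ℝ) := by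
    rw [← Nat.cast_sum]
    refine Nat.cast_le.2 (le_trans (card_le_card ?_) card_biUnion_le)
    intro y hy
    rw [mem_filter] at hy
    obtain ⟨-, i, hi, h1, h2⟩ := hy
    rw [mem_biUnion]
    refine ⟨i, by rw [mem_range]; omega, ?_⟩
    rw [mem_filter]
    exact ⟨mem_univ _, h1, h2⟩
  refine hsum.trans ((sum_le_sum hone).trans ?_)
  rw [sum_const, card_range, nsmul_eq_mul]
  push_cast
  have hM : max 1 T ≤ x ^ C₀ := max_le (Real.one_le_rpow hx1 hC₀.le) hT'
  have hM0 : 0 < max 1 T := lt_of_lt_of_le one_pos (le_max_left _ _)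
  have h5 : x ^ (-((1 / 2 + C₀) * x)) ≤ (x ^ (-(1 / 2) + δ) / max 1 T) ^ m := by
    calc x ^ (-((1 / 2 + C₀) * x)) ≤ x ^ (-((1 / 2 + C₀) * m)) := by
          refine Real.rpow_le_rpow_of_exponent_le hx1 (neg_le_neg ?_)
          exact mul_le_mul_of_nonneg_left hmk (by positivity)
      _ = (x ^ (-(1 / 2 + C₀))) ^ m := by
          rw [← Real.rpow_natCast, ← Real.rpow_mul hx0.le]
          congr 1
          ring
      _ ≤ (x ^ (-(1 / 2) + δ) / max 1 T) ^ m := by
          refine pow_le_pow_left₀ (Real.rpow_nonneg hx0.le _) ?_ _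
          rw [le_div_iff₀ hM0]
          calc x ^ (-(1 / 2 + C₀)) * max 1 T ≤ x ^ (-(1 / 2 + C₀)) * x ^ C₀ :=
                mul_le_mul_of_nonneg_left hM (Real.rpow_nonneg hx0.le _)
            _ = x ^ (-(1 / 2) : ℝ) := by
                rw [← Real.rpow_add hx0]
                congr 1
                ring
            _ ≤ x ^ (-(1 / 2) + δ) :=
                Real.rpow_le_rpow_of_exponent_le hx1 (by linarith)
  have h6 : ((m : ℝ) + 1) * x ^ (-((2 + C₀) * x)) ≤ x ^ (-((1 / 2 + C₀) * x)) / 2 := by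
    have e : x ^ (-((2 + C₀) * x)) = x ^ (-((1 / 2 + C₀) * x)) * x ^ (-(3 / 2 * x)) := by
      rw [← Real.rpow_add hx0]
      congr 1
      ring
    rw [e]
    have h7 : ((m : ℝ) + 1) * x ^ (-(3 / 2 * x)) ≤ 1 / 2 := by
      have h8 : x ^ (-(3 / 2 * x)) ≤ x ^ (-(2 : ℝ)) := by
        refine Real.rpow_le_rpow_of_exponent_le hx1 ?_
        linarith
      have h9 : x ^ (-(2 : ℝ)) = 1 / x ^ 2 := by
        rw [Real.rpow_neg hx0.le, one_div]
        norm_cast
      rw [h9] at h8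
      calc ((m : ℝ) + 1) * x ^ (-(3 / 2 * x)) ≤ (x + 1) * (1 / x ^ 2) :=
            mul_le_mul (by linarith) h8 (Real.rpow_nonneg hx0.le _) (by linarith)
        _ ≤ 1 / 2 := by
            rw [mul_one_div, div_le_div_iff₀ (by positivity) (by norm_num)]
            nlinarith
    have hp : 0 ≤ x ^ (-((1 / 2 + C₀) * x)) := Real.rpow_nonneg hx0.le _
    nlinarith
  calc ((m : ℝ) + 1) * ((Fintype.card G : ℝ) ^ m * x ^ (-((2 + C₀) * x)))
      = (Fintype.card G : ℝ) ^ m * (((m : ℝ) + 1) * x ^ (-((2 + C₀) * x))) := by ring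
    _ ≤ (Fintype.card G : ℝ) ^ m * (x ^ (-((1 / 2 + C₀) * x)) / 2) :=
        mul_le_mul_of_nonneg_left h6 (by positivity)
    _ ≤ (Fintype.card G : ℝ) ^ m * ((x ^ (-(1 / 2) + δ) / max 1 T) ^ m / 2) := by
        refine mul_le_mul_of_nonneg_left ?_ (by positivity)
        linarith
    _ = _ := by ring

end

end Vale.Agent.P160.Half.Flat.C743
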