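import Vale.Agent.P160.Dom

/-! P160-HALF: COUNT for a general finite abelian group (note 11105 of helper986).
Interface: definitions and exact statements of the leaves. -/

namespace Vale.Agent.P160.Half.Flat

open Finset Vale.Agent.P160

section defs

variable {G : Type} [AddCommGroup G] [Fintype G]

/-- product of the characteristic functions (`cf 8 z = 3/4 + Re z / 4`) -/
noncomputable def gP {m : ℕ} (M : ℕ) (y : Fin m → G) (ψ : AddChar G ℂ) : ℝ :=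
  ∏ e, cf M (ψ (y e))

/-- `|G| * P(walk = 0)` -/
noncomputable def gZ {m : ℕ} (M : ℕ) (y : Fin m → G) : ℝ := ∑ ψ : AddChar G ℂ, gP M y ψ

/-- every nontrivial character is nontrivial on at least `e` coordinates -/
def NonSp {m : ℕ} (e : ℝ) (y : Fin m → G) : Prop :=
  ∀ ψ : AddChar G ℂ, ψ ≠ 1 → e ≤ ((univ.filter fun c => ψ (y c) ≠ 1).card : ℝ)

/-- the Bohr set of a set of characters -/
noncomputable def bohr (S : Finset (AddChar G ℂ)) (r : ℝ) : Finset G := by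
  classical exact univ.filter fun v => ∀ ψ ∈ S, ‖ψ v - 1‖ ≤ r

/-- nontrivial characters with product at least `t` -/
noncomputable def Lam {m : ℕ} (y : Fin m → G) (t : ℝ) : Finset (AddChar G ℂ) := by
  classical exact univ.filter fun ψ => ψ ≠ 1 ∧ t ≤ gP 8 y ψ

end defs

/-- GROWTH (986, (B) second half) -/
def StmtGrowth : Prop :=
  ∀ (G : Type) [AddCommGroup G] [Fintype G] (S : Finset (AddChar G ℂ)) (ρ σ : ℝ),
    0 < ρ → 20 * ρ ≤ σ → σ ≤ 1 →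
    (∀ v ∈ bohr S ρ, ∀ ψ ∈ S, ψ v = 1) ∨
      ((bohr S ρ).card : ℝ) * σ ≤ 100 * ρ * (bohr S σ).card

/-- SPLIT (986, (B) first half; with `|∑_{j<J} z^j|^2` instead of Fejer) -/
def StmtSplit : Prop :=
  ∀ (G : Type) [AddCommGroup G] [Fintype G] (Λ : Finset (AddChar G ℂ)) (B : Finset G) (J : ℕ)
    (θ : ℝ), 8 ≤ θ * J → (∀ p : ℕ, p.Prime → p ∣ Fintype.card G → J ≤ p) →
    (∀ ψ ∈ Λ, θ * B.card ≤ ((B.filter fun v => ‖ψ v - 1‖ ≤ 1 / J).card : ℝ)) →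
    (Λ.card : ℝ) * B.card * θ ^ 2 ≤ 256 * Fintype.card G

/-- LARGE (986, (A): dissociated tuples) -/
def StmtLarge : Prop :=
  ∀ (G : Type) [AddCommGroup G] [Fintype G] (m l : ℕ) (K t : ℝ), 0 < t → (8 : ℝ) ^ l ≤ K →
    ((univ.filter fun y : Fin m → G => K ≤ (Lam y t).card).card : ℝ) * ((K / 2) ^ l * t ^ l) ≤
      (Fintype.card G : ℝ) ^ l * (Fintype.card G * (3 / 4) ^ l) ^ m

/-- DYADIC: some level has many characters. -/
def StmtDyadic : Prop :=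
  ∀ (G : Type) [AddCommGroup G] [Fintype G] (m : ℕ) (y : Fin m → G) (T : ℝ), 0 < T →
    1 + T ≤ gZ 8 y → ∃ i : ℕ, i ≤ m ∧
      (2 : ℝ) ^ i * T / ((i + 1) * (i + 2)) ≤ (Lam y ((1 / 2) ^ (i + 1))).card

open scoped Classical in
/-- COUNT (986, note 11105): the theorem. -/
def StmtCountG : Prop :=
  ∀ δ c C₀ : ℝ, 0 < δ → δ ≤ 1 → 0 < c → 0 < C₀ → ∃ k₀ : ℕ, ∀ k : ℕ, k₀ ≤ k →
    ∀ (G : Type) [AddCommGroup G] [Fintype G] (m : ℕ), m ≤ k → (k : ℝ) ≤ 2 * m →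
    (∀ p : ℕ, p.Prime → p ∣ Fintype.card G → k ≤ p) →
    (Fintype.card G : ℝ) * (3 / 4) ^ m ≤ Real.exp (-c * k) →
    ∀ T : ℝ, 1 / k ≤ T → T ≤ (k : ℝ) ^ C₀ →
    ((univ.filter fun y : Fin m → G =>
      NonSp ((k : ℝ) ^ (1 - δ / 4)) y ∧ 1 + T ≤ gZ 8 y).card : ℝ) ≤
      (Fintype.card G : ℝ) ^ m * ((k : ℝ) ^ (-(1 / 2) + δ) / max 1 T) ^ m

end Vale.Agent.P160.Half.Flat
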