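import Vale.Agent.P160.Half.FlatI

/-! P160-HALF: COUNT, the leaf `StmtLarge` (dissociated tuples of characters). -/

namespace Vale.Agent.P160.Half.Flat.L570

open Finset Vale.Agent.P160 Vale.Agent.P160.Half.Flat

section

variable {G : Type} [AddCommGroup G] [Fintype G]

/-- no nontrivial relation with exponents `0, ±1` -/
def Ds {l : ℕ} (T : Fin l → AddChar G ℂ) : Prop :=
  ∀ ω : Fin l → Fin 8, ∏ a, (T a) ^ (st (ω a)) = 1 → ∀ a, st (ω a) = 0

theorem card_st : (univ.filter fun x : Fin 8 => st x = 0).card = 6 := by decide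

theorem prod_apply' {l : ℕ} (T : Fin l → AddChar G ℂ) (e : Fin l → ℤ) (v : G) :
    (∏ a, (T a) ^ (e a)) v = ∏ a, (T a v) ^ (e a) := by
  rw [AddChar.coe_prod, Finset.prod_apply]
  refine prod_congr rfl fun a _ => ?_
  rw [AddChar.zpow_apply]

open scoped Classical in
theorem sum_prod_cf {l : ℕ} (T : Fin l → AddChar G ℂ) (hT : Ds T) :
    ∑ v : G, ∏ a, cf 8 (T a v) = Fintype.card G * (3 / 4) ^ l := by
  have h1 : ∀ v : G, (((8 : ℝ) ^ l * ∏ a, cf 8 (T a v) : ℝ) : ℂ) =
      ∑ ω : Fin l → Fin 8, (∏ a, (T a) ^ (st (ω a))) v := by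
    intro v
    have := sum_prod_zpow_st (M := 8) (by norm_num) (fun a => T a v) (fun a => AddChar.norm_apply _ _)
    rw [Fintype.card_fin] at this
    rw [sum_congr rfl fun ω _ => prod_apply' T (fun a => st (ω a)) v]
    exact this.symm
  have h2 : ∀ ω : Fin l → Fin 8, ∑ v : G, (∏ a, (T a) ^ (st (ω a))) v =
      if (∀ a, st (ω a) = 0) then (Fintype.card G : ℂ) else 0 := by
    intro ω
    rw [AddChar.sum_eq_ite]
    by_cases h : ∀ a, st (ω a) = 0
    · have : ∏ a, (T a) ^ (st (ω a)) = 1 := by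
        refine prod_eq_one fun a _ => ?_
        rw [h a, zpow_zero]
      rw [this, if_pos h]
      exact if_pos rfl
    · have : ¬ (∏ a, (T a) ^ (st (ω a)) = 1) := fun h' => h (hT ω h')
      rw [if_neg h]
      exact if_neg this
  have h3 : (((8 : ℝ) ^ l * ∑ v : G, ∏ a, cf 8 (T a v) : ℝ) : ℂ) = ((Fintype.card G * 6 ^ l : ℝ) : ℂ) := by
    rw [mul_sum]
    rw [Complex.ofReal_sum]
    rw [sum_congr rfl fun v _ => h1 v, sum_comm, sum_congr rfl fun ω _ => h2 ω]
    rw [← sum_filter, sum_const, nsmul_eq_mul]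
    have h4 : (univ.filter fun ω : Fin l → Fin 8 => ∀ a, st (ω a) = 0) =
        Fintype.piFinset fun _ => univ.filter fun x : Fin 8 => st x = 0 := by
      ext ω
      simp
    rw [h4, Fintype.card_piFinset]
    simp only [card_st, prod_const, card_univ, Fintype.card_fin]
    push_cast
    ring
  have h5 : (8 : ℝ) ^ l * ∑ v : G, ∏ a, cf 8 (T a v) = Fintype.card G * 6 ^ l := by exact_mod_cast h3
  have h6 : (8 : ℝ) ^ l ≠ 0 := by positivity
  rw [div_pow, show (3 : ℝ) ^ l / 4 ^ l = 6 ^ l / 8 ^ l from ?_]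
  · field_simp
    linarith
  · rw [← div_pow, ← div_pow]; norm_num

/-- seed with the opposite step -/
def op (x : Fin 8) : Fin 8 := if x.val = 0 then 1 else if x.val = 1 then 0 else x

theorem st_op (x : Fin 8) : st (op x) = - st x := by revert x; decide

open scoped Classical in
theorem snoc_mem {l : ℕ} (T : Fin l → AddChar G ℂ) (hT : Ds T) (ψ : AddChar G ℂ)
    (hψ : ψ ∉ (univ : Finset (Fin l → Fin 8)).image fun ω => ∏ a, (T a) ^ (st (ω a))) :
    Ds (Fin.snoc (α := fun _ => AddChar G ℂ) T ψ) := by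
  intro ω h
  rw [Fin.prod_univ_castSucc] at h
  simp only [Fin.snoc_castSucc, Fin.snoc_last] at h
  have key : st (ω (Fin.last l)) = 0 := by
    by_contra hne
    have hs : st (ω (Fin.last l)) = 1 ∨ st (ω (Fin.last l)) = -1 := by
      revert hne
      generalize ω (Fin.last l) = x
      revert x
      decide
    apply hψ
    rw [mem_image]
    rcases hs with hs | hs
    · refine ⟨fun a => op (ω a.castSucc), mem_univ _, ?_⟩
      rw [hs, zpow_one] at h
      have h2 : ψ = (∏ a : Fin l, T a ^ st (ω a.castSucc))⁻¹ := by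
        rw [eq_inv_iff_mul_eq_one, mul_comm]; exact h
      rw [h2, ← prod_inv_distrib]
      refine prod_congr rfl fun a _ => ?_
      rw [st_op, zpow_neg]
    · refine ⟨fun a => ω a.castSucc, mem_univ _, ?_⟩
      rw [hs, zpow_neg, zpow_one, mul_inv_eq_one] at h
      exact h
  rw [key, zpow_zero, mul_one] at h
  have h3 := hT (fun a => ω a.castSucc) h
  intro a
  refine Fin.lastCases key (fun i => h3 i) a

open scoped Classical in
theorem card_tuples (Λ : Finset (AddChar G ℂ)) (K : ℝ) (hK : K ≤ (Λ.card : ℝ)) :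
    ∀ l : ℕ, (8 : ℝ) ^ l ≤ K →
      (K / 2) ^ l ≤ (((univ : Finset (Fin l → AddChar G ℂ)).filter fun T => Ds T ∧ ∀ a, T a ∈ Λ).card : ℝ) := by
  intro l
  induction l with
  | zero =>
    intro _
    simp only [pow_zero]
    have : (univ.filter fun T : Fin 0 → AddChar G ℂ => Ds T ∧ ∀ a, T a ∈ Λ) = univ := by
      refine filter_true_of_mem fun T _ => ⟨fun ω _ a => a.elim0, fun a => a.elim0⟩
    rw [this, card_univ]
    simp
  | succ l ih =>
    intro hl
    have h8 : (8 : ℝ) ^ l * 8 ≤ K := by rw [← pow_succ]; exact hl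
    have hpos : (0 : ℝ) < 8 ^ l := by positivity
    have hl' : (8 : ℝ) ^ l ≤ K := by linarith
    have hK0 : 0 < K := by linarith
    have ih' := ih hl'
    set A := (univ : Finset (Fin l → AddChar G ℂ)).filter fun T => Ds T ∧ ∀ a, T a ∈ Λ with hA
    set S : (Fin l → AddChar G ℂ) → Finset (AddChar G ℂ) := fun T =>
      Λ \ ((univ : Finset (Fin l → Fin 8)).image fun ω => ∏ a, (T a) ^ (st (ω a))) with hS
    have hScard : ∀ T, K / 2 ≤ ((S T).card : ℝ) := by
      intro T
      have h1 : Λ.card ≤ (S T).card + ((univ : Finset (Fin l → Fin 8)).image fun ω => ∏ a, (T a) ^ (st (ω a))).card := by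
        have : Λ.card - ((univ : Finset (Fin l → Fin 8)).image fun ω => ∏ a, (T a) ^ (st (ω a))).card ≤
          (S T).card := le_card_sdiff _ Λ
        omega
      have h2 : ((univ : Finset (Fin l → Fin 8)).image fun ω => ∏ a, (T a) ^ (st (ω a))).card ≤ 8 ^ l := by
        refine card_image_le.trans ?_
        rw [card_univ, Fintype.card_fun, Fintype.card_fin, Fintype.card_fin]
      have h3 : (Λ.card : ℝ) ≤ (S T).card + (8 : ℝ) ^ l := by
        have : (Λ.card) ≤ (S T).card + 8 ^ l := h1.trans (by omega)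
        exact_mod_cast this
      linarith
    have hinj : ((A.sigma S).card) ≤ ((univ : Finset (Fin (l + 1) → AddChar G ℂ)).filter fun T => Ds T ∧ ∀ a, T a ∈ Λ).card := by
      refine card_le_card_of_injOn (fun x => Fin.snoc (α := fun _ => AddChar G ℂ) x.1 x.2) ?_ ?_
      · rintro ⟨T, ψ⟩ hx
        rw [mem_coe, mem_sigma] at hx
        obtain ⟨h1, h2⟩ := hx
        rw [hA, mem_filter] at h1
        rw [hS, mem_sdiff] at h2
        rw [mem_coe, mem_filter]
        refine ⟨mem_univ _, snoc_mem T h1.2.1 ψ h2.2, fun a => ?_⟩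
        refine Fin.lastCases ?_ (fun i => ?_) a
        · simpa using h2.1
        · simpa using h1.2.2 i
      · rintro ⟨T, ψ⟩ _ ⟨T', ψ'⟩ _ h
        have h' : (Fin.snoc (α := fun _ => AddChar G ℂ) T ψ) = Fin.snoc (α := fun _ => AddChar G ℂ) T' ψ' := h
        have h1 : T = T' := by
          funext i
          have := congrFun h' i.castSucc
          simpa using this
        have h2 : ψ = ψ' := by
          have := congrFun h' (Fin.last l)
          simpa using this
        rw [h1, h2]
    have h4 : (K / 2) ^ (l + 1) ≤ ((A.sigma S).card : ℝ) := by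
      rw [card_sigma]
      push_cast
      calc (K / 2) ^ (l + 1) = (K / 2) ^ l * (K / 2) := pow_succ _ _
        _ ≤ (A.card : ℝ) * (K / 2) := by
          refine mul_le_mul_of_nonneg_right ih' (by positivity)
        _ = ∑ _T ∈ A, (K / 2) := by rw [sum_const, nsmul_eq_mul]
        _ ≤ ∑ T ∈ A, ((S T).card : ℝ) := sum_le_sum fun T _ => hScard T
    refine h4.trans ?_
    exact_mod_cast hinj

theorem gP_nonneg {m : ℕ} (y : Fin m → G) (ψ : AddChar G ℂ) : 0 ≤ gP 8 y ψ :=
  prod_nonneg fun _ _ => cf_nonneg (by norm_num) (AddChar.norm_apply _ _)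

theorem sum_y {m l : ℕ} (T : Fin l → AddChar G ℂ) (hT : Ds T) :
    ∑ y : Fin m → G, ∏ a, gP 8 y (T a) = (Fintype.card G * (3 / 4) ^ l) ^ m := by
  classical
  have h1 : ∀ y : Fin m → G, ∏ a, gP 8 y (T a) = ∏ e, ∏ a, cf 8 (T a (y e)) := by
    intro y
    unfold gP
    rw [prod_comm]
  rw [sum_congr rfl fun y _ => h1 y]
  have h2 := Finset.prod_univ_sum (fun _ : Fin m => (univ : Finset G)) (fun _ v => ∏ a, cf 8 (T a v))
  rw [Fintype.piFinset_univ] at h2
  rw [← h2]
  simp only [sum_prod_cf T hT, prod_const, card_univ, Fintype.card_fin]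

end

theorem stmtLarge : StmtLarge := by
  classical
  intro G _ _ m l K t ht hK
  set Y := (univ.filter fun y : Fin m → G => K ≤ (Lam y t).card) with hY
  have hK0 : 0 < K := lt_of_lt_of_le (by positivity) hK
  set D := ((univ : Finset (Fin l → AddChar G ℂ)).filter fun T => Ds T) with hD
  calc (Y.card : ℝ) * ((K / 2) ^ l * t ^ l)
      = ∑ _y ∈ Y, ((K / 2) ^ l * t ^ l) := by rw [sum_const, nsmul_eq_mul]
    _ ≤ ∑ y ∈ Y, ∑ T ∈ D, ∏ a, gP 8 y (T a) := by
      refine sum_le_sum fun y hy => ?_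
      rw [hY, mem_filter] at hy
      have h1 := card_tuples (Lam y t) K hy.2 l hK
      calc (K / 2) ^ l * t ^ l ≤ (((univ : Finset (Fin l → AddChar G ℂ)).filter fun T =>
            Ds T ∧ ∀ a, T a ∈ Lam y t).card : ℝ) * t ^ l :=
            mul_le_mul_of_nonneg_right h1 (by positivity)
        _ = ∑ _T ∈ (univ : Finset (Fin l → AddChar G ℂ)).filter fun T =>
            Ds T ∧ ∀ a, T a ∈ Lam y t, t ^ l := by rw [sum_const, nsmul_eq_mul]
        _ ≤ ∑ T ∈ (univ : Finset (Fin l → AddChar G ℂ)).filter fun T =>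
            Ds T ∧ ∀ a, T a ∈ Lam y t, ∏ a, gP 8 y (T a) := by
          refine sum_le_sum fun T hT => ?_
          rw [mem_filter] at hT
          calc t ^ l = ∏ _a : Fin l, t := by rw [prod_const, card_univ, Fintype.card_fin]
            _ ≤ ∏ a, gP 8 y (T a) := by
              refine prod_le_prod (fun _ _ => ht.le) fun a _ => ?_
              have := hT.2.2 a
              unfold Lam at this
              rw [mem_filter] at this
              exact this.2.2
        _ ≤ ∑ T ∈ D, ∏ a, gP 8 y (T a) := by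
          refine sum_le_sum_of_subset_of_nonneg ?_ fun T _ _ => prod_nonneg fun a _ => gP_nonneg _ _
          intro T hT
          rw [mem_filter] at hT
          rw [hD, mem_filter]
          exact ⟨mem_univ _, hT.2.1⟩
    _ ≤ ∑ y : Fin m → G, ∑ T ∈ D, ∏ a, gP 8 y (T a) :=
      sum_le_sum_of_subset_of_nonneg (filter_subset _ _) fun y _ _ =>
        sum_nonneg fun T _ => prod_nonneg fun a _ => gP_nonneg _ _
    _ = ∑ T ∈ D, ∑ y : Fin m → G, ∏ a, gP 8 y (T a) := sum_comm
    _ = ∑ _T ∈ D, (Fintype.card G * (3 / 4 : ℝ) ^ l) ^ m := by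
      refine sum_congr rfl fun T hT => ?_
      rw [hD, mem_filter] at hT
      exact sum_y T hT.2
    _ = (D.card : ℝ) * (Fintype.card G * (3 / 4 : ℝ) ^ l) ^ m := by rw [sum_const, nsmul_eq_mul]
    _ ≤ (Fintype.card G : ℝ) ^ l * (Fintype.card G * (3 / 4) ^ l) ^ m := by
      refine mul_le_mul_of_nonneg_right ?_ (by positivity)
      have h1 : D.card ≤ Fintype.card G ^ l := by
        refine (card_filter_le _ _).trans ?_
        rw [card_univ, Fintype.card_fun, Fintype.card_fin, AddChar.card_eq]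
      exact_mod_cast h1

end Vale.Agent.P160.Half.Flat.L570
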