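import Vale.Agent.P160.Half.FlatI

/-! P160-HALF: StmtLarge of `FlatI` (dissociated tuples), helper609. -/

namespace Vale.Agent.P160.Half.Flat.L609

open Finset Vale.Agent.P160 Vale.Agent.P160.Half.Flat
open scoped Classical

section main

variable {G : Type} [AddCommGroup G] [Fintype G]

/-- the `{0, 1, -1}`-span -/
noncomputable def sp (L : List (AddChar G ℂ)) : Finset (AddChar G ℂ) :=
  L.foldr (fun ψ S => S ∪ S.image (fun χ => ψ * χ) ∪ S.image (fun χ => ψ⁻¹ * χ)) {1}

lemma sp_nil : sp ([] : List (AddChar G ℂ)) = {1} := rfl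

lemma sp_cons (ψ : AddChar G ℂ) (L : List (AddChar G ℂ)) :
    sp (ψ :: L) = sp L ∪ (sp L).image (fun χ => ψ * χ) ∪ (sp L).image (fun χ => ψ⁻¹ * χ) := rfl

lemma card_sp (L : List (AddChar G ℂ)) : (sp L).card ≤ 3 ^ L.length := by
  induction L with
  | nil => simp [sp_nil]
  | cons ψ L ih =>
    rw [sp_cons, List.length_cons]
    have h1 := card_union_le (sp L ∪ (sp L).image (fun χ => ψ * χ))
      ((sp L).image (fun χ => ψ⁻¹ * χ))
    have h2 := card_union_le (sp L) ((sp L).image (fun χ => ψ * χ))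
    have h3 : ((sp L).image (fun χ => ψ * χ)).card ≤ (sp L).card := card_image_le
    have h4 : ((sp L).image (fun χ => ψ⁻¹ * χ)).card ≤ (sp L).card := card_image_le
    rw [pow_succ]
    omega

lemma inv_mem_sp (L : List (AddChar G ℂ)) : ∀ χ ∈ sp L, χ⁻¹ ∈ sp L := by
  induction L with
  | nil =>
    intro χ h
    rw [sp_nil, mem_singleton] at h ⊢
    rw [h, inv_one]
  | cons ψ L ih =>
    intro χ h
    rw [sp_cons, mem_union, mem_union, mem_image, mem_image] at h ⊢
    rcases h with (h | ⟨a, ha, rfl⟩) | ⟨a, ha, rfl⟩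
    · exact Or.inl (Or.inl (ih _ h))
    · exact Or.inr ⟨a⁻¹, ih _ ha, by rw [mul_inv]⟩
    · exact Or.inl (Or.inr ⟨a⁻¹, ih _ ha, by rw [mul_inv, inv_inv]⟩)

/-- product over a list -/
noncomputable def pr (L : List (AddChar G ℂ)) (v : G) : ℝ := (L.map fun ψ => cf 8 (ψ v)).prod

noncomputable def E (χ : AddChar G ℂ) (L : List (AddChar G ℂ)) : ℂ := ∑ v, χ v * (pr L v : ℂ)

lemma cf8 (ψ : AddChar G ℂ) (v : G) :
    ((cf 8 (ψ v) : ℝ) : ℂ) = 3 / 4 + 1 / 8 * (ψ v + ψ⁻¹ v) := by
  have h : ψ⁻¹ v = (starRingEnd ℂ) (ψ v) := by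
    rw [AddChar.inv_apply, AddChar.map_neg_eq_conj]
  rw [h, Complex.add_conj]
  unfold cf
  push_cast
  ring

lemma E_cons (χ ψ : AddChar G ℂ) (L : List (AddChar G ℂ)) :
    E χ (ψ :: L) = 3 / 4 * E χ L + 1 / 8 * E (χ * ψ) L + 1 / 8 * E (χ * ψ⁻¹) L := by
  unfold E
  rw [mul_sum, mul_sum, mul_sum, ← sum_add_distrib, ← sum_add_distrib]
  refine sum_congr rfl fun v _ => ?_
  have h : pr (ψ :: L) v = cf 8 (ψ v) * pr L v := by
    unfold pr
    rw [List.map_cons, List.prod_cons]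
  rw [h, Complex.ofReal_mul, cf8, AddChar.mul_apply, AddChar.mul_apply]
  ring

lemma E_zero (L : List (AddChar G ℂ)) : ∀ χ, χ ∉ sp L → E χ L = 0 := by
  induction L with
  | nil =>
    intro χ h
    rw [sp_nil, mem_singleton] at h
    unfold E pr
    simp only [List.map_nil, List.prod_nil, Complex.ofReal_one, mul_one]
    exact AddChar.sum_eq_zero_of_ne_one h
  | cons ψ L ih =>
    intro χ h
    rw [sp_cons, mem_union, mem_union, mem_image, mem_image] at h
    push Not at h
    obtain ⟨⟨h1, h2⟩, h3⟩ := h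
    rw [E_cons, ih χ h1, ih (χ * ψ) fun hm => h3 _ hm (by
      rw [mul_comm χ, inv_mul_cancel_left]), ih (χ * ψ⁻¹) fun hm => h2 _ hm (by
      rw [mul_comm χ, mul_inv_cancel_left])]
    simp

lemma E_one_cons (ψ : AddChar G ℂ) (L : List (AddChar G ℂ)) (h : ψ ∉ sp L) :
    E 1 (ψ :: L) = 3 / 4 * E 1 L := by
  rw [E_cons, one_mul, one_mul, E_zero L ψ h, E_zero L ψ⁻¹ fun hm => h (by
    have := inv_mem_sp L _ hm
    rwa [inv_inv] at this)]
  ring

lemma E_one (L : List (AddChar G ℂ)) : E 1 L = ((∑ v, pr L v : ℝ) : ℂ) := by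
  unfold E
  simp

/-- the sum of dissociated continuations -/
noncomputable def S {m : ℕ} (t : ℝ) (y : Fin m → G) (l : ℕ) : List (AddChar G ℂ) → ℝ :=
  Nat.rec (fun _ => 1) (fun _ F L => ∑ ψ ∈ Lam y t \ sp L, F (ψ :: L)) l

lemma S_zero {m : ℕ} (t : ℝ) (y : Fin m → G) (L : List (AddChar G ℂ)) : S t y 0 L = 1 := rfl

lemma S_succ {m : ℕ} (t : ℝ) (y : Fin m → G) (l : ℕ) (L : List (AddChar G ℂ)) :
    S t y (l + 1) L = ∑ ψ ∈ Lam y t \ sp L, S t y l (ψ :: L) := rfl

lemma S_nonneg {m : ℕ} (t : ℝ) (y : Fin m → G) (l : ℕ) : ∀ L, 0 ≤ S t y l L := by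
  induction l with
  | zero => intro L; rw [S_zero]; exact zero_le_one
  | succ l ih => intro L; rw [S_succ]; exact sum_nonneg fun ψ _ => ih _

lemma S_lower {m : ℕ} (t K : ℝ) (y : Fin m → G) (hK0 : 0 ≤ K) (hK : K ≤ (Lam y t).card) (l : ℕ) :
    ∀ L, (∀ j, j < L.length + l → 2 * (3 : ℝ) ^ j ≤ K) → (K / 2) ^ l ≤ S t y l L := by
  induction l with
  | zero => intro L _; rw [S_zero, pow_zero]
  | succ l ih =>
    intro L h
    rw [S_succ]
    have h1 : ((Lam y t \ sp L).card : ℝ) * (K / 2) ^ l ≤ ∑ ψ ∈ Lam y t \ sp L, S t y l (ψ :: L) := by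
      rw [← nsmul_eq_mul]
      refine card_nsmul_le_sum _ _ _ fun ψ _ => ih _ fun j hj => h j ?_
      rw [List.length_cons] at hj
      omega
    refine le_trans ?_ h1
    rw [pow_succ, mul_comm]
    refine mul_le_mul_of_nonneg_right ?_ (by positivity)
    have h2 : (Lam y t).card ≤ (Lam y t \ sp L).card + 3 ^ L.length := by
      have h3 := card_sp L
      have h4 := le_card_sdiff (sp L) (Lam y t)
      omega
    have h5 : ((Lam y t).card : ℝ) ≤ (Lam y t \ sp L).card + 3 ^ L.length := by exact_mod_cast h2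
    have h6 := h L.length (by omega)
    linarith

lemma cf_nn (ψ : AddChar G ℂ) (v : G) : 0 ≤ cf 8 (ψ v) :=
  cf_nonneg (by norm_num) (AddChar.norm_apply ψ v)

lemma gP_nonneg {m : ℕ} (y : Fin m → G) (ψ : AddChar G ℂ) : 0 ≤ gP 8 y ψ :=
  prod_nonneg fun e _ => cf_nn ψ (y e)

lemma prod_gP_nonneg {m : ℕ} (y : Fin m → G) (L : List (AddChar G ℂ)) :
    0 ≤ (L.map (gP 8 y)).prod := by
  refine List.prod_nonneg fun a ha => ?_
  obtain ⟨ψ, _, rfl⟩ := List.mem_map.mp ha
  exact gP_nonneg y ψ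

lemma prod_gP {m : ℕ} (y : Fin m → G) (L : List (AddChar G ℂ)) :
    (L.map (gP 8 y)).prod = ∏ e, pr L (y e) := by
  induction L with
  | nil => simp [pr]
  | cons ψ L ih =>
    rw [List.map_cons, List.prod_cons, ih]
    unfold gP
    rw [← prod_mul_distrib]
    refine prod_congr rfl fun e _ => ?_
    unfold pr
    rw [List.map_cons, List.prod_cons]

lemma sum_prod_gP (m : ℕ) (L : List (AddChar G ℂ)) :
    ∑ y : Fin m → G, (L.map (gP 8 y)).prod = (∑ v, pr L v) ^ m := by
  rw [Fintype.sum_pow]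
  exact sum_congr rfl fun y _ => prod_gP y L

lemma S_upper (m : ℕ) (t : ℝ) (ht : 0 < t) (l : ℕ) :
    ∀ L : List (AddChar G ℂ), (∑ v, pr L v) = Fintype.card G * (3 / 4) ^ L.length →
      ∑ y : Fin m → G, t ^ l * S t y l L * (L.map (gP 8 y)).prod ≤
        (Fintype.card G : ℝ) ^ l * (Fintype.card G * (3 / 4) ^ (L.length + l)) ^ m := by
  induction l with
  | zero =>
    intro L hL
    simp only [S_zero, pow_zero, one_mul, add_zero]
    rw [sum_prod_gP, hL]
  | succ l ih =>
    intro L hL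
    have h1 : ∀ y : Fin m → G, t ^ (l + 1) * S t y (l + 1) L * (L.map (gP 8 y)).prod ≤
        ∑ ψ ∈ univ \ sp L, t ^ l * S t y l (ψ :: L) * ((ψ :: L).map (gP 8 y)).prod := by
      intro y
      rw [S_succ, mul_sum, sum_mul]
      refine (sum_le_sum (g := fun ψ => t ^ l * S t y l (ψ :: L) *
        ((ψ :: L).map (gP 8 y)).prod) fun ψ hψ => ?_).trans
        (sum_le_sum_of_subset_of_nonneg (sdiff_subset_sdiff (subset_univ _) le_rfl) fun ψ _ _ =>
          mul_nonneg (mul_nonneg (pow_nonneg ht.le _) (S_nonneg _ _ _ _)) (prod_gP_nonneg y _))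
      have h2 : t ≤ gP 8 y ψ := by
        have := (mem_sdiff.mp hψ).1
        unfold Lam at this
        exact (mem_filter.mp this).2.2
      rw [List.map_cons, List.prod_cons, pow_succ]
      have h3 := S_nonneg t y l (ψ :: L)
      have h4 := prod_gP_nonneg y L
      have h5 : 0 ≤ t ^ l := pow_nonneg ht.le _
      calc t ^ l * t * S t y l (ψ :: L) * (L.map (gP 8 y)).prod
          = t * (t ^ l * S t y l (ψ :: L) * (L.map (gP 8 y)).prod) := by ring
        _ ≤ gP 8 y ψ * (t ^ l * S t y l (ψ :: L) * (L.map (gP 8 y)).prod) :=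
            mul_le_mul_of_nonneg_right h2 (mul_nonneg (mul_nonneg h5 h3) h4)
        _ = _ := by ring
    refine (sum_le_sum fun y _ => h1 y).trans ?_
    rw [sum_comm]
    have h6 : ∀ ψ ∈ univ \ sp L, ∑ y : Fin m → G, t ^ l * S t y l (ψ :: L) *
        ((ψ :: L).map (gP 8 y)).prod ≤
        (Fintype.card G : ℝ) ^ l * (Fintype.card G * (3 / 4) ^ (L.length + (l + 1))) ^ m := by
      intro ψ hψ
      have hψ' := (mem_sdiff.mp hψ).2
      have h7 : (∑ v, pr (ψ :: L) v) = Fintype.card G * (3 / 4) ^ (ψ :: L).length := by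
        have h8 := E_one_cons ψ L hψ'
        rw [E_one, E_one, hL] at h8
        have h9 : ((∑ v, pr (ψ :: L) v : ℝ) : ℂ) =
            ((3 / 4 * (Fintype.card G * (3 / 4) ^ L.length) : ℝ) : ℂ) := by
          rw [h8]
          push_cast
          ring
        rw [Complex.ofReal_injective h9, List.length_cons, pow_succ]
        ring
      have h10 := ih (ψ :: L) h7
      rw [List.length_cons] at h10
      rw [show L.length + (l + 1) = L.length + 1 + l by omega]
      exact h10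
    refine (sum_le_card_nsmul _ _ _ h6).trans ?_
    have h11 : (univ \ sp L).card ≤ Fintype.card (AddChar G ℂ) := card_le_univ _
    have h12 : Fintype.card (AddChar G ℂ) = Fintype.card G := AddChar.card_eq
    rw [h12] at h11
    have h13 : ((univ \ sp L).card : ℝ) ≤ Fintype.card G := by exact_mod_cast h11
    have h14 : 0 ≤ (Fintype.card G : ℝ) ^ l *
        (Fintype.card G * (3 / 4) ^ (L.length + (l + 1))) ^ m := by positivity
    rw [nsmul_eq_mul]
    refine (mul_le_mul_of_nonneg_right h13 h14).trans (le_of_eq ?_)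
    rw [pow_succ (Fintype.card G : ℝ) l]
    ring

end main

theorem stmtLarge : StmtLarge := by
  intro G _ _ m l K t ht hK
  have hK0 : 0 ≤ K := (pow_nonneg (by norm_num : (0 : ℝ) ≤ 8) l).trans hK
  have h1 : ∀ y ∈ (univ.filter fun y : Fin m → G => K ≤ (Lam y t).card),
      (K / 2) ^ l * t ^ l ≤ t ^ l * S t y l [] * (([] : List (AddChar G ℂ)).map (gP 8 y)).prod := by
    intro y hy
    have hy' := (mem_filter.mp hy).2
    have h2 := S_lower t K y hK0 hy' l [] fun j hj => by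
      rw [List.length_nil, zero_add] at hj
      have h3 : (2 : ℝ) * 3 ^ j ≤ 8 ^ l := by
        have h4 : j + 1 ≤ l := hj
        calc (2 : ℝ) * 3 ^ j ≤ 8 * 8 ^ j := by
              have : (3 : ℝ) ^ j ≤ 8 ^ j := pow_le_pow_left₀ (by norm_num) (by norm_num) j
              have h5 : (0 : ℝ) ≤ 8 ^ j := by positivity
              linarith
          _ = 8 ^ (j + 1) := by rw [pow_succ]; ring
          _ ≤ 8 ^ l := pow_le_pow_right₀ (by norm_num) h4
      exact h3.trans hK
    rw [List.map_nil, List.prod_nil, mul_one, mul_comm]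
    exact mul_le_mul_of_nonneg_left h2 (pow_nonneg ht.le _)
  have h2 : ((univ.filter fun y : Fin m → G => K ≤ (Lam y t).card).card : ℝ) *
      ((K / 2) ^ l * t ^ l) ≤ ∑ y ∈ (univ.filter fun y : Fin m → G => K ≤ (Lam y t).card),
        t ^ l * S t y l [] * (([] : List (AddChar G ℂ)).map (gP 8 y)).prod := by
    rw [← nsmul_eq_mul]
    exact card_nsmul_le_sum _ _ _ h1
  refine h2.trans ((sum_le_sum_of_subset_of_nonneg (filter_subset _ _) fun y _ _ =>
    mul_nonneg (mul_nonneg (pow_nonneg ht.le _) (S_nonneg _ _ _ _)) (prod_gP_nonneg y _)).trans ?_)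
  have h3 := S_upper (G := G) m t ht l [] (by simp [pr])
  simpa using h3

end Vale.Agent.P160.Half.Flat.L609
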