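import Vale.Agent.P160.Half.FlatI
import Vale.Agent.P160.Half.CntA

/-! P160-HALF: `StmtLarge`. -/

open Finset

namespace Vale.Agent.P160.Half.Flat.Lrg

open Vale.Agent.P160 Vale.Agent.P160.Half.Flat

theorem cf_eq (z : ℂ) : cf 8 z = Cnt.hh z := by
  unfold cf Cnt.hh
  push_cast
  ring

theorem gP_eq {G : Type} [AddCommGroup G] [Fintype G] {m : ℕ} (y : Fin m → G) (ψ : AddChar G ℂ) :
    gP 8 y ψ = Cnt.PPi y ψ := by
  unfold gP Cnt.PPi
  exact prod_congr rfl fun e _ => cf_eq _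

theorem Lam_eq {G : Type} [AddCommGroup G] [Fintype G] [DecidableEq G] {m : ℕ} (y : Fin m → G)
    (t : ℝ) : Lam y t = Cnt.Lam y t := by
  ext ψ
  unfold Lam Cnt.Lam
  simp only [mem_filter, mem_univ, true_and, gP_eq, AddChar.one_eq_zero]

theorem stmtLarge : StmtLarge := by
  intro G _ _ m l K t ht hK
  classical
  have hK1 : (1 : ℝ) ≤ K := (one_le_pow₀ (by norm_num)).trans hK
  rcases Nat.eq_zero_or_pos l with rfl | hl
  · simp only [pow_zero, mul_one, one_mul]
    have : (univ.filter fun y : Fin m → G => K ≤ (Lam y t).card).card ≤ Fintype.card (Fin m → G) :=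
      card_le_univ _
    rw [Fintype.card_pi] at this
    simp only [prod_const, card_univ, Fintype.card_fin] at this
    exact_mod_cast this
  have h2 : (2 : ℝ) * 3 ^ l ≤ 8 ^ l := by
    obtain ⟨j, rfl⟩ := Nat.exists_eq_add_of_le' hl
    have h3 : (3 : ℝ) ^ j ≤ 8 ^ j := pow_le_pow_left₀ (by norm_num) (by norm_num) j
    have h4 : (0 : ℝ) < 3 ^ j := by positivity
    rw [pow_succ, pow_succ]
    nlinarith
  have h3 : 2 * 3 ^ l ≤ ⌈K⌉₊ := by
    have : ((2 * 3 ^ l : ℕ) : ℝ) ≤ (⌈K⌉₊ : ℝ) := by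
      push_cast
      exact h2.trans (hK.trans (Nat.le_ceil K))
    exact_mod_cast this
  have h4 := Cnt.card_tiny (G := G) (ι := Fin m) ht h3
  have h5 : (univ.filter fun y : Fin m → G => K ≤ (Lam y t).card) =
      univ.filter (fun y : Fin m → G => ⌈K⌉₊ ≤ (Cnt.Lam y t).card) := by
    ext y
    simp only [mem_filter, mem_univ, true_and, Lam_eq]
    rw [Nat.ceil_le]
  rw [h5]
  have h6 : (K / 2) ^ l * t ^ l ≤ ((⌈K⌉₊ : ℝ) * t / 2) ^ l := by
    rw [← mul_pow]
    apply pow_le_pow_left₀ (by positivity)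
    have := Nat.le_ceil K
    have h7 : K * t ≤ (⌈K⌉₊ : ℝ) * t := mul_le_mul_of_nonneg_right this ht.le
    linarith
  refine (mul_le_mul_of_nonneg_left h6 (by positivity)).trans ?_
  simpa using h4

end Vale.Agent.P160.Half.Flat.Lrg
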