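import Vale.Agent.P160.Half.FlatI

/-! P160-HALF, COUNT for a general finite abelian group: the last two asymptotic leaves
(helper986). -/

namespace Vale.Agent.P160.Half.Flat

open Finset Vale.Agent.P160

open scoped Classical in
/-- small levels -/
def StmtSmall : Prop :=
  ∀ δ A C₀ : ℝ, 0 < δ → δ ≤ 1 → 0 < A → 0 < C₀ → ∃ k₀ : ℕ, ∀ k : ℕ, k₀ ≤ k →
    ∀ (G : Type) [AddCommGroup G] [Fintype G] (m : ℕ), m ≤ k → (k : ℝ) ≤ 2 * m →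
    (∀ p : ℕ, p.Prime → p ∣ Fintype.card G → k ≤ p) →
    (Fintype.card G : ℝ) ≤ 2 ^ k →
    ∀ T : ℝ, 0 < T → T ≤ (k : ℝ) ^ C₀ → ∀ i : ℕ, (i : ℝ) ≤ A * Real.log k →
    ((univ.filter fun y : Fin m → G =>
      NonSp ((k : ℝ) ^ (1 - δ / 4)) y ∧
        (2 : ℝ) ^ i * T / ((i + 1) * (i + 2)) ≤ (Lam y ((1 / 2) ^ (i + 1))).card).card : ℝ) ≤
      (Fintype.card G : ℝ) ^ m * ((k : ℝ) ^ (-(1 / 2) + 3 * δ / 4) / max 1 T) ^ m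

open scoped Classical in
/-- big levels -/
def StmtBig : Prop :=
  ∀ c C₀ C₁ : ℝ, 0 < c → 0 < C₀ → 0 < C₁ → ∃ A : ℝ, 0 < A ∧ ∃ k₀ : ℕ, ∀ k : ℕ, k₀ ≤ k →
    ∀ (G : Type) [AddCommGroup G] [Fintype G] (m : ℕ), m ≤ k →
    (Fintype.card G : ℝ) * (3 / 4) ^ m ≤ Real.exp (-c * k) →
    ∀ T : ℝ, (k : ℝ) ^ (-C₁) ≤ T → T ≤ (k : ℝ) ^ C₀ → ∀ i : ℕ, A * Real.log k < (i : ℝ) → i ≤ m →
    ((univ.filter fun y : Fin m → G =>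
        (2 : ℝ) ^ i * T / ((i + 1) * (i + 2)) ≤ (Lam y ((1 / 2) ^ (i + 1))).card).card : ℝ) ≤
      (Fintype.card G : ℝ) ^ m * ((k : ℝ) ^ (-(1 / 2 : ℝ)) / max 1 T) ^ m

open scoped Classical in
/-- COUNT with thresholds `k^(-C₁) ≤ T ≤ k^C₀`. -/
def StmtCountG' : Prop :=
  ∀ δ c C₀ C₁ : ℝ, 0 < δ → 0 < c → 0 < C₀ → 0 < C₁ → ∃ k₀ : ℕ, ∀ k : ℕ, k₀ ≤ k →
    ∀ (G : Type) [AddCommGroup G] [Fintype G] (m : ℕ), m ≤ k → (k : ℝ) ≤ 2 * m →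
    (∀ p : ℕ, p.Prime → p ∣ Fintype.card G → k ≤ p) →
    (Fintype.card G : ℝ) * (3 / 4) ^ m ≤ Real.exp (-c * k) →
    ∀ T : ℝ, (k : ℝ) ^ (-C₁) ≤ T → T ≤ (k : ℝ) ^ C₀ →
    ((univ.filter fun y : Fin m → G =>
      NonSp ((k : ℝ) ^ (1 - δ / 4)) y ∧ 1 + T ≤ gZ 8 y).card : ℝ) ≤
      (Fintype.card G : ℝ) ^ m * ((k : ℝ) ^ (-(1 / 2) + δ) / max 1 T) ^ m

end Vale.Agent.P160.Half.Flat
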