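import Vale.Agent.P160.Half.FlatS
import Vale.Agent.P160.Half.CountB549

/-! # P160-HALF, COUNT for a general finite abelian group: the small levels (helper549). -/

namespace Vale.Agent.P160.Half.Flat.Sm

open Finset Vale.Agent.P160 Vale.Agent.P160.Half.CountB

/-- energy of a character with a large product -/
theorem energy {G : Type} [AddCommGroup G] [Fintype G] {m : ℕ} (y : Fin m → G)
    (ψ : AddChar G ℂ) (i : ℕ) (h : (1 / 2 : ℝ) ^ (i + 1) ≤ gP 8 y ψ) :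
    ∑ c, ch ψ (y c) ^ 2 ≤ 8 * (i + 1) := by
  have h0 : ∀ c, cf 8 (ψ (y c)) = 1 - ch ψ (y c) ^ 2 / 8 ∧ 0 ≤ cf 8 (ψ (y c)) := by
    intro c
    have hz : ‖ψ (y c)‖ = 1 := AddChar.norm_apply _ _
    have hz2 : (ψ (y c)).re * (ψ (y c)).re + (ψ (y c)).im * (ψ (y c)).im = 1 := by
      rw [← Complex.normSq_apply, Complex.normSq_eq_norm_sq, hz, one_pow]
    have h2 : ch ψ (y c) ^ 2 = 2 - 2 * (ψ (y c)).re := by
      unfold ch
      rw [← Complex.normSq_eq_norm_sq, Complex.normSq_apply]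
      simp only [Complex.sub_re, Complex.one_re, Complex.sub_im, Complex.one_im, sub_zero]
      linarith
    refine ⟨?_, ?_⟩
    · rw [h2]; unfold cf; push_cast; ring
    · unfold cf
      have h3 : -1 ≤ (ψ (y c)).re := by nlinarith [mul_self_nonneg (ψ (y c)).im]
      push_cast
      linarith
  have h5 : gP 8 y ψ ≤ Real.exp (-((∑ c, ch ψ (y c) ^ 2) / 8)) := by
    unfold gP
    calc ∏ e, cf 8 (ψ (y e)) ≤ ∏ e, Real.exp (-(ch ψ (y e) ^ 2 / 8)) := by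
          refine Finset.prod_le_prod (fun e _ => (h0 e).2) (fun e _ => ?_)
          rw [(h0 e).1]
          have := Real.add_one_le_exp (-(ch ψ (y e) ^ 2 / 8))
          linarith
      _ = _ := by
          rw [← Real.exp_sum, Finset.sum_neg_distrib, Finset.sum_div]
  have h6 : Real.exp (-((i : ℝ) + 1)) ≤ (1 / 2 : ℝ) ^ (i + 1) := by
    have h7 : Real.exp (-1) ≤ 1 / 2 := by
      rw [Real.exp_neg, one_div]
      have := Real.add_one_le_exp (1 : ℝ)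
      exact inv_anti₀ (by norm_num) (by linarith)
    have h8 : Real.exp (-((i : ℝ) + 1)) = Real.exp (-1) ^ (i + 1) := by
      rw [← Real.exp_nat_mul]; push_cast; congr 1; ring
    rw [h8]
    exact pow_le_pow_left₀ (Real.exp_pos _).le h7 _
  have h9 := (h6.trans h).trans h5
  have h10 := Real.exp_le_exp.1 h9
  linarith

/-- the asymptotic conditions -/
theorem params (δ A C₀ L c₁ : ℝ) (hδ : 0 < δ) (hδ1 : δ ≤ 1) (hL : 0 < L) :
    ∀ᶠ x : ℝ in Filter.atTop, 1 ≤ x ∧ 9 * x ^ (δ / 16) ≤ x ∧ 54 * L ≤ x ^ (1 / 2 - δ / 4) ∧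
      c₁ ≤ x ^ (1 / 2 - 3 * δ / 8) ∧ 8 * L * (A * Real.log x + 1) + 1 < x ^ (δ / 8) ∧
      2 ≤ x ^ (δ / 4) ∧ (2 * C₀ + 1) * Real.log x ≤ x ^ (δ / 4) ∧
      4 ^ L * 2 * c₁ * Real.exp 1 ≤ x ^ (3 * δ / 8) := by
  have hge : ∀ s : ℝ, 0 < s → ∀ b : ℝ, ∀ᶠ x : ℝ in Filter.atTop, b ≤ x ^ s := fun s hs b =>
    (tendsto_rpow_atTop hs).eventually_ge_atTop b
  have hlog : ∀ s : ℝ, 0 < s → ∀ b : ℝ, 0 < b → ∀ᶠ x : ℝ in Filter.atTop,
      |Real.log x| ≤ b * x ^ s := by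
    intro s hs b hb
    filter_upwards [(isLittleO_log_rpow_atTop hs).bound hb, Filter.eventually_gt_atTop 0] with x hx h0
    rwa [Real.norm_eq_abs, Real.norm_eq_abs, abs_of_pos (Real.rpow_pos_of_pos h0 s)] at hx
  have hb1 : 0 < 1 / (2 * (8 * L * (|A| + 1))) := by positivity
  have hb2 : 0 < 1 / (|2 * C₀ + 1| + 1) := by positivity
  filter_upwards [Filter.eventually_ge_atTop 1, hge (1 - δ / 16) (by linarith) 9,
    hge (1 / 2 - δ / 4) (by linarith) (54 * L), hge (1 / 2 - 3 * δ / 8) (by linarith) c₁,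
    hlog (δ / 8) (by linarith) _ hb1, hge (δ / 8) (by linarith) (4 * (8 * L + 1)),
    hge (δ / 4) (by linarith) 2, hlog (δ / 4) (by linarith) _ hb2,
    hge (3 * δ / 8) (by linarith) (4 ^ L * 2 * c₁ * Real.exp 1)]
    with x h1 h2 h3 h4 h5 h6 h7 h8 h9
  have hx0 : 0 < x := by linarith
  refine ⟨h1, ?_, h3, h4, ?_, h7, ?_, h9⟩
  · have e1 : x = x ^ (1 - δ / 16) * x ^ (δ / 16) := by
      rw [← Real.rpow_add hx0]; norm_num
    have e2 : 0 < x ^ (δ / 16) := Real.rpow_pos_of_pos hx0 _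
    calc 9 * x ^ (δ / 16) ≤ x ^ (1 - δ / 16) * x ^ (δ / 16) := by nlinarith
      _ = x := e1.symm
  · have hl0 : 0 ≤ Real.log x := Real.log_nonneg h1
    rw [abs_of_nonneg hl0] at h5
    have e3 : 8 * L * (|A| + 1) * Real.log x ≤ x ^ (δ / 8) / 2 := by
      have e4 : 8 * L * (|A| + 1) * Real.log x ≤
          8 * L * (|A| + 1) * (1 / (2 * (8 * L * (|A| + 1))) * x ^ (δ / 8)) :=
        mul_le_mul_of_nonneg_left h5 (by positivity)
      have e5 : 8 * L * (|A| + 1) * (1 / (2 * (8 * L * (|A| + 1))) * x ^ (δ / 8)) =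
          x ^ (δ / 8) / 2 := by
        field_simp
      linarith
    have e6 : A * Real.log x ≤ (|A| + 1) * Real.log x :=
      mul_le_mul_of_nonneg_right (by linarith [le_abs_self A]) hl0
    have e7 : 8 * L * (A * Real.log x) ≤ 8 * L * (|A| + 1) * Real.log x := by
      rw [mul_assoc (8 * L)]
      exact mul_le_mul_of_nonneg_left e6 (by positivity)
    nlinarith
  · have hl0 : 0 ≤ Real.log x := Real.log_nonneg h1
    rw [abs_of_nonneg hl0] at h8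
    have e4 : (|2 * C₀ + 1| + 1) * Real.log x ≤
        (|2 * C₀ + 1| + 1) * (1 / (|2 * C₀ + 1| + 1) * x ^ (δ / 4)) :=
      mul_le_mul_of_nonneg_left h8 (by positivity)
    have e5 : (|2 * C₀ + 1| + 1) * (1 / (|2 * C₀ + 1| + 1) * x ^ (δ / 4)) = x ^ (δ / 4) := by
      field_simp
    have e6 : (2 * C₀ + 1) * Real.log x ≤ (|2 * C₀ + 1| + 1) * Real.log x :=
      mul_le_mul_of_nonneg_right (by linarith [le_abs_self (2 * C₀ + 1)]) hl0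
    linarith

theorem three_pow (i : ℕ) : ((i : ℝ) + 1) * (i + 2) ≤ 3 * 2 ^ i := by
  induction i with
  | zero => norm_num
  | succ i ih =>
    rcases Nat.eq_zero_or_pos i with h | h
    · subst h; norm_num
    · have h1 : (1 : ℝ) ≤ i := by exact_mod_cast h
      push_cast
      rw [pow_succ]
      nlinarith

/-- the final numerical comparison -/
theorem final {δ C₀ x Mx Gc c₁ : ℝ} {L m E k : ℕ} (hx1 : 1 ≤ x) (hδ : 0 < δ) (hC : 0 < C₀)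
    (hMx : 1 ≤ Mx) (hMC : Mx ≤ x ^ C₀) (hG1 : 1 ≤ Gc) (hG : Gc ≤ 2 ^ k) (hkm : k ≤ 2 * m)
    (hxk : x = k) (hc₁ : 1 ≤ c₁) (hEm : E ≤ m) (hEx : (E : ℝ) ≤ x ^ (1 - δ / 4))
    (h7 : (2 * C₀ + 1) * Real.log x ≤ x ^ (δ / 4))
    (h8 : (4 : ℝ) ^ (L : ℝ) * 2 * c₁ * Real.exp 1 ≤ x ^ (3 * δ / 8)) :
    Gc ^ L * (2 ^ m * (Gc ^ E * (c₁ * x ^ (-(1 / 2) + 3 * δ / 8) / Mx * Gc) ^ (m - E))) ≤
      Gc ^ m * (x ^ (-(1 / 2) + 3 * δ / 4) / Mx) ^ m := by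
  have hx0 : 0 < x := by linarith
  have hM0 : 0 < Mx := by linarith
  have hG0 : 0 < Gc := by linarith
  obtain ⟨u, hu⟩ : ∃ u : ℝ, u = c₁ * x ^ (-(1 / 2) + 3 * δ / 8) / Mx := ⟨_, rfl⟩
  obtain ⟨v, hv⟩ : ∃ v : ℝ, v = x ^ (-(1 / 2) + 3 * δ / 4) / Mx := ⟨_, rfl⟩
  rw [← hu, ← hv]
  have hu0 : 0 < u := by rw [hu]; positivity
  have hv0 : 0 < v := by rw [hv]; positivity
  have huv : u = c₁ * x ^ (-(3 * δ / 8)) * v := by
    rw [hu, hv]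
    have : x ^ (-(1 / 2) + 3 * δ / 8) = x ^ (-(3 * δ / 8)) * x ^ (-(1 / 2) + 3 * δ / 4) := by
      rw [← Real.rpow_add hx0]; congr 1; ring
    rw [this]; ring
  -- u x^(C0+1/2) >= 1
  have hux : 1 ≤ u * x ^ (C₀ + 1 / 2) := by
    have e1 : u * x ^ (C₀ + 1 / 2) = c₁ * x ^ (3 * δ / 8) * (x ^ C₀ / Mx) := by
      rw [hu]
      have : x ^ (-(1 / 2) + 3 * δ / 8) * x ^ (C₀ + 1 / 2) = x ^ (3 * δ / 8) * x ^ C₀ := by
        rw [← Real.rpow_add hx0, ← Real.rpow_add hx0]; congr 1; ring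
      calc c₁ * x ^ (-(1 / 2) + 3 * δ / 8) / Mx * x ^ (C₀ + 1 / 2)
          = c₁ * (x ^ (-(1 / 2) + 3 * δ / 8) * x ^ (C₀ + 1 / 2)) / Mx := by ring
        _ = _ := by rw [this]; ring
    rw [e1]
    have e2 : 1 ≤ x ^ (3 * δ / 8) := Real.one_le_rpow hx1 (by positivity)
    have e3 : 1 ≤ x ^ C₀ / Mx := by rw [le_div_iff₀ hM0]; linarith
    have e4 : 1 ≤ c₁ * x ^ (3 * δ / 8) := by nlinarith
    nlinarith
  have hpow : u ^ (m - E) ≤ u ^ m * Real.exp m := by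
    have e1 : 1 ≤ (u * x ^ (C₀ + 1 / 2)) ^ E := one_le_pow₀ hux
    have e2 : u ^ (m - E) * (u * x ^ (C₀ + 1 / 2)) ^ E = u ^ m * (x ^ (C₀ + 1 / 2)) ^ E := by
      rw [mul_pow, ← mul_assoc, ← pow_add, Nat.sub_add_cancel hEm]
    have e3 : (x ^ (C₀ + 1 / 2)) ^ E ≤ Real.exp m := by
      have e4 : (x ^ (C₀ + 1 / 2)) ^ E = Real.exp ((C₀ + 1 / 2) * Real.log x * E) := by
        rw [Real.rpow_def_of_pos hx0, ← Real.exp_nat_mul]; congr 1; ring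
      rw [e4]
      apply Real.exp_le_exp.2
      have hl0 : 0 ≤ Real.log x := Real.log_nonneg hx1
      have e5 : (C₀ + 1 / 2) * Real.log x * E ≤ (C₀ + 1 / 2) * Real.log x * x ^ (1 - δ / 4) :=
        mul_le_mul_of_nonneg_left hEx (by positivity)
      have e6 : x ^ (1 - δ / 4) * x ^ (δ / 4) = x := by
        rw [← Real.rpow_add hx0]; norm_num
      have e7 : 0 < x ^ (1 - δ / 4) := Real.rpow_pos_of_pos hx0 _
      have e8 : (2 * C₀ + 1) * Real.log x * x ^ (1 - δ / 4) ≤ x := by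
        calc (2 * C₀ + 1) * Real.log x * x ^ (1 - δ / 4) ≤ x ^ (δ / 4) * x ^ (1 - δ / 4) :=
              mul_le_mul_of_nonneg_right h7 e7.le
          _ = x := by rw [mul_comm]; exact e6
      have e9 : x ≤ 2 * m := by rw [hxk]; exact_mod_cast hkm
      nlinarith
    calc u ^ (m - E) ≤ u ^ (m - E) * (u * x ^ (C₀ + 1 / 2)) ^ E :=
          le_mul_of_one_le_right (by positivity) e1
      _ = u ^ m * (x ^ (C₀ + 1 / 2)) ^ E := e2
      _ ≤ _ := mul_le_mul_of_nonneg_left e3 (by positivity)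
  have hGL : Gc ^ L ≤ ((4 : ℝ) ^ L) ^ m := by
    calc Gc ^ L ≤ (2 ^ k) ^ L := pow_le_pow_left₀ hG0.le hG _
      _ ≤ (2 ^ (2 * m)) ^ L := by
          refine pow_le_pow_left₀ (by positivity) ?_ _
          exact pow_le_pow_right₀ (by norm_num) hkm
      _ = ((4 : ℝ) ^ L) ^ m := by
          have h4 : (4 : ℝ) = 2 ^ 2 := by norm_num
          rw [h4, ← pow_mul, ← pow_mul, ← pow_mul]
          congr 1
          ring
  have hexp : Real.exp m = Real.exp 1 ^ m := by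
    rw [← Real.exp_nat_mul, mul_one]
  have h8' : (4 : ℝ) ^ L * 2 * Real.exp 1 * (c₁ * x ^ (-(3 * δ / 8))) ≤ 1 := by
    rw [Real.rpow_natCast] at h8
    have e1 : 0 < x ^ (3 * δ / 8) := Real.rpow_pos_of_pos hx0 _
    rw [Real.rpow_neg hx0.le]
    have e2 : (4 : ℝ) ^ L * 2 * Real.exp 1 * (c₁ * (x ^ (3 * δ / 8))⁻¹) =
        ((4 : ℝ) ^ L * 2 * c₁ * Real.exp 1) / x ^ (3 * δ / 8) := by
      rw [div_eq_mul_inv]; ring
    rw [e2, div_le_one e1]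
    exact h8
  calc Gc ^ L * (2 ^ m * (Gc ^ E * (u * Gc) ^ (m - E)))
      = Gc ^ L * (2 ^ m * (Gc ^ m * u ^ (m - E))) := by
        have : Gc ^ E * (u * Gc) ^ (m - E) = Gc ^ m * u ^ (m - E) := by
          rw [mul_pow, mul_comm (u ^ (m - E)), ← mul_assoc, ← pow_add, Nat.add_sub_cancel' hEm]
        rw [this]
    _ ≤ ((4 : ℝ) ^ L) ^ m * (2 ^ m * (Gc ^ m * (u ^ m * Real.exp m))) := by
        gcongr
    _ = Gc ^ m * (((4 : ℝ) ^ L * 2 * Real.exp 1 * (c₁ * x ^ (-(3 * δ / 8)))) ^ m * v ^ m) := by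
        rw [huv, hexp]
        simp only [mul_pow]
        ring
    _ ≤ Gc ^ m * (1 * v ^ m) := by
        have e0 : 0 ≤ (4 : ℝ) ^ L * 2 * Real.exp 1 * (c₁ * x ^ (-(3 * δ / 8))) := by positivity
        have e1 := pow_le_one₀ (n := m) e0 h8'
        gcongr
    _ = Gc ^ m * v ^ m := by rw [one_mul]

/-- parameters, first part -/
theorem numJ {δ x : ℝ} {L : ℕ} (k : ℕ) (hx1 : 1 ≤ x) (hδ : 0 < δ) (hL1 : 1 ≤ L) (hxk : x = k)
    (hx2 : 9 * x ^ (δ / 16) ≤ x) (hx3 : 54 * (L : ℝ) ≤ x ^ (1 / 2 - δ / 4)) :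
    ∃ J0 J : ℕ, 1 ≤ J0 ∧ 8 ≤ x ^ (-(δ / 16)) * J0 ∧ J0 ≤ k ∧ 1 ≤ J ∧
      3 * (J : ℝ) * (L * x ^ (-(1 / 2) + 3 * δ / 16)) ≤ 1 / J0 ∧
      x ^ (1 / 2 - δ / 4) / (27 * L) / 2 ≤ J := by
  have hx0 : 0 < x := by linarith
  have hL0 : (1 : ℝ) ≤ L := by exact_mod_cast hL1
  obtain ⟨q, hq⟩ : ∃ q : ℝ, q = x ^ (δ / 16) := ⟨_, rfl⟩
  have hq1 : 1 ≤ q := by rw [hq]; exact Real.one_le_rpow hx1 (by positivity)
  have hβq : x ^ (-(δ / 16)) * q = 1 := by rw [hq, ← Real.rpow_add hx0]; norm_num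
  have hβ0 : 0 < x ^ (-(δ / 16)) := Real.rpow_pos_of_pos hx0 _
  obtain ⟨J0, hJ0⟩ : ∃ J0 : ℕ, J0 = ⌈8 * q⌉₊ := ⟨_, rfl⟩
  have hJ0a : 8 * q ≤ J0 := by rw [hJ0]; exact Nat.le_ceil _
  have hJ0b : (J0 : ℝ) ≤ 9 * q := by
    have := Nat.ceil_lt_add_one (show 0 ≤ 8 * q by linarith)
    rw [← hJ0] at this
    linarith
  have hJ0pos : (0 : ℝ) < J0 := by linarith
  have hJ01 : 1 ≤ J0 := by
    have h1 : (1 : ℝ) ≤ J0 := by linarith
    exact_mod_cast h1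
  have hJ0k : J0 ≤ k := by
    have h1 : (J0 : ℝ) ≤ k := by
      rw [← hxk]
      rw [← hq] at hx2
      linarith
    exact_mod_cast h1
  obtain ⟨ρ, hρ⟩ : ∃ ρ : ℝ, ρ = x ^ (-(1 / 2) + 3 * δ / 16) := ⟨_, rfl⟩
  have hρ0 : 0 < ρ := by rw [hρ]; positivity
  obtain ⟨J, hJ⟩ : ∃ J : ℕ, J = ⌊(1 / (J0 : ℝ)) / (3 * L * ρ)⌋₊ := ⟨_, rfl⟩
  have hJnn : 0 ≤ (1 / (J0 : ℝ)) / (3 * L * ρ) := by positivity
  have hJa : (J : ℝ) ≤ (1 / (J0 : ℝ)) / (3 * L * ρ) := by rw [hJ]; exact Nat.floor_le hJnn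
  have hJb : (1 / (J0 : ℝ)) / (3 * L * ρ) < J + 1 := by rw [hJ]; exact Nat.lt_floor_add_one _
  obtain ⟨w, hw⟩ : ∃ w : ℝ, w = x ^ (1 / 2 - δ / 4) / (27 * L) := ⟨_, rfl⟩
  have hw2 : 2 ≤ w := by
    rw [hw, le_div_iff₀ (by positivity)]; linarith
  have hwJ : w ≤ (1 / (J0 : ℝ)) / (3 * L * ρ) := by
    have e1 : 1 / (9 * q) ≤ 1 / (J0 : ℝ) := one_div_le_one_div_of_le hJ0pos hJ0b
    have e2 : w = (1 / (9 * q)) / (3 * L * ρ) := by
      rw [hw]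
      have e3 : x ^ (1 / 2 - δ / 4) * (q * ρ) = 1 := by
        rw [hq, hρ, ← Real.rpow_add hx0, ← Real.rpow_add hx0]
        have : 1 / 2 - δ / 4 + (δ / 16 + (-(1 / 2) + 3 * δ / 16)) = 0 := by ring
        rw [this, Real.rpow_zero]
      rw [div_div, div_eq_div_iff (by positivity) (by positivity)]
      linear_combination (27 * (L : ℝ)) * e3
    rw [e2]
    gcongr
  have hJw : w / 2 ≤ J := by linarith
  have hJ1 : 1 ≤ J := by
    have h1 : (1 : ℝ) ≤ J := by linarith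
    exact_mod_cast h1
  refine ⟨J0, J, hJ01, ?_, hJ0k, hJ1, ?_, ?_⟩
  · nlinarith
  · rw [← hρ]
    rw [le_div_iff₀ (by positivity)] at hJa
    linarith
  · rw [← hw]; exact hJw

/-- parameters, second part -/
theorem numE {δ A x : ℝ} {L m : ℕ} (hx1 : 1 ≤ x) (hδ1 : δ ≤ 1) (hA : 0 < A)
    (hkm : x ≤ 2 * m) (hx5 : 8 * L * (A * Real.log x + 1) + 1 < x ^ (δ / 8))
    (hx6 : 2 ≤ x ^ (δ / 4)) :
    ∃ E : ℕ, (L : ℝ) * (8 * (A * Real.log x + 1) / (x ^ (-(1 / 2) + 3 * δ / 16)) ^ 2) ≤ E ∧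
      (E : ℝ) < x ^ (1 - δ / 4) ∧ E ≤ m := by
  have hx0 : 0 < x := by linarith
  have hl0 : 0 ≤ Real.log x := Real.log_nonneg hx1
  obtain ⟨ρ, hρ⟩ : ∃ ρ : ℝ, ρ = x ^ (-(1 / 2) + 3 * δ / 16) := ⟨_, rfl⟩
  have hρ0 : 0 < ρ := by rw [hρ]; positivity
  rw [← hρ]
  obtain ⟨τ, hτ⟩ : ∃ τ : ℝ, τ = 8 * (A * Real.log x + 1) := ⟨_, rfl⟩
  have hτ0 : 0 ≤ τ := by rw [hτ]; positivity
  rw [← hτ]
  have hEb := Nat.ceil_lt_add_one (show 0 ≤ (L : ℝ) * (τ / ρ ^ 2) by positivity)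
  have hρ2 : ρ ^ 2 * x ^ (1 - 3 * δ / 8) = 1 := by
    rw [hρ, ← Real.rpow_natCast, ← Real.rpow_mul hx0.le, ← Real.rpow_add hx0]
    have : (-(1 / 2) + 3 * δ / 16) * ((2 : ℕ) : ℝ) + (1 - 3 * δ / 8) = 0 := by push_cast; ring
    rw [this, Real.rpow_zero]
  have hEx : ((⌈(L : ℝ) * (τ / ρ ^ 2)⌉₊ : ℕ) : ℝ) < x ^ (1 - δ / 4) := by
    have e1 : (L : ℝ) * (τ / ρ ^ 2) = 8 * L * (A * Real.log x + 1) * x ^ (1 - 3 * δ / 8) := by
      have hρp : ρ ^ 2 ≠ 0 := by positivity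
      have e2 : τ / ρ ^ 2 = τ * x ^ (1 - 3 * δ / 8) := by
        rw [div_eq_iff hρp, mul_assoc, mul_comm (x ^ (1 - 3 * δ / 8)), hρ2, mul_one]
      rw [e2, hτ]; ring
    have e3 : 1 ≤ x ^ (1 - 3 * δ / 8) := Real.one_le_rpow hx1 (by linarith)
    have e4 : x ^ (1 - δ / 4) = x ^ (δ / 8) * x ^ (1 - 3 * δ / 8) := by
      rw [← Real.rpow_add hx0]; congr 1; ring
    rw [e4]
    have e5 : (8 * L * (A * Real.log x + 1) + 1) * x ^ (1 - 3 * δ / 8) <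
        x ^ (δ / 8) * x ^ (1 - 3 * δ / 8) :=
      mul_lt_mul_of_pos_right hx5 (by linarith)
    linarith
  refine ⟨⌈(L : ℝ) * (τ / ρ ^ 2)⌉₊, Nat.le_ceil _, hEx, ?_⟩
  have e1 : x ^ (1 - δ / 4) * x ^ (δ / 4) = x := by rw [← Real.rpow_add hx0]; norm_num
  have e2 : 0 < x ^ (1 - δ / 4) := Real.rpow_pos_of_pos hx0 _
  have e2' : x ^ (1 - δ / 4) * 2 ≤ x ^ (1 - δ / 4) * x ^ (δ / 4) :=
    mul_le_mul_of_nonneg_left hx6 e2.le
  have e3 : ((⌈(L : ℝ) * (τ / ρ ^ 2)⌉₊ : ℕ) : ℝ) ≤ m := by linarith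
  exact_mod_cast e3

/-- parameters, third part -/
theorem numU {δ C₀ x Mx Gc : ℝ} {L J : ℕ} (hx1 : 1 ≤ x) (hL1 : 1 ≤ L)
    (hLδ : 16 * C₀ ≤ δ * L) (hMx : 1 ≤ Mx) (hMC : Mx ≤ x ^ C₀) (hG1 : 1 ≤ Gc) (hδ : 0 < δ)
    (hx4 : 41472 * (L : ℝ) ≤ x ^ (1 / 2 - 3 * δ / 8))
    (hJw : x ^ (1 / 2 - δ / 4) / (27 * L) / 2 ≤ J) :
    max ((x ^ (-(δ / 16))) ^ L) (256 / ((x ^ (-(δ / 16))) ^ 2 * (Mx / 3))) * Gc ≤
        J * (41472 * L * x ^ (-(1 / 2) + 3 * δ / 8) / Mx * Gc) ∧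
      41472 * L * x ^ (-(1 / 2) + 3 * δ / 8) / Mx * Gc ≤ Gc := by
  have hx0 : 0 < x := by linarith
  have hL0 : (1 : ℝ) ≤ L := by exact_mod_cast hL1
  have hM0 : 0 < Mx := by linarith
  obtain ⟨β, hβ⟩ : ∃ β : ℝ, β = x ^ (-(δ / 16)) := ⟨_, rfl⟩
  obtain ⟨q, hq⟩ : ∃ q : ℝ, q = x ^ (δ / 16) := ⟨_, rfl⟩
  have hq1 : 1 ≤ q := by rw [hq]; exact Real.one_le_rpow hx1 (by positivity)
  have hβ0 : 0 < β := by rw [hβ]; positivity
  have hβq : β * q = 1 := by rw [hβ, hq, ← Real.rpow_add hx0]; norm_num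
  have hmax : max (β ^ L) (256 / (β ^ 2 * (Mx / 3))) ≤ 768 * q ^ 2 / Mx := by
    apply max_le
    · have e1 : β ^ L ≤ x ^ (-C₀) := by
        rw [hβ, ← Real.rpow_natCast, ← Real.rpow_mul hx0.le]
        apply Real.rpow_le_rpow_of_exponent_le hx1
        nlinarith
      have e2 : x ^ (-C₀) ≤ 1 / Mx := by
        rw [Real.rpow_neg hx0.le, one_div]
        exact inv_anti₀ hM0 hMC
      refine (e1.trans e2).trans ?_
      gcongr
      nlinarith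
    · have e3 : 256 / (β ^ 2 * (Mx / 3)) = 768 * q ^ 2 / Mx := by
        rw [div_eq_div_iff (by positivity) (by positivity)]
        have : β ^ 2 * q ^ 2 = 1 := by rw [← mul_pow, hβq, one_pow]
        linear_combination (-256 * Mx) * this
      rw [e3]
  rw [← hβ]
  have hZ0 : 0 < x ^ (-(1 / 2) + 3 * δ / 8) := Real.rpow_pos_of_pos hx0 _
  refine ⟨?_, ?_⟩
  · have e1 : 768 * q ^ 2 / Mx * Gc = (x ^ (1 / 2 - δ / 4) / (27 * L) / 2) *
        (41472 * L * x ^ (-(1 / 2) + 3 * δ / 8) / Mx * Gc) := by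
      have e2 : x ^ (1 / 2 - δ / 4) * x ^ (-(1 / 2) + 3 * δ / 8) = q ^ 2 := by
        rw [hq, ← Real.rpow_add hx0, ← Real.rpow_natCast (x ^ (δ / 16)), ← Real.rpow_mul hx0.le]
        congr 1; push_cast; ring
      rw [← e2]
      have hLp : (L : ℝ) ≠ 0 := by positivity
      generalize x ^ (1 / 2 - δ / 4) = Z1
      generalize x ^ (-(1 / 2) + 3 * δ / 8) = Z2
      field_simp
      ring
    calc max (β ^ L) (256 / (β ^ 2 * (Mx / 3))) * Gc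
        ≤ 768 * q ^ 2 / Mx * Gc := by gcongr
      _ = _ := e1
      _ ≤ _ := mul_le_mul_of_nonneg_right hJw (by positivity)
  · have e1 : 41472 * L * x ^ (-(1 / 2) + 3 * δ / 8) / Mx ≤ 1 := by
      rw [div_le_one hM0]
      refine le_trans ?_ hMx
      have e2 : x ^ (1 / 2 - 3 * δ / 8) * x ^ (-(1 / 2) + 3 * δ / 8) = 1 := by
        rw [← Real.rpow_add hx0]
        have : 1 / 2 - 3 * δ / 8 + (-(1 / 2) + 3 * δ / 8) = 0 := by ring
        rw [this, Real.rpow_zero]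
      calc 41472 * L * x ^ (-(1 / 2) + 3 * δ / 8)
          ≤ x ^ (1 / 2 - 3 * δ / 8) * x ^ (-(1 / 2) + 3 * δ / 8) :=
            mul_le_mul_of_nonneg_right hx4 hZ0.le
        _ = 1 := e2
    calc 41472 * L * x ^ (-(1 / 2) + 3 * δ / 8) / Mx * Gc
        ≤ 1 * Gc := mul_le_mul_of_nonneg_right e1 (by linarith)
      _ = Gc := one_mul _

open scoped Classical in
/-- membership -/
theorem sub {G : Type} [AddCommGroup G] [Fintype G] {m E i : ℕ} {x δ A T Mx : ℝ}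
    (hT : 0 < T) (hMx : Mx = max 1 T) (hEx : (E : ℝ) < x ^ (1 - δ / 4))
    (hi : (i : ℝ) ≤ A * Real.log x) :
    (univ.filter fun y : Fin m → G =>
      NonSp (x ^ (1 - δ / 4)) y ∧
        (2 : ℝ) ^ i * T / ((i + 1) * (i + 2)) ≤ (Lam y ((1 / 2) ^ (i + 1))).card) ⊆
      (univ.filter fun y : Fin m → G => NS E y ∧ Str (Mx / 3) (8 * (A * Real.log x + 1)) y) := by
  intro y hy
  simp only [Finset.mem_filter, Finset.mem_univ, true_and] at hy ⊢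
  obtain ⟨hy1, hy2⟩ := hy
  refine ⟨?_, ?_⟩
  · intro s hs0
    have h1 := hy1 s (by rw [AddChar.one_eq_zero]; exact hs0)
    have h2 : (E : ℝ) < ((univ.filter fun c => s (y c) ≠ 1).card : ℝ) := by
      convert hEx.trans_le h1
    exact_mod_cast h2
  · refine ⟨Lam y ((1 / 2) ^ (i + 1)), ?_, ?_⟩
    · have hpos : 0 < (2 : ℝ) ^ i * T / ((i + 1) * (i + 2)) := by positivity
      have h1 : (1 : ℝ) ≤ (Lam y ((1 / 2) ^ (i + 1))).card := by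
        have h2 : (0 : ℝ) < (Lam y ((1 / 2) ^ (i + 1))).card := hpos.trans_le hy2
        have h3 : 0 < (Lam y ((1 / 2) ^ (i + 1))).card := by exact_mod_cast h2
        exact_mod_cast h3
      have h4 : T / 3 ≤ (2 : ℝ) ^ i * T / ((i + 1) * (i + 2)) := by
        rw [div_le_div_iff₀ (by norm_num) (by positivity)]
        have := three_pow i
        nlinarith
      rw [hMx]
      rcases max_choice 1 T with h | h
      · rw [h]; linarith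
      · rw [h]; linarith
    · intro s hs'
      have hs2 : s ≠ 1 ∧ (1 / 2 : ℝ) ^ (i + 1) ≤ gP 8 y s := by
        unfold Lam at hs'
        simpa using hs'
      refine ⟨by rw [← AddChar.one_eq_zero]; exact hs2.1, ?_⟩
      refine (energy y s i hs2.2).trans ?_
      linarith

theorem stmtSmall (hs : StmtSplit) : StmtSmall := by
  classical
  intro δ A C₀ hδ hδ1 hA hC
  obtain ⟨L, hL1, hLδ⟩ : ∃ L : ℕ, 1 ≤ L ∧ 16 * C₀ ≤ δ * L := by
    refine ⟨⌈16 * C₀ / δ⌉₊ + 1, by omega, ?_⟩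
    have h1 : 16 * C₀ / δ ≤ ⌈16 * C₀ / δ⌉₊ := Nat.le_ceil _
    rw [div_le_iff₀ hδ] at h1
    push_cast
    nlinarith
  have hL0 : (1 : ℝ) ≤ L := by exact_mod_cast hL1
  obtain ⟨k₀, hk₀⟩ := Filter.eventually_atTop.1 (tendsto_natCast_atTop_atTop.eventually
    (params δ A C₀ L (41472 * L) hδ hδ1 (by linarith)))
  refine ⟨k₀, fun k hk G _ _ m hmk hkm hp hG T hT hTC i hi => ?_⟩
  obtain ⟨hx1, hx2, hx3, hx4, hx5, hx6, hx7, hx8⟩ := hk₀ k hk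
  obtain ⟨x, hxk⟩ : ∃ x : ℝ, x = (k : ℝ) := ⟨_, rfl⟩
  rw [← hxk] at hx1 hx2 hx3 hx4 hx5 hx6 hx7 hx8 hi hTC hkm ⊢
  have hx0 : 0 < x := by linarith
  obtain ⟨Mx, hMx⟩ : ∃ M : ℝ, M = max 1 T := ⟨_, rfl⟩
  have hM1 : 1 ≤ Mx := by rw [hMx]; exact le_max_left _ _
  have hMC : Mx ≤ x ^ C₀ := by
    rw [hMx]; exact max_le (Real.one_le_rpow hx1 hC.le) hTC
  have hG1 : (1 : ℝ) ≤ Fintype.card G := by exact_mod_cast Fintype.card_pos
  obtain ⟨J0, J, hJ01, hJ0β, hJ0k, hJ1, hJc, hJw⟩ := numJ k hx1 hδ hL1 hxk hx2 hx3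
  obtain ⟨E, hEa, hEx, hEm⟩ := numE hx1 hδ1 hA hkm hx5 hx6
  obtain ⟨hJU, hUG⟩ := numU (Gc := (Fintype.card G : ℝ)) hx1 hL1 hLδ hM1 hMC hG1 hδ hx4 hJw
  have hF : Fej G (x ^ (-(δ / 16))) (1 / (J0 : ℝ)) := by
    intro Lam' B hB
    exact hs G Lam' B J0 _ hJ0β (fun p hp1 hp2 => hJ0k.trans (hp p hp1 hp2)) hB
  have hD : (1 : ℝ) / J0 ≤ 1 := by
    have h1 : (1 : ℝ) ≤ J0 := by exact_mod_cast hJ01
    rw [div_le_one (by linarith)]; exact h1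
  have hcount := countB (Γ := G) (m := m) (K := Mx / 3) hL1 hEm hJ1
    (Real.rpow_pos_of_pos hx0 (-(δ / 16))) (Real.rpow_pos_of_pos hx0 _) hD (by linarith) hF hJc
    hEa hJU hUG
  have hsub := sub (G := G) (m := m) (i := i) hT hMx hEx hi
  have hmono := Finset.card_le_card hsub
  have hkm' : k ≤ 2 * m := by
    rw [hxk] at hkm
    exact_mod_cast hkm
  have hfin := final (L := L) (m := m) (E := E) (k := k)
    (c₁ := 41472 * L) hx1 hδ hC hM1 hMC hG1 hG hkm' hxk (by linarith) hEm hEx.le hx7 hx8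
  rw [← hMx]
  refine le_trans ?_ (hcount.trans hfin)
  exact_mod_cast hmono

end Vale.Agent.P160.Half.Flat.Sm
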