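import Vale.Agent.P160.Half.FlatSm
import Vale.Agent.P160.Basic

/-! # P160-HALF, COUNT for `cf M`, `4 ≤ M ≤ 8`: small levels and the dyadic leaf (helper549). -/

namespace Vale.Agent.P160.Half.Flat.SmM

open Finset Vale.Agent.P160 Vale.Agent.P160.Half.CountB Vale.Agent.P160.Half.Flat.Sm

section defs

variable {G : Type} [AddCommGroup G] [Fintype G]

/-- nontrivial characters with product at least `t`, for `cf M` -/
noncomputable def LamM {m : ℕ} (M : ℕ) (y : Fin m → G) (t : ℝ) : Finset (AddChar G ℂ) := by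
  classical exact univ.filter fun ψ => ψ ≠ 1 ∧ t ≤ gP M y ψ

end defs

open scoped Classical in
/-- small levels for `cf M` -/
def StmtSmallM (M : ℕ) : Prop :=
  ∀ δ A C₀ : ℝ, 0 < δ → δ ≤ 1 → 0 < A → 0 < C₀ → ∃ k₀ : ℕ, ∀ k : ℕ, k₀ ≤ k →
    ∀ (G : Type) [AddCommGroup G] [Fintype G] (m : ℕ), m ≤ k → (k : ℝ) ≤ 2 * m →
    (∀ p : ℕ, p.Prime → p ∣ Fintype.card G → k ≤ p) →
    (Fintype.card G : ℝ) ≤ 2 ^ k →
    ∀ T : ℝ, 0 < T → T ≤ (k : ℝ) ^ C₀ → ∀ i : ℕ, (i : ℝ) ≤ A * Real.log k →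
    ((univ.filter fun y : Fin m → G =>
      NonSp ((k : ℝ) ^ (1 - δ / 4)) y ∧
        (2 : ℝ) ^ i * T / ((i + 1) * (i + 2)) ≤ (LamM M y ((1 / 2) ^ (i + 1))).card).card : ℝ) ≤
      (Fintype.card G : ℝ) ^ m * ((k : ℝ) ^ (-(1 / 2) + 3 * δ / 4) / max 1 T) ^ m

/-- the dyadic leaf for `cf M`: the product may vanish, levels up to `log (4 |G| / T)` -/
def StmtDyadicM (M : ℕ) : Prop :=
  ∀ (G : Type) [AddCommGroup G] [Fintype G] (m : ℕ) (y : Fin m → G) (T : ℝ), 0 < T →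
    1 + T ≤ gZ M y → ∃ i : ℕ, (2 : ℝ) ^ i ≤ 4 * Fintype.card G / T ∧
      (2 : ℝ) ^ i * (T / 2) / ((i + 1) * (i + 2)) ≤ (LamM M y ((1 / 2) ^ (i + 1))).card

/-- energy of a character with a large product -/
theorem energyM {G : Type} [AddCommGroup G] [Fintype G] {m M : ℕ} (hM : 4 ≤ M) (y : Fin m → G)
    (ψ : AddChar G ℂ) (i : ℕ) (h : (1 / 2 : ℝ) ^ (i + 1) ≤ gP M y ψ) :
    ∑ c, ch ψ (y c) ^ 2 ≤ M * (i + 1) := by
  have hM0 : (0 : ℝ) < M := by
    have : (4 : ℝ) ≤ M := by exact_mod_cast hM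
    linarith
  have h0 : ∀ c, cf M (ψ (y c)) = 1 - ch ψ (y c) ^ 2 / M := by
    intro c
    have hz : ‖ψ (y c)‖ = 1 := AddChar.norm_apply _ _
    have hz2 : (ψ (y c)).re * (ψ (y c)).re + (ψ (y c)).im * (ψ (y c)).im = 1 := by
      rw [← Complex.normSq_apply, Complex.normSq_eq_norm_sq, hz, one_pow]
    have h2 : ch ψ (y c) ^ 2 = 2 - 2 * (ψ (y c)).re := by
      unfold ch
      rw [← Complex.normSq_eq_norm_sq, Complex.normSq_apply]
      simp only [Complex.sub_re, Complex.one_re, Complex.sub_im, Complex.one_im, sub_zero]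
      linarith
    rw [h2]; unfold cf; field_simp; ring
  have h5 : gP M y ψ ≤ Real.exp (-((∑ c, ch ψ (y c) ^ 2) / M)) := by
    unfold gP
    calc ∏ e, cf M (ψ (y e)) ≤ ∏ e, Real.exp (-(ch ψ (y e) ^ 2 / M)) := by
          refine Finset.prod_le_prod (fun e _ => cf_nonneg hM (AddChar.norm_apply _ _))
            (fun e _ => ?_)
          rw [h0 e]
          have := Real.add_one_le_exp (-(ch ψ (y e) ^ 2 / M))
          linarith
      _ = _ := by
          rw [← Real.exp_sum, Finset.sum_neg_distrib, Finset.sum_div]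
  have h6 : Real.exp (-((i : ℝ) + 1)) ≤ (1 / 2 : ℝ) ^ (i + 1) := by
    have h7 : Real.exp (-1) ≤ 1 / 2 := by
      rw [Real.exp_neg, one_div]
      have := Real.add_one_le_exp (1 : ℝ)
      exact inv_anti₀ (by norm_num) (by linarith)
    have h8 : Real.exp (-((i : ℝ) + 1)) = Real.exp (-1) ^ (i + 1) := by
      rw [← Real.exp_nat_mul]; push_cast; congr 1; ring
    rw [h8]
    exact pow_le_pow_left₀ (Real.exp_pos _).le h7 _
  have h9 := (h6.trans h).trans h5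
  have h10 := Real.exp_le_exp.1 h9
  have h11 : (∑ c, ch ψ (y c) ^ 2) / M ≤ (i : ℝ) + 1 := by linarith
  rw [div_le_iff₀ hM0] at h11
  linarith

open scoped Classical in
/-- membership -/
theorem subM {G : Type} [AddCommGroup G] [Fintype G] {m M E i : ℕ} {x δ A T Mx : ℝ}
    (hM4 : 4 ≤ M) (hM8 : M ≤ 8)
    (hT : 0 < T) (hMx : Mx = max 1 T) (hEx : (E : ℝ) < x ^ (1 - δ / 4))
    (hi : (i : ℝ) ≤ A * Real.log x) :
    (univ.filter fun y : Fin m → G =>
      NonSp (x ^ (1 - δ / 4)) y ∧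
        (2 : ℝ) ^ i * T / ((i + 1) * (i + 2)) ≤ (LamM M y ((1 / 2) ^ (i + 1))).card) ⊆
      (univ.filter fun y : Fin m → G => NS E y ∧ Str (Mx / 3) (8 * (A * Real.log x + 1)) y) := by
  intro y hy
  simp only [Finset.mem_filter, Finset.mem_univ, true_and] at hy ⊢
  obtain ⟨hy1, hy2⟩ := hy
  refine ⟨?_, ?_⟩
  · intro s hs0
    have h1 := hy1 s (by rw [AddChar.one_eq_zero]; exact hs0)
    have h2 : (E : ℝ) < ((univ.filter fun c => s (y c) ≠ 1).card : ℝ) := by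
      convert hEx.trans_le h1
    exact_mod_cast h2
  · refine ⟨LamM M y ((1 / 2) ^ (i + 1)), ?_, ?_⟩
    · have hpos : 0 < (2 : ℝ) ^ i * T / ((i + 1) * (i + 2)) := by positivity
      have h1 : (1 : ℝ) ≤ (LamM M y ((1 / 2) ^ (i + 1))).card := by
        have h2 : (0 : ℝ) < (LamM M y ((1 / 2) ^ (i + 1))).card := hpos.trans_le hy2
        have h3 : 0 < (LamM M y ((1 / 2) ^ (i + 1))).card := by exact_mod_cast h2
        exact_mod_cast h3
      have h4 : T / 3 ≤ (2 : ℝ) ^ i * T / ((i + 1) * (i + 2)) := by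
        rw [div_le_div_iff₀ (by norm_num) (by positivity)]
        have := three_pow i
        nlinarith
      rw [hMx]
      rcases max_choice 1 T with h | h
      · rw [h]; linarith
      · rw [h]; linarith
    · intro s hs'
      have hs2 : s ≠ 1 ∧ (1 / 2 : ℝ) ^ (i + 1) ≤ gP M y s := by
        unfold LamM at hs'
        simpa using hs'
      refine ⟨by rw [← AddChar.one_eq_zero]; exact hs2.1, ?_⟩
      refine (energyM hM4 y s i hs2.2).trans ?_
      have h5 : (M : ℝ) ≤ 8 := by exact_mod_cast hM8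
      have h6 : (0 : ℝ) ≤ (i : ℝ) + 1 := by positivity
      nlinarith

theorem stmtSmallM (hs : StmtSplit) {M : ℕ} (hM4 : 4 ≤ M) (hM8 : M ≤ 8) : StmtSmallM M := by
  classical
  intro δ A C₀ hδ hδ1 hA hC
  obtain ⟨L, hL1, hLδ⟩ : ∃ L : ℕ, 1 ≤ L ∧ 16 * C₀ ≤ δ * L := by
    refine ⟨⌈16 * C₀ / δ⌉₊ + 1, by omega, ?_⟩
    have h1 : 16 * C₀ / δ ≤ ⌈16 * C₀ / δ⌉₊ := Nat.le_ceil _
    rw [div_le_iff₀ hδ] at h1
    push_cast
    nlinarith
  have hL0 : (1 : ℝ) ≤ L := by exact_mod_cast hL1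
  obtain ⟨k₀, hk₀⟩ := Filter.eventually_atTop.1 (tendsto_natCast_atTop_atTop.eventually
    (params δ A C₀ L (41472 * L) hδ hδ1 (by linarith)))
  refine ⟨k₀, fun k hk G _ _ m hmk hkm hp hG T hT hTC i hi => ?_⟩
  obtain ⟨hx1, hx2, hx3, hx4, hx5, hx6, hx7, hx8⟩ := hk₀ k hk
  obtain ⟨x, hxk⟩ : ∃ x : ℝ, x = (k : ℝ) := ⟨_, rfl⟩
  rw [← hxk] at hx1 hx2 hx3 hx4 hx5 hx6 hx7 hx8 hi hTC hkm ⊢
  have hx0 : 0 < x := by linarith
  obtain ⟨Mx, hMx⟩ : ∃ M : ℝ, M = max 1 T := ⟨_, rfl⟩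
  have hM1 : 1 ≤ Mx := by rw [hMx]; exact le_max_left _ _
  have hMC : Mx ≤ x ^ C₀ := by
    rw [hMx]; exact max_le (Real.one_le_rpow hx1 hC.le) hTC
  have hG1 : (1 : ℝ) ≤ Fintype.card G := by exact_mod_cast Fintype.card_pos
  obtain ⟨J0, J, hJ01, hJ0β, hJ0k, hJ1, hJc, hJw⟩ := numJ k hx1 hδ hL1 hxk hx2 hx3
  obtain ⟨E, hEa, hEx, hEm⟩ := numE hx1 hδ1 hA hkm hx5 hx6
  obtain ⟨hJU, hUG⟩ := numU (Gc := (Fintype.card G : ℝ)) hx1 hL1 hLδ hM1 hMC hG1 hδ hx4 hJw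
  have hF : Fej G (x ^ (-(δ / 16))) (1 / (J0 : ℝ)) := by
    intro Lam' B hB
    exact hs G Lam' B J0 _ hJ0β (fun p hp1 hp2 => hJ0k.trans (hp p hp1 hp2)) hB
  have hD : (1 : ℝ) / J0 ≤ 1 := by
    have h1 : (1 : ℝ) ≤ J0 := by exact_mod_cast hJ01
    rw [div_le_one (by linarith)]; exact h1
  have hcount := countB (Γ := G) (m := m) (K := Mx / 3) hL1 hEm hJ1
    (Real.rpow_pos_of_pos hx0 (-(δ / 16))) (Real.rpow_pos_of_pos hx0 _) hD (by linarith) hF hJc
    hEa hJU hUG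
  have hsub := subM (G := G) (m := m) (i := i) hM4 hM8 hT hMx hEx hi
  have hmono := Finset.card_le_card hsub
  have hkm' : k ≤ 2 * m := by
    rw [hxk] at hkm
    exact_mod_cast hkm
  have hfin := final (L := L) (m := m) (E := E) (k := k)
    (c₁ := 41472 * L) hx1 hδ hC hM1 hMC hG1 hG hkm' hxk (by linarith) hEm hEx.le hx7 hx8
  rw [← hMx]
  refine le_trans ?_ (hcount.trans hfin)
  exact_mod_cast hmono


section dyadic

variable {G : Type} [AddCommGroup G] [Fintype G]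

theorem gPM_le {m M : ℕ} (hM : 4 ≤ M) (y : Fin m → G) (ψ : AddChar G ℂ) : gP M y ψ ≤ 1 := by
  unfold gP
  exact Finset.prod_le_one (fun e _ => cf_nonneg hM (AddChar.norm_apply ψ _))
    fun e _ => cf_le_one (AddChar.norm_apply ψ _)

theorem gPM_nonneg {m M : ℕ} (hM : 4 ≤ M) (y : Fin m → G) (ψ : AddChar G ℂ) : 0 ≤ gP M y ψ := by
  unfold gP
  exact Finset.prod_nonneg fun e _ => cf_nonneg hM (AddChar.norm_apply ψ _)

omit [Fintype G] in
theorem gPM_one {m M : ℕ} (y : Fin m → G) : gP M y 1 = 1 := by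
  unfold gP
  refine Finset.prod_eq_one fun e _ => ?_
  rw [AddChar.one_apply]
  unfold cf
  simp

/-- the dyadic level of `x` -/
theorem exists_levelM {n : ℕ} {x : ℝ} (h1 : (1 / 2 : ℝ) ^ n ≤ x) (h2 : x ≤ 1) :
    ∃ i, i ≤ n ∧ (1 / 2 : ℝ) ^ (i + 1) ≤ x ∧ x ≤ (1 / 2 : ℝ) ^ i := by
  induction n with
  | zero =>
    refine ⟨0, le_refl _, ?_, by simpa using h2⟩
    simp only [pow_zero] at h1
    norm_num
    linarith
  | succ k ih =>
    by_cases h : (1 / 2 : ℝ) ^ k ≤ x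
    · obtain ⟨i, hi, h3, h4⟩ := ih h
      exact ⟨i, by omega, h3, h4⟩
    · exact ⟨k, by omega, h1, (not_le.1 h).le⟩

theorem sum_teleM (n : ℕ) :
    ∑ i ∈ range n, (1 : ℝ) / (((i : ℝ) + 1) * ((i : ℝ) + 2)) = 1 - 1 / ((n : ℝ) + 1) := by
  induction n with
  | zero => simp
  | succ k ih =>
    rw [sum_range_succ, ih]
    push_cast
    have h1 : ((k : ℝ) + 1) ≠ 0 := by positivity
    have h2 : ((k : ℝ) + 2) ≠ 0 := by positivity
    have h3 : ((k : ℝ) + 1 + 1) ≠ 0 := by positivity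
    field_simp
    ring

end dyadic

theorem stmtDyadicM {M : ℕ} (hM : 4 ≤ M) : StmtDyadicM M := by
  classical
  intro G _ _ m y T hT hZ
  have hG1 : (1 : ℝ) ≤ Fintype.card G := by exact_mod_cast Fintype.card_pos
  have hcardX : (Finset.univ : Finset (AddChar G ℂ)).card = Fintype.card G := by
    rw [Finset.card_univ]; exact AddChar.card_eq
  have hZ1 : gZ M y = 1 + ∑ ψ ∈ univ.erase (1 : AddChar G ℂ), gP M y ψ := by
    unfold gZ
    rw [← Finset.add_sum_erase univ _ (mem_univ (1 : AddChar G ℂ)), gPM_one]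
  have hY : T ≤ ∑ ψ ∈ univ.erase (1 : AddChar G ℂ), gP M y ψ := by linarith
  have hTG : T ≤ Fintype.card G := by
    refine hY.trans ?_
    calc ∑ ψ ∈ univ.erase (1 : AddChar G ℂ), gP M y ψ
        ≤ ∑ ψ ∈ univ.erase (1 : AddChar G ℂ), (1 : ℝ) :=
          Finset.sum_le_sum fun ψ _ => gPM_le hM y ψ
      _ = ((univ.erase (1 : AddChar G ℂ)).card : ℝ) := by simp
      _ ≤ ((univ : Finset (AddChar G ℂ)).card : ℝ) := by
          exact_mod_cast Finset.card_le_card (Finset.erase_subset _ _)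
      _ = Fintype.card G := by rw [hcardX]
  obtain ⟨t, ht⟩ : ∃ t : ℝ, t = T / (2 * Fintype.card G) := ⟨_, rfl⟩
  have ht0 : 0 < t := by rw [ht]; positivity
  have hex : ∃ n : ℕ, (1 / 2 : ℝ) ^ n ≤ t := by
    obtain ⟨n, hn⟩ := exists_pow_lt_of_lt_one ht0 (by norm_num : (1 / 2 : ℝ) < 1)
    exact ⟨n, hn.le⟩
  obtain ⟨n, hn⟩ : ∃ n, n = Nat.find hex := ⟨_, rfl⟩
  have hn1 : (1 / 2 : ℝ) ^ n ≤ t := by rw [hn]; exact Nat.find_spec hex
  have hn2 : (2 : ℝ) ^ n ≤ 4 * Fintype.card G / T := by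
    rw [le_div_iff₀ hT]
    rcases Nat.eq_zero_or_pos n with h | h
    · rw [h, pow_zero]; linarith
    · obtain ⟨q, rfl⟩ := Nat.exists_eq_succ_of_ne_zero h.ne'
      have h1 : ¬ (1 / 2 : ℝ) ^ q ≤ t := Nat.find_min hex (by omega)
      push Not at h1
      have h2 : (1 / 2 : ℝ) ^ q * 2 ^ q = 1 := by rw [← mul_pow]; norm_num
      have h3 : t * 2 ^ q < 1 := by
        rw [← h2]
        exact mul_lt_mul_of_pos_right h1 (by positivity)
      have h4 : T = t * (2 * Fintype.card G) := by rw [ht]; field_simp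
      rw [h4, Nat.succ_eq_add_one, pow_succ]
      nlinarith
  have hbig : T / 2 ≤ ∑ ψ ∈ (univ.erase (1 : AddChar G ℂ)).filter (fun ψ => t ≤ gP M y ψ),
      gP M y ψ := by
    have h1 := Finset.sum_filter_add_sum_filter_not (univ.erase (1 : AddChar G ℂ))
      (fun ψ => t ≤ gP M y ψ) (fun ψ => gP M y ψ)
    have h2 : ∑ ψ ∈ (univ.erase (1 : AddChar G ℂ)).filter (fun ψ => ¬ t ≤ gP M y ψ),
        gP M y ψ ≤ T / 2 := by
      calc ∑ ψ ∈ (univ.erase (1 : AddChar G ℂ)).filter (fun ψ => ¬ t ≤ gP M y ψ), gP M y ψ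
          ≤ ∑ ψ ∈ (univ.erase (1 : AddChar G ℂ)).filter (fun ψ => ¬ t ≤ gP M y ψ), t := by
            refine Finset.sum_le_sum fun ψ hψ => ?_
            have := (Finset.mem_filter.1 hψ).2
            push Not at this
            exact this.le
        _ = (((univ.erase (1 : AddChar G ℂ)).filter (fun ψ => ¬ t ≤ gP M y ψ)).card : ℝ) * t := by
            rw [Finset.sum_const, nsmul_eq_mul]
        _ ≤ (Fintype.card G : ℝ) * t := by
            apply mul_le_mul_of_nonneg_right _ ht0.le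
            rw [← hcardX]
            exact_mod_cast Finset.card_le_card
              ((Finset.filter_subset _ _).trans (Finset.erase_subset _ _))
        _ = T / 2 := by rw [ht]; field_simp
    linarith
  by_contra hcon
  push Not at hcon
  have hle : ∀ ψ ∈ (univ.erase (1 : AddChar G ℂ)).filter (fun ψ => t ≤ gP M y ψ), gP M y ψ ≤
      ∑ i ∈ range (n + 1), (if (1 / 2 : ℝ) ^ (i + 1) ≤ gP M y ψ then (1 / 2 : ℝ) ^ i else 0) := by
    intro ψ hψ
    have hψ' := (Finset.mem_filter.1 hψ).2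
    obtain ⟨i, hi, h3, h4⟩ := exists_levelM (hn1.trans hψ') (gPM_le hM y ψ)
    refine h4.trans ?_
    have := Finset.single_le_sum (f := fun i => if (1 / 2 : ℝ) ^ (i + 1) ≤ gP M y ψ then
      (1 / 2 : ℝ) ^ i else 0) (s := range (n + 1)) (fun j _ => by split_ifs <;> positivity)
      (mem_range.2 (Nat.lt_succ_of_le hi))
    rwa [if_pos h3] at this
  have h5 : ∑ ψ ∈ (univ.erase (1 : AddChar G ℂ)).filter (fun ψ => t ≤ gP M y ψ), gP M y ψ ≤
      ∑ i ∈ range (n + 1), (1 / 2 : ℝ) ^ i * ((LamM M y ((1 / 2) ^ (i + 1))).card : ℝ) := by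
    refine (Finset.sum_le_sum hle).trans ?_
    rw [Finset.sum_comm]
    refine Finset.sum_le_sum fun i _ => ?_
    rw [← Finset.sum_filter, Finset.sum_const, nsmul_eq_mul, mul_comm]
    apply mul_le_mul_of_nonneg_left _ (by positivity)
    have hss : ((univ.erase (1 : AddChar G ℂ)).filter (fun ψ => t ≤ gP M y ψ)).filter
        (fun ψ => (1 / 2 : ℝ) ^ (i + 1) ≤ gP M y ψ) ⊆ LamM M y ((1 / 2) ^ (i + 1)) := by
      intro ψ hψ
      unfold LamM
      simp only [Finset.mem_filter, Finset.mem_erase, Finset.mem_univ, and_true, true_and] at hψ ⊢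
      exact ⟨hψ.1.1, hψ.2⟩
    exact_mod_cast Finset.card_le_card hss
  have h6 : ∑ i ∈ range (n + 1), (1 / 2 : ℝ) ^ i * ((LamM M y ((1 / 2) ^ (i + 1))).card : ℝ) <
      ∑ i ∈ range (n + 1), (T / 2) * (1 / (((i : ℝ) + 1) * ((i : ℝ) + 2))) := by
    refine Finset.sum_lt_sum_of_nonempty ⟨0, mem_range.2 (by omega)⟩ fun i hi => ?_
    have hi' : i ≤ n := Nat.lt_succ_iff.1 (mem_range.1 hi)
    have hi2 : (2 : ℝ) ^ i ≤ 4 * Fintype.card G / T :=
      (pow_le_pow_right₀ (by norm_num) hi').trans hn2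
    have h7 := hcon i hi2
    have h8 : (0 : ℝ) < (1 / 2) ^ i := by positivity
    have h9 := mul_lt_mul_of_pos_left h7 h8
    refine h9.trans_le (le_of_eq ?_)
    have h10 : (1 / 2 : ℝ) ^ i * 2 ^ i = 1 := by rw [← mul_pow]; norm_num
    calc (1 / 2 : ℝ) ^ i * (2 ^ i * (T / 2) / (((i : ℝ) + 1) * ((i : ℝ) + 2)))
        = ((1 / 2 : ℝ) ^ i * 2 ^ i) * ((T / 2) / (((i : ℝ) + 1) * ((i : ℝ) + 2))) := by ring
      _ = _ := by rw [h10]; ring
  rw [← Finset.mul_sum, sum_teleM] at h6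
  have h11 : (0 : ℝ) < 1 / (((n + 1 : ℕ) : ℝ) + 1) := by positivity
  have h12 : (T / 2) * (1 - 1 / (((n + 1 : ℕ) : ℝ) + 1)) < T / 2 := by nlinarith
  linarith

end Vale.Agent.P160.Half.Flat.SmM
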