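import Vale.Agent.P160.Half.FlatBig
import Vale.Agent.P160.Half.FlatD

/-! P160-HALF, COUNT: assembly of the levels (helper986). -/

open Finset

namespace Vale.Agent.P160.Half.Flat

open Vale.Agent.P160

open scoped Classical in
/-- COUNT with thresholds `k^(-C₁) ≤ T ≤ k^C₀` and `δ ≤ 1`. -/
def StmtCountG1 : Prop :=
  ∀ δ c C₀ C₁ : ℝ, 0 < δ → δ ≤ 1 → 0 < c → 0 < C₀ → 0 < C₁ → ∃ k₀ : ℕ, ∀ k : ℕ, k₀ ≤ k →
    ∀ (G : Type) [AddCommGroup G] [Fintype G] (m : ℕ), m ≤ k → (k : ℝ) ≤ 2 * m →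
    (∀ p : ℕ, p.Prime → p ∣ Fintype.card G → k ≤ p) →
    (Fintype.card G : ℝ) * (3 / 4) ^ m ≤ Real.exp (-c * k) →
    ∀ T : ℝ, (k : ℝ) ^ (-C₁) ≤ T → T ≤ (k : ℝ) ^ C₀ →
    ((univ.filter fun y : Fin m → G =>
      NonSp ((k : ℝ) ^ (1 - δ / 4)) y ∧ 1 + T ≤ gZ 8 y).card : ℝ) ≤
      (Fintype.card G : ℝ) ^ m * ((k : ℝ) ^ (-(1 / 2) + δ) / max 1 T) ^ m

theorem stmtCountG1 (hS : StmtSmall) : StmtCountG1 := by
  intro δ c C₀ C₁ hδ hδ1 hc hC₀ hC₁
  obtain ⟨A, hA, k₁, hk₁⟩ := Big.stmtBig c C₀ C₁ hc hC₀ hC₁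
  obtain ⟨k₂, hk₂⟩ := hS δ A C₀ hδ hδ1 hA hC₀
  refine ⟨max (max k₁ k₂) (max 2 ⌈16 / δ⌉₊), ?_⟩
  intro k hk G _ _ m hmk hkm hp hcard T hT1 hT2
  classical
  have hkk1 : k₁ ≤ k := ((le_max_left _ _).trans (le_max_left _ _)).trans hk
  have hkk2 : k₂ ≤ k := ((le_max_right _ _).trans (le_max_left _ _)).trans hk
  have hk2 : 2 ≤ k := ((le_max_left _ _).trans (le_max_right _ _)).trans hk
  have hkδ : 16 / δ ≤ k :=
    (Nat.le_ceil _).trans (by exact_mod_cast ((le_max_right _ _).trans (le_max_right _ _)).trans hk)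
  have hk2' : (2 : ℝ) ≤ k := by exact_mod_cast hk2
  have hkpos : (0 : ℝ) < k := by linarith
  have hk1 : (1 : ℝ) ≤ k := by linarith
  have hT0 : 0 < T := (Real.rpow_pos_of_pos hkpos _).trans_le hT1
  set g : ℝ := (Fintype.card G : ℝ) with hg
  have hg0 : 0 < g := by rw [hg]; exact_mod_cast Fintype.card_pos
  have hg2 : g ≤ 2 ^ k := by
    have h1 : g * (3 / 4) ^ m ≤ 1 := hcard.trans (by
      apply Real.exp_le_one_iff.2
      nlinarith)
    have h2 : g ≤ (4 / 3) ^ m := by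
      have h3 : (3 / 4 : ℝ) ^ m * (4 / 3) ^ m = 1 := by rw [← mul_pow]; norm_num
      have h4 : (0 : ℝ) < (4 / 3) ^ m := by positivity
      calc g = g * ((3 / 4) ^ m * (4 / 3) ^ m) := by rw [h3, mul_one]
        _ = (g * (3 / 4) ^ m) * (4 / 3) ^ m := by ring
        _ ≤ 1 * (4 / 3) ^ m := mul_le_mul_of_nonneg_right h1 h4.le
        _ = _ := one_mul _
    calc g ≤ (4 / 3) ^ m := h2
      _ ≤ 2 ^ m := pow_le_pow_left₀ (by norm_num) (by norm_num) m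
      _ ≤ 2 ^ k := pow_le_pow_right₀ (by norm_num) hmk
  set B : ℝ := g ^ m * ((k : ℝ) ^ (-(1 / 2) + 3 * δ / 4) / max 1 T) ^ m with hB
  have hmax : (0 : ℝ) < max 1 T := lt_of_lt_of_le one_pos (le_max_left _ _)
  set F : ℕ → Finset (Fin m → G) := fun i => univ.filter fun y : Fin m → G =>
      NonSp ((k : ℝ) ^ (1 - δ / 4)) y ∧
        (2 : ℝ) ^ i * T / ((i + 1) * (i + 2)) ≤ (Lam y ((1 / 2) ^ (i + 1))).card with hF
  have hFi : ∀ i ∈ range (m + 1), ((F i).card : ℝ) ≤ B := by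
    intro i hi
    have him : i ≤ m := by rw [mem_range] at hi; omega
    by_cases hiA : (i : ℝ) ≤ A * Real.log k
    · exact hk₂ k hkk2 G m hmk hkm hp hg2 T hT0 hT2 i hiA
    · have h1 := hk₁ k hkk1 G m hmk hcard T hT1 hT2 i (not_le.1 hiA) him
      have h2 : ((F i).card : ℝ) ≤ ((univ.filter fun y : Fin m → G =>
          (2 : ℝ) ^ i * T / ((i + 1) * (i + 2)) ≤ (Lam y ((1 / 2) ^ (i + 1))).card).card : ℝ) := by
        have : F i ⊆ univ.filter fun y : Fin m → G =>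
          (2 : ℝ) ^ i * T / ((i + 1) * (i + 2)) ≤ (Lam y ((1 / 2) ^ (i + 1))).card := by
          intro y hy
          rw [hF, mem_filter] at hy
          rw [mem_filter]
          exact ⟨mem_univ _, hy.2.2⟩
        exact_mod_cast card_le_card this
      refine h2.trans (h1.trans ?_)
      rw [hB]
      apply mul_le_mul_of_nonneg_left _ (by positivity)
      apply pow_le_pow_left₀ (by positivity)
      apply div_le_div_of_nonneg_right _ hmax.le
      apply Real.rpow_le_rpow_of_exponent_le hk1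
      linarith
  have hsub : (univ.filter fun y : Fin m → G =>
      NonSp ((k : ℝ) ^ (1 - δ / 4)) y ∧ 1 + T ≤ gZ 8 y) ⊆ (range (m + 1)).biUnion F := by
    intro y hy
    rw [mem_filter] at hy
    obtain ⟨i, him, hi⟩ := FlatD.stmtDyadic G m y T hT0 hy.2.2
    rw [mem_biUnion]
    refine ⟨i, by rw [mem_range]; omega, ?_⟩
    rw [hF, mem_filter]
    exact ⟨mem_univ _, hy.2.1, hi⟩
  have h1 : ((univ.filter fun y : Fin m → G =>
      NonSp ((k : ℝ) ^ (1 - δ / 4)) y ∧ 1 + T ≤ gZ 8 y).card : ℝ) ≤ (m + 1) * B := by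
    calc _ ≤ (((range (m + 1)).biUnion F).card : ℝ) := by exact_mod_cast card_le_card hsub
      _ ≤ ∑ i ∈ range (m + 1), ((F i).card : ℝ) := by exact_mod_cast card_biUnion_le
      _ ≤ ∑ i ∈ range (m + 1), B := sum_le_sum hFi
      _ = (m + 1) * B := by rw [sum_const, card_range, nsmul_eq_mul]; push_cast; ring
  refine h1.trans ?_
  have h2 : ((m : ℝ) + 1) ≤ ((k : ℝ) ^ (δ / 4)) ^ m := by
    have h3 : (m : ℝ) ≤ k := by exact_mod_cast hmk
    have h4 : ((k : ℝ) ^ (δ / 4)) ^ m = (k : ℝ) ^ (δ / 4 * m) := by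
      rw [← Real.rpow_natCast, ← Real.rpow_mul hkpos.le]
    rw [h4]
    have h5 : (2 : ℝ) ≤ δ / 4 * m := by
      have h6 : 16 ≤ k * δ := by
        rw [div_le_iff₀ hδ] at hkδ; exact hkδ
      nlinarith
    calc (m : ℝ) + 1 ≤ k * k := by nlinarith
      _ = (k : ℝ) ^ (2 : ℝ) := by
          rw [show (2 : ℝ) = ((2 : ℕ) : ℝ) by norm_num, Real.rpow_natCast]; ring
      _ ≤ _ := Real.rpow_le_rpow_of_exponent_le hk1 h5
  calc ((m : ℝ) + 1) * B ≤ ((k : ℝ) ^ (δ / 4)) ^ m * B :=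
        mul_le_mul_of_nonneg_right h2 (by positivity)
    _ = g ^ m * ((k : ℝ) ^ (-(1 / 2) + δ) / max 1 T) ^ m := by
        rw [hB]
        have h3 : (k : ℝ) ^ (-(1 / 2) + δ) = (k : ℝ) ^ (δ / 4) * (k : ℝ) ^ (-(1 / 2) + 3 * δ / 4) := by
          rw [← Real.rpow_add hkpos]
          congr 1
          ring
        rw [h3, mul_div_assoc ((k : ℝ) ^ (δ / 4)), mul_pow ((k : ℝ) ^ (δ / 4))]
        exact mul_left_comm _ _ _

end Vale.Agent.P160.Half.Flat
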