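import Mathlib

/-!
# P160, rate 1/2, block (M), good period: existence of a flat tuple in the left kernel

`G` a finite abelian group, the columns `Y 0, …, Y (j-1)` have `a` independent entries
`val (Y i s)`, uniform over `Om`.  `ker val Y` is the set of the tuples `w : Fin a → G` killed by
all columns.  For every set `Bad` of tuples the number of the `Y` for which at least half of
`ker val Y` is in `Bad` is at most `2 (card Om)^(a j) ∑_{w ∈ Bad} rho w ^ a`.
-/

namespace Vale.Agent.P160.Half.FlatTup

open Finset

set_option linter.unusedSectionVars false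

variable {Om G : Type*} [Fintype Om] [AddCommGroup G] [Fintype G] [DecidableEq G]

/-- pairing of a column with a tuple -/
def pair {a : ℕ} (val : Om → ℤ) (y : Fin a → Om) (w : Fin a → G) : G := ∑ s, val (y s) • w s

theorem pair_sub {a : ℕ} (val : Om → ℤ) (y : Fin a → Om) (w w' : Fin a → G) :
    pair val y (w - w') = pair val y w - pair val y w' := by
  unfold pair
  rw [← Finset.sum_sub_distrib]
  exact Finset.sum_congr rfl fun s _ => by rw [Pi.sub_apply, smul_sub]

/-- tuples killed by all columns -/
def ker {a j : ℕ} (val : Om → ℤ) (Y : Fin j → Fin a → Om) : Finset (Fin a → G) :=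
  univ.filter fun w => ∀ i, pair val (Y i) w = 0

theorem mem_ker {a j : ℕ} (val : Om → ℤ) (Y : Fin j → Fin a → Om) (w : Fin a → G) :
    w ∈ ker val Y ↔ ∀ i, pair val (Y i) w = 0 := by
  simp [ker]

/-- probability that a column is orthogonal to `w` -/
noncomputable def rho {a : ℕ} (val : Om → ℤ) (w : Fin a → G) : ℝ :=
  ((univ.filter fun y : Fin a → Om => pair val y w = 0).card : ℝ) / (Fintype.card Om : ℝ) ^ a

theorem rho_nonneg {a : ℕ} (val : Om → ℤ) (w : Fin a → G) : 0 ≤ rho val w := by
  unfold rho; positivity

/-- the kernel is large -/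
theorem card_ker_ge {a j : ℕ} (val : Om → ℤ) (Y : Fin j → Fin a → Om) :
    Fintype.card G ^ a ≤ (ker (G := G) val Y).card * Fintype.card G ^ j := by
  classical
  have h := Finset.card_le_mul_card_image_of_maps_to
    (s := (univ : Finset (Fin a → G))) (t := (univ : Finset (Fin j → G)))
    (f := fun w i => pair val (Y i) w) (fun _ _ => mem_univ _) (ker (G := G) val Y).card
    (by
      intro b _
      rcases Finset.eq_empty_or_nonempty
        (univ.filter fun w : Fin a → G => (fun i => pair val (Y i) w) = b) with he | ⟨w0, h0⟩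
      · rw [he]; simp
      · have h0' : (fun i => pair val (Y i) w0) = b := (mem_filter.1 h0).2
        refine Finset.card_le_card_of_injOn (fun w => w - w0) ?_ ?_
        · intro w hw
          have hw' : (fun i => pair val (Y i) w) = b := (mem_filter.1 hw).2
          rw [mem_coe, mem_ker]
          intro i
          rw [pair_sub]
          have e1 := congrFun hw' i
          have e2 := congrFun h0' i
          have e1' : pair val (Y i) w = b i := e1
          have e2' : pair val (Y i) w0 = b i := e2
          rw [e1', e2', sub_self]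
        · intro w _ w' _ h
          exact sub_left_injective h)
  simpa [Fintype.card_pi] using h

theorem ker_nonempty {a j : ℕ} (val : Om → ℤ) (Y : Fin j → Fin a → Om) :
    0 < (ker (G := G) val Y).card := by
  refine Finset.card_pos.2 ⟨0, ?_⟩
  rw [mem_ker]
  intro i
  simp [pair]

theorem card_kill {a j : ℕ} (val : Om → ℤ) (w : Fin a → G) :
    (univ.filter fun Y : Fin j → Fin a → Om => ∀ i, pair val (Y i) w = 0).card
      = (univ.filter fun y : Fin a → Om => pair val y w = 0).card ^ j := by
  classical
  have : (univ.filter fun Y : Fin j → Fin a → Om => ∀ i, pair val (Y i) w = 0)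
      = Fintype.piFinset fun _ : Fin j => univ.filter fun y : Fin a → Om => pair val y w = 0 := by
    ext Y
    simp [Fintype.mem_piFinset]
  rw [this, Fintype.card_piFinset_const]

/-- **Markov bound for the fraction of bad tuples in the kernel.** -/
theorem flat_markov {a j : ℕ} (val : Om → ℤ) (Bad : Finset (Fin a → G)) :
    ((univ.filter fun Y : Fin j → Fin a → Om =>
        (ker (G := G) val Y).card ≤ 2 * (ker val Y ∩ Bad).card).card : ℝ)
      ≤ 2 * ((Fintype.card G : ℝ) ^ j / (Fintype.card G : ℝ) ^ a)
          * ((Fintype.card Om : ℝ) ^ a) ^ j * ∑ w ∈ Bad, rho val w ^ j := by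
  classical
  have hG : (0 : ℝ) < Fintype.card G := by exact_mod_cast Fintype.card_pos
  -- each `Y` counts at most the fraction
  have h1 : ((univ.filter fun Y : Fin j → Fin a → Om =>
        (ker (G := G) val Y).card ≤ 2 * (ker val Y ∩ Bad).card).card : ℝ)
      ≤ ∑ Y : Fin j → Fin a → Om, 2 * ((Fintype.card G : ℝ) ^ j / (Fintype.card G : ℝ) ^ a)
          * ((ker (G := G) val Y ∩ Bad).card : ℝ) := by
    rw [Finset.card_filter]
    push_cast
    refine Finset.sum_le_sum fun Y _ => ?_
    split_ifs with h
    · have hk := card_ker_ge (G := G) val Y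
      have hk' : (Fintype.card G : ℝ) ^ a
          ≤ ((ker (G := G) val Y).card : ℝ) * (Fintype.card G : ℝ) ^ j := by exact_mod_cast hk
      have h' : ((ker (G := G) val Y).card : ℝ) ≤ 2 * ((ker (G := G) val Y ∩ Bad).card : ℝ) := by
        exact_mod_cast h
      rw [show 2 * ((Fintype.card G : ℝ) ^ j / (Fintype.card G : ℝ) ^ a)
          * ((ker (G := G) val Y ∩ Bad).card : ℝ)
          = (2 * ((ker (G := G) val Y ∩ Bad).card : ℝ) * (Fintype.card G : ℝ) ^ j)
            / (Fintype.card G : ℝ) ^ a by ring]
      rw [le_div_iff₀ (by positivity), one_mul]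
      refine hk'.trans ?_
      exact mul_le_mul_of_nonneg_right h' (by positivity)
    · positivity
  refine h1.trans ?_
  rw [← Finset.mul_sum]
  have h2 : ∑ Y : Fin j → Fin a → Om, ((ker (G := G) val Y ∩ Bad).card : ℝ)
      = ∑ w ∈ Bad, ((univ.filter fun y : Fin a → Om => pair val y w = 0).card : ℝ) ^ j := by
    have h3 : ∀ Y : Fin j → Fin a → Om, ((ker (G := G) val Y ∩ Bad).card : ℝ)
        = ∑ w ∈ Bad, if (∀ i, pair val (Y i) w = 0) then (1 : ℝ) else 0 := by
      intro Y
      rw [Finset.inter_comm, ← Finset.filter_mem_eq_inter, Finset.card_filter]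
      push_cast
      refine Finset.sum_congr rfl fun w _ => ?_
      simp only [mem_ker]
    simp only [h3]
    rw [Finset.sum_comm]
    refine Finset.sum_congr rfl fun w _ => ?_
    rw [← Nat.cast_pow, ← card_kill (j := j) val w, Finset.card_filter]
    push_cast
    rfl
  rw [h2]
  have h4 : ∀ w : Fin a → G,
      ((univ.filter fun y : Fin a → Om => pair val y w = 0).card : ℝ) ^ j
        ≤ ((Fintype.card Om : ℝ) ^ a) ^ j * rho val w ^ j := by
    intro w
    rw [← mul_pow]
    refine pow_le_pow_left₀ (by positivity) ?_ j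
    unfold rho
    rcases eq_or_ne ((Fintype.card Om : ℝ) ^ a) 0 with h0 | h0
    · have hO : (Fintype.card (Fin a → Om) : ℝ) = 0 := by
        rw [Fintype.card_fun, Fintype.card_fin]; push_cast; exact h0
      have hO' : Fintype.card (Fin a → Om) = 0 := by exact_mod_cast hO
      have : (univ.filter fun y : Fin a → Om => pair val y w = 0).card = 0 := by
        have := Finset.card_le_univ (univ.filter fun y : Fin a → Om => pair val y w = 0)
        omega
      rw [this, h0]; simp
    · rw [mul_div_cancel₀ _ h0]
  calc 2 * ((Fintype.card G : ℝ) ^ j / (Fintype.card G : ℝ) ^ a)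
        * ∑ w ∈ Bad, ((univ.filter fun y : Fin a → Om => pair val y w = 0).card : ℝ) ^ j
      ≤ 2 * ((Fintype.card G : ℝ) ^ j / (Fintype.card G : ℝ) ^ a)
        * ∑ w ∈ Bad, ((Fintype.card Om : ℝ) ^ a) ^ j * rho val w ^ j := by
        refine mul_le_mul_of_nonneg_left ?_ (by positivity)
        exact Finset.sum_le_sum fun w _ => h4 w
    _ = _ := by rw [← Finset.mul_sum]; ring

/-- The same with the full first moment: partial matrices cost nothing. -/
theorem flat_markov' {a j : ℕ} (hj : j ≤ a) (val : Om → ℤ) (Bad : Finset (Fin a → G))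
    (hB : ∀ w ∈ Bad, 1 / (Fintype.card G : ℝ) ≤ rho val w) :
    ((univ.filter fun Y : Fin j → Fin a → Om =>
        (ker (G := G) val Y).card ≤ 2 * (ker val Y ∩ Bad).card).card : ℝ)
      ≤ 2 * ((Fintype.card Om : ℝ) ^ a) ^ j * ∑ w ∈ Bad, rho val w ^ a := by
  have hG : (0 : ℝ) < Fintype.card G := by exact_mod_cast Fintype.card_pos
  refine (flat_markov val Bad).trans ?_
  rw [show 2 * ((Fintype.card G : ℝ) ^ j / (Fintype.card G : ℝ) ^ a)
          * ((Fintype.card Om : ℝ) ^ a) ^ j * ∑ w ∈ Bad, rho val w ^ j
      = 2 * ((Fintype.card Om : ℝ) ^ a) ^ j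
        * (((Fintype.card G : ℝ) ^ j / (Fintype.card G : ℝ) ^ a) * ∑ w ∈ Bad, rho val w ^ j) by
      ring]
  refine mul_le_mul_of_nonneg_left ?_ (by positivity)
  rw [Finset.mul_sum]
  refine Finset.sum_le_sum fun w hw => ?_
  obtain ⟨d, rfl⟩ := Nat.exists_eq_add_of_le hj
  have h1 : (Fintype.card G : ℝ) ^ j / (Fintype.card G : ℝ) ^ (j + d)
      = (1 / (Fintype.card G : ℝ)) ^ d := by
    rw [pow_add, one_div, inv_pow]
    field_simp
  rw [h1, pow_add, mul_comm]
  refine mul_le_mul_of_nonneg_left ?_ (pow_nonneg (rho_nonneg val w) j)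
  exact pow_le_pow_left₀ (by positivity) (hB w hw) d

/-- outside the exceptional event there is a good tuple in the kernel which also avoids a second
set containing less than half of the kernel -/
theorem exists_good {a j : ℕ} (val : Om → ℤ) (Y : Fin j → Fin a → Om)
    (Bad Deg : Finset (Fin a → G))
    (hY : ¬ (ker (G := G) val Y).card ≤ 2 * (ker val Y ∩ Bad).card)
    (hD : 2 * (ker val Y ∩ Deg).card ≤ (ker (G := G) val Y).card) :
    ∃ w ∈ ker (G := G) val Y, w ∉ Bad ∧ w ∉ Deg := by
  by_contra hc
  push Not at hc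
  have hsub : ker (G := G) val Y ⊆ (ker val Y ∩ Bad) ∪ (ker val Y ∩ Deg) := by
    intro w hw
    by_cases hb : w ∈ Bad
    · exact mem_union_left _ (mem_inter.2 ⟨hw, hb⟩)
    · exact mem_union_right _ (mem_inter.2 ⟨hw, hc w hw hb⟩)
  have h1 := (card_le_card hsub).trans (card_union_le _ _)
  omega

end Vale.Agent.P160.Half.FlatTup
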