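import Vale.Agent.P160.Half.FlatC743d
import Vale.Agent.P160.Half.FlatG
import Vale.Agent.P160.Half.FlatF
import Vale.Agent.P160.Half.FlatL
import Vale.Agent.P160.Half.FlatD

/-! P160-HALF: COUNT for a general finite abelian group, unconditional. -/

namespace Vale.Agent.P160.Half.Flat.C743

open Vale.Agent.P160.Half.Flat

/-- COUNT -/
theorem countG743 : StmtCountG :=
  stmtCountG743 Grow.stmtGrowth Spl.stmtSplit stmtLarge FlatD.stmtDyadic

end Vale.Agent.P160.Half.Flat.C743
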