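import Vale.Agent.P160.Half.SparseDel

set_option linter.unusedSectionVars false

/-! # P160/Half: Odlyzko row by row (11331 (C)): `F_{a+1} ≤ (1 + (N²-1) α^{k-a}) F_a`

`W e PP M = ∏ p ∈ PP, p ^ (2 corank_p)` of `Half/SparseDel.lean`; `Fm` its average over `a × k` matrices. -/

namespace Vale.Agent.P160.Half.Fm296

open Finset Module Vale.Agent.P160.Half.SparseDel

lemma one_le_P {c : ℕ → ℝ} {PP : Finset ℕ} (hc : ∀ p ∈ PP, 1 ≤ c p) : (1 : ℝ) ≤ ∏ p ∈ PP, c p := by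
  have h := Finset.prod_le_prod (s := PP) (f := fun _ => (1 : ℝ)) (g := c)
    (fun _ _ => zero_le_one) hc
  simpa using h

open scoped Classical in
/-- product of weighted indicators -/
lemma prod_ind {X : Type*} [Fintype X] (A : ℕ → X → Prop) (c : ℕ → ℝ) {β : ℝ} (PP : Finset ℕ)
    (hc : ∀ p ∈ PP, 1 ≤ c p) (hβ : ∀ p ∈ PP, ((univ.filter fun x => A p x).card : ℝ) ≤ β) :
    ∑ x : X, ∏ p ∈ PP, (if A p x then c p else 1) ≤ Fintype.card X + (∏ p ∈ PP, c p - 1) * β := by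
  induction PP using Finset.induction_on with
  | empty => simp
  | insert q PP hq ih =>
    have hc' : ∀ p ∈ PP, 1 ≤ c p := fun p hp => hc p (mem_insert_of_mem hp)
    have h1 := ih hc' fun p hp => hβ p (mem_insert_of_mem hp)
    have hcq : 1 ≤ c q := hc q (mem_insert_self _ _)
    have hP : ∀ x : X, ∏ p ∈ PP, (if A p x then c p else 1) ≤ ∏ p ∈ PP, c p := by
      intro x
      apply prod_le_prod
      · intro p hp
        split_ifs
        · linarith [hc' p hp]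
        · norm_num
      · intro p hp
        split_ifs
        · exact le_rfl
        · exact hc' p hp
    have hP1 : (1 : ℝ) ≤ ∏ p ∈ PP, c p := one_le_P hc'
    have h2 : ∀ x : X, ∏ p ∈ insert q PP, (if A p x then c p else 1) ≤
        ∏ p ∈ PP, (if A p x then c p else 1) +
          (if A q x then (c q - 1) * ∏ p ∈ PP, c p else 0) := by
      intro x
      rw [prod_insert hq]
      split_ifs with h
      · nlinarith [hP x]
      · simp
    have h3 : ∑ x : X, (if A q x then (c q - 1) * ∏ p ∈ PP, c p else 0) ≤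
        (c q - 1) * (∏ p ∈ PP, c p) * β := by
      rw [← sum_filter, sum_const, nsmul_eq_mul, mul_comm]
      apply mul_le_mul_of_nonneg_left (hβ q (mem_insert_self _ _))
      apply mul_nonneg (by linarith) (by linarith)
    refine (sum_le_sum fun x _ => h2 x).trans ?_
    rw [sum_add_distrib, prod_insert hq]
    refine (add_le_add h1 h3).trans (le_of_eq ?_)
    ring

variable {Om : Type*} [Fintype Om]

/-- row span mod `p` -/
noncomputable def rsp (e : Om → ℤ) (p : ℕ) {a k : ℕ} (M : Fin a → Fin k → Om) :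
    Submodule (ZMod p) (Fin k → ZMod p) :=
  Submodule.span (ZMod p) (Set.range fun i : Fin a => fun j : Fin k => ((e (M i j) : ℤ) : ZMod p))

lemma rank_eq (e : Om → ℤ) {p : ℕ} [Fact p.Prime] {a k : ℕ} (M : Fin a → Fin k → Om) :
    (Matrix.of fun i j => ((e (M i j) : ℤ) : ZMod p)).rank = finrank (ZMod p) (rsp e p M) := by
  rw [Matrix.rank_eq_finrank_span_row]
  rfl

lemma finrank_rsp_le (e : Om → ℤ) {p : ℕ} [Fact p.Prime] {a k : ℕ} (M : Fin a → Fin k → Om) :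
    finrank (ZMod p) (rsp e p M) ≤ a := by
  rw [← rank_eq]
  exact Matrix.rank_le_height _

lemma rsp_mono (e : Om → ℤ) {p : ℕ} {a k : ℕ} (M : Fin (a + 1) → Fin k → Om) (i : Fin (a + 1)) :
    rsp e p (fun r => M (i.succAbove r)) ≤ rsp e p M := by
  apply Submodule.span_mono
  rintro _ ⟨r, rfl⟩
  exact ⟨i.succAbove r, rfl⟩

lemma cor_eq_of_notMem (e : Om → ℤ) {p : ℕ} [Fact p.Prime] {a k : ℕ}
    (M : Fin (a + 1) → Fin k → Om) (i : Fin (a + 1))
    (h : (fun j => ((e (M i j) : ℤ) : ZMod p)) ∉ rsp e p (fun r => M (i.succAbove r))) :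
    cor e p M ≤ cor e p (fun r => M (i.succAbove r)) := by
  have hlt : rsp e p (fun r => M (i.succAbove r)) < rsp e p M := by
    refine lt_of_le_of_ne (rsp_mono e M i) fun heq => h ?_
    rw [heq]
    exact Submodule.subset_span ⟨i, rfl⟩
  have h1 := Submodule.finrank_lt_finrank_of_lt hlt
  have h2 := finrank_rsp_le (p := p) e (fun r => M (i.succAbove r))
  unfold cor
  rw [rank_eq, rank_eq]
  omega

open scoped Classical in
lemma W_step (e : Om → ℤ) {PP : Finset ℕ} (hPP : ∀ p ∈ PP, p.Prime) {a k : ℕ}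
    (M : Fin (a + 1) → Fin k → Om) (i : Fin (a + 1)) :
    W e PP M ≤ W e PP (fun r => M (i.succAbove r)) * ∏ p ∈ PP,
      (if (fun j => ((e (M i j) : ℤ) : ZMod p)) ∈ rsp e p (fun r => M (i.succAbove r)) then
        (p : ℝ) ^ 2 else 1) := by
  unfold W
  rw [← prod_mul_distrib]
  apply prod_le_prod fun p _ => by positivity
  intro p hp
  have : Fact p.Prime := ⟨hPP p hp⟩
  have hp1 : (1 : ℝ) ≤ p := by exact_mod_cast (hPP p hp).one_lt.le
  split_ifs with h
  · rw [← pow_add]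
    apply pow_le_pow_right₀ hp1
    have := cor_le e (hPP p hp) M i
    omega
  · rw [mul_one]
    apply pow_le_pow_right₀ hp1
    have := cor_eq_of_notMem e M i h
    omega

open scoped Classical in
/-- **Odlyzko, one row** -/
theorem F_succ (e : Om → ℤ) {PP : Finset ℕ} (hPP : ∀ p ∈ PP, p.Prime) {al : ℝ} (h0 : 0 ≤ al)
    (h1 : al ≤ 1)
    (hat : ∀ p ∈ PP, ∀ z : ZMod p,
      ((univ.filter fun w : Om => ((e w : ℤ) : ZMod p) = z).card : ℝ) ≤ al * Fintype.card Om)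
    (a k : ℕ) :
    ∑ M : Fin (a + 1) → Fin k → Om, W e PP M ≤
      (1 + (∏ p ∈ PP, (p : ℝ) ^ 2 - 1) * al ^ (k - a)) * (Fintype.card Om : ℝ) ^ k *
        ∑ M : Fin a → Fin k → Om, W e PP M := by
  have hs : ∑ M : Fin (a + 1) → Fin k → Om, W e PP M =
      ∑ x : Fin k → Om, ∑ M : Fin a → Fin k → Om, W e PP (Fin.insertNth 0 x M) := by
    rw [← (Fin.insertNthEquiv (fun _ => Fin k → Om) 0).sum_comp, Fintype.sum_prod_type]
    rfl
  rw [hs, sum_comm, mul_sum]
  apply sum_le_sum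
  intro M _
  have h2 : ∀ x : Fin k → Om, W e PP (Fin.insertNth 0 x M : Fin (a + 1) → Fin k → Om) ≤
      W e PP M * ∏ p ∈ PP, (if (fun j => ((e (x j) : ℤ) : ZMod p)) ∈ rsp e p M then
        (p : ℝ) ^ 2 else 1) := by
    intro x
    have h := W_step e hPP (Fin.insertNth 0 x M : Fin (a + 1) → Fin k → Om) 0
    simpa only [Fin.insertNth_apply_succAbove, Fin.insertNth_apply_same] using h
  refine (sum_le_sum fun x _ => h2 x).trans ?_
  rw [← mul_sum, mul_comm]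
  apply mul_le_mul_of_nonneg_right _ (W_nonneg _ _ _)
  have hodl : ∀ p ∈ PP, ((univ.filter fun x : Fin k → Om =>
      (fun j => ((e (x j) : ℤ) : ZMod p)) ∈ rsp e p M).card : ℝ) ≤
      al ^ (k - a) * (Fintype.card Om : ℝ) ^ k := by
    intro p hp
    have : Fact p.Prime := ⟨hPP p hp⟩
    have h4 := odl (fun w : Om => ((e w : ℤ) : ZMod p)) h0 h1 (fun z => by
      refine le_trans (le_of_eq ?_) (hat p hp z)
      congr!) k (rsp e p M) 0
    simp only [sub_zero] at h4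
    refine h4.trans ?_
    have h5 := finrank_rsp_le (p := p) e M
    apply mul_le_mul_of_nonneg_right _ (by positivity)
    exact pow_le_pow_of_le_one h0 h1 (by omega)
  have hone : ∀ p ∈ PP, (1 : ℝ) ≤ (p : ℝ) ^ 2 := fun p hp =>
    one_le_pow₀ (by exact_mod_cast (hPP p hp).one_lt.le)
  have h3 := prod_ind (X := Fin k → Om)
    (fun p x => (fun j => ((e (x j) : ℤ) : ZMod p)) ∈ rsp e p M) (fun p => (p : ℝ) ^ 2)
    PP hone hodl
  refine h3.trans (le_of_eq ?_)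
  rw [Fintype.card_fun, Fintype.card_fin, Nat.cast_pow]
  ring

/-- average of `W` over `a × k` matrices -/
noncomputable def Fm (e : Om → ℤ) (PP : Finset ℕ) (a k : ℕ) : ℝ :=
  (∑ M : Fin a → Fin k → Om, W e PP M) / (Fintype.card Om : ℝ) ^ (a * k)

lemma Fm_nonneg (e : Om → ℤ) (PP : Finset ℕ) (a k : ℕ) : 0 ≤ Fm e PP a k :=
  div_nonneg (sum_nonneg fun M _ => W_nonneg _ _ _) (by positivity)

open scoped Classical in
theorem Fm_succ [Nonempty Om] (e : Om → ℤ) {PP : Finset ℕ} (hPP : ∀ p ∈ PP, p.Prime) {al : ℝ}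
    (h0 : 0 ≤ al) (h1 : al ≤ 1)
    (hat : ∀ p ∈ PP, ∀ z : ZMod p,
      ((univ.filter fun w : Om => ((e w : ℤ) : ZMod p) = z).card : ℝ) ≤ al * Fintype.card Om)
    (a k : ℕ) :
    Fm e PP (a + 1) k ≤ (1 + (∏ p ∈ PP, (p : ℝ) ^ 2 - 1) * al ^ (k - a)) * Fm e PP a k := by
  have hc : (0 : ℝ) < Fintype.card Om := by exact_mod_cast Fintype.card_pos
  unfold Fm
  rw [div_le_iff₀ (by positivity)]
  refine (F_succ e hPP h0 h1 hat a k).trans (le_of_eq ?_)
  field_simp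
  ring

lemma W_zero (e : Om → ℤ) (PP : Finset ℕ) {k : ℕ} (M : Fin 0 → Fin k → Om) : W e PP M = 1 := by
  unfold W cor
  simp

lemma Fm_zero (e : Om → ℤ) (PP : Finset ℕ) (k : ℕ) : Fm e PP 0 k = 1 := by
  unfold Fm
  simp [W_zero]

open scoped Classical in
/-- `F_a ≤ ∏ (1 + (N²-1) α^{k-j})` -/
theorem Fm_le_prod [Nonempty Om] (e : Om → ℤ) {PP : Finset ℕ} (hPP : ∀ p ∈ PP, p.Prime) {al : ℝ}
    (h0 : 0 ≤ al) (h1 : al ≤ 1)
    (hat : ∀ p ∈ PP, ∀ z : ZMod p,
      ((univ.filter fun w : Om => ((e w : ℤ) : ZMod p) = z).card : ℝ) ≤ al * Fintype.card Om)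
    (a k : ℕ) :
    Fm e PP a k ≤ ∏ j ∈ range a, (1 + (∏ p ∈ PP, (p : ℝ) ^ 2 - 1) * al ^ (k - j)) := by
  induction a with
  | zero => rw [Fm_zero]; simp
  | succ a ih =>
    rw [prod_range_succ, mul_comm]
    refine (Fm_succ e hPP h0 h1 hat a k).trans ?_
    apply mul_le_mul_of_nonneg_left ih
    have : (1 : ℝ) ≤ ∏ p ∈ PP, (p : ℝ) ^ 2 :=
      one_le_P (c := fun p => (p : ℝ) ^ 2) fun p hp => one_le_pow₀ (by exact_mod_cast (hPP p hp).one_lt.le)
    have h2 : 0 ≤ al ^ (k - a) := by positivity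
    nlinarith

open scoped Classical in
/-- `F_a ≤ exp (a N² α^{k-a})` for `a ≤ k` -/
theorem Fm_le_exp [Nonempty Om] (e : Om → ℤ) {PP : Finset ℕ} (hPP : ∀ p ∈ PP, p.Prime) {al : ℝ}
    (h0 : 0 ≤ al) (h1 : al ≤ 1)
    (hat : ∀ p ∈ PP, ∀ z : ZMod p,
      ((univ.filter fun w : Om => ((e w : ℤ) : ZMod p) = z).card : ℝ) ≤ al * Fintype.card Om)
    (a k : ℕ) :
    Fm e PP a k ≤ Real.exp (a * ((∏ p ∈ PP, (p : ℝ)) ^ 2 * al ^ (k - a))) := by
  refine (Fm_le_prod e hPP h0 h1 hat a k).trans ?_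
  have hN : (1 : ℝ) ≤ ∏ p ∈ PP, (p : ℝ) ^ 2 :=
    one_le_P (c := fun p => (p : ℝ) ^ 2) fun p hp => one_le_pow₀ (by exact_mod_cast (hPP p hp).one_lt.le)
  have h2 : ∀ j ∈ range a, 1 + (∏ p ∈ PP, (p : ℝ) ^ 2 - 1) * al ^ (k - j) ≤
      Real.exp ((∏ p ∈ PP, (p : ℝ)) ^ 2 * al ^ (k - a)) := by
    intro j hj
    have hj' := mem_range.1 hj
    have h3 : al ^ (k - j) ≤ al ^ (k - a) := pow_le_pow_of_le_one h0 h1 (by omega)
    have h4 : 0 ≤ al ^ (k - j) := by positivity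
    have h5 : (∏ p ∈ PP, (p : ℝ) ^ 2 - 1) * al ^ (k - j) ≤
        (∏ p ∈ PP, (p : ℝ)) ^ 2 * al ^ (k - a) := by
      rw [← prod_pow]
      nlinarith
    have h6 := Real.add_one_le_exp ((∏ p ∈ PP, (p : ℝ)) ^ 2 * al ^ (k - a))
    linarith
  refine (prod_le_prod (fun j hj => ?_) h2).trans ?_
  · have h4 : 0 ≤ al ^ (k - j) := by positivity
    nlinarith
  · rw [prod_const, card_range, ← Real.exp_nat_mul]

/-- the recursion of 11331 (C) -/
theorem rec_le {F : ℕ → ℝ} {A B : ℝ} (hA : 0 ≤ A) (hB0 : 0 ≤ B) (hB : B ≤ 1 / 2) {m₀ k : ℕ}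
    (h0 : 0 ≤ F m₀)
    (h : ∀ m, m₀ ≤ m → m + 1 ≤ k → F (m + 1) ≤ A + B * F m) :
    ∀ m, m₀ ≤ m → m ≤ k → F m ≤ 2 * A + F m₀ := by
  intro m hm
  induction m, hm using Nat.le_induction with
  | base => intro _; linarith
  | succ m hm ih =>
    intro hk
    have h1 := ih (by omega)
    have h2 := h m hm hk
    have h3 : B * F m ≤ B * (2 * A + F m₀) := mul_le_mul_of_nonneg_left h1 hB0
    nlinarith

end Vale.Agent.P160.Half.Fm296
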