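import Vale.Agent.P160.Half.Four817a
import Vale.Agent.P160.Half.FlatC743b
import Vale.Agent.P160.Half.FlatD

/-! P160-HALF, COUNT for `cf 4`: structure, DYADIC, LARGE with numbers (port of helper743, helper864). -/

namespace Vale.Agent.P160.Half.Flat4

open Finset Vale.Agent.P160 Vale.Agent.P160.Half.Flat Vale.Agent.P160.Half.Flat.C743

lemma cf4_eq {z : ℂ} (hz : ‖z‖ = 1) : cf 4 z = 1 - ‖z - 1‖ ^ 2 / 4 := by
  rw [norm_sub_one_sq hz]
  unfold cf
  push_cast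
  ring

lemma cf4_le_exp {z : ℂ} (hz : ‖z‖ = 1) : cf 4 z ≤ Real.exp (-(‖z - 1‖ ^ 2 / 4)) := by
  rw [cf4_eq hz]
  have := Real.add_one_le_exp (-(‖z - 1‖ ^ 2 / 4))
  linarith

section
variable {G : Type} [AddCommGroup G] [Fintype G]

lemma gP_le {m : ℕ} (y : Fin m → G) (ψ : AddChar G ℂ) : gP 4 y ψ ≤ 1 := by
  unfold gP
  exact Finset.prod_le_one (fun e _ => cf_nonneg (by norm_num) (AddChar.norm_apply ψ _))
    fun e _ => cf_le_one (AddChar.norm_apply ψ _)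

omit [Fintype G] in
lemma gP_one {m : ℕ} (y : Fin m → G) : gP 4 y 1 = 1 := by
  unfold gP
  simp [cf]

lemma energy4 {m : ℕ} {y : Fin m → G} {ψ : AddChar G ℂ} {t : ℝ} (ht : 0 < t)
    (h : t ≤ gP 4 y ψ) : ∑ c, ‖ψ (y c) - 1‖ ^ 2 ≤ 8 * -Real.log t := by
  have h1 : gP 4 y ψ ≤ ∏ c, Real.exp (-(‖ψ (y c) - 1‖ ^ 2 / 4)) := by
    unfold gP
    refine prod_le_prod (fun c _ => cf_nonneg (by norm_num) (AddChar.norm_apply ψ _)) ?_
    intro c _
    exact cf4_le_exp (AddChar.norm_apply ψ _)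
  rw [← Real.exp_sum] at h1
  have h2 := Real.log_le_log ht (h.trans h1)
  rw [Real.log_exp, sum_neg_distrib, ← sum_div] at h2
  have h3 : 0 ≤ ∑ c, ‖ψ (y c) - 1‖ ^ 2 := sum_nonneg fun c _ => sq_nonneg _
  linarith

lemma few4 {m : ℕ} {y : Fin m → G} {ψ : AddChar G ℂ} {t r : ℝ} (ht : 0 < t)
    (hr : 0 < r) (h : t ≤ gP 4 y ψ) :
    ((univ.filter fun c => r < ‖ψ (y c) - 1‖).card : ℝ) * r ^ 2 ≤ 8 * -Real.log t := by
  refine le_trans ?_ (energy4 ht h)
  calc ((univ.filter fun c => r < ‖ψ (y c) - 1‖).card : ℝ) * r ^ 2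
      = ∑ c ∈ univ.filter (fun c => r < ‖ψ (y c) - 1‖), r ^ 2 := by
        rw [sum_const, nsmul_eq_mul]
    _ ≤ ∑ c ∈ univ.filter (fun c => r < ‖ψ (y c) - 1‖), ‖ψ (y c) - 1‖ ^ 2 := by
        refine sum_le_sum fun c hc => ?_
        rw [mem_filter] at hc
        exact pow_le_pow_left₀ hr.le hc.2.le 2
    _ ≤ ∑ c, ‖ψ (y c) - 1‖ ^ 2 :=
        sum_le_sum_of_subset_of_nonneg (filter_subset _ _) fun c _ _ => sq_nonneg _

/-- coordinates outside the Bohr set -/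
lemma out_le4 {m n : ℕ} {y : Fin m → G} {s : Fin n → AddChar G ℂ} {t r : ℝ} (ht : 0 < t)
    (hr : 0 < r) (h : ∀ i, t ≤ gP 4 y (s i)) :
    ((univ.filter fun c => ¬ ∀ i, ‖s i (y c) - 1‖ ≤ r).card : ℝ) * r ^ 2
      ≤ n * (8 * -Real.log t) := by
  classical
  have h1 : (univ.filter fun c => ¬ ∀ i, ‖s i (y c) - 1‖ ≤ r)
      ⊆ univ.biUnion fun i => univ.filter fun c => r < ‖s i (y c) - 1‖ := by
    intro c hc
    rw [mem_filter] at hc
    have hc2 := hc.2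
    push Not at hc2
    obtain ⟨i, hi⟩ := hc2
    rw [mem_biUnion]
    exact ⟨i, mem_univ _, by rw [mem_filter]; exact ⟨mem_univ _, hi⟩⟩
  have h2 : ((univ.filter fun c => ¬ ∀ i, ‖s i (y c) - 1‖ ≤ r).card : ℝ)
      ≤ ∑ i, ((univ.filter fun c => r < ‖s i (y c) - 1‖).card : ℝ) := by
    exact_mod_cast (card_le_card h1).trans card_biUnion_le
  calc ((univ.filter fun c => ¬ ∀ i, ‖s i (y c) - 1‖ ≤ r).card : ℝ) * r ^ 2
      ≤ (∑ i, ((univ.filter fun c => r < ‖s i (y c) - 1‖).card : ℝ)) * r ^ 2 :=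
        mul_le_mul_of_nonneg_right h2 (sq_nonneg _)
    _ = ∑ i, ((univ.filter fun c => r < ‖s i (y c) - 1‖).card : ℝ) * r ^ 2 := by
        rw [sum_mul]
    _ ≤ ∑ _i : Fin n, 8 * -Real.log t := sum_le_sum fun i _ => few4 ht hr (h i)
    _ = _ := by rw [sum_const, card_univ, Fintype.card_fin, nsmul_eq_mul]

/-- DYADIC for `cf 4`: levels up to `N`, `|G| 2^{-(N+1)} ≤ T/2`. -/
theorem dyadic4 {m N : ℕ} (y : Fin m → G) {T : ℝ} (hT : 0 < T)
    (hN : (Fintype.card G : ℝ) * (1 / 2) ^ (N + 1) ≤ T / 2) (hZ : 1 + T ≤ gZ 4 y) :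
    ∃ i : ℕ, i ≤ N ∧
      (2 : ℝ) ^ i * (T / 2) / ((i + 1) * (i + 2)) ≤ (Lam4 y ((1 / 2) ^ (i + 1))).card := by
  classical
  by_contra hcon
  push Not at hcon
  have hZ1 : gZ 4 y = 1 + ∑ ψ ∈ univ.erase (1 : AddChar G ℂ), gP 4 y ψ := by
    unfold gZ
    rw [← Finset.add_sum_erase univ _ (mem_univ (1 : AddChar G ℂ)), gP_one]
  have hY : T ≤ ∑ ψ ∈ univ.erase (1 : AddChar G ℂ), gP 4 y ψ := by linarith
  have hle : ∀ ψ ∈ univ.erase (1 : AddChar G ℂ), gP 4 y ψ ≤ (1 / 2 : ℝ) ^ (N + 1) +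
      ∑ i ∈ range (N + 1), (if (1 / 2 : ℝ) ^ (i + 1) ≤ gP 4 y ψ then (1 / 2 : ℝ) ^ i else 0) := by
    intro ψ _
    have hs0 : 0 ≤ ∑ i ∈ range (N + 1), (if (1 / 2 : ℝ) ^ (i + 1) ≤ gP 4 y ψ then
        (1 / 2 : ℝ) ^ i else 0) := sum_nonneg fun i _ => by split_ifs <;> positivity
    by_cases hx : gP 4 y ψ ≤ (1 / 2 : ℝ) ^ (N + 1)
    · linarith
    · push Not at hx
      obtain ⟨i, hi, h3, h4⟩ := FlatD.exists_level hx.le (gP_le y ψ)
      rcases Nat.lt_or_ge i (N + 1) with hi2 | hi2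
      · have := Finset.single_le_sum (f := fun i => if (1 / 2 : ℝ) ^ (i + 1) ≤ gP 4 y ψ then
          (1 / 2 : ℝ) ^ i else 0) (s := range (N + 1)) (fun j _ => by split_ifs <;> positivity)
          (mem_range.2 hi2)
        rw [if_pos h3] at this
        have hp : (0 : ℝ) < (1 / 2) ^ (N + 1) := by positivity
        linarith
      · have : i = N + 1 := le_antisymm hi hi2
        rw [this] at h4
        linarith
  have hc : ((univ.erase (1 : AddChar G ℂ)).card : ℝ) ≤ Fintype.card G := by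
    have h := card_le_univ (univ.erase (1 : AddChar G ℂ))
    rw [AddChar.card_eq] at h
    exact_mod_cast h
  have h5 : ∑ ψ ∈ univ.erase (1 : AddChar G ℂ), gP 4 y ψ ≤ T / 2 +
      ∑ i ∈ range (N + 1), (1 / 2 : ℝ) ^ i * ((Lam4 y ((1 / 2) ^ (i + 1))).card : ℝ) := by
    refine (Finset.sum_le_sum hle).trans ?_
    rw [Finset.sum_add_distrib, Finset.sum_comm]
    refine add_le_add ?_ (le_of_eq (Finset.sum_congr rfl fun i _ => ?_))
    · rw [sum_const, nsmul_eq_mul]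
      exact (mul_le_mul_of_nonneg_right hc (by positivity)).trans hN
    · rw [← Finset.sum_filter, Finset.sum_const, nsmul_eq_mul, mul_comm]
      congr 2
      congr 1
      unfold Lam4
      ext ψ
      simp [and_comm]
  have h6 : ∑ i ∈ range (N + 1), (1 / 2 : ℝ) ^ i * ((Lam4 y ((1 / 2) ^ (i + 1))).card : ℝ) <
      ∑ i ∈ range (N + 1), T / 2 * (1 / (((i : ℝ) + 1) * ((i : ℝ) + 2))) := by
    refine Finset.sum_lt_sum_of_nonempty ⟨0, mem_range.2 (by omega)⟩ fun i hi => ?_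
    have hi' : i ≤ N := Nat.lt_succ_iff.1 (mem_range.1 hi)
    have h7 := hcon i hi'
    have h8 : (0 : ℝ) < (1 / 2) ^ i := by positivity
    have h9 := mul_lt_mul_of_pos_left h7 h8
    refine h9.trans_le (le_of_eq ?_)
    have h10 : (1 / 2 : ℝ) ^ i * 2 ^ i = 1 := by rw [← mul_pow]; norm_num
    calc (1 / 2 : ℝ) ^ i * (2 ^ i * (T / 2) / (((i : ℝ) + 1) * ((i : ℝ) + 2)))
        = ((1 / 2 : ℝ) ^ i * 2 ^ i) * (T / 2 / (((i : ℝ) + 1) * ((i : ℝ) + 2))) := by ring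
      _ = _ := by rw [h10]; ring
  rw [← Finset.mul_sum, FlatD.sum_tele] at h6
  have h11 : (0 : ℝ) < 1 / (((N + 1 : ℕ) : ℝ) + 1) := by positivity
  have h12 : T / 2 * (1 - 1 / (((N + 1 : ℕ) : ℝ) + 1)) < T / 2 := by nlinarith
  linarith

open scoped Classical in
/-- LARGE with explicit numbers (`T` = half of the true one) -/
lemma large_count4 {m l i : ℕ} {T t c k : ℝ} (hT : 1 / (2 * k) ≤ T) (hk : 1 ≤ k)
    (him : (i : ℝ) ≤ 3 * k) (ht : t = (1 / 2) ^ (i + 1))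
    (hg : (Fintype.card G : ℝ) * (1 / 2) ^ m ≤ Real.exp (-c * k))
    (hl : (8 : ℝ) ^ l ≤ 2 ^ i * T / ((i + 1) * (i + 2))) :
    ((univ.filter fun y : Fin m → G =>
      2 ^ i * T / ((i + 1) * (i + 2)) ≤ (Lam4 y t).card).card : ℝ)
      ≤ (Fintype.card G : ℝ) ^ m * (160 * k ^ 3 * Real.exp (-c * k)) ^ l := by
  have hk0 : 0 < k := by linarith
  have hT0 : 0 < T := lt_of_lt_of_le (by positivity) hT
  have ht0 : 0 < t := by rw [ht]; positivity
  set K : ℝ := 2 ^ i * T / ((i + 1) * (i + 2)) with hK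
  have hK0 : 0 < K := by rw [hK]; positivity
  have hl4 : (4 : ℝ) ^ l ≤ K := le_trans (pow_le_pow_left₀ (by norm_num) (by norm_num) _) hl
  have h := stmtLarge4 G m l K t ht0 hl4
  have hKt : 1 / (160 * k ^ 3) ≤ K / 2 * t := by
    have e : K / 2 * t = T / (4 * ((i + 1) * (i + 2))) := by
      rw [hK, ht, pow_succ, one_div, inv_pow]
      field_simp
      ring
    rw [e, div_le_div_iff₀ (by positivity) (by positivity)]
    have h2 : ((i : ℝ) + 1) * (i + 2) ≤ (3 * k + 1) * (3 * k + 2) := by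
      have := Nat.cast_nonneg (α := ℝ) i
      nlinarith
    have h3 : (3 * k + 1) * (3 * k + 2) ≤ 20 * k ^ 2 := by nlinarith
    have h4 : 1 ≤ T * (2 * k) := by
      rwa [div_le_iff₀ (by positivity)] at hT
    have h5 : 20 * k ^ 2 ≤ 20 * k ^ 2 * (T * (2 * k)) := by
      have : 0 ≤ 20 * k ^ 2 := by positivity
      nlinarith
    nlinarith
  have hpos : 0 < (K / 2) ^ l * t ^ l := by positivity
  have h6 : ((univ.filter fun y : Fin m → G => K ≤ (Lam4 y t).card).card : ℝ)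
      ≤ (Fintype.card G : ℝ) ^ l * (Fintype.card G * (1 / 2) ^ l) ^ m
        / ((K / 2) ^ l * t ^ l) := by
    rw [le_div_iff₀ hpos]
    convert h using 3
  refine h6.trans ?_
  rw [div_le_iff₀ hpos]
  have e1 : (Fintype.card G : ℝ) ^ l * (Fintype.card G * (1 / 2) ^ l) ^ m
      = (Fintype.card G : ℝ) ^ m * (Fintype.card G * (1 / 2) ^ m) ^ l := by
    rw [mul_pow, mul_pow, ← pow_mul, ← pow_mul, mul_comm l m]
    ring
  rw [e1, mul_assoc, ← mul_pow, ← mul_pow]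
  refine mul_le_mul_of_nonneg_left ?_ (by positivity)
  refine pow_le_pow_left₀ (by positivity) (hg.trans ?_) _
  have h7 : 1 ≤ 160 * k ^ 3 * (K / 2 * t) := by
    have := mul_le_mul_of_nonneg_left hKt (show (0 : ℝ) ≤ 160 * k ^ 3 by positivity)
    rwa [mul_one_div, div_self (by positivity)] at this
  calc Real.exp (-c * k) = Real.exp (-c * k) * 1 := by ring
    _ ≤ Real.exp (-c * k) * (160 * k ^ 3 * (K / 2 * t)) :=
        mul_le_mul_of_nonneg_left h7 (Real.exp_pos _).le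
    _ = _ := by ring

end

end Vale.Agent.P160.Half.Flat4
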