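import Vale.Agent.P160.Half.Four817c
import Vale.Agent.P160.Half.FlatG
import Vale.Agent.P160.Half.FlatF

/-! P160-HALF, COUNT for `cf 4`: the small case and the theorem `countG4` (port of helper743). -/

namespace Vale.Agent.P160.Half.Flat4

open Finset Filter Vale.Agent.P160 Vale.Agent.P160.Half.Flat Vale.Agent.P160.Half.Flat.C743

section
variable {G : Type} [AddCommGroup G] [Fintype G]

/-- structure of one bad matrix in the small case -/
lemma small_one4 (hGr : StmtGrowth) (hSp : StmtSplit) {m L k : ℕ} {y : Fin m → G}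
    {T C₀ C₂ η x : ℝ} (hxk : x = k) (hη : 0 < η) (hη1 : η ≤ 1 / 16) (hC₀ : 0 < C₀)
    (hC₂ : 0 < C₂) (hx : 96 ≤ x) (hT' : T ≤ x ^ C₀) (hLn : C₀ / η ≤ L)
    (hp : ∀ p : ℕ, p.Prime → p ∣ Fintype.card G → k ≤ p)
    (h8 : 8 ≤ x ^ η) (h40 : 40 ≤ x ^ (3 / 16 : ℝ))
    (hE : 8 * ((L : ℝ) + 1) * C₂ * 2 * Real.log x ≤ x ^ (2 * η))
    (hns : NonSp (x ^ (1 - 4 * η)) y)
    (hΛ : max 1 T / 6 ≤ (Lam4 y (x ^ (-C₂))).card) :
    ∃ s : Fin (L + 1) → AddChar G ℂ,
      ((tb s (x ^ (-(1 / 2) + 3 * η))).card : ℝ)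
        ≤ 307200 * Fintype.card G * x ^ (-(1 / 2) + 7 * η) / max 1 T ∧
      ((univ.filter fun c => ¬ ∀ i, ‖s i (y c) - 1‖ ≤ x ^ (-(1 / 2) + 3 * η)).card : ℝ)
        ≤ 8 * ((L : ℝ) + 1) * C₂ * Real.log x * x ^ (1 - 6 * η) := by
  classical
  have hx0 : 0 < x := by linarith
  have hx1 : 1 ≤ x := by linarith
  have hg0 : (0 : ℝ) < Fintype.card G := by
    exact_mod_cast Fintype.card_pos
  set M : ℝ := max 1 T with hMdef
  have hM1 : 1 ≤ M := le_max_left _ _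
  have hM0 : 0 < M := by linarith
  have hM : M ≤ x ^ C₀ := max_le (Real.one_le_rpow hx1 hC₀.le) hT'
  have hlog : 0 < Real.log x := Real.log_pos (by linarith)
  set J : ℕ := ⌈x ^ (2 * η)⌉₊ with hJ
  have hJ1 : x ^ (2 * η) ≤ J := Nat.le_ceil _
  have hx2 : 1 ≤ x ^ (2 * η) := Real.one_le_rpow hx1 (by positivity)
  have hJ2 : (J : ℝ) ≤ 2 * x ^ (2 * η) := by
    have := (Nat.ceil_lt_add_one (show 0 ≤ x ^ (2 * η) by positivity)).le
    rw [← hJ] at this
    linarith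
  have hJ0 : (0 : ℝ) < J := by linarith
  have hJk : J ≤ k := by
    rw [hJ]
    refine Nat.ceil_le.2 ?_
    rw [← hxk]
    calc x ^ (2 * η) ≤ x ^ (1 : ℝ) := Real.rpow_le_rpow_of_exponent_le hx1 (by linarith)
      _ = x := Real.rpow_one x
  set θ : ℝ := x ^ (-η) with hθdef
  have hθ0 : 0 < θ := Real.rpow_pos_of_pos hx0 _
  have hθJ : 8 ≤ θ * J := by
    calc (8 : ℝ) ≤ x ^ η := h8
      _ = x ^ (-η) * x ^ (2 * η) := by
          rw [← Real.rpow_add hx0]; congr 1; ring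
      _ ≤ θ * J := mul_le_mul_of_nonneg_left hJ1 hθ0.le
  have hne : (Lam4 y (x ^ (-C₂))).Nonempty := by
    rw [← card_pos]
    have : (0 : ℝ) < (Lam4 y (x ^ (-C₂))).card := lt_of_lt_of_le (by positivity) hΛ
    exact_mod_cast this
  obtain ⟨s, hs, hcard⟩ := chain hSp hne hθ0 hθJ (fun p hpp hpd => hJk.trans (hp p hpp hpd))
    (show 0 < M / 6 by positivity) hΛ (L + 1)
  have hsΛ : ∀ i, s i ≠ 1 ∧ x ^ (-C₂) ≤ gP 4 y (s i) := fun i => (mem_Lam4 _ _ _).1 (hs i)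
  have hcard2 : ((tb s (1 / J)).card : ℝ) ≤ 1536 * Fintype.card G * x ^ (2 * η) / M := by
    refine hcard.trans (max_le ?_ ?_)
    · have h1 : θ ^ (L + 1) ≤ 1 / M := by
        calc θ ^ (L + 1) = x ^ (-η * ((L : ℝ) + 1)) := by
              rw [hθdef, ← Real.rpow_natCast, ← Real.rpow_mul hx0.le]
              push_cast
              rfl
          _ ≤ x ^ (-C₀) := by
              refine Real.rpow_le_rpow_of_exponent_le hx1 ?_
              rw [div_le_iff₀ hη] at hLn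
              nlinarith
          _ = 1 / x ^ C₀ := by rw [Real.rpow_neg hx0.le, one_div]
          _ ≤ 1 / M := one_div_le_one_div_of_le hM0 hM
      calc θ ^ (L + 1) * (Fintype.card G : ℝ) ≤ 1 / M * Fintype.card G :=
            mul_le_mul_of_nonneg_right h1 hg0.le
        _ = (Fintype.card G : ℝ) * 1 / M := by ring
        _ ≤ 1536 * Fintype.card G * x ^ (2 * η) / M := by
            refine div_le_div_of_nonneg_right ?_ hM0.le
            nlinarith
    · have e : θ ^ 2 = (x ^ (2 * η))⁻¹ := by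
        rw [hθdef, ← Real.rpow_natCast, ← Real.rpow_mul hx0.le, ← Real.rpow_neg hx0.le]
        congr 1
        push_cast
        ring
      rw [e]
      have hp2 : 0 < x ^ (2 * η) := by positivity
      apply le_of_eq
      field_simp
      ring
  set ρ : ℝ := x ^ (-(1 / 2) + 3 * η) with hρdef
  have hρ0 : 0 < ρ := Real.rpow_pos_of_pos hx0 _
  have hout := out_le4 (y := y) (s := s) (t := x ^ (-C₂)) (r := ρ)
    (Real.rpow_pos_of_pos hx0 _) hρ0 (fun i => (hsΛ i).2)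
  rw [Real.log_rpow hx0] at hout
  push_cast at hout
  have hout2 : ((univ.filter fun c => ¬ ∀ i, ‖s i (y c) - 1‖ ≤ ρ).card : ℝ)
      ≤ 8 * ((L : ℝ) + 1) * C₂ * Real.log x * x ^ (1 - 6 * η) := by
    have e : ρ ^ 2 * x ^ (1 - 6 * η) = 1 := by
      rw [hρdef, ← Real.rpow_natCast, ← Real.rpow_mul hx0.le, ← Real.rpow_add hx0]
      have : (-(1 / 2) + 3 * η) * ((2 : ℕ) : ℝ) + (1 - 6 * η) = 0 := by push_cast; ring
      rw [this, Real.rpow_zero]
    have hq : 0 ≤ x ^ (1 - 6 * η) := Real.rpow_nonneg hx0.le _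
    calc ((univ.filter fun c => ¬ ∀ i, ‖s i (y c) - 1‖ ≤ ρ).card : ℝ)
        = ((univ.filter fun c => ¬ ∀ i, ‖s i (y c) - 1‖ ≤ ρ).card : ℝ) * ρ ^ 2
            * x ^ (1 - 6 * η) := by rw [mul_assoc, e, mul_one]
      _ ≤ (((L : ℝ) + 1) * (8 * -(-C₂ * Real.log x))) * x ^ (1 - 6 * η) :=
          mul_le_mul_of_nonneg_right hout hq
      _ = _ := by ring
  refine ⟨s, ?_, hout2⟩
  have hσ : 20 * ρ ≤ 1 / (J : ℝ) := by
    rw [le_div_iff₀ hJ0]
    calc 20 * ρ * J ≤ 20 * ρ * (2 * x ^ (2 * η)) :=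
          mul_le_mul_of_nonneg_left hJ2 (by positivity)
      _ = 40 * (ρ * x ^ (2 * η)) := by ring
      _ ≤ x ^ (3 / 16 : ℝ) * (ρ * x ^ (2 * η)) :=
          mul_le_mul_of_nonneg_right h40 (by positivity)
      _ = x ^ (3 / 16 + ((-(1 / 2) + 3 * η) + 2 * η)) := by
          rw [hρdef, ← Real.rpow_add hx0, ← Real.rpow_add hx0]
      _ ≤ x ^ (0 : ℝ) := Real.rpow_le_rpow_of_exponent_le hx1 (by linarith)
      _ = 1 := Real.rpow_zero _
  have hσ1 : 1 / (J : ℝ) ≤ 1 := by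
    rw [div_le_one hJ0]
    linarith
  rcases hGr G (univ.image s) ρ (1 / J) hρ0 hσ hσ1 with h | h
  · exfalso
    have h1 := hns (s 0) (hsΛ 0).1
    have h2 : ((univ.filter fun c => s 0 (y c) ≠ 1).card : ℝ)
        ≤ ((univ.filter fun c => ¬ ∀ i, ‖s i (y c) - 1‖ ≤ ρ).card : ℝ) := by
      refine Nat.cast_le.2 (card_le_card ?_)
      intro c hc
      rw [mem_filter] at hc ⊢
      refine ⟨mem_univ _, fun hall => hc.2 ?_⟩
      have hv : y c ∈ bohr (univ.image s) ρ := by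
        have : y c ∈ tb s ρ := mem_tb.2 hall
        unfold tb at this
        convert this
      exact h (y c) hv (s 0) (mem_image_of_mem s (mem_univ _))
    have h3 := h1.trans (h2.trans hout2)
    have e : x ^ (1 - 4 * η) = x ^ (2 * η) * x ^ (1 - 6 * η) := by
      rw [← Real.rpow_add hx0]; congr 1; ring
    rw [e] at h3
    have hq : 0 < x ^ (1 - 6 * η) := Real.rpow_pos_of_pos hx0 _
    have h4 := le_of_mul_le_mul_right h3 hq
    have h5 : 0 < 8 * ((L : ℝ) + 1) * C₂ * Real.log x := by positivity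
    linarith
  · have htb : (tb s ρ).card = (bohr (univ.image s) ρ).card := by
      unfold tb
      congr!
    have htb2 : (tb s (1 / J)).card = (bohr (univ.image s) (1 / J)).card := by
      unfold tb
      congr!
    rw [← htb, ← htb2, mul_one_div, div_le_iff₀ hJ0] at h
    calc ((tb s ρ).card : ℝ) ≤ 100 * ρ * (tb s (1 / J)).card * J := h
      _ ≤ 100 * ρ * (1536 * Fintype.card G * x ^ (2 * η) / M) * (2 * x ^ (2 * η)) := by
          refine mul_le_mul (mul_le_mul_of_nonneg_left hcard2 (by positivity)) hJ2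
            hJ0.le (by positivity)
      _ = 307200 * Fintype.card G * (ρ * x ^ (2 * η) * x ^ (2 * η)) / M := by ring
      _ = _ := by
          rw [hρdef, ← Real.rpow_add hx0, ← Real.rpow_add hx0]
          congr 3
          ring

open scoped Classical in
/-- the small case -/
lemma small_case4 (hGr : StmtGrowth) (hSp : StmtSplit) {m L k : ℕ}
    {T C₀ C₂ η x : ℝ} (hxk : x = k) (hη : 0 < η) (hη1 : η ≤ 1 / 16) (hC₀ : 0 < C₀)
    (hC₂ : 0 < C₂) (hx : 96 ≤ x) (hT' : T ≤ x ^ C₀) (hLn : C₀ / η ≤ L)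
    (hp : ∀ p : ℕ, p.Prime → p ∣ Fintype.card G → k ≤ p)
    (h8 : 8 ≤ x ^ η) (h40 : 40 ≤ x ^ (3 / 16 : ℝ))
    (hE : 8 * ((L : ℝ) + 1) * C₂ * 2 * Real.log x ≤ x ^ (2 * η))
    (hm1 : x ≤ 2 * m)
    (hg : (Fintype.card G : ℝ) ≤ 2 ^ m)
    (hR : (C₀ + 1) * (8 * ((L : ℝ) + 1) * C₂ * Real.log x * x ^ (1 - 6 * η)) * Real.log x
      ≤ x / 2)
    (hbig : (2 : ℝ) ^ (L + 1) * 4 * 307200 * 3 ≤ x ^ (9 * η)) :
    ((univ.filter fun y : Fin m → G => NonSp (x ^ (1 - 4 * η)) y ∧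
      max 1 T / 6 ≤ (Lam4 y (x ^ (-C₂))).card).card : ℝ)
      ≤ (Fintype.card G : ℝ) ^ m * (x ^ (-(1 / 2) + 16 * η) / max 1 T) ^ m / 2 := by
  have hx0 : 0 < x := by linarith
  have hx1 : 1 ≤ x := by linarith
  have hg0 : (0 : ℝ) < Fintype.card G := by
    exact_mod_cast Fintype.card_pos
  have hM1 : 1 ≤ max 1 T := le_max_left _ _
  have hM0 : 0 < max 1 T := by linarith
  have hM : max 1 T ≤ x ^ C₀ := max_le (Real.one_le_rpow hx1 hC₀.le) hT'
  have hlog : 0 < Real.log x := Real.log_pos (by linarith)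
  set U : ℝ := 307200 * Fintype.card G * x ^ (-(1 / 2) + 7 * η) / max 1 T with hU
  have hU0 : 0 < U := by rw [hU]; positivity
  set E : ℝ := 8 * ((L : ℝ) + 1) * C₂ * Real.log x * x ^ (1 - 6 * η) with hEdef
  have hUR : (Fintype.card G : ℝ) ≤ U * x ^ (C₀ + 1) := by
    have h1 : max 1 T ≤ x ^ (-(1 / 2) + 7 * η) * x ^ (C₀ + 1) := by
      rw [← Real.rpow_add hx0]
      exact hM.trans (Real.rpow_le_rpow_of_exponent_le hx1 (by linarith))
    rw [hU, div_mul_eq_mul_div, le_div_iff₀ hM0]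
    have h2 := mul_le_mul_of_nonneg_left h1 hg0.le
    have h3 : 0 ≤ (Fintype.card G : ℝ) * (x ^ (-(1 / 2) + 7 * η) * x ^ (C₀ + 1)) := by
      positivity
    calc (Fintype.card G : ℝ) * max 1 T ≤
          (Fintype.card G : ℝ) * (x ^ (-(1 / 2) + 7 * η) * x ^ (C₀ + 1)) := h2
      _ ≤ 307200 * ((Fintype.card G : ℝ) * (x ^ (-(1 / 2) + 7 * η) * x ^ (C₀ + 1))) := by
          linarith
      _ = _ := by ring
  have hcore := count_core (G := G) (m := m) (n := L + 1) (r := x ^ (-(1 / 2) + 3 * η))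
    (U := U) (R := x ^ (C₀ + 1)) (E := E) hU0 (Real.one_le_rpow hx1 (by linarith)) hUR
  refine le_trans (Nat.cast_le.2 (card_le_card ?_)) (hcore.trans ?_)
  · intro y hy
    rw [mem_filter] at hy ⊢
    exact ⟨mem_univ _, small_one4 hGr hSp hxk hη hη1 hC₀ hC₂ hx hT' hLn hp h8 h40 hE hy.2.1
      hy.2.2⟩
  · have hRE : (x ^ (C₀ + 1)) ^ E ≤ 3 ^ m := by
      calc (x ^ (C₀ + 1)) ^ E = Real.exp ((C₀ + 1) * E * Real.log x) := by
            rw [← Real.rpow_mul hx0.le, Real.rpow_def_of_pos hx0]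
            congr 1
            ring
        _ ≤ Real.exp ((m : ℝ) * 1) := Real.exp_le_exp.2 (by linarith)
        _ = (Real.exp 1) ^ m := Real.exp_nat_mul _ _
        _ ≤ 3 ^ m := pow_le_pow_left₀ (Real.exp_pos _).le
            (by have := Real.exp_one_lt_d9; linarith) _
    have hgn : (Fintype.card G : ℝ) ^ (L + 1) ≤ (2 ^ (L + 1)) ^ m := by
      calc (Fintype.card G : ℝ) ^ (L + 1) ≤ (2 ^ m) ^ (L + 1) :=
            pow_le_pow_left₀ hg0.le hg _
        _ = _ := by rw [← pow_mul, ← pow_mul, mul_comm]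
    have hmpos : 1 ≤ m := by
      by_contra hno
      have : m = 0 := by omega
      rw [this] at hm1
      push_cast at hm1
      linarith
    have h2m : (2 : ℝ) ≤ 2 ^ m := by
      calc (2 : ℝ) = 2 ^ 1 := by norm_num
        _ ≤ 2 ^ m := pow_le_pow_right₀ (by norm_num) hmpos
    have key : 2 * ((2 ^ (L + 1)) ^ m * 2 ^ m * (307200 ^ m * 3 ^ m)) ≤ (x ^ (9 * η)) ^ m := by
      calc 2 * (((2 : ℝ) ^ (L + 1)) ^ m * 2 ^ m * (307200 ^ m * 3 ^ m))
          ≤ 2 ^ m * (((2 : ℝ) ^ (L + 1)) ^ m * 2 ^ m * (307200 ^ m * 3 ^ m)) :=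
            mul_le_mul_of_nonneg_right h2m (by positivity)
        _ = ((2 : ℝ) ^ (L + 1) * 4 * 307200 * 3) ^ m := by
            rw [← mul_pow, ← mul_pow, ← mul_pow, ← mul_pow]
            congr 1
            ring
        _ ≤ (x ^ (9 * η)) ^ m := pow_le_pow_left₀ (by positivity) hbig _
    have eU : U ^ m = (Fintype.card G : ℝ) ^ m * 307200 ^ m
        * ((x ^ (-(1 / 2) + 7 * η)) ^ m / (max 1 T) ^ m) := by
      rw [hU, div_pow, mul_pow, mul_pow]
      ring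
    have eR : (x ^ (-(1 / 2) + 16 * η) / max 1 T) ^ m
        = (x ^ (9 * η)) ^ m * ((x ^ (-(1 / 2) + 7 * η)) ^ m / (max 1 T) ^ m) := by
      rw [div_pow, ← mul_div_assoc, ← mul_pow, ← Real.rpow_add hx0]
      congr 3
      ring
    rw [eR]
    set Q : ℝ := (x ^ (-(1 / 2) + 7 * η)) ^ m / (max 1 T) ^ m with hQ
    have hQ0 : 0 ≤ Q := by rw [hQ]; positivity
    calc (Fintype.card G : ℝ) ^ (L + 1) * 2 ^ m * (U ^ m * (x ^ (C₀ + 1)) ^ E)
        ≤ (2 ^ (L + 1)) ^ m * 2 ^ m * (U ^ m * 3 ^ m) := by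
          refine mul_le_mul (mul_le_mul_of_nonneg_right hgn (by positivity))
            (mul_le_mul_of_nonneg_left hRE (by positivity)) (by positivity) (by positivity)
      _ = (2 * ((2 ^ (L + 1)) ^ m * 2 ^ m * (307200 ^ m * 3 ^ m)))
            * ((Fintype.card G : ℝ) ^ m * Q) / 2 := by
          rw [eU]; ring
      _ ≤ (x ^ (9 * η)) ^ m * ((Fintype.card G : ℝ) ^ m * Q) / 2 := by
          refine div_le_div_of_nonneg_right ?_ (by norm_num)
          exact mul_le_mul_of_nonneg_right key (by positivity)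
      _ = _ := by ring

end

open scoped Classical in
/-- COUNT for `cf 4` from GROWTH and SPLIT -/
theorem countG4_of : StmtGrowth → StmtSplit → StmtCountG4 := by
  intro hGr hSp δ c C₀ hδ hδ1 hc hC₀
  set η : ℝ := δ / 16 with hη
  have hη0 : 0 < η := by positivity
  have hη1 : η ≤ 1 / 16 := by rw [hη]; linarith
  set A : ℝ := (4 + 2 * C₀) / c with hA
  have hA0 : 0 < A := by rw [hA]; positivity
  set C₂ : ℝ := 3 * A + 4 with hC₂
  have hC₂0 : 0 < C₂ := by positivity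
  set L : ℕ := ⌈C₀ / η⌉₊ with hLdef
  have hLn : C₀ / η ≤ L := Nat.le_ceil _
  have e1 := ev_const 8 hη0
  have e2 := ev_const 40 (show (0 : ℝ) < 3 / 16 by norm_num)
  have e3 := ev_log (8 * ((L : ℝ) + 1) * C₂ * 2) (by positivity) (show 0 < 2 * η by positivity)
  have e4 := ev_log ((C₀ + 1) * (8 * ((L : ℝ) + 1) * C₂) * 2) (by positivity)
    (show 0 < 3 * η by positivity)
  have e5 := ev_log 1 one_pos (show 0 < 3 * η by positivity)
  have e6 := ev_const ((2 : ℝ) ^ (L + 1) * 4 * 307200 * 3) (show 0 < 9 * η by positivity)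
  have e7 := ev_exp4 hc
  obtain ⟨k₀, hk₀⟩ := eventually_atTop.1
    ((((((e1.and e2).and e3).and e4).and e5).and e6).and (e7.and (eventually_ge_atTop 1000)))
  refine ⟨k₀, fun k hk G _ _ m hmk hkm hp hg T hT hT' => ?_⟩
  obtain ⟨⟨⟨⟨⟨⟨h1, h2⟩, h3⟩, h4⟩, h5⟩, h6⟩, h7, h8⟩ := hk₀ k hk
  have hx : (1000 : ℝ) ≤ k := by exact_mod_cast h8
  have hx96 : (96 : ℝ) ≤ k := by linarith
  have hx0 : (0 : ℝ) < k := by linarith
  have hx1 : (1 : ℝ) ≤ k := by linarith
  have hmk' : (m : ℝ) ≤ k := by exact_mod_cast hmk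
  have hT0 : 0 < T := lt_of_lt_of_le (by positivity) hT
  have hlog : 0 < Real.log k := Real.log_pos (by linarith)
  have hg2 : (Fintype.card G : ℝ) ≤ 2 ^ m := by
    have a1 : (Fintype.card G : ℝ) * (1 / 2) ^ m ≤ 1 := by
      refine hg.trans (Real.exp_le_one_iff.2 ?_)
      have : 0 ≤ c * k := by positivity
      linarith
    have a2 : (1 : ℝ) ≤ 2 ^ m * (1 / 2) ^ m := by
      rw [← mul_pow]
      norm_num
    have a3 : (0 : ℝ) < (1 / 2) ^ m := by positivity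
    exact le_of_mul_le_mul_right (a1.trans a2) a3
  have hR : (C₀ + 1) * (8 * ((L : ℝ) + 1) * C₂ * Real.log k * (k : ℝ) ^ (1 - 6 * η))
      * Real.log k ≤ (k : ℝ) / 2 := by
    have b1 : (C₀ + 1) * (8 * ((L : ℝ) + 1) * C₂) * 2 * Real.log k * Real.log k
        ≤ (k : ℝ) ^ (6 * η) := by
      rw [one_mul] at h5
      calc (C₀ + 1) * (8 * ((L : ℝ) + 1) * C₂) * 2 * Real.log k * Real.log k
          ≤ (k : ℝ) ^ (3 * η) * (k : ℝ) ^ (3 * η) :=
            mul_le_mul h4 h5 hlog.le (by positivity)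
        _ = _ := by rw [← Real.rpow_add hx0]; congr 1; ring
    have b2 : (k : ℝ) ^ (6 * η) * (k : ℝ) ^ (1 - 6 * η) = k := by
      rw [← Real.rpow_add hx0]
      have : 6 * η + (1 - 6 * η) = 1 := by ring
      rw [this, Real.rpow_one]
    have b3 := mul_le_mul_of_nonneg_right b1 (show 0 ≤ (k : ℝ) ^ (1 - 6 * η) by positivity)
    rw [b2] at b3
    linarith
  have hS := small_case4 (G := G) (m := m) (T := T) hGr hSp (x := (k : ℝ)) rfl hη0 hη1 hC₀ hC₂0 hx96
    hT' hLn hp h1 h2 h3 hkm hg2 hR h6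
  have hN3 : ((2 * k : ℕ) : ℝ) ≤ 3 * (k : ℝ) := by
    push_cast
    linarith
  have hLg := large_case4 (G := G) (m := m) (N := 2 * k) (T := T) (c := c) (δ := δ) (A := A) hc hC₀ hδ hA
    hT hT' hx hmk' hN3 hg h7
  have hND : (Fintype.card G : ℝ) * (1 / 2) ^ (2 * k + 1) ≤ T / 2 := by
    have b1 : (Fintype.card G : ℝ) ≤ 2 ^ k := hg2.trans (pow_le_pow_right₀ (by norm_num) hmk)
    have b2 : (k : ℝ) ≤ 2 ^ k := by exact_mod_cast (Nat.lt_two_pow_self (n := k)).le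
    have e1 : (2 : ℝ) ^ k * (1 / 2) ^ (2 * k + 1) = 1 / 2 * (1 / 2 ^ k) := by
      have : (1 / 2 : ℝ) ^ (2 * k + 1) = (1 / 2 ^ k) * (1 / 2 ^ k) * (1 / 2) := by
        rw [pow_succ, two_mul, pow_add, one_div_pow]
      rw [this]
      have h2k : (2 : ℝ) ^ k ≠ 0 := by positivity
      field_simp
    have e2 : (1 : ℝ) / 2 ^ k ≤ 1 / k := one_div_le_one_div_of_le hx0 b2
    calc (Fintype.card G : ℝ) * (1 / 2) ^ (2 * k + 1) ≤ 2 ^ k * (1 / 2) ^ (2 * k + 1) :=
          mul_le_mul_of_nonneg_right b1 (by positivity)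
      _ = 1 / 2 * (1 / 2 ^ k) := e1
      _ ≤ T / 2 := by linarith
  have eδ : (1 : ℝ) - δ / 4 = 1 - 4 * η := by rw [hη]; ring
  have eδ2 : -(1 / 2 : ℝ) + 16 * η = -(1 / 2) + δ := by rw [hη]; ring
  rw [eδ2] at hS
  rw [eδ]
  refine le_trans (b := (((univ.filter fun y : Fin m → G => NonSp ((k : ℝ) ^ (1 - 4 * η)) y ∧
      max 1 T / 6 ≤ (Lam4 y ((k : ℝ) ^ (-C₂))).card).card : ℝ) +
    ((univ.filter fun y : Fin m → G => ∃ i : ℕ, i ≤ 2 * k ∧
      (1 / 2 : ℝ) ^ (i + 1) < (k : ℝ) ^ (-(3 * A + 4))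
      ∧ 2 ^ i * (T / 2) / ((i + 1) * (i + 2)) ≤ (Lam4 y ((1 / 2) ^ (i + 1))).card).card : ℝ))) ?_ ?_
  · rw [← Nat.cast_add]
    refine Nat.cast_le.2 (le_trans (card_le_card ?_) (card_union_le _ _))
    intro y hy
    rw [mem_filter] at hy
    obtain ⟨-, hns, hZ⟩ := hy
    obtain ⟨i, him, hi⟩ := dyadic4 (N := 2 * k) y hT0 hND hZ
    rw [mem_union, mem_filter, mem_filter]
    by_cases hlt : (1 / 2 : ℝ) ^ (i + 1) < (k : ℝ) ^ (-(3 * A + 4))
    · exact Or.inr ⟨mem_univ _, i, him, hlt, hi⟩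
    · left
      refine ⟨mem_univ _, hns, ?_⟩
      push Not at hlt
      have hsub : Lam4 y ((1 / 2) ^ (i + 1)) ⊆ Lam4 y ((k : ℝ) ^ (-C₂)) := by
        intro ψ hψ
        rw [mem_Lam4] at hψ ⊢
        exact ⟨hψ.1, hlt.trans hψ.2⟩
      have hle : ((Lam4 y ((1 / 2) ^ (i + 1))).card : ℝ) ≤ (Lam4 y ((k : ℝ) ^ (-C₂))).card :=
        Nat.cast_le.2 (card_le_card hsub)
      refine le_trans ?_ hle
      have hpl := poly_le i
      have hpos : (0 : ℝ) < ((i : ℝ) + 1) * (i + 2) := by positivity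
      have hT3 : T / 6 ≤ 2 ^ i * (T / 2) / ((i + 1) * (i + 2)) := by
        rw [div_le_div_iff₀ (by norm_num) hpos]
        nlinarith
      have hcp : (0 : ℝ) < (Lam4 y ((1 / 2) ^ (i + 1))).card :=
        lt_of_lt_of_le (by positivity) hi
      have hc1 : (1 : ℝ) ≤ (Lam4 y ((1 / 2) ^ (i + 1))).card := by
        have : 0 < (Lam4 y ((1 / 2) ^ (i + 1))).card := by exact_mod_cast hcp
        exact_mod_cast this
      rcases le_total 1 T with h | h
      · rw [max_eq_right h]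
        exact hT3.trans hi
      · rw [max_eq_left h]
        linarith
  · exact (add_le_add hS hLg).trans (le_of_eq (add_halves _))

/-- **COUNT for `cf 4`**, unconditional -/
theorem countG4 : StmtCountG4 := countG4_of Grow.stmtGrowth Spl.stmtSplit

end Vale.Agent.P160.Half.Flat4
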