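import Vale.Agent.P160.Half.GAsmC

/-! # P160, half rate: gap (G), assembly (helper667): `StmtG` -/

set_option linter.unusedVariables false

open Finset Matrix Filter

namespace Vale.Agent.P160.Half.G

open A Labels

theorem gasm (hNS : NSStmt) (hK1 : KZ1Stmt2) (hKA : KZAStmt2) (hNZ : NSZStmt) (hRC : RCStmt) (hCnt : CountStmt) (hDet : DetStmt)
    (m1 : Num1) (m2 : Num2) (m3 : Num3) (m4 : Num4) (m5 : Num5) (m6 : Num6) (m7 : Num7) (m8 : Num8) : StmtG := by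
  refine ⟨200, fun M hM => ?_⟩
  obtain ⟨l₀, hl₀⟩ := m8 M hM
  refine ⟨max l₀ 1, fun l hl => ?_⟩
  have hl0 : l₀ ≤ l := (le_max_left _ _).trans hl
  have hl1 : 1 ≤ l := (le_max_right _ _).trans hl
  obtain ⟨s₁, hs1, hs2⟩ := hl₀ l hl0
  refine ⟨s₁, hs1, fun A ε hε => ?_⟩
  set C := 10 * l * M with hC
  set J := 2 * l * M with hJ
  obtain ⟨A₀, hA₀, hA₁⟩ : ∃ A₀ : ℕ, A ≤ A₀ ∧ 1 ≤ A₀ :=
    ⟨max ⌈A⌉₊ 1, (Nat.le_ceil A).trans (by exact_mod_cast le_max_left _ _), le_max_right _ _⟩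
  obtain ⟨t₀, D₁, n₁, hRC'⟩ := hRC J A₀ (C : ℝ) (1 / (8 * ((J : ℕ) + 1))) (by positivity)
  obtain ⟨s₀, h3⟩ := m3 C
  -- eventual facts
  have hfin : ∀ (P : ℕ → ℕ → Prop), (∀ ρ ≤ J, ∀ᶠ n in atTop, P ρ n) → ∀ᶠ n in atTop, ∀ ρ ≤ J, P ρ n := by
    intro P hP
    have := (Filter.eventually_all_finite (Set.finite_Iic J) (l := atTop) (p := fun ρ n => P ρ n)).2 hP
    exact this
  have e1 := m1 J A₀ s₀ (8 * (J + 2) ^ 2 + t₀ + 2)
  have e1' := m1 0 A₀ J 1
  have e1'' := hfin _ (fun ρ _ => m1 ρ A₀ s₀ 1)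
  have e2 := m2 J ε hε
  have e4 := hfin _ (fun ρ hρ => m4 C J A₀ ρ hρ)
  have e5 := hfin _ (fun ρ hρ => m5 C J ρ hρ)
  have e6 := hfin _ (fun ρ hρ => m6 C J s₁ (by rw [hC, hJ]; exact hs2) ρ hρ)
  have e7 := hfin _ (fun ρ hρ => m7 C J A₀ ρ hρ)
  obtain ⟨n₂, hn₂⟩ := eventually_atTop.1 (e1.and (e1'.and (e1''.and (e2.and (h3.and (e4.and (e5.and (e6.and e7))))))))
  refine ⟨(J : ℕ) * max D₁ 0, max (max n₁ n₂) 1, fun n hn => ?_⟩
  have hn1 : n₁ ≤ n := (le_max_left _ _).trans ((le_max_left _ _).trans hn)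
  have hn2 : n₂ ≤ n := (le_max_right _ _).trans ((le_max_left _ _).trans hn)
  have hn3 : 1 ≤ n := (le_max_right _ _).trans hn
  obtain ⟨g1, g1', g1'', g2, g3, g4, g5, g6, g7⟩ := hn₂ n hn2
  obtain ⟨a1, a2, a3, a4, a5, a6⟩ := g1
  obtain ⟨b1, b2, b3, b4, b5, b6⟩ := g1'
  have hpv1 : 1 ≤ pv n := b1
  have hpv : t₀ ≤ pv n := le_trans (by omega) a1
  have hpy : 2 ≤ py n := by
    unfold py
    calc 2 = 2 ^ 1 := by norm_num
      _ ≤ 2 ^ pv n := Nat.pow_le_pow_right (by norm_num) hpv1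
  have hpt : pv n ≤ pt n := by
    unfold pt
    exact Nat.le_mul_of_pos_right _ (by positivity)
  have hN : NumB n J A₀ C s₀ t₀ ε :=
    { hn := hn3
      f1 := b2
      f2 := a2
      f3 := hpy
      f4 := hpv.trans hpt
      f5 := a3
      f6 := hpv1
      f7 := hpv1.trans hpt
      f8 := fun ρ hρ => (g1'' ρ hρ).2.2.2.2.1
      f9 := a6
      f10 := g2
      g1 := g3.1
      g2 := g3.2
      g3 := g4
      g4 := g5 }
  have hM' : NumD n J A₀ C s₁ :=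
    { h1 := fun ρ hρ => (g7 ρ hρ).1
      h2 := fun ρ hρ => (g7 ρ hρ).2.1
      h3 := fun ρ hρ => (g7 ρ hρ).2.2
      h4 := g6
      h5 := by
        have h1 : 2 * (8 * (J + 2) ^ 2 * (pt n + 1)) ≤ 2 * n := by
          have : 8 * (J + 2) ^ 2 * (pt n + 1) ≤ (8 * (J + 2) ^ 2 + t₀ + 2) * (pt n + (8 * (J + 2) ^ 2 + t₀ + 2)) :=
            Nat.mul_le_mul (by omega) (by omega)
          omega
        have h2 : 4 * (J * (n / (8 * (J + 1)))) ≤ n / 2 := by
          have h3 : n / (8 * (J + 1)) * (8 * (J + 1)) ≤ n := Nat.div_mul_le_self _ _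
          have h4 : 2 * (4 * (J * (n / (8 * (J + 1))))) ≤ n := by
            calc 2 * (4 * (J * (n / (8 * (J + 1))))) = n / (8 * (J + 1)) * (8 * J) := by ring
              _ ≤ n / (8 * (J + 1)) * (8 * (J + 1)) := Nat.mul_le_mul_left _ (by omega)
              _ ≤ n := h3
          omega
        have h5 : 2 * (4 * (J * ((J * pt n + J) + J))) ≤ n := by
          have h6 : 8 * (J + 2) ^ 2 * (pt n + 1) ≤ n := by omega
          refine le_trans ?_ h6
          nlinarith [Nat.zero_le (pt n), Nat.zero_le J, Nat.zero_le (J * pt n), Nat.zero_le (J * J * pt n)]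
        have h7 : 4 * (J * (n / (8 * (J + 1)) + (J * pt n + J) + J)) =
          4 * (J * (n / (8 * (J + 1)))) + 4 * (J * ((J * pt n + J) + J)) := by ring
        rw [h7]
        omega
      h6 := le_trans hpv1 a3 }
  have hlM : 1 ≤ l * M := Nat.one_le_iff_ne_zero.2 (by positivity)
  have hres := fixed hNS hK1 hKA hNZ hCnt hDet (ε := ε) (A := A) (D₀ := max D₁ 0) hlM hA₀ hA₁ (le_max_right _ _) hN hM'
    (by
      intro β _ _ hβ F hF
      obtain ⟨B₁, hB1, hB2⟩ := hRC' n hn1 β hβ F hF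
      refine ⟨B₁, hB1, fun b hb hdet hns hbd c hc1 hc2 => ?_⟩
      refine le_trans ?_ (hB2 b hb hdet hns hbd c hc1 hc2)
      refine Nat.cast_le.2 (Set.ncard_le_ncard ?_ (Set.toFinite _))
      intro j hj
      simp only [Set.mem_ofPred_eq] at hj ⊢
      refine lt_of_lt_of_le hj ?_
      exact Real.rpow_le_rpow_of_exponent_le (by exact_mod_cast hn3) (neg_le_neg (le_max_left _ _)))
  exact hres

end Vale.Agent.P160.Half.G
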