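import Vale.Agent.P160.Half.AStmt
import Vale.Agent.P160.Half.GStmt

/-! # P160, half rate, gap (G), types: (1) of note 10294 (helper984)

`exists_types`: a small set of types such that every `(P, F)` without sparse kernel vectors of `P`
fits a type with no sparse word of `[P F_I]` modulo the primes `>= y`. -/

open Finset Matrix

namespace Vale.Agent.P160.Half.A.T984

open Vale.Agent.P160.Half

/-- a matrix with trivial kernel has a nonzero maximal minor -/
theorem exists_minor {K : Type*} [Field K] {α ι : Type*} [Fintype α] [Fintype ι] [DecidableEq ι]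
    (N : Matrix α ι K) (h : ∀ w : ι → K, N *ᵥ w = 0 → w = 0) :
    ∃ r : ι → α, (N.submatrix r id).det ≠ 0 := by
  classical
  have hinj : Function.Injective N.mulVecLin := by
    rw [← LinearMap.ker_eq_bot, LinearMap.ker_eq_bot']
    intro w hw
    exact h w (by simpa using hw)
  have hrank : N.rank = Fintype.card ι := by
    unfold Matrix.rank
    rw [LinearMap.finrank_range_of_inj hinj, Module.finrank_fintype_fun_eq_card]
  have hspan : Submodule.span K (Set.range N.row) = ⊤ := by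
    apply Submodule.eq_top_of_finrank_eq
    rw [← N.rank_eq_finrank_span_row, hrank, Module.finrank_fintype_fun_eq_card]
  obtain ⟨B, hB1, hB2, hB3⟩ := exists_linearIndependent K (Set.range N.row)
  rw [hspan] at hB2
  have hbas : Module.Basis B K (ι → K) := Module.Basis.mk hB3 (by
    rw [Subtype.range_coe]; exact hB2.ge)
  have : Fintype B := FiniteDimensional.fintypeBasisIndex hbas
  have hcard : Fintype.card ι = Fintype.card B := by
    have h1 := Module.finrank_eq_card_basis hbas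
    rw [Module.finrank_fintype_fun_eq_card] at h1
    exact h1
  let e : ι ≃ B := Fintype.equivOfCardEq hcard
  have hr : ∀ i : ι, ∃ a : α, N.row a = (e i : ι → K) := fun i => hB1 (e i).2
  choose r hr using hr
  refine ⟨r, ?_⟩
  have hli : LinearIndependent K (N.submatrix r id).row := by
    have h1 : (N.submatrix r id).row = (fun b : B => (b : ι → K)) ∘ e := by
      funext i
      have h2 := hr i
      funext j
      have h3 := congrFun h2 j
      simpa [Matrix.row] using h3
    rw [h1]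
    exact hB3.comp e e.injective
  rw [Matrix.linearIndependent_rows_iff_isUnit, Matrix.isUnit_iff_isUnit_det] at hli
  exact hli.ne_zero

/-- the determinant of a square integer matrix with bounded entries -/
theorem det_bound {ι : Type*} [Fintype ι] [DecidableEq ι] (N : Matrix ι ι ℤ) (X : ℕ)
    (h : ∀ i j, |N i j| ≤ (X : ℤ)) : |N.det| ≤ ((Fintype.card ι).factorial * X ^ Fintype.card ι : ℕ) := by
  have h1 := Matrix.det_le (A := N) (abv := AbsoluteValue.abs) (x := (X : ℤ)) (by
    intro i j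
    rw [AbsoluteValue.abs_apply]
    exact h i j)
  rw [nsmul_eq_mul, AbsoluteValue.abs_apply] at h1
  push_cast
  exact h1

/-- no kernel vector modulo a large prime if some maximal minor is nonzero -/
theorem ker_trivial {α ι : Type*} [Fintype ι] [DecidableEq ι] (N : Matrix α ι ℤ) (X : ℕ)
    (h : ∀ i j, |N i j| ≤ (X : ℤ)) (r : ι → α) (hr : (N.submatrix r id).det ≠ 0) {p : ℕ}
    (hp : p.Prime) (hlt : (Fintype.card ι).factorial * X ^ Fintype.card ι < p) (w : ι → ZMod p)
    (hw : N.map (Int.cast : ℤ → ZMod p) *ᵥ w = 0) : w = 0 := by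
  have : Fact p.Prime := ⟨hp⟩
  by_contra hne
  have h4 : ((N.submatrix r id).det : ZMod p) = 0 := by
    have h5 : ((Int.castRingHom (ZMod p)).mapMatrix (N.submatrix r id)).det = 0 := by
      refine Matrix.exists_mulVec_eq_zero_iff.1 ⟨w, hne, ?_⟩
      funext i
      have h6 := congrFun hw (r i)
      simp only [Matrix.mulVec, dotProduct, Matrix.map_apply, Pi.zero_apply] at h6
      simp only [Matrix.mulVec, dotProduct, RingHom.mapMatrix_apply, Matrix.map_apply,
        Matrix.submatrix_apply, Pi.zero_apply, id, eq_intCast]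
      exact h6
    rw [← RingHom.map_det] at h5
    simpa using h5
  rw [ZMod.intCast_zmod_eq_zero_iff_dvd] at h4
  have h7 : (p : ℤ) ≤ |(N.submatrix r id).det| := Int.le_of_dvd (abs_pos.2 hr) ((dvd_abs _ _).2 h4)
  have h8 := det_bound (N.submatrix r id) X (fun i j => h _ _)
  have h9 : (((Fintype.card ι).factorial * X ^ Fintype.card ι : ℕ) : ℤ) < p := by exact_mod_cast hlt
  omega

/-- a nonzero kernel vector modulo a large prime gives one modulo every prime -/
theorem transfer {α ι : Type*} [Fintype α] [Fintype ι] [DecidableEq ι] (N : Matrix α ι ℤ) (X : ℕ)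
    (h : ∀ i j, |N i j| ≤ (X : ℤ)) {p : ℕ} (hp : p.Prime)
    (hlt : (Fintype.card ι).factorial * X ^ Fintype.card ι < p) (w : ι → ZMod p)
    (hw : N.map (Int.cast : ℤ → ZMod p) *ᵥ w = 0) (hne : w ≠ 0) {q : ℕ} (hq : q.Prime) :
    ∃ w' : ι → ZMod q, w' ≠ 0 ∧ N.map (Int.cast : ℤ → ZMod q) *ᵥ w' = 0 := by
  have : Fact q.Prime := ⟨hq⟩
  by_contra hcon
  push Not at hcon
  obtain ⟨r, hr⟩ := exists_minor (N.map (Int.cast : ℤ → ZMod q)) (fun w' hw' => by
    by_contra h0
    exact hcon w' h0 hw')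
  have h3 : (N.submatrix r id).det ≠ 0 := by
    intro h0
    apply hr
    have h2 : (N.map (Int.cast : ℤ → ZMod q)).submatrix r id =
        (Int.castRingHom (ZMod q)).mapMatrix (N.submatrix r id) := by
      ext i j; simp
    rw [h2, ← RingHom.map_det, h0]
    simp
  exact hne (ker_trivial N X h r h3 hp hlt w hw)

/-- encoding of a sparse integer vector -/
theorem enc {n : ℕ} (pm : ℕ) (i0 : Fin n) : ∀ (t : ℕ) (g : Fin n → ℕ), (∀ i, g i ≤ pm) →
    (univ.filter fun i => g i ≠ 0).card ≤ t →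
    ∃ e : Fin t → Fin n × Fin (pm + 1), ∀ x : Fin n → ℤ,
      ∑ s, ((e s).2 : ℤ) * x (e s).1 = ∑ i, (g i : ℤ) * x i := by
  intro t
  induction t with
  | zero =>
    intro g _ hc
    refine ⟨fun s => s.elim0, fun x => ?_⟩
    have h0 : ∀ i, g i = 0 := by
      intro i
      by_contra hi
      have : i ∈ (univ.filter fun i => g i ≠ 0) := by simp [hi]
      have := Finset.card_pos.2 ⟨i, this⟩
      omega
    simp [h0]
  | succ t ih =>
    intro g hg hc
    by_cases hz : ∀ i, g i = 0
    · refine ⟨fun _ => (i0, 0), fun x => ?_⟩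
      simp [hz]
    · push Not at hz
      obtain ⟨i, hi⟩ := hz
      obtain ⟨e, he⟩ := ih (Function.update g i 0) (by
        intro j
        by_cases hj : j = i
        · subst hj; simp
        · rw [Function.update_of_ne hj]; exact hg j) (by
        have h1 : (univ.filter fun j => Function.update g i 0 j ≠ 0) =
            (univ.filter fun j => g j ≠ 0).erase i := by
          ext j
          by_cases hj : j = i
          · subst hj; simp
          · simp [hj]
        rw [h1, Finset.card_erase_of_mem (by simp [hi])]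
        omega)
      refine ⟨Fin.cons (i, ⟨g i, Nat.lt_succ_of_le (hg i)⟩) e, fun x => ?_⟩
      rw [Fin.sum_univ_succ]
      simp only [Fin.cons_zero, Fin.cons_succ]
      rw [he x, ← Finset.add_sum_erase univ _ (Finset.mem_univ i),
        ← Finset.add_sum_erase univ (fun j => (g j : ℤ) * x j) (Finset.mem_univ i)]
      simp only [Function.update_self, Nat.cast_zero, zero_mul, zero_add]
      congr 1
      refine Finset.sum_congr rfl fun j hj => ?_
      rw [Function.update_of_ne (Finset.ne_of_mem_erase hj)]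

variable {n l M : ℕ}

/-- the integer value of a bit -/
def β {κ : Type*} (f : κ → Bool) (q : κ) : ℤ := if f q then 1 else 0

theorem bq_eq {κ : Type*} (f : κ → Bool) (q : κ) : bq f q = ((β f q : ℤ) : ℚ) := by
  unfold bq β
  split <;> simp

theorem β_abs {κ : Type*} (f f' : κ → Bool) (q : κ) : |β f q - β f' q| ≤ 1 := by
  unfold β
  split <;> split <;> simp

/-- a relation: a modulus, a sparse vector, coefficients of the columns -/
abbrev Rl (n l M t pm : ℕ) := Fin (pm + 1) × (Fin t → Fin n × Fin (pm + 1)) × (Co l M → Fin (pm + 1))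

/-- the relation holds for the row `(x, f)` -/
def Holds {t pm : ℕ} (r : Rl n l M t pm) (x : Fin n → Bool) (f : Co l M → Bool) : Prop :=
  ((r.1 : ℕ) : ℤ) ∣ ∑ q, ((r.2.2 q : ℕ) : ℤ) * β f q + ∑ s, (((r.2.1 s).2 : ℕ) : ℤ) * β x (r.2.1 s).1

/-- generators of the subspace -/
def Gen {t pm : ℕ} (L : Finset (Rl n l M t pm)) (ff : (Co l M → Bool) × (Co l M → Bool)) : Prop :=
  ∑ q, cf q * (β ff.1 q - β ff.2 q) = 0 ∧
    ∀ r ∈ L, ((r.1 : ℕ) : ℤ) ∣ ∑ q, ((r.2.2 q : ℕ) : ℤ) * (β ff.1 q - β ff.2 q)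

/-- the subspace -/
def Wsp {t pm : ℕ} (L : Finset (Rl n l M t pm)) : Submodule ℚ (Co l M → ℚ) :=
  Submodule.span ℚ {w | ∃ ff, Gen L ff ∧ w = bq ff.1 - bq ff.2}

open Classical in
/-- a chosen Boolean vector with a property -/
noncomputable def pick {κ : Type*} (Q : (κ → Bool) → Prop) : κ → ℚ :=
  if h : ∃ f, Q f then bq h.choose else 0

/-- the type of a set of relations -/
noncomputable def ty {t pm : ℕ} (L : Finset (Rl n l M t pm)) : Ty n l M where
  W := Wsp L
  I := (exists_info (Wsp L)).choose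
  S := L.biUnion fun r => univ.image fun s => (r.2.1 s).1
  v := fun x => pick fun f => ∑ q, cf q * β f q = 0 ∧ ∀ r ∈ L, Holds r x f

theorem ty_info {t pm : ℕ} (L : Finset (Rl n l M t pm)) : (ty L).I.card = Module.finrank ℚ (Wsp L) ∧
    (∀ u ∈ Wsp L, (∀ i ∈ (ty L).I, u i = 0) → u = 0) ∧
    (∀ t : Co l M → ℚ, ∃ u ∈ Wsp L, ∀ i ∈ (ty L).I, u i = t i) :=
  (exists_info (Wsp L)).choose_spec

theorem ty_ok {t pm : ℕ} (L : Finset (Rl n l M t pm)) : (ty L).Ok := by
  refine ⟨?_, (ty_info L).1, (ty_info L).2.1, ?_⟩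
  · intro w hw
    let φ : (Co l M → ℚ) →ₗ[ℚ] ℚ := ∑ q : Co l M, (cf q : ℚ) • LinearMap.proj q
    have hφ : ∀ w, φ w = ∑ q, (cf q : ℚ) * w q := by
      intro w
      simp [φ, LinearMap.sum_apply]
    have hle : Wsp L ≤ LinearMap.ker φ := by
      refine Submodule.span_le.2 ?_
      rintro w ⟨ff, hff, rfl⟩
      rw [SetLike.mem_coe, LinearMap.mem_ker, hφ]
      have h1 := hff.1
      have h2 : ((∑ q, cf q * (β ff.1 q - β ff.2 q) : ℤ) : ℚ) = 0 := by rw [h1]; simp
      push_cast at h2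
      rw [← h2]
      refine Finset.sum_congr rfl fun q _ => ?_
      rw [Pi.sub_apply, bq_eq, bq_eq]
    have := hle hw
    rwa [LinearMap.mem_ker, hφ] at this
  · intro x x' hx
    have hQ : (fun f : Co l M → Bool => ∑ q, cf q * β f q = 0 ∧ ∀ r ∈ L, Holds r x f) =
        (fun f : Co l M → Bool => ∑ q, cf q * β f q = 0 ∧ ∀ r ∈ L, Holds r x' f) := by
      funext f
      refine propext (and_congr Iff.rfl ?_)
      have hr : ∀ r ∈ L, (Holds r x f ↔ Holds r x' f) := by
        intro r hr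
        unfold Holds
        have : ∑ s, (((r.2.1 s).2 : ℕ) : ℤ) * β x (r.2.1 s).1 =
            ∑ s, (((r.2.1 s).2 : ℕ) : ℤ) * β x' (r.2.1 s).1 := by
          refine Finset.sum_congr rfl fun s _ => ?_
          have h1 : x (r.2.1 s).1 = x' (r.2.1 s).1 :=
            hx _ (mem_biUnion.2 ⟨r, hr, mem_image.2 ⟨s, mem_univ _, rfl⟩⟩)
          unfold β
          rw [h1]
        rw [this]
      exact ⟨fun h r hr' => (hr r hr').1 (h r hr'), fun h r hr' => (hr r hr').2 (h r hr')⟩
    show pick _ = pick _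
    rw [hQ]

theorem ty_S {t pm : ℕ} (L : Finset (Rl n l M t pm)) : (ty L).S.card ≤ L.card * t := by
  refine (Finset.card_biUnion_le).trans ?_
  refine (Finset.sum_le_card_nsmul _ _ t fun r _ => ?_).trans (by simp)
  exact (Finset.card_image_le).trans (by simp)

/-- validity of a set of relations for `(b, F)` -/
def Valid {t pm : ℕ} (L : Finset (Rl n l M t pm)) (E : Finset (Fin n)) (b : Bits n)
    (F : Fin n → Co l M → Bool) : Prop :=
  ∀ r ∈ L, ∀ j ∉ E, Holds r (fun i => b s(j, i)) (F j)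

theorem fits_of_valid {t pm : ℕ} {L : Finset (Rl n l M t pm)} {E : Finset (Fin n)} {b : Bits n}
    {F : Fin n → Co l M → Bool} (hF : Rel E F) (hv : Valid L E b F) : (ty L).Fits E b F := by
  intro j hj
  have hex : ∃ f : Co l M → Bool, ∑ q, cf q * β f q = 0 ∧ ∀ r ∈ L, Holds r (fun i => b s(j, i)) f :=
    ⟨F j, hF j hj, fun r hr => hv r hr j hj⟩
  show bq (F j) - pick _ ∈ Wsp L
  unfold pick
  rw [dif_pos hex]
  have hs := hex.choose_spec
  set f0 := hex.choose
  refine Submodule.subset_span ⟨(F j, f0), ⟨?_, ?_⟩, rfl⟩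
  · have h1 : ∑ q, cf q * β (F j) q = 0 := hF j hj
    simp only [mul_sub, Finset.sum_sub_distrib]
    rw [h1, hs.1, sub_zero]
  · intro r hr
    have h1 := hv r hr j hj
    have h2 := hs.2 r hr
    unfold Holds at h1 h2
    have h3 := dvd_sub h1 h2
    simp only [mul_sub, Finset.sum_sub_distrib]
    simpa using h3

theorem gen_mono {t pm : ℕ} {L L' : Finset (Rl n l M t pm)} (h : L ⊆ L') : Wsp L' ≤ Wsp L := by
  refine Submodule.span_mono ?_
  rintro w ⟨ff, hff, rfl⟩
  exact ⟨ff, ⟨hff.1, fun r hr => hff.2 r (h hr)⟩, rfl⟩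

theorem card_Co : Fintype.card (Co l M) = 2 * l * M := by
  simp only [Fintype.card_prod, Fintype.card_fin, Fintype.card_bool]
  ring

/-- a new relation lowers the dimension -/
theorem strict {t pm : ℕ} (L : Finset (Rl n l M t pm)) (r : Rl n l M t pm) (hp : (r.1 : ℕ).Prime)
    (hlt : (2 * l * M).factorial < (r.1 : ℕ)) (h0 : ∀ q ∉ (ty L).I, (r.2.2 q : ℕ) = 0)
    (h1 : ∃ q ∈ (ty L).I, ¬ (r.1 : ℕ) ∣ (r.2.2 q : ℕ)) : Wsp (insert r L) < Wsp L := by
  classical
  refine lt_of_le_of_ne (gen_mono (Finset.subset_insert r L)) fun heq => ?_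
  set I := (ty L).I with hI
  let N : Matrix {ff : (Co l M → Bool) × (Co l M → Bool) // Gen (insert r L) ff} I ℤ :=
    fun ff q => β ff.1.1 q - β ff.1.2 q
  obtain ⟨rr, hrr⟩ := exists_minor (N.map (Int.cast : ℤ → ℚ)) (by
    intro u hu
    obtain ⟨w, hw, hwu⟩ := (ty_info L).2.2 (fun q => if h : q ∈ I then u ⟨q, h⟩ else 0)
    rw [← heq] at hw
    let φ : (Co l M → ℚ) →ₗ[ℚ] ℚ := ∑ q : I, (u q) • LinearMap.proj (q : Co l M)
    have hφ : ∀ w, φ w = ∑ q : I, u q * w q := by
      intro w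
      simp [φ, LinearMap.sum_apply]
    have hle : Wsp (insert r L) ≤ LinearMap.ker φ := by
      refine Submodule.span_le.2 ?_
      rintro w ⟨ff, hff, rfl⟩
      rw [SetLike.mem_coe, LinearMap.mem_ker, hφ]
      have h2 : ∑ q : I, (((β ff.1 (q : Co l M) - β ff.2 (q : Co l M) : ℤ)) : ℚ) * u q = 0 :=
        congrFun hu ⟨ff, hff⟩
      rw [← h2]
      refine Finset.sum_congr rfl fun q _ => ?_
      rw [Pi.sub_apply, bq_eq, bq_eq]
      push_cast
      ring
    have h3 := hle hw
    rw [LinearMap.mem_ker, hφ] at h3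
    have h4 : ∑ q : I, u q * u q = 0 := by
      rw [← h3]
      refine Finset.sum_congr rfl fun q _ => ?_
      rw [hwu q q.2]
      simp
    rw [Finset.sum_eq_zero_iff_of_nonneg (fun q _ => mul_self_nonneg _)] at h4
    funext q
    exact mul_self_eq_zero.1 (h4 q (mem_univ _)))
  have hdet : (N.submatrix rr id).det ≠ 0 := by
    intro h
    apply hrr
    have h2 : (N.map (Int.cast : ℤ → ℚ)).submatrix rr id =
        (Int.castRingHom ℚ).mapMatrix (N.submatrix rr id) := by
      ext i j; simp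
    rw [h2, ← RingHom.map_det, h]
    simp
  have hcard : Fintype.card I ≤ 2 * l * M := by
    rw [Fintype.card_coe, ← card_Co (l := l) (M := M)]
    exact Finset.card_le_univ _
  have hfin := ker_trivial N 1 (fun ff q => by simpa using β_abs ff.1.1 ff.1.2 (q : Co l M)) rr hdet hp (by
    rw [one_pow, mul_one]
    exact (Nat.factorial_le hcard).trans_lt hlt) (fun q => ((r.2.2 q : ℕ) : ZMod (r.1 : ℕ))) (by
    funext ff
    have h2 := ff.2.2 r (Finset.mem_insert_self r L)
    have h3 : (((∑ q, ((r.2.2 q : ℕ) : ℤ) * (β ff.1.1 q - β ff.1.2 q) : ℤ)) : ZMod (r.1 : ℕ)) = 0 :=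
      (ZMod.intCast_zmod_eq_zero_iff_dvd _ _).2 h2
    have h5 : ∑ q, ((r.2.2 q : ℕ) : ℤ) * (β ff.1.1 q - β ff.1.2 q) =
        ∑ q : I, ((r.2.2 q : ℕ) : ℤ) * (β ff.1.1 (q : Co l M) - β ff.1.2 (q : Co l M)) := by
      rw [Finset.sum_coe_sort I (fun q => ((r.2.2 q : ℕ) : ℤ) * (β ff.1.1 q - β ff.1.2 q))]
      refine (Finset.sum_subset (Finset.subset_univ I) fun q _ hq => ?_).symm
      rw [h0 q hq]
      simp
    show ∑ q : I, (((β ff.1.1 (q : Co l M) - β ff.1.2 (q : Co l M) : ℤ)) : ZMod (r.1 : ℕ)) *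
      ((r.2.2 q : ℕ) : ZMod (r.1 : ℕ)) = 0
    rw [← h3, h5]
    push_cast
    refine Finset.sum_congr rfl fun q _ => ?_
    ring)
  obtain ⟨q, hq, hq2⟩ := h1
  apply hq2
  have := congrFun hfin ⟨q, hq⟩
  simp only [Pi.zero_apply] at this
  exact (ZMod.natCast_eq_zero_iff _ _).1 this

/-- a sparse word modulo some prime gives one modulo a prime in the range -/
theorem small_prime {E : Finset (Fin n)} {a : Fin n → ℤ} {b : Bits n} {F : Fin n → Co l M → Bool}
    {I : Finset (Co l M)} {y t pm X : ℕ} (hpm : 2 * y ≤ pm) (hy : 0 < y) (hX1 : 1 ≤ X)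
    (hpm2 : (t + 2 * l * M).factorial * X ^ (t + 2 * l * M) ≤ pm) (ha : ∀ j, |a j| ≤ (X : ℤ))
    (h : ¬ G.NoSparse (matZ b) (fun j (q : I) => ent E a F q j) y t) :
    ∃ p, p.Prime ∧ y ≤ p ∧ p ≤ pm ∧ ∃ (g : Fin n → ZMod p) (c : I → ZMod p),
      G.Word (ZMod p) (matZ b) (fun j (q : I) => ent E a F q j) g c ∧ (g ≠ 0 ∨ c ≠ 0) ∧
      (univ.filter fun i => g i ≠ 0).card ≤ t := by
  classical
  unfold G.NoSparse at h
  push Not at h
  obtain ⟨p, hp, hyp, g, c, hw, hne, hs⟩ := h
  by_cases hle : p ≤ pm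
  · exact ⟨p, hp, hyp, hle, g, c, hw, hne, hs⟩
  push Not at hle
  obtain ⟨q0, hq0, hq1, hq2⟩ := Nat.exists_prime_lt_and_le_two_mul y hy.ne'
  set S0 := univ.filter fun i => g i ≠ 0 with hS0
  let N : Matrix (Fin n) (S0 ⊕ I) ℤ := fun j => Sum.elim (fun i => matZ b j i) (fun q => ent E a F q j)
  have hN : ∀ i j, |N i j| ≤ (X : ℤ) := by
    intro j k
    rcases k with i | q
    · show |matZ b j i| ≤ (X : ℤ)
      have h1 : (1 : ℤ) ≤ X := by exact_mod_cast hX1
      unfold matZ
      split <;> simp <;> omega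
    · show |ent E a F q j| ≤ (X : ℤ)
      have h1 : (1 : ℤ) ≤ X := by exact_mod_cast hX1
      unfold ent
      split
      · exact ha j
      · split <;> simp <;> omega
  have hcard : Fintype.card (S0 ⊕ I) ≤ t + 2 * l * M := by
    rw [Fintype.card_sum, Fintype.card_coe, Fintype.card_coe]
    have : I.card ≤ 2 * l * M := by
      rw [← card_Co (l := l) (M := M)]
      exact Finset.card_le_univ _
    omega
  have hlt : (Fintype.card (S0 ⊕ I)).factorial * X ^ Fintype.card (S0 ⊕ I) < p := by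
    refine lt_of_le_of_lt ?_ hle
    refine le_trans ?_ hpm2
    exact Nat.mul_le_mul (Nat.factorial_le hcard) (Nat.pow_le_pow_right hX1 hcard)
  have key : ∀ (r : ℕ) (u : S0 ⊕ I → ZMod r) (j : Fin n),
      (N.map (Int.cast : ℤ → ZMod r) *ᵥ u) j =
        ∑ i, ((matZ b j i : ℤ) : ZMod r) * (if h : i ∈ S0 then u (Sum.inl ⟨i, h⟩) else 0) +
        ∑ q : I, ((ent E a F q j : ℤ) : ZMod r) * u (Sum.inr q) := by
    intro r u j
    show ∑ k : S0 ⊕ I, ((N j k : ℤ) : ZMod r) * u k = _
    rw [Fintype.sum_sum_type]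
    congr 1
    rw [← Finset.sum_subset (Finset.subset_univ S0)]
    · rw [← Finset.sum_coe_sort S0]
      refine Finset.sum_congr rfl fun i _ => ?_
      rw [dif_pos i.2]
      rfl
    · intro i _ hi
      rw [dif_neg hi, mul_zero]
  obtain ⟨w', hw'0, hw'⟩ := transfer N X hN hp hlt (Sum.elim (fun i => g i) c) (by
    funext j
    rw [key]
    have h2 : ∑ i, ((matZ b j i : ℤ) : ZMod p) * g i + ∑ q : I, ((ent E a F q j : ℤ) : ZMod p) * c q = 0 :=
      congrFun hw j
    rw [Pi.zero_apply]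
    refine Eq.trans ?_ h2
    congr 1
    refine Finset.sum_congr rfl fun i _ => ?_
    by_cases hi : i ∈ S0
    · rw [dif_pos hi]
      rfl
    · rw [dif_neg hi]
      have : g i = 0 := by
        by_contra h3
        exact hi (by simp [hS0, h3])
      rw [this]) (by
    intro h0
    rcases hne with h3 | h3
    · apply h3
      funext i
      by_contra h4
      have h5 : i ∈ S0 := by simp only [hS0, mem_filter, mem_univ, true_and]; exact h4
      have h6 := congrFun h0 (Sum.inl ⟨i, h5⟩)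
      exact h4 h6
    · apply h3
      funext q
      exact congrFun h0 (Sum.inr q)) hq0
  refine ⟨q0, hq0, hq1.le, hq2.trans hpm, fun i => if h : i ∈ S0 then w' (Sum.inl ⟨i, h⟩) else 0,
    fun q => w' (Sum.inr q), ?_, ?_, ?_⟩
  · funext j
    have h2 := congrFun hw' j
    rw [key] at h2
    exact h2
  · by_contra h3
    push Not at h3
    apply hw'0
    funext k
    rcases k with i | q
    · have h4 := congrFun h3.1 (i : Fin n)
      simpa using h4
    · exact congrFun h3.2 q
  · refine le_trans (Finset.card_le_card ?_) hs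
    intro i hi
    rw [mem_filter] at hi
    by_contra h4
    exact hi.2 (dif_neg h4)

/-- no sparse kernel vector of `P` modulo the primes `≥ y` -/
def NSK (b : Bits n) (y t : ℕ) : Prop :=
  ∀ p, p.Prime → y ≤ p → ∀ g : Fin n → ZMod p, g ≠ 0 →
    (matZ b).map (Int.cast : ℤ → ZMod p) *ᵥ g = 0 → t < (univ.filter fun i => g i ≠ 0).card

/-- if the type of `L` has a sparse word, a relation can be added -/
theorem progress {E : Finset (Fin n)} {a : Fin n → ℤ} {b : Bits n} {F : Fin n → Co l M → Bool}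
    {y t pm X : ℕ} (hn : 0 < n) (hpm : 2 * y ≤ pm) (hy : (2 * l * M).factorial < y) (hX1 : 1 ≤ X)
    (hpm2 : (t + 2 * l * M).factorial * X ^ (t + 2 * l * M) ≤ pm) (ha : ∀ j, |a j| ≤ (X : ℤ))
    (hb : NSK b y t) (L : Finset (Rl n l M t pm)) (hv : Valid L E b F)
    (h : ¬ G.NoSparse (matZ b) (fun j (q : (ty L).I) => ent E a F q j) y t) :
    ∃ r, Valid (insert r L) E b F ∧ Wsp (insert r L) < Wsp L := by
  classical
  obtain ⟨p, hp, hyp, hppm, g, c, hw, hne, hs⟩ := small_prime hpm (by omega) hX1 hpm2 ha h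
  have : Fact p.Prime := ⟨hp⟩
  have hc : c ≠ 0 := by
    intro hc
    have hg : g ≠ 0 := by
      rcases hne with h1 | h1
      · exact h1
      · exact absurd hc h1
    have h2 := hb p hp hyp g hg (by
      funext j
      have h3 : ∑ i, ((matZ b j i : ℤ) : ZMod p) * g i +
          ∑ q : (ty L).I, ((ent E a F q j : ℤ) : ZMod p) * c q = 0 := congrFun hw j
      rw [hc] at h3
      show ∑ i, ((matZ b j i : ℤ) : ZMod p) * g i = 0
      simpa using h3)
    omega
  obtain ⟨e, he⟩ := enc pm ⟨0, hn⟩ t (fun i => (g i).val) (fun i => by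
    have := (g i).val_lt
    omega) (by
      refine le_trans (Finset.card_le_card ?_) hs
      intro i hi
      rw [mem_filter] at hi ⊢
      refine ⟨hi.1, fun h0 => hi.2 ?_⟩
      rw [h0, ZMod.val_zero])
  let r : Rl n l M t pm := (⟨p, Nat.lt_succ_of_le hppm⟩, e, fun q =>
    if h : q ∈ (ty L).I then ⟨(c ⟨q, h⟩).val, by have := (c ⟨q, h⟩).val_lt; omega⟩ else 0)
  have hr1 : (r.1 : ℕ) = p := rfl
  have hr2 : ∀ q (h : q ∈ (ty L).I), (r.2.2 q : ℕ) = (c ⟨q, h⟩).val := by
    intro q hq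
    show ((if h : q ∈ (ty L).I then (⟨(c ⟨q, h⟩).val, _⟩ : Fin (pm + 1)) else 0 : Fin (pm + 1)) : ℕ) = _
    rw [dif_pos hq]
  have hr3 : ∀ q, q ∉ (ty L).I → (r.2.2 q : ℕ) = 0 := by
    intro q hq
    show ((if h : q ∈ (ty L).I then (⟨(c ⟨q, h⟩).val, _⟩ : Fin (pm + 1)) else 0 : Fin (pm + 1)) : ℕ) = _
    rw [dif_neg hq]
    rfl
  refine ⟨r, ?_, ?_⟩
  · intro r' hr' j hj
    rcases Finset.mem_insert.1 hr' with rfl | hr'
    · show ((p : ℕ) : ℤ) ∣ ∑ q, ((r.2.2 q : ℕ) : ℤ) * β (F j) q +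
        ∑ s, (((e s).2 : ℕ) : ℤ) * β (fun i => b s(j, i)) (e s).1
      rw [he, ← ZMod.intCast_zmod_eq_zero_iff_dvd]
      have h3 : ∑ i, ((matZ b j i : ℤ) : ZMod p) * g i +
          ∑ q : (ty L).I, ((ent E a F q j : ℤ) : ZMod p) * c q = 0 := congrFun hw j
      have h5 : ∑ q, ((r.2.2 q : ℕ) : ℤ) * β (F j) q =
          ∑ q : (ty L).I, ((c q).val : ℤ) * β (F j) (q : Co l M) := by
        rw [← Finset.sum_subset (Finset.subset_univ (ty L).I) (fun q _ hq => by rw [hr3 q hq]; simp),
          ← Finset.sum_coe_sort (ty L).I]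
        refine Finset.sum_congr rfl fun q _ => ?_
        rw [hr2 q q.2]
      rw [h5, Int.cast_add, Int.cast_sum, Int.cast_sum, add_comm, ← h3]
      congr 1
      · refine Finset.sum_congr rfl fun i _ => ?_
        rw [Int.cast_mul, Int.cast_natCast, ZMod.natCast_val, ZMod.cast_id', id, mul_comm]
        congr 1
      · refine Finset.sum_congr rfl fun q _ => ?_
        rw [Int.cast_mul, Int.cast_natCast, ZMod.natCast_val, ZMod.cast_id', id, mul_comm]
        congr 2
        unfold ent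
        rw [if_neg hj]
        rfl
    · exact hv r' hr' j hj
  · refine strict L r hp (lt_of_lt_of_le hy hyp) hr3 ?_
    by_contra hcon
    push Not at hcon
    apply hc
    funext q
    have h6 := hcon q q.2
    rw [hr2 q q.2, hr1] at h6
    have h7 := Nat.eq_zero_of_dvd_of_lt h6 (c q).val_lt
    exact (ZMod.val_eq_zero _).1 h7

/-- the greedy refinement -/
theorem refine_types {E : Finset (Fin n)} {a : Fin n → ℤ} {b : Bits n} {F : Fin n → Co l M → Bool}
    {y t pm X : ℕ} (hn : 0 < n) (hpm : 2 * y ≤ pm) (hy : (2 * l * M).factorial < y) (hX1 : 1 ≤ X)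
    (hpm2 : (t + 2 * l * M).factorial * X ^ (t + 2 * l * M) ≤ pm) (ha : ∀ j, |a j| ≤ (X : ℤ))
    (hb : NSK b y t) (K : ℕ) : ∀ (m : ℕ) (L : Finset (Rl n l M t pm)), Valid L E b F →
    Module.finrank ℚ (Wsp L) ≤ m → L.card + m ≤ K →
    ∃ L' : Finset (Rl n l M t pm), Valid L' E b F ∧ L'.card ≤ K ∧
      G.NoSparse (matZ b) (fun j (q : (ty L').I) => ent E a F q j) y t := by
  intro m
  induction m with
  | zero =>
    intro L hv hf hc
    by_cases h : G.NoSparse (matZ b) (fun j (q : (ty L).I) => ent E a F q j) y t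
    · exact ⟨L, hv, by omega, h⟩
    · obtain ⟨r, _, h2⟩ := progress hn hpm hy hX1 hpm2 ha hb L hv h
      have := Submodule.finrank_lt_finrank_of_lt h2
      omega
  | succ m ih =>
    intro L hv hf hc
    by_cases h : G.NoSparse (matZ b) (fun j (q : (ty L).I) => ent E a F q j) y t
    · exact ⟨L, hv, by omega, h⟩
    · obtain ⟨r, h1, h2⟩ := progress hn hpm hy hX1 hpm2 ha hb L hv h
      have h3 := Submodule.finrank_lt_finrank_of_lt h2
      refine ih (insert r L) h1 (by omega) ?_
      have := Finset.card_insert_le r L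
      omega

/-- few small sets of relations -/
theorem few {R : Type} [Fintype R] [DecidableEq R] (K : ℕ) :
    ∃ 𝓛 : Finset (Finset R), 𝓛.card ≤ (Fintype.card R + 1) ^ K ∧ (∀ L ∈ 𝓛, L.card ≤ K) ∧
      ∀ L : Finset R, L.card ≤ K → L ∈ 𝓛 := by
  classical
  refine ⟨univ.image fun rs : Fin K → Option R => univ.biUnion fun i => (rs i).toFinset, ?_, ?_, ?_⟩
  · refine Finset.card_image_le.trans ?_
    rw [Finset.card_univ, Fintype.card_fun, Fintype.card_option, Fintype.card_fin]
  · intro L hL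
    obtain ⟨rs, _, rfl⟩ := mem_image.1 hL
    refine Finset.card_biUnion_le.trans ?_
    refine (Finset.sum_le_card_nsmul _ _ 1 fun i _ => ?_).trans (by simp)
    cases rs i <;> simp
  · intro L hL
    refine mem_image.2 ⟨fun i => if h : (i : ℕ) < L.card then some (L.equivFin.symm ⟨i, h⟩ : R) else none,
      mem_univ _, ?_⟩
    ext x
    rw [mem_biUnion]
    constructor
    · rintro ⟨i, _, hi⟩
      dsimp only at hi
      by_cases h : (i : ℕ) < L.card
      · rw [dif_pos h] at hi
        rw [Option.mem_toFinset, Option.mem_def, Option.some_inj] at hi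
        rw [← hi]
        exact (L.equivFin.symm ⟨i, h⟩).2
      · rw [dif_neg h] at hi
        simp at hi
    · intro hx
      refine ⟨⟨L.equivFin ⟨x, hx⟩, lt_of_lt_of_le (Fin.is_lt _) hL⟩, mem_univ _, ?_⟩
      dsimp only
      rw [dif_pos (Fin.is_lt _)]
      simp

/-- **TYPES**: (1) of note 10294 -/
theorem exists_types (n l M y t pm X : ℕ) (hn : 0 < n) (hy : (2 * l * M).factorial < y)
    (hpm : 2 * y ≤ pm) (hX1 : 1 ≤ X) (hpm2 : (t + 2 * l * M).factorial * X ^ (t + 2 * l * M) ≤ pm) :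
    ∃ T : Finset (Ty n l M),
      T.card ≤ ((pm + 1) * (n * (pm + 1)) ^ t * (pm + 1) ^ (2 * l * M) + 1) ^ (2 * l * M) ∧
      (∀ τ ∈ T, τ.Ok ∧ τ.S.card ≤ 2 * l * M * t) ∧
      ∀ (E : Finset (Fin n)) (a : Fin n → ℤ), (∀ j, |a j| ≤ (X : ℤ)) → ∀ b : Bits n, NSK b y t →
        ∀ F : Fin n → Co l M → Bool, Rel E F →
        ∃ τ ∈ T, τ.Fits E b F ∧ G.NoSparse (matZ b) (fun j (q : τ.I) => ent E a F q j) y t := by
  classical
  obtain ⟨𝓛, h1, h2, h3⟩ := few (R := Rl n l M t pm) (2 * l * M)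
  refine ⟨𝓛.image ty, Finset.card_image_le.trans (h1.trans (le_of_eq ?_)), ?_, ?_⟩
  · congr 2
    simp only [Rl, Fintype.card_prod, Fintype.card_fun, Fintype.card_fin, Fintype.card_bool]
    rw [show l * (M * 2) = 2 * l * M by ring]
    ring
  · intro τ hτ
    obtain ⟨L, hL, rfl⟩ := mem_image.1 hτ
    exact ⟨ty_ok L, (ty_S L).trans (Nat.mul_le_mul_right t (h2 L hL))⟩
  · intro E a ha b hb F hF
    obtain ⟨L, hv, hc, hno⟩ := refine_types (t := t) (pm := pm) hn hpm hy hX1 hpm2 ha hb (2 * l * M)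
      (2 * l * M) (∅ : Finset (Rl n l M t pm)) (fun r hr => absurd hr (Finset.notMem_empty r)) (by
        refine (Submodule.finrank_le _).trans ?_
        rw [Module.finrank_fintype_fun_eq_card, card_Co]) (by simp)
    exact ⟨ty L, mem_image_of_mem _ (h3 L hc), fits_of_valid hF hv, hno⟩

end Vale.Agent.P160.Half.A.T984
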