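import Vale.Agent.P160.Half.GStmt4
import Vale.Agent.P160.Half.Types984

/-! # P160, half rate: gap (G), logical half of the assembly of `StmtG` (helper126) -/

set_option linter.unusedVariables false

open Finset Matrix Filter

namespace Vale.Agent.P160.Half.G.GA126

open A Labels

/-- good matrices, independent of the columns -/
def B0Prop : Prop := ∀ C : ℕ, ∀ᶠ n : ℕ in atTop, ∃ B₀ : Finset (Bits n),
  (B₀.card : ℝ) ≤ 2 * 2 ^ (-(C * n : ℝ)) * 2 ^ Fintype.card (Sym2 (Fin n)) ∧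
  ∀ b ∉ B₀, (matZ b).det ≠ 0 → T984.NSK b (py n) (pt n) ∧ CorLt (matZ b) (pk C n)

/-- good matrices for given columns -/
def B1Prop : Prop := ∀ C J A : ℕ, ∀ δ : ℝ, 0 < δ → ∃ D : ℝ, ∀ᶠ n : ℕ in atTop,
  ∀ (β : Type) [Fintype β] [DecidableEq β], Fintype.card β ≤ J → ∀ F : Matrix (Fin n) β ℤ,
  (∀ j q, |F j q| ≤ ((n ^ A : ℕ) : ℤ)) → ∃ B₁ : Finset (Bits n),
  (B₁.card : ℝ) ≤ 3 * 2 ^ (-(C * n : ℝ)) * 2 ^ Fintype.card (Sym2 (Fin n)) ∧
  ∀ b ∉ B₁, (matZ b).det ≠ 0 → CorLt (matZ b) (pk C n) → NoSparse (matZ b) F (py n) (pt n) →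
    (∀ q, BdQ ((n : ℝ) ^ (A : ℝ)) (gF (matZ b) F q)) →
    KZ (matZ b) F (py n) (pa n) (pz (4 * (C + 10)) n) ∧
    ∀ c : β → ℝ, (∀ q, |c q| ≤ 1) → (∃ q, |c q| = 1) →
      ((Set.ncard {j : Fin n | |∑ q, c q * ((gF (matZ b) F q j : ℚ) : ℝ)| < (n : ℝ) ^ (-D)} : ℕ) : ℝ) ≤ δ * n

section lat

variable {n : ℕ}

theorem span_eq : Submodule.span ℤ (Set.range (fun z : Fin n → ℤ => fun i => (z i : ℚ))) =
    Submodule.span ℤ (Set.range (fun j : Fin n => (Pi.single j (1 : ℚ) : Fin n → ℚ))) := by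
  apply le_antisymm
  · rw [Submodule.span_le]
    rintro _ ⟨z, rfl⟩
    have : (fun i => (z i : ℚ)) = ∑ j, z j • (Pi.single j (1 : ℚ) : Fin n → ℚ) := by
      ext i
      simp [Finset.sum_apply, Pi.single_apply]
    show (fun i => (z i : ℚ)) ∈ _
    rw [this]
    exact Submodule.sum_mem _ fun j _ => Submodule.smul_mem _ _ (Submodule.subset_span ⟨j, rfl⟩)
  · rw [Submodule.span_le]
    rintro _ ⟨j, rfl⟩
    apply Submodule.subset_span
    refine ⟨Pi.single j 1, ?_⟩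
    ext i
    by_cases h : i = j
    · subst h; simp
    · simp [h]

theorem LF_eq {l M : ℕ} (P : Matrix (Fin n) (Fin n) ℤ) (E : Finset (Fin n)) (a : Fin n → ℤ)
    (F : Fin n → Co l M → Bool) (I : Finset (Co l M)) :
    LF P E a F I = LFg P (fun j (q : I) => ent E a F q j) := by
  unfold LF LFg
  rw [Submodule.span_union, Submodule.span_union, span_eq]
  rfl

end lat

/-- the columns of a type -/
def cols {n l M : ℕ} (E : Finset (Fin n)) (a : Fin n → ℤ) (F : Fin n → Co l M → Bool)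
    (I : Finset (Co l M)) : Matrix (Fin n) I ℤ := fun j q => ent E a F q j

theorem cols_le {n l M : ℕ} (E : Finset (Fin n)) (a : Fin n → ℤ) (F : Fin n → Co l M → Bool)
    (I : Finset (Co l M)) (X : ℕ) (hX : 1 ≤ X) (ha : ∀ j, |a j| ≤ (X : ℤ)) (j : Fin n) (q : I) :
    |cols E a F I j q| ≤ (X : ℤ) := by
  unfold cols ent
  split_ifs
  · exact ha j
  · simpa using hX
  · simp

theorem card_le_J {l M : ℕ} (I : Finset (Co l M)) : I.card ≤ 2 * l * M := by
  have := Finset.card_le_univ I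
  simp only [Fintype.card_prod, Fintype.card_fin, Fintype.card_bool] at this
  calc I.card ≤ l * (M * 2) := this
    _ = 2 * l * M := by ring

/-- the deterministic end: one `n`, one good `b`, columns of a type -/
theorem det_end (hD : DetStmt) {n l M s₁ A₀ C J : ℕ} (hn : 0 < n) (hJ : J = 2 * l * M)
    {D A : ℝ} (hA : A ≤ A₀) (hpa : 1 ≤ pa n) (hpy : 2 ≤ py n) (E : Finset (Fin n)) (a : Fin n → ℤ)
    (ha : ∀ j, |a j| ≤ ((n ^ A₀ : ℕ) : ℤ)) (b : Bits n) (hdet : (matZ b).det ≠ 0)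
    (F : Fin n → Co l M → Bool) (τ : Ty n l M) (L : Submodule ℤ (Fin n → ℚ)) (hL : Over (matZ b) L)
    (hq : ∀ q, dual (matZ b) (ent E a F q) ∈ L ∧ BdQ ((n : ℝ) ^ A) (dual (matZ b) (ent E a F q)))
    (hKZ : KZ (matZ b) (cols E a F τ.I) (py n) (pa n) (pz (4 * (C + 10)) n))
    (hcor : CorLt (matZ b) (pk C n))
    (hrc : ∀ c : τ.I → ℝ, (∀ q, |c q| ≤ 1) → (∃ q, |c q| = 1) →
      ((Set.ncard {j : Fin n | |∑ q, c q * ((gF (matZ b) (cols E a F τ.I) q j : ℚ) : ℝ)| < (n : ℝ) ^ (-D)} : ℕ) : ℝ)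
        ≤ 1 / (8 * ((J : ℝ) + 1)) * n)
    (hE : E.card ≤ J) (hS : τ.S.card ≤ J * pt n) (hm : 8 * (J + 1) ^ 2 * (pt n + 8 * (J + 1) ^ 2) ≤ n)
    (hN6 : ∀ ρ ≤ J, ((ρ : ℝ) + 1) *
      ((Real.logb 2 n.factorial + 2 * ρ * (ρ * pa n) * py n * Real.logb 2 (py n + 1)) *
          ((1 / 2) ^ s₁ * (ρ * pz (4 * (C + 10)) n / n) + (ρ * pz (4 * (C + 10)) n / n) ^ 2) +
        2 * (ρ * (2 * (J + 2) * n * Real.logb 2 n)) *
          ((1 / 2) ^ s₁ * (ρ * pz (4 * (C + 10)) n / n) + ρ * (ρ * pz (4 * (C + 10)) n / n) ^ 2)) ≤ (n : ℝ) / 2)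
    (hN7 : ∀ ρ ≤ J, Real.logb 2 (((ρ + 1).factorial * ((ρ + 1) * (n * n.factorial * n ^ A₀)) ^ (ρ + 1) : ℕ) : ℝ)
        ≤ 2 * (J + 2) * n * Real.logb 2 n ∧
      Real.logb 2 (n.factorial * (ρ.factorial * ((n : ℝ) ^ (A₀ : ℝ)) ^ ρ) ^ 2) ≤ 2 * n * Real.logb 2 n) :
    ∃ R : τ.I → Fin n, Function.Injective R ∧ (∀ i, R i ∉ τ.S ∧ R i ∉ E) ∧
      (n : ℝ) ^ (-(J * max D 0)) ≤ |((minor R (gs (matZ b) E a F τ.I) : ℚ) : ℝ)| ∧
      ∃ c : Fin s₁ → τ.I → Bool,
        newL (LF (matZ b) E a F τ.I) R (gs (matZ b) E a F τ.I) ∈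
          LabSet n s₁ τ.I.card (py n) (pa n) (pk C n + τ.I.card) (2 * n * Real.logb 2 n) n
            (newP (matZ b) R (gs (matZ b) E a F τ.I))
            (fun t => newH (matZ b) R (gs (matZ b) E a F τ.I) (c t)) := by
  classical
  have hn1 : (1 : ℝ) ≤ n := by exact_mod_cast hn
  have hρ : τ.I.card ≤ J := by rw [hJ]; exact card_le_J _
  have hX1 : 1 ≤ n ^ A₀ := Nat.one_le_pow _ _ hn
  have hcard : Fintype.card τ.I = τ.I.card := Fintype.card_coe _
  have hgF : gF (matZ b) (cols E a F τ.I) = gs (matZ b) E a F τ.I := rfl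
  have hmem : ∀ q, gF (matZ b) (cols E a F τ.I) q ∈ L := fun q => (hq q.1).1
  set sN : ℕ := n / (8 * (J + 1)) with hsN
  have key := hD n τ.I b (cols E a F τ.I) (n ^ A₀) (py n) (pa n) (pz (4 * (C + 10)) n) (pk C n) sN s₁
    ((n : ℝ) ^ (-D)) ((n : ℝ) ^ (A₀ : ℝ)) (2 * n * Real.logb 2 n) n (2 * (J + 2) * n * Real.logb 2 n)
    (τ.S ∪ E) hn hX1 hpa hpy (Real.rpow_pos_of_pos (by linarith) _)
    (Real.one_le_rpow hn1 (Nat.cast_nonneg _)) (by positivity) hdet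
    (fun j q => cols_le E a F τ.I _ hX1 ha j q)
    (fun i k => hL.int _ (hmem i) _ (hmem k))
    (fun q i => ((hq q.1).2 i).trans (Real.rpow_le_rpow_of_exponent_le hn1 hA))
    hKZ hcor
    (fun c h1 h2 => by
      have h3 := hrc c h1 h2
      have h4 : ((Set.ncard {j : Fin n | |∑ q, c q * ((gF (matZ b) (cols E a F τ.I) q j : ℚ) : ℝ)| <
          (n : ℝ) ^ (-D)} : ℕ) : ℝ) ≤ (n : ℝ) / ((8 * (J + 1) : ℕ) : ℝ) := by
        refine h3.trans (le_of_eq ?_)
        push_cast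
        ring
      rw [hsN]
      exact (Nat.le_div_iff_mul_le (by positivity)).2 (by
        rw [le_div_iff₀ (by positivity)] at h4
        exact_mod_cast h4))
    (by
      rw [hcard]
      have h1 : (τ.S ∪ E).card ≤ J * pt n + J := (Finset.card_union_le _ _).trans (by omega)
      have h2 : 8 * (J + 1) * sN ≤ n := Nat.mul_div_le _ _
      have h3 : τ.I.card * (sN + (τ.S ∪ E).card + τ.I.card) ≤ J * (sN + (J * pt n + J) + J) := by gcongr
      have h4 : 8 * (J * (sN + (J * pt n + J) + J)) ≤ 2 * n := by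
        have e1 : 8 * (J * sN) ≤ n := by
          calc 8 * (J * sN) ≤ 8 * (J + 1) * sN := by nlinarith
            _ ≤ n := h2
        have e2 : 8 * (J * (J * pt n + J + J)) ≤ n := by
          calc 8 * (J * (J * pt n + J + J)) = 8 * J ^ 2 * (pt n + 2) := by ring
            _ ≤ 8 * (J + 1) ^ 2 * (pt n + 8 * (J + 1) ^ 2) := by
                gcongr
                · omega
                · nlinarith [Nat.zero_le J]
            _ ≤ n := hm
        nlinarith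
      nlinarith)
    (by rw [hcard]; exact (hN7 _ hρ).1)
    (by rw [hcard]; exact (hN7 _ hρ).2)
    (by rw [hcard]; exact hN6 _ hρ)
  obtain ⟨R, hR, hAv, hmin, c, hc⟩ := key
  rw [hcard, hgF] at hc
  rw [hcard, hgF] at hmin
  have hLF : LF (matZ b) E a F τ.I = LFg (matZ b) (cols E a F τ.I) := LF_eq _ _ _ _ _
  rw [← hLF] at hc
  refine ⟨R, hR, fun i => ?_, ?_, c, hc⟩
  · have := hAv i
    rw [Finset.mem_union, not_or] at this
    exact this
  · refine le_trans ?_ hmin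
    rw [← Real.rpow_natCast, ← Real.rpow_mul (by linarith)]
    apply Real.rpow_le_rpow_of_exponent_le hn1
    have h1 : (τ.I.card : ℝ) ≤ J := by exact_mod_cast hρ
    have h2 : D * τ.I.card ≤ max D 0 * J :=
      mul_le_mul (le_max_left _ _) h1 (Nat.cast_nonneg _) (le_max_right _ _)
    linarith

/-- union bound over all `F` and all `I` -/
theorem union_bd {n l M : ℕ} (Bd : Finset (Co l M) → (Fin n → Co l M → Bool) → Finset (Bits n)) (K : ℝ) (hK : 0 ≤ K)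
    (h : ∀ I F, ((Bd I F).card : ℝ) ≤ K) :
    ∃ B₁ : Finset (Bits n × (Fin n → Co l M → Bool)),
      (B₁.card : ℝ) ≤ 2 ^ (2 * l * M) * (2 ^ (2 * l * M * n) * K) ∧ ∀ b F, (b, F) ∉ B₁ → ∀ I, b ∉ Bd I F := by
  classical
  refine ⟨(univ : Finset (Finset (Co l M))).biUnion fun I =>
    (univ : Finset (Fin n → Co l M → Bool)).biUnion fun F => (Bd I F).image fun b => (b, F), ?_, ?_⟩
  · have h1 : ∀ I F, (((Bd I F).image fun b => (b, F)).card : ℝ) ≤ K := fun I F =>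
      le_trans (by exact_mod_cast Finset.card_image_le) (h I F)
    have h2 : ∀ I : Finset (Co l M), ((((univ : Finset (Fin n → Co l M → Bool)).biUnion fun F =>
        (Bd I F).image fun b => (b, F)).card : ℕ) : ℝ) ≤ 2 ^ (2 * l * M * n) * K := by
      intro I
      calc ((((univ : Finset (Fin n → Co l M → Bool)).biUnion fun F =>
          (Bd I F).image fun b => (b, F)).card : ℕ) : ℝ)
          ≤ ((∑ F : Fin n → Co l M → Bool, ((Bd I F).image fun b => (b, F)).card : ℕ) : ℝ) := by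
            exact_mod_cast Finset.card_biUnion_le
        _ = ∑ F : Fin n → Co l M → Bool, (((Bd I F).image fun b => (b, F)).card : ℝ) := by push_cast; rfl
        _ ≤ ∑ F : Fin n → Co l M → Bool, K := Finset.sum_le_sum fun F _ => h1 I F
        _ = 2 ^ (2 * l * M * n) * K := by
            rw [Finset.sum_const, nsmul_eq_mul, Finset.card_univ]
            congr 1
            simp only [Fintype.card_fun, Fintype.card_prod, Fintype.card_fin, Fintype.card_bool]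
            push_cast
            rw [← pow_mul]
            congr 1
            ring
    calc (((univ : Finset (Finset (Co l M))).biUnion fun I =>
        (univ : Finset (Fin n → Co l M → Bool)).biUnion fun F => (Bd I F).image fun b => (b, F)).card : ℝ)
        ≤ ((∑ I : Finset (Co l M), ((univ : Finset (Fin n → Co l M → Bool)).biUnion fun F =>
          (Bd I F).image fun b => (b, F)).card : ℕ) : ℝ) := by exact_mod_cast Finset.card_biUnion_le
      _ = ∑ I : Finset (Co l M), ((((univ : Finset (Fin n → Co l M → Bool)).biUnion fun F =>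
          (Bd I F).image fun b => (b, F)).card : ℕ) : ℝ) := by push_cast; rfl
      _ ≤ ∑ I : Finset (Co l M), 2 ^ (2 * l * M * n) * K := Finset.sum_le_sum fun I _ => h2 I
      _ = 2 ^ (2 * l * M) * (2 ^ (2 * l * M * n) * K) := by
          rw [Finset.sum_const, nsmul_eq_mul, Finset.card_univ]
          congr 1
          simp only [Fintype.card_finset, Fintype.card_prod, Fintype.card_fin, Fintype.card_bool]
          push_cast
          congr 1
          ring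
  · intro b F hbF I hb
    apply hbF
    rw [Finset.mem_biUnion]
    refine ⟨I, Finset.mem_univ _, ?_⟩
    rw [Finset.mem_biUnion]
    exact ⟨F, Finset.mem_univ _, Finset.mem_image.2 ⟨b, hb, rfl⟩⟩

theorem all_le (J : ℕ) {p : ℕ → ℕ → Prop} (h : ∀ ρ ≤ J, ∀ᶠ n in atTop, p ρ n) : ∀ᶠ n in atTop, ∀ ρ ≤ J, p ρ n := by
  have h1 : ∀ᶠ n in atTop, ∀ ρ ∈ Finset.range (J + 1), p ρ n :=
    (Filter.eventually_all_finset _).2 fun ρ hρ => h ρ (by simpa [Nat.lt_succ_iff] using hρ)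
  filter_upwards [h1] with n hn ρ hρ
  exact hn ρ (by simpa [Nat.lt_succ_iff] using hρ)

theorem card_le_label (hC : CountStmt) (n s ρ y a k : ℕ) (Dt X : ℝ) (hy : 2 ≤ y) (ha : 1 ≤ a) (hX : 0 ≤ X) (hDt : 0 ≤ Dt)
    (M' : Matrix (Fin n) (Fin n) ℚ) (h : Fin s → Fin n → ℚ) :
    (((hC n s ρ y a k Dt X M' h hy ha hX hDt).1.toFinset.card : ℕ) : ℝ) ≤
    2 ^ (X + 6 * Dt / Real.logb 2 y + y * (4 + 2 * Real.logb 2 (Dt + 1) + 2 * ρ * (ρ * a) * k * Real.logb 2 y)) := by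
  have := (hC n s ρ y a k Dt X M' h hy ha hX hDt).2
  rwa [Set.ncard_eq_toFinset_card _ (hC n s ρ y a k Dt X M' h hy ha hX hDt).1] at this

/-- **`StmtG`** from the counting half and the numbers -/
theorem stmtG_of (h0 : B0Prop) (h1 : B1Prop) (hC : CountStmt) (hD : DetStmt) (n1 : Num1) (n2 : Num2)
    (n6 : Num6) (n7 : Num7) (n8 : Num8) : A.StmtG := by
  classical
  refine ⟨200, fun M hM => ?_⟩
  obtain ⟨l₀, hl₀⟩ := n8 M hM
  refine ⟨max l₀ 1, fun l hl => ?_⟩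
  obtain ⟨s₁, hs₁, hs₂⟩ := hl₀ l ((le_max_left _ _).trans hl)
  have hl1 : 1 ≤ l := (le_max_right _ _).trans hl
  refine ⟨s₁, hs₁, fun Ax ε hε => ?_⟩
  set J : ℕ := 2 * l * M with hJ
  set C : ℕ := 10 * l * M with hCdef
  set A₀ : ℕ := ⌈Ax⌉₊ with hA₀
  have hAx : Ax ≤ A₀ := Nat.le_ceil _
  obtain ⟨D, hD1⟩ := h1 C J A₀ (1 / (8 * ((J : ℝ) + 1))) (by positivity)
  have e1 := n1 J A₀ J (8 * (J + 1) ^ 2)
  have e2 := n2 J ε hε
  have e6 := all_le J (n6 C J s₁ hs₂)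
  have e7 := all_le J (n7 C J A₀)
  have e0 := h0 C
  obtain ⟨n₀, hn₀⟩ := eventually_atTop.1
    (e1.and (e2.and (e6.and (e7.and (e0.and (hD1.and (eventually_ge_atTop 1)))))))
  refine ⟨J * max D 0, n₀, fun n hn => ?_⟩
  obtain ⟨e1, e2, e6, e7, e0, hB1, hn1⟩ := hn₀ n hn
  obtain ⟨f1, f2, f3, f4, f5, f6⟩ := e1
  have hn0 : 0 < n := hn1
  have hnR : (1 : ℝ) ≤ n := by exact_mod_cast hn1
  have hpv : 1 ≤ pv n := le_trans (by nlinarith [Nat.zero_le J]) f1
  have hpy : 2 ≤ py n := by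
    unfold py
    calc 2 = 2 ^ 1 := rfl
      _ ≤ 2 ^ pv n := Nat.pow_le_pow_right (by norm_num) hpv
  have hpa : 1 ≤ pa n := hpv.trans f3
  have hX1 : 1 ≤ n ^ A₀ := Nat.one_le_pow _ _ hn0
  obtain ⟨T, hT1, hT2, hT3⟩ := T984.exists_types n l M (py n) (pt n) (2 ^ pa n) (n ^ A₀) hn0
    (by rw [← hJ]; exact f2) f6 hX1
    (by
      rw [← hJ]
      exact f5.le.trans (Nat.pow_le_pow_right (by norm_num) (Nat.sub_le _ _)))
  obtain ⟨B₀, hB₀, hB₀'⟩ := e0
  have hlM : (1 : ℝ) ≤ l * M := by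
    have : 1 ≤ l * M := Nat.one_le_iff_ne_zero.2 (by positivity)
    exact_mod_cast this
  have hlMn : (1 : ℝ) ≤ l * M * n := by nlinarith
  have hCR : ((C : ℕ) : ℝ) = 10 * l * M := by rw [hCdef]; push_cast; ring
  refine ⟨T, B₀, ?_, fun τ hτ => (hT2 τ hτ).1, ?_, ?_⟩
  · refine le_trans ?_ e2
    exact_mod_cast hT1
  · refine hB₀.trans ?_
    refine mul_le_mul_of_nonneg_right ?_ (by positivity)
    have h2 : (2 : ℝ) * 2 ^ (-(C * n : ℝ)) = 2 ^ (1 + -(C * n : ℝ)) := by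
      rw [Real.rpow_add (by norm_num), Real.rpow_one]
    rw [h2]
    apply Real.rpow_le_rpow_of_exponent_le (by norm_num)
    rw [hCR]
    nlinarith
  · intro E a hE ha
    have ha' : ∀ j, |a j| ≤ ((n ^ A₀ : ℕ) : ℤ) := by
      intro j
      have h2 : |(a j : ℝ)| ≤ ((n ^ A₀ : ℕ) : ℝ) := by
        refine (ha j).trans ((Real.rpow_le_rpow_of_exponent_le hnR hAx).trans (le_of_eq ?_))
        rw [Real.rpow_natCast]; push_cast; rfl
      exact_mod_cast h2
    have hex : ∀ (I : Finset (Co l M)) (F : Fin n → Co l M → Bool), ∃ B₁ : Finset (Bits n),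
        (B₁.card : ℝ) ≤ 3 * 2 ^ (-(C * n : ℝ)) * 2 ^ Fintype.card (Sym2 (Fin n)) ∧
        ∀ b ∉ B₁, (matZ b).det ≠ 0 → CorLt (matZ b) (pk C n) → NoSparse (matZ b) (cols E a F I) (py n) (pt n) →
          (∀ q, BdQ ((n : ℝ) ^ (A₀ : ℝ)) (gF (matZ b) (cols E a F I) q)) →
          KZ (matZ b) (cols E a F I) (py n) (pa n) (pz (4 * (C + 10)) n) ∧
          ∀ c : I → ℝ, (∀ q, |c q| ≤ 1) → (∃ q, |c q| = 1) →
            ((Set.ncard {j : Fin n | |∑ q, c q * ((gF (matZ b) (cols E a F I) q j : ℚ) : ℝ)| < (n : ℝ) ^ (-D)} : ℕ) : ℝ)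
              ≤ 1 / (8 * ((J : ℝ) + 1)) * n := fun I F =>
      hB1 I (by rw [Fintype.card_coe, hJ]; exact card_le_J I) (cols E a F I) (fun j q => cols_le E a F I _ hX1 ha' j q)
    choose Bd hBd1 hBd2 using hex
    obtain ⟨B₁, hB₁, hB₁'⟩ := union_bd Bd (3 * 2 ^ (-(C * n : ℝ)) * 2 ^ Fintype.card (Sym2 (Fin n)))
      (by positivity) hBd1
    have hDt : (0 : ℝ) ≤ 2 * n * Real.logb 2 n :=
      mul_nonneg (by positivity) (Real.logb_nonneg (by norm_num) hnR)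
    have hXn : (0 : ℝ) ≤ (n : ℝ) := Nat.cast_nonneg _
    refine ⟨B₁, fun τ R M' h => (hC n s₁ τ.I.card (py n) (pa n) (pk C n + τ.I.card) (2 * n * Real.logb 2 n) n M' h
      hpy hpa hXn hDt).1.toFinset, ?_, ?_, ?_⟩
    · refine hB₁.trans ?_
      have h2 : (2 : ℝ) ^ (2 * l * M) * (2 ^ (2 * l * M * n) * (3 * 2 ^ (-(C * n : ℝ)) * 2 ^ Fintype.card (Sym2 (Fin n)))) =
          (3 * (2 ^ (2 * l * M) * 2 ^ (-(C * n : ℝ)))) * 2 ^ (Fintype.card (Sym2 (Fin n)) + 2 * l * M * n) := by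
        rw [pow_add]; ring
      rw [h2]
      refine mul_le_mul_of_nonneg_right ?_ (by positivity)
      have h3 : (2 : ℝ) ^ (2 * l * M) * 2 ^ (-(C * n : ℝ)) = 2 ^ ((2 * l * M : ℝ) + -(C * n : ℝ)) := by
        rw [Real.rpow_add (by norm_num), ← Real.rpow_natCast]; push_cast; rfl
      have h4 : (3 : ℝ) * 2 ^ ((2 * l * M : ℝ) + -(C * n : ℝ)) ≤ 2 ^ (2 + ((2 * l * M : ℝ) + -(C * n : ℝ))) := by
        rw [Real.rpow_add (by norm_num : (0 : ℝ) < 2) 2]
        refine mul_le_mul_of_nonneg_right ?_ (by positivity)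
        norm_num
      rw [h3]
      refine h4.trans (Real.rpow_le_rpow_of_exponent_le (by norm_num) ?_)
      rw [hCR]
      nlinarith
    · intro τ R M' h
      refine (card_le_label hC n s₁ τ.I.card (py n) (pa n) (pk C n + τ.I.card) (2 * n * Real.logb 2 n) n
        hpy hpa hXn hDt M' h).trans (Real.rpow_le_rpow_of_exponent_le (by norm_num) ?_)
      exact (e7 τ.I.card (by rw [hJ]; exact card_le_J _)).2.2
    · intro b hb hdet F hF hrel L hL hq
      obtain ⟨hNSK, hcor⟩ := hB₀' b hb hdet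
      obtain ⟨τ, hτ, hfit, hns⟩ := hT3 E a ha' b hNSK F hrel
      obtain ⟨hKZ, hrc⟩ := hBd2 τ.I F b (hB₁' b F hF τ.I) hdet hcor hns
        (fun q i => ((hq q.1).2 i).trans (Real.rpow_le_rpow_of_exponent_le hnR hAx))
      obtain ⟨R, hR, hAv, hmin, c, hc⟩ := det_end hD hn0 hJ hAx hpa hpy E a ha' b hdet F τ L hL hq hKZ hcor hrc
        (hJ ▸ hE) (by rw [hJ]; exact (hT2 τ hτ).2) f4 e6 (fun ρ hρ => ⟨(e7 ρ hρ).1, (e7 ρ hρ).2.1⟩)
      exact ⟨τ, hτ, hfit, R, hR, hAv, hmin, c, (Set.Finite.mem_toFinset _).2 hc⟩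

end Vale.Agent.P160.Half.G.GA126
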