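import Vale.Agent.P160.Half.GAsmA

/-! # P160, half rate: gap (G), assembly of `StmtG` (helper319) -/

set_option linter.unusedVariables false

open Finset Matrix Filter

namespace Vale.Agent.P160.Half.G.Asm319

open Vale.Agent.P160.Half Vale.Agent.P160.Half.G Vale.Agent.P160.Half.A Vale.Agent.P160.Half.A.T984 Labels

/-- sparse kernel vector modulo a prime `≥ y` -/
def Sp {n : ℕ} (y t : ℕ) (b : Bits n) : Prop :=
  (matZ b).det ≠ 0 ∧ ∃ p, p.Prime ∧ y ≤ p ∧ ∃ g : Fin n → ZMod p, g ≠ 0 ∧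
    (matZ b).map (Int.cast : ℤ → ZMod p) *ᵥ g = 0 ∧ (univ.filter fun i => g i ≠ 0).card ≤ t

def Bad1 {n : ℕ} {β : Type} [Fintype β] [DecidableEq β] (F : Matrix (Fin n) β ℤ) (y t z k : ℕ) (b : Bits n) : Prop :=
  CorLt (matZ b) k ∧ NoSparse (matZ b) F y t ∧
    ∃ p, p.Prime ∧ y ≤ p ∧ ∃ (g : Fin n → ZMod p) (c : β → ZMod p), Word _ (matZ b) F g c ∧ (g ≠ 0 ∨ c ≠ 0) ∧
      z ≤ (univ.filter fun i => g i = 0).card

def Bad2 {n : ℕ} {β : Type} [Fintype β] [DecidableEq β] (F : Matrix (Fin n) β ℤ) (y a t z k : ℕ) (b : Bits n) : Prop :=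
  CorLt (matZ b) k ∧ NoSparseZ (matZ b) F t ∧
    ∃ p, p.Prime ∧ p < y ∧ ∃ (g : Fin n → ZMod (p ^ a)) (c : β → ZMod (p ^ a)), Word _ (matZ b) F g c ∧ Prim g c ∧
      z ≤ (univ.filter fun i => g i = 0).card

theorem natCard_eq {X : Type*} [Fintype X] (P : X → Prop) [DecidablePred P] :
    Nat.card {x : X // P x} = (univ.filter P).card := by
  rw [Nat.card_eq_fintype_card, Fintype.card_subtype]

open Classical in
theorem card_Sp (hNS : NSStmt) (n C s₀ y t : ℕ) (hs₀ : s₀.factorial < y)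
    (hq : 1 / (y : ℝ) + 3 / 2 / Real.sqrt (s₀ + 1) ≤ 1)
    (h3 : ((t : ℝ) + 1) ^ 2 * 8 ^ n * (1 / (y : ℝ) + 3 / 2 / Real.sqrt (s₀ + 1)) ^ (n - 3 * t) ≤ 2 ^ (-(C * n : ℝ))) :
    (((univ : Finset (Bits n)).filter (Sp y t)).card : ℝ) ≤ 2 ^ (-(C * n : ℝ)) * 2 ^ Fintype.card (Sym2 (Fin n)) := by
  have h := hNS (Fin n) y s₀ t _ hs₀ rfl hq
  rw [Fintype.card_fin] at h
  have h2 : (Nat.card {b : Sym2 (Fin n) → Bool // Sp y t b} : ℝ) ≤
      ((t : ℝ) + 1) ^ 2 * 8 ^ n * (1 / (y : ℝ) + 3 / 2 / Real.sqrt (s₀ + 1)) ^ (n - 3 * t) * 2 ^ Fintype.card (Sym2 (Fin n)) := h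
  rw [natCard_eq] at h2
  refine h2.trans ?_
  exact mul_le_mul_of_nonneg_right h3 (by positivity)

open Classical in
theorem card_Cor (n C k : ℕ) (hn : 1 ≤ n) (hk : 2 * (C + 12) * n ≤ k ^ 2) :
    (((univ : Finset (Bits n)).filter (fun b => ¬ CorLt (matZ b) k)).card : ℝ) ≤
      2 ^ (-(C * n : ℝ)) * 2 ^ Fintype.card (Sym2 (Fin n)) := by
  have h := card_corank_le_exp (α := Fin n) C k (by rw [Fintype.card_fin]; exact hn) (by rw [Fintype.card_fin]; exact hk)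
  rw [Fintype.card_fin] at h
  have hsub : (univ : Finset (Bits n)).filter (fun b => ¬ CorLt (matZ b) k) ⊆
      (univ.filter fun b : Sym2 (Fin n) → Bool => ∃ (p : ℕ) (_ : Fact p.Prime) (T : Finset (Fin n)),
        (prin ((matZ b).map (Int.cast : ℤ → ZMod p)) T).rank + k ≤ T.card) := by
    intro b hb
    rw [mem_filter] at hb ⊢
    refine ⟨mem_univ _, ?_⟩
    have h1 := hb.2
    unfold CorLt at h1
    push Not at h1
    obtain ⟨p, hp, T, hT⟩ := h1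
    exact ⟨p, ⟨hp⟩, T, hT⟩
  have h2 : ((univ : Finset (Bits n)).filter (fun b => ¬ CorLt (matZ b) k)).card * 2 ^ (C * n) ≤
      2 ^ Fintype.card (Sym2 (Fin n)) := le_trans (Nat.mul_le_mul_right _ (card_le_card hsub)) h
  have h3 : (((univ : Finset (Bits n)).filter (fun b => ¬ CorLt (matZ b) k)).card : ℝ) * 2 ^ (C * n) ≤
      2 ^ Fintype.card (Sym2 (Fin n)) := by exact_mod_cast h2
  have h4 : (2 : ℝ) ^ (-(C * n : ℝ)) = (2 ^ (C * n))⁻¹ := by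
    rw [Real.rpow_neg (by norm_num), ← Nat.cast_mul, Real.rpow_natCast]
  rw [h4, inv_mul_eq_div, le_div_iff₀ (by positivity)]
  exact h3

open Classical in
theorem card_Bad1 (hKZ1 : KZ1Stmt2) (n C J A₀ y t z k : ℕ) {β : Type} [Fintype β] [DecidableEq β] (F : Matrix (Fin n) β ℤ)
    (X : ℕ) (hX : 1 ≤ X) (hF : ∀ i j, |F i j| ≤ (X : ℤ)) (hy : 2 ≤ y)
    (hq : 1 / (y : ℝ) + 3 / 2 / Real.sqrt (t + 1) ≤ 1)
    (h4 : 3 * (X : ℝ) * ((n : ℝ) + Fintype.card β) ^ 2 * 8 ^ n * (1 / (y : ℝ) + 3 / 2 / Real.sqrt (t + 1)) ^ (z - 2 * (k + Fintype.card β)) ≤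
      2 ^ (-(C * n : ℝ))) :
    (((univ : Finset (Bits n)).filter (Bad1 F y t z k)).card : ℝ) ≤ 2 ^ (-(C * n : ℝ)) * 2 ^ Fintype.card (Sym2 (Fin n)) := by
  have h := hKZ1 (Fin n) β F X y t z k _ hX hF hy rfl hq
  rw [Fintype.card_fin] at h
  have h2 : (Nat.card {b : Sym2 (Fin n) → Bool // Bad1 F y t z k b} : ℝ) ≤
      3 * (X : ℝ) * ((n : ℝ) + Fintype.card β) ^ 2 * 8 ^ n * (1 / (y : ℝ) + 3 / 2 / Real.sqrt (t + 1)) ^ (z - 2 * (k + Fintype.card β)) *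
        2 ^ Fintype.card (Sym2 (Fin n)) := h
  rw [natCard_eq] at h2
  exact h2.trans (mul_le_mul_of_nonneg_right h4 (by positivity))

open Classical in
theorem card_Bad2 (hKZA : KZAStmt2) (n C y a s L t z k : ℕ) {β : Type} [Fintype β] [DecidableEq β] (F : Matrix (Fin n) β ℤ)
    (X : ℕ) (hX : 1 ≤ X) (hF : ∀ i j, |F i j| ≤ (X : ℤ)) (hsa : s ≤ a) (hL : 1 ≤ L) (ht : 1 ≤ t)
    (hfac : (t + Fintype.card β).factorial * X ^ (t + Fintype.card β) < 2 ^ (a - s))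
    (hq : max ((1 / 2) ^ L) (1 / (2 : ℝ) ^ s + 3 / 2 / Real.sqrt (t / L)) ≤ 1)
    (h5 : (y : ℝ) * 4 ^ n * (max ((1 / 2) ^ L) (1 / (2 : ℝ) ^ s + 3 / 2 / Real.sqrt (t / L))) ^ (z - a * (k + Fintype.card β)) ≤
      2 ^ (-(C * n : ℝ))) :
    (((univ : Finset (Bits n)).filter (Bad2 F y a t z k)).card : ℝ) ≤ 2 ^ (-(C * n : ℝ)) * 2 ^ Fintype.card (Sym2 (Fin n)) := by
  have h := hKZA (Fin n) β F X y a s L t z k _ hX hF hsa hL ht hfac rfl hq
  rw [Fintype.card_fin] at h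
  have h2 : (Nat.card {b : Sym2 (Fin n) → Bool // Bad2 F y a t z k b} : ℝ) ≤
      (y : ℝ) * 4 ^ n * (max ((1 / 2) ^ L) (1 / (2 : ℝ) ^ s + 3 / 2 / Real.sqrt (t / L))) ^ (z - a * (k + Fintype.card β)) *
        2 ^ Fintype.card (Sym2 (Fin n)) := h
  rw [natCard_eq] at h2
  exact h2.trans (mul_le_mul_of_nonneg_right h5 (by positivity))

theorem kz_of_bad {n : ℕ} {β : Type} [Fintype β] [DecidableEq β] {F : Matrix (Fin n) β ℤ} {y a t z k : ℕ} {b : Bits n}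
    (hc : CorLt (matZ b) k) (hs : NoSparse (matZ b) F y t) (hz : NoSparseZ (matZ b) F t)
    (h1 : ¬ Bad1 F y t z k b) (h2 : ¬ Bad2 F y a t z k b) : KZ (matZ b) F y a z :=
  kz_of _ _ _ _ _ (fun h => h1 ⟨hc, hs, h⟩) (fun h => h2 ⟨hc, hz, h⟩)

/-- union over the arrays and the information sets -/
theorem card_union_FI {n l M : ℕ} (K : ℝ) (hK : 0 ≤ K) (S : Finset (Bits n × (Fin n → Co l M → Bool)))
    (T : (Fin n → Co l M → Bool) → Finset (Co l M) → Finset (Bits n))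
    (hS : ∀ bF ∈ S, ∃ I, bF.1 ∈ T bF.2 I) (hT : ∀ F I, ((T F I).card : ℝ) ≤ K) :
    (S.card : ℝ) ≤ 2 ^ (2 * l * M * n) * (2 ^ (2 * l * M) * K) := by
  classical
  have h0 := card_pairs S (2 ^ (2 * l * M) * K) (fun F => ?_)
  · refine h0.trans (le_of_eq ?_)
    congr 1
    rw [Fintype.card_fun, Fintype.card_fun, Fintype.card_fin, Fintype.card_bool, card_Co']
    push_cast
    rw [← pow_mul]
  · have hinj : (S.filter fun bF => bF.2 = F).card ≤ ((univ : Finset (Finset (Co l M))).biUnion (T F)).card := by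
      refine Finset.card_le_card_of_injOn (fun bF => bF.1) ?_ ?_
      · intro bF hbF
        rw [Finset.mem_coe, mem_filter] at hbF
        obtain ⟨I, hI⟩ := hS bF hbF.1
        rw [Finset.mem_coe, mem_biUnion]
        refine ⟨I, mem_univ _, ?_⟩
        rw [← hbF.2]; exact hI
      · intro x hx x' hx' hxx
        rw [Finset.mem_coe, mem_filter] at hx hx'
        exact Prod.ext hxx (hx.2.trans hx'.2.symm)
    have h1 : ((univ : Finset (Finset (Co l M))).biUnion (T F)).card ≤ ∑ I : Finset (Co l M), (T F I).card := card_biUnion_le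
    have h2 : ((S.filter fun bF => bF.2 = F).card : ℝ) ≤ ∑ I : Finset (Co l M), ((T F I).card : ℝ) := by
      exact_mod_cast hinj.trans h1
    refine h2.trans ((Finset.sum_le_sum fun I _ => hT F I).trans (le_of_eq ?_))
    rw [Finset.sum_const, nsmul_eq_mul, Finset.card_univ, Fintype.card_finset, card_Co']
    push_cast; ring


theorem gs_eq {n l M : ℕ} (P : Matrix (Fin n) (Fin n) ℤ) (E : Finset (Fin n)) (a : Fin n → ℤ)
    (F : Fin n → Co l M → Bool) (I : Finset (Co l M)) : gs P E a F I = gF P (FI E a F I) := rfl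

theorem bdQ_mono {n : ℕ} {X X' : ℝ} {v : Fin n → ℚ} (h : BdQ X v) (hX : X ≤ X') : BdQ X' v :=
  fun i => (h i).trans hX

theorem minor_low {n ρ J : ℕ} {D : ℝ} (hn : 1 ≤ n) (hρ : ρ ≤ J) :
    (n : ℝ) ^ (-(|D| * J)) ≤ ((n : ℝ) ^ (-D)) ^ ρ := by
  have hn' : (1 : ℝ) ≤ n := by exact_mod_cast hn
  rw [← Real.rpow_natCast, ← Real.rpow_mul (by linarith)]
  apply Real.rpow_le_rpow_of_exponent_le hn'
  have h1 : D * ρ ≤ |D| * J := by
    calc D * ρ ≤ |D| * ρ := mul_le_mul_of_nonneg_right (le_abs_self _) (Nat.cast_nonneg _)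
      _ ≤ |D| * J := mul_le_mul_of_nonneg_left (by exact_mod_cast hρ) (abs_nonneg _)
  linarith

theorem room {n J t m ρ c sR : ℕ} (hm : 16 * (J + 1) ^ 2 ≤ m) (h : m * (t + m) ≤ n) (hρ : ρ ≤ J)
    (hc : c ≤ J * t + J) (hs : (sR : ℝ) ≤ 1 / (16 * (J + 1)) * n) : 4 * (ρ * (sR + c + ρ)) ≤ n := by
  have h1 : 4 * (ρ * (sR + c + ρ)) ≤ 4 * (J * (sR + (J * t + J) + J)) := by gcongr
  have h2 : (16 * ((J : ℝ) + 1)) * sR ≤ n := by
    have : (0 : ℝ) < 16 * (J + 1) := by positivity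
    rw [one_div, inv_mul_eq_div, le_div_iff₀ this] at hs
    linarith
  have h3 : 16 * (J + 1) * sR ≤ n := by exact_mod_cast h2
  have h4 : 16 * (J + 1) ^ 2 * (t + 1) ≤ n := by
    have hm1 : 1 ≤ m := le_trans (by nlinarith [Nat.zero_le J]) hm
    calc 16 * (J + 1) ^ 2 * (t + 1) ≤ m * (t + m) := by gcongr
      _ ≤ n := h
  nlinarith [Nat.zero_le (J * sR), Nat.zero_le (J * J * t), Nat.zero_le (J * t), Nat.zero_le t, Nat.zero_le (J * J)]

theorem num_final (l M n C : ℕ) (hC : C = 10 * l * M) (hl : 1 ≤ l) (hM : 1 ≤ M) (hn : 1 ≤ n) (c : ℝ) (hc : 0 ≤ c) :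
    (2 : ℝ) ^ (2 * l * M * n) * (2 ^ (2 * l * M) * (3 * (2 ^ (-((C : ℝ) * n)) * c))) ≤
      2 ^ (-(5 * l * M * n) : ℝ) * (c * 2 ^ (2 * l * M * n)) := by
  have hlM : 1 ≤ l * M := Nat.one_le_iff_ne_zero.2 (by positivity)
  have h1 : (2 : ℝ) ^ (2 * l * M) * 3 ≤ 2 ^ (5 * l * M * n) := by
    calc (2 : ℝ) ^ (2 * l * M) * 3 ≤ 2 ^ (2 * l * M) * 2 ^ 2 := by gcongr; norm_num
      _ = 2 ^ (2 * l * M + 2) := by rw [pow_add]
      _ ≤ 2 ^ (5 * l * M * n) := by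
        apply pow_le_pow_right₀ (by norm_num)
        nlinarith [Nat.mul_le_mul hlM hn]
  have h2 : (2 : ℝ) ^ (-((C : ℝ) * n)) = ((2 : ℝ) ^ (5 * l * M * n) * 2 ^ (5 * l * M * n))⁻¹ := by
    rw [← pow_add, Real.rpow_neg (by norm_num), ← Nat.cast_mul, Real.rpow_natCast, hC]
    congr 2; ring
  have h3 : (2 : ℝ) ^ (-(5 * l * M * n) : ℝ) = ((2 : ℝ) ^ (5 * l * M * n))⁻¹ := by
    rw [Real.rpow_neg (by norm_num)]
    congr 1
    rw [← Real.rpow_natCast]; push_cast; rfl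
  rw [h2, h3]
  have hp : (0 : ℝ) < 2 ^ (5 * l * M * n) := by positivity
  rw [mul_inv]
  calc (2 : ℝ) ^ (2 * l * M * n) * (2 ^ (2 * l * M) * (3 * (((2 : ℝ) ^ (5 * l * M * n))⁻¹ * (2 ^ (5 * l * M * n))⁻¹ * c)))
      = (2 ^ (2 * l * M) * 3) * (2 ^ (5 * l * M * n))⁻¹ * ((2 ^ (5 * l * M * n))⁻¹ * (c * 2 ^ (2 * l * M * n))) := by ring
    _ ≤ 2 ^ (5 * l * M * n) * (2 ^ (5 * l * M * n))⁻¹ * ((2 ^ (5 * l * M * n))⁻¹ * (c * 2 ^ (2 * l * M * n))) := by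
        gcongr
    _ = _ := by rw [mul_inv_cancel₀ hp.ne', one_mul]

end Vale.Agent.P160.Half.G.Asm319
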