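import Vale.Agent.P160.Half.GAsmA

/-! # P160, half rate: gap (G), assembly of `StmtG` (helper609) -/

set_option linter.unusedVariables false

open Finset Matrix

namespace Vale.Agent.P160.Half.G.As609

open A Labels G

theorem filt_card {α : Type*} [Fintype α] (p : α → Prop) [DecidablePred p] :
    (univ.filter p).card = Nat.card {a // p a} := by
  rw [Nat.card_eq_fintype_card, Fintype.card_subtype]

/-- a sparse kernel vector -/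
def EvNS {n : ℕ} (b : Bits n) (y t : ℕ) : Prop :=
  (matZ b).det ≠ 0 ∧ ∃ p, p.Prime ∧ y ≤ p ∧ ∃ g : Fin n → ZMod p, g ≠ 0 ∧
    (matZ b).map (Int.cast : ℤ → ZMod p) *ᵥ g = 0 ∧ (univ.filter fun i => g i ≠ 0).card ≤ t

/-- a large corank -/
def EvCo {n : ℕ} (b : Bits n) (k : ℕ) : Prop :=
  ∃ (p : ℕ) (_ : Fact p.Prime) (T : Finset (Fin n)), (prin ((matZ b).map (Int.cast : ℤ → ZMod p)) T).rank + k ≤ T.card

/-- zero counts, large primes -/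
def Ev1 {n : ℕ} {β : Type} [Fintype β] [DecidableEq β] (b : Bits n) (F : Matrix (Fin n) β ℤ) (y t z k : ℕ) : Prop :=
  CorLt (matZ b) k ∧ NoSparse (matZ b) F y t ∧
    ∃ p, p.Prime ∧ y ≤ p ∧ ∃ (g : Fin n → ZMod p) (c : β → ZMod p), Word _ (matZ b) F g c ∧ (g ≠ 0 ∨ c ≠ 0) ∧
      z ≤ (univ.filter fun i => g i = 0).card

/-- zero counts, small primes -/
def Ev2 {n : ℕ} {β : Type} [Fintype β] [DecidableEq β] (b : Bits n) (F : Matrix (Fin n) β ℤ) (y a t z k : ℕ) : Prop :=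
  CorLt (matZ b) k ∧ NoSparseZ (matZ b) F t ∧
    ∃ p, p.Prime ∧ p < y ∧ ∃ (g : Fin n → ZMod (p ^ a)) (c : β → ZMod (p ^ a)), Word _ (matZ b) F g c ∧ Prim g c ∧
      z ≤ (univ.filter fun i => g i = 0).card

/-- real conditioning at `n` -/
def RCn (n J A₀ C t₀ s : ℕ) (Dr : ℝ) : Prop :=
  ∀ (β : Type) [Fintype β] [DecidableEq β], Fintype.card β ≤ J →
  ∀ F : Matrix (Fin n) β ℤ, (∀ j q, |(F j q : ℝ)| ≤ (n : ℝ) ^ (A₀ : ℝ)) → ∃ B₁ : Finset (Bits n),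
    (B₁.card : ℝ) ≤ (2 : ℝ) ^ (-(C * n : ℝ)) * 2 ^ Fintype.card (Sym2 (Fin n)) ∧
  ∀ b ∉ B₁, (matZ b).det ≠ 0 → NoSparseZ (matZ b) F t₀ → (∀ q, BdQ ((n : ℝ) ^ (A₀ : ℝ)) (gF (matZ b) F q)) →
  ∀ c : β → ℝ, (∀ q, |c q| ≤ 1) → (∃ q, |c q| = 1) →
    Set.ncard {j : Fin n | |∑ q, c q * ((gF (matZ b) F q j : ℚ) : ℝ)| < (n : ℝ) ^ (-Dr)} ≤ s

open Classical in
theorem B0_card {n : ℕ} (hn : 0 < n) (hNS : NSStmt) (C s₀ : ℕ) (h0 : s₀.factorial < py n)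
    (h3 : 1 / (py n : ℝ) + 3 / 2 / Real.sqrt (s₀ + 1) ≤ 1 ∧
      ((pt n : ℝ) + 1) ^ 2 * 8 ^ n * (1 / (py n : ℝ) + 3 / 2 / Real.sqrt (s₀ + 1)) ^ (n - 3 * pt n) ≤ 2 ^ (-(C * n : ℝ))) :
    ((univ.filter fun b : Bits n => EvNS b (py n) (pt n) ∨ EvCo b (pk C n)).card : ℝ) ≤
      2 * (2 : ℝ) ^ (-(C * n : ℝ)) * 2 ^ Fintype.card (Sym2 (Fin n)) := by
  have e1 : ((univ.filter fun b : Bits n => EvNS b (py n) (pt n)).card : ℝ) ≤
      (2 : ℝ) ^ (-(C * n : ℝ)) * 2 ^ Fintype.card (Sym2 (Fin n)) := by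
    have h := hNS (Fin n) (py n) s₀ (pt n) (1 / (py n : ℝ) + 3 / 2 / Real.sqrt (s₀ + 1)) h0 rfl h3.1
    rw [filt_card]
    refine h.trans ?_
    rw [Fintype.card_fin]
    exact mul_le_mul_of_nonneg_right h3.2 (by positivity)
  have e2 : ((univ.filter fun b : Bits n => EvCo b (pk C n)).card : ℝ) ≤
      (2 : ℝ) ^ (-(C * n : ℝ)) * 2 ^ Fintype.card (Sym2 (Fin n)) := by
    have h := card_corank_le_exp (α := Fin n) C (pk C n) (by rw [Fintype.card_fin]; exact hn) (by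
      rw [Fintype.card_fin]
      unfold pk
      have := Nat.lt_succ_sqrt (2 * (C + 12) * n)
      rw [sq]
      exact this.le)
    rw [Fintype.card_fin] at h
    have h' : ((univ.filter fun b : Bits n => EvCo b (pk C n)).card : ℝ) * 2 ^ (C * n) ≤ 2 ^ Fintype.card (Sym2 (Fin n)) := by
      have : (univ.filter fun b : Bits n => EvCo b (pk C n)).card * 2 ^ (C * n) ≤ 2 ^ Fintype.card (Sym2 (Fin n)) := h
      exact_mod_cast this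
    have h2 : (2 : ℝ) ^ (-(C * n : ℝ)) = ((2 : ℝ) ^ (C * n))⁻¹ := by
      rw [Real.rpow_neg (by norm_num)]
      congr 1
      rw [← Real.rpow_natCast]
      push_cast
      ring_nf
    rw [h2, inv_mul_eq_div, le_div_iff₀ (by positivity)]
    exact h'
  have h4 : (univ.filter fun b : Bits n => EvNS b (py n) (pt n) ∨ EvCo b (pk C n)).card ≤
      (univ.filter fun b : Bits n => EvNS b (py n) (pt n)).card + (univ.filter fun b : Bits n => EvCo b (pk C n)).card := by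
    rw [filter_or]
    exact card_union_le _ _
  have h5 : ((univ.filter fun b : Bits n => EvNS b (py n) (pt n) ∨ EvCo b (pk C n)).card : ℝ) ≤
      ((univ.filter fun b : Bits n => EvNS b (py n) (pt n)).card : ℝ) + (univ.filter fun b : Bits n => EvCo b (pk C n)).card := by
    exact_mod_cast h4
  linarith

theorem corLt_of {n : ℕ} {b : Bits n} {k : ℕ} (h : ¬ EvCo b k) : CorLt (matZ b) k := by
  intro p hp T
  by_contra hc
  exact h ⟨p, ⟨hp⟩, T, by omega⟩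

open Classical in
theorem ev_card {n : ℕ} (h1 : KZ1Stmt2) (hA : KZAStmt2) (C J A₀ : ℕ) (β : Type) [Fintype β] [DecidableEq β] (hβ : Fintype.card β ≤ J)
    (F : Matrix (Fin n) β ℤ) (hn : 0 < n) (hF : ∀ j q, |F j q| ≤ ((n ^ A₀ : ℕ) : ℤ)) (hy : 2 ≤ py n) (hv : 1 ≤ pv n) (hva : pv n ≤ pa n)
    (hfac : (pt n + J).factorial * (n ^ A₀) ^ (pt n + J) < 2 ^ (pa n - pv n))
    (h4 : 1 / (py n : ℝ) + 3 / 2 / Real.sqrt (pt n + 1) ≤ 1 ∧
      3 * ((n ^ A₀ : ℕ) : ℝ) * ((n : ℝ) + Fintype.card β) ^ 2 * 8 ^ n * (1 / (py n : ℝ) + 3 / 2 / Real.sqrt (pt n + 1)) ^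
        (pz (4 * (C + 10)) n - 2 * (pk C n + Fintype.card β)) ≤ 2 ^ (-(C * n : ℝ)))
    (h5 : max ((1 / 2) ^ pv n) (1 / (2 : ℝ) ^ pv n + 3 / 2 / Real.sqrt (pt n / pv n)) ≤ 1 ∧
      (py n : ℝ) * 4 ^ n * (max ((1 / 2) ^ pv n) (1 / (2 : ℝ) ^ pv n + 3 / 2 / Real.sqrt (pt n / pv n))) ^
        (pz (4 * (C + 10)) n - pa n * (pk C n + Fintype.card β)) ≤ 2 ^ (-(C * n : ℝ))) :
    ((univ.filter fun b : Bits n => Ev1 b F (py n) (pt n) (pz (4 * (C + 10)) n) (pk C n) ∨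
      Ev2 b F (py n) (pa n) (pt n) (pz (4 * (C + 10)) n) (pk C n)).card : ℝ) ≤
      2 * (2 : ℝ) ^ (-(C * n : ℝ)) * 2 ^ Fintype.card (Sym2 (Fin n)) := by
  have hX : 1 ≤ n ^ A₀ := Nat.one_le_pow _ _ hn
  have hpy : 0 < py n := by unfold py; positivity
  have e1 : ((univ.filter fun b : Bits n => Ev1 b F (py n) (pt n) (pz (4 * (C + 10)) n) (pk C n)).card : ℝ) ≤
      (2 : ℝ) ^ (-(C * n : ℝ)) * 2 ^ Fintype.card (Sym2 (Fin n)) := by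
    have h := h1 (Fin n) β F (n ^ A₀) (py n) (pt n) (pz (4 * (C + 10)) n) (pk C n)
      (1 / (py n : ℝ) + 3 / 2 / Real.sqrt (pt n + 1)) hX hF hy rfl h4.1
    rw [filt_card]
    refine h.trans ?_
    rw [Fintype.card_fin]
    exact mul_le_mul_of_nonneg_right h4.2 (by positivity)
  have e2 : ((univ.filter fun b : Bits n => Ev2 b F (py n) (pa n) (pt n) (pz (4 * (C + 10)) n) (pk C n)).card : ℝ) ≤
      (2 : ℝ) ^ (-(C * n : ℝ)) * 2 ^ Fintype.card (Sym2 (Fin n)) := by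
    have ht : 1 ≤ pt n := by
      unfold pt
      exact Nat.one_le_iff_ne_zero.2 (mul_ne_zero (by omega) (pow_ne_zero _ (by omega)))
    have hf' : (pt n + Fintype.card β).factorial * (n ^ A₀) ^ (pt n + Fintype.card β) < 2 ^ (pa n - pv n) := by
      refine lt_of_le_of_lt (Nat.mul_le_mul (Nat.factorial_le (by omega)) (Nat.pow_le_pow_right hX (by omega))) hfac
    have h := hA (Fin n) β F (n ^ A₀) (py n) (pa n) (pv n) (pv n) (pt n) (pz (4 * (C + 10)) n) (pk C n)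
      (max ((1 / 2) ^ pv n) (1 / (2 : ℝ) ^ pv n + 3 / 2 / Real.sqrt (pt n / pv n))) hX hF hva hv ht hf' rfl h5.1
    rw [filt_card]
    refine h.trans ?_
    rw [Fintype.card_fin]
    exact mul_le_mul_of_nonneg_right h5.2 (by positivity)
  have h4 : (univ.filter fun b : Bits n => Ev1 b F (py n) (pt n) (pz (4 * (C + 10)) n) (pk C n) ∨
      Ev2 b F (py n) (pa n) (pt n) (pz (4 * (C + 10)) n) (pk C n)).card ≤
      (univ.filter fun b : Bits n => Ev1 b F (py n) (pt n) (pz (4 * (C + 10)) n) (pk C n)).card +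
      (univ.filter fun b : Bits n => Ev2 b F (py n) (pa n) (pt n) (pz (4 * (C + 10)) n) (pk C n)).card := by
    rw [filter_or]
    exact card_union_le _ _
  have h5 : ((univ.filter fun b : Bits n => Ev1 b F (py n) (pt n) (pz (4 * (C + 10)) n) (pk C n) ∨
      Ev2 b F (py n) (pa n) (pt n) (pz (4 * (C + 10)) n) (pk C n)).card : ℝ) ≤
      ((univ.filter fun b : Bits n => Ev1 b F (py n) (pt n) (pz (4 * (C + 10)) n) (pk C n)).card : ℝ) +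
      (univ.filter fun b : Bits n => Ev2 b F (py n) (pa n) (pt n) (pz (4 * (C + 10)) n) (pk C n)).card := by
    exact_mod_cast h4
  linarith


open Classical in
/-- the labels -/
noncomputable def labF {n l M : ℕ} (s₁ C : ℕ) (τ : Ty n l M) (R : τ.I → Fin n)
    (Mq : Matrix (Fin n) (Fin n) ℚ) (h : Fin s₁ → Fin n → ℚ) : Finset (Submodule ℤ (Fin n → ℚ)) :=
  if hf : (LabSet n s₁ (Fintype.card τ.I) (py n) (pa n) (pk C n + Fintype.card τ.I) (2 * n * Real.logb 2 n) n Mq h).Finite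
    then hf.toFinset else ∅

theorem labF_card (hC : CountStmt) {n l M : ℕ} (s₁ C : ℕ) (hn : 0 < n) (hy : 2 ≤ py n) (ha : 1 ≤ pa n) (τ : Ty n l M)
    (h7 : (n : ℝ) + 6 * (2 * n * Real.logb 2 n) / Real.logb 2 (py n) + py n * (4 + 2 * Real.logb 2 (2 * n * Real.logb 2 n + 1) +
      2 * Fintype.card τ.I * (Fintype.card τ.I * pa n) * (pk C n + Fintype.card τ.I : ℕ) * Real.logb 2 (py n)) ≤ 200 * n)
    (R : τ.I → Fin n) (Mq : Matrix (Fin n) (Fin n) ℚ) (h : Fin s₁ → Fin n → ℚ) :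
    ((labF s₁ C τ R Mq h).card : ℝ) ≤ (2 : ℝ) ^ (200 * n : ℝ) := by
  have hlog : 0 ≤ Real.logb 2 (n : ℝ) := Real.logb_nonneg (by norm_num) (by exact_mod_cast hn)
  obtain ⟨h1, h2⟩ := hC n s₁ (Fintype.card τ.I) (py n) (pa n) (pk C n + Fintype.card τ.I) (2 * n * Real.logb 2 n) n Mq h hy ha
    (by positivity) (by positivity)
  unfold labF
  rw [dif_pos h1, ← Set.ncard_eq_toFinset_card _ h1]
  refine h2.trans (Real.rpow_le_rpow_of_exponent_le (by norm_num) ?_)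
  exact h7

theorem mem_labF (hC : CountStmt) {n l M : ℕ} (s₁ C : ℕ) (hn : 0 < n) (hy : 2 ≤ py n) (ha : 1 ≤ pa n) (τ : Ty n l M)
    (R : τ.I → Fin n) (Mq : Matrix (Fin n) (Fin n) ℚ) (h : Fin s₁ → Fin n → ℚ) (L : Submodule ℤ (Fin n → ℚ))
    (hL : L ∈ LabSet n s₁ (Fintype.card τ.I) (py n) (pa n) (pk C n + Fintype.card τ.I) (2 * n * Real.logb 2 n) n Mq h) :
    L ∈ labF s₁ C τ R Mq h := by
  have hlog : 0 ≤ Real.logb 2 (n : ℝ) := Real.logb_nonneg (by norm_num) (by exact_mod_cast hn)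
  obtain ⟨h1, h2⟩ := hC n s₁ (Fintype.card τ.I) (py n) (pa n) (pk C n + Fintype.card τ.I) (2 * n * Real.logb 2 n) n Mq h hy ha
    (by positivity) (by positivity)
  unfold labF
  rw [dif_pos h1, Set.Finite.mem_toFinset]
  exact hL


theorem num_a (l M n S : ℕ) (hn : 0 < n) (hlM : 1 ≤ l * M) :
    2 * (2 : ℝ) ^ (-(((10 * l * M : ℕ) : ℝ) * n)) * 2 ^ S ≤ (2 : ℝ) ^ (-(5 * l * M * n) : ℝ) * 2 ^ S := by
  refine mul_le_mul_of_nonneg_right ?_ (by positivity)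
  have h1 : (1 : ℝ) ≤ (l : ℝ) * M := by exact_mod_cast hlM
  have h2 : (1 : ℝ) ≤ n := by exact_mod_cast hn
  have h3 : (1 : ℝ) ≤ (l : ℝ) * M * n := by nlinarith
  have h4 : (2 : ℝ) * (2 : ℝ) ^ (-(((10 * l * M : ℕ) : ℝ) * n)) = (2 : ℝ) ^ (1 + -(((10 * l * M : ℕ) : ℝ) * n)) := by
    rw [Real.rpow_add (by norm_num), Real.rpow_one]
  rw [h4]
  refine Real.rpow_le_rpow_of_exponent_le (by norm_num) ?_
  push_cast
  nlinarith

theorem num_b (l M n S : ℕ) (hn : 0 < n) (hlM : 1 ≤ l * M) :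
    ((2 ^ (2 * l * M * n) : ℕ) : ℝ) * (2 ^ (2 * l * M) * (3 * (2 : ℝ) ^ (-(((10 * l * M : ℕ) : ℝ) * n)) * 2 ^ S)) ≤
      (2 : ℝ) ^ (-(5 * l * M * n) : ℝ) * 2 ^ (S + 2 * l * M * n) := by
  have h1 : (1 : ℝ) ≤ (l : ℝ) * M := by exact_mod_cast hlM
  have h2 : (1 : ℝ) ≤ n := by exact_mod_cast hn
  have h3 : (l : ℝ) * M ≤ (l : ℝ) * M * n := by nlinarith
  have h5 : (2 : ℝ) ^ (2 * l * M) * 3 * (2 : ℝ) ^ (-(((10 * l * M : ℕ) : ℝ) * n)) ≤ (2 : ℝ) ^ (-(5 * l * M * n) : ℝ) := by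
    have h6 : (2 : ℝ) ^ (2 * l * M) * 3 ≤ (2 : ℝ) ^ ((2 * l * M + 2 : ℕ) : ℝ) := by
      rw [Real.rpow_natCast, pow_add]
      have : (0 : ℝ) < 2 ^ (2 * l * M) := by positivity
      nlinarith
    refine (mul_le_mul_of_nonneg_right h6 (by positivity)).trans ?_
    rw [← Real.rpow_add (by norm_num)]
    refine Real.rpow_le_rpow_of_exponent_le (by norm_num) ?_
    push_cast
    nlinarith
  calc ((2 ^ (2 * l * M * n) : ℕ) : ℝ) * (2 ^ (2 * l * M) * (3 * (2 : ℝ) ^ (-(((10 * l * M : ℕ) : ℝ) * n)) * 2 ^ S))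
      = ((2 : ℝ) ^ (2 * l * M) * 3 * (2 : ℝ) ^ (-(((10 * l * M : ℕ) : ℝ) * n))) * 2 ^ (S + 2 * l * M * n) := by
        rw [pow_add]; push_cast; ring
    _ ≤ _ := mul_le_mul_of_nonneg_right h5 (by positivity)

theorem num_c (n ρ J : ℕ) (Dr : ℝ) (hn : 0 < n) (hρ : ρ ≤ J) :
    (n : ℝ) ^ (-(|Dr| * J)) ≤ ((n : ℝ) ^ (-Dr)) ^ ρ := by
  have h2 : (1 : ℝ) ≤ n := by exact_mod_cast hn
  rw [← Real.rpow_natCast, ← Real.rpow_mul (by positivity)]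
  refine Real.rpow_le_rpow_of_exponent_le h2 ?_
  have h3 : (ρ : ℝ) ≤ J := by exact_mod_cast hρ
  have h4 : Dr * ρ ≤ |Dr| * J :=
    (mul_le_mul_of_nonneg_right (le_abs_self Dr) (by positivity)).trans (mul_le_mul_of_nonneg_left h3 (abs_nonneg _))
  linarith

open Classical in
theorem card_B1 {n l M : ℕ} (Bad : Finset (Co l M) → Bits n → (Fin n → Co l M → Bool) → Prop) (K : ℝ) (hK : 0 ≤ K)
    (h : ∀ I F, ((univ.filter fun b : Bits n => Bad I b F).card : ℝ) ≤ K) :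
    ((univ.filter fun bF : Bits n × (Fin n → Co l M → Bool) => ∃ I, Bad I bF.1 bF.2).card : ℝ) ≤
      ((2 ^ (2 * l * M * n) : ℕ) : ℝ) * (2 ^ (2 * l * M) * K) := by
  have hcard : Fintype.card (Fin n → Co l M → Bool) = 2 ^ (2 * l * M * n) := by
    rw [Fintype.card_fun, Fintype.card_fun, Fintype.card_bool, card_Co', Fintype.card_fin, ← pow_mul]
  rw [← hcard]
  refine card_pairs _ _ fun F => ?_
  have h1 : ((univ.filter fun bF : Bits n × (Fin n → Co l M → Bool) => ∃ I, Bad I bF.1 bF.2).filter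
      fun bF => bF.2 = F).card ≤ ((univ : Finset (Finset (Co l M))).biUnion fun I => univ.filter fun b : Bits n => Bad I b F).card := by
    refine card_le_card_of_injOn Prod.fst ?_ ?_
    · rintro ⟨b, F'⟩ hb
      simp only [coe_filter, mem_filter, mem_univ, true_and, Set.mem_ofPred_eq] at hb
      obtain ⟨⟨I, hI⟩, rfl⟩ := hb
      simp only [mem_coe, mem_biUnion, mem_univ, true_and, mem_filter]
      exact ⟨I, hI⟩
    · rintro ⟨b, F'⟩ hb ⟨b', F''⟩ hb' hbb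
      simp only [coe_filter, mem_filter, mem_univ, true_and, Set.mem_ofPred_eq] at hb hb'
      simp only at hbb
      rw [hbb, hb.2, hb'.2]
  have h2 := card_biUnion_le (s := (univ : Finset (Finset (Co l M)))) (t := fun I => univ.filter fun b : Bits n => Bad I b F)
  have h3 : (((univ.filter fun bF : Bits n × (Fin n → Co l M → Bool) => ∃ I, Bad I bF.1 bF.2).filter
      fun bF => bF.2 = F).card : ℝ) ≤ ∑ I : Finset (Co l M), ((univ.filter fun b : Bits n => Bad I b F).card : ℝ) := by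
    exact_mod_cast h1.trans h2
  refine h3.trans ((sum_le_card_nsmul _ _ _ fun I _ => h I F).trans ?_)
  rw [card_univ, Fintype.card_finset, card_Co', nsmul_eq_mul]
  push_cast
  exact le_rfl

theorem exists_B1 {n l M : ℕ} (Bad : Finset (Co l M) → Bits n → (Fin n → Co l M → Bool) → Prop) (K : ℝ) (hK : 0 ≤ K)
    (h : ∀ I F, ∃ S : Finset (Bits n), (S.card : ℝ) ≤ K ∧ ∀ b, Bad I b F → b ∈ S) :
    ∃ B₁ : Finset (Bits n × (Fin n → Co l M → Bool)), (B₁.card : ℝ) ≤ ((2 ^ (2 * l * M * n) : ℕ) : ℝ) * (2 ^ (2 * l * M) * K) ∧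
      ∀ b F, (b, F) ∉ B₁ → ∀ I, ¬ Bad I b F := by
  classical
  refine ⟨univ.filter fun bF => ∃ I, Bad I bF.1 bF.2, card_B1 Bad K hK fun I F => ?_, ?_⟩
  · obtain ⟨S, hS, hS'⟩ := h I F
    refine le_trans ?_ hS
    exact_mod_cast card_le_card fun b hb => hS' b (mem_filter.1 hb).2
  · intro b F hbF I hI
    exact hbF (mem_filter.2 ⟨mem_univ _, I, hI⟩)

open Classical in
theorem gfix (h1 : KZ1Stmt2) (hA : KZAStmt2) (hNS : NSStmt) (hNSZ : NSZStmt) (hC : CountStmt) (hD : DetStmt)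
    (n l M s₁ A₀ s₀ t₀ s : ℕ) (A Dr ε : ℝ) (hn : 0 < n) (hlM : 1 ≤ l * M) (hAA : A ≤ A₀)
    (hs₀ : s₀.factorial < py n) (hJ : (2 * l * M).factorial < py n) (hy : 2 ≤ py n) (hv : 1 ≤ pv n) (hva : pv n ≤ pa n)
    (hfac : (pt n + 2 * l * M).factorial * (n ^ A₀) ^ (pt n + 2 * l * M) < 2 ^ (pa n - pv n)) (hpm : 2 * py n ≤ 2 ^ pa n)
    (hroom : 4 * ((2 * l * M) * (s + (2 * l * M * pt n + 2 * l * M) + 2 * l * M)) ≤ n) (ht₀ : t₀ ≤ pt n)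
    (h2 : ((((2 ^ pa n + 1) * (n * (2 ^ pa n + 1)) ^ pt n * (2 ^ pa n + 1) ^ (2 * l * M) + 1) ^ (2 * l * M) : ℕ) : ℝ) ≤ 2 ^ (ε * n))
    (h3 : 1 / (py n : ℝ) + 3 / 2 / Real.sqrt (s₀ + 1) ≤ 1 ∧
      ((pt n : ℝ) + 1) ^ 2 * 8 ^ n * (1 / (py n : ℝ) + 3 / 2 / Real.sqrt (s₀ + 1)) ^ (n - 3 * pt n) ≤ 2 ^ (-(((10 * l * M : ℕ) : ℝ) * n)))
    (h4 : ∀ ρ ≤ 2 * l * M, 1 / (py n : ℝ) + 3 / 2 / Real.sqrt (pt n + 1) ≤ 1 ∧
      3 * ((n ^ A₀ : ℕ) : ℝ) * ((n : ℝ) + ρ) ^ 2 * 8 ^ n * (1 / (py n : ℝ) + 3 / 2 / Real.sqrt (pt n + 1)) ^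
        (pz (4 * (10 * l * M + 10)) n - 2 * (pk (10 * l * M) n + ρ)) ≤ 2 ^ (-(((10 * l * M : ℕ) : ℝ) * n)))
    (h5 : ∀ ρ ≤ 2 * l * M, max ((1 / 2) ^ pv n) (1 / (2 : ℝ) ^ pv n + 3 / 2 / Real.sqrt (pt n / pv n)) ≤ 1 ∧
      (py n : ℝ) * 4 ^ n * (max ((1 / 2) ^ pv n) (1 / (2 : ℝ) ^ pv n + 3 / 2 / Real.sqrt (pt n / pv n))) ^
        (pz (4 * (10 * l * M + 10)) n - pa n * (pk (10 * l * M) n + ρ)) ≤ 2 ^ (-(((10 * l * M : ℕ) : ℝ) * n)))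
    (h6 : ∀ ρ : ℕ, ρ ≤ 2 * l * M → ((ρ : ℝ) + 1) *
      ((Real.logb 2 n.factorial + 2 * ρ * (ρ * pa n) * py n * Real.logb 2 (py n + 1)) *
          ((1 / 2) ^ s₁ * (ρ * pz (4 * (10 * l * M + 10)) n / n) + (ρ * pz (4 * (10 * l * M + 10)) n / n) ^ 2) +
        2 * (ρ * (2 * (((2 * l * M : ℕ) : ℝ) + 2) * n * Real.logb 2 n)) *
          ((1 / 2) ^ s₁ * (ρ * pz (4 * (10 * l * M + 10)) n / n) + ρ * (ρ * pz (4 * (10 * l * M + 10)) n / n) ^ 2)) ≤ (n : ℝ) / 2)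
    (h7 : ∀ ρ : ℕ, ρ ≤ 2 * l * M → Real.logb 2 (((ρ + 1).factorial * ((ρ + 1) * (n * n.factorial * n ^ A₀)) ^ (ρ + 1) : ℕ) : ℝ) ≤
        2 * (((2 * l * M : ℕ) : ℝ) + 2) * n * Real.logb 2 n ∧
      Real.logb 2 (n.factorial * (ρ.factorial * ((n : ℝ) ^ (A₀ : ℝ)) ^ ρ) ^ 2) ≤ 2 * n * Real.logb 2 n ∧
      (n : ℝ) + 6 * (2 * n * Real.logb 2 n) / Real.logb 2 (py n) + py n * (4 + 2 * Real.logb 2 (2 * n * Real.logb 2 n + 1) +
        2 * ρ * (ρ * pa n) * (pk (10 * l * M) n + ρ : ℕ) * Real.logb 2 (py n)) ≤ 200 * n)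
    (hRC : RCn n (2 * l * M) A₀ (10 * l * M) t₀ s Dr) :
  ∃ (T : Finset (Ty n l M)) (B₀ : Finset (Bits n)),
    (T.card : ℝ) ≤ (2 : ℝ) ^ (ε * n) ∧ (∀ τ ∈ T, τ.Ok) ∧
    (B₀.card : ℝ) ≤ (2 : ℝ) ^ (-(5 * l * M * n) : ℝ) * 2 ^ Fintype.card (Sym2 (Fin n)) ∧
  ∀ (E : Finset (Fin n)) (a : Fin n → ℤ), E.card ≤ 2 * l * M → (∀ j, |(a j : ℝ)| ≤ (n : ℝ) ^ A) →
  ∃ (B₁ : Finset (Bits n × (Fin n → Co l M → Bool)))
    (lab : (τ : Ty n l M) → (τ.I → Fin n) → Matrix (Fin n) (Fin n) ℚ → (Fin s₁ → Fin n → ℚ) →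
      Finset (Submodule ℤ (Fin n → ℚ))),
    (B₁.card : ℝ) ≤ (2 : ℝ) ^ (-(5 * l * M * n) : ℝ) *
      2 ^ (Fintype.card (Sym2 (Fin n)) + 2 * l * M * n) ∧
    (∀ τ R M' h, ((lab τ R M' h).card : ℝ) ≤ (2 : ℝ) ^ ((200 : ℝ) * n)) ∧
  ∀ b ∉ B₀, (matZ b).det ≠ 0 → ∀ F : Fin n → Co l M → Bool, (b, F) ∉ B₁ → Rel E F →
  ∀ L : Submodule ℤ (Fin n → ℚ), Over (matZ b) L →
    (∀ q, dual (matZ b) (ent E a F q) ∈ L ∧ BdQ ((n : ℝ) ^ A) (dual (matZ b) (ent E a F q))) →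
  ∃ τ ∈ T, τ.Fits E b F ∧ ∃ R : τ.I → Fin n, Function.Injective R ∧ (∀ i, R i ∉ τ.S ∧ R i ∉ E) ∧
    (n : ℝ) ^ (-(|Dr| * (2 * l * M))) ≤ |((minor R (gs (matZ b) E a F τ.I) : ℚ) : ℝ)| ∧
    ∃ c : Fin s₁ → τ.I → Bool,
      newL (LF (matZ b) E a F τ.I) R (gs (matZ b) E a F τ.I) ∈
        lab τ R (newP (matZ b) R (gs (matZ b) E a F τ.I))
        (fun t => newH (matZ b) R (gs (matZ b) E a F τ.I) (c t)) := by
  have hX : 1 ≤ n ^ A₀ := Nat.one_le_pow _ _ hn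
  have hpa : 1 ≤ pa n := hv.trans hva
  have hn1 : (1 : ℝ) ≤ n := by exact_mod_cast hn
  -- types
  have hpm2 : (pt n + 2 * l * M).factorial * (n ^ A₀) ^ (pt n + 2 * l * M) ≤ 2 ^ pa n :=
    hfac.le.trans (Nat.pow_le_pow_right (by norm_num) (Nat.sub_le _ _))
  obtain ⟨T, hT1, hT2, hT3⟩ := T984.exists_types n l M (py n) (pt n) (2 ^ pa n) (n ^ A₀) hn hJ hpm hX hpm2
  refine ⟨T, univ.filter fun b : Bits n => EvNS b (py n) (pt n) ∨ EvCo b (pk (10 * l * M) n), ?_, fun τ hτ => (hT2 τ hτ).1, ?_, ?_⟩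
  · refine le_trans ?_ h2
    exact_mod_cast hT1
  · exact (B0_card hn hNS (10 * l * M) s₀ hs₀ h3).trans (num_a l M n _ hn hlM)
  intro E a hE ha
  have haX : ∀ j, |a j| ≤ ((n ^ A₀ : ℕ) : ℤ) := fun j => le_natpow hn hAA (ha j)
  have hRCI : ∀ (I : Finset (Co l M)) (F : Fin n → Co l M → Bool), ∃ B₁ : Finset (Bits n),
    (B₁.card : ℝ) ≤ (2 : ℝ) ^ (-(((10 * l * M : ℕ) : ℝ) * n : ℝ)) * 2 ^ Fintype.card (Sym2 (Fin n)) ∧
    ∀ b ∉ B₁, (matZ b).det ≠ 0 → NoSparseZ (matZ b) (FI E a F I) t₀ → (∀ q, BdQ ((n : ℝ) ^ (A₀ : ℝ)) (gF (matZ b) (FI E a F I) q)) →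
    ∀ c : I → ℝ, (∀ q, |c q| ≤ 1) → (∃ q, |c q| = 1) →
    Set.ncard {j : Fin n | |∑ q, c q * ((gF (matZ b) (FI E a F I) q j : ℚ) : ℝ)| < (n : ℝ) ^ (-Dr)} ≤ s := by
    intro I F
    refine hRC I (card_I_le I) (FI E a F I) fun j q => ?_
    have := FI_le E a F I (n ^ A₀) hX haX j q
    have h' : ((|FI E a F I j q| : ℤ) : ℝ) ≤ ((n ^ A₀ : ℕ) : ℝ) := by exact_mod_cast this
    rw [Real.rpow_natCast]
    push_cast at h'
    exact h'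
  choose Brc hBrc1 hBrc2 using hRCI
  obtain ⟨B₁, hB₁, hB₁'⟩ := exists_B1 (n := n) (l := l) (M := M)
    (fun I b F => (Ev1 b (FI E a F I) (py n) (pt n) (pz (4 * (10 * l * M + 10)) n) (pk (10 * l * M) n) ∨
      Ev2 b (FI E a F I) (py n) (pa n) (pt n) (pz (4 * (10 * l * M + 10)) n) (pk (10 * l * M) n)) ∨ b ∈ Brc I F)
      (3 * (2 : ℝ) ^ (-(((10 * l * M : ℕ) : ℝ) * n)) * 2 ^ Fintype.card (Sym2 (Fin n))) (by positivity) (by
    intro I F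
    refine ⟨(univ.filter fun b : Bits n => Ev1 b (FI E a F I) (py n) (pt n) (pz (4 * (10 * l * M + 10)) n) (pk (10 * l * M) n) ∨
      Ev2 b (FI E a F I) (py n) (pa n) (pt n) (pz (4 * (10 * l * M + 10)) n) (pk (10 * l * M) n)) ∪ Brc I F, ?_, ?_⟩
    · have e1 := ev_card h1 hA (10 * l * M) (2 * l * M) A₀ I (card_I_le I) (FI E a F I) hn (FI_le E a F I (n ^ A₀) hX haX) hy hv hva hfac
        (h4 _ (card_I_le I)) (h5 _ (card_I_le I))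
      have e2 := hBrc1 I F
      refine (Nat.cast_le.2 (card_union_le _ _)).trans ?_
      rw [Nat.cast_add]
      linarith
    · intro b hb
      rcases hb with hb | hb
      · exact mem_union_left _ (mem_filter.2 ⟨mem_univ _, hb⟩)
      · exact mem_union_right _ hb)
  refine ⟨B₁, labF s₁ (10 * l * M), hB₁.trans (num_b l M n _ hn hlM), ?_, ?_⟩
  · intro τ R M' h
    exact labF_card hC s₁ (10 * l * M) hn hy hpa τ (h7 _ (card_I_le τ.I)).2.2 R M' h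
  intro b hb hdet F hbF hrel L hL hdual
  rw [mem_filter, not_and_or] at hb
  have hb' := hb.resolve_left (fun h => h (mem_univ _))
  rw [not_or] at hb'
  have hNSK : T984.NSK b (py n) (pt n) := by
    intro p hp hyp g hg hPg
    by_contra hc
    exact hb'.1 ⟨hdet, p, hp, hyp, g, hg, hPg, not_lt.1 hc⟩
  have hCor : CorLt (matZ b) (pk (10 * l * M) n) := corLt_of hb'.2
  obtain ⟨τ, hτ, hfit, hns⟩ := hT3 E a haX b hNSK F hrel
  have hns' : NoSparse (matZ b) (FI E a F τ.I) (py n) (pt n) := hns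
  have hnsz : NoSparseZ (matZ b) (FI E a F τ.I) (pt n) := hNSZ _ _ _ _ _ _ hns'
  have hbF' := hB₁' b F hbF τ.I
  rw [not_or, not_or] at hbF'
  obtain ⟨hE12, hE3⟩ := hbF'
  have hKZ : KZ (matZ b) (FI E a F τ.I) (py n) (pa n) (pz (4 * (10 * l * M + 10)) n) := by
    refine kz_of _ _ _ _ _ (fun h => ?_) (fun h => ?_)
    · exact hE12.1 ⟨hCor, hns', h⟩
    · exact hE12.2 ⟨hCor, hnsz, h⟩
  refine ⟨τ, hτ, hfit, ?_⟩
  have hgd : ∀ q : τ.I, gF (matZ b) (FI E a F τ.I) q = dual (matZ b) (ent E a F q) := fun q => rfl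
  have hBd : ∀ q, BdQ ((n : ℝ) ^ (A₀ : ℝ)) (gF (matZ b) (FI E a F τ.I) q) := fun q i =>
    ((hdual q).2 i).trans (Real.rpow_le_rpow_of_exponent_le hn1 hAA)
  have hrc := hBrc2 τ.I F b hE3 hdet (noSparseZ_mono hnsz ht₀) hBd
  have hIJ : Fintype.card τ.I ≤ 2 * l * M := card_I_le τ.I
  have hAv : (τ.S ∪ E).card ≤ 2 * l * M * pt n + 2 * l * M :=
    (card_union_le _ _).trans (Nat.add_le_add (hT2 τ hτ).2 hE)
  obtain ⟨R, hR, hRA, hmin, c, hc⟩ := hD n τ.I b (FI E a F τ.I) (n ^ A₀) (py n) (pa n) (pz (4 * (10 * l * M + 10)) n) (pk (10 * l * M) n)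
    s s₁ ((n : ℝ) ^ (-Dr)) ((n : ℝ) ^ (A₀ : ℝ)) (2 * n * Real.logb 2 n) n (2 * (((2 * l * M : ℕ) : ℝ) + 2) * n * Real.logb 2 n) (τ.S ∪ E)
    hn hX hpa hy (by positivity) (Real.one_le_rpow hn1 (by positivity)) (by positivity) hdet
    (FI_le E a F τ.I (n ^ A₀) hX haX) (fun i k => hL.int _ (hdual i).1 _ (hdual k).1) hBd hKZ hCor hrc
    (le_trans (Nat.mul_le_mul_left _ (Nat.mul_le_mul hIJ (by omega))) hroom)
    (h7 _ hIJ).1 (h7 _ hIJ).2.1 (h6 _ hIJ)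
  refine ⟨R, hR, fun i => ?_, ?_, c, ?_⟩
  · have := hRA i
    rw [mem_union, not_or] at this
    exact this
  · refine le_trans ?_ hmin
    have := num_c n (Fintype.card τ.I) (2 * l * M) Dr hn hIJ
    push_cast at this
    exact this
  · rw [LF_eq]
    exact mem_labF hC s₁ (10 * l * M) hn hy hpa τ R _ _ _ hc

theorem room (J t m n s : ℕ) (hm : 8 * (J + 1) ^ 2 ≤ m) (h : m * (t + m) ≤ n) (hs : (s : ℝ) ≤ 1 / (8 * ((J : ℝ) + 1)) * n) :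
    4 * (J * (s + (J * t + J) + J)) ≤ n := by
  have h1 : 8 * (J + 1) ^ 2 * (t + 2) ≤ n := by
    refine le_trans (Nat.mul_le_mul hm (Nat.add_le_add_left ?_ t)) h
    have : 8 ≤ 8 * (J + 1) ^ 2 := Nat.le_mul_of_pos_right 8 (by positivity)
    omega
  have h1' : 8 * ((J : ℝ) + 1) ^ 2 * (t + 2) ≤ n := by exact_mod_cast h1
  have hJ : (0 : ℝ) ≤ J := by positivity
  have ht : (0 : ℝ) ≤ t := by positivity
  have hnn : (0 : ℝ) ≤ n := by positivity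
  have h2 : 4 * (J : ℝ) * s ≤ n / 2 := by
    have h3 : 4 * (J : ℝ) * s ≤ 4 * (J : ℝ) * (1 / (8 * ((J : ℝ) + 1)) * n) := mul_le_mul_of_nonneg_left hs (by positivity)
    have h4 : 4 * (J : ℝ) * (1 / (8 * ((J : ℝ) + 1)) * n) = (J / (J + 1)) * (n / 2) := by
      field_simp
      ring
    have h5 : (J : ℝ) / (J + 1) ≤ 1 := by rw [div_le_one (by positivity)]; linarith
    rw [h4] at h3
    refine h3.trans ?_
    nlinarith
  have h6 : 4 * (J : ℝ) * (J * t + 2 * J) ≤ n / 2 := by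
    have h7 : 4 * (J : ℝ) * (J * t + 2 * J) = 4 * (J : ℝ) ^ 2 * (t + 2) := by ring
    rw [h7]
    have h8 : (J : ℝ) ^ 2 * (t + 2) ≤ ((J : ℝ) + 1) ^ 2 * (t + 2) :=
      mul_le_mul_of_nonneg_right (by nlinarith) (by positivity)
    nlinarith
  have h9 : ((4 * (J * (s + (J * t + J) + J)) : ℕ) : ℝ) ≤ (n : ℝ) := by
    push_cast
    nlinarith
  exact_mod_cast h9

open Filter in
/-- **G13** -/
theorem gasm (hNS : NSStmt) (hK1 : KZ1Stmt2) (hKA : KZAStmt2) (hNSZ : NSZStmt) (hRC : RCStmt) (hC : CountStmt) (hD : DetStmt)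
    (h1 : Num1) (h2 : Num2) (h3 : Num3) (h4 : Num4) (h5 : Num5) (h6 : Num6) (h7 : Num7) (h8 : Num8) : StmtG := by
  refine ⟨200, fun M hM => ?_⟩
  obtain ⟨l₀, h8'⟩ := h8 M hM
  refine ⟨max l₀ 1, fun l hl => ?_⟩
  obtain ⟨s₁, hs1, hs2⟩ := h8' l (le_trans (le_max_left _ _) hl)
  have hl1 : 1 ≤ l := le_trans (le_max_right _ _) hl
  refine ⟨s₁, hs1, fun A ε hε => ?_⟩
  obtain ⟨s₀, h3'⟩ := h3 (10 * l * M)
  obtain ⟨t₀, Dr, nr, hrc⟩ := hRC (2 * l * M) ((⌈A⌉₊ : ℕ) : ℝ) ((10 * l * M : ℕ) : ℝ) (1 / (8 * (((2 * l * M : ℕ) : ℝ) + 1)))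
    (by positivity)
  have e4 := (eventually_all_finset (range (2 * l * M + 1))).2 fun ρ hρ => h4 (10 * l * M) (2 * l * M) ⌈A⌉₊ ρ
    (Nat.lt_succ_iff.1 (mem_range.1 hρ))
  have e5 := (eventually_all_finset (range (2 * l * M + 1))).2 fun ρ hρ => h5 (10 * l * M) (2 * l * M) ρ
    (Nat.lt_succ_iff.1 (mem_range.1 hρ))
  have e6 := (eventually_all_finset (range (2 * l * M + 1))).2 fun ρ hρ => h6 (10 * l * M) (2 * l * M) s₁ hs2 ρ
    (Nat.lt_succ_iff.1 (mem_range.1 hρ))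
  have e7 := (eventually_all_finset (range (2 * l * M + 1))).2 fun ρ hρ => h7 (10 * l * M) (2 * l * M) ⌈A⌉₊ ρ
    (Nat.lt_succ_iff.1 (mem_range.1 hρ))
  have ev := ((h1 (2 * l * M) ⌈A⌉₊ s₀ (max t₀ (8 * (2 * l * M + 1) ^ 2))).and (h1 (2 * l * M) ⌈A⌉₊ (2 * l * M) 0)).and
    ((h2 (2 * l * M) ε hε).and (h3'.and (e4.and (e5.and (e6.and (e7.and (eventually_ge_atTop (max nr 1))))))))
  obtain ⟨n₀, hn₀⟩ := eventually_atTop.1 ev
  refine ⟨|Dr| * (2 * l * M), n₀, fun n hn => ?_⟩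
  obtain ⟨⟨⟨a1, a2, a3, a4, a5, a6⟩, ⟨_, b2, _⟩⟩, c2, c3, c4, c5, c6, c7, c8⟩ := hn₀ n hn
  have hn1 : 0 < n := lt_of_lt_of_le Nat.one_pos ((le_max_right _ _).trans c8)
  have hm1 : 8 * (2 * l * M + 1) ^ 2 ≤ pv n := (le_max_right _ _).trans a1
  have hv1 : 1 ≤ pv n := by
    have : 1 ≤ 8 * (2 * l * M + 1) ^ 2 := Nat.one_le_iff_ne_zero.2 (by positivity)
    omega
  have hy2 : 2 ≤ py n := by
    unfold py
    calc 2 = 2 ^ 1 := rfl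
      _ ≤ 2 ^ pv n := Nat.pow_le_pow_right (by norm_num) hv1
  have ht₀ : t₀ ≤ pt n := by
    have : pv n ≤ pt n := by
      unfold pt
      exact Nat.le_mul_of_pos_right _ (by positivity)
    exact (le_max_left _ _).trans (a1.trans this)
  have hlM : 1 ≤ l * M := Nat.one_le_iff_ne_zero.2 (mul_ne_zero (by omega) (by omega))
  have hsf : ((⌊1 / (8 * (((2 * l * M : ℕ) : ℝ) + 1)) * (n : ℝ)⌋₊ : ℕ) : ℝ) ≤ 1 / (8 * (((2 * l * M : ℕ) : ℝ) + 1)) * n :=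
    Nat.floor_le (by positivity)
  have mem : ∀ {ρ : ℕ}, ρ ≤ 2 * l * M → ρ ∈ range (2 * l * M + 1) := fun h => mem_range.2 (Nat.lt_succ_iff.2 h)
  exact gfix hK1 hKA hNS hNSZ hC hD n l M s₁ ⌈A⌉₊ s₀ t₀ ⌊1 / (8 * (((2 * l * M : ℕ) : ℝ) + 1)) * (n : ℝ)⌋₊ A Dr ε hn1 hlM
    (Nat.le_ceil A) a2 b2 hy2 hv1 a3 a5 a6
    (room (2 * l * M) (pt n) _ n _ (le_max_right _ _) a4 hsf) ht₀ c2 c3 (fun ρ hρ => c4 ρ (mem hρ)) (fun ρ hρ => c5 ρ (mem hρ))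
    (fun ρ hρ => c6 ρ (mem hρ)) (fun ρ hρ => c7 ρ (mem hρ)) (by
      intro β _ _ hβ F hF
      obtain ⟨B₁, hB1, hB2⟩ := hrc n ((le_max_left _ _).trans c8) β hβ F hF
      refine ⟨B₁, hB1, fun b hb hdet hns hbd c hc1 hc2 => Nat.le_floor ?_⟩
      exact hB2 b hb hdet hns hbd c hc1 hc2)

end Vale.Agent.P160.Half.G.As609
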