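import Vale.Agent.P160.Half.GStmt4
import Vale.Agent.P160.Half.Types984

/-! # P160, half rate: gap (G), assembly, part A (helper667): small lemmas -/

set_option linter.unusedVariables false

open Finset Matrix

namespace Vale.Agent.P160.Half.G

open A Labels

/-- the columns `I` of an array -/
def FI {n l M : ℕ} (E : Finset (Fin n)) (a : Fin n → ℤ) (F : Fin n → Co l M → Bool) (I : Finset (Co l M)) :
    Matrix (Fin n) I ℤ := fun j q => ent E a F q j

theorem kz_of {α β : Type} [Fintype α] [Fintype β] [DecidableEq α] [DecidableEq β] (P : Matrix α α ℤ)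
    (F : Matrix α β ℤ) (y a z : ℕ)
    (h1 : ¬ ∃ p, p.Prime ∧ y ≤ p ∧ ∃ (g : α → ZMod p) (c : β → ZMod p), Word _ P F g c ∧ (g ≠ 0 ∨ c ≠ 0) ∧
      z ≤ (univ.filter fun i => g i = 0).card)
    (h2 : ¬ ∃ p, p.Prime ∧ p < y ∧ ∃ (g : α → ZMod (p ^ a)) (c : β → ZMod (p ^ a)), Word _ P F g c ∧ Prim g c ∧
      z ≤ (univ.filter fun i => g i = 0).card) : KZ P F y a z := by
  intro p hp
  by_cases hy : y ≤ p
  · have key : ∀ N : ℕ, N = p → ∀ (g : α → ZMod N) (c : β → ZMod N), Word _ P F g c →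
        ((∃ i, IsUnit (g i)) ∨ ∃ j, IsUnit (c j)) → (univ.filter fun i => g i = 0).card < z := by
      rintro _ rfl g c hw hpr
      by_contra hlt
      haveI := Fact.mk hp
      refine h1 ⟨_, hp, hy, g, c, hw, ?_, not_lt.1 hlt⟩
      rcases hpr with ⟨i, hi⟩ | ⟨j, hj⟩
      · left; intro h0; rw [h0] at hi; exact not_isUnit_zero hi
      · right; intro h0; rw [h0] at hj; exact not_isUnit_zero hj
    intro g c hw hpr
    exact key _ (by rw [if_pos hy, pow_one]) g c hw hpr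
  · have key : ∀ N : ℕ, N = p ^ a → ∀ (g : α → ZMod N) (c : β → ZMod N), Word _ P F g c →
        ((∃ i, IsUnit (g i)) ∨ ∃ j, IsUnit (c j)) → (univ.filter fun i => g i = 0).card < z := by
      rintro _ rfl g c hw hpr
      by_contra hlt
      exact h2 ⟨p, hp, not_le.1 hy, g, c, hw, hpr, not_lt.1 hlt⟩
    intro g c hw hpr
    exact key _ (by rw [if_neg hy]) g c hw hpr

theorem noSparseZ_mono {α β : Type*} [Fintype α] [Fintype β] [DecidableEq α] [DecidableEq β] {P : Matrix α α ℤ}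
    {F : Matrix α β ℤ} {t t' : ℕ} (h : NoSparseZ P F t) (ht : t' ≤ t) : NoSparseZ P F t' :=
  fun g c hw h0 => lt_of_le_of_lt ht (h g c hw h0)

theorem LF_eq {n l M : ℕ} (P : Matrix (Fin n) (Fin n) ℤ) (E : Finset (Fin n)) (a : Fin n → ℤ)
    (F : Fin n → Co l M → Bool) (I : Finset (Co l M)) : LF P E a F I = LFg P (FI E a F I) := by
  unfold LF LFg
  rw [Submodule.span_union, Submodule.span_union]
  congr 1
  apply le_antisymm
  · rw [Submodule.span_le]
    rintro _ ⟨z, rfl⟩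
    have : (fun i => (z i : ℚ)) = ∑ j, z j • (Pi.single j (1 : ℚ) : Fin n → ℚ) := by
      ext i
      rw [Finset.sum_apply]
      rw [Finset.sum_eq_single i]
      · simp
      · intro j _ hj
        simp [Pi.single_apply, hj.symm]
      · intro h; exact absurd (mem_univ i) h
    show (fun i => (z i : ℚ)) ∈ _
    rw [this]
    refine Submodule.sum_mem _ fun j _ => Submodule.smul_mem _ _ ?_
    exact Submodule.subset_span ⟨j, rfl⟩
  · rw [Submodule.span_le]
    rintro _ ⟨j, rfl⟩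
    refine Submodule.subset_span ⟨Pi.single j 1, ?_⟩
    ext i
    simp only [Pi.single_apply]
    split_ifs <;> simp

theorem card_Co' (l M : ℕ) : Fintype.card (Co l M) = 2 * l * M := by
  simp [Co]; ring

theorem card_I_le {l M : ℕ} (I : Finset (Co l M)) : Fintype.card I ≤ 2 * l * M := by
  rw [Fintype.card_coe, ← card_Co' l M]
  exact Finset.card_le_univ I

theorem FI_le {n l M : ℕ} (E : Finset (Fin n)) (a : Fin n → ℤ) (F : Fin n → Co l M → Bool) (I : Finset (Co l M))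
    (X : ℕ) (hX : 1 ≤ X) (ha : ∀ j, |a j| ≤ (X : ℤ)) (j : Fin n) (q : I) : |FI E a F I j q| ≤ (X : ℤ) := by
  unfold FI ent
  split_ifs
  · exact ha j
  · rw [abs_one]; exact_mod_cast hX
  · rw [abs_zero]; positivity

theorem le_natpow {n A₀ : ℕ} {A : ℝ} (hn : 1 ≤ n) (hA : A ≤ A₀) {x : ℤ} (hx : |(x : ℝ)| ≤ (n : ℝ) ^ A) :
    |x| ≤ ((n ^ A₀ : ℕ) : ℤ) := by
  have h1 : |(x : ℝ)| ≤ (n : ℝ) ^ (A₀ : ℝ) :=
    hx.trans (Real.rpow_le_rpow_of_exponent_le (by exact_mod_cast hn) hA)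
  rw [Real.rpow_natCast] at h1
  have h2 : ((|x| : ℤ) : ℝ) ≤ (((n ^ A₀ : ℕ) : ℤ) : ℝ) := by push_cast; exact h1
  exact_mod_cast h2

/-- union bound for pairs: for every `F` few `b` -/
theorem card_pairs {n : ℕ} {Φ : Type*} [Fintype Φ] [DecidableEq Φ] (S : Finset (Bits n × Φ)) (K : ℝ)
    (h : ∀ F, ((S.filter fun bF => bF.2 = F).card : ℝ) ≤ K) : (S.card : ℝ) ≤ Fintype.card Φ * K := by
  classical
  have h1 : S.card = ∑ F : Φ, (S.filter fun bF => bF.2 = F).card :=
    Finset.card_eq_sum_card_fiberwise fun _ _ => mem_univ _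
  rw [h1]
  push_cast
  calc ∑ F : Φ, ((S.filter fun bF => bF.2 = F).card : ℝ) ≤ ∑ _F : Φ, K := Finset.sum_le_sum fun F _ => h F
    _ = Fintype.card Φ * K := by rw [Finset.sum_const, nsmul_eq_mul, Finset.card_univ]

end Vale.Agent.P160.Half.G
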