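import Vale.Agent.P160.Half.GAsmA

/-! # P160, half rate: gap (G), assembly, part B (helper667): the exceptional sets -/

set_option linter.unusedVariables false

open Finset Matrix

namespace Vale.Agent.P160.Half.G

open A Labels

/-- NS event -/
def evNS {n : ℕ} (y t : ℕ) (b : Bits n) : Prop := (matZ b).det ≠ 0 ∧ ∃ p, p.Prime ∧ y ≤ p ∧ ∃ g : Fin n → ZMod p, g ≠ 0 ∧
    (matZ b).map (Int.cast : ℤ → ZMod p) *ᵥ g = 0 ∧ (univ.filter fun i => g i ≠ 0).card ≤ t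

/-- KZ1 event -/
def evK1 {n : ℕ} {β : Type} [Fintype β] [DecidableEq β] (F : Matrix (Fin n) β ℤ) (y t z k : ℕ) (b : Bits n) : Prop :=
  CorLt (matZ b) k ∧ NoSparse (matZ b) F y t ∧
    ∃ p, p.Prime ∧ y ≤ p ∧ ∃ (g : Fin n → ZMod p) (c : β → ZMod p), Word _ (matZ b) F g c ∧ (g ≠ 0 ∨ c ≠ 0) ∧
      z ≤ (univ.filter fun i => g i = 0).card

/-- KZA event -/
def evKA {n : ℕ} {β : Type} [Fintype β] [DecidableEq β] (F : Matrix (Fin n) β ℤ) (y a t z k : ℕ) (b : Bits n) : Prop :=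
  CorLt (matZ b) k ∧ NoSparseZ (matZ b) F t ∧
    ∃ p, p.Prime ∧ p < y ∧ ∃ (g : Fin n → ZMod (p ^ a)) (c : β → ZMod (p ^ a)), Word _ (matZ b) F g c ∧ Prim g c ∧
      z ≤ (univ.filter fun i => g i = 0).card

theorem card_filter_eq {α : Type*} [Fintype α] (p : α → Prop) [DecidablePred p] :
    ((univ.filter p).card : ℝ) = (Nat.card {x // p x} : ℝ) := by
  rw [Nat.card_eq_fintype_card, Fintype.card_subtype]

/-- all numeric conditions used for the exceptional sets -/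
structure NumB (n J A₀ C s₀ t₀ : ℕ) (ε : ℝ) : Prop where
  hn : 1 ≤ n
  f1 : J.factorial < py n
  f2 : s₀.factorial < py n
  f3 : 2 ≤ py n
  f4 : t₀ ≤ pt n
  f5 : pv n ≤ pa n
  f6 : 1 ≤ pv n
  f7 : 1 ≤ pt n
  f8 : ∀ ρ ≤ J, (pt n + ρ).factorial * (n ^ A₀) ^ (pt n + ρ) < 2 ^ (pa n - pv n)
  f9 : 2 * py n ≤ 2 ^ pa n
  f10 : ((((2 ^ pa n + 1) * (n * (2 ^ pa n + 1)) ^ pt n * (2 ^ pa n + 1) ^ J + 1) ^ J : ℕ) : ℝ) ≤ 2 ^ (ε * n)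
  g1 : 1 / (py n : ℝ) + 3 / 2 / Real.sqrt (s₀ + 1) ≤ 1
  g2 : ((pt n : ℝ) + 1) ^ 2 * 8 ^ n * (1 / (py n : ℝ) + 3 / 2 / Real.sqrt (s₀ + 1)) ^ (n - 3 * pt n) ≤ 2 ^ (-(C * n : ℝ))
  g3 : ∀ ρ ≤ J, 1 / (py n : ℝ) + 3 / 2 / Real.sqrt (pt n + 1) ≤ 1 ∧
    3 * ((n ^ A₀ : ℕ) : ℝ) * ((n : ℝ) + ρ) ^ 2 * 8 ^ n * (1 / (py n : ℝ) + 3 / 2 / Real.sqrt (pt n + 1)) ^ (pz (4 * (C + 10)) n - 2 * (pk C n + ρ)) ≤ 2 ^ (-(C * n : ℝ))
  g4 : ∀ ρ ≤ J, max ((1 / 2) ^ pv n) (1 / (2 : ℝ) ^ pv n + 3 / 2 / Real.sqrt (pt n / pv n)) ≤ 1 ∧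
    (py n : ℝ) * 4 ^ n * (max ((1 / 2) ^ pv n) (1 / (2 : ℝ) ^ pv n + 3 / 2 / Real.sqrt (pt n / pv n))) ^ (pz (4 * (C + 10)) n - pa n * (pk C n + ρ)) ≤ 2 ^ (-(C * n : ℝ))

theorem card_NS (hNS : NSStmt) {n J A₀ C s₀ t₀ : ℕ} {ε : ℝ} (hN : NumB n J A₀ C s₀ t₀ ε) :
    (Nat.card {b : Bits n // evNS (py n) (pt n) b} : ℝ) ≤ 2 ^ (-(C * n : ℝ)) * 2 ^ Fintype.card (Sym2 (Fin n)) := by
  have h := hNS (Fin n) (py n) s₀ (pt n) _ hN.f2 rfl hN.g1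
  rw [Fintype.card_fin] at h
  refine h.trans ?_
  exact mul_le_mul_of_nonneg_right hN.g2 (by positivity)

theorem card_K1 (hK : KZ1Stmt2) {n J A₀ C s₀ t₀ : ℕ} {ε : ℝ} (hN : NumB n J A₀ C s₀ t₀ ε) {β : Type} [Fintype β]
    [DecidableEq β] (hβ : Fintype.card β ≤ J) (F : Matrix (Fin n) β ℤ) (hF : ∀ i j, |F i j| ≤ ((n ^ A₀ : ℕ) : ℤ)) :
    (Nat.card {b : Bits n // evK1 F (py n) (pt n) (pz (4 * (C + 10)) n) (pk C n) b} : ℝ) ≤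
      2 ^ (-(C * n : ℝ)) * 2 ^ Fintype.card (Sym2 (Fin n)) := by
  have h := hK (Fin n) β F (n ^ A₀) (py n) (pt n) (pz (4 * (C + 10)) n) (pk C n) _ (Nat.one_le_pow _ _ hN.hn) hF hN.f3 rfl
    (hN.g3 _ hβ).1
  rw [Fintype.card_fin] at h
  refine h.trans ?_
  exact mul_le_mul_of_nonneg_right (hN.g3 _ hβ).2 (by positivity)

theorem card_KA (hK : KZAStmt2) {n J A₀ C s₀ t₀ : ℕ} {ε : ℝ} (hN : NumB n J A₀ C s₀ t₀ ε) {β : Type} [Fintype β]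
    [DecidableEq β] (hβ : Fintype.card β ≤ J) (F : Matrix (Fin n) β ℤ) (hF : ∀ i j, |F i j| ≤ ((n ^ A₀ : ℕ) : ℤ)) :
    (Nat.card {b : Bits n // evKA F (py n) (pa n) (pt n) (pz (4 * (C + 10)) n) (pk C n) b} : ℝ) ≤
      2 ^ (-(C * n : ℝ)) * 2 ^ Fintype.card (Sym2 (Fin n)) := by
  have h := hK (Fin n) β F (n ^ A₀) (py n) (pa n) (pv n) (pv n) (pt n) (pz (4 * (C + 10)) n) (pk C n) _
    (Nat.one_le_pow _ _ hN.hn) hF hN.f5 hN.f6 hN.f7 (hN.f8 _ hβ) rfl (hN.g4 _ hβ).1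
  rw [Fintype.card_fin] at h
  refine h.trans ?_
  exact mul_le_mul_of_nonneg_right (hN.g4 _ hβ).2 (by positivity)

open Classical in
/-- corank event -/
theorem card_Cor {n C : ℕ} (hn : 1 ≤ n) :
    (Nat.card {b : Bits n // ¬ CorLt (matZ b) (pk C n)} : ℝ) ≤ 2 ^ (-(C * n : ℝ)) * 2 ^ Fintype.card (Sym2 (Fin n)) := by
  have hk : 2 * (C + 12) * Fintype.card (Fin n) ≤ (pk C n) ^ 2 := by
    rw [Fintype.card_fin]
    unfold pk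
    have := Nat.lt_succ_sqrt (2 * (C + 12) * n)
    rw [Nat.succ_eq_add_one] at this
    nlinarith
  have h := card_corank_le_exp (α := Fin n) C (pk C n) (by rw [Fintype.card_fin]; exact hn) hk
  have h1 : Nat.card {b : Bits n // ¬ CorLt (matZ b) (pk C n)} ≤
      (univ.filter fun b : Sym2 (Fin n) → Bool => ∃ (p : ℕ) (_ : Fact p.Prime) (T : Finset (Fin n)),
      (prin ((matZ b).map (Int.cast : ℤ → ZMod p)) T).rank + pk C n ≤ T.card).card := by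
    rw [Nat.card_eq_fintype_card, Fintype.card_subtype]
    refine Finset.card_le_card fun b hb => ?_
    rw [mem_filter] at hb ⊢
    refine ⟨mem_univ _, ?_⟩
    by_contra hcon
    apply hb.2
    intro p hp T
    by_contra hlt
    exact hcon ⟨p, ⟨hp⟩, T, not_lt.1 hlt⟩
  rw [Fintype.card_fin] at h
  have h2 : (Nat.card {b : Bits n // ¬ CorLt (matZ b) (pk C n)} : ℝ) * 2 ^ (C * n) ≤ 2 ^ Fintype.card (Sym2 (Fin n)) := by
    have h3 : (Nat.card {b : Bits n // ¬ CorLt (matZ b) (pk C n)}) * 2 ^ (C * n) ≤ 2 ^ Fintype.card (Sym2 (Fin n)) :=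
      (Nat.mul_le_mul_right _ h1).trans h
    exact_mod_cast h3
  rw [Real.rpow_neg (by norm_num), show ((C : ℝ) * n) = ((C * n : ℕ) : ℝ) by push_cast; ring, Real.rpow_natCast,
    inv_mul_eq_div, le_div_iff₀ (by positivity)]
  exact h2

end Vale.Agent.P160.Half.G
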