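import Vale.Agent.P160.Half.GAsmB

/-! # P160, half rate: gap (G), assembly, part C (helper667): fixed `n` -/

set_option linter.unusedVariables false

open Finset Matrix

namespace Vale.Agent.P160.Half.G

open A Labels

open Classical in
theorem card_fib {n : ℕ} {Φ ι : Type*} [Fintype ι] [DecidableEq Φ] (S : Finset (Bits n × Φ)) (F : Φ) (Q : ι → Bits n → Prop) {K : ℝ}
    (h : ∀ bF ∈ S, bF.2 = F → ∃ I, Q I bF.1) (hQ : ∀ I, (Nat.card {b : Bits n // Q I b} : ℝ) ≤ K) :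
    ((S.filter fun bF => bF.2 = F).card : ℝ) ≤ Fintype.card ι * K := by
  have h1 : (S.filter fun bF => bF.2 = F).card ≤ ((univ : Finset ι).biUnion fun I => univ.filter (Q I)).card := by
    refine Finset.card_le_card_of_injOn Prod.fst ?_ ?_
    · intro bF hbF
      rw [mem_coe, mem_filter] at hbF
      obtain ⟨I, hI⟩ := h bF hbF.1 hbF.2
      rw [mem_coe, mem_biUnion]
      exact ⟨I, mem_univ _, mem_filter.2 ⟨mem_univ _, hI⟩⟩
    · intro x hx y hy hxy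
      rw [mem_coe, mem_filter] at hx hy
      exact Prod.ext hxy (hx.2.trans hy.2.symm)
  have h2 : (((univ : Finset ι).biUnion fun I => univ.filter (Q I)).card : ℝ) ≤ ∑ I : ι, ((univ.filter (Q I)).card : ℝ) := by
    exact_mod_cast Finset.card_biUnion_le
  calc ((S.filter fun bF => bF.2 = F).card : ℝ) ≤ _ := by exact_mod_cast h1
    _ ≤ _ := h2
    _ ≤ ∑ _I : ι, K := Finset.sum_le_sum fun I _ => by rw [card_filter_eq]; exact hQ I
    _ = Fintype.card ι * K := by rw [Finset.sum_const, nsmul_eq_mul, Finset.card_univ]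

/-- numeric conditions of the deterministic part -/
structure NumD (n J A₀ C s₁ : ℕ) : Prop where
  h1 : ∀ ρ ≤ J, Real.logb 2 (((ρ + 1).factorial * ((ρ + 1) * (n * n.factorial * n ^ A₀)) ^ (ρ + 1) : ℕ) : ℝ) ≤ 2 * (J + 2) * n * Real.logb 2 n
  h2 : ∀ ρ ≤ J, Real.logb 2 (n.factorial * (ρ.factorial * ((n : ℝ) ^ (A₀ : ℝ)) ^ ρ) ^ 2) ≤ 2 * n * Real.logb 2 n
  h3 : ∀ ρ ≤ J, (n : ℝ) + 6 * (2 * n * Real.logb 2 n) / Real.logb 2 (py n) + py n * (4 + 2 * Real.logb 2 (2 * n * Real.logb 2 n + 1) +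
    2 * ρ * (ρ * pa n) * (pk C n + ρ : ℕ) * Real.logb 2 (py n)) ≤ 200 * n
  h4 : ∀ ρ ≤ J, ((ρ : ℝ) + 1) *
      ((Real.logb 2 n.factorial + 2 * ρ * (ρ * pa n) * py n * Real.logb 2 (py n + 1)) *
          ((1 / 2) ^ s₁ * (ρ * pz (4 * (C + 10)) n / n) + (ρ * pz (4 * (C + 10)) n / n) ^ 2) +
        2 * (ρ * (2 * (J + 2) * n * Real.logb 2 n)) *
          ((1 / 2) ^ s₁ * (ρ * pz (4 * (C + 10)) n / n) + ρ * (ρ * pz (4 * (C + 10)) n / n) ^ 2)) ≤ (n : ℝ) / 2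
  h5 : 4 * (J * (n / (8 * (J + 1)) + (J * pt n + J) + J)) ≤ n
  h6 : 1 ≤ pa n

theorem logb_nonneg' (n : ℕ) (hn : 1 ≤ n) : 0 ≤ 2 * (n : ℝ) * Real.logb 2 n := by
  have : 0 ≤ Real.logb 2 (n : ℝ) := Real.logb_nonneg (by norm_num) (by exact_mod_cast hn)
  positivity

open Classical in
/-- the conclusion for one `n` -/
theorem fixed (hNS : NSStmt) (hK1 : KZ1Stmt2) (hKA : KZAStmt2) (hNZ : NSZStmt) (hCnt : CountStmt) (hDet : DetStmt)
    {l M n A₀ s₀ t₀ s₁ : ℕ} {ε A D₀ : ℝ} (hlM : 1 ≤ l * M) (hA : A ≤ A₀) (hA1 : 1 ≤ A₀) (hD0 : 0 ≤ D₀)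
    (hN : NumB n (2 * l * M) A₀ (10 * l * M) s₀ t₀ ε) (hM : NumD n (2 * l * M) A₀ (10 * l * M) s₁)
    (hRC : ∀ (β : Type) [Fintype β] [DecidableEq β], Fintype.card β ≤ 2 * l * M →
      ∀ F : Matrix (Fin n) β ℤ, (∀ j q, |(F j q : ℝ)| ≤ (n : ℝ) ^ (A₀ : ℝ)) → ∃ B₁ : Finset (Bits n),
        (B₁.card : ℝ) ≤ (2 : ℝ) ^ (-(((10 * l * M : ℕ) : ℝ) * n)) * 2 ^ Fintype.card (Sym2 (Fin n)) ∧
      ∀ b ∉ B₁, (matZ b).det ≠ 0 → NoSparseZ (matZ b) F t₀ → (∀ q, BdQ ((n : ℝ) ^ (A₀ : ℝ)) (gF (matZ b) F q)) →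
      ∀ c : β → ℝ, (∀ q, |c q| ≤ 1) → (∃ q, |c q| = 1) →
        ((Set.ncard {j : Fin n | |∑ q, c q * ((gF (matZ b) F q j : ℚ) : ℝ)| < (n : ℝ) ^ (-D₀)} : ℕ) : ℝ) ≤
          1 / (8 * ((2 * l * M : ℕ) + 1)) * n) :
    ∃ (T : Finset (Ty n l M)) (B₀ : Finset (Bits n)),
    (T.card : ℝ) ≤ (2 : ℝ) ^ (ε * n) ∧ (∀ τ ∈ T, τ.Ok) ∧
    (B₀.card : ℝ) ≤ (2 : ℝ) ^ (-(5 * l * M * n) : ℝ) * 2 ^ Fintype.card (Sym2 (Fin n)) ∧
  ∀ (E : Finset (Fin n)) (a : Fin n → ℤ), E.card ≤ 2 * l * M → (∀ j, |(a j : ℝ)| ≤ (n : ℝ) ^ A) →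
  ∃ (B₁ : Finset (Bits n × (Fin n → Co l M → Bool)))
    (lab : (τ : Ty n l M) → (τ.I → Fin n) → Matrix (Fin n) (Fin n) ℚ → (Fin s₁ → Fin n → ℚ) →
      Finset (Submodule ℤ (Fin n → ℚ))),
    (B₁.card : ℝ) ≤ (2 : ℝ) ^ (-(5 * l * M * n) : ℝ) *
      2 ^ (Fintype.card (Sym2 (Fin n)) + 2 * l * M * n) ∧
    (∀ τ R M' h, ((lab τ R M' h).card : ℝ) ≤ (2 : ℝ) ^ ((200 : ℝ) * n)) ∧
  ∀ b ∉ B₀, (matZ b).det ≠ 0 → ∀ F : Fin n → Co l M → Bool, (b, F) ∉ B₁ → Rel E F →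
  ∀ L : Submodule ℤ (Fin n → ℚ), Over (matZ b) L →
    (∀ q, dual (matZ b) (ent E a F q) ∈ L ∧ BdQ ((n : ℝ) ^ A) (dual (matZ b) (ent E a F q))) →
  ∃ τ ∈ T, τ.Fits E b F ∧ ∃ R : τ.I → Fin n, Function.Injective R ∧ (∀ i, R i ∉ τ.S ∧ R i ∉ E) ∧
    (n : ℝ) ^ (-((2 * l * M : ℕ) * D₀)) ≤ |((minor R (gs (matZ b) E a F τ.I) : ℚ) : ℝ)| ∧
    ∃ c : Fin s₁ → τ.I → Bool,
      newL (LF (matZ b) E a F τ.I) R (gs (matZ b) E a F τ.I) ∈
        lab τ R (newP (matZ b) R (gs (matZ b) E a F τ.I))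
        (fun t => newH (matZ b) R (gs (matZ b) E a F τ.I) (c t)) := by
  have hn := hN.hn
  have hn' : (1 : ℝ) ≤ n := by exact_mod_cast hn
  set C := 10 * l * M with hC
  set J := 2 * l * M with hJ
  obtain ⟨T, hT1, hT2, hT3⟩ := T984.exists_types n l M (py n) (pt n) (2 ^ pa n) (n ^ A₀) (by omega) hN.f1 hN.f9
    (Nat.one_le_pow _ _ hn) (hN.f8 J le_rfl |>.le.trans (Nat.pow_le_pow_right (by norm_num) (Nat.sub_le _ _)))
  -- numbers
  have hpw : (2 : ℝ) ^ (-(C * n : ℝ)) ≤ (2 : ℝ) ^ (-(5 * l * M * n : ℝ)) * (1 / (3 * 2 ^ J)) := by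
    have h1 : (3 * 2 ^ J : ℝ) ≤ 2 ^ ((J : ℝ) + 2) := by
      rw [Real.rpow_add (by norm_num), Real.rpow_natCast]
      norm_num
      nlinarith [pow_pos (show (0 : ℝ) < 2 by norm_num) J]
    have h2 : ((J : ℝ) + 2) ≤ 5 * l * M * n := by
      rw [hJ]; push_cast
      have h3 : (1 : ℝ) ≤ l * M := by exact_mod_cast hlM
      nlinarith
    have h3 : (3 * 2 ^ J : ℝ) ≤ 2 ^ (5 * l * M * n : ℝ) := h1.trans (Real.rpow_le_rpow_of_exponent_le (by norm_num) h2)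
    have h4 : (2 : ℝ) ^ (-(C * n : ℝ)) = (2 : ℝ) ^ (-(5 * l * M * n : ℝ)) * (2 : ℝ) ^ (-(5 * l * M * n : ℝ)) := by
      rw [← Real.rpow_add (by norm_num)]
      congr 1
      rw [hC]; push_cast; ring
    rw [h4]
    refine mul_le_mul_of_nonneg_left ?_ (by positivity)
    rw [Real.rpow_neg (by norm_num), ← one_div]
    exact one_div_le_one_div_of_le (by positivity) h3
  refine ⟨T, univ.filter fun b => evNS (py n) (pt n) b ∨ ¬ CorLt (matZ b) (pk C n), ?_, fun τ hτ => (hT2 τ hτ).1, ?_, ?_⟩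
  · refine le_trans ?_ hN.f10
    exact_mod_cast hT1
  · -- count of B₀
    have h1 : ((univ.filter fun b : Bits n => evNS (py n) (pt n) b).card : ℝ) ≤ 2 ^ (-(C * n : ℝ)) * 2 ^ Fintype.card (Sym2 (Fin n)) := by
      rw [card_filter_eq]; exact card_NS hNS hN
    have h2 : ((univ.filter fun b : Bits n => ¬ CorLt (matZ b) (pk C n)).card : ℝ) ≤ 2 ^ (-(C * n : ℝ)) * 2 ^ Fintype.card (Sym2 (Fin n)) := by
      rw [card_filter_eq]; exact card_Cor (C := C) hn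
    have h3 : ((univ.filter fun b : Bits n => evNS (py n) (pt n) b ∨ ¬ CorLt (matZ b) (pk C n)).card : ℝ) ≤
        ((univ.filter fun b : Bits n => evNS (py n) (pt n) b).card : ℝ) +
          ((univ.filter fun b : Bits n => ¬ CorLt (matZ b) (pk C n)).card : ℝ) := by
      rw [Finset.filter_or]
      exact_mod_cast Finset.card_union_le _ _
    refine h3.trans ((add_le_add h1 h2).trans ?_)
    rw [← two_mul, ← mul_assoc]
    refine mul_le_mul_of_nonneg_right ?_ (by positivity)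
    have h4 : (1 : ℝ) ≤ 2 ^ J := one_le_pow₀ (by norm_num)
    have h5 : (1 / (3 * 2 ^ J) : ℝ) ≤ 1 / 2 := by
      apply one_div_le_one_div_of_le (by norm_num); linarith
    have h6 : (0 : ℝ) < (2 : ℝ) ^ (-(5 * l * M * n : ℝ)) := by positivity
    nlinarith
  · intro E a hE ha
    have ha' : ∀ j, |a j| ≤ ((n ^ A₀ : ℕ) : ℤ) := fun j => le_natpow hn hA (ha j)
    have hFI : ∀ (F : Fin n → Co l M → Bool) (I : Finset (Co l M)) (j : Fin n) (q : I), |FI E a F I j q| ≤ ((n ^ A₀ : ℕ) : ℤ) :=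
      fun F I => FI_le E a F I _ (Nat.one_le_pow _ _ hn) ha'
    have hRC2 : ∀ (F : Fin n → Co l M → Bool) (I : Finset (Co l M)), ∃ B₁ : Finset (Bits n),
        (B₁.card : ℝ) ≤ (2 : ℝ) ^ (-((C : ℝ) * n)) * 2 ^ Fintype.card (Sym2 (Fin n)) ∧
      ∀ b ∉ B₁, (matZ b).det ≠ 0 → NoSparseZ (matZ b) (FI E a F I) t₀ → (∀ q, BdQ ((n : ℝ) ^ (A₀ : ℝ)) (gF (matZ b) (FI E a F I) q)) →
      ∀ c : I → ℝ, (∀ q, |c q| ≤ 1) → (∃ q, |c q| = 1) →
        ((Set.ncard {j : Fin n | |∑ q, c q * ((gF (matZ b) (FI E a F I) q j : ℚ) : ℝ)| < (n : ℝ) ^ (-D₀)} : ℕ) : ℝ) ≤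
          1 / (8 * ((J : ℕ) + 1)) * n := by
      intro F I
      refine hRC I (card_I_le I) (FI E a F I) ?_
      intro j q
      have h1 := hFI F I j q
      rw [Real.rpow_natCast]
      have h2 : ((|FI E a F I j q| : ℤ) : ℝ) ≤ (((n ^ A₀ : ℕ) : ℤ) : ℝ) := by exact_mod_cast h1
      push_cast at h2
      exact h2
    choose Brc hBrc1 hBrc2 using hRC2
    have hDt : 0 ≤ 2 * (n : ℝ) * Real.logb 2 n := logb_nonneg' n hn
    refine ⟨univ.filter fun bF => ∃ I : Finset (Co l M), evK1 (FI E a bF.2 I) (py n) (pt n) (pz (4 * (C + 10)) n) (pk C n) bF.1 ∨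
        evKA (FI E a bF.2 I) (py n) (pa n) (pt n) (pz (4 * (C + 10)) n) (pk C n) bF.1 ∨ bF.1 ∈ Brc bF.2 I,
      fun τ R M' h => (hCnt n s₁ τ.I.card (py n) (pa n) (pk C n + τ.I.card) (2 * n * Real.logb 2 n) n M' h hN.f3 hM.h6
        (by positivity) hDt).1.toFinset, ?_, ?_, ?_⟩
    · -- count of B₁
      set S : Finset (Bits n × (Fin n → Co l M → Bool)) := univ.filter fun bF => ∃ I : Finset (Co l M),
        evK1 (FI E a bF.2 I) (py n) (pt n) (pz (4 * (C + 10)) n) (pk C n) bF.1 ∨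
        evKA (FI E a bF.2 I) (py n) (pa n) (pt n) (pz (4 * (C + 10)) n) (pk C n) bF.1 ∨ bF.1 ∈ Brc bF.2 I with hS
      have h1 := card_pairs S (Fintype.card (Finset (Co l M) × Fin 3) * ((2 : ℝ) ^ (-((C : ℝ) * n)) * 2 ^ Fintype.card (Sym2 (Fin n)))) (by
        intro F
        refine card_fib S F (K := (2 : ℝ) ^ (-((C : ℝ) * n)) * 2 ^ Fintype.card (Sym2 (Fin n))) (fun (i : Finset (Co l M) × Fin 3) b => if i.2 = 0 then evK1 (FI E a F i.1) (py n) (pt n) (pz (4 * (C + 10)) n) (pk C n) b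
          else if i.2 = 1 then evKA (FI E a F i.1) (py n) (pa n) (pt n) (pz (4 * (C + 10)) n) (pk C n) b else b ∈ Brc F i.1) ?_ ?_
        · rintro ⟨b, F'⟩ hbF hF'
          obtain rfl : F' = F := hF'
          rw [hS, mem_filter] at hbF
          obtain ⟨_, I, h | h | h⟩ := hbF
          · exact ⟨(I, 0), by simpa using h⟩
          · exact ⟨(I, 1), by simpa using h⟩
          · exact ⟨(I, 2), by simpa using h⟩
        · rintro ⟨I, i⟩
          fin_cases i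
          · simpa using card_K1 hK1 hN (card_I_le I) (FI E a F I) (hFI F I)
          · simpa using card_KA hKA hN (card_I_le I) (FI E a F I) (hFI F I)
          · have h2 := hBrc1 F I
            simpa [Nat.card_eq_fintype_card] using h2)
      refine h1.trans ?_
      have h2 : Fintype.card (Fin n → Co l M → Bool) = 2 ^ (2 * l * M * n) := by
        rw [Fintype.card_fun, Fintype.card_fun, Fintype.card_bool, Fintype.card_fin, card_Co', ← pow_mul]
      have h3 : (Fintype.card (Finset (Co l M) × Fin 3) : ℝ) = 3 * 2 ^ J := by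
        rw [Fintype.card_prod, Fintype.card_finset, card_Co', Fintype.card_fin]; push_cast; ring
      rw [h2, h3, pow_add]
      push_cast
      have h4 : (3 * 2 ^ J : ℝ) * (2 : ℝ) ^ (-(C * n : ℝ)) ≤ (2 : ℝ) ^ (-(5 * l * M * n : ℝ)) := by
        have h5 := mul_le_mul_of_nonneg_left hpw (show (0 : ℝ) ≤ 3 * 2 ^ J by positivity)
        refine h5.trans (le_of_eq ?_)
        field_simp
      calc (2 : ℝ) ^ (2 * l * M * n) * (3 * 2 ^ J * ((2 : ℝ) ^ (-((C : ℝ) * n)) * 2 ^ Fintype.card (Sym2 (Fin n))))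
          = (3 * 2 ^ J * (2 : ℝ) ^ (-((C : ℝ) * n))) * (2 ^ Fintype.card (Sym2 (Fin n)) * 2 ^ (2 * l * M * n)) := by ring
        _ ≤ (2 : ℝ) ^ (-(5 * l * M * n : ℝ)) * (2 ^ Fintype.card (Sym2 (Fin n)) * 2 ^ (2 * l * M * n)) :=
            mul_le_mul_of_nonneg_right h4 (by positivity)
    · -- count of labels
      intro τ R M' h
      have h1 := (hCnt n s₁ τ.I.card (py n) (pa n) (pk C n + τ.I.card) (2 * n * Real.logb 2 n) n M' h hN.f3 hM.h6
        (by positivity) hDt)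
      rw [← Set.ncard_eq_toFinset_card _ h1.1]
      refine h1.2.trans ?_
      refine Real.rpow_le_rpow_of_exponent_le (by norm_num) ?_
      have h2 := hM.h3 τ.I.card (by rw [← Fintype.card_coe]; exact card_I_le _)
      exact h2
    · -- main
      intro b hb hdet F hbF hRel L hL hq
      rw [mem_filter, not_and, not_or] at hb
      obtain ⟨hb1, hb2⟩ := hb (mem_univ _)
      rw [not_not] at hb2
      have hbF' : ∀ I : Finset (Co l M), ¬ evK1 (FI E a F I) (py n) (pt n) (pz (4 * (C + 10)) n) (pk C n) b ∧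
          ¬ evKA (FI E a F I) (py n) (pa n) (pt n) (pz (4 * (C + 10)) n) (pk C n) b ∧ b ∉ Brc F I := by
        intro I
        rw [mem_filter, not_and] at hbF
        have := hbF (mem_univ _)
        rw [not_exists] at this
        have := this I
        rw [not_or, not_or] at this
        exact this
      obtain ⟨τ, hτ, hfit, hns⟩ := hT3 E a ha' b (by
        intro p hp hy g hg h0
        by_contra hlt
        exact hb1 ⟨hdet, p, hp, hy, g, hg, h0, not_lt.1 hlt⟩) F hRel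
      have hnsz : NoSparseZ (matZ b) (FI E a F τ.I) (pt n) := hNZ _ _ _ _ _ _ hns
      have hkz : KZ (matZ b) (FI E a F τ.I) (py n) (pa n) (pz (4 * (C + 10)) n) := by
        apply kz_of
        · intro h
          exact (hbF' τ.I).1 ⟨hb2, hns, h⟩
        · intro h
          exact (hbF' τ.I).2.1 ⟨hb2, hnsz, h⟩
      have hbd : ∀ q : τ.I, BdQ ((n : ℝ) ^ (A₀ : ℝ)) (gF (matZ b) (FI E a F τ.I) q) := fun q i =>
        ((hq q).2 i).trans (Real.rpow_le_rpow_of_exponent_le hn' hA)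
      have hrc := hBrc2 F τ.I b (hbF' τ.I).2.2 hdet (noSparseZ_mono hnsz hN.f4) hbd
      have hcard : Fintype.card τ.I ≤ J := card_I_le _
      have hτS : (τ.S ∪ E).card ≤ J * pt n + J := (Finset.card_union_le _ _).trans (Nat.add_le_add (hT2 τ hτ).2 hE)
      obtain ⟨R, hR1, hR2, hR3, c, hc⟩ := hDet n τ.I b (FI E a F τ.I) (n ^ A₀) (py n) (pa n) (pz (4 * (C + 10)) n) (pk C n)
        (n / (8 * (J + 1))) s₁ ((n : ℝ) ^ (-D₀)) ((n : ℝ) ^ (A₀ : ℝ)) (2 * n * Real.logb 2 n) n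
        (2 * (J + 2) * n * Real.logb 2 n) (τ.S ∪ E) (by omega) (Nat.one_le_pow _ _ hn) hM.h6 hN.f3 (by positivity)
        (Real.one_le_rpow hn' (by positivity)) (by positivity) hdet (hFI F τ.I)
        (fun i k => hL.int _ (hq i).1 _ (hq k).1) hbd hkz hb2 (by
          intro c' hc1 hc2
          have h1 := hrc c' hc1 hc2
          rw [Nat.le_div_iff_mul_le (by positivity)]
          have h2 : ((Set.ncard {j : Fin n | |∑ q, c' q * ((gF (matZ b) (FI E a F τ.I) q j : ℚ) : ℝ)| < (n : ℝ) ^ (-D₀)} : ℕ) : ℝ) *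
              (8 * ((J : ℕ) + 1)) ≤ n := by
            rw [one_div, inv_mul_eq_div, le_div_iff₀ (by positivity)] at h1
            exact h1
          exact_mod_cast h2) (by
          refine le_trans ?_ hM.h5
          gcongr) (hM.h1 _ hcard) (hM.h2 _ hcard) (hM.h4 _ hcard)
      refine ⟨τ, hτ, hfit, R, hR1, ?_, ?_, c, ?_⟩
      · intro i
        have := hR2 i
        rw [mem_union, not_or] at this
        exact this
      · refine le_trans ?_ hR3
        rw [← Real.rpow_natCast, ← Real.rpow_mul (by positivity)]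
        refine Real.rpow_le_rpow_of_exponent_le hn' ?_
        have : (Fintype.card τ.I : ℝ) ≤ J := by exact_mod_cast hcard
        nlinarith
      · rw [Set.Finite.mem_toFinset, LF_eq, ← Fintype.card_coe]
        exact hc

end Vale.Agent.P160.Half.G
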