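import Vale.Agent.P160.Half.GAsm126
import Vale.Agent.P160.Half.Corank

/-! # P160, half rate: gap (G), counting half of the assembly of `StmtG` (helper603): `B0Prop` and `B1Prop` from the landed statements -/

set_option linter.unusedVariables false

open Finset Matrix Filter

namespace Vale.Agent.P160.Half.G.C603

open A Labels GA126 A.T984

theorem nat_card_eq {X : Type*} [Fintype X] (P : X → Prop) [DecidablePred P] :
    Nat.card {x : X // P x} = (univ.filter P).card := by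
  rw [Nat.card_eq_fintype_card, Fintype.card_subtype]

open Classical in
theorem cor_card (n C : ℕ) (hn : 1 ≤ n) :
    (((univ : Finset (Bits n)).filter (fun b => ¬ CorLt (matZ b) (pk C n))).card : ℝ) ≤
      2 ^ (-(C * n : ℝ)) * 2 ^ Fintype.card (Sym2 (Fin n)) := by
  have hk : 2 * (C + 12) * n ≤ pk C n ^ 2 := by
    have h := Nat.lt_succ_sqrt (2 * (C + 12) * n)
    unfold pk
    rw [pow_two]
    exact h.le
  have h := card_corank_le_exp (α := Fin n) C (pk C n) (by rw [Fintype.card_fin]; exact hn)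
    (by rw [Fintype.card_fin]; exact hk)
  rw [Fintype.card_fin] at h
  have hsub : (univ : Finset (Bits n)).filter (fun b => ¬ CorLt (matZ b) (pk C n)) ⊆
      (univ.filter fun b : Sym2 (Fin n) → Bool => ∃ (p : ℕ) (_ : Fact p.Prime) (T : Finset (Fin n)),
        (prin ((matZ b).map (Int.cast : ℤ → ZMod p)) T).rank + pk C n ≤ T.card) := by
    intro b hb
    rw [mem_filter] at hb ⊢
    refine ⟨mem_univ _, ?_⟩
    have h1 := hb.2
    unfold CorLt at h1
    push Not at h1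
    obtain ⟨p, hp, T, hT⟩ := h1
    exact ⟨p, ⟨hp⟩, T, hT⟩
  have h2 : ((univ : Finset (Bits n)).filter (fun b => ¬ CorLt (matZ b) (pk C n))).card * 2 ^ (C * n) ≤
      2 ^ Fintype.card (Sym2 (Fin n)) := le_trans (Nat.mul_le_mul_right _ (card_le_card hsub)) h
  have h3 : (((univ : Finset (Bits n)).filter (fun b => ¬ CorLt (matZ b) (pk C n))).card : ℝ) * 2 ^ (C * n) ≤
      2 ^ Fintype.card (Sym2 (Fin n)) := by exact_mod_cast h2
  have h4 : (2 : ℝ) ^ (-(C * n : ℝ)) = (2 ^ (C * n))⁻¹ := by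
    rw [Real.rpow_neg (by norm_num), ← Nat.cast_mul, Real.rpow_natCast]
  rw [h4, inv_mul_eq_div, le_div_iff₀ (by positivity)]
  exact h3

/-- **`B0Prop`** -/
theorem b0_of (n1 : Num1) (n3 : Num3) (hNS : NSStmt) : B0Prop := by
  classical
  intro C
  obtain ⟨s₀, hs₀⟩ := n3 C
  filter_upwards [hs₀, n1 0 0 s₀ 0, eventually_ge_atTop 1] with n h3 h1 hn
  obtain ⟨h3a, h3b⟩ := h3
  have hfac : s₀.factorial < py n := h1.2.1
  set S : Finset (Bits n) := (univ : Finset (Bits n)).filter (fun b => (matZ b).det ≠ 0 ∧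
    ∃ p, p.Prime ∧ py n ≤ p ∧ ∃ g : Fin n → ZMod p, g ≠ 0 ∧
    (matZ b).map (Int.cast : ℤ → ZMod p) *ᵥ g = 0 ∧ (univ.filter fun i => g i ≠ 0).card ≤ pt n) with hS
  set T : Finset (Bits n) := (univ : Finset (Bits n)).filter (fun b => ¬ CorLt (matZ b) (pk C n)) with hT
  have hSc : (S.card : ℝ) ≤ 2 ^ (-(C * n : ℝ)) * 2 ^ Fintype.card (Sym2 (Fin n)) := by
    have h := hNS (Fin n) (py n) s₀ (pt n) _ hfac rfl h3a
    rw [Fintype.card_fin, nat_card_eq] at h
    exact h.trans (mul_le_mul_of_nonneg_right h3b (by positivity))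
  have hTc := cor_card n C hn
  refine ⟨S ∪ T, ?_, ?_⟩
  · have h := Finset.card_union_le S T
    have h' : ((S ∪ T).card : ℝ) ≤ S.card + T.card := by exact_mod_cast h
    calc ((S ∪ T).card : ℝ) ≤ S.card + T.card := h'
      _ ≤ 2 ^ (-(C * n : ℝ)) * 2 ^ Fintype.card (Sym2 (Fin n)) + 2 ^ (-(C * n : ℝ)) * 2 ^ Fintype.card (Sym2 (Fin n)) :=
          add_le_add hSc hTc
      _ = 2 * 2 ^ (-(C * n : ℝ)) * 2 ^ Fintype.card (Sym2 (Fin n)) := by ring
  · intro b hb hdet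
    rw [Finset.mem_union, not_or] at hb
    obtain ⟨hbS, hbT⟩ := hb
    constructor
    · intro p hp hy g hg hk
      by_contra hlt
      exact hbS (by
        rw [hS, mem_filter]
        exact ⟨mem_univ _, hdet, p, hp, hy, g, hg, hk, not_lt.1 hlt⟩)
    · by_contra hc
      exact hbT (by
        rw [hT, mem_filter]
        exact ⟨mem_univ _, hc⟩)

theorem kz_join {α β : Type} [Fintype α] [Fintype β] [DecidableEq α] [DecidableEq β] (P : Matrix α α ℤ)
    (F : Matrix α β ℤ) (y a z : ℕ)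
    (h1 : ¬ ∃ p, p.Prime ∧ y ≤ p ∧ ∃ (g : α → ZMod p) (c : β → ZMod p), Word _ P F g c ∧ (g ≠ 0 ∨ c ≠ 0) ∧
      z ≤ (univ.filter fun i => g i = 0).card)
    (h2 : ¬ ∃ p, p.Prime ∧ p < y ∧ ∃ (g : α → ZMod (p ^ a)) (c : β → ZMod (p ^ a)), Word _ P F g c ∧ Prim g c ∧
      z ≤ (univ.filter fun i => g i = 0).card) : KZ P F y a z := by
  intro p hp
  by_cases hy : y ≤ p
  · have key : ∀ N : ℕ, N = p → ∀ (g : α → ZMod N) (c : β → ZMod N), Word _ P F g c →
        ((∃ i, IsUnit (g i)) ∨ ∃ j, IsUnit (c j)) → (univ.filter fun i => g i = 0).card < z := by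
      rintro _ rfl g c hw hpr
      by_contra hlt
      have := Fact.mk hp
      refine h1 ⟨_, hp, hy, g, c, hw, ?_, not_lt.1 hlt⟩
      rcases hpr with ⟨i, hi⟩ | ⟨j, hj⟩
      · left; intro h0; rw [h0] at hi; exact not_isUnit_zero hi
      · right; intro h0; rw [h0] at hj; exact not_isUnit_zero hj
    intro g c hw hpr
    exact key _ (by rw [if_pos hy, pow_one]) g c hw hpr
  · have key : ∀ N : ℕ, N = p ^ a → ∀ (g : α → ZMod N) (c : β → ZMod N), Word _ P F g c →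
        ((∃ i, IsUnit (g i)) ∨ ∃ j, IsUnit (c j)) → (univ.filter fun i => g i = 0).card < z := by
      rintro _ rfl g c hw hpr
      by_contra hlt
      exact h2 ⟨p, hp, not_le.1 hy, g, c, hw, hpr, not_lt.1 hlt⟩
    intro g c hw hpr
    exact key _ (by rw [if_neg hy]) g c hw hpr

/-- **`B1Prop`** -/
theorem b1_of (n1 : Num1) (n4 : Num4) (n5 : Num5) (hK1 : KZ1Stmt2) (hKA : KZAStmt2) (hZ : NSZStmt)
    (hRC : RCStmt) : B1Prop := by
  classical
  intro C J A δ hδ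
  obtain ⟨t₀, D, n₀, hrc⟩ := hRC J A C δ hδ
  refine ⟨D, ?_⟩
  filter_upwards [n1 J A 2 (t₀ + 1), all_le J (n4 C J A), all_le J (n5 C J), eventually_ge_atTop (n₀ + 1)] with
    n h1 h4 h5 hn β _ _ hβ F hF
  obtain ⟨g1, g2, g3, g4, g5, g6⟩ := h1
  have hn1 : 1 ≤ n := by omega
  have hnR : (1 : ℝ) ≤ n := by exact_mod_cast hn1
  have hX1 : 1 ≤ n ^ A := Nat.one_le_pow _ _ hn1
  have hpv : 1 ≤ pv n := by omega
  have hpy : 2 ≤ py n := by
    have : (2 : ℕ).factorial = 2 := rfl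
    omega
  have hpt0 : pv n ≤ pt n := by
    unfold pt
    exact Nat.le_mul_of_pos_right _ (by positivity)
  have hpt : t₀ ≤ pt n := by omega
  have hpt1 : 1 ≤ pt n := by omega
  -- (1)
  obtain ⟨q1, q2⟩ := h4 _ hβ
  have c1 := hK1 (Fin n) β F (n ^ A) (py n) (pt n) (pz (4 * (C + 10)) n) (pk C n) _ hX1 hF hpy rfl q1
  rw [Fintype.card_fin, nat_card_eq] at c1
  -- (2)
  obtain ⟨r1, r2⟩ := h5 _ hβ
  have hfac : (pt n + Fintype.card β).factorial * (n ^ A) ^ (pt n + Fintype.card β) < 2 ^ (pa n - pv n) := by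
    refine lt_of_le_of_lt ?_ g5
    exact Nat.mul_le_mul (Nat.factorial_le (by omega)) (Nat.pow_le_pow_right hX1 (by omega))
  have c2 := hKA (Fin n) β F (n ^ A) (py n) (pa n) (pv n) (pv n) (pt n) (pz (4 * (C + 10)) n) (pk C n) _ hX1 hF g3
    hpv hpt1 hfac rfl r1
  rw [Fintype.card_fin, nat_card_eq] at c2
  -- (3)
  have hF' : ∀ j q, |(F j q : ℝ)| ≤ (n : ℝ) ^ (A : ℝ) := by
    intro j q
    have h := hF j q
    have h' : ((|F j q| : ℤ) : ℝ) ≤ (((n ^ A : ℕ) : ℤ) : ℝ) := by exact_mod_cast h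
    rw [Int.cast_abs] at h'
    refine h'.trans (le_of_eq ?_)
    rw [Real.rpow_natCast]; push_cast; rfl
  obtain ⟨B₃, c3, hB₃⟩ := hrc n (by omega) β hβ F hF'
  set S₁ : Finset (Bits n) := (univ : Finset (Bits n)).filter (fun b => CorLt (matZ b) (pk C n) ∧ NoSparse (matZ b) F (py n) (pt n) ∧
    ∃ p, p.Prime ∧ py n ≤ p ∧ ∃ (g : Fin n → ZMod p) (c : β → ZMod p), Word _ (matZ b) F g c ∧ (g ≠ 0 ∨ c ≠ 0) ∧
      pz (4 * (C + 10)) n ≤ (univ.filter fun i => g i = 0).card) with hS₁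
  set S₂ : Finset (Bits n) := (univ : Finset (Bits n)).filter (fun b => CorLt (matZ b) (pk C n) ∧ NoSparseZ (matZ b) F (pt n) ∧
    ∃ p, p.Prime ∧ p < py n ∧ ∃ (g : Fin n → ZMod (p ^ pa n)) (c : β → ZMod (p ^ pa n)), Word _ (matZ b) F g c ∧ Prim g c ∧
      pz (4 * (C + 10)) n ≤ (univ.filter fun i => g i = 0).card) with hS₂
  have d1 : (S₁.card : ℝ) ≤ 2 ^ (-(C * n : ℝ)) * 2 ^ Fintype.card (Sym2 (Fin n)) :=
    c1.trans (mul_le_mul_of_nonneg_right q2 (by positivity))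
  have d2 : (S₂.card : ℝ) ≤ 2 ^ (-(C * n : ℝ)) * 2 ^ Fintype.card (Sym2 (Fin n)) :=
    c2.trans (mul_le_mul_of_nonneg_right r2 (by positivity))
  have d3 : (B₃.card : ℝ) ≤ 2 ^ (-(C * n : ℝ)) * 2 ^ Fintype.card (Sym2 (Fin n)) := c3
  refine ⟨S₁ ∪ S₂ ∪ B₃, ?_, ?_⟩
  · have h := (Finset.card_union_le (S₁ ∪ S₂) B₃).trans (Nat.add_le_add_right (Finset.card_union_le S₁ S₂) _)
    have h' : ((S₁ ∪ S₂ ∪ B₃).card : ℝ) ≤ S₁.card + S₂.card + B₃.card := by exact_mod_cast h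
    linarith
  · intro b hb hdet hcor hns hbd
    rw [Finset.mem_union, Finset.mem_union, not_or, not_or] at hb
    obtain ⟨⟨hb1, hb2⟩, hb3⟩ := hb
    have hnz : NoSparseZ (matZ b) F (pt n) := hZ _ _ _ _ _ _ hns
    refine ⟨kz_join _ _ _ _ _ (fun h => hb1 ?_) (fun h => hb2 ?_), ?_⟩
    · rw [hS₁, mem_filter]
      exact ⟨mem_univ _, hcor, hns, h⟩
    · rw [hS₂, mem_filter]
      exact ⟨mem_univ _, hcor, hnz, h⟩
    · exact hB₃ b hb3 hdet (fun g c hw h0 => lt_of_le_of_lt hpt (hnz g c hw h0)) hbd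

end Vale.Agent.P160.Half.G.C603
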