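import Vale.Agent.P160.Half.GStmt

/-! # P160, half rate: Littlewood–Offord modulo a prime power, by levels (G5, helper820) -/

open Finset

namespace Vale.Agent.P160.Half.G.LOpp

open LOq

/-- averaging over the bits outside `S` -/
lemma atom_le_of_restrict {ι : Type} [Fintype ι] [DecidableEq ι] {N : ℕ} (u : ι → ZMod N) (c : ZMod N) (S : Finset ι)
    (B : ℝ) (h : ∀ c', atom (fun i : {i // i ∈ S} => u i) c' ≤ B) : atom u c ≤ B := by
  classical
  have key : ((univ.filter (fun x : ι → Bool => ∑ i, (if x i then u i else 0) = c)).card : ℝ) =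
      ∑ y : {i // i ∉ S} → Bool, ((univ.filter (fun z : {i // i ∈ S} → Bool => ∑ i, (if z i then u i else 0) =
        c - ∑ i, (if y i then u i else 0))).card : ℝ) := by
    simp only [Finset.card_filter]
    push_cast
    rw [Fintype.sum_equiv (Equiv.piEquivPiSubtypeProd (fun i => i ∈ S) (fun _ => Bool))
      (fun x : ι → Bool => (if ∑ i, (if x i then u i else 0) = c then (1 : ℝ) else 0))
      (fun q => if ∑ i, (if q.1 i then u i else 0) = c - ∑ i, (if q.2 i then u i else 0) then (1 : ℝ) else 0) ?_]
    · rw [Fintype.sum_prod_type, Finset.sum_comm]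
    · intro x
      have h1 : (∑ i : {i // i ∈ S}, (if x i then u i else 0)) + ∑ i : {i // i ∉ S}, (if x i then u i else 0) =
          ∑ i, (if x i then u i else 0) := by
        rw [← Finset.sum_add_sum_compl S,
          Finset.sum_subtype S (p := fun i => i ∈ S) (fun _ => Iff.rfl) (fun i => if x i then u i else 0),
          Finset.sum_subtype Sᶜ (p := fun i => i ∉ S) (fun _ => Finset.mem_compl) (fun i => if x i then u i else 0)]
      simp only [Equiv.piEquivPiSubtypeProd_apply]
      congr 1
      rw [eq_sub_iff_add_eq]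
      exact congrArg (· = c) h1.symm
  have h2 : ∀ y : {i // i ∉ S} → Bool, ((univ.filter (fun z : {i // i ∈ S} → Bool => ∑ i, (if z i then u i else 0) =
        c - ∑ i, (if y i then u i else 0))).card : ℝ) ≤ B * 2 ^ Fintype.card {i // i ∈ S} := by
    intro y
    have := h (c - ∑ i, (if y i then u i else 0))
    unfold atom at this
    rwa [div_le_iff₀ (by positivity)] at this
  unfold atom
  rw [div_le_iff₀ (by positivity), key]
  refine (Finset.sum_le_sum fun y _ => h2 y).trans (le_of_eq ?_)
  rw [Finset.sum_const, nsmul_eq_mul, Finset.card_univ, Fintype.card_fun, Fintype.card_bool]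
  have h3 : Fintype.card {i // i ∉ S} + Fintype.card {i // i ∈ S} = Fintype.card ι := by
    have := Fintype.card_subtype_compl (fun i => i ∈ S)
    have h4 := Fintype.card_subtype_le (fun i => i ∈ S)
    omega
  rw [← h3, pow_add]
  push_cast
  ring

/-- distinct levels: the atom is at most `2 ^ -|ι|` -/
lemma atom_le_inj {ι : Type} [Fintype ι] [DecidableEq ι] {p a : ℕ} (n : ι → ℕ) (l : ι → ℕ)
    (u : ι → ZMod (p ^ a)) (hu : ∀ i, u i = (n i : ZMod (p ^ a))) (hl : Function.Injective l) (hla : ∀ i, l i < a)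
    (h1 : ∀ i, p ^ l i ∣ n i) (h2 : ∀ i, ¬ p ^ (l i + 1) ∣ n i) (c : ZMod (p ^ a)) :
    atom u c ≤ (1 / 2) ^ Fintype.card ι := by
  classical
  have hc : (univ.filter (fun x : ι → Bool => ∑ i, (if x i then u i else 0) = c)).card ≤ 1 := by
    rw [Finset.card_le_one]
    intro x hx y hy
    rw [Finset.mem_filter] at hx hy
    by_contra hne
    have hD : (univ.filter fun i => x i ≠ y i).Nonempty := by
      obtain ⟨i, hi⟩ := Function.ne_iff.1 hne
      exact ⟨i, by simpa using hi⟩
    obtain ⟨j, hj, hmin⟩ := Finset.exists_min_image _ l hD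
    have hj' : x j ≠ y j := by simpa using hj
    have hsum : ((∑ i, ((if x i then (n i : ℤ) else 0) - (if y i then (n i : ℤ) else 0)) : ℤ) : ZMod (p ^ a)) = 0 := by
      have h3 := hx.2.trans hy.2.symm
      simp only [hu] at h3
      push_cast
      rw [Finset.sum_sub_distrib, sub_eq_zero]
      rw [← h3]
    rw [ZMod.intCast_zmod_eq_zero_iff_dvd] at hsum
    have hd : ((p : ℤ) ^ (l j + 1)) ∣ ∑ i, ((if x i then (n i : ℤ) else 0) - (if y i then (n i : ℤ) else 0)) := by
      refine dvd_trans ?_ hsum
      push_cast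
      exact pow_dvd_pow _ (hla j)
    rw [← Finset.add_sum_erase _ _ (Finset.mem_univ j)] at hd
    have hrest : ((p : ℤ) ^ (l j + 1)) ∣ ∑ i ∈ univ.erase j,
        ((if x i then (n i : ℤ) else 0) - (if y i then (n i : ℤ) else 0)) := by
      refine Finset.dvd_sum fun i hi => ?_
      by_cases hxy : x i = y i
      · rw [hxy, sub_self]; exact dvd_zero _
      · have hlt : l j < l i := by
          refine lt_of_le_of_ne (hmin i (by simpa using hxy)) ?_
          intro h
          exact (Finset.mem_erase.1 hi).1 (hl h.symm)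
        have hdi : ((p : ℤ) ^ (l j + 1)) ∣ (n i : ℤ) := by
          have : p ^ (l j + 1) ∣ n i := (pow_dvd_pow _ hlt).trans (h1 i)
          exact_mod_cast this
        refine dvd_sub ?_ ?_
        · split_ifs
          · exact hdi
          · exact dvd_zero _
        · split_ifs
          · exact hdi
          · exact dvd_zero _
    have hj2 := (dvd_add_left hrest).1 hd
    refine h2 j ?_
    have hj3 : ((p : ℤ) ^ (l j + 1)) ∣ (n j : ℤ) := by
      cases hxj : x j <;> cases hyj : y j
      · exact absurd (hxj.trans hyj.symm) hj'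
      · simpa [hxj, hyj] using hj2
      · simpa [hxj, hyj] using hj2
      · exact absurd (hxj.trans hyj.symm) hj'
    exact_mod_cast hj3
  unfold atom
  rw [div_le_iff₀ (by positivity), ← mul_pow]
  norm_num
  exact_mod_cast hc

/-- one level -/
lemma atom_le_level {ι : Type} [Fintype ι] [DecidableEq ι] {p a s : ℕ} (hp : p.Prime) (l : ℕ) (w : ι → ℕ)
    (u : ι → ZMod (p ^ a)) (hu : ∀ i, u i = ((p ^ l * w i : ℕ) : ZMod (p ^ a))) (hla : l + s ≤ a)
    (hw : ∀ i, ¬ p ∣ w i) (c : ZMod (p ^ a)) (hι : 0 < Fintype.card ι) :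
    atom u c ≤ 1 / (p : ℝ) ^ s + 3 / 2 / Real.sqrt (Fintype.card ι) := by
  classical
  have : NeZero (p ^ s) := ⟨pow_ne_zero _ hp.ne_zero⟩
  by_cases hex : ∃ z : ι → Bool, ∑ i, (if z i then u i else 0) = c
  swap
  · have h0 : atom u c = 0 := by
      unfold atom
      rw [Finset.filter_eq_empty_iff.2 (fun z _ hz => hex ⟨z, hz⟩)]
      simp
    rw [h0]; positivity
  obtain ⟨z0, hz0⟩ := hex
  have hsub : (univ.filter (fun x : ι → Bool => ∑ i, (if x i then u i else 0) = c)) ⊆
      univ.filter (fun x : ι → Bool => ∑ i, (if x i then (w i : ZMod (p ^ s)) else 0) =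
        ∑ i, (if z0 i then (w i : ZMod (p ^ s)) else 0)) := by
    intro x hx
    rw [Finset.mem_filter] at hx ⊢
    refine ⟨Finset.mem_univ _, ?_⟩
    have h3 := hx.2.trans hz0.symm
    simp only [hu] at h3
    have hsum : (((p : ℤ) ^ l * (∑ i, ((if x i then (w i : ℤ) else 0) - (if z0 i then (w i : ℤ) else 0))) : ℤ) :
        ZMod (p ^ a)) = 0 := by
      rw [Finset.mul_sum]
      push_cast
      have h4 : ∀ i, ((p : ZMod (p ^ a)) ^ l * ((if x i = true then (w i : ZMod (p ^ a)) else 0) -
          (if z0 i = true then (w i : ZMod (p ^ a)) else 0))) =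
          (if x i = true then (p : ZMod (p ^ a)) ^ l * (w i : ZMod (p ^ a)) else 0) -
          (if z0 i = true then (p : ZMod (p ^ a)) ^ l * (w i : ZMod (p ^ a)) else 0) := by
        intro i
        split_ifs <;> ring
      simp only [h4]
      rw [Finset.sum_sub_distrib, sub_eq_zero]
      push_cast at h3
      exact h3
    rw [ZMod.intCast_zmod_eq_zero_iff_dvd] at hsum
    have hd : ((p : ℤ) ^ s) ∣ ∑ i, ((if x i then (w i : ℤ) else 0) - (if z0 i then (w i : ℤ) else 0)) := by
      have h5 : ((p : ℤ) ^ l * (p : ℤ) ^ s) ∣ (p : ℤ) ^ l * (∑ i, ((if x i then (w i : ℤ) else 0) -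
          (if z0 i then (w i : ℤ) else 0))) := by
        refine dvd_trans ?_ hsum
        push_cast
        rw [← pow_add]
        exact pow_dvd_pow _ hla
      exact (mul_dvd_mul_iff_left (pow_ne_zero _ (by exact_mod_cast hp.ne_zero))).1 h5
    have h6 : ((∑ i, ((if x i then (w i : ℤ) else 0) - (if z0 i then (w i : ℤ) else 0)) : ℤ) : ZMod (p ^ s)) = 0 := by
      rw [ZMod.intCast_zmod_eq_zero_iff_dvd]
      exact_mod_cast hd
    push_cast at h6
    rw [Finset.sum_sub_distrib, sub_eq_zero] at h6
    exact h6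
  have h7 : atom u c ≤ atom (fun i => (w i : ZMod (p ^ s))) (∑ i, (if z0 i then (w i : ZMod (p ^ s)) else 0)) := by
    unfold atom
    have hcc : ((univ.filter (fun x : ι → Bool => ∑ i, (if x i then u i else 0) = c)).card : ℝ) ≤
      ((univ.filter (fun x : ι → Bool => ∑ i, (if x i then (w i : ZMod (p ^ s)) else 0) =
        ∑ i, (if z0 i then (w i : ZMod (p ^ s)) else 0))).card : ℝ) := Nat.cast_le.2 (Finset.card_le_card hsub)
    exact div_le_div_of_nonneg_right hcc (by positivity)
  refine h7.trans ?_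
  have h8 := LOq.atom_le (fun i => (w i : ZMod (p ^ s))) (∑ i, (if z0 i then (w i : ZMod (p ^ s)) else 0)) univ
    (by rwa [Finset.card_univ]) (fun i _ => by
      rw [ZMod.isUnit_iff_coprime]
      exact (Nat.Coprime.pow_right s ((hp.coprime_iff_not_dvd.2 (hw i)).symm)))
  rw [Finset.card_univ] at h8
  push_cast at h8
  exact h8

end Vale.Agent.P160.Half.G.LOpp

namespace Vale.Agent.P160.Half.G

open LOpp LOq

theorem lopp : LOppStmt := by
  intro ι _ _ p a s L t hp hsa hL ht u c hcard
  classical
  have : NeZero (p ^ a) := ⟨pow_ne_zero _ hp.ne_zero⟩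
  have : Fact p.Prime := ⟨hp⟩
  -- heavy coordinates
  set H : Finset ι := univ.filter fun j => ¬ ((p : ZMod (p ^ a)) ^ (a - s) ∣ u j) with hH
  have hHc : t ≤ H.card := by
    rw [Nat.card_eq_fintype_card, Fintype.card_subtype] at hcard
    exact hcard
  set n : ι → ℕ := fun j => (u j).val with hn
  have hun : ∀ j, u j = (n j : ZMod (p ^ a)) := fun j => (ZMod.natCast_zmod_val (u j)).symm
  set l : ι → ℕ := fun j => padicValNat p (n j) with hl
  have hnd : ∀ j ∈ H, ¬ p ^ (a - s) ∣ n j := by
    intro j hj hd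
    rw [hH, Finset.mem_filter] at hj
    refine hj.2 ?_
    obtain ⟨k, hk⟩ := hd
    refine ⟨(k : ZMod (p ^ a)), ?_⟩
    rw [hun j, hk]
    push_cast
    rfl
  have hn0 : ∀ j ∈ H, n j ≠ 0 := fun j hj h0 => hnd j hj (by rw [h0]; exact dvd_zero _)
  have hll : ∀ j ∈ H, l j < a - s := by
    intro j hj
    by_contra hcon
    push Not at hcon
    exact hnd j hj ((pow_dvd_pow _ hcon).trans pow_padicValNat_dvd)
  have hl1 : ∀ j, p ^ l j ∣ n j := fun j => pow_padicValNat_dvd
  have hl2 : ∀ j ∈ H, ¬ p ^ (l j + 1) ∣ n j := fun j hj => pow_succ_padicValNat_not_dvd (hn0 j hj)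
  rcases le_or_gt L (H.image l).card with hcase | hcase
  · -- many levels
    refine le_trans ?_ (le_max_left _ _)
    obtain ⟨T, hT, hTc⟩ := Finset.exists_subset_card_eq hcase
    have hsurj : ∀ i : {i // i ∈ T}, ∃ j ∈ H, l j = i.1 := fun i => Finset.mem_image.1 (hT i.2)
    choose f hf1 hf2 using hsurj
    set S : Finset ι := univ.image f with hS
    have hfinj : Function.Injective f := by
      intro i i' h
      apply Subtype.ext
      rw [← hf2 i, ← hf2 i', h]
    have hSc : S.card = L := by
      rw [hS, Finset.card_image_of_injective _ hfinj, Finset.card_univ, Fintype.card_coe, hTc]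
    have hSH : ∀ j ∈ S, j ∈ H := by
      intro j hj
      obtain ⟨i, _, rfl⟩ := Finset.mem_image.1 hj
      exact hf1 i
    refine atom_le_of_restrict u c S _ fun c' => ?_
    have := atom_le_inj (p := p) (a := a) (fun i : {i // i ∈ S} => n i) (fun i => l i) (fun i => u i) (fun i => hun i)
      ?_ (fun i => lt_of_lt_of_le (hll i (hSH i i.2)) (Nat.sub_le _ _)) (fun i => hl1 i)
      (fun i => hl2 i (hSH i i.2)) c'
    · rwa [Fintype.card_coe, hSc] at this
    · rintro ⟨j, hj⟩ ⟨j', hj'⟩ h
      obtain ⟨i, _, rfl⟩ := Finset.mem_image.1 hj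
      obtain ⟨i', _, rfl⟩ := Finset.mem_image.1 hj'
      have : i = i' := by
        apply Subtype.ext
        rw [← hf2 i, ← hf2 i']
        exact h
      subst this
      rfl
  · -- few levels: one of them is large
    refine le_trans ?_ (le_max_right _ _)
    have hsumc : H.card = ∑ i ∈ H.image l, (H.filter fun j => l j = i).card :=
      Finset.card_eq_sum_card_image l H
    have hex : ∃ i ∈ H.image l, (t : ℝ) / L ≤ ((H.filter fun j => l j = i).card : ℝ) := by
      by_contra hcon
      push Not at hcon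
      have hne : (H.image l).Nonempty := by
        rw [Finset.image_nonempty, ← Finset.card_pos]
        omega
      have h1 : ∑ i ∈ H.image l, ((H.filter fun j => l j = i).card : ℝ) < ∑ _i ∈ H.image l, (t : ℝ) / L :=
        Finset.sum_lt_sum_of_nonempty hne hcon
      rw [Finset.sum_const, nsmul_eq_mul] at h1
      have h2 : (H.card : ℝ) = ∑ i ∈ H.image l, ((H.filter fun j => l j = i).card : ℝ) := by
        exact_mod_cast hsumc
      have h3 : ((H.image l).card : ℝ) ≤ L := by exact_mod_cast hcase.le
      have hL0 : (0 : ℝ) < L := by exact_mod_cast hL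
      have h4 : ((H.image l).card : ℝ) * ((t : ℝ) / L) ≤ t := by
        have : ((H.image l).card : ℝ) * ((t : ℝ) / L) ≤ L * ((t : ℝ) / L) :=
          mul_le_mul_of_nonneg_right h3 (by positivity)
        rwa [mul_div_cancel₀ _ hL0.ne'] at this
      have h5 : (t : ℝ) ≤ H.card := by exact_mod_cast hHc
      linarith
    obtain ⟨i, hi, hic⟩ := hex
    obtain ⟨j0, hj0, hj0i⟩ := Finset.mem_image.1 hi
    have hia : i < a - s := hj0i ▸ hll j0 hj0
    set S := H.filter fun j => l j = i with hS
    have hSpos : 0 < S.card := Finset.card_pos.2 ⟨j0, by rw [hS, Finset.mem_filter]; exact ⟨hj0, hj0i⟩⟩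
    have hSH : ∀ j ∈ S, j ∈ H ∧ l j = i := fun j hj => by
      rw [hS, Finset.mem_filter] at hj; exact hj
    have hbound : ∀ c', atom (fun j : {j // j ∈ S} => u j) c' ≤ 1 / (p : ℝ) ^ s + 3 / 2 / Real.sqrt S.card := by
      intro c'
      have := atom_le_level (a := a) (s := s) hp i (fun j : {j // j ∈ S} => n j / p ^ i) (fun j => u j) ?_ (by omega) ?_ c' ?_
      · rwa [Fintype.card_coe] at this
      · intro j
        rw [hun j]
        congr 1
        rw [Nat.mul_div_cancel']
        rw [← (hSH j j.2).2]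
        exact hl1 j
      · intro j hd
        refine hl2 j (hSH j j.2).1 ?_
        rw [(hSH j j.2).2, pow_succ]
        have h6 : p ^ i ∣ n j := by
          rw [← (hSH j j.2).2]; exact hl1 j
        obtain ⟨k, hk⟩ := h6
        rw [hk, Nat.mul_div_cancel_left _ (pow_pos hp.pos _)] at hd
        rw [hk]
        exact Nat.mul_dvd_mul_left _ hd
      · rw [Fintype.card_coe]; exact hSpos
    refine (atom_le_of_restrict u c S _ hbound).trans ?_
    have hsq : 0 < Real.sqrt ((t : ℝ) / L) := by
      have : (0 : ℝ) < L := by exact_mod_cast hL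
      have ht' : (0 : ℝ) < t := by exact_mod_cast ht
      positivity
    have hs2 : Real.sqrt ((t : ℝ) / L) ≤ Real.sqrt S.card := Real.sqrt_le_sqrt hic
    gcongr

end Vale.Agent.P160.Half.G
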