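import Vale.Agent.P160.Half.GStmt4

/-! # P160, half rate: gap (G), N1 (helper37) -/

namespace Vale.Agent.P160.Half.G

open Filter

theorem cube_le_two_pow : ∀ v : ℕ, 20 ≤ v → 48 * v ^ 3 + 1 ≤ 2 ^ v := by
  intro v hv
  induction v, hv using Nat.le_induction with
  | base => norm_num
  | succ v hv ih =>
    have h1 : (v + 1) ^ 3 ≤ 2 * v ^ 3 := by
      obtain ⟨w, rfl⟩ := Nat.exists_eq_add_of_le hv
      ring_nf
      nlinarith [sq_nonneg w, pow_pos (Nat.succ_pos w) 3]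
    rw [pow_succ 2 v]
    linarith

/-- the numbers in terms of `v` -/
theorem num1_aux {v n A J m s₀ : ℕ} (h1 : 2 ^ (10 * v) ≤ n) (h2 : n ≤ 2 ^ (10 * v + 10))
    (hv : m + s₀.factorial + J + A + 20 ≤ v) :
    m ≤ v ∧ s₀.factorial < 2 ^ v ∧ v ≤ (2 ^ v) ^ 3 ∧ m * (v * (2 ^ v) ^ 2 + m) ≤ n ∧
    (v * (2 ^ v) ^ 2 + J).factorial * (n ^ A) ^ (v * (2 ^ v) ^ 2 + J) < 2 ^ ((2 ^ v) ^ 3 - v) ∧
    2 * 2 ^ v ≤ 2 ^ ((2 ^ v) ^ 3) := by
  have hc := cube_le_two_pow v (by omega)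
  have hvy : v < 2 ^ v := Nat.lt_two_pow_self
  set y := 2 ^ v with hy
  have hy1 : 1 ≤ y := Nat.one_le_two_pow
  have hy4 : 0 < y ^ 4 := pow_pos (Nat.lt_of_lt_of_le Nat.one_pos hy1) 4
  have hy2 : y ≤ y ^ 2 := by nlinarith
  have hy3 : y ^ 2 ≤ y ^ 3 := by nlinarith
  refine ⟨by omega, by omega, by omega, ?_, ?_, ?_⟩
  · have h3 : y ^ 10 ≤ n := by rw [hy, ← pow_mul, mul_comm v 10]; exact h1
    have hm : m ≤ v := by omega
    have h4 : m * (v * y ^ 2 + m) ≤ y * (y * y ^ 2 + y) :=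
      Nat.mul_le_mul (by omega) (Nat.add_le_add (Nat.mul_le_mul_right _ hvy.le) (by omega))
    have h5 : y * (y * y ^ 2 + y) ≤ 2 * y ^ 4 := by nlinarith [Nat.pow_le_pow_right hy1 (show 2 ≤ 4 by norm_num)]
    have h6 : 2 * y ^ 4 ≤ y ^ 5 := by
      rw [pow_succ y 4]; nlinarith [hy4]
    have h7 : y ^ 5 ≤ y ^ 10 := Nat.pow_le_pow_right hy1 (by norm_num)
    omega
  · set t := v * y ^ 2 with ht
    have hJ : J ≤ v := by omega
    have hA : A ≤ v := by omega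
    have h3 : t + J ≤ 2 * v * y ^ 2 := by
      have : J ≤ v * y ^ 2 := hJ.trans (Nat.le_mul_of_pos_right _ (by positivity))
      rw [ht]; nlinarith
    have h3' : t + J ≤ 2 ^ (3 * v + 1) := by
      refine h3.trans ?_
      have : 2 ^ (3 * v + 1) = 2 * y ^ 3 := by rw [pow_succ, mul_comm 3 v, pow_mul, ← hy, mul_comm]
      rw [this]
      have : v * y ^ 2 ≤ y ^ 3 := by
        rw [show y ^ 3 = y * y ^ 2 by ring]; exact Nat.mul_le_mul_right _ hvy.le
      nlinarith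
    have h4 : (t + J).factorial ≤ (2 ^ (3 * v + 1)) ^ (t + J) :=
      (Nat.factorial_le_pow _).trans (Nat.pow_le_pow_left h3' _)
    have h5 : (n ^ A) ^ (t + J) ≤ ((2 ^ (10 * v + 10)) ^ A) ^ (t + J) :=
      Nat.pow_le_pow_left (Nat.pow_le_pow_left h2 _) _
    have h6 : (t + J).factorial * (n ^ A) ^ (t + J) ≤ 2 ^ ((3 * v + 1 + (10 * v + 10) * A) * (t + J)) := by
      refine (Nat.mul_le_mul h4 h5).trans (le_of_eq ?_)
      rw [← mul_pow, ← pow_mul, ← pow_add, ← pow_mul]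
    refine h6.trans_lt (Nat.pow_lt_pow_right (by norm_num) ?_)
    have h7 : 3 * v + 1 + (10 * v + 10) * A ≤ 24 * v ^ 2 := by
      have : (10 * v + 10) * A ≤ (10 * v + 10) * v := Nat.mul_le_mul_left _ hA
      nlinarith
    have h8 : (3 * v + 1 + (10 * v + 10) * A) * (t + J) ≤ 24 * v ^ 2 * (2 * v * y ^ 2) := Nat.mul_le_mul h7 h3
    have h9 : 24 * v ^ 2 * (2 * v * y ^ 2) = (48 * v ^ 3) * y ^ 2 := by ring
    have h10 : (48 * v ^ 3 + 1) * y ^ 2 ≤ y * y ^ 2 := Nat.mul_le_mul_right _ hc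
    have h11 : y * y ^ 2 = y ^ 3 := by ring
    have h12 : (48 * v ^ 3 + 1) * y ^ 2 = (48 * v ^ 3) * y ^ 2 + y ^ 2 := by ring
    omega
  · rw [← pow_succ', ]
    exact Nat.pow_le_pow_right (by norm_num) (by omega)

theorem num1 : Num1 := by
  intro J A s₀ m
  filter_upwards [eventually_ge_atTop (2 ^ (10 * (m + s₀.factorial + J + A + 20)))] with n hn
  have hn0 : n ≠ 0 := by
    have : 0 < 2 ^ (10 * (m + s₀.factorial + J + A + 20)) := by positivity
    omega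
  have hL : 10 * (m + s₀.factorial + J + A + 20) ≤ Nat.log 2 n := Nat.le_log_of_pow_le (by norm_num) hn
  have h1 : 2 ^ (10 * pv n) ≤ n := by
    refine le_trans (Nat.pow_le_pow_right (by norm_num) ?_) (Nat.pow_log_le_self 2 hn0)
    unfold pv; omega
  have h2 : n ≤ 2 ^ (10 * pv n + 10) := by
    refine (Nat.lt_pow_succ_log_self (by norm_num) n).le.trans (Nat.pow_le_pow_right (by norm_num) ?_)
    unfold pv; omega
  exact num1_aux h1 h2 (by unfold pv; omega)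

end Vale.Agent.P160.Half.G
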