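import Vale.Agent.P160.Half.GAsmC603
import Vale.Agent.P160.Half.Rows2
import Vale.Agent.P160.Half.Core
import Vale.Agent.P160.Half.NoSp2
import Vale.Agent.P160.Half.NoSpZ
import Vale.Agent.P160.Half.KZ1
import Vale.Agent.P160.Half.KZA2
import Vale.Agent.P160.Half.LOpp
import Vale.Agent.P160.Half.RC
import Vale.Agent.P160.Half.Num1
import Vale.Agent.P160.Half.Num3
import Vale.Agent.P160.Half.Num4
import Vale.Agent.P160.Half.Num5

/-! # P160, half rate: gap (G): `B0Prop` and `B1Prop` (helper603) -/

namespace Vale.Agent.P160.Half.G.C603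

open GA126

theorem b0 : B0Prop := b0_of num1 num3 (ns2 (core2 rows2))

theorem b1 : B1Prop := b1_of num1 num4 num5 (kz1 rows2 (core2 rows2) nsz) (kza2 rows2 lopp) nsz rc

end Vale.Agent.P160.Half.G.C603
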