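import Vale.Agent.P160.Half.GAsm319

/-! # P160, half rate: gap (G), assembly of `StmtG`, final theorem (helper319) -/

set_option linter.unusedVariables false

open Finset Matrix Filter

namespace Vale.Agent.P160.Half.G.Asm319

open Vale.Agent.P160.Half Vale.Agent.P160.Half.G Vale.Agent.P160.Half.A Vale.Agent.P160.Half.A.T984 Labels

/-- the numbers needed for one `n` -/
structure Good (n J C A₀ s₀ s₁ : ℕ) (t₀ m : ℕ) (ε : ℝ) : Prop where
  n1 : 1 ≤ n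
  n1m : m ≤ pv n
  n1s : (max s₀ (J + 2)).factorial < py n
  n1a : pv n ≤ pa n
  n1r : m * (pt n + m) ≤ n
  n1f : (pt n + J).factorial * (n ^ A₀) ^ (pt n + J) < 2 ^ (pa n - pv n)
  n1y : 2 * py n ≤ 2 ^ pa n
  n2 : ((((2 ^ pa n + 1) * (n * (2 ^ pa n + 1)) ^ pt n * (2 ^ pa n + 1) ^ J + 1) ^ J : ℕ) : ℝ) ≤ 2 ^ (ε * n)
  n3q : 1 / (py n : ℝ) + 3 / 2 / Real.sqrt (s₀ + 1) ≤ 1
  n3 : ((pt n : ℝ) + 1) ^ 2 * 8 ^ n * (1 / (py n : ℝ) + 3 / 2 / Real.sqrt (s₀ + 1)) ^ (n - 3 * pt n) ≤ 2 ^ (-(C * n : ℝ))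
  n4 : ∀ ρ ≤ J, 1 / (py n : ℝ) + 3 / 2 / Real.sqrt (pt n + 1) ≤ 1 ∧
    3 * ((n ^ A₀ : ℕ) : ℝ) * ((n : ℝ) + ρ) ^ 2 * 8 ^ n * (1 / (py n : ℝ) + 3 / 2 / Real.sqrt (pt n + 1)) ^ (pz (4 * (C + 10)) n - 2 * (pk C n + ρ)) ≤ 2 ^ (-(C * n : ℝ))
  n5 : ∀ ρ ≤ J, max ((1 / 2) ^ pv n) (1 / (2 : ℝ) ^ pv n + 3 / 2 / Real.sqrt (pt n / pv n)) ≤ 1 ∧
    (py n : ℝ) * 4 ^ n * (max ((1 / 2) ^ pv n) (1 / (2 : ℝ) ^ pv n + 3 / 2 / Real.sqrt (pt n / pv n))) ^ (pz (4 * (C + 10)) n - pa n * (pk C n + ρ)) ≤ 2 ^ (-(C * n : ℝ))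
  n6 : ∀ ρ ≤ J, ((ρ : ℝ) + 1) *
      ((Real.logb 2 n.factorial + 2 * ρ * (ρ * pa n) * py n * Real.logb 2 (py n + 1)) *
          ((1 / 2) ^ s₁ * (ρ * pz (4 * (C + 10)) n / n) + (ρ * pz (4 * (C + 10)) n / n) ^ 2) +
        2 * (ρ * (2 * (J + 2) * n * Real.logb 2 n)) *
          ((1 / 2) ^ s₁ * (ρ * pz (4 * (C + 10)) n / n) + ρ * (ρ * pz (4 * (C + 10)) n / n) ^ 2)) ≤ (n : ℝ) / 2
  n7 : ∀ ρ ≤ J, Real.logb 2 (((ρ + 1).factorial * ((ρ + 1) * (n * n.factorial * n ^ A₀)) ^ (ρ + 1) : ℕ) : ℝ) ≤ 2 * (J + 2) * n * Real.logb 2 n ∧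
    Real.logb 2 (n.factorial * (ρ.factorial * ((n : ℝ) ^ (A₀ : ℝ)) ^ ρ) ^ 2) ≤ 2 * n * Real.logb 2 n ∧
    (n : ℝ) + 6 * (2 * n * Real.logb 2 n) / Real.logb 2 (py n) + py n * (4 + 2 * Real.logb 2 (2 * n * Real.logb 2 n + 1) +
      2 * ρ * (ρ * pa n) * (pk C n + ρ : ℕ) * Real.logb 2 (py n)) ≤ 200 * n

theorem ev_le {J : ℕ} {P : ℕ → ℕ → Prop} (h : ∀ ρ ≤ J, ∀ᶠ n : ℕ in atTop, P ρ n) : ∀ᶠ n : ℕ in atTop, ∀ ρ ≤ J, P ρ n := by
  have h1 : ∀ ρ ∈ Finset.Iic J, ∀ᶠ n : ℕ in atTop, P ρ n := fun ρ hρ => h ρ (Finset.mem_Iic.1 hρ)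
  have h2 := (Filter.eventually_all_finset (Finset.Iic J)).2 h1
  filter_upwards [h2] with n hn ρ hρ using hn ρ (Finset.mem_Iic.2 hρ)

theorem good_ev (N1 : Num1) (N2 : Num2) (N4 : Num4) (N5 : Num5) (N6 : Num6) (N7 : Num7)
    (J C A₀ s₀ s₁ t₀ m : ℕ) (ε : ℝ) (hε : 0 < ε) (hs : 10 ^ 6 * (C + 10) * (J + 2) ^ 4 ≤ 2 ^ s₁)
    (hs₀ : ∀ᶠ n : ℕ in atTop, 1 / (py n : ℝ) + 3 / 2 / Real.sqrt (s₀ + 1) ≤ 1 ∧
      ((pt n : ℝ) + 1) ^ 2 * 8 ^ n * (1 / (py n : ℝ) + 3 / 2 / Real.sqrt (s₀ + 1)) ^ (n - 3 * pt n) ≤ 2 ^ (-(C * n : ℝ))) :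
    ∀ᶠ n : ℕ in atTop, Good n J C A₀ s₀ s₁ t₀ m ε := by
  filter_upwards [N1 J A₀ (max s₀ (J + 2)) m, N2 J ε hε, hs₀, ev_le (N4 C J A₀), ev_le (N5 C J), ev_le (N6 C J s₁ hs),
    ev_le (N7 C J A₀), eventually_ge_atTop 1] with n h1 h2 h3 h4 h5 h6 h7 h8
  exact ⟨h8, h1.1, h1.2.1, h1.2.2.1, h1.2.2.2.1, h1.2.2.2.2.1, h1.2.2.2.2.2, h2, h3.1, h3.2, h4, h5, h6, h7⟩

/-- the deterministic core for one `(b, F)` -/
theorem det_part (hDet : DetStmt) {n l M C A₀ s₀ s₁ t₀ m : ℕ} {ε A δ D : ℝ} (hδ : δ = 1 / (16 * (((2 * l * M : ℕ) : ℝ) + 1)))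
    (hG : Good n (2 * l * M) C A₀ s₀ s₁ t₀ m ε) (hm : 16 * (2 * l * M + 1) ^ 2 ≤ m) (hm1 : 1 ≤ m) (hA : A ≤ A₀)
    (b : Bits n) (E : Finset (Fin n)) (a : Fin n → ℤ) (ha : ∀ j, |a j| ≤ ((n ^ A₀ : ℕ) : ℤ)) (F : Fin n → Co l M → Bool)
    (I : Finset (Co l M)) (Av : Finset (Fin n)) (hAv : Av.card ≤ 2 * l * M * pt n + 2 * l * M)
    (L : Submodule ℤ (Fin n → ℚ)) (hL : Over (matZ b) L) (hdet : (matZ b).det ≠ 0)
    (hq : ∀ q, dual (matZ b) (ent E a F q) ∈ L ∧ BdQ ((n : ℝ) ^ A) (dual (matZ b) (ent E a F q)))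
    (hkz : KZ (matZ b) (FI E a F I) (py n) (pa n) (pz (4 * (C + 10)) n)) (hcor : CorLt (matZ b) (pk C n))
    (hrc : ∀ c : I → ℝ, (∀ q, |c q| ≤ 1) → (∃ q, |c q| = 1) →
      ((Set.ncard {j : Fin n | |∑ q, c q * ((gF (matZ b) (FI E a F I) q j : ℚ) : ℝ)| < (n : ℝ) ^ (-D)} : ℕ) : ℝ) ≤ δ * n) :
    ∃ R : I → Fin n, Function.Injective R ∧ (∀ i, R i ∉ Av) ∧
      (n : ℝ) ^ (-(|D| * (2 * l * M : ℕ))) ≤ |((minor R (gs (matZ b) E a F I) : ℚ) : ℝ)| ∧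
      ∃ c : Fin s₁ → I → Bool, newL (LF (matZ b) E a F I) R (gs (matZ b) E a F I) ∈
        LabSet n s₁ (Fintype.card I) (py n) (pa n) (pk C n + Fintype.card I) (2 * n * Real.logb 2 n) n
          (newP (matZ b) R (gs (matZ b) E a F I)) (fun t => newH (matZ b) R (gs (matZ b) E a F I) (c t)) := by
  have hn : 1 ≤ n := hG.n1
  have hnR : (1 : ℝ) ≤ n := by exact_mod_cast hn
  have hcard := card_I_le I
  have hX1 : 1 ≤ n ^ A₀ := Nat.one_le_pow _ _ hn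
  have hfac2 : 2 ≤ (max s₀ (2 * l * M + 2)).factorial := by
    calc 2 = Nat.factorial 2 := rfl
      _ ≤ _ := Nat.factorial_le (le_trans (by omega) (le_max_right _ _))
  have hy2 : 2 ≤ py n := le_trans hfac2 hG.n1s.le
  have hv1 : 1 ≤ pv n := le_trans hm1 hG.n1m
  have ha1 : 1 ≤ pa n := le_trans hv1 hG.n1a
  have h7 := hG.n7 _ hcard
  have hd := hDet n I b (FI E a F I) (n ^ A₀) (py n) (pa n) (pz (4 * (C + 10)) n) (pk C n) (⌊δ * n⌋₊) s₁ ((n : ℝ) ^ (-D))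
    ((n : ℝ) ^ (A₀ : ℝ)) (2 * n * Real.logb 2 n) n (2 * ((2 * l * M : ℕ) + 2) * n * Real.logb 2 n) Av
    (by omega) hX1 ha1 hy2 (Real.rpow_pos_of_pos (by linarith) _) (Real.one_le_rpow hnR (Nat.cast_nonneg _)) (by linarith) hdet
    (fun j q => FI_le E a F I _ hX1 ha j q)
    (fun i k => hL.int _ (hq i).1 _ (hq k).1)
    (fun q => bdQ_mono (hq q).2 (Real.rpow_le_rpow_of_exponent_le hnR hA)) hkz hcor
    (fun c h1 h2 => Nat.le_floor (hrc c h1 h2))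
    ?_ h7.1 h7.2.1 (hG.n6 _ hcard)
  · obtain ⟨R, hinj, hR, hmin, c, hc⟩ := hd
    refine ⟨R, hinj, hR, (minor_low hn hcard).trans ?_, c, ?_⟩
    · rw [gs_eq]; exact hmin
    · rw [gs_eq, LF_eq]; exact hc
  · refine room hm hG.n1r hcard hAv ?_
    have h0 : 0 ≤ δ * n := by rw [hδ]; positivity
    refine (Nat.floor_le h0).trans (le_of_eq ?_)
    rw [hδ]

open Classical in
theorem gasm (hNS : NSStmt) (hNSZ : NSZStmt) (hKZ1 : KZ1Stmt2) (hKZA : KZAStmt2) (hRC : RCStmt) (hCount : CountStmt)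
    (hDet : DetStmt) (N1 : Num1) (N2 : Num2) (N3 : Num3) (N4 : Num4) (N5 : Num5) (N6 : Num6) (N7 : Num7) (N8 : Num8) :
    StmtG := by
  refine ⟨200, fun M hM => ?_⟩
  obtain ⟨l₁, hl₁⟩ := N8 M hM
  refine ⟨max l₁ 1, fun l hl => ?_⟩
  have hl1 : 1 ≤ l := le_trans (le_max_right _ _) hl
  obtain ⟨s₁, hs1, hs2⟩ := hl₁ l (le_trans (le_max_left _ _) hl)
  refine ⟨s₁, hs1, fun A ε hε => ?_⟩
  have hAA : A ≤ (⌈A⌉₊ : ℝ) := Nat.le_ceil A
  generalize ⌈A⌉₊ = A₀ at hAA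
  obtain ⟨s₀, hs₀⟩ := N3 (10 * l * M)
  obtain ⟨t₀, D, n₁, hRC'⟩ := hRC (2 * l * M) A₀ ((10 * l * M : ℕ) : ℝ) (1 / (16 * (((2 * l * M : ℕ) : ℝ) + 1))) (by positivity)
  have hev := good_ev N1 N2 N4 N5 N6 N7 (2 * l * M) (10 * l * M) A₀ s₀ s₁ t₀ (16 * (2 * l * M + 1) ^ 2 + t₀ + 1) ε hε hs2 hs₀
  obtain ⟨n₂, hn₂⟩ := eventually_atTop.1 hev
  refine ⟨|D| * (2 * l * M : ℕ), max n₁ n₂, fun n hn => ?_⟩
  have hG := hn₂ n (le_trans (le_max_right _ _) hn)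
  have hnR1 : n₁ ≤ n := le_trans (le_max_left _ _) hn
  have hn1 : 1 ≤ n := hG.n1
  have hnR : (1 : ℝ) ≤ n := by exact_mod_cast hn1
  have hX1 : 1 ≤ n ^ A₀ := Nat.one_le_pow _ _ hn1
  have hv1 : 1 ≤ pv n := le_trans (by omega) hG.n1m
  have hyJ : (2 * l * M).factorial < py n :=
    lt_of_le_of_lt (Nat.factorial_le (le_trans (by omega) (le_max_right _ _))) hG.n1s
  have hys : s₀.factorial < py n := lt_of_le_of_lt (Nat.factorial_le (le_max_left _ _)) hG.n1s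
  have hfac2 : 2 ≤ (max s₀ (2 * l * M + 2)).factorial := by
    calc 2 = Nat.factorial 2 := rfl
      _ ≤ _ := Nat.factorial_le (le_trans (by omega) (le_max_right _ _))
  have hy2 : 2 ≤ py n := le_trans hfac2 hG.n1s.le
  have ha1 : 1 ≤ pa n := le_trans hv1 hG.n1a
  have hpt : pv n ≤ pt n := by
    unfold pt
    exact Nat.le_mul_of_pos_right _ (by positivity)
  have hlog : 0 ≤ Real.logb 2 (n : ℝ) := Real.logb_nonneg (by norm_num) hnR
  -- types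
  obtain ⟨T, hTc, hTok, hT⟩ := exists_types n l M (py n) (pt n) (2 ^ pa n) (n ^ A₀) (by omega) hyJ hG.n1y hX1
    (le_trans hG.n1f.le (Nat.pow_le_pow_right (by norm_num) (Nat.sub_le _ _)))
  refine ⟨T, univ.filter (fun b => Sp (py n) (pt n) b ∨ ¬ CorLt (matZ b) (pk (10 * l * M) n)), ?_, fun τ hτ => (hTok τ hτ).1, ?_, ?_⟩
  · refine le_trans ?_ hG.n2
    exact_mod_cast hTc
  · -- count of B0
    have h1 := card_Sp hNS n (10 * l * M) s₀ (py n) (pt n) hys hG.n3q hG.n3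
    have h2 := card_Cor n (10 * l * M) (pk (10 * l * M) n) hn1 (by
      unfold pk
      have := Nat.lt_succ_sqrt (2 * (10 * l * M + 12) * n)
      rw [Nat.succ_eq_add_one] at this
      nlinarith)
    rw [filter_or]
    have h3 := card_union_le (univ.filter (Sp (n := n) (py n) (pt n))) (univ.filter (fun b : Bits n => ¬ CorLt (matZ b) (pk (10 * l * M) n)))
    have h4 : (((univ.filter (Sp (n := n) (py n) (pt n))) ∪ (univ.filter (fun b : Bits n => ¬ CorLt (matZ b) (pk (10 * l * M) n)))).card : ℝ) ≤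
        3 * (2 ^ (-(((10 * l * M : ℕ) : ℝ) * n)) * 2 ^ Fintype.card (Sym2 (Fin n))) := by
      have h5 : (((univ.filter (Sp (n := n) (py n) (pt n))) ∪ (univ.filter (fun b : Bits n => ¬ CorLt (matZ b) (pk (10 * l * M) n)))).card : ℝ) ≤
        ((univ.filter (Sp (n := n) (py n) (pt n))).card : ℝ) + ((univ.filter (fun b : Bits n => ¬ CorLt (matZ b) (pk (10 * l * M) n))).card : ℝ) := by
        exact_mod_cast h3
      have h6 : (0 : ℝ) ≤ 2 ^ (-(((10 * l * M : ℕ) : ℝ) * n)) * 2 ^ Fintype.card (Sym2 (Fin n)) := by positivity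
      linarith
    refine h4.trans ?_
    have h7 := num_final l M n (10 * l * M) rfl hl1 hM hn1 (2 ^ Fintype.card (Sym2 (Fin n))) (by positivity)
    have h8 : (1 : ℝ) ≤ 2 ^ (2 * l * M) := one_le_pow₀ (by norm_num)
    have h9 : (0 : ℝ) < 2 ^ (2 * l * M * n) := by positivity
    have h10 : (0 : ℝ) ≤ 3 * (2 ^ (-(((10 * l * M : ℕ) : ℝ) * n)) * 2 ^ Fintype.card (Sym2 (Fin n))) := by positivity
    have h11 : (2 : ℝ) ^ (2 * l * M * n) * (3 * (2 ^ (-(((10 * l * M : ℕ) : ℝ) * n)) * 2 ^ Fintype.card (Sym2 (Fin n)))) ≤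
        2 ^ (2 * l * M * n) * (2 ^ (-(5 * l * M * n) : ℝ) * 2 ^ Fintype.card (Sym2 (Fin n))) := by
      calc _ ≤ (2 : ℝ) ^ (2 * l * M * n) * (2 ^ (2 * l * M) * (3 * (2 ^ (-(((10 * l * M : ℕ) : ℝ) * n)) * 2 ^ Fintype.card (Sym2 (Fin n))))) :=
            mul_le_mul_of_nonneg_left (le_mul_of_one_le_left h10 h8) h9.le
        _ ≤ _ := h7
        _ = _ := by ring
    exact le_of_mul_le_mul_left h11 h9
  · intro E a hE ha
    have hav : ∀ j, |a j| ≤ ((n ^ A₀ : ℕ) : ℤ) := fun j => le_natpow hn1 hAA (ha j)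
    have hFI : ∀ (F : Fin n → Co l M → Bool) (I : Finset (Co l M)) (i : Fin n) (j : I), |FI E a F I i j| ≤ ((n ^ A₀ : ℕ) : ℤ) :=
      fun F I i j => FI_le E a F I _ hX1 hav i j
    have hFR : ∀ (F : Fin n → Co l M → Bool) (I : Finset (Co l M)) (i : Fin n) (j : I), |((FI E a F I i j : ℤ) : ℝ)| ≤ (n : ℝ) ^ (A₀ : ℝ) := by
      intro F I i j
      have := hFI F I i j
      rw [Real.rpow_natCast]
      have h2 : ((|FI E a F I i j| : ℤ) : ℝ) ≤ (((n ^ A₀ : ℕ) : ℤ) : ℝ) := by exact_mod_cast this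
      push_cast at h2
      exact h2
    choose BR hBR1 hBR2 using fun (F : Fin n → Co l M → Bool) (I : Finset (Co l M)) =>
      hRC' n hnR1 I (card_I_le I) (FI E a F I) (hFR F I)
    set T' : (Fin n → Co l M → Bool) → Finset (Co l M) → Finset (Bits n) := fun F I =>
      univ.filter (Bad1 (FI E a F I) (py n) (pt n) (pz (4 * (10 * l * M + 10)) n) (pk (10 * l * M) n)) ∪
        (univ.filter (Bad2 (FI E a F I) (py n) (pa n) (pt n) (pz (4 * (10 * l * M + 10)) n) (pk (10 * l * M) n)) ∪ BR F I) with hT'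
    refine ⟨univ.filter (fun bF => ∃ I, bF.1 ∈ T' bF.2 I), fun τ R M' h =>
      (hCount n s₁ (Fintype.card τ.I) (py n) (pa n) (pk (10 * l * M) n + Fintype.card τ.I) (2 * n * Real.logb 2 n) n M' h hy2 ha1
        (by linarith) (by positivity)).1.toFinset, ?_, ?_, ?_⟩
    · -- count of B1
      have h1 : ∀ F I, ((T' F I).card : ℝ) ≤ 3 * (2 ^ (-(((10 * l * M : ℕ) : ℝ) * n)) * 2 ^ Fintype.card (Sym2 (Fin n))) := by
        intro F I
        have e1 := card_Bad1 hKZ1 n (10 * l * M) (2 * l * M) A₀ (py n) (pt n) (pz (4 * (10 * l * M + 10)) n) (pk (10 * l * M) n)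
          (FI E a F I) (n ^ A₀) hX1 (hFI F I) hy2 (hG.n4 _ (card_I_le I)).1 (hG.n4 _ (card_I_le I)).2
        have hfac : (pt n + Fintype.card I).factorial * (n ^ A₀) ^ (pt n + Fintype.card I) < 2 ^ (pa n - pv n) := by
          refine lt_of_le_of_lt ?_ hG.n1f
          exact Nat.mul_le_mul (Nat.factorial_le (by have := card_I_le I; omega))
            (Nat.pow_le_pow_right (by omega) (by have := card_I_le I; omega))
        have e2 := card_Bad2 hKZA n (10 * l * M) (py n) (pa n) (pv n) (pv n) (pt n) (pz (4 * (10 * l * M + 10)) n) (pk (10 * l * M) n)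
          (FI E a F I) (n ^ A₀) hX1 (hFI F I) hG.n1a hv1 (le_trans hv1 hpt) hfac (hG.n5 _ (card_I_le I)).1 (hG.n5 _ (card_I_le I)).2
        have e3 := hBR1 F I
        have e4 : ((T' F I).card : ℝ) ≤
            ((univ.filter (Bad1 (FI E a F I) (py n) (pt n) (pz (4 * (10 * l * M + 10)) n) (pk (10 * l * M) n))).card : ℝ) +
            (((univ.filter (Bad2 (FI E a F I) (py n) (pa n) (pt n) (pz (4 * (10 * l * M + 10)) n) (pk (10 * l * M) n))).card : ℝ) +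
              ((BR F I).card : ℝ)) := by
          have := (card_union_le (univ.filter (Bad1 (FI E a F I) (py n) (pt n) (pz (4 * (10 * l * M + 10)) n) (pk (10 * l * M) n)))
            (univ.filter (Bad2 (FI E a F I) (py n) (pa n) (pt n) (pz (4 * (10 * l * M + 10)) n) (pk (10 * l * M) n)) ∪ BR F I)).trans
            (Nat.add_le_add_left (card_union_le _ _) _)
          exact_mod_cast this
        linarith
      have h2 := card_union_FI _ (by positivity) (univ.filter (fun bF : Bits n × (Fin n → Co l M → Bool) => ∃ I, bF.1 ∈ T' bF.2 I)) T'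
        (fun bF hbF => (mem_filter.1 hbF).2) h1
      refine h2.trans ?_
      rw [pow_add]
      exact num_final l M n (10 * l * M) rfl hl1 hM hn1 (2 ^ Fintype.card (Sym2 (Fin n))) (by positivity)
    · -- number of labels
      intro τ R M' h
      have hc := (hCount n s₁ (Fintype.card τ.I) (py n) (pa n) (pk (10 * l * M) n + Fintype.card τ.I) (2 * n * Real.logb 2 n) n M' h hy2 ha1
        (by linarith) (by positivity))
      rw [← Set.ncard_eq_toFinset_card _ hc.1]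
      refine hc.2.trans ?_
      exact Real.rpow_le_rpow_of_exponent_le (by norm_num) (hG.n7 _ (card_I_le τ.I)).2.2
    · -- the deterministic part
      intro b hb hdet F hbF hRel L hL hq
      rw [mem_filter] at hb
      push Not at hb
      obtain ⟨hb1, hb2⟩ := hb (mem_univ _)
      rw [mem_filter] at hbF
      push Not at hbF
      have hbF' := hbF (mem_univ _)
      have hNSK : NSK b (py n) (pt n) := by
        intro p hp hyp g hg hker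
        by_contra hlt
        exact hb1 ⟨hdet, p, hp, hyp, g, hg, hker, not_lt.1 hlt⟩
      obtain ⟨τ, hτ, hfit, hnsp⟩ := hT E a hav b hNSK F hRel
      have hI := hbF' τ.I
      simp only [hT', mem_union, mem_filter, mem_univ, true_and, not_or] at hI
      obtain ⟨hI1, hI2, hI3⟩ := hI
      have hnsz : NoSparseZ (matZ b) (FI E a F τ.I) (pt n) := hNSZ _ _ _ _ _ _ hnsp
      have hkz := kz_of_bad hb2 hnsp hnsz hI1 hI2
      have hrc := hBR2 F τ.I b hI3 hdet (noSparseZ_mono hnsz (by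
          have := hG.n1m
          omega)) (fun q => bdQ_mono (hq q).2 (Real.rpow_le_rpow_of_exponent_le hnR hAA))
      have hAv : (τ.S ∪ E).card ≤ 2 * l * M * pt n + 2 * l * M :=
        (card_union_le _ _).trans (Nat.add_le_add (hTok τ hτ).2 hE)
      obtain ⟨R, hinj, hR, hmin, c, hc⟩ := det_part hDet rfl hG (by omega) (by omega) hAA b E a hav F τ.I (τ.S ∪ E) hAv L hL hdet hq
        hkz hb2 hrc
      refine ⟨τ, hτ, hfit, R, hinj, fun i => ?_, hmin, c, ?_⟩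
      · have := hR i
        rw [mem_union, not_or] at this
        exact this
      · rw [Set.Finite.mem_toFinset]
        exact hc

end Vale.Agent.P160.Half.G.Asm319
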