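import Vale.Agent.P160.Half.GStmt3
import Vale.Agent.P160.Half.Types984

/-! # P160, half rate: gap (G), assembly of `StmtG` (G13): statements (helper609) -/

set_option linter.unusedVariables false

open Finset Matrix

namespace Vale.Agent.P160.Half.G13

open A G Labels

/-- the columns of a type as a matrix -/
def Fm {n l M : ℕ} (E : Finset (Fin n)) (a : Fin n → ℤ) (F : Fin n → Co l M → Bool) (I : Finset (Co l M)) :
    Matrix (Fin n) I ℤ := fun j q => ent E a F q j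

/-- the lattice of a subgroup of the cokernel -/
def pull {n : ℕ} (M' : Matrix (Fin n) (Fin n) ℤ) (Q : AddSubgroup (Coker M')) : Submodule ℤ (Fin n → ℚ) where
  carrier := {v | ∃ w : Fin n → ℤ, M'.map (Int.cast : ℤ → ℚ) *ᵥ v = (fun j => (w j : ℚ)) ∧ (QuotientAddGroup.mk w : Coker M') ∈ Q}
  add_mem' := by
    rintro v v' ⟨w, hw, hq⟩ ⟨w', hw', hq'⟩
    refine ⟨w + w', ?_, ?_⟩
    · rw [mulVec_add, hw, hw']; funext j; simp
    · rw [QuotientAddGroup.mk_add]; exact Q.add_mem hq hq'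
  zero_mem' := ⟨0, by rw [mulVec_zero]; funext j; simp, by
    rw [QuotientAddGroup.mk_zero]; exact Q.zero_mem⟩
  smul_mem' := by
    rintro c v ⟨w, hw, hq⟩
    refine ⟨c • w, ?_, ?_⟩
    · rw [mulVec_smul, hw]; funext j; simp
    · have h : (QuotientAddGroup.mk (c • w) : Coker M') = c • (QuotientAddGroup.mk w : Coker M') := rfl
      rw [h]; exact Q.zsmul_mem hq c

/-- **N1** -/
def N1Stmt : Prop := ∀ (n l M : ℕ) (P : Matrix (Fin n) (Fin n) ℤ) (E : Finset (Fin n)) (a : Fin n → ℤ)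
  (F : Fin n → Co l M → Bool) (I : Finset (Co l M)), LF P E a F I = LFg P (Fm E a F I)

/-- **N3** lattice side: `newL L_F` is the lattice of the subgroup `Q` generated by the `x_i`, and `Q` is isotropic. PROOF. `v ∈ newL L_F` iff
`cob v ∈ L_F`; `M' v = cobᵀ P cob v` is integral (`P L_F ⊆ ℤ^n`, Gram integers); then `hmem`; conversely `M'` is injective. Isotropy: for `[w], [w'] ∈ Q`,
`w = M' v`, `w' = M' v'`, `w ⬝ adj(M') w' = det · v ⬝ M' v'` and `v ⬝ M' v' = (cob v) ⬝ P (cob v') ∈ ℤ` (`Over.int`, `L_F ≤ L`). -/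
def N3Stmt : Prop := ∀ (n : ℕ) (β : Type) [Fintype β] [DecidableEq β] (b : Bits n) (F : Matrix (Fin n) β ℤ) (L : Submodule ℤ (Fin n → ℚ))
  (R : β → Fin n) (M' : Matrix (Fin n) (Fin n) ℤ) (hz : β → Fin n → ℤ), (matZ b).det ≠ 0 → Over (matZ b) L → (∀ q, gF (matZ b) F q ∈ L) →
  Function.Injective R → minor R (gF (matZ b) F) ≠ 0 → M'.map (Int.cast : ℤ → ℚ) = newP (matZ b) R (gF (matZ b) F) → M'.det ≠ 0 →
  ∀ hM : M'.transpose = M',
  (∀ w : Fin n → ℤ, (QuotientAddGroup.mk w : Coker M') ∈ AddSubgroup.closure (Set.range fun i => (QuotientAddGroup.mk (hz i) : Coker M')) ↔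
      ∃ v ∈ newL (LFg (matZ b) F) R (gF (matZ b) F), M'.map (Int.cast : ℤ → ℚ) *ᵥ v = fun j => (w j : ℚ)) →
  newL (LFg (matZ b) F) R (gF (matZ b) F) = pull M' (AddSubgroup.closure (Set.range fun i => (QuotientAddGroup.mk (hz i) : Coker M'))) ∧
  ∀ x ∈ AddSubgroup.closure (Set.range fun i => (QuotientAddGroup.mk (hz i) : Coker M')),
    ∀ x' ∈ AddSubgroup.closure (Set.range fun i => (QuotientAddGroup.mk (hz i) : Coker M')), cokPair M' hM x x' = 0

/-- **N4** coranks of `M'`. PROOF. `T` = complement of the range of `R`: `|T| ≥ n - |β|`, `prin (P mod p) T` is a submatrix of `M' mod p`. -/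
def N4Stmt : Prop := ∀ (n : ℕ) (β : Type) [Fintype β] [DecidableEq β] (b : Bits n) (R : β → Fin n) (M' : Matrix (Fin n) (Fin n) ℤ) (k : ℕ),
  CorLt (matZ b) k → (∀ j j', j ∉ Set.range R → j' ∉ Set.range R → M' j j' = matZ b j j') →
  ∀ p, p.Prime → n ≤ (M'.map (Int.cast : ℤ → ZMod p)).rank + (k + Fintype.card β)

/-- the conditions on the subgroup `Q` of a label -/
def LabQ {n : ℕ} (M' : Matrix (Fin n) (Fin n) ℤ) (hM : M'.transpose = M') {s : ℕ} (hz : Fin s → Fin n → ℤ) (ρ y a : ℕ) (X : ℝ)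
    (Q : AddSubgroup (Coker M')) : Prop :=
  AddSubgroup.closure (Set.range fun t => (QuotientAddGroup.mk (hz t) : Coker M')) ≤ Q ∧
  (∀ x ∈ Q, ∀ x' ∈ Q, cokPair M' hM x x' = 0) ∧ (∃ g : Fin ρ → Coker M', Q = AddSubgroup.closure (Set.range g)) ∧
  ∀ hf : Finite (Coker M'), ∑ p ∈ (Nat.card (Coker M')).primeFactors, cst ρ p (if y ≤ p then 0 else ρ * (a - 1))
    (AddSubgroup.closure (Set.range fun t => (QuotientAddGroup.mk (hz t) : Coker M'))) Q ≤ X

/-- **N5** (404: `count` + coranks): number of subgroups of a label. -/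
def N5Stmt : Prop := ∀ (n : ℕ) (M' : Matrix (Fin n) (Fin n) ℤ) (hM : M'.transpose = M') (s : ℕ) (hz : Fin s → Fin n → ℤ) (ρ y a k : ℕ) (X : ℝ),
  M'.det ≠ 0 → (∀ p, p.Prime → n ≤ (M'.map (Int.cast : ℤ → ZMod p)).rank + k) →
  {Q : AddSubgroup (Coker M') | LabQ M' hM hz ρ y a X Q}.Finite ∧
  ({Q : AddSubgroup (Coker M') | LabQ M' hM hz ρ y a X Q}.ncard : ℝ) ≤ (2 : ℝ) ^ X * ∏ p ∈ (M'.det.natAbs).primeFactors,
    (12 * ((M'.det.natAbs.factorization p : ℝ) + 1) ^ 2 * (p : ℝ) ^ (2 * ρ * (if y ≤ p then 0 else ρ * (a - 1)) * k))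

/-- **N6** zero counts outside the two events. -/
def N6Stmt : Prop := ∀ (n : ℕ) (β : Type) [Fintype β] [DecidableEq β] (P : Matrix (Fin n) (Fin n) ℤ) (F : Matrix (Fin n) β ℤ) (y a z : ℕ),
  (¬ ∃ p, p.Prime ∧ y ≤ p ∧ ∃ (g : Fin n → ZMod p) (c : β → ZMod p), Word _ P F g c ∧ (g ≠ 0 ∨ c ≠ 0) ∧
      z ≤ (univ.filter fun i => g i = 0).card) →
  (¬ ∃ p, p.Prime ∧ p < y ∧ ∃ (g : Fin n → ZMod (p ^ a)) (c : β → ZMod (p ^ a)), Word _ P F g c ∧ Prim g c ∧
      z ≤ (univ.filter fun i => g i = 0).card) → KZ P F y a z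

/-- **N7** choice of `R` and `c`: from the average over `R ∈ 𝓡` and `c` -/
def N7Stmt : Prop := ∀ (n : ℕ) (β : Type) [Fintype β] [DecidableEq β] (b : Bits n) (F : Matrix (Fin n) β ℤ) (gr : Matrix β β ℤ) (s y a z k X : ℕ)
  (W : ℝ) (𝓡 : Finset (β → Fin n)), (matZ b).det ≠ 0 → 0 < n → 1 ≤ a → 1 ≤ X → (∀ j q, |F j q| ≤ (X : ℤ)) →
  (∀ i k, gF (matZ b) F i ⬝ᵥ (PQ (matZ b) *ᵥ gF (matZ b) F k) = gr i k) → KZ (matZ b) F y a z →
  (∀ R ∈ 𝓡, Function.Injective R ∧ minor R (gF (matZ b) F) ≠ 0) → (n : ℝ) ^ Fintype.card β ≤ 2 * 𝓡.card →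
  2 * ((Fintype.card β + 1) * ((Real.logb 2 (matZ b).det.natAbs + 2 * Fintype.card β * (Fintype.card β * a) * y * Real.logb 2 (y + 1)) *
      ((1 / 2) ^ s * (Fintype.card β * z / n) + (Fintype.card β * z / n) ^ 2) +
      2 * (Fintype.card β * Real.logb 2 (((Fintype.card β + 1).factorial * ((Fintype.card β + 1) * (n * n.factorial * X)) ^ (Fintype.card β + 1) : ℕ) : ℝ)) *
        ((1 / 2) ^ s * (Fintype.card β * z / n) + Fintype.card β * (Fintype.card β * z / n) ^ 2))) ≤ W →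
  ∃ R ∈ 𝓡, ∃ (M' : Matrix (Fin n) (Fin n) ℤ) (hM : M'.transpose = M') (hz : β → Fin n → ℤ),
    M'.map (Int.cast : ℤ → ℚ) = newP (matZ b) R (gF (matZ b) F) ∧ M'.det ≠ 0 ∧
    (((M'.det : ℤ) : ℚ) = (matZ b).det * (minor R (gF (matZ b) F)) ^ 2) ∧
    (∀ j j', j ∉ Set.range R → j' ∉ Set.range R → M' j j' = matZ b j j') ∧
    (∀ c : β → Bool, newH (matZ b) R (gF (matZ b) F) c = fun j => (((∑ i, if c i then hz i j else 0 : ℤ)) : ℚ)) ∧
    (∀ w : Fin n → ℤ, (QuotientAddGroup.mk w : Coker M') ∈ AddSubgroup.closure (Set.range fun i => (QuotientAddGroup.mk (hz i) : Coker M')) ↔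
      ∃ v ∈ newL (LFg (matZ b) F) R (gF (matZ b) F), M'.map (Int.cast : ℤ → ℚ) *ᵥ v = fun j => (w j : ℚ)) ∧
    ∃ c : Fin s → β → Bool, ∀ hf : Finite (Coker M'), ∑ p ∈ (Nat.card (Coker M')).primeFactors,
      cst (Fintype.card β) p (if y ≤ p then 0 else Fintype.card β * (a - 1))
        (AddSubgroup.closure (Set.range fun t : Fin s => (QuotientAddGroup.mk (fun j => ∑ i, if c t i then hz i j else 0) : Coker M')))
        (AddSubgroup.closure (Set.range fun i => (QuotientAddGroup.mk (hz i) : Coker M'))) ≤ W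

end Vale.Agent.P160.Half.G13
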