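import Vale.Agent.P160.Half.GDetE

/-! # P160, half rate: gap (G), the deterministic core (helper479) -/

namespace Vale.Agent.P160.Half.G

/-- the deterministic core -/
theorem gdet (hkzf : KZFStmt) (hcon : ConStmt) (hrel : RelStmt) (hgood : GoodRStmt) (havg : AvgStmt) : DetStmt :=
  D479.gdet_of (D479.costEx havg hkzf hcon hgood) hrel

end Vale.Agent.P160.Half.G
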