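import Vale.Agent.P160.Half.GAsmStmt

/-! # P160, half rate: gap (G), G13, choice of the rows `R` and of the revealed vectors (helper908) -/

set_option linter.unusedVariables false

open Finset Matrix

namespace Vale.Agent.P160.Half.G13

open A G Labels

namespace H908

/-- the cost of a label is nonnegative -/
lemma cst_nonneg {G : Type} [AddCommGroup G] [Finite G] {D : ℕ} (hD : 0 < D) (ρ : ℕ) {p : ℕ} (e : ℕ) (hp : p.Prime)
    (H Q : AddSubgroup G) (hQ : Nat.card G = D * Nat.card Q ^ 2) : 0 ≤ cst ρ p e H Q := by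
  have h1 : Nat.card (pp p e Q) ∣ Nat.card Q :=
    (AddSubgroup.card_map_dvd _ _).trans (AddSubgroup.card_dvd_of_le inf_le_left)
  have hQ0 : Nat.card Q ≠ 0 := Nat.card_pos.ne'
  have h2 : (Nat.card (pp p e Q)).factorization p ≤ (Nat.card Q).factorization p :=
    (Nat.factorization_le_iff_dvd Nat.card_pos.ne' hQ0).2 h1 p
  have h3 : (Nat.card G).factorization p = D.factorization p + 2 * (Nat.card Q).factorization p := by
    rw [hQ, Nat.factorization_mul hD.ne' (pow_ne_zero _ hQ0), Nat.factorization_pow]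
    simp
  have h4 : (2 : ℝ) * (Nat.card (pp p e Q)).factorization p ≤ (Nat.card G).factorization p := by
    have h5 : 2 * (Nat.card (pp p e Q)).factorization p ≤ (Nat.card G).factorization p := by omega
    exact_mod_cast h5
  have h6 : 0 ≤ Real.logb 2 (p : ℝ) := Real.logb_nonneg (by norm_num) (by exact_mod_cast hp.one_lt.le)
  unfold cst
  refine mul_nonneg (mul_nonneg (add_nonneg ?_ (by positivity)) (by positivity)) h6
  split_ifs
  · exact le_rfl
  · linarith

/-- the discriminant costs at most its logarithm -/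
lemma sum_fac_le {D : ℕ} (hD : 0 < D) (Pr : Finset ℕ) (hPr : ∀ p ∈ Pr, p.Prime) :
    ∑ p ∈ Pr, (D.factorization p : ℝ) * Real.logb 2 p ≤ Real.logb 2 (D : ℝ) := by
  have h1 : Real.logb 2 (D : ℝ) = ∑ p ∈ D.primeFactors, (D.factorization p : ℝ) * Real.logb 2 p := by
    conv_lhs => rw [← Nat.prod_factorization_pow_eq_self hD.ne']
    rw [Finsupp.prod, Nat.support_factorization, Nat.cast_prod, Real.logb_prod]
    · refine Finset.sum_congr rfl fun p _ => ?_
      rw [Nat.cast_pow, Real.logb_pow]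
    · intro p hp
      have := (Nat.prime_of_mem_primeFactors hp).pos
      positivity
  rw [h1]
  have h2 : ∑ p ∈ Pr, (D.factorization p : ℝ) * Real.logb 2 p =
      ∑ p ∈ Pr ∩ D.primeFactors, (D.factorization p : ℝ) * Real.logb 2 p := by
    symm
    refine Finset.sum_subset Finset.inter_subset_left fun p hp hp2 => ?_
    have h3 : p ∉ D.primeFactors := fun h => hp2 (Finset.mem_inter.2 ⟨hp, h⟩)
    have h4 : D.factorization p = 0 := by
      rw [← Nat.support_factorization, Finsupp.mem_support_iff, not_not] at h3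
      exact h3
    rw [h4]; simp
  rw [h2]
  refine Finset.sum_le_sum_of_subset_of_nonneg Finset.inter_subset_right fun p hp _ => ?_
  exact mul_nonneg (by positivity) (Real.logb_nonneg (by norm_num)
    (by exact_mod_cast (Nat.prime_of_mem_primeFactors hp).one_lt.le))

end H908

open H908

/-- **N7** -/
theorem n7H908 (avg : AvgStmt) (rel : RelStmt) (kzf : KZFStmt) (con : ConStmt) : N7Stmt := by
  intro n β _ _ b F gr s y a z k X W 𝓡 hdet hn ha hX hF hgr hKZ h𝓡 hcard hW
  classical
  obtain ⟨M', hz, D, hD0, hDle, hrel⟩ := rel n β b F gr hdet hgr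
  have hfinC : ∀ R ∈ 𝓡, Finite (Coker (M' R)) := by
    intro R hR
    have h := (hrel R (h𝓡 R hR).1 (h𝓡 R hR).2).2.2.1
    refine Nat.finite_of_card_ne_zero ?_
    rw [card_coker _ h]
    exact Int.natAbs_ne_zero.2 h
  let e : β ≃ Fin (Fintype.card β) := Fintype.equivFin β
  let 𝓢 : Finset (Fin (Fintype.card β) → Fin n) := 𝓡.image (fun R => R ∘ e.symm)
  have hback : ∀ R' ∈ 𝓢, R' ∘ e ∈ 𝓡 := by
    intro R' hR'
    obtain ⟨R, hR, rfl⟩ := Finset.mem_image.1 hR'
    have : (R ∘ e.symm) ∘ e = R := by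
      funext i; simp
    rw [this]; exact hR
  have hcardS : 𝓢.card = 𝓡.card := by
    refine Finset.card_image_of_injective _ fun R R₂ h => ?_
    funext i
    have := congrFun h (e i)
    simpa using this
  set Bn : ℕ := (Fintype.card β + 1).factorial * ((Fintype.card β + 1) * (n * n.factorial * X)) ^ (Fintype.card β + 1) with hBn
  have hBn0 : 0 < Bn := by
    have := n.factorial_pos
    have := (Fintype.card β + 1).factorial_pos
    positivity
  have hB : 0 ≤ Real.logb 2 (Bn : ℝ) := Real.logb_nonneg (by norm_num) (by exact_mod_cast hBn0)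
  have hdn : 0 < (matZ b).det.natAbs := Int.natAbs_pos.2 hdet
  have hDl : 0 ≤ Real.logb 2 ((matZ b).det.natAbs : ℝ) := Real.logb_nonneg (by norm_num) (by exact_mod_cast hdn)
  let Pr : Finset ℕ := 𝓡.biUnion fun R => (Nat.card (Coker (M' R))).primeFactors
  have hPr : ∀ p ∈ Pr, p.Prime := by
    intro p hp
    obtain ⟨R, _, h⟩ := Finset.mem_biUnion.1 hp
    exact Nat.prime_of_mem_primeFactors h
  have key := avg n (Fintype.card β) s y a z (KW (matZ b) F) (Real.logb 2 (Bn : ℝ)) (Real.logb 2 ((matZ b).det.natAbs : ℝ))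
    (fun p => D.factorization p) Pr 𝓢 (fun R => Coker (M' (R ∘ e)))
    (fun R i => QuotientAddGroup.mk (hz (R ∘ e) (e.symm i))) hn ha hB hDl ?_ ?_ ?_ hPr ?_ ?_ ?_
  rotate_left
  · intro R' hR'
    exact hfinC _ (hback R' hR')
  · intro R' hR' c
    have h := (hrel _ (h𝓡 _ (hback R' hR')).1 (h𝓡 _ (hback R' hR')).2).2.2.2.2.2.2.1 (fun q => c (e q))
    have h1 : (∑ i, c i • (QuotientAddGroup.mk (hz (R' ∘ e) (e.symm i)) : Coker (M' (R' ∘ e)))) =
        ∑ q : β, c (e q) • (QuotientAddGroup.mk (hz (R' ∘ e) q) : Coker (M' (R' ∘ e))) := by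
      rw [← e.sum_comp]
      simp
    rw [h1, h]
    constructor
    · rintro ⟨u, hu, hu2⟩
      refine ⟨u, hu, fun i => ?_⟩
      have := hu2 (e.symm i)
      simpa using this
    · rintro ⟨u, hu, hu2⟩
      exact ⟨u, hu, fun q => hu2 (e q)⟩
  · intro R' hR' p
    have h := (hrel _ (h𝓡 _ (hback R' hR')).1 (h𝓡 _ (hback R' hR')).2).2.2.2.2.2.2.2.1
    have hf := hfinC _ (hback R' hR')
    have h2 : (Set.range fun i : Fin (Fintype.card β) => (QuotientAddGroup.mk (hz (R' ∘ e) (e.symm i)) : Coker (M' (R' ∘ e)))) =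
        Set.range fun q : β => (QuotientAddGroup.mk (hz (R' ∘ e) q) : Coker (M' (R' ∘ e))) :=
      e.symm.surjective.range_comp (fun q : β => (QuotientAddGroup.mk (hz (R' ∘ e) q) : Coker (M' (R' ∘ e))))
    rw [h2, h, Nat.factorization_mul hD0.ne' (pow_ne_zero _ Nat.card_pos.ne'), Nat.factorization_pow]
    simp
  · refine (sum_fac_le hD0 Pr hPr).trans ?_
    exact Real.logb_le_logb_of_le (by norm_num) (by exact_mod_cast hD0) (by exact_mod_cast hDle)
  · intro p hp i R'
    have hT : (Finset.univ.filter (· < i) |>.image R').card < Fintype.card β := by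
      refine Finset.card_image_le.trans_lt ?_
      have : (Finset.univ.filter (· < i)) = Finset.Iio i := by ext j; simp
      rw [this, Fin.card_Iio]
      exact i.2
    refine le_trans (le_of_eq ?_) (kzf n β (matZ b) F y a z hdet ha hKZ p (hPr p hp) _ hT)
    refine Nat.card_congr (Equiv.subtypeEquivRight fun r => ?_)
    simp
  · intro i R' hex
    have hT : (Finset.univ.filter (· < i) |>.image R').card < Fintype.card β := by
      refine Finset.card_image_le.trans_lt ?_
      have : (Finset.univ.filter (· < i)) = Finset.Iio i := by ext j; simp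
      rw [this, Fin.card_Iio]
      exact i.2
    obtain ⟨u, hu, hu1, hu2⟩ := hex
    obtain ⟨v, hv, hv1, hv2, hv3⟩ := con n β b F X hdet hX hF _ (R' i) hT ⟨u, hu, by simpa using hu1, hu2⟩
    refine ⟨v, hv, by simpa using hv1, hv2, ?_⟩
    have h1 : (0 : ℝ) < |(v (R' i) : ℝ)| := abs_pos.2 (by exact_mod_cast hv2)
    refine Real.logb_le_logb_of_le (by norm_num) h1 ?_
    exact_mod_cast hv3
  -- pigeonhole
  have hnR : (0 : ℝ) < n := by exact_mod_cast hn
  have hSpos : (0 : ℝ) < 𝓢.card := by
    rw [hcardS]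
    have : (0 : ℝ) < (n : ℝ) ^ Fintype.card β := by positivity
    linarith
  set E : ℝ := (Fintype.card β + 1) * ((Real.logb 2 (matZ b).det.natAbs + 2 * Fintype.card β * (Fintype.card β * a) * y * Real.logb 2 (y + 1)) *
      ((1 / 2) ^ s * (Fintype.card β * z / n) + (Fintype.card β * z / n) ^ 2) +
      2 * (Fintype.card β * Real.logb 2 (Bn : ℝ)) *
        ((1 / 2) ^ s * (Fintype.card β * z / n) + Fintype.card β * (Fintype.card β * z / n) ^ 2)) with hE
  have hy1 : 0 ≤ Real.logb 2 ((y : ℝ) + 1) := Real.logb_nonneg (by norm_num) (by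
    have : (0 : ℝ) ≤ y := by positivity
    linarith)
  have hE0 : 0 ≤ E := by rw [hE]; positivity
  have hex : ∃ R' ∈ 𝓢, ∃ c : Fin s → Fin (Fintype.card β) → Bool,
      ∑ p ∈ Pr, cst (Fintype.card β) p (if y ≤ p then 0 else Fintype.card β * (a - 1))
        (AddSubgroup.closure (Set.range fun t : Fin s => ∑ i, if c t i then
          (QuotientAddGroup.mk (hz (R' ∘ e) (e.symm i)) : Coker (M' (R' ∘ e))) else 0))
        (AddSubgroup.closure (Set.range fun i => (QuotientAddGroup.mk (hz (R' ∘ e) (e.symm i)) : Coker (M' (R' ∘ e))))) ≤ W := by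
    by_contra hcon
    push Not at hcon
    have hSne : 𝓢.Nonempty := Finset.card_pos.1 (by exact_mod_cast hSpos)
    have h1 : ∑ R' ∈ 𝓢, ∑ c : Fin s → Fin (Fintype.card β) → Bool, W <
        ∑ R' ∈ 𝓢, ∑ c : Fin s → Fin (Fintype.card β) → Bool,
          ∑ p ∈ Pr, cst (Fintype.card β) p (if y ≤ p then 0 else Fintype.card β * (a - 1))
        (AddSubgroup.closure (Set.range fun t : Fin s => ∑ i, if c t i then
          (QuotientAddGroup.mk (hz (R' ∘ e) (e.symm i)) : Coker (M' (R' ∘ e))) else 0))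
        (AddSubgroup.closure (Set.range fun i => (QuotientAddGroup.mk (hz (R' ∘ e) (e.symm i)) : Coker (M' (R' ∘ e))))) := by
      refine Finset.sum_lt_sum_of_nonempty hSne fun R' hR' => ?_
      exact Finset.sum_lt_sum_of_nonempty Finset.univ_nonempty fun c _ => hcon R' hR' c
    have h2 := h1.trans_le key
    have h3 : (∑ R' ∈ 𝓢, ∑ c : Fin s → Fin (Fintype.card β) → Bool, W) =
        𝓢.card * (2 ^ (s * Fintype.card β) * W) := by
      simp only [Finset.sum_const, Finset.card_univ, Fintype.card_pi, Fintype.card_bool, Finset.prod_const,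
        Fintype.card_fin, nsmul_eq_mul]
      push_cast
      rw [← pow_mul, mul_comm (Fintype.card β) s]
    rw [h3] at h2
    have h4 : (n : ℝ) ^ Fintype.card β * 2 ^ (s * Fintype.card β) * (Fintype.card β + 1) *
      ((Real.logb 2 (matZ b).det.natAbs + 2 * Fintype.card β * (Fintype.card β * a) * y * Real.logb 2 (y + 1)) *
      ((1 / 2) ^ s * (Fintype.card β * z / n) + (Fintype.card β * z / n) ^ 2) +
      2 * (Fintype.card β * Real.logb 2 (Bn : ℝ)) *
        ((1 / 2) ^ s * (Fintype.card β * z / n) + Fintype.card β * (Fintype.card β * z / n) ^ 2)) =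
        (n : ℝ) ^ Fintype.card β * (2 ^ (s * Fintype.card β) * E) := by
      rw [hE]; ring
    rw [h4] at h2
    have h5 : (n : ℝ) ^ Fintype.card β * (2 ^ (s * Fintype.card β) * E) ≤ 2 * 𝓢.card * (2 ^ (s * Fintype.card β) * E) := by
      rw [hcardS]
      exact mul_le_mul_of_nonneg_right hcard (by positivity)
    have h6 : (𝓢.card : ℝ) * (2 ^ (s * Fintype.card β) * (2 * E)) ≤ 𝓢.card * (2 ^ (s * Fintype.card β) * W) := by
      refine mul_le_mul_of_nonneg_left (mul_le_mul_of_nonneg_left hW (by positivity)) hSpos.le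
    have h7 : (𝓢.card : ℝ) * (2 ^ (s * Fintype.card β) * (2 * E)) = 2 * 𝓢.card * (2 ^ (s * Fintype.card β) * E) := by ring
    linarith
  obtain ⟨R', hR', c, hc⟩ := hex
  obtain ⟨r1, r2, r3, r4, r5, r6, r7, r8, r9⟩ := hrel _ (h𝓡 _ (hback R' hR')).1 (h𝓡 _ (hback R' hR')).2
  refine ⟨R' ∘ e, hback R' hR', M' (R' ∘ e), r2, hz (R' ∘ e), r1, r3, r4, r5, r6, r9, fun t q => c t (e q), fun hf => ?_⟩
  have h2 : (Set.range fun i : Fin (Fintype.card β) => (QuotientAddGroup.mk (hz (R' ∘ e) (e.symm i)) : Coker (M' (R' ∘ e)))) =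
      Set.range fun q : β => (QuotientAddGroup.mk (hz (R' ∘ e) q) : Coker (M' (R' ∘ e))) :=
    e.symm.surjective.range_comp (fun q : β => (QuotientAddGroup.mk (hz (R' ∘ e) q) : Coker (M' (R' ∘ e))))
  have h3 : (fun t : Fin s => ∑ i, if c t i then
          (QuotientAddGroup.mk (hz (R' ∘ e) (e.symm i)) : Coker (M' (R' ∘ e))) else 0) =
      fun t : Fin s => (QuotientAddGroup.mk (fun j => ∑ i, if c t (e i) then hz (R' ∘ e) i j else 0) : Coker (M' (R' ∘ e))) := by
    funext t
    have h4 : (fun j => ∑ i : β, if c t (e i) then hz (R' ∘ e) i j else 0) =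
        ∑ i : β, if c t (e i) then hz (R' ∘ e) i else 0 := by
      funext j
      rw [Finset.sum_apply]
      refine Finset.sum_congr rfl fun i _ => ?_
      split_ifs <;> rfl
    rw [h4]
    have h5 := map_sum (QuotientAddGroup.mk' (lat (M' (R' ∘ e)))) (fun i : β => if c t (e i) then hz (R' ∘ e) i else 0) Finset.univ
    rw [QuotientAddGroup.mk'_apply] at h5
    rw [h5, ← e.sum_comp]
    refine Finset.sum_congr rfl fun i _ => ?_
    simp only [Equiv.symm_apply_apply]
    split_ifs
    · rfl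
    · exact (map_zero _).symm
  rw [h2, h3] at hc
  refine le_trans ?_ hc
  refine Finset.sum_le_sum_of_subset_of_nonneg ?_ fun p hp _ => ?_
  · exact Finset.subset_biUnion_of_mem (fun R => (Nat.card (Coker (M' R))).primeFactors) (hback R' hR')
  · exact cst_nonneg hD0 _ _ (hPr p hp) _ _ r8

end Vale.Agent.P160.Half.G13
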