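import Vale.Agent.P160.Half.GDetN7
import Vale.Agent.P160.Half.GN7H908

/-! # P160, half rate: gap (G), `DetStmt` from the five landed inputs (helper742): membership half `gdet_of_n7` + averaging half `n7H908` (helper908) -/

namespace Vale.Agent.P160.Half.G

/-- **DET** -/
theorem gdet742 (kzf : KZFStmt) (con : ConStmt) (rel : RelStmt) (goodr : GoodRStmt) (avg : AvgStmt) : DetStmt :=
  gdet_of_n7 (G13.n7H908 avg rel kzf con) goodr

end Vale.Agent.P160.Half.G
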