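import Vale.Agent.P160.Half.GDetA

/-! # P160, half rate: the cost half of `DetStmt` (hedge) -/

set_option linter.unusedVariables false
set_option linter.unusedSectionVars false

open Finset Matrix

namespace Vale.Agent.P160.Half.G.C952

open A Labels

section cst

variable {G : Type*} [AddCommGroup G] [Finite G]

theorem card_pp_dvd (p e : ℕ) (Q : AddSubgroup G) : Nat.card (pp p e Q) ∣ Nat.card Q := by
  have h1 : Nat.card (pp p e Q) ∣ Nat.card ((Q ⊓ prim G p : AddSubgroup G)) := by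
    unfold pp
    exact AddSubgroup.card_map_dvd _ _
  exact h1.trans (AddSubgroup.card_dvd_of_le inf_le_left)

theorem cst_nonneg (ρ p e : ℕ) (hp : p.Prime) (H Q : AddSubgroup G) (D : ℕ) (hD : 0 < D)
    (hG : Nat.card G = D * (Nat.card Q) ^ 2) : 0 ≤ cst ρ p e H Q := by
  unfold cst
  have hlog : 0 ≤ Real.logb 2 (p : ℝ) :=
    Real.logb_nonneg (by norm_num) (by exact_mod_cast hp.one_lt.le)
  have hQ0 : Nat.card Q ≠ 0 := Nat.card_pos.ne'
  have hP0 : Nat.card (pp p e Q) ≠ 0 := Nat.card_pos.ne'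
  have h1 : (Nat.card (pp p e Q)).factorization p ≤ (Nat.card Q).factorization p :=
    (Nat.factorization_le_iff_dvd hP0 hQ0).2 (card_pp_dvd p e Q) p
  have h2 : (Nat.card G).factorization p = D.factorization p + 2 * (Nat.card Q).factorization p := by
    rw [hG, Nat.factorization_mul hD.ne' (pow_ne_zero 2 hQ0), Nat.factorization_pow]
    simp
  have h3 : (0 : ℝ) ≤ ((Nat.card G).factorization p - 2 * (Nat.card (pp p e Q)).factorization p : ℝ) := by
    rw [h2]
    push_cast
    have : ((Nat.card (pp p e Q)).factorization p : ℝ) ≤ (Nat.card Q).factorization p := by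
      exact_mod_cast h1
    have h4 : (0 : ℝ) ≤ (D.factorization p : ℝ) := Nat.cast_nonneg _
    linarith
  refine mul_nonneg (mul_nonneg (add_nonneg ?_ ?_) (by positivity)) hlog
  · split_ifs
    · exact le_rfl
    · exact h3
  · positivity

end cst

theorem sum_log_le (Pr : Finset ℕ) (D N : ℕ) (hD0 : 0 < D) (hD : D ≤ N) (hPr : ∀ p ∈ Pr, p.Prime) :
    ∑ p ∈ Pr, ((D.factorization p : ℕ) : ℝ) * Real.logb 2 p ≤ Real.logb 2 N := by
  have h1 : ∑ p ∈ Pr, ((D.factorization p : ℕ) : ℝ) * Real.logb 2 p ≤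
      ∑ p ∈ D.primeFactors, ((D.factorization p : ℕ) : ℝ) * Real.logb 2 p := by
    rw [← Finset.sum_filter_add_sum_filter_not Pr (fun p => p ∈ D.primeFactors)]
    have h2 : ∑ p ∈ Pr.filter (fun p => p ∉ D.primeFactors),
        ((D.factorization p : ℕ) : ℝ) * Real.logb 2 p = 0 := by
      refine Finset.sum_eq_zero fun p hp => ?_
      rw [mem_filter] at hp
      have : D.factorization p = 0 := by
        rw [← Finsupp.notMem_support_iff, Nat.support_factorization]
        exact hp.2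
      rw [this]
      simp
    rw [h2, add_zero]
    refine Finset.sum_le_sum_of_subset_of_nonneg (fun p hp => (mem_filter.1 hp).2) ?_
    intro p hp _
    have hp' := Nat.prime_of_mem_primeFactors hp
    exact mul_nonneg (Nat.cast_nonneg _)
      (Real.logb_nonneg (by norm_num) (by exact_mod_cast hp'.one_lt.le))
  have h3 : ∑ p ∈ D.primeFactors, ((D.factorization p : ℕ) : ℝ) * Real.logb 2 p =
      Real.logb 2 D := by
    conv_rhs => rw [← Nat.prod_factorization_pow_eq_self hD0.ne']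
    rw [Finsupp.prod, Nat.cast_prod, Real.logb_prod]
    · rw [Nat.support_factorization]
      refine Finset.sum_congr rfl fun p _ => ?_
      push_cast
      rw [Real.logb_pow]
    · intro p hp
      have hp' := Nat.prime_of_mem_primeFactors (by rwa [Nat.support_factorization] at hp)
      have : p ≠ 0 := hp'.ne_zero
      positivity
  rw [h3] at h1
  refine h1.trans ?_
  refine Real.logb_le_logb_of_le (by norm_num) (by exact_mod_cast hD0) (by exact_mod_cast hD)

theorem cost_ex (havg : AvgStmt) (hkzf : KZFStmt) (hcon : ConStmt) (hgood : GoodRStmt)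
    {n : ℕ} {β : Type} [Fintype β] [DecidableEq β] (b : Bits n) (F : Matrix (Fin n) β ℤ)
    (Xn y a z s s₁ : ℕ) (τ X B : ℝ) (Av : Finset (Fin n))
    (hn : 0 < n) (hXn : 1 ≤ Xn) (ha : 1 ≤ a) (hy : 2 ≤ y) (hτ : 0 < τ) (hX : 0 ≤ X)
    (hdet : (matZ b).det ≠ 0) (hF : ∀ j q, |F j q| ≤ (Xn : ℤ)) (hKZ : KZ (matZ b) F y a z)
    (hs : ∀ c : β → ℝ, (∀ q, |c q| ≤ 1) → (∃ q, |c q| = 1) →
      Set.ncard {j : Fin n | |∑ q, c q * ((gF (matZ b) F q j : ℚ) : ℝ)| < τ} ≤ s)
    (h4 : 4 * (Fintype.card β * (s + Av.card + Fintype.card β)) ≤ n)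
    (hB : Real.logb 2 (((Fintype.card β + 1).factorial *
      ((Fintype.card β + 1) * (n * n.factorial * Xn)) ^ (Fintype.card β + 1) : ℕ) : ℝ) ≤ B)
    (hX2 : ((Fintype.card β : ℝ) + 1) *
      ((Real.logb 2 n.factorial + 2 * Fintype.card β * (Fintype.card β * a) * y * Real.logb 2 (y + 1)) *
          ((1 / 2) ^ s₁ * (Fintype.card β * z / n) + (Fintype.card β * z / n) ^ 2) +
        2 * (Fintype.card β * B) * ((1 / 2) ^ s₁ * (Fintype.card β * z / n) +
          Fintype.card β * (Fintype.card β * z / n) ^ 2)) ≤ X / 2)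
    (M' : (β → Fin n) → Matrix (Fin n) (Fin n) ℤ) (hz : (β → Fin n) → β → Fin n → ℤ) (D : ℕ)
    (hD0 : 0 < D) (hD : D ≤ (matZ b).det.natAbs)
    (h1 : ∀ R : β → Fin n, Function.Injective R → minor R (gF (matZ b) F) ≠ 0 → (M' R).det ≠ 0)
    (h2 : ∀ R : β → Fin n, Function.Injective R → minor R (gF (matZ b) F) ≠ 0 →
      ∀ c : β → ℤ, (∑ i, c i • (QuotientAddGroup.mk (hz R i) : Coker (M' R)) = 0 ↔
        ∃ u ∈ KW (matZ b) F, ∀ i, u (R i) = c i))
    (h3 : ∀ R : β → Fin n, Function.Injective R → minor R (gF (matZ b) F) ≠ 0 →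
      Nat.card (Coker (M' R)) = D * (Nat.card (AddSubgroup.closure
        (Set.range fun i => (QuotientAddGroup.mk (hz R i) : Coker (M' R))))) ^ 2) :
    ∃ R : β → Fin n, Function.Injective R ∧ (∀ i, R i ∉ Av) ∧
      τ ^ Fintype.card β ≤ |((minor R (gF (matZ b) F) : ℚ) : ℝ)| ∧
      ∃ c : Fin s₁ → β → Bool, ∑ p ∈ (M' R).det.natAbs.primeFactors,
        cst (Fintype.card β) p (if y ≤ p then 0 else Fintype.card β * (a - 1))
          (AddSubgroup.closure (Set.range fun t => (∑ i, if c t i then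
            (QuotientAddGroup.mk (hz R i) : Coker (M' R)) else 0)))
          (AddSubgroup.closure (Set.range fun i => (QuotientAddGroup.mk (hz R i) : Coker (M' R)))) ≤ X := by
  classical
  set ρ := Fintype.card β with hρ
  set e : β ≃ Fin ρ := Fintype.equivFin β with he
  set g := gF (matZ b) F with hg
  set 𝓡 : Finset (Fin ρ → Fin n) := univ.filter fun R' => Function.Injective (R' ∘ e) ∧
    (∀ i, (R' ∘ e) i ∉ Av) ∧ τ ^ ρ ≤ |((minor (R' ∘ e) g : ℚ) : ℝ)| with h𝓡
  have hmem : ∀ R' ∈ 𝓡, Function.Injective (R' ∘ e) ∧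
    (∀ i, (R' ∘ e) i ∉ Av) ∧ τ ^ ρ ≤ |((minor (R' ∘ e) g : ℚ) : ℝ)| := fun R' h =>
      (mem_filter.1 h).2
  have hmin : ∀ R' ∈ 𝓡, minor (R' ∘ e) g ≠ 0 := by
    intro R' hR' h0
    have h := (hmem R' hR').2.2
    rw [h0] at h
    simp only [Rat.cast_zero, abs_zero] at h
    exact absurd h (not_le.2 (pow_pos hτ _))
  -- size of `𝓡`
  have hcard : (3 / 4 : ℝ) * (n : ℝ) ^ ρ ≤ 𝓡.card := by
    have h5 := hgood n β g τ s Av hτ hs
    have h6 : Nat.card {R : β → Fin n // Function.Injective R ∧ (∀ i, R i ∉ Av) ∧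
        τ ^ ρ ≤ |((minor R g : ℚ) : ℝ)|} = 𝓡.card := by
      rw [Nat.card_eq_fintype_card, Fintype.card_subtype]
      refine Finset.card_bij' (fun R _ => R ∘ e.symm) (fun R' _ => R' ∘ e) ?_ ?_ ?_ ?_
      · intro R hR
        rw [mem_filter] at hR
        rw [h𝓡, mem_filter]
        have : (R ∘ e.symm) ∘ e = R := by
          funext i
          simp
        rw [this]
        exact ⟨mem_univ _, hR.2⟩
      · intro R' hR'
        rw [mem_filter]
        exact ⟨mem_univ _, hmem R' hR'⟩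
      · intro R _
        funext i
        simp
      · intro R' _
        funext i
        simp
    rw [← hρ, h6] at h5
    have hn' : (0 : ℝ) < n := by exact_mod_cast hn
    have h7 : (4 : ℝ) * (ρ * (s + Av.card + ρ)) ≤ n := by exact_mod_cast h4
    have h8 : (ρ : ℝ) * (s + Av.card + ρ) * (n : ℝ) ^ (ρ - 1) ≤ 1 / 4 * (n : ℝ) ^ ρ := by
      rcases Nat.eq_zero_or_pos ρ with h0 | h0
      · rw [h0]
        simp
      · have : (n : ℝ) ^ ρ = n * (n : ℝ) ^ (ρ - 1) := by
          rw [← pow_succ']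
          congr 1
          omega
        rw [this]
        have h9 : (0 : ℝ) ≤ (n : ℝ) ^ (ρ - 1) := by positivity
        nlinarith
    linarith
  have hpos : (0 : ℝ) < (n : ℝ) ^ ρ := by
    have : (0 : ℝ) < n := by exact_mod_cast hn
    positivity
  have hfin : ∀ R' ∈ 𝓡, Finite (Coker (M' (R' ∘ e))) := fun R' hR' =>
    D479.coker_finite _ (h1 _ (hmem R' hR').1 (hmin R' hR'))
  set x : ∀ R' : Fin ρ → Fin n, Fin ρ → Coker (M' (R' ∘ e)) := fun R' i =>
    QuotientAddGroup.mk (hz (R' ∘ e) (e.symm i)) with hx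
  have hrange : ∀ R' : Fin ρ → Fin n, Set.range (x R') =
      Set.range fun j => (QuotientAddGroup.mk (hz (R' ∘ e) j) : Coker (M' (R' ∘ e))) := by
    intro R'
    exact e.symm.surjective.range_comp
      (fun j => (QuotientAddGroup.mk (hz (R' ∘ e) j) : Coker (M' (R' ∘ e))))
  set Pr : Finset ℕ := 𝓡.biUnion fun R' => (M' (R' ∘ e)).det.natAbs.primeFactors with hPr
  have hPrp : ∀ p ∈ Pr, p.Prime := by
    intro p hp
    obtain ⟨R', _, hp'⟩ := mem_biUnion.1 hp
    exact Nat.prime_of_mem_primeFactors hp'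
  have hDn : D ≤ n.factorial := hD.trans (D479.det_le_fact b)
  have hnf : (1 : ℝ) ≤ n.factorial := by exact_mod_cast Nat.one_le_of_lt n.factorial_pos
  have hbig : 1 ≤ (ρ + 1).factorial * ((ρ + 1) * (n * n.factorial * Xn)) ^ (ρ + 1) := by
    have := n.factorial_pos
    have := (ρ + 1).factorial_pos
    exact Nat.one_le_iff_ne_zero.2 (by positivity)
  have hB0 : 0 ≤ B := by
    refine le_trans (Real.logb_nonneg (by norm_num) ?_) hB
    exact_mod_cast hbig
  have hTc : ∀ (i : Fin ρ) (R : Fin ρ → Fin n),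
      ((univ.filter (· < i)).image R).card < Fintype.card β := by
    intro i R
    refine card_image_le.trans_lt ?_
    have h5 : (univ.filter (· < i) : Finset (Fin ρ)).card < (univ : Finset (Fin ρ)).card := by
      refine card_lt_card ⟨filter_subset _ _, fun h => ?_⟩
      exact absurd (mem_filter.1 (h (mem_univ i))).2 (lt_irrefl i)
    rwa [card_univ, Fintype.card_fin] at h5
  have key := havg n ρ s₁ y a z (KW (matZ b) F) B (Real.logb 2 n.factorial)
    (fun p => D.factorization p) Pr 𝓡 (fun R' => Coker (M' (R' ∘ e))) x hn ha hB0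
    (Real.logb_nonneg (by norm_num) hnf) hfin ?_ ?_ hPrp ?_ ?_ ?_
  · -- conclusion
    by_contra hcontra
    push Not at hcontra
    have hall : ∀ R' ∈ 𝓡, ∀ c : Fin s₁ → Fin ρ → Bool, X < ∑ p ∈ Pr,
        cst ρ p (if y ≤ p then 0 else ρ * (a - 1))
        (AddSubgroup.closure (Set.range fun t : Fin s₁ => ∑ i, if c t i then x R' i else 0))
        (AddSubgroup.closure (Set.range (x R'))) := by
      intro R' hR' c
      have hR := hmem R' hR'
      have h5 := hcontra (R' ∘ e) hR.1 hR.2.1 hR.2.2 (fun t j => c t (e j))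
      refine h5.trans_le ?_
      have h6 : (fun t => (∑ j, if c t (e j) then
            (QuotientAddGroup.mk (hz (R' ∘ e) j) : Coker (M' (R' ∘ e))) else 0)) =
          fun t : Fin s₁ => ∑ i, if c t i then x R' i else 0 := by
        funext t
        rw [← Equiv.sum_comp e]
        refine Finset.sum_congr rfl fun j _ => ?_
        simp only [hx, Equiv.symm_apply_apply]
      rw [h6, ← hrange R']
      have := hfin R' hR'
      refine Finset.sum_le_sum_of_subset_of_nonneg ?_ ?_
      · intro p hp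
        exact mem_biUnion.2 ⟨R', hR', hp⟩
      · intro p hp _
        refine cst_nonneg ρ p _ (hPrp p hp) _ _ D hD0 ?_
        rw [hrange R']
        exact h3 _ hR.1 (hmin R' hR')
    have hne : 𝓡.Nonempty := by
      rw [nonempty_iff_ne_empty]
      intro h0
      rw [h0, card_empty] at hcard
      push_cast at hcard
      nlinarith
    have h7 : (𝓡.card : ℝ) * (2 ^ (s₁ * ρ) * X) < ∑ R' ∈ 𝓡, ∑ c : Fin s₁ → Fin ρ → Bool,
        ∑ p ∈ Pr, cst ρ p (if y ≤ p then 0 else ρ * (a - 1))
        (AddSubgroup.closure (Set.range fun t : Fin s₁ => ∑ i, if c t i then x R' i else 0))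
        (AddSubgroup.closure (Set.range (x R'))) := by
      have h8 : ∀ R' ∈ 𝓡, (2 ^ (s₁ * ρ) * X : ℝ) < ∑ c : Fin s₁ → Fin ρ → Bool,
          ∑ p ∈ Pr, cst ρ p (if y ≤ p then 0 else ρ * (a - 1))
          (AddSubgroup.closure (Set.range fun t : Fin s₁ => ∑ i, if c t i then x R' i else 0))
          (AddSubgroup.closure (Set.range (x R'))) := by
        intro R' hR'
        have h9 : (∑ _c : Fin s₁ → Fin ρ → Bool, X) = 2 ^ (s₁ * ρ) * X := by
          rw [Finset.sum_const, card_univ, nsmul_eq_mul]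
          congr 1
          simp only [Fintype.card_fun, Fintype.card_bool, Fintype.card_fin]
          push_cast
          rw [← pow_mul, mul_comm]
        rw [← h9]
        exact Finset.sum_lt_sum_of_nonempty univ_nonempty fun c _ => hall R' hR' c
      have h10 : (∑ _R' ∈ 𝓡, (2 ^ (s₁ * ρ) * X : ℝ)) = 𝓡.card * (2 ^ (s₁ * ρ) * X) := by
        rw [Finset.sum_const, nsmul_eq_mul]
      rw [← h10]
      exact Finset.sum_lt_sum_of_nonempty hne h8
    have h11 := h7.trans_le key
    have h12 : (n : ℝ) ^ ρ * 2 ^ (s₁ * ρ) * (ρ + 1) *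
      ((Real.logb 2 n.factorial + 2 * ρ * (ρ * a) * y * Real.logb 2 (y + 1)) *
          ((1 / 2) ^ s₁ * (ρ * z / n) + (ρ * z / n) ^ 2) +
        2 * (ρ * B) * ((1 / 2) ^ s₁ * (ρ * z / n) + ρ * (ρ * z / n) ^ 2)) ≤
        (n : ℝ) ^ ρ * 2 ^ (s₁ * ρ) * (X / 2) := by
      rw [mul_assoc ((n : ℝ) ^ ρ * 2 ^ (s₁ * ρ))]
      exact mul_le_mul_of_nonneg_left hX2 (by positivity)
    have h13 := h11.trans_le h12
    have h14 : (3 / 4 : ℝ) * (n : ℝ) ^ ρ * (2 ^ (s₁ * ρ) * X) ≤ (𝓡.card : ℝ) * (2 ^ (s₁ * ρ) * X) :=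
      mul_le_mul_of_nonneg_right hcard (by positivity)
    have h15 : (0 : ℝ) ≤ (n : ℝ) ^ ρ * (2 ^ (s₁ * ρ) * X) := by positivity
    nlinarith
  · -- relations
    intro R' hR' c
    have h5 := h2 (R' ∘ e) (hmem R' hR').1 (hmin R' hR') (fun j => c (e j))
    have h6 : ∑ i, c i • x R' i = ∑ j, c (e j) •
        (QuotientAddGroup.mk (hz (R' ∘ e) j) : Coker (M' (R' ∘ e))) := by
      rw [← Equiv.sum_comp e]
      refine Finset.sum_congr rfl fun j _ => ?_
      simp only [hx, Equiv.symm_apply_apply]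
    rw [h6, h5]
    constructor
    · rintro ⟨u, hu, hc⟩
      refine ⟨u, hu, fun i => ?_⟩
      have := hc (e.symm i)
      simpa using this
    · rintro ⟨u, hu, hc⟩
      exact ⟨u, hu, fun j => hc (e j)⟩
  · -- factorization
    intro R' hR' p
    have := hfin R' hR'
    have h5 := h3 (R' ∘ e) (hmem R' hR').1 (hmin R' hR')
    rw [hrange R', h5, Nat.factorization_mul hD0.ne' (pow_ne_zero 2 Nat.card_pos.ne'),
      Nat.factorization_pow]
    simp
  · exact sum_log_le Pr D _ hD0 hDn hPrp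
  · intro p hp i R
    have h5 := hkzf n β (matZ b) F y a z hdet ha hKZ p (hPrp p hp)
      ((univ.filter (· < i)).image R) (hTc i R)
    refine le_trans (le_of_eq ?_) h5
    refine Nat.card_congr (Equiv.subtypeEquivRight fun r => ?_)
    constructor
    · intro h u hu h0
      exact h u hu fun j hj => h0 _ (mem_image_of_mem R (mem_filter.2 ⟨mem_univ j, hj⟩))
    · intro h u hu h0
      refine h u hu fun j hj => ?_
      obtain ⟨j', hj', rfl⟩ := mem_image.1 hj
      exact h0 j' (mem_filter.1 hj').2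
  · intro i R hex
    obtain ⟨u, hu, h0, hne⟩ := hex
    obtain ⟨u', hu', h0', hne', hle⟩ := hcon n β b F Xn hdet hXn hF
      ((univ.filter (· < i)).image R) (R i) (hTc i R) ⟨u, hu, by
        intro j hj
        obtain ⟨j', hj', rfl⟩ := mem_image.1 hj
        exact h0 j' (mem_filter.1 hj').2, hne⟩
    refine ⟨u', hu', fun j hj => h0' _ (mem_image_of_mem R (mem_filter.2 ⟨mem_univ j, hj⟩)),
      hne', ?_⟩
    refine le_trans ?_ hB
    refine Real.logb_le_logb_of_le (by norm_num) ?_ ?_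
    · exact abs_pos.2 (by exact_mod_cast hne')
    · have h6 : ((|u' (R i)| : ℤ) : ℝ) ≤ (((((ρ + 1).factorial *
        ((ρ + 1) * (n * n.factorial * Xn)) ^ (ρ + 1) : ℕ) : ℤ)) : ℝ) := by
        exact_mod_cast hle
      rw [Int.cast_abs] at h6
      refine h6.trans (le_of_eq ?_)
      push_cast
      rfl

end Vale.Agent.P160.Half.G.C952
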