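import Vale.Agent.P160.Half.GDetC
import Vale.Agent.P160.Half.GDetCost952

/-! # P160, half rate: the deterministic core -/

namespace Vale.Agent.P160.Half.G.C952

open A Labels

theorem gdet (h1 : KZFStmt) (h2 : ConStmt) (h3 : RelStmt) (h4 : GoodRStmt) (h5 : AvgStmt) :
    DetStmt := by
  refine D479.gdet_of ?_ h3
  intro n β _ _ b F Xn y a z s s₁ τ X B Av M' hz D a1 a2 a3 a4 a5 a6 a7 a8 a9 a10 a11 a12 a13 a14
    a15 a16 a17 a18
  exact cost_ex h5 h1 h2 h4 b F Xn y a z s s₁ τ X B Av a1 a2 a3 a4 a5 a6 a7 a8 a9 a10 a11 a12 a13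
    M' hz D a14 a15 a16 a17 a18

end Vale.Agent.P160.Half.G.C952
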