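import Vale.Agent.P160.Half.GDetA

/-! # P160, half rate: gap (G), deterministic core, membership in the label set (helper479) -/

open Finset Matrix

namespace Vale.Agent.P160.Half.G.D479

open A Labels

variable {n : ℕ} {β : Type} [Fintype β] [DecidableEq β]

theorem QL_eq (b : Bits n) (F : Matrix (Fin n) β ℤ) (R : β → Fin n) (M : Matrix (Fin n) (Fin n) ℤ)
    (hz : β → Fin n → ℤ)
    (h9 : ∀ w : Fin n → ℤ, (QuotientAddGroup.mk w : Coker M) ∈
        AddSubgroup.closure (Set.range fun i => (QuotientAddGroup.mk (hz i) : Coker M)) ↔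
      ∃ v ∈ newL (LFg (matZ b) F) R (gF (matZ b) F), M.map (Int.cast : ℤ → ℚ) *ᵥ v = fun j => (w j : ℚ)) :
    QL M (newL (LFg (matZ b) F) R (gF (matZ b) F)) =
      AddSubgroup.closure (Set.range fun i => (QuotientAddGroup.mk (hz i) : Coker M)) := by
  ext x
  constructor
  · rintro ⟨w, rfl, hw⟩
    exact (h9 w).2 hw
  · intro hx
    obtain ⟨w, rfl⟩ := QuotientAddGroup.mk_surjective x
    exact ⟨w, rfl, (h9 w).1 hx⟩

theorem std_mem (b : Bits n) (F : Matrix (Fin n) β ℤ) (R : β → Fin n) (M : Matrix (Fin n) (Fin n) ℤ)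
    (hz : β → Fin n → ℤ) (hM : M.det ≠ 0)
    (h9 : ∀ w : Fin n → ℤ, (QuotientAddGroup.mk w : Coker M) ∈
        AddSubgroup.closure (Set.range fun i => (QuotientAddGroup.mk (hz i) : Coker M)) ↔
      ∃ v ∈ newL (LFg (matZ b) F) R (gF (matZ b) F), M.map (Int.cast : ℤ → ℚ) *ᵥ v = fun j => (w j : ℚ))
    (z : Fin n → ℤ) : (fun j => (z j : ℚ)) ∈ newL (LFg (matZ b) F) R (gF (matZ b) F) := by
  have h1 : (QuotientAddGroup.mk (M *ᵥ z) : Coker M) ∈
      AddSubgroup.closure (Set.range fun i => (QuotientAddGroup.mk (hz i) : Coker M)) := by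
    have h2 : (QuotientAddGroup.mk (M *ᵥ z) : Coker M) = 0 := by
      rw [QuotientAddGroup.eq_zero_iff, mem_lat]
      exact ⟨z, rfl⟩
    rw [h2]
    exact zero_mem _
  obtain ⟨v, hv, hvw⟩ := (h9 _).1 h1
  have h3 : (fun j => ((M *ᵥ z) j : ℚ)) = M.map (Int.cast : ℤ → ℚ) *ᵥ (fun j => (z j : ℚ)) := by
    ext i
    simp only [mulVec, dotProduct, map_apply]
    push_cast
    rfl
  rw [h3] at hvw
  have hMd : (M.map (Int.cast : ℤ → ℚ)).det ≠ 0 := by
    have := PQ_det M
    unfold PQ at this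
    rw [this]
    exact Int.cast_ne_zero.mpr hM
  have h4 : v = fun j => (z j : ℚ) := by
    have h5 := Matrix.eq_zero_of_mulVec_eq_zero hMd (v := v - fun j => (z j : ℚ))
      (by rw [mulVec_sub, hvw, sub_self])
    exact sub_eq_zero.mp h5
  rw [← h4]
  exact hv

omit [DecidableEq β] in
theorem mk_sum {M : Matrix (Fin n) (Fin n) ℤ} (hz : β → Fin n → ℤ) (c : β → Bool) :
    (QuotientAddGroup.mk (∑ i, if c i then hz i else 0) : Coker M) =
      ∑ i, if c i then (QuotientAddGroup.mk (hz i) : Coker M) else 0 := by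
  have h1 : (QuotientAddGroup.mk (∑ i, if c i then hz i else 0) : Coker M) =
      (QuotientAddGroup.mk' (lat M)) (∑ i, if c i then hz i else 0) := rfl
  rw [h1, map_sum]
  refine Finset.sum_congr rfl fun i _ => ?_
  split_ifs
  · rfl
  · exact map_zero _

theorem mem_lab (b : Bits n) (F : Matrix (Fin n) β ℤ) (y a k s₁ : ℕ) (Y Dt X : ℝ)
    (hd : (matZ b).det ≠ 0)
    (hgr : ∀ i k, ∃ m : ℤ, gF (matZ b) F i ⬝ᵥ (PQ (matZ b) *ᵥ gF (matZ b) F k) = m)
    (hBd : ∀ q, BdQ Y (gF (matZ b) F q))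
    (hDt : Real.logb 2 (n.factorial * ((Fintype.card β).factorial * Y ^ Fintype.card β) ^ 2) ≤ Dt)
    (R : β → Fin n) (M : Matrix (Fin n) (Fin n) ℤ) (hz : β → Fin n → ℤ)
    (h1 : M.map (Int.cast : ℤ → ℚ) = newP (matZ b) R (gF (matZ b) F)) (h2 : M.transpose = M) (h3 : M.det ≠ 0)
    (h4 : ((M.det : ℤ) : ℚ) = (matZ b).det * (minor R (gF (matZ b) F)) ^ 2)
    (h6 : ∀ c : β → Bool, newH (matZ b) R (gF (matZ b) F) c = fun j => (((∑ i, if c i then hz i j else 0 : ℤ)) : ℚ))
    (h9 : ∀ w : Fin n → ℤ, (QuotientAddGroup.mk w : Coker M) ∈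
        AddSubgroup.closure (Set.range fun i => (QuotientAddGroup.mk (hz i) : Coker M)) ↔
      ∃ v ∈ newL (LFg (matZ b) F) R (gF (matZ b) F), M.map (Int.cast : ℤ → ℚ) *ᵥ v = fun j => (w j : ℚ))
    (hrank : ∀ p, p.Prime → n ≤ (M.map (Int.cast : ℤ → ZMod p)).rank + (k + Fintype.card β))
    (c : Fin s₁ → β → Bool)
    (hcost : ∑ p ∈ M.det.natAbs.primeFactors, cst (Fintype.card β) p (if y ≤ p then 0 else Fintype.card β * (a - 1))
      (AddSubgroup.closure (Set.range fun t => (∑ i, if c t i then (QuotientAddGroup.mk (hz i) : Coker M) else 0)))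
      (AddSubgroup.closure (Set.range fun i => (QuotientAddGroup.mk (hz i) : Coker M))) ≤ X) :
    newL (LFg (matZ b) F) R (gF (matZ b) F) ∈
      LabSet n s₁ (Fintype.card β) y a (k + Fintype.card β) Dt X (newP (matZ b) R (gF (matZ b) F))
        (fun t => newH (matZ b) R (gF (matZ b) F) (c t)) := by
  have hQ := QL_eq b F R M hz h9
  refine ⟨M, fun t => ∑ i, if c t i then hz i else 0, h1, h2, h3, ?_, hrank, ?_, std_mem b F R M hz h3 h9,
    newP_int b F hd hgr R, ?_, ?_, ?_⟩
  · refine le_trans ?_ hDt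
    have hM0 : (0 : ℝ) < |(M.det : ℝ)| := abs_pos.mpr (by exact_mod_cast h3)
    apply Real.logb_le_logb_of_le (by norm_num) hM0
    have e1 : (M.det : ℝ) = ((matZ b).det : ℝ) * (((minor R (gF (matZ b) F) : ℚ) : ℝ)) ^ 2 := by
      have h7 := congrArg (fun x : ℚ => (x : ℝ)) h4
      simp only [Rat.cast_mul, Rat.cast_pow, Rat.cast_intCast] at h7
      exact h7
    rw [e1, abs_mul, abs_pow]
    have e2 : |((matZ b).det : ℝ)| ≤ (n.factorial : ℝ) := by
      have := det_le_fact b
      have h5 : (((matZ b).det.natAbs : ℕ) : ℝ) ≤ (n.factorial : ℝ) := by exact_mod_cast this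
      rwa [Nat.cast_natAbs, Int.cast_abs] at h5
    have e3 := minor_le R (gF (matZ b) F) Y hBd
    exact mul_le_mul e2 (pow_le_pow_left₀ (abs_nonneg _) e3 2) (by positivity) (by positivity)
  · intro t j
    show newH (matZ b) R (gF (matZ b) F) (c t) j = _
    rw [h6]
    push_cast
    rw [Finset.sum_apply]
    push_cast
    refine Finset.sum_congr rfl fun i _ => ?_
    by_cases hc : c t i
    · simp [hc]
    · simp [hc]
  · rw [hQ, AddSubgroup.closure_le]
    rintro _ ⟨t, rfl⟩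
    show (QuotientAddGroup.mk (∑ i, if c t i then hz i else 0) : Coker M) ∈ _
    rw [mk_sum]
    refine AddSubgroup.sum_mem _ fun i _ => ?_
    split_ifs
    · exact AddSubgroup.subset_closure ⟨i, rfl⟩
    · exact zero_mem _
  · refine ⟨fun i => (QuotientAddGroup.mk (hz ((Fintype.equivFin β).symm i)) : Coker M), ?_⟩
    rw [hQ]
    congr 1
    ext x
    constructor
    · rintro ⟨i, rfl⟩
      exact ⟨Fintype.equivFin β i, by simp⟩
    · rintro ⟨i, rfl⟩
      exact ⟨_, rfl⟩
  · rw [hQ]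
    have hr : (Set.range fun t => (QuotientAddGroup.mk (∑ i, if c t i then hz i else 0) : Coker M)) =
        Set.range fun t => (∑ i, if c t i then (QuotientAddGroup.mk (hz i) : Coker M) else 0) := by
      congr 1
      ext t
      exact mk_sum hz (c t)
    show ∑ p ∈ M.det.natAbs.primeFactors, cst (Fintype.card β) p (if y ≤ p then 0 else Fintype.card β * (a - 1))
      (AddSubgroup.closure (Set.range fun t => (QuotientAddGroup.mk (∑ i, if c t i then hz i else 0) : Coker M))) _ ≤ X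
    rw [hr]
    exact hcost

/-- rank of the exchanged matrix -/
theorem rank_ge (b : Bits n) (M : Matrix (Fin n) (Fin n) ℤ) (R : β → Fin n) (hR : Function.Injective R)
    (h5 : ∀ j k, j ∉ Set.range R → k ∉ Set.range R → M j k = matZ b j k) (k : ℕ) (hc : CorLt (matZ b) k)
    (p : ℕ) (hp : p.Prime) : n ≤ (M.map (Int.cast : ℤ → ZMod p)).rank + (k + Fintype.card β) := by
  have : Fact p.Prime := ⟨hp⟩
  set T : Finset (Fin n) := (univ.image R)ᶜ with hT
  have hTm : ∀ i ∈ T, i ∉ Set.range R := by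
    intro i hi
    rw [hT, Finset.mem_compl] at hi
    rintro ⟨q, hq⟩
    exact hi (Finset.mem_image.mpr ⟨q, Finset.mem_univ _, hq⟩)
  have h1 := hc p hp T
  have h2 : T.card + Fintype.card β = n := by
    rw [hT, Finset.card_compl, Finset.card_image_of_injective _ hR, Finset.card_univ, Fintype.card_fin]
    have : Fintype.card β ≤ n := by
      have := Fintype.card_le_of_injective R hR
      rwa [Fintype.card_fin] at this
    omega
  have h3 : prin ((matZ b).map (Int.cast : ℤ → ZMod p)) T = prin (M.map (Int.cast : ℤ → ZMod p)) T := by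
    ext i j
    have hi : (i : Fin n) ∉ Set.range R := hTm i.1 i.2
    have hj : (j : Fin n) ∉ Set.range R := hTm j.1 j.2
    show ((matZ b i j : ℤ) : ZMod p) = ((M i j : ℤ) : ZMod p)
    rw [h5 i j hi hj]
  have h4 : (prin (M.map (Int.cast : ℤ → ZMod p)) T).rank ≤ (M.map (Int.cast : ℤ → ZMod p)).rank := by
    unfold prin
    exact Matrix.rank_submatrix_le _ _ _
  rw [h3] at h1
  omega

end Vale.Agent.P160.Half.G.D479
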