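import Vale.Agent.P160.Half.GDetB

/-! # P160, half rate: gap (G), deterministic core from the cost statement (helper479) -/

open Finset Matrix

namespace Vale.Agent.P160.Half.G.D479

open A Labels

/-- the average gives a pair `(R, c)` of small cost -/
def CostEx : Prop := ∀ (n : ℕ) (β : Type) [Fintype β] [DecidableEq β] (b : Bits n) (F : Matrix (Fin n) β ℤ) (Xn y a z s s₁ : ℕ)
  (τ X B : ℝ) (Av : Finset (Fin n))
  (M' : (β → Fin n) → Matrix (Fin n) (Fin n) ℤ) (hz : (β → Fin n) → β → Fin n → ℤ) (D : ℕ),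
  0 < n → 1 ≤ Xn → 1 ≤ a → 2 ≤ y → 0 < τ → 0 ≤ X → (matZ b).det ≠ 0 → (∀ j q, |F j q| ≤ (Xn : ℤ)) →
  KZ (matZ b) F y a z →
  (∀ c : β → ℝ, (∀ q, |c q| ≤ 1) → (∃ q, |c q| = 1) → Set.ncard {j : Fin n | |∑ q, c q * ((gF (matZ b) F q j : ℚ) : ℝ)| < τ} ≤ s) →
  4 * (Fintype.card β * (s + Av.card + Fintype.card β)) ≤ n →
  Real.logb 2 (((Fintype.card β + 1).factorial * ((Fintype.card β + 1) * (n * n.factorial * Xn)) ^ (Fintype.card β + 1) : ℕ) : ℝ) ≤ B →
  ((Fintype.card β : ℝ) + 1) *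
      ((Real.logb 2 n.factorial + 2 * Fintype.card β * (Fintype.card β * a) * y * Real.logb 2 (y + 1)) *
          ((1 / 2) ^ s₁ * (Fintype.card β * z / n) + (Fintype.card β * z / n) ^ 2) +
        2 * (Fintype.card β * B) * ((1 / 2) ^ s₁ * (Fintype.card β * z / n) + Fintype.card β * (Fintype.card β * z / n) ^ 2)) ≤ X / 2 →
  0 < D → D ≤ (matZ b).det.natAbs →
  (∀ R : β → Fin n, Function.Injective R → minor R (gF (matZ b) F) ≠ 0 → (M' R).det ≠ 0) →
  (∀ R : β → Fin n, Function.Injective R → minor R (gF (matZ b) F) ≠ 0 →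
    ∀ c : β → ℤ, (∑ i, c i • (QuotientAddGroup.mk (hz R i) : Coker (M' R)) = 0 ↔ ∃ u ∈ KW (matZ b) F, ∀ i, u (R i) = c i)) →
  (∀ R : β → Fin n, Function.Injective R → minor R (gF (matZ b) F) ≠ 0 →
    Nat.card (Coker (M' R)) = D * (Nat.card (AddSubgroup.closure (Set.range fun i => (QuotientAddGroup.mk (hz R i) : Coker (M' R))))) ^ 2) →
  ∃ R : β → Fin n, Function.Injective R ∧ (∀ i, R i ∉ Av) ∧ τ ^ Fintype.card β ≤ |((minor R (gF (matZ b) F) : ℚ) : ℝ)| ∧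
    ∃ c : Fin s₁ → β → Bool, ∑ p ∈ (M' R).det.natAbs.primeFactors, cst (Fintype.card β) p (if y ≤ p then 0 else Fintype.card β * (a - 1))
      (AddSubgroup.closure (Set.range fun t => (∑ i, if c t i then (QuotientAddGroup.mk (hz R i) : Coker (M' R)) else 0)))
      (AddSubgroup.closure (Set.range fun i => (QuotientAddGroup.mk (hz R i) : Coker (M' R)))) ≤ X

theorem gdet_of (hce : CostEx) (hrel : RelStmt) : DetStmt := by
  intro n β _ _ b F Xn y a z k s s₁ τ Y Dt X B Av hn hXn ha hy hτ hY hX hd hF hgr hBd hKZ hCor hRC h4 hB hDt hnum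
  choose gr hgr' using hgr
  obtain ⟨M', hz, D, hD0, hD, hR⟩ := hrel n β b F (Matrix.of gr) hd (fun i k => hgr' i k)
  obtain ⟨R, hinj, hAv, hmin, c, hc⟩ := hce n β b F Xn y a z s s₁ τ X B Av M' hz D hn hXn ha hy hτ hX hd hF hKZ hRC h4 hB hnum hD0 hD
    (fun R h1 h2 => (hR R h1 h2).2.2.1)
    (fun R h1 h2 => (hR R h1 h2).2.2.2.2.2.2.1)
    (fun R h1 h2 => (hR R h1 h2).2.2.2.2.2.2.2.1)
  have hm0 : minor R (gF (matZ b) F) ≠ 0 := by
    intro h0
    rw [h0] at hmin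
    have : 0 < τ ^ Fintype.card β := by positivity
    simp only [Rat.cast_zero, abs_zero] at hmin
    linarith
  obtain ⟨r1, r2, r3, r4, r5, r6, r7, r8, r9⟩ := hR R hinj hm0
  refine ⟨R, hinj, hAv, hmin, c, ?_⟩
  exact mem_lab b F y a k s₁ Y Dt X hd (fun i k => ⟨gr i k, hgr' i k⟩) hBd hDt R (M' R) (hz R) r1 r2 r3 r4 r6 r9
    (fun p hp => rank_ge b (M' R) R hinj r5 k hCor p hp) c hc

end Vale.Agent.P160.Half.G.D479
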