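import Vale.Agent.P160.Half.GStmt4

/-! # P160, half rate: DetStmt, the cost part (helper837) -/

set_option linter.unusedVariables false
set_option linter.unusedSimpArgs false
set_option linter.unusedSectionVars false

open Finset Matrix

namespace Vale.Agent.P160.Half.G.Cost837

open A Labels

theorem fact_mono {a b : ℕ} (hb : b ≠ 0) (h : a ∣ b) (p : ℕ) : a.factorization p ≤ b.factorization p :=
  (Nat.factorization_le_iff_dvd (ne_zero_of_dvd_ne_zero hb h) hb).2 h p

theorem pp_le {G : Type*} [AddCommGroup G] (p e : ℕ) (Q : AddSubgroup G) : pp p e Q ≤ Q := by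
  rintro _ ⟨x, hx, rfl⟩
  exact Q.nsmul_mem hx.1 _

theorem cst_nonneg {G : Type*} [AddCommGroup G] [Finite G] (ρ p e : ℕ) (H Q : AddSubgroup G)
    (h : 2 * (Nat.card Q).factorization p ≤ (Nat.card G).factorization p) : 0 ≤ cst ρ p e H Q := by
  classical
  have h1 : (Nat.card (pp p e Q)).factorization p ≤ (Nat.card Q).factorization p :=
    fact_mono Nat.card_pos.ne' (AddSubgroup.card_dvd_of_le (pp_le p e Q)) p
  have h2 : (2 * (Nat.card (pp p e Q)).factorization p : ℝ) ≤ (Nat.card G).factorization p := by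
    exact_mod_cast (by omega : 2 * (Nat.card (pp p e Q)).factorization p ≤ (Nat.card G).factorization p)
  have h3 : (0 : ℝ) ≤ Real.logb 2 p := by
    rcases Nat.eq_zero_or_pos p with h0 | h0
    · subst h0; simp
    · exact Real.logb_nonneg (by norm_num) (by exact_mod_cast h0)
  unfold cst
  refine mul_nonneg (mul_nonneg (add_nonneg ?_ (by positivity)) (by positivity)) h3
  split_ifs
  · exact le_refl _
  · linarith

theorem sum_fact_le (D N : ℕ) (hD : 0 < D) (hN : D ≤ N) (Pr : Finset ℕ) (hPr : ∀ p ∈ Pr, p.Prime) :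
    ∑ p ∈ Pr, (D.factorization p : ℝ) * Real.logb 2 p ≤ Real.logb 2 N := by
  have h1 : Real.logb 2 D = ∑ p ∈ D.primeFactors, (D.factorization p : ℝ) * Real.logb 2 p := by
    conv_lhs => rw [← Nat.prod_factorization_pow_eq_self hD.ne']
    rw [Finsupp.prod, Nat.support_factorization]
    push_cast
    rw [Real.logb_prod]
    · refine Finset.sum_congr rfl fun p hp => ?_
      rw [Real.logb_pow]
    · intro p hp
      have := (Nat.prime_of_mem_primeFactors hp).pos
      positivity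
  have h2 : ∑ p ∈ Pr, (D.factorization p : ℝ) * Real.logb 2 p ≤
      ∑ p ∈ Pr ∪ D.primeFactors, (D.factorization p : ℝ) * Real.logb 2 p := by
    refine Finset.sum_le_sum_of_subset_of_nonneg Finset.subset_union_left fun p hp _ => ?_
    have hpp : p.Prime := by
      rcases Finset.mem_union.1 hp with h | h
      · exact hPr p h
      · exact Nat.prime_of_mem_primeFactors h
    exact mul_nonneg (by positivity) (Real.logb_nonneg (by norm_num) (by exact_mod_cast hpp.pos))
  have h3 : ∑ p ∈ Pr ∪ D.primeFactors, (D.factorization p : ℝ) * Real.logb 2 p =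
      ∑ p ∈ D.primeFactors, (D.factorization p : ℝ) * Real.logb 2 p := by
    symm
    refine Finset.sum_subset Finset.subset_union_right fun p _ hp => ?_
    rw [← Nat.support_factorization, Finsupp.notMem_support_iff] at hp
    rw [hp]
    simp
  rw [h3, ← h1] at h2
  refine h2.trans ?_
  exact Real.logb_le_logb_of_le (by norm_num) (by exact_mod_cast hD) (by exact_mod_cast hN)

theorem det_le {n : ℕ} (b : Bits n) : (matZ b).det.natAbs ≤ n.factorial := by
  have h := Matrix.det_le (A := matZ b) (abv := AbsoluteValue.abs) (x := 1) (by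
    intro i j
    simp only [AbsoluteValue.abs_apply, matZ]
    split_ifs <;> simp)
  simp only [AbsoluteValue.abs_apply, Fintype.card_fin, one_pow, nsmul_eq_mul, mul_one] at h
  have : ((matZ b).det.natAbs : ℤ) ≤ n.factorial := by
    rw [Int.natCast_natAbs]; exact h
  exact_mod_cast this

theorem count_good (hgood : GoodRStmt) {n : ℕ} {β : Type} [Fintype β] [DecidableEq β] (g : β → Fin n → ℚ)
    (τ : ℝ) (s : ℕ) (Av : Finset (Fin n)) (hτ : 0 < τ)
    (hc : ∀ c : β → ℝ, (∀ q, |c q| ≤ 1) → (∃ q, |c q| = 1) →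
      Set.ncard {j : Fin n | |∑ q, c q * ((g q j : ℚ) : ℝ)| < τ} ≤ s)
    (h4 : 4 * (Fintype.card β * (s + Av.card + Fintype.card β)) ≤ n) :
    (n : ℝ) ^ Fintype.card β / 2 ≤
      ((Nat.card {R : β → Fin n // Function.Injective R ∧ (∀ i, R i ∉ Av) ∧ τ ^ Fintype.card β ≤ |((minor R g : ℚ) : ℝ)|} : ℕ) : ℝ) := by
  refine le_trans ?_ (hgood n β g τ s Av hτ hc)
  rcases Nat.eq_zero_or_pos (Fintype.card β) with h0 | h0
  · rw [h0]; norm_num
  · obtain ⟨m, hm⟩ : ∃ m, Fintype.card β = m + 1 := ⟨Fintype.card β - 1, by omega⟩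
    have h5 : ((Fintype.card β : ℝ) * (s + Av.card + Fintype.card β)) ≤ n / 4 := by
      have : (4 : ℝ) * (Fintype.card β * (s + Av.card + Fintype.card β)) ≤ n := by exact_mod_cast h4
      linarith
    have h6 : (0 : ℝ) ≤ (n : ℝ) ^ m := by positivity
    have h7 := mul_le_mul_of_nonneg_right h5 h6
    rw [show Fintype.card β - 1 = m by omega]
    have h8 : (n : ℝ) ^ Fintype.card β = n * (n : ℝ) ^ m := by rw [hm, pow_succ]; ring
    rw [h8]
    have h9 : (0 : ℝ) ≤ (n : ℝ) * (n : ℝ) ^ m := by positivity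
    nlinarith

theorem coker_fin {n : ℕ} (M : Matrix (Fin n) (Fin n) ℤ) (h : M.det ≠ 0) : Finite (Coker M) := by
  apply Nat.finite_of_card_ne_zero
  rw [card_coker M h]
  exact Int.natAbs_ne_zero.mpr h

theorem cost_ex (havg : AvgStmt) (hkzf : KZFStmt) (hcon : ConStmt) (hgood : GoodRStmt) {n : ℕ} {β : Type}
    [Fintype β] [DecidableEq β] (b : Bits n) (F : Matrix (Fin n) β ℤ) (Xn y a z s s₁ : ℕ) (τ X B : ℝ)
    (Av : Finset (Fin n)) (hn : 0 < n) (hXn : 1 ≤ Xn) (ha : 1 ≤ a) (hτ : 0 < τ) (hX : 0 ≤ X)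
    (hdet : (matZ b).det ≠ 0) (hF : ∀ j q, |F j q| ≤ (Xn : ℤ)) (hKZ : KZ (matZ b) F y a z)
    (hc : ∀ c : β → ℝ, (∀ q, |c q| ≤ 1) → (∃ q, |c q| = 1) →
      Set.ncard {j : Fin n | |∑ q, c q * ((gF (matZ b) F q j : ℚ) : ℝ)| < τ} ≤ s)
    (h4 : 4 * (Fintype.card β * (s + Av.card + Fintype.card β)) ≤ n)
    (hB : Real.logb 2 (((Fintype.card β + 1).factorial *
      ((Fintype.card β + 1) * (n * n.factorial * Xn)) ^ (Fintype.card β + 1) : ℕ) : ℝ) ≤ B)
    (hnum : ((Fintype.card β : ℝ) + 1) *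
      ((Real.logb 2 n.factorial + 2 * Fintype.card β * (Fintype.card β * a) * y * Real.logb 2 (y + 1)) *
          ((1 / 2) ^ s₁ * (Fintype.card β * z / n) + (Fintype.card β * z / n) ^ 2) +
        2 * (Fintype.card β * B) * ((1 / 2) ^ s₁ * (Fintype.card β * z / n) +
          Fintype.card β * (Fintype.card β * z / n) ^ 2)) ≤ X / 2)
    (M' : (β → Fin n) → Matrix (Fin n) (Fin n) ℤ) (hz : (β → Fin n) → β → Fin n → ℤ) (D : ℕ) (hD0 : 0 < D)
    (hD : D ≤ (matZ b).det.natAbs)
    (h1 : ∀ R : β → Fin n, Function.Injective R → minor R (gF (matZ b) F) ≠ 0 → (M' R).det ≠ 0)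
    (h2 : ∀ R : β → Fin n, Function.Injective R → minor R (gF (matZ b) F) ≠ 0 →
      ∀ c : β → ℤ, (∑ i, c i • (QuotientAddGroup.mk (hz R i) : Coker (M' R)) = 0 ↔
        ∃ u ∈ KW (matZ b) F, ∀ i, u (R i) = c i))
    (h3 : ∀ R : β → Fin n, Function.Injective R → minor R (gF (matZ b) F) ≠ 0 →
      Nat.card (Coker (M' R)) = D * (Nat.card (AddSubgroup.closure
        (Set.range fun i => (QuotientAddGroup.mk (hz R i) : Coker (M' R))))) ^ 2) :
    ∃ R : β → Fin n, Function.Injective R ∧ (∀ i, R i ∉ Av) ∧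
      τ ^ Fintype.card β ≤ |((minor R (gF (matZ b) F) : ℚ) : ℝ)| ∧
      ∃ c : Fin s₁ → β → Bool, ∑ p ∈ (M' R).det.natAbs.primeFactors,
        cst (Fintype.card β) p (if y ≤ p then 0 else Fintype.card β * (a - 1))
          (AddSubgroup.closure (Set.range fun t =>
            (∑ i, if c t i then (QuotientAddGroup.mk (hz R i) : Coker (M' R)) else 0)))
          (AddSubgroup.closure (Set.range fun i => (QuotientAddGroup.mk (hz R i) : Coker (M' R)))) ≤ X := by
  classical
  set g := gF (matZ b) F with hg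
  set ρ := Fintype.card β with hρ
  have e : β ≃ Fin ρ := Fintype.equivFin β
  let good : (β → Fin n) → Prop := fun R =>
    Function.Injective R ∧ (∀ i, R i ∉ Av) ∧ τ ^ ρ ≤ |((minor R g : ℚ) : ℝ)|
  have hmin : ∀ R, good R → minor R g ≠ 0 := by
    intro R hR h0
    have h5 := hR.2.2
    rw [h0] at h5
    have h6 : 0 < τ ^ ρ := pow_pos hτ _
    simp only [Rat.cast_zero, abs_zero] at h5
    linarith
  let 𝓡 : Finset (Fin ρ → Fin n) := univ.filter fun R => good (R ∘ e)
  have hmem : ∀ R, R ∈ 𝓡 ↔ good (R ∘ e) := by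
    intro R; simp only [𝓡, mem_filter, mem_univ, true_and]
  have hcard : Nat.card {R : β → Fin n // good R} = 𝓡.card := by
    rw [Nat.card_eq_fintype_card, Fintype.card_subtype]
    refine Finset.card_bij' (fun R _ => R ∘ e.symm) (fun R _ => R ∘ e) ?_ ?_ ?_ ?_
    · intro R hR
      rw [hmem]
      have : (R ∘ e.symm) ∘ e = R := by funext i; simp
      rw [this]
      exact (mem_filter.1 hR).2
    · intro R hR
      exact mem_filter.2 ⟨mem_univ _, (hmem R).1 hR⟩
    · intro R _; funext i; simp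
    · intro R _; funext i; simp
  have hcount : (n : ℝ) ^ ρ / 2 ≤ (𝓡.card : ℝ) := by
    have := count_good hgood g τ s Av hτ hc h4
    rw [hcard] at this
    exact this
  have hnR : (0 : ℝ) < n := by exact_mod_cast hn
  have hRpos : (0 : ℝ) < 𝓡.card := lt_of_lt_of_le (by positivity) hcount
  have hdetR : ∀ R ∈ 𝓡, (M' (R ∘ e)).det ≠ 0 := fun R hR =>
    h1 _ ((hmem R).1 hR).1 (hmin _ ((hmem R).1 hR))
  let Pr : Finset ℕ := 𝓡.biUnion fun R => (M' (R ∘ e)).det.natAbs.primeFactors
  have hPr : ∀ p ∈ Pr, p.Prime := by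
    intro p hp
    obtain ⟨R, _, hp2⟩ := mem_biUnion.1 hp
    exact Nat.prime_of_mem_primeFactors hp2
  have hN1 : 1 ≤ ((ρ + 1).factorial * ((ρ + 1) * (n * n.factorial * Xn)) ^ (ρ + 1)) := by
    have : 0 < (ρ + 1).factorial := Nat.factorial_pos _
    have : 0 < n.factorial := Nat.factorial_pos _
    have : 0 < Xn := hXn
    exact Nat.succ_le_of_lt (by positivity)
  have hB0 : 0 ≤ B := le_trans (Real.logb_nonneg (by norm_num) (by exact_mod_cast hN1)) hB
  have hrange : ∀ R : Fin ρ → Fin n, (Set.range fun i : Fin ρ =>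
      (QuotientAddGroup.mk (hz (R ∘ e) (e.symm i)) : Coker (M' (R ∘ e)))) =
      Set.range fun i : β => (QuotientAddGroup.mk (hz (R ∘ e) i) : Coker (M' (R ∘ e))) := by
    intro R
    exact e.symm.surjective.range_comp
      (fun i : β => (QuotientAddGroup.mk (hz (R ∘ e) i) : Coker (M' (R ∘ e))))
  have hfact : ∀ R ∈ 𝓡, ∀ p, (Nat.card (Coker (M' (R ∘ e)))).factorization p = D.factorization p +
      2 * (Nat.card (AddSubgroup.closure (Set.range fun i : β =>
        (QuotientAddGroup.mk (hz (R ∘ e) i) : Coker (M' (R ∘ e)))))).factorization p := by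
    intro R hR p
    have hfin := coker_fin _ (hdetR R hR)
    rw [h3 _ ((hmem R).1 hR).1 (hmin _ ((hmem R).1 hR)), Nat.factorization_mul hD0.ne'
      (pow_ne_zero _ Nat.card_pos.ne'), Nat.factorization_pow]
    simp
  have hT : ∀ i : Fin ρ, ∀ R : Fin ρ → Fin n, ((univ.filter fun j => j < i).image R).card < Fintype.card β := by
    intro i R
    refine lt_of_le_of_lt Finset.card_image_le ?_
    have h5 : (univ.filter fun j => j < i).card = i.val := by
      rw [show (univ.filter fun j : Fin ρ => j < i) = Finset.Iio i by ext j; simp, Fin.card_Iio]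
    rw [h5]; exact i.isLt
  have hTi : ∀ (i : Fin ρ) (R : Fin ρ → Fin n) (u : Fin n → ℤ),
      (∀ j ∈ (univ.filter fun j => j < i).image R, u j = 0) ↔ ∀ j < i, u (R j) = 0 := by
    intro i R u
    constructor
    · intro h j hj
      exact h _ (mem_image_of_mem R (mem_filter.2 ⟨mem_univ _, hj⟩))
    · intro h j hj
      obtain ⟨k, hk, rfl⟩ := mem_image.1 hj
      exact h k (mem_filter.1 hk).2
  have hav := havg n ρ s₁ y a z (KW (matZ b) F) B (Real.logb 2 n.factorial) (fun p => D.factorization p) Pr 𝓡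
    (fun R => Coker (M' (R ∘ e))) (fun R i => (QuotientAddGroup.mk (hz (R ∘ e) (e.symm i)) : Coker (M' (R ∘ e))))
    hn ha hB0 (Real.logb_nonneg (by norm_num) (by exact_mod_cast Nat.succ_le_of_lt (Nat.factorial_pos n)))
    (fun R hR => coker_fin _ (hdetR R hR))
    (by
      intro R hR c
      have h5 := h2 _ ((hmem R).1 hR).1 (hmin _ ((hmem R).1 hR)) (fun i => c (e i))
      have h6 : ∑ i : Fin ρ, c i • (QuotientAddGroup.mk (hz (R ∘ e) (e.symm i)) : Coker (M' (R ∘ e))) =
          ∑ i : β, c (e i) • (QuotientAddGroup.mk (hz (R ∘ e) i) : Coker (M' (R ∘ e))) := by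
        rw [← e.sum_comp]
        refine Finset.sum_congr rfl fun i _ => ?_
        rw [e.symm_apply_apply]
      rw [h6, h5]
      constructor
      · rintro ⟨u, hu, h7⟩
        refine ⟨u, hu, fun i => ?_⟩
        have := h7 (e.symm i)
        simpa using this
      · rintro ⟨u, hu, h7⟩
        exact ⟨u, hu, fun i => h7 (e i)⟩)
    (by
      intro R hR p
      have h5 := hfact R hR p
      rw [← hrange R] at h5
      exact h5.le)
    hPr
    (sum_fact_le D n.factorial hD0 (hD.trans (det_le b)) Pr hPr)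
    (by
      intro p hp i R
      have h5 := hkzf n β (matZ b) F y a z hdet ha hKZ p (hPr p hp) ((univ.filter fun j => j < i).image R) (hT i R)
      simp only [hTi i R] at h5
      exact h5)
    (by
      rintro i R ⟨u, hu, h5, h6⟩
      obtain ⟨u', hu', h7, h8, h9⟩ := hcon n β b F Xn hdet hXn hF ((univ.filter fun j => j < i).image R) (R i)
        (hT i R) ⟨u, hu, (hTi i R u).2 h5, h6⟩
      refine ⟨u', hu', (hTi i R u').1 h7, h8, le_trans ?_ hB⟩
      have h10 : (0 : ℝ) < |(u' (R i) : ℝ)| := abs_pos.2 (by exact_mod_cast h8)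
      refine Real.logb_le_logb_of_le (by norm_num) h10 ?_
      exact_mod_cast h9)
  -- Markov
  have hav2 : ∑ R ∈ 𝓡, ∑ c : Fin s₁ → Fin ρ → Bool, ∑ p ∈ Pr, cst ρ p (if y ≤ p then 0 else ρ * (a - 1))
      (AddSubgroup.closure (Set.range fun t : Fin s₁ => ∑ i, if c t i then
        (QuotientAddGroup.mk (hz (R ∘ e) (e.symm i)) : Coker (M' (R ∘ e))) else 0))
      (AddSubgroup.closure (Set.range fun i : Fin ρ =>
        (QuotientAddGroup.mk (hz (R ∘ e) (e.symm i)) : Coker (M' (R ∘ e))))) ≤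
      ∑ R ∈ 𝓡, ∑ c : Fin s₁ → Fin ρ → Bool, X := by
    refine hav.trans ?_
    rw [Finset.sum_const, Finset.sum_const, Finset.card_univ]
    have h5 : Fintype.card (Fin s₁ → Fin ρ → Bool) = 2 ^ (s₁ * ρ) := by
      simp [← pow_mul, mul_comm]
    rw [h5, nsmul_eq_mul, nsmul_eq_mul]
    push_cast
    have h6 : (0 : ℝ) ≤ (n : ℝ) ^ ρ * 2 ^ (s₁ * ρ) := by positivity
    have h7 := mul_le_mul_of_nonneg_left hnum h6
    rw [← mul_assoc] at h7
    refine h7.trans ?_
    have h8 : (0 : ℝ) ≤ 2 ^ (s₁ * ρ) * X := by positivity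
    have h9 := mul_le_mul_of_nonneg_right hcount h8
    calc (n : ℝ) ^ ρ * 2 ^ (s₁ * ρ) * (X / 2) = (n : ℝ) ^ ρ / 2 * (2 ^ (s₁ * ρ) * X) := by ring
      _ ≤ _ := h9
  have hne : 𝓡.Nonempty := Finset.card_pos.1 (by exact_mod_cast hRpos)
  obtain ⟨R, hR, h5⟩ := Finset.exists_le_of_sum_le hne hav2
  obtain ⟨c, _, h6⟩ := Finset.exists_le_of_sum_le Finset.univ_nonempty h5
  have hgR := (hmem R).1 hR
  have hfin := coker_fin _ (hdetR R hR)
  refine ⟨R ∘ e, hgR.1, hgR.2.1, hgR.2.2, fun t i => c t (e i), ?_⟩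
  rw [hrange R] at h6
  have h7 : (fun t : Fin s₁ => ∑ i : Fin ρ, if c t i then
        (QuotientAddGroup.mk (hz (R ∘ e) (e.symm i)) : Coker (M' (R ∘ e))) else 0) =
      fun t => ∑ i : β, if c t (e i) then (QuotientAddGroup.mk (hz (R ∘ e) i) : Coker (M' (R ∘ e))) else 0 := by
    funext t
    rw [← e.sum_comp]
    refine Finset.sum_congr rfl fun i _ => ?_
    rw [e.symm_apply_apply]
  rw [h7] at h6
  refine le_trans ?_ h6
  refine Finset.sum_le_sum_of_subset_of_nonneg ?_ ?_
  · intro p hp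
    exact mem_biUnion.2 ⟨R, hR, hp⟩
  · intro p _ _
    refine cst_nonneg _ _ _ _ _ ?_
    rw [hfact R hR p]
    omega

end Vale.Agent.P160.Half.G.Cost837
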