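import Vale.Agent.P160.Half.GDetC

/-! # P160, half rate: gap (G), deterministic core: the average gives a cheap pair (helper479) -/

open Finset Matrix

namespace Vale.Agent.P160.Half.G.D479

open A Labels

theorem cst_nonneg {G : Type*} [AddCommGroup G] [Finite G] (ρ p e : ℕ) (hp : p.Prime) (H Q : AddSubgroup G)
    (h : (Nat.card G).factorization p = 0) : 0 ≤ cst ρ p e H Q := by
  unfold cst
  have h1 : (Nat.card (pp p e Q)).factorization p = 0 := by
    have h2 : Nat.card (pp p e Q) ∣ Nat.card G := AddSubgroup.card_addSubgroup_dvd_card _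
    have h3 := (Nat.factorization_le_iff_dvd (Nat.card_pos.ne') (Nat.card_pos.ne')).mpr h2
    have := h3 p
    omega
  have h4 : (0 : ℝ) ≤ Real.logb 2 p := Real.logb_nonneg (by norm_num) (by exact_mod_cast hp.one_le)
  rw [h, h1]
  split_ifs
  · positivity
  · simp only [Nat.cast_zero, mul_zero, sub_zero, zero_add]
    positivity

theorem sum_fact_le (D : ℕ) (hD : 0 < D) (Pr : Finset ℕ) (hPr : ∀ p ∈ Pr, p.Prime) :
    ∑ p ∈ Pr, (D.factorization p : ℝ) * Real.logb 2 p ≤ Real.logb 2 D := by
  have h1 : Real.logb 2 D = ∑ p ∈ D.primeFactors, (D.factorization p : ℝ) * Real.logb 2 p := by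
    have h2 : (D : ℝ) = ∏ p ∈ D.primeFactors, (p : ℝ) ^ (D.factorization p) := by
      have h3 := Nat.prod_factorization_pow_eq_self hD.ne'
      rw [Finsupp.prod, Nat.support_factorization] at h3
      conv_lhs => rw [← h3]
      push_cast
      rfl
    conv_lhs => rw [h2]
    rw [Real.logb_prod]
    · refine Finset.sum_congr rfl fun p _ => ?_
      rw [Real.logb_pow]
    · intro p hp
      have := (Nat.prime_of_mem_primeFactors hp).pos
      positivity
  rw [h1]
  have h5 : ∑ p ∈ Pr, (D.factorization p : ℝ) * Real.logb 2 p ≤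
      ∑ p ∈ Pr ∪ D.primeFactors, (D.factorization p : ℝ) * Real.logb 2 p := by
    apply Finset.sum_le_sum_of_subset_of_nonneg Finset.subset_union_left
    intro p hp _
    have hpp : p.Prime := by
      rcases Finset.mem_union.mp hp with h | h
      · exact hPr p h
      · exact Nat.prime_of_mem_primeFactors h
    have h4 : (0 : ℝ) ≤ Real.logb 2 p := Real.logb_nonneg (by norm_num) (by exact_mod_cast hpp.one_le)
    positivity
  refine h5.trans (le_of_eq ?_)
  symm
  apply Finset.sum_subset Finset.subset_union_right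
  intro p _ hp
  have : D.factorization p = 0 := by
    rwa [← Finsupp.notMem_support_iff, Nat.support_factorization]
  rw [this]
  simp

theorem costEx (havg : AvgStmt) (hkzf : KZFStmt) (hcon : ConStmt) (hgood : GoodRStmt) : CostEx := by
  classical
  intro n β _ _ b F Xn y a z s s₁ τ X B Av M' hz D hn hXn ha hy hτ hX hd hF hKZ hRC h4 hB hnum hD0 hD k1 k2 k3
  obtain ⟨ρ, hρ⟩ : ∃ ρ, ρ = Fintype.card β := ⟨_, rfl⟩
  rw [← hρ] at h4 hB hnum ⊢
  let e : β ≃ Fin ρ := (Fintype.equivFin β).trans (finCongr hρ.symm)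
  set g := gF (matZ b) F with hg
  let Good : (β → Fin n) → Prop := fun R => Function.Injective R ∧ (∀ i, R i ∉ Av) ∧
    τ ^ ρ ≤ |((minor R g : ℚ) : ℝ)|
  have hm0 : ∀ R, Good R → minor R g ≠ 0 := by
    rintro R ⟨_, _, h3⟩ h0
    rw [h0] at h3
    have : 0 < τ ^ ρ := by positivity
    simp only [Rat.cast_zero, abs_zero] at h3
    linarith
  have hcount : (n : ℝ) ^ ρ - ρ * (s + Av.card + ρ) * (n : ℝ) ^ (ρ - 1) ≤
      (Nat.card {R : β → Fin n // Good R} : ℝ) := by
    have := hgood n β g τ s Av hτ hRC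
    rw [← hρ] at this
    exact this
  let RR : Finset (Fin ρ → Fin n) := univ.filter (fun R => Good (R ∘ e))
  have hRRc : RR.card = Nat.card {R : β → Fin n // Good R} := by
    rw [← Fintype.card_coe, ← Nat.card_eq_fintype_card]
    refine Nat.card_congr
      { toFun := fun R => ⟨R.1 ∘ e, (Finset.mem_filter.mp R.2).2⟩
        invFun := fun R => ⟨R.1 ∘ e.symm, Finset.mem_filter.mpr ⟨Finset.mem_univ _, by
          have : (R.1 ∘ e.symm) ∘ e = R.1 := by ext; simp
          rw [this]
          exact R.2⟩⟩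
        left_inv := fun R => by
          apply Subtype.ext
          ext i; simp
        right_inv := fun R => by
          apply Subtype.ext
          ext i; simp }
  have hRRm : ∀ R ∈ RR, Good (R ∘ e) := fun R h => (Finset.mem_filter.mp h).2
  have hn' : (0 : ℝ) < n := by exact_mod_cast hn
  have h34 : (3 / 4 : ℝ) * (n : ℝ) ^ ρ ≤ RR.card := by
    rw [hRRc]
    refine le_trans ?_ hcount
    rcases Nat.eq_zero_or_pos ρ with h0 | h0
    · rw [h0]
      norm_num
    · have h5 : (n : ℝ) ^ ρ = n * (n : ℝ) ^ (ρ - 1) := by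
        rw [← pow_succ']
        congr 1
        omega
      have h6 : (4 : ℝ) * (ρ * (s + Av.card + ρ)) ≤ n := by exact_mod_cast h4
      have h7 : (0 : ℝ) < (n : ℝ) ^ (ρ - 1) := by positivity
      rw [h5]
      nlinarith [mul_le_mul_of_nonneg_right h6 h7.le]
  let Pr : Finset ℕ := RR.biUnion (fun R => (M' (R ∘ e)).det.natAbs.primeFactors)
  have hPr : ∀ p ∈ Pr, p.Prime := by
    intro p hp
    obtain ⟨R, _, h⟩ := Finset.mem_biUnion.mp hp
    exact Nat.prime_of_mem_primeFactors h
  have hdet : ∀ R ∈ RR, (M' (R ∘ e)).det ≠ 0 := fun R hR => k1 _ (hRRm R hR).1 (hm0 _ (hRRm R hR))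
  have hfin : ∀ R ∈ RR, Finite (Coker (M' (R ∘ e))) := fun R hR => coker_finite _ (hdet R hR)
  have hfac1 : (1 : ℝ) ≤ n.factorial := by exact_mod_cast Nat.one_le_iff_ne_zero.mpr n.factorial_ne_zero
  have hB0 : 0 ≤ B := by
    refine le_trans (Real.logb_nonneg (by norm_num) ?_) hB
    have : 0 < (ρ + 1).factorial * ((ρ + 1) * (n * n.factorial * Xn)) ^ (ρ + 1) := by positivity
    exact_mod_cast this
  have hx : ∀ R : Fin ρ → Fin n, (Set.range fun i : Fin ρ => (QuotientAddGroup.mk (hz (R ∘ e) (e.symm i)) : Coker (M' (R ∘ e)))) =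
      Set.range fun i : β => (QuotientAddGroup.mk (hz (R ∘ e) i) : Coker (M' (R ∘ e))) := by
    intro R
    ext x
    constructor
    · rintro ⟨i, rfl⟩
      exact ⟨_, rfl⟩
    · rintro ⟨i, rfl⟩
      exact ⟨e i, by simp⟩
  have hav := havg n ρ s₁ y a z (KW (matZ b) F) B (Real.logb 2 n.factorial) (fun p => D.factorization p) Pr RR
    (fun R => Coker (M' (R ∘ e))) (fun R i => (QuotientAddGroup.mk (hz (R ∘ e) (e.symm i)) : Coker (M' (R ∘ e))))
    hn ha hB0 (Real.logb_nonneg (by norm_num) hfac1) hfin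
    (by
      intro R hR c
      have h1 := k2 (R ∘ e) (hRRm R hR).1 (hm0 _ (hRRm R hR)) (fun i => c (e i))
      have h2 : ∑ i : Fin ρ, c i • (QuotientAddGroup.mk (hz (R ∘ e) (e.symm i)) : Coker (M' (R ∘ e))) =
          ∑ i : β, c (e i) • (QuotientAddGroup.mk (hz (R ∘ e) i) : Coker (M' (R ∘ e))) := by
        rw [← Equiv.sum_comp e]
        refine Finset.sum_congr rfl fun i _ => ?_
        simp
      rw [h2, h1]
      constructor
      · rintro ⟨u, hu, h⟩
        refine ⟨u, hu, fun i => ?_⟩
        have := h (e.symm i)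
        simpa using this
      · rintro ⟨u, hu, h⟩
        exact ⟨u, hu, fun i => h (e i)⟩)
    (by
      intro R hR p
      have := hfin R hR
      have h1 := k3 (R ∘ e) (hRRm R hR).1 (hm0 _ (hRRm R hR))
      rw [hx R]
      rw [h1, Nat.factorization_mul hD0.ne' (pow_ne_zero _ Nat.card_pos.ne'), Nat.factorization_pow]
      simp)
    hPr
    (by
      refine (sum_fact_le D hD0 Pr hPr).trans ?_
      apply Real.logb_le_logb_of_le (by norm_num) (by exact_mod_cast hD0)
      exact_mod_cast hD.trans (det_le_fact b))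
    (by
      intro p hp i R
      have hT : ((univ.filter (· < i)).image R).card < Fintype.card β := by
        refine lt_of_le_of_lt Finset.card_image_le ?_
        have h1 : (univ.filter (· < i) : Finset (Fin ρ)).card = i := by
          rw [← Fin.card_Iio i]
          congr 1
          ext j
          simp
        rw [h1, ← hρ]
        exact i.2
      have h2 := hkzf n β (matZ b) F y a z hd ha hKZ p (hPr p hp) ((univ.filter (· < i)).image R) hT
      refine le_trans (le_of_eq ?_) h2
      refine Nat.card_congr (Equiv.subtypeEquivRight fun r => ?_)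
      refine forall₂_congr fun u _ => ?_
      rw [Finset.forall_mem_image]
      simp only [Finset.mem_filter, Finset.mem_univ, true_and])
    (by
      intro i R
      rintro ⟨u, hu, h1, h2⟩
      have hT : ((univ.filter (· < i)).image R).card < Fintype.card β := by
        refine lt_of_le_of_lt Finset.card_image_le ?_
        have h1 : (univ.filter (· < i) : Finset (Fin ρ)).card = i := by
          rw [← Fin.card_Iio i]
          congr 1
          ext j
          simp
        rw [h1, ← hρ]
        exact i.2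
      obtain ⟨v, hv, hv1, hv2, hv3⟩ := hcon n β b F Xn hd hXn hF ((univ.filter (· < i)).image R) (R i) hT
        ⟨u, hu, by
          rw [Finset.forall_mem_image]
          intro j hj
          exact h1 j (Finset.mem_filter.mp hj).2, h2⟩
      refine ⟨v, hv, ?_, hv2, ?_⟩
      · intro j hj
        exact hv1 _ (Finset.mem_image_of_mem _ (Finset.mem_filter.mpr ⟨Finset.mem_univ _, hj⟩))
      · refine le_trans ?_ hB
        apply Real.logb_le_logb_of_le (by norm_num)
        · exact abs_pos.mpr (by exact_mod_cast hv2)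
        · rw [← hρ] at hv3
          have h5 : ((|v (R i)| : ℤ) : ℝ) ≤ (((((ρ + 1).factorial * ((ρ + 1) * (n * n.factorial * Xn)) ^ (ρ + 1) : ℕ) : ℤ)) : ℝ) := by
            exact_mod_cast hv3
          rw [Int.cast_abs, Int.cast_natCast] at h5
          exact h5)
  -- contradiction
  by_contra hcon'
  push Not at hcon'
  have hcost : ∀ R ∈ RR, ∀ c : Fin s₁ → Fin ρ → Bool,
      X < ∑ p ∈ Pr, cst ρ p (if y ≤ p then 0 else ρ * (a - 1))
        (AddSubgroup.closure (Set.range fun t : Fin s₁ => ∑ i, if c t i then (QuotientAddGroup.mk (hz (R ∘ e) (e.symm i)) : Coker (M' (R ∘ e))) else 0))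
        (AddSubgroup.closure (Set.range fun i : Fin ρ => (QuotientAddGroup.mk (hz (R ∘ e) (e.symm i)) : Coker (M' (R ∘ e))))) := by
    intro R hR c
    obtain ⟨g1, g2, g3⟩ := hRRm R hR
    have h1 := hcon' (R ∘ e) g1 g2 g3 (fun t i => c t (e i))
    have := hfin R hR
    rw [hx R]
    have h2 : (Set.range fun t : Fin s₁ => ∑ i, if c t i then (QuotientAddGroup.mk (hz (R ∘ e) (e.symm i)) : Coker (M' (R ∘ e))) else 0) =
        Set.range fun t : Fin s₁ => ∑ i, if c t (e i) then (QuotientAddGroup.mk (hz (R ∘ e) i) : Coker (M' (R ∘ e))) else 0 := by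
      congr 1
      ext t
      rw [← Equiv.sum_comp e]
      refine Finset.sum_congr rfl fun i _ => ?_
      simp
    rw [h2]
    refine lt_of_lt_of_le h1 ?_
    apply Finset.sum_le_sum_of_subset_of_nonneg
    · exact Finset.subset_biUnion_of_mem (fun R => (M' (R ∘ e)).det.natAbs.primeFactors) hR
    · intro p hp hp2
      apply cst_nonneg _ _ _ (hPr p hp)
      rw [card_coker _ (hdet R hR)]
      rwa [← Finsupp.notMem_support_iff, Nat.support_factorization]
  have hne : RR.Nonempty := by
    rw [← Finset.card_pos]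
    have : (0 : ℝ) < RR.card := lt_of_lt_of_le (by positivity) h34
    exact_mod_cast this
  have hbig : (RR.card : ℝ) * 2 ^ (s₁ * ρ) * X < ∑ R ∈ RR, ∑ c : Fin s₁ → Fin ρ → Bool, ∑ p ∈ Pr, cst ρ p (if y ≤ p then 0 else ρ * (a - 1))
      (AddSubgroup.closure (Set.range fun t : Fin s₁ => ∑ i, if c t i then (QuotientAddGroup.mk (hz (R ∘ e) (e.symm i)) : Coker (M' (R ∘ e))) else 0))
        (AddSubgroup.closure (Set.range fun i : Fin ρ => (QuotientAddGroup.mk (hz (R ∘ e) (e.symm i)) : Coker (M' (R ∘ e))))) := by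
    have h1 : (RR.card : ℝ) * 2 ^ (s₁ * ρ) * X = ∑ R ∈ RR, ∑ c : Fin s₁ → Fin ρ → Bool, X := by
      rw [Finset.sum_const, Finset.sum_const, Finset.card_univ]
      simp only [Fintype.card_fun, Fintype.card_fin, Fintype.card_bool, nsmul_eq_mul]
      push_cast
      rw [← pow_mul, mul_comm ρ s₁]
      ring
    rw [h1]
    apply Finset.sum_lt_sum_of_nonempty hne
    intro R hR
    apply Finset.sum_lt_sum_of_nonempty Finset.univ_nonempty
    intro c _
    exact hcost R hR c
  have hfinal : (n : ℝ) ^ ρ * 2 ^ (s₁ * ρ) * (X / 2) < (n : ℝ) ^ ρ * 2 ^ (s₁ * ρ) * (X / 2) := by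
    calc (n : ℝ) ^ ρ * 2 ^ (s₁ * ρ) * (X / 2) ≤ (RR.card : ℝ) * 2 ^ (s₁ * ρ) * X := by
          have h5 : (0 : ℝ) < 2 ^ (s₁ * ρ) := by positivity
          have h6 : (0 : ℝ) < (n : ℝ) ^ ρ := by positivity
          have h7 : (3 / 4 : ℝ) * (n : ℝ) ^ ρ * (2 ^ (s₁ * ρ) * X) ≤ (RR.card : ℝ) * (2 ^ (s₁ * ρ) * X) :=
            mul_le_mul_of_nonneg_right h34 (by positivity)
          have h8 : (0 : ℝ) ≤ (n : ℝ) ^ ρ * (2 ^ (s₁ * ρ) * X) := by positivity
          nlinarith
      _ < _ := hbig
      _ ≤ _ := hav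
      _ = (n : ℝ) ^ ρ * 2 ^ (s₁ * ρ) * (((ρ : ℝ) + 1) *
          ((Real.logb 2 n.factorial + 2 * ρ * (ρ * a) * y * Real.logb 2 (y + 1)) *
          ((1 / 2) ^ s₁ * (ρ * z / n) + (ρ * z / n) ^ 2) +
        2 * (ρ * B) * ((1 / 2) ^ s₁ * (ρ * z / n) + ρ * (ρ * z / n) ^ 2))) := by ring
      _ ≤ _ := mul_le_mul_of_nonneg_left hnum (by positivity)
  exact lt_irrefl _ hfinal

end Vale.Agent.P160.Half.G.D479
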