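import Vale.Agent.P160.Half.GDet837
import Vale.Agent.P160.Half.KZF
import Vale.Agent.P160.Half.Con932
import Vale.Agent.P160.Half.RelFin837
import Vale.Agent.P160.Half.GoodR
import Vale.Agent.P160.Half.Avg

/-! # P160, half rate: DetStmt, closed (helper837) -/

namespace Vale.Agent.P160.Half.G

theorem gdet837 : DetStmt :=
  Det837.gdet kzf Con932.con rel837 goodr AvgF.avg

end Vale.Agent.P160.Half.G
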