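import Vale.Agent.P160.Half.GStmt4
import Vale.Agent.P160.Half.GAsmStmt
import Vale.Agent.P160.Half.LA4Geo

/-! # P160, half rate: gap (G), deterministic core `DetStmt` from the averaging statement `N7Stmt` (helper742)

`gdet_of_n7 : G13.N7Stmt → GoodRStmt → DetStmt`: the good rows, the coranks and the determinant of the exchanged matrix, and the membership of
the new lattice in the label set. -/

set_option linter.unusedVariables false

open Finset Matrix

namespace Vale.Agent.P160.Half.G.D742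

open A Labels G13 A.Geo

variable {n : ℕ} {β : Type} [Fintype β] [DecidableEq β]

theorem PQ_gF (P : Matrix (Fin n) (Fin n) ℤ) (hP : P.det ≠ 0) (F : Matrix (Fin n) β ℤ) (q : β) :
    PQ P *ᵥ gF P F q = fun j => (F j q : ℚ) := PQ_dual P hP _

/-- integer vectors are in `LFg` -/
theorem int_mem_LFg (P : Matrix (Fin n) (Fin n) ℤ) (F : Matrix (Fin n) β ℤ) (z : Fin n → ℤ) :
    (fun j => (z j : ℚ)) ∈ LFg P F := by
  have : (fun j => (z j : ℚ)) = ∑ j, z j • (Pi.single j (1 : ℚ) : Fin n → ℚ) := by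
    ext i
    rw [Finset.sum_apply]
    rw [Finset.sum_eq_single i]
    · simp
    · intro j _ hj
      simp [Pi.single_apply, hj.symm]
    · intro h; exact absurd (mem_univ i) h
  rw [this]
  refine Submodule.sum_mem _ fun j _ => Submodule.smul_mem _ _ ?_
  exact Submodule.subset_span (Or.inl ⟨j, rfl⟩)

theorem gF_mem_LFg (P : Matrix (Fin n) (Fin n) ℤ) (F : Matrix (Fin n) β ℤ) (q : β) : gF P F q ∈ LFg P F :=
  Submodule.subset_span (Or.inr ⟨q, rfl⟩)

/-- every element of `LFg` is an integer vector plus an integer combination of the `g_q` -/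
theorem LFg_form (P : Matrix (Fin n) (Fin n) ℤ) (F : Matrix (Fin n) β ℤ) {v : Fin n → ℚ} (hv : v ∈ LFg P F) :
    ∃ (z : Fin n → ℤ) (d : β → ℤ), v = fun j => (z j : ℚ) + ∑ q, (d q : ℚ) * gF P F q j := by
  refine Submodule.span_induction ?_ ?_ ?_ ?_ hv
  · rintro x (⟨j, rfl⟩ | ⟨q, rfl⟩)
    · refine ⟨Pi.single j 1, 0, ?_⟩
      funext i
      by_cases h : i = j
      · subst h; simp
      · simp [Pi.single_apply, h]
    · refine ⟨0, Pi.single q 1, ?_⟩
      funext i
      rw [Finset.sum_eq_single q]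
      · simp
      · intro q' _ hq'
        simp [Pi.single_apply, hq']
      · intro h; exact absurd (mem_univ q) h
  · exact ⟨0, 0, by funext i; simp⟩
  · rintro x y _ _ ⟨z, d, rfl⟩ ⟨z', d', rfl⟩
    refine ⟨z + z', d + d', ?_⟩
    funext i
    simp only [Pi.add_apply, Int.cast_add, add_mul, Finset.sum_add_distrib]
    ring
  · rintro a x _ ⟨z, d, rfl⟩
    refine ⟨a • z, a • d, ?_⟩
    funext i
    simp only [Pi.smul_apply, smul_eq_mul, Int.cast_mul, zsmul_eq_mul, mul_add, Finset.mul_sum, mul_assoc]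

/-- `LFg` is integral for `P` -/
theorem LFg_int (P : Matrix (Fin n) (Fin n) ℤ) (hP : P.det ≠ 0) (hs : P.IsSymm) (F : Matrix (Fin n) β ℤ)
    (hg : ∀ i k, ∃ m : ℤ, gF P F i ⬝ᵥ (PQ P *ᵥ gF P F k) = m) {v w : Fin n → ℚ} (hv : v ∈ LFg P F)
    (hw : w ∈ LFg P F) : ∃ m : ℤ, v ⬝ᵥ (PQ P *ᵥ w) = m := by
  have h1 : ∀ (z z' : Fin n → ℤ), ∃ m : ℤ, (fun j => (z j : ℚ)) ⬝ᵥ (fun j => (z' j : ℚ)) = m := by
    intro z z'
    exact ⟨∑ j, z j * z' j, by simp [dotProduct]⟩
  have hPz : ∀ z : Fin n → ℤ, PQ P *ᵥ (fun j => (z j : ℚ)) = fun j => ((P *ᵥ z) j : ℚ) := by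
    intro z
    funext j
    simp [mulVec, dotProduct, PQ]
  refine Submodule.span_induction (p := fun v _ => ∃ m : ℤ, v ⬝ᵥ (PQ P *ᵥ w) = m) ?_ ?_ ?_ ?_ hv
  · intro x hx
    refine Submodule.span_induction (p := fun w _ => ∃ m : ℤ, x ⬝ᵥ (PQ P *ᵥ w) = m) ?_ ?_ ?_ ?_ hw
    · intro y hy
      rcases hx with ⟨j, rfl⟩ | ⟨q, rfl⟩
      · rcases hy with ⟨k, rfl⟩ | ⟨q', rfl⟩
        · refine ⟨P j k, ?_⟩
          rw [single_one_dotProduct, mulVec_single_one]
          simp [PQ]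
        · refine ⟨F j q', ?_⟩
          rw [single_one_dotProduct, PQ_gF P hP]
      · rcases hy with ⟨k, rfl⟩ | ⟨q', rfl⟩
        · refine ⟨F k q, ?_⟩
          rw [symm_dot P hs, PQ_gF P hP, dotProduct_single_one]
        · exact hg q q'
    · exact ⟨0, by simp⟩
    · rintro y y' _ _ ⟨m, hm⟩ ⟨m', hm'⟩
      exact ⟨m + m', by rw [mulVec_add, dotProduct_add, hm, hm']; push_cast; rfl⟩
    · rintro a y _ ⟨m, hm⟩
      refine ⟨a * m, ?_⟩
      have : a • y = (a : ℚ) • y := by ext i; simp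
      rw [this, mulVec_smul, dotProduct_smul, hm]
      push_cast; rfl
  · exact ⟨0, by simp⟩
  · rintro y y' _ _ ⟨m, hm⟩ ⟨m', hm'⟩
    exact ⟨m + m', by rw [add_dotProduct, hm, hm']; push_cast; rfl⟩
  · rintro a y _ ⟨m, hm⟩
    refine ⟨a * m, ?_⟩
    have : a • y = (a : ℚ) • y := by ext i; simp
    rw [this, smul_dotProduct, hm]
    push_cast; rfl

theorem mem_newL {L : Submodule ℤ (Fin n → ℚ)} {R : β → Fin n} {g : β → Fin n → ℚ} {v : Fin n → ℚ} :
    v ∈ newL L R g ↔ cob R g *ᵥ v ∈ L := Iff.rfl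

theorem cob_int (P : Matrix (Fin n) (Fin n) ℤ) (F : Matrix (Fin n) β ℤ) (R : β → Fin n) (z : Fin n → ℤ) :
    cob R (gF P F) *ᵥ (fun j => (z j : ℚ)) ∈ LFg P F := by
  have h : cob R (gF P F) *ᵥ (fun j => (z j : ℚ)) =
      (∑ i, (z (R i)) • gF P F i) + fun j => (((if j ∈ univ.image R then 0 else z j : ℤ)) : ℚ) := by
    funext j
    rw [cob_mulVec, Pi.add_apply, Finset.sum_apply]
    congr 1
    · refine Finset.sum_congr rfl fun i _ => ?_
      simp [mul_comm]
    · split_ifs <;> simp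
  rw [h]
  exact Submodule.add_mem _ (Submodule.sum_mem _ fun i _ => Submodule.smul_mem _ _ (gF_mem_LFg P F i)) (int_mem_LFg P F _)

theorem newP_dot (P : Matrix (Fin n) (Fin n) ℤ) (R : β → Fin n) (g : β → Fin n → ℚ) (v w : Fin n → ℚ) :
    v ⬝ᵥ (newP P R g *ᵥ w) = (cob R g *ᵥ v) ⬝ᵥ (PQ P *ᵥ (cob R g *ᵥ w)) := by
  rw [newP_mulVec, dotProduct_mulVec, vecMul_transpose]

/-- rank of the exchanged matrix -/
theorem rank_new (b : Bits n) (R : β → Fin n) (M' : Matrix (Fin n) (Fin n) ℤ) (k : ℕ) (hc : CorLt (matZ b) k)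
    (hoff : ∀ j j', j ∉ Set.range R → j' ∉ Set.range R → M' j j' = matZ b j j') (p : ℕ) (hp : p.Prime) :
    n ≤ (M'.map (Int.cast : ℤ → ZMod p)).rank + (k + Fintype.card β) := by
  haveI := Fact.mk hp
  classical
  set T : Finset (Fin n) := (univ.image R)ᶜ with hT
  have hTc : n ≤ T.card + Fintype.card β := by
    have h1 : (univ.image R).card ≤ Fintype.card β := card_image_le.trans (by rw [card_univ])
    have h2 := Finset.card_add_card_compl (univ.image R)
    rw [Fintype.card_fin] at h2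
    rw [hT]
    omega
  have h3 := hc p hp T
  have h4 : prin ((matZ b).map (Int.cast : ℤ → ZMod p)) T =
      (M'.map (Int.cast : ℤ → ZMod p)).submatrix (fun a : T => (a : Fin n)) (fun a : T => (a : Fin n)) := by
    ext i j
    have hi : (i : Fin n) ∉ Set.range R := by
      rintro ⟨m, hm⟩
      exact (mem_compl.1 i.2) (mem_image.2 ⟨m, mem_univ _, hm⟩)
    have hj : (j : Fin n) ∉ Set.range R := by
      rintro ⟨m, hm⟩
      exact (mem_compl.1 j.2) (mem_image.2 ⟨m, mem_univ _, hm⟩)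
    simp only [prin, submatrix_apply, map_apply]
    rw [hoff _ _ hi hj]
  have h5 : (prin ((matZ b).map (Int.cast : ℤ → ZMod p)) T).rank ≤ (M'.map (Int.cast : ℤ → ZMod p)).rank := by
    rw [h4]
    exact Matrix.rank_submatrix_le _ _ _
  omega

theorem det01 (b : Bits n) : |((matZ b).det : ℝ)| ≤ n.factorial := by
  have h := det_bound (PQ (matZ b)) 1 (by
    intro i j
    simp only [PQ, map_apply, matZ]
    split_ifs <;> simp)
  have h2 : (PQ (matZ b)).det = (((matZ b).det : ℤ) : ℚ) := by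
    have := RingHom.map_det (Int.castRingHom ℚ) (matZ b)
    simpa [PQ, RingHom.mapMatrix_apply] using this.symm
  rw [h2] at h
  simpa using h

theorem minor_bd (R : β → Fin n) (g : β → Fin n → ℚ) (Y : ℝ) (hg : ∀ q, BdQ Y (g q)) :
    |((minor R g : ℚ) : ℝ)| ≤ (Fintype.card β).factorial * Y ^ Fintype.card β :=
  det_bound _ Y fun i k => hg i (R k)

end Vale.Agent.P160.Half.G.D742

namespace Vale.Agent.P160.Half.G

open A Labels G13 A.Geo D742

theorem gdet_of_n7 (h7 : N7Stmt) (hG : GoodRStmt) : DetStmt := by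
  intro n β _ _ b F Xn y a z k s s₁ τ Y Dt X B Av hn hXn ha hy hτ hY hX hP hF hgram hBd hKZ hCor hRC hcard hB hDt hX2
  classical
  have hs : (matZ b).IsSymm := by
    ext j k; rw [transpose_apply]; exact matZ_symm b k j
  choose gr hgr using hgram
  set g := gF (matZ b) F with hgdef
  set ρ := Fintype.card β with hρ
  -- good rows
  set 𝓡 : Finset (β → Fin n) := univ.filter fun R => Function.Injective R ∧ (∀ i, R i ∉ Av) ∧
    τ ^ ρ ≤ |((minor R g : ℚ) : ℝ)| with h𝓡
  have hgood := hG n β g τ s Av hτ hRC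
  rw [Nat.card_eq_fintype_card, Fintype.card_subtype, ← hρ, ← h𝓡] at hgood
  have hn0 : (0 : ℝ) < n := by exact_mod_cast hn
  have hc2 : (n : ℝ) ^ ρ ≤ 2 * 𝓡.card := by
    have h1 : (ρ : ℝ) * (s + Av.card + ρ) * (n : ℝ) ^ (ρ - 1) ≤ (n : ℝ) ^ ρ / 4 := by
      rcases Nat.eq_zero_or_pos ρ with h0 | h0
      · rw [h0]; norm_num
      · have h2 : (n : ℝ) ^ ρ = n * (n : ℝ) ^ (ρ - 1) := by
          rw [← pow_succ']; congr 1; omega
        have h3 : 4 * ((ρ : ℝ) * (s + Av.card + ρ)) ≤ n := by exact_mod_cast hcard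
        rw [h2]
        have h4 : (0 : ℝ) ≤ (n : ℝ) ^ (ρ - 1) := by positivity
        nlinarith
    have h5 : (0 : ℝ) ≤ (n : ℝ) ^ ρ := by positivity
    linarith
  have hmem : ∀ R ∈ 𝓡, Function.Injective R ∧ (∀ i, R i ∉ Av) ∧ τ ^ ρ ≤ |((minor R g : ℚ) : ℝ)| := by
    intro R hR
    rw [h𝓡, mem_filter] at hR
    exact hR.2
  have hmin : ∀ R ∈ 𝓡, minor R g ≠ 0 := by
    intro R hR h0
    have h1 := (hmem R hR).2.2
    rw [h0] at h1
    have h2 : 0 < τ ^ ρ := by positivity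
    simp only [Rat.cast_zero, abs_zero] at h1
    linarith
  have hdetP : (0 : ℝ) < |((matZ b).det : ℝ)| := abs_pos.2 (by exact_mod_cast hP)
  -- the average
  have hW : 2 * ((ρ + 1) * ((Real.logb 2 (matZ b).det.natAbs + 2 * ρ * (ρ * a) * y * Real.logb 2 (y + 1)) *
      ((1 / 2) ^ s₁ * (ρ * z / n) + (ρ * z / n) ^ 2) +
      2 * (ρ * Real.logb 2 (((ρ + 1).factorial * ((ρ + 1) * (n * n.factorial * Xn)) ^ (ρ + 1) : ℕ) : ℝ)) *
        ((1 / 2) ^ s₁ * (ρ * z / n) + ρ * (ρ * z / n) ^ 2))) ≤ X := by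
    have h1 : Real.logb 2 (matZ b).det.natAbs ≤ Real.logb 2 n.factorial := by
      have h2 : ((matZ b).det.natAbs : ℝ) = |((matZ b).det : ℝ)| := by
        rw [Nat.cast_natAbs]; push_cast; rfl
      rw [h2]
      exact Real.logb_le_logb_of_le (by norm_num) hdetP (det01 b)
    have h3 : (0 : ℝ) ≤ (1 / 2) ^ s₁ * (ρ * z / n) + (ρ * z / n) ^ 2 := by positivity
    have h4 : (0 : ℝ) ≤ (1 / 2) ^ s₁ * (ρ * z / n) + ρ * (ρ * z / n) ^ 2 := by positivity
    have h5 := mul_le_mul_of_nonneg_right (add_le_add_left h1 (2 * (ρ : ℝ) * (ρ * a) * y * Real.logb 2 (y + 1))) h3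
    have h6 : (ρ : ℝ) * Real.logb 2 (((ρ + 1).factorial * ((ρ + 1) * (n * n.factorial * Xn)) ^ (ρ + 1) : ℕ) : ℝ) ≤ ρ * B :=
      mul_le_mul_of_nonneg_left hB (by positivity)
    have h7 := mul_le_mul_of_nonneg_right (mul_le_mul_of_nonneg_left h6 (by norm_num : (0 : ℝ) ≤ 2)) h4
    have h8 : (0 : ℝ) ≤ (ρ : ℝ) + 1 := by positivity
    have h9 := mul_le_mul_of_nonneg_left (add_le_add h5 h7) h8
    have h10 := h9.trans hX2
    linarith
  obtain ⟨R, hR, M', hM, hz, hmap, hdet, hdetv, hoff, hH, hiff, c, hcc⟩ :=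
    h7 n β b F gr s₁ y a z k Xn X 𝓡 hP hn ha hXn hF hgr hKZ (fun R hR => ⟨(hmem R hR).1, hmin R hR⟩) hc2 hW
  refine ⟨R, (hmem R hR).1, (hmem R hR).2.1, (hmem R hR).2.2, c, ?_⟩
  haveI hfin : Finite (Coker M') := by
    apply Nat.finite_of_card_ne_zero
    rw [card_coker M' hdet]
    exact Int.natAbs_ne_zero.2 hdet
  have hQ : QL M' (newL (LFg (matZ b) F) R g) =
      AddSubgroup.closure (Set.range fun i => (QuotientAddGroup.mk (hz i) : Coker M')) := by
    ext x
    obtain ⟨w, rfl⟩ := QuotientAddGroup.mk_surjective x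
    rw [hiff w]
    constructor
    · rintro ⟨w', hw', v, hv, h⟩
      rw [← hiff w, hw', hiff w']
      exact ⟨v, hv, h⟩
    · rintro ⟨v, hv, h⟩
      exact ⟨w, rfl, v, hv, h⟩
  refine ⟨M', fun t j => ∑ i, if c t i then hz i j else 0, hmap, hM, hdet, ?_, ?_, ?_, ?_, ?_, ?_, ?_, ?_⟩
  · -- determinant
    refine le_trans ?_ hDt
    have h0 : (0 : ℝ) < |(M'.det : ℝ)| := abs_pos.2 (by exact_mod_cast hdet)
    refine Real.logb_le_logb_of_le (by norm_num) h0 ?_
    have h1 : (M'.det : ℝ) = ((matZ b).det : ℝ) * ((minor R g : ℚ) : ℝ) ^ 2 := by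
      have h2 := congrArg (fun q : ℚ => (q : ℝ)) hdetv
      simpa using h2
    rw [h1, abs_mul, abs_pow]
    exact mul_le_mul (det01 b) (pow_le_pow_left₀ (abs_nonneg _) (minor_bd R g Y hBd) 2) (by positivity) (by positivity)
  · intro p hp
    exact rank_new b R M' k hCor hoff p hp
  · intro t j
    exact congrFun (hH (c t)) j
  · intro z
    exact cob_int (matZ b) F R z
  · intro v hv w hw
    rw [newP_dot]
    exact LFg_int (matZ b) hP hs F (fun i k => ⟨gr i k, hgr i k⟩) hv hw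
  · rw [hQ, AddSubgroup.closure_le]
    rintro _ ⟨t, rfl⟩
    have : (QuotientAddGroup.mk (fun j => ∑ i, if c t i then hz i j else 0) : Coker M') =
        ∑ i, if c t i then (QuotientAddGroup.mk (hz i) : Coker M') else 0 := by
      have h1 : (fun j => ∑ i, if c t i then hz i j else 0) = ∑ i, if c t i then hz i else 0 := by
        funext j
        rw [Finset.sum_apply]
        refine Finset.sum_congr rfl fun i _ => ?_
        split_ifs <;> rfl
      rw [h1]
      have h2 := map_sum (QuotientAddGroup.mk' (lat M')) (fun i => if c t i then hz i else 0) univ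
      refine h2.trans (Finset.sum_congr rfl fun i _ => ?_)
      split_ifs
      · rfl
      · exact map_zero _
    show (QuotientAddGroup.mk (fun j => ∑ i, if c t i then hz i j else 0) : Coker M') ∈ _
    rw [this]
    refine AddSubgroup.sum_mem _ fun i _ => ?_
    split_ifs
    · exact AddSubgroup.subset_closure ⟨i, rfl⟩
    · exact AddSubgroup.zero_mem _
  · refine ⟨fun m => QuotientAddGroup.mk (hz ((Fintype.equivFin β).symm m)), ?_⟩
    rw [hQ]
    congr 1
    ext x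
    constructor
    · rintro ⟨i, rfl⟩
      exact ⟨Fintype.equivFin β i, by simp⟩
    · rintro ⟨m, rfl⟩
      exact ⟨_, rfl⟩
  · rw [hQ]
    have h1 := hcc hfin
    rw [card_coker M' hdet] at h1
    exact h1

end Vale.Agent.P160.Half.G
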