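import Vale.Agent.P160.Half.GStmt

/-! # P160, half rate, DET part (II): coranks of the exchanged matrix -/

namespace Vale.Agent.P160.Half.G

open Finset Matrix

theorem rank_exch {n : ℕ} {β : Type} [Fintype β] [DecidableEq β] (P M : Matrix (Fin n) (Fin n) ℤ)
    (R : β → Fin n)
    (hM : ∀ j k, j ∉ Set.range R → k ∉ Set.range R → M j k = P j k) (k : ℕ)
    (hk : CorLt P k) (p : ℕ) (hp : p.Prime) :
    n ≤ (M.map (Int.cast : ℤ → ZMod p)).rank + (k + Fintype.card β) := by
  classical
  have : Fact p.Prime := ⟨hp⟩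
  set T : Finset (Fin n) := (univ.image R)ᶜ with hT
  have h1 := hk p hp T
  have h2 : prin (P.map (Int.cast : ℤ → ZMod p)) T = prin (M.map (Int.cast : ℤ → ZMod p)) T := by
    ext i j
    have hm : ∀ x : Fin n, x ∈ T → x ∉ Set.range R := by
      intro x hx
      rw [hT, mem_compl, mem_image] at hx
      rintro ⟨y, hy⟩
      exact hx ⟨y, mem_univ _, hy⟩
    have hi : (i : Fin n) ∉ Set.range R := hm _ i.2
    have hj : (j : Fin n) ∉ Set.range R := hm _ j.2
    change ((P i j : ℤ) : ZMod p) = ((M i j : ℤ) : ZMod p)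
    rw [hM i j hi hj]
  rw [h2] at h1
  have h3 : (prin (M.map (Int.cast : ℤ → ZMod p)) T).rank ≤
      (M.map (Int.cast : ℤ → ZMod p)).rank := Matrix.rank_submatrix_le _ _ _
  have h4 : n ≤ T.card + Fintype.card β := by
    have h5 : (univ.image R).card ≤ Fintype.card β := card_image_le
    rw [hT, card_compl, Fintype.card_fin]
    omega
  omega

end Vale.Agent.P160.Half.G
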