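import Vale.Agent.P160.Half.KZA2

/-! # P160, half rate, gap (G), leaf G6' under the name of the plan (helper456) -/

namespace Vale.Agent.P160.Half.G

/-- **G6'**: zero counts modulo `p ^ a` for the primes `p < y` -/
theorem kza : RowsStmt2 → LOppStmt → KZAStmt2 := kza2

end Vale.Agent.P160.Half.G
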