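import Vale.Agent.P160.Half.GStmt4

/-! # P160, half rate: gap (G), numbers, `Num7` of `GStmt4` (helper307) -/

set_option linter.unusedVariables false
open Finset Matrix Filter Topology

namespace Vale.Agent.P160.Half.G.Num7H307

theorem ev_log : ∀ᶠ n : ℕ in atTop, Real.logb 2 n ≤ (n : ℝ) ^ (1 / 20 : ℝ) := by
  have h := (isLittleO_log_rpow_atTop (r := (1 / 20 : ℝ)) (by norm_num)).bound (c := Real.log 2) (Real.log_pos (by norm_num))
  have h' := tendsto_natCast_atTop_atTop (R := ℝ) |>.eventually h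
  filter_upwards [h', eventually_ge_atTop 1] with n hn h1
  have h2 : (1 : ℝ) ≤ n := by exact_mod_cast h1
  rw [Real.norm_of_nonneg (Real.log_nonneg h2), Real.norm_of_nonneg (by positivity)] at hn
  rw [Real.logb, div_le_iff₀ (Real.log_pos (by norm_num))]
  linarith

theorem ev_pow (c : ℝ) : ∀ᶠ n : ℕ in atTop, c ≤ (n : ℝ) ^ (1 / 20 : ℝ) :=
  ((tendsto_rpow_atTop (by norm_num : (0 : ℝ) < 1 / 20)).comp tendsto_natCast_atTop_atTop).eventually_ge_atTop c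

theorem ev_n (c : ℝ) : ∀ᶠ n : ℕ in atTop, c ≤ (n : ℝ) := tendsto_natCast_atTop_atTop.eventually_ge_atTop c

theorem pv_le (n : ℕ) (hn : 1 ≤ n) : 10 * (pv n : ℝ) ≤ Real.logb 2 n := by
  have h1 : 10 * pv n ≤ Nat.log 2 n := by unfold pv; omega
  have h2 : ((Nat.log 2 n : ℕ) : ℝ) ≤ Real.logb 2 n := Real.natLog_le_logb n 2
  have h3 : ((10 * pv n : ℕ) : ℝ) ≤ (Nat.log 2 n : ℕ) := by exact_mod_cast h1
  push_cast at h3
  linarith

theorem le_pv (n : ℕ) (hn : 1 ≤ n) : Real.logb 2 n ≤ 10 * (pv n : ℝ) + 10 := by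
  have h1 : Nat.log 2 n + 1 ≤ 10 * pv n + 10 := by unfold pv; omega
  have h2 : n < 2 ^ (Nat.log 2 n + 1) := Nat.lt_pow_succ_log_self (by norm_num) n
  have h3 : (n : ℝ) ≤ 2 ^ (((10 * pv n + 10 : ℕ)) : ℝ) := by
    rw [Real.rpow_natCast]
    have : n ≤ 2 ^ (10 * pv n + 10) := h2.le.trans (Nat.pow_le_pow_right (by norm_num) h1)
    exact_mod_cast this
  have h4 := (Real.logb_le_iff_le_rpow (b := 2) (by norm_num) (by exact_mod_cast hn : (0 : ℝ) < n)).2 h3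
  push_cast at h4
  exact h4

theorem logb_py (n : ℕ) : Real.logb 2 (py n : ℝ) = pv n := by
  unfold py
  push_cast
  rw [← Real.rpow_natCast, Real.logb_rpow (by norm_num) (by norm_num)]

theorem py_le (n : ℕ) (hn : 1 ≤ n) : (py n : ℝ) ≤ (n : ℝ) ^ (1 / 10 : ℝ) := by
  have h := pv_le n hn
  have hn' : (0 : ℝ) < n := by exact_mod_cast hn
  have h1 : (py n : ℝ) = 2 ^ (pv n : ℝ) := by unfold py; push_cast; rw [Real.rpow_natCast]
  rw [h1]
  calc (2 : ℝ) ^ (pv n : ℝ) ≤ 2 ^ (Real.logb 2 n * (1 / 10)) := Real.rpow_le_rpow_of_exponent_le (by norm_num) (by linarith)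
    _ = (n : ℝ) ^ (1 / 10 : ℝ) := by
      rw [Real.rpow_mul (by norm_num), Real.rpow_logb (by norm_num) (by norm_num) hn']

theorem pa_le (n : ℕ) (hn : 1 ≤ n) : (pa n : ℝ) ≤ (n : ℝ) ^ (3 / 10 : ℝ) := by
  have h := py_le n hn
  unfold pa
  push_cast
  calc (py n : ℝ) ^ 3 ≤ ((n : ℝ) ^ (1 / 10 : ℝ)) ^ 3 := by gcongr
    _ = (n : ℝ) ^ (3 / 10 : ℝ) := by
      rw [← Real.rpow_natCast, ← Real.rpow_mul (by positivity)]; norm_num

theorem pk_le (C n : ℕ) (hn : 1 ≤ n) : (pk C n : ℝ) ≤ (Real.sqrt (2 * (C + 12)) + 1) * (n : ℝ) ^ (1 / 2 : ℝ) := by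
  unfold pk
  push_cast
  have hn' : (1 : ℝ) ≤ n := by exact_mod_cast hn
  have h1 : ((Nat.sqrt (2 * (C + 12) * n) : ℕ) : ℝ) ≤ Real.sqrt (2 * (C + 12) * n) := by
    have := Real.nat_sqrt_le_real_sqrt (a := 2 * (C + 12) * n)
    push_cast at this
    exact this
  have h2 : Real.sqrt (2 * (C + 12) * n) = Real.sqrt (2 * (C + 12)) * (n : ℝ) ^ (1 / 2 : ℝ) := by
    rw [Real.sqrt_mul (by positivity), Real.sqrt_eq_rpow (n : ℝ)]
  have h3 : (1 : ℝ) ≤ (n : ℝ) ^ (1 / 2 : ℝ) := Real.one_le_rpow hn' (by norm_num)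
  rw [h2] at h1
  linarith

theorem log_fac (n : ℕ) (hn : 1 ≤ n) : Real.logb 2 (n.factorial : ℝ) ≤ n * Real.logb 2 n := by
  have h1 : (n.factorial : ℝ) ≤ (n : ℝ) ^ n := by exact_mod_cast Nat.factorial_le_pow n
  have h2 : (0 : ℝ) < n.factorial := by exact_mod_cast Nat.factorial_pos n
  calc Real.logb 2 (n.factorial : ℝ) ≤ Real.logb 2 ((n : ℝ) ^ n) := Real.logb_le_logb_of_le (by norm_num) h2 h1
    _ = n * Real.logb 2 n := by rw [Real.logb_pow]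

theorem part1 (A ρ J n : ℕ) (hn : 1 ≤ n) (hρ : ρ ≤ J) (hL1 : 1 ≤ Real.logb 2 (n : ℝ))
    (hn1 : Real.logb 2 ((ρ + 1).factorial : ℝ) + (ρ + 1) * Real.logb 2 (ρ + 1) + (ρ + 1) * (1 + A) ≤ n) :
    Real.logb 2 (((ρ + 1).factorial * ((ρ + 1) * (n * n.factorial * n ^ A)) ^ (ρ + 1) : ℕ) : ℝ) ≤ 2 * (J + 2) * n * Real.logb 2 n := by
  have hnR : (1 : ℝ) ≤ n := by exact_mod_cast hn
  have hn0 : (0 : ℝ) < n := by linarith
  have hLn := log_fac n hn
  have hf0 : (0 : ℝ) < n.factorial := by exact_mod_cast Nat.factorial_pos n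
  have hρ1 : (0 : ℝ) < (ρ + 1).factorial := by exact_mod_cast Nat.factorial_pos (ρ + 1)
  have hρ1' : (1 : ℝ) ≤ (ρ + 1).factorial := by exact_mod_cast Nat.factorial_pos (ρ + 1)
  have hρJ : (ρ : ℝ) ≤ J := by exact_mod_cast hρ
  have e1 : 0 ≤ Real.logb 2 ((ρ + 1).factorial : ℝ) := Real.logb_nonneg (by norm_num) hρ1'
  have e2 : 0 ≤ Real.logb 2 ((ρ : ℝ) + 1) := Real.logb_nonneg (by norm_num) (by linarith [(Nat.cast_nonneg ρ : (0 : ℝ) ≤ ρ)])
  have key : Real.logb 2 (((ρ + 1).factorial * ((ρ + 1) * (n * n.factorial * n ^ A)) ^ (ρ + 1) : ℕ) : ℝ)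
      = Real.logb 2 ((ρ + 1).factorial : ℝ) + ((ρ : ℝ) + 1) * (Real.logb 2 ((ρ : ℝ) + 1) + (Real.logb 2 n + Real.logb 2 (n.factorial : ℝ) + A * Real.logb 2 n)) := by
    push_cast
    rw [Real.logb_mul hρ1.ne' (by positivity), Real.logb_pow, Real.logb_mul (by positivity) (by positivity), Real.logb_mul (by positivity) (by positivity),
      Real.logb_mul (by positivity) (by positivity), Real.logb_pow]
    push_cast
    ring
  rw [key]
  generalize Real.logb 2 (n : ℝ) = L at *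
  generalize Real.logb 2 ((ρ + 1).factorial : ℝ) = a at *
  generalize Real.logb 2 ((ρ : ℝ) + 1) = b at *
  generalize Real.logb 2 (n.factorial : ℝ) = f at *
  have hL0 : 0 ≤ L := by linarith
  have hr0 : (0 : ℝ) ≤ ρ := Nat.cast_nonneg ρ
  have e3 : (a + (ρ + 1) * b + (ρ + 1) * (1 + A)) * L ≤ n * L := mul_le_mul_of_nonneg_right hn1 hL0
  have e4 : a ≤ a * L := le_mul_of_one_le_right e1 hL1
  have e5 : ((ρ : ℝ) + 1) * b ≤ ((ρ : ℝ) + 1) * b * L := le_mul_of_one_le_right (by positivity) hL1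
  have e6 : ((ρ : ℝ) + 1) * f ≤ ((ρ : ℝ) + 1) * (n * L) := mul_le_mul_of_nonneg_left hLn (by positivity)
  have e8 : 0 ≤ (n : ℝ) * L := by positivity
  have e7 : ((ρ : ℝ) + 1) * (n * L) ≤ (J + 1) * (n * L) := mul_le_mul_of_nonneg_right (by linarith) e8
  have e9 : 0 ≤ (J : ℝ) * (n * L) := by positivity
  linarith

theorem part2 (A ρ n : ℕ) (hn : 1 ≤ n) (hL1 : 1 ≤ Real.logb 2 (n : ℝ))
    (hn2 : 2 * Real.logb 2 (ρ.factorial : ℝ) + 2 * ρ * A ≤ n) :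
    Real.logb 2 (n.factorial * (ρ.factorial * ((n : ℝ) ^ (A : ℝ)) ^ ρ) ^ 2) ≤ 2 * n * Real.logb 2 n := by
  have hnR : (1 : ℝ) ≤ n := by exact_mod_cast hn
  have hn0 : (0 : ℝ) < n := by linarith
  have hLn := log_fac n hn
  have hf0 : (0 : ℝ) < n.factorial := by exact_mod_cast Nat.factorial_pos n
  have hρ0 : (0 : ℝ) < ρ.factorial := by exact_mod_cast Nat.factorial_pos ρ
  have hρ0' : (1 : ℝ) ≤ ρ.factorial := by exact_mod_cast Nat.factorial_pos ρ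
  have e1 : 0 ≤ Real.logb 2 (ρ.factorial : ℝ) := Real.logb_nonneg (by norm_num) hρ0'
  have key : Real.logb 2 (n.factorial * (ρ.factorial * ((n : ℝ) ^ (A : ℝ)) ^ ρ) ^ 2) =
      Real.logb 2 (n.factorial : ℝ) + 2 * (Real.logb 2 (ρ.factorial : ℝ) + ρ * (A * Real.logb 2 n)) := by
    rw [Real.rpow_natCast, Real.logb_mul hf0.ne' (by positivity), Real.logb_pow, Real.logb_mul hρ0.ne' (by positivity), Real.logb_pow, Real.logb_pow]
    push_cast
    ring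
  rw [key]
  generalize Real.logb 2 (n : ℝ) = L at *
  generalize Real.logb 2 (ρ.factorial : ℝ) = a at *
  generalize Real.logb 2 (n.factorial : ℝ) = f at *
  have hL0 : 0 ≤ L := by linarith
  have e3 : (2 * a + 2 * ρ * A) * L ≤ n * L := mul_le_mul_of_nonneg_right hn2 hL0
  have e4 : a ≤ a * L := le_mul_of_one_le_right e1 hL1
  linarith

theorem part3 (C ρ n : ℕ) (hn3 : 2 ^ 110 ≤ n) (hL : Real.logb 2 n ≤ (n : ℝ) ^ (1 / 20 : ℝ))
    (hc : 2 * ρ * ρ * (Real.sqrt (2 * (C + 12)) + 1 + ρ) ≤ (n : ℝ) ^ (1 / 20 : ℝ)) (h10 : 10 ≤ (n : ℝ) ^ (1 / 20 : ℝ)) :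
    (n : ℝ) + 6 * (2 * n * Real.logb 2 n) / Real.logb 2 (py n) + py n * (4 + 2 * Real.logb 2 (2 * n * Real.logb 2 n + 1) +
    2 * ρ * (ρ * pa n) * (pk C n + ρ : ℕ) * Real.logb 2 (py n)) ≤ 200 * n := by
  set K : ℝ := Real.sqrt (2 * (C + 12)) + 1 + ρ with hK
  have hn : 1 ≤ n := le_trans (by norm_num) hn3
  have hnR : (1 : ℝ) ≤ n := by exact_mod_cast hn
  have hn0 : (0 : ℝ) < n := by linarith
  have h3n : (3 : ℝ) ≤ n := by
    have : 3 ≤ n := le_trans (by norm_num) hn3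
    exact_mod_cast this
  have hv := pv_le n hn
  have hv' := le_pv n hn
  set L := Real.logb 2 (n : ℝ) with hLdef
  have hv11 : 11 ≤ pv n := by
    have : 110 ≤ Nat.log 2 n := Nat.le_log_of_pow_le (by norm_num) hn3
    unfold pv; omega
  clear hn3
  have hvR : (11 : ℝ) ≤ pv n := by exact_mod_cast hv11
  have hL1 : 1 ≤ L := by linarith
  have hL0 : 0 ≤ L := by linarith
  rw [logb_py]
  have hy := py_le n hn
  have ha := pa_le n hn
  have hk := pk_le C n hn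
  have hk' : ((pk C n + ρ : ℕ) : ℝ) ≤ K * (n : ℝ) ^ (1 / 2 : ℝ) := by
    push_cast
    have h3 : (1 : ℝ) ≤ (n : ℝ) ^ (1 / 2 : ℝ) := Real.one_le_rpow hnR (by norm_num)
    have h4 : (ρ : ℝ) ≤ ρ * (n : ℝ) ^ (1 / 2 : ℝ) := le_mul_of_one_le_right (Nat.cast_nonneg _) h3
    rw [hK]
    linarith
  have hK0 : 0 ≤ K := by positivity
  have t1 : 6 * (2 * n * L) / (pv n : ℝ) ≤ 132 * n := by
    rw [div_le_iff₀ (by linarith)]
    have h1 : 12 * L ≤ 132 * pv n := by linarith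
    have h2 : n * (12 * L) ≤ n * (132 * (pv n : ℝ)) := mul_le_mul_of_nonneg_left h1 hn0.le
    linarith
  have t2 : Real.logb 2 (2 * n * L + 1) ≤ 3 * L := by
    have h1 : 2 * n * L + 1 ≤ (n : ℝ) ^ 3 := by
      have h2 : L ≤ n := hL.trans (by
        calc (n : ℝ) ^ (1 / 20 : ℝ) ≤ (n : ℝ) ^ (1 : ℝ) := Real.rpow_le_rpow_of_exponent_le hnR (by norm_num)
          _ = n := Real.rpow_one _)
      have h4 : 2 * n * L ≤ 2 * n * n := mul_le_mul_of_nonneg_left h2 (by positivity)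
      have h5 : 3 * ((n : ℝ) * n) ≤ n * (n * n) := mul_le_mul_of_nonneg_right h3n (by positivity)
      have h6 : 1 * 1 ≤ (n : ℝ) * n := mul_le_mul hnR hnR (by norm_num) hn0.le
      have h7 : (n : ℝ) ^ 3 = n * (n * n) := by ring
      rw [h7]; linarith
    calc Real.logb 2 (2 * n * L + 1) ≤ Real.logb 2 ((n : ℝ) ^ 3) := Real.logb_le_logb_of_le (by norm_num) (by positivity) h1
      _ = 3 * L := by rw [Real.logb_pow]; norm_num [hLdef]
  have hLv : (pv n : ℝ) ≤ L := by linarith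
  have hm1 : (n : ℝ) ^ (1 / 10 : ℝ) * ((n : ℝ) ^ (3 / 10 : ℝ) * (n : ℝ) ^ (1 / 2 : ℝ)) * ((n : ℝ) ^ (1 / 20 : ℝ) * (n : ℝ) ^ (1 / 20 : ℝ)) = n := by
    rw [← Real.rpow_add hn0, ← Real.rpow_add hn0, ← Real.rpow_add hn0, ← Real.rpow_add hn0]
    norm_num
  have q1 : (1 : ℝ) ≤ (n : ℝ) ^ (3 / 10 : ℝ) := Real.one_le_rpow hnR (by norm_num)
  have q2 : (1 : ℝ) ≤ (n : ℝ) ^ (1 / 2 : ℝ) := Real.one_le_rpow hnR (by norm_num)
  have q3 : (0 : ℝ) ≤ (n : ℝ) ^ (1 / 10 : ℝ) := by positivity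
  have t4 : (py n : ℝ) * (4 + 2 * Real.logb 2 (2 * n * L + 1)) ≤ n := by
    have h1 : 4 + 2 * Real.logb 2 (2 * n * L + 1) ≤ 10 * L := by linarith
    have h2 : (1 : ℝ) ≤ (n : ℝ) ^ (3 / 10 : ℝ) * (n : ℝ) ^ (1 / 2 : ℝ) := one_le_mul_of_one_le_of_one_le q1 q2
    generalize Real.logb 2 (2 * n * L + 1) = lg at *
    generalize (n : ℝ) ^ (1 / 10 : ℝ) = u at *
    generalize (n : ℝ) ^ (1 / 20 : ℝ) = w at *
    generalize (n : ℝ) ^ (3 / 10 : ℝ) * (n : ℝ) ^ (1 / 2 : ℝ) = x at *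
    have hw : 0 ≤ w := by linarith
    calc (py n : ℝ) * (4 + 2 * lg) ≤ (py n : ℝ) * (10 * L) := mul_le_mul_of_nonneg_left h1 (Nat.cast_nonneg _)
      _ ≤ u * (w * w) := mul_le_mul hy (mul_le_mul h10 hL hL0 hw) (by positivity) q3
      _ ≤ u * x * (w * w) := by
        have : u * (w * w) ≤ x * (u * (w * w)) := le_mul_of_one_le_left (by positivity) h2
        linarith
      _ = n := hm1
  have t3 : (py n : ℝ) * (2 * ρ * (ρ * pa n) * (pk C n + ρ : ℕ) * pv n) ≤ n := by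
    have hkk : (0 : ℝ) ≤ ((pk C n + ρ : ℕ) : ℝ) := Nat.cast_nonneg _
    generalize ((pk C n + ρ : ℕ) : ℝ) = kk at *
    generalize (n : ℝ) ^ (1 / 10 : ℝ) = u at *
    generalize (n : ℝ) ^ (1 / 20 : ℝ) = w at *
    generalize (n : ℝ) ^ (3 / 10 : ℝ) = x at *
    generalize (n : ℝ) ^ (1 / 2 : ℝ) = z at *
    have hw : 0 ≤ w := by linarith
    have hx : 0 ≤ x := by linarith
    have hz : 0 ≤ z := by linarith
    calc (py n : ℝ) * (2 * ρ * (ρ * pa n) * kk * pv n)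
        ≤ u * (2 * ρ * (ρ * x) * (K * z) * w) := by
          have hvw : (pv n : ℝ) ≤ w := hLv.trans hL
          gcongr
      _ = (2 * ρ * ρ * K) * (u * (x * z) * w) := by ring
      _ ≤ w * (u * (x * z) * w) := mul_le_mul_of_nonneg_right hc (by positivity)
      _ = n := by rw [← hm1]; ring
  have t5 : (py n : ℝ) * (4 + 2 * Real.logb 2 (2 * n * L + 1) + 2 * ρ * (ρ * pa n) * (pk C n + ρ : ℕ) * pv n)
      = (py n : ℝ) * (4 + 2 * Real.logb 2 (2 * n * L + 1)) + (py n : ℝ) * (2 * ρ * (ρ * pa n) * (pk C n + ρ : ℕ) * pv n) := by ring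
  rw [t5]
  linarith

theorem num7 : Num7 := by
  intro C J A ρ hρ
  filter_upwards [ev_log, ev_pow (2 * ρ * ρ * (Real.sqrt (2 * (C + 12)) + 1 + ρ)), ev_pow 10,
    ev_n (Real.logb 2 ((ρ + 1).factorial : ℝ) + (ρ + 1) * Real.logb 2 (ρ + 1) + (ρ + 1) * (1 + A)),
    ev_n (2 * Real.logb 2 (ρ.factorial : ℝ) + 2 * ρ * A), eventually_ge_atTop (2 ^ 110)] with n hL hc h10 hn1 hn2 hn3
  have hn : 1 ≤ n := le_trans (by norm_num) hn3
  have hv := pv_le n hn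
  have hv11 : 11 ≤ pv n := by
    have : 110 ≤ Nat.log 2 n := Nat.le_log_of_pow_le (by norm_num) hn3
    unfold pv; omega
  have hvR : (11 : ℝ) ≤ pv n := by exact_mod_cast hv11
  have hL1 : 1 ≤ Real.logb 2 (n : ℝ) := by linarith
  exact ⟨part1 A ρ J n hn hρ hL1 hn1, part2 A ρ n hn hL1 hn2, part3 C ρ n hn3 hL hc h10⟩

end Vale.Agent.P160.Half.G.Num7H307
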