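import Vale.Agent.P160.Half.GAsm
import Vale.Agent.P160.Half.NoSp2
import Vale.Agent.P160.Half.NoSpZ
import Vale.Agent.P160.Half.Rows2
import Vale.Agent.P160.Half.Core
import Vale.Agent.P160.Half.KZ1
import Vale.Agent.P160.Half.KZA
import Vale.Agent.P160.Half.LOpp
import Vale.Agent.P160.Half.RC
import Vale.Agent.P160.Half.CntH840
import Vale.Agent.P160.Half.Num1_604
import Vale.Agent.P160.Half.Num2
import Vale.Agent.P160.Half.Num3
import Vale.Agent.P160.Half.Num4
import Vale.Agent.P160.Half.Num5
import Vale.Agent.P160.Half.Num6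
import Vale.Agent.P160.Half.Num7H307
import Vale.Agent.P160.Half.Num8_574

/-! # P160, half rate: gap (G): everything except the deterministic core -/

namespace Vale.Agent.P160.Half.G

open A

theorem stmtG_of_det (hdet : DetStmt) : StmtG :=
  gasm (ns2 (core2 rows2)) (kz1 rows2 (core2 rows2) nsz) (kza rows2 lopp) nsz rc C840.countL hdet
    Num1_604.num1 num2 num3 num4 num5 num6 Num7H307.num7 N574.num8

end Vale.Agent.P160.Half.G
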