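import Vale.Agent.P160.Half.GStmt4

/-! # P160, half rate: the number leaf N6 of the gap (G). -/

namespace Vale.Agent.P160.Half.G

namespace N6

open Filter

theorem pv_facts (V : ℕ) (hV : 10 ≤ V) (n : ℕ) (hn : 2 ^ (10 * V) ≤ n) :
    V ≤ pv n ∧ py n ^ 10 ≤ n ∧ Real.logb 2 n ≤ 11 * pv n := by
  have hn0 : n ≠ 0 := by
    have : 0 < 2 ^ (10 * V) := by positivity
    omega
  have h1 : 10 * V ≤ Nat.log 2 n := Nat.le_log_of_pow_le (by norm_num) hn
  have h2 : V ≤ pv n := by unfold pv; omega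
  refine ⟨h2, ?_, ?_⟩
  · unfold py
    rw [← pow_mul]
    refine le_trans (Nat.pow_le_pow_right (by norm_num) ?_) (Nat.pow_log_le_self 2 hn0)
    unfold pv
    omega
  · have h3 : n < 2 ^ (Nat.log 2 n + 1) := Nat.lt_pow_succ_log_self (by norm_num) n
    have h4 : n ≤ 2 ^ (11 * pv n) := by
      refine h3.le.trans (Nat.pow_le_pow_right (by norm_num) ?_)
      have h5 : 10 ≤ pv n := hV.trans h2
      have h6 : Nat.log 2 n < 10 * pv n + 10 := by unfold pv; omega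
      omega
    have h5 : (n : ℝ) ≤ (2 : ℝ) ^ ((11 * pv n : ℕ) : ℝ) := by
      rw [Real.rpow_natCast]
      exact_mod_cast h4
    have hnp : (0 : ℝ) < n := by
      have : 0 < n := Nat.pos_of_ne_zero hn0
      exact_mod_cast this
    have h6 := Real.logb_le_logb_of_le (by norm_num : (1 : ℝ) < 2) hnp h5
    rw [Real.logb_rpow (by norm_num) (by norm_num)] at h6
    push_cast at h6
    exact h6

theorem logb_factorial (n : ℕ) (hn : 1 ≤ n) : Real.logb 2 n.factorial ≤ n * Real.logb 2 n := by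
  have h1 : n.factorial ≤ n ^ n := Nat.factorial_le_pow n
  have h2 : ((n.factorial : ℕ) : ℝ) ≤ (n : ℝ) ^ n := by exact_mod_cast h1
  have h3 : (0 : ℝ) < ((n.factorial : ℕ) : ℝ) := by exact_mod_cast Nat.factorial_pos n
  have h4 := Real.logb_le_logb_of_le (by norm_num : (1 : ℝ) < 2) h3 h2
  rwa [Real.logb_pow] at h4

/-- the real inequality -/
theorem real_ineq (ρ K c v e L F S q nn : ℝ) (hρ0 : 0 ≤ ρ) (hρK : ρ + 2 ≤ K) (hc : 0 ≤ c) (hv : 0 < v)
    (he0 : 0 ≤ e) (hL0 : 0 ≤ L) (hL : L ≤ 11 * v) (hn : 0 ≤ nn) (hF : F ≤ nn * L) (hS : S ≤ nn * v)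
    (hFS : 0 ≤ F + S) (hq0 : 0 ≤ q) (hq : q ≤ c / v) (he : e * c * K ^ 4 ≤ 1 / 1000)
    (hbig : 224 * K ^ 6 * c ^ 2 ≤ v) :
    (ρ + 1) * ((F + S) * (e * (ρ * q) + (ρ * q) ^ 2) + 2 * (ρ * (2 * K * nn * L)) *
      (e * (ρ * q) + ρ * (ρ * q) ^ 2)) ≤ nn / 2 := by
  have hK : 2 ≤ K := by linarith
  have hK0 : 0 ≤ K := by linarith
  have hρK' : ρ ≤ K := by linarith
  have hρ1 : ρ + 1 ≤ K := by linarith
  have hcv : 0 ≤ c / v := div_nonneg hc hv.le
  have hρq : ρ * q ≤ K * (c / v) := mul_le_mul hρK' hq hq0 hK0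
  have hρq0 : 0 ≤ ρ * q := mul_nonneg hρ0 hq0
  have h1 : e * (ρ * q) ≤ e * (K * (c / v)) := mul_le_mul_of_nonneg_left hρq he0
  have h2 : (ρ * q) ^ 2 ≤ (K * (c / v)) ^ 2 := pow_le_pow_left₀ hρq0 hρq 2
  have h3 : ρ * (ρ * q) ^ 2 ≤ K * (K * (c / v)) ^ 2 := mul_le_mul hρK' h2 (by positivity) hK0
  have hFS1 : F + S ≤ 12 * nn * v := by nlinarith [mul_le_mul_of_nonneg_left hL hn]
  have hA : (F + S) * (e * (ρ * q) + (ρ * q) ^ 2) ≤
      12 * nn * v * (e * (K * (c / v)) + (K * (c / v)) ^ 2) := by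
    refine mul_le_mul hFS1 (by linarith) (by positivity) (by positivity)
  have hB1 : 2 * (ρ * (2 * K * nn * L)) ≤ 2 * (K * (2 * K * nn * (11 * v))) := by
    have h4 : ρ * (2 * K * nn * L) ≤ K * (2 * K * nn * (11 * v)) := by
      refine mul_le_mul hρK' ?_ (by positivity) hK0
      exact mul_le_mul_of_nonneg_left hL (by positivity)
    linarith
  have hB : 2 * (ρ * (2 * K * nn * L)) * (e * (ρ * q) + ρ * (ρ * q) ^ 2) ≤
      2 * (K * (2 * K * nn * (11 * v))) * (e * (K * (c / v)) + K * (K * (c / v)) ^ 2) := by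
    refine mul_le_mul hB1 (by linarith) (by positivity) (by positivity)
  have hC : 12 * nn * v * (e * (K * (c / v)) + (K * (c / v)) ^ 2) =
      nn * (12 * (e * c * K) + 12 * (K ^ 2 * c ^ 2 / v)) := by
    field_simp
  have hD : 2 * (K * (2 * K * nn * (11 * v))) * (e * (K * (c / v)) + K * (K * (c / v)) ^ 2) =
      nn * (44 * (e * c * K ^ 3) + 44 * (K ^ 5 * c ^ 2 / v)) := by
    field_simp
    ring
  have hsum : (F + S) * (e * (ρ * q) + (ρ * q) ^ 2) + 2 * (ρ * (2 * K * nn * L)) *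
      (e * (ρ * q) + ρ * (ρ * q) ^ 2) ≤
      nn * ((12 * (e * c * K) + 12 * (K ^ 2 * c ^ 2 / v)) + (44 * (e * c * K ^ 3) + 44 * (K ^ 5 * c ^ 2 / v))) := by
    rw [mul_add nn, ← hC, ← hD]
    exact add_le_add hA hB
  have hec : 0 ≤ e * c := mul_nonneg he0 hc
  have hcc : 0 ≤ c ^ 2 / v := by positivity
  have hK1 : K ≤ K ^ 3 := by nlinarith [mul_nonneg hK0 hK0, mul_nonneg hK0 (by linarith : 0 ≤ K - 1)]
  have hK2 : K ^ 2 ≤ K ^ 5 := pow_le_pow_right₀ (by linarith) (by norm_num)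
  have hE1 : e * c * K ≤ e * c * K ^ 3 := mul_le_mul_of_nonneg_left hK1 hec
  have hE2 : K ^ 2 * c ^ 2 / v ≤ K ^ 5 * c ^ 2 / v := by
    rw [mul_div_assoc, mul_div_assoc]
    exact mul_le_mul_of_nonneg_right hK2 hcc
  have hG : (12 * (e * c * K) + 12 * (K ^ 2 * c ^ 2 / v)) + (44 * (e * c * K ^ 3) + 44 * (K ^ 5 * c ^ 2 / v)) ≤
      56 * (e * c * K ^ 3) + 56 * (K ^ 5 * c ^ 2 / v) := by linarith
  have hG0 : 0 ≤ 56 * (e * c * K ^ 3) + 56 * (K ^ 5 * c ^ 2 / v) := by positivity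
  have hbig' : K ^ 6 * c ^ 2 / v ≤ 1 / 224 := by
    rw [div_le_iff₀ hv]
    linarith
  calc (ρ + 1) * ((F + S) * (e * (ρ * q) + (ρ * q) ^ 2) + 2 * (ρ * (2 * K * nn * L)) *
        (e * (ρ * q) + ρ * (ρ * q) ^ 2)) ≤
      (ρ + 1) * (nn * (56 * (e * c * K ^ 3) + 56 * (K ^ 5 * c ^ 2 / v))) := by
        refine mul_le_mul_of_nonneg_left (hsum.trans ?_) (by linarith)
        exact mul_le_mul_of_nonneg_left hG hn
    _ ≤ K * (nn * (56 * (e * c * K ^ 3) + 56 * (K ^ 5 * c ^ 2 / v))) :=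
        mul_le_mul_of_nonneg_right hρ1 (mul_nonneg hn hG0)
    _ = nn * (56 * (e * c * K ^ 4) + 56 * (K ^ 6 * c ^ 2 / v)) := by ring
    _ ≤ nn * (56 * (1 / 1000) + 56 * (1 / 224)) := by
        refine mul_le_mul_of_nonneg_left ?_ hn
        linarith
    _ ≤ nn / 2 := by nlinarith

end N6

open Filter in
theorem num6 : Num6 := by
  intro C J s₁ hs ρ hρ
  set V : ℕ := 224 * (J + 2) ^ 6 * (4 * (C + 10)) ^ 2 + 2 * J ^ 2 + 10 with hV
  filter_upwards [eventually_ge_atTop (2 ^ (10 * V))] with n hn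
  obtain ⟨f1, f2, f3⟩ := N6.pv_facts V (by omega) n hn
  have hn1 : 1 ≤ n := le_trans Nat.one_le_two_pow hn
  have hnR : (1 : ℝ) ≤ n := by exact_mod_cast hn1
  have hv10 : 10 ≤ pv n := le_trans (by omega) f1
  have hvR : (0 : ℝ) < pv n := by
    have : 0 < pv n := by omega
    exact_mod_cast this
  have hL0 : 0 ≤ Real.logb 2 n := Real.logb_nonneg (by norm_num) hnR
  have hF0 : 0 ≤ Real.logb 2 n.factorial :=
    Real.logb_nonneg (by norm_num) (by exact_mod_cast Nat.one_le_iff_ne_zero.2 (Nat.factorial_ne_zero n))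
  have hlog1 : 0 ≤ Real.logb 2 (py n + 1) :=
    Real.logb_nonneg (by norm_num) (by linarith [Nat.cast_nonneg (α := ℝ) (py n)])
  -- the small term
  have hS : 2 * (ρ : ℝ) * (ρ * pa n) * py n * Real.logb 2 (py n + 1) ≤ n * (pv n : ℝ) := by
    have h1 : Real.logb 2 (py n + 1) ≤ (pv n + 1 : ℕ) := by
      have h2 : ((py n + 1 : ℕ) : ℝ) ≤ (2 : ℝ) ^ (((pv n + 1 : ℕ)) : ℝ) := by
        rw [Real.rpow_natCast]
        have h3 : py n + 1 ≤ 2 ^ (pv n + 1) := by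
          unfold py
          have : 1 ≤ 2 ^ pv n := Nat.one_le_two_pow
          rw [pow_succ]
          omega
        exact_mod_cast h3
      have h3 := Real.logb_le_logb_of_le (by norm_num : (1 : ℝ) < 2)
        (by positivity : (0 : ℝ) < ((py n + 1 : ℕ) : ℝ)) h2
      rw [Real.logb_rpow (by norm_num) (by norm_num)] at h3
      push_cast at h3 ⊢
      exact h3
    have hy1 : pv n + 1 ≤ py n := by unfold py; exact Nat.succ_le_of_lt Nat.lt_two_pow_self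
    have hy2 : 2 * J ^ 2 ≤ py n := by
      have : 2 * J ^ 2 ≤ V := by rw [hV]; omega
      omega
    have hnat : 2 * ρ * (ρ * pa n) * py n * (pv n + 1) ≤ n * pv n := by
      have hρ2 : 2 * (ρ * ρ) ≤ py n := by
        refine le_trans ?_ hy2
        rw [sq]
        exact Nat.mul_le_mul_left _ (Nat.mul_le_mul hρ hρ)
      have hy0 : 1 ≤ py n := by omega
      calc 2 * ρ * (ρ * pa n) * py n * (pv n + 1) = (2 * (ρ * ρ)) * (pa n * py n) * (pv n + 1) := by ring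
        _ ≤ py n * (pa n * py n) * py n := Nat.mul_le_mul (Nat.mul_le_mul_right _ hρ2) hy1
        _ = py n ^ 6 := by unfold pa; ring
        _ ≤ py n ^ 10 := Nat.pow_le_pow_right hy0 (by norm_num)
        _ ≤ n * 1 := by rw [mul_one]; exact f2
        _ ≤ n * pv n := Nat.mul_le_mul_left _ (by omega)
    calc 2 * (ρ : ℝ) * (ρ * pa n) * py n * Real.logb 2 (py n + 1) ≤
          2 * (ρ : ℝ) * (ρ * pa n) * py n * (pv n + 1 : ℕ) :=
          mul_le_mul_of_nonneg_left h1 (by positivity)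
      _ ≤ n * (pv n : ℝ) := by exact_mod_cast hnat
  have hS0 : 0 ≤ 2 * (ρ : ℝ) * (ρ * pa n) * py n * Real.logb 2 (py n + 1) := by positivity
  -- the fraction
  have hq : ((pz (4 * (C + 10)) n : ℕ) : ℝ) / n ≤ (4 * ((C : ℝ) + 10)) / pv n := by
    rw [div_le_div_iff₀ (by linarith) hvR]
    have h1 : pz (4 * (C + 10)) n * pv n ≤ 4 * (C + 10) * n := by
      unfold pz
      exact Nat.div_mul_le_self _ _
    exact_mod_cast h1
  have hρR : (ρ : ℝ) + 2 ≤ (J : ℝ) + 2 := by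
    have : (ρ : ℝ) ≤ J := by exact_mod_cast hρ
    linarith
  have he : (1 / 2 : ℝ) ^ s₁ * (4 * ((C : ℝ) + 10)) * ((J : ℝ) + 2) ^ 4 ≤ 1 / 1000 := by
    have h1 : (10 ^ 6 * ((C : ℝ) + 10) * ((J : ℝ) + 2) ^ 4) ≤ (2 : ℝ) ^ s₁ := by exact_mod_cast hs
    have h2 : (0 : ℝ) < 2 ^ s₁ := by positivity
    rw [one_div, inv_pow, mul_assoc, inv_mul_le_iff₀ h2]
    nlinarith [Nat.cast_nonneg (α := ℝ) C, pow_nonneg (by positivity : (0 : ℝ) ≤ (J : ℝ) + 2) 4]
  have hbig : 224 * ((J : ℝ) + 2) ^ 6 * (4 * ((C : ℝ) + 10)) ^ 2 ≤ pv n := by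
    have h1 : 224 * (J + 2) ^ 6 * (4 * (C + 10)) ^ 2 ≤ pv n := le_trans (by omega) f1
    exact_mod_cast h1
  have key := N6.real_ineq (ρ : ℝ) ((J : ℝ) + 2) (4 * ((C : ℝ) + 10)) (pv n) ((1 / 2) ^ s₁) (Real.logb 2 n)
    (Real.logb 2 n.factorial) (2 * (ρ : ℝ) * (ρ * pa n) * py n * Real.logb 2 (py n + 1))
    (((pz (4 * (C + 10)) n : ℕ) : ℝ) / n) n (Nat.cast_nonneg _) hρR (by positivity) hvR (by positivity) hL0 f3
    (by linarith) (N6.logb_factorial n hn1) hS (add_nonneg hF0 hS0) (by positivity) hq he hbig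
  refine le_trans (le_of_eq ?_) key
  ring

end Vale.Agent.P160.Half.G
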