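import Vale.Agent.P160.Half.GStmt4

/-! # P160, half rate: numeric leaf `Num7` (helper183, hedge) -/

set_option linter.unusedVariables false

open Filter

namespace Vale.Agent.P160.Half.G.Num7H183

theorem pv_ge (b : ℕ) : ∀ᶠ n : ℕ in atTop, b ≤ pv n := by
  filter_upwards [eventually_ge_atTop (2 ^ (10 * b))] with n hn
  have h0 : n ≠ 0 := by
    have : 0 < 2 ^ (10 * b) := by positivity
    omega
  have : 10 * b ≤ Nat.log 2 n := (Nat.le_log_iff_pow_le (by norm_num) h0).2 hn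
  unfold pv
  omega

theorem pv_tendsto : Tendsto pv atTop atTop := tendsto_atTop.2 pv_ge

theorem py_pow_le {n : ℕ} (hn : n ≠ 0) : py n ^ 10 ≤ n := by
  unfold py pv
  rw [← pow_mul]
  calc 2 ^ (Nat.log 2 n / 10 * 10) ≤ 2 ^ Nat.log 2 n := Nat.pow_le_pow_right (by norm_num) (by omega)
    _ ≤ n := Nat.pow_log_le_self 2 hn

theorem lt_py (n : ℕ) : n < (2 * py n) ^ 10 := by
  unfold py pv
  have h1 : n < 2 ^ (Nat.log 2 n + 1) := Nat.lt_pow_succ_log_self (by norm_num) n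
  have h2 : 2 * 2 ^ (Nat.log 2 n / 10) = 2 ^ (Nat.log 2 n / 10 + 1) := by ring
  rw [h2, ← pow_mul]
  exact h1.trans_le (Nat.pow_le_pow_right (by norm_num) (by omega))

theorem logb_py (n : ℕ) : Real.logb 2 (py n) = pv n := by
  unfold py
  push_cast
  rw [Real.logb_pow]
  simp

theorem ten_pv_le {n : ℕ} (hn : n ≠ 0) : 10 * (pv n : ℝ) ≤ Real.logb 2 n := by
  have h := py_pow_le hn
  have hpy : (0 : ℝ) < (py n : ℝ) := by unfold py; positivity
  have h' : ((py n : ℝ)) ^ 10 ≤ (n : ℝ) := by exact_mod_cast h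
  have := Real.logb_le_logb_of_le (b := 2) (by norm_num) (by positivity) h'
  rw [Real.logb_pow, logb_py] at this
  push_cast at this
  linarith

theorem logb_le {n : ℕ} (hn : n ≠ 0) : Real.logb 2 n ≤ 10 * (pv n : ℝ) + 10 := by
  have h := (lt_py n).le
  have hpy : (0 : ℝ) < (py n : ℝ) := by unfold py; positivity
  have h' : (n : ℝ) ≤ (2 * (py n : ℝ)) ^ 10 := by exact_mod_cast h
  have hn' : (0 : ℝ) < n := by exact_mod_cast Nat.pos_of_ne_zero hn
  have := Real.logb_le_logb_of_le (b := 2) (by norm_num) hn' h'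
  rw [Real.logb_pow, Real.logb_mul (by norm_num) hpy.ne', logb_py, Real.logb_self_eq_one (by norm_num)] at this
  push_cast at this
  linarith

theorem logb_fact {n : ℕ} (hn : n ≠ 0) : Real.logb 2 n.factorial ≤ n * Real.logb 2 n := by
  have h : ((n.factorial : ℕ) : ℝ) ≤ (n : ℝ) ^ n := by exact_mod_cast Nat.factorial_le_pow n
  have := Real.logb_le_logb_of_le (b := 2) (by norm_num) (by exact_mod_cast Nat.factorial_pos n) h
  rwa [Real.logb_pow] at this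

/-- `K v ≤ 2^v` eventually, and `K ≤ 2^v`. -/
theorem ev_lin (K : ℝ) : ∀ᶠ n : ℕ in atTop, K * (pv n + 1) ≤ (py n : ℝ) := by
  have h : Tendsto (fun v : ℕ => ((v : ℝ) ^ 1 * (1 / 2 : ℝ) ^ v)) atTop (nhds 0) :=
    tendsto_pow_const_mul_const_pow_of_lt_one 1 (by norm_num) (by norm_num)
  have h2 : Tendsto (fun v : ℕ => ((1 / 2 : ℝ) ^ v)) atTop (nhds 0) :=
    tendsto_pow_atTop_nhds_zero_of_lt_one (by norm_num) (by norm_num)
  have h3 : Tendsto (fun v : ℕ => K * ((v : ℝ) ^ 1 * (1 / 2 : ℝ) ^ v + (1 / 2 : ℝ) ^ v)) atTop (nhds (K * (0 + 0))) :=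
    (h.add h2).const_mul K
  rw [add_zero, mul_zero] at h3
  have h4 := (h3.eventually (gt_mem_nhds (show (0 : ℝ) < 1 by norm_num)))
  filter_upwards [pv_tendsto.eventually h4] with n hn
  have e : (py n : ℝ) = 2 ^ pv n := by unfold py; push_cast; rfl
  rw [e]
  have p : (0 : ℝ) < 2 ^ pv n := by positivity
  have : K * ((pv n : ℝ) ^ 1 * (1 / 2 : ℝ) ^ pv n + (1 / 2 : ℝ) ^ pv n) * 2 ^ pv n ≤ 1 * 2 ^ pv n :=
    mul_le_mul_of_nonneg_right hn.le p.le
  have q : (1 / 2 : ℝ) ^ pv n * 2 ^ pv n = 1 := by rw [← mul_pow]; norm_num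
  calc K * (pv n + 1) = K * ((pv n : ℝ) ^ 1 * ((1 / 2 : ℝ) ^ pv n * 2 ^ pv n) + (1 / 2 : ℝ) ^ pv n * 2 ^ pv n) := by
        rw [q]; ring
    _ = K * ((pv n : ℝ) ^ 1 * (1 / 2 : ℝ) ^ pv n + (1 / 2 : ℝ) ^ pv n) * 2 ^ pv n := by ring
    _ ≤ _ := by simpa using this

theorem pk_le (C : ℕ) {n : ℕ} (hn : n ≠ 0) : (pk C n : ℝ) ≤ 32 * (2 * (C + 12) + 1) * (py n : ℝ) ^ 5 := by
  have hpy : (1 : ℝ) ≤ (py n : ℝ) := by
    have : 1 ≤ py n := by unfold py; exact Nat.one_le_two_pow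
    exact_mod_cast this
  have h1 : ((Nat.sqrt (2 * (C + 12) * n) : ℕ) : ℝ) ≤ Real.sqrt ((2 * (C + 12) * n : ℕ) : ℝ) := Real.nat_sqrt_le_real_sqrt
  have h2 : Real.sqrt ((2 * (C + 12) * n : ℕ) : ℝ) ≤ (2 * (C + 12)) * (32 * (py n : ℝ) ^ 5) := by
    apply Real.sqrt_le_iff.2
    refine ⟨by positivity, ?_⟩
    have h3 : (n : ℝ) ≤ (2 * (py n : ℝ)) ^ 10 := by exact_mod_cast (lt_py n).le
    have h4 : (1 : ℝ) ≤ 2 * ((C : ℝ) + 12) := by
      have : (0 : ℝ) ≤ C := by positivity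
      linarith
    push_cast
    calc (2 * ((C : ℝ) + 12)) * n ≤ (2 * ((C : ℝ) + 12)) * (2 * (py n : ℝ)) ^ 10 := by gcongr
      _ ≤ (2 * ((C : ℝ) + 12)) ^ 2 * (2 * (py n : ℝ)) ^ 10 := by
          gcongr
          nlinarith
      _ = ((2 * ((C : ℝ) + 12)) * (32 * (py n : ℝ) ^ 5)) ^ 2 := by ring
  have h5 : (1 : ℝ) ≤ (py n : ℝ) ^ 5 := one_le_pow₀ hpy
  unfold pk
  push_cast
  linarith

theorem part3 (C J ρ : ℕ) (hρ : ρ ≤ J) : ∀ᶠ n : ℕ in atTop,
    (n : ℝ) + 6 * (2 * n * Real.logb 2 n) / Real.logb 2 (py n) + py n * (4 + 2 * Real.logb 2 (2 * n * Real.logb 2 n + 1) +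
      2 * ρ * (ρ * pa n) * (pk C n + ρ : ℕ) * Real.logb 2 (py n)) ≤ 200 * n := by
  set K1 : ℝ := 2 * J * J * (32 * (2 * (C + 12) + 1) + J) with hK1
  filter_upwards [eventually_ge_atTop 3, pv_ge 10, ev_lin 100, ev_lin K1] with n hn3 hv h100 hK
  have hn0 : n ≠ 0 := by omega
  have hnp : (0 : ℝ) < n := by exact_mod_cast Nat.pos_of_ne_zero hn0
  have hn3' : (3 : ℝ) ≤ n := by exact_mod_cast hn3
  have hpy : (1 : ℝ) ≤ (py n : ℝ) := by
    have : 1 ≤ py n := by unfold py; exact Nat.one_le_two_pow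
    exact_mod_cast this
  have hpy0 : (0 : ℝ) < (py n : ℝ) := by linarith
  have hv' : (10 : ℝ) ≤ pv n := by exact_mod_cast hv
  have hy10 : ((py n : ℝ)) ^ 10 ≤ (n : ℝ) := by exact_mod_cast py_pow_le hn0
  have hL := logb_le hn0
  have hLn : Real.logb 2 n ≤ n := by
    have := Real.logb_le_logb_of_le (b := 2) (by norm_num) hnp
      (show (n : ℝ) ≤ 2 ^ n by exact_mod_cast Nat.lt_two_pow_self.le)
    rwa [Real.logb_pow, Real.logb_self_eq_one (by norm_num), mul_one] at this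
  have hL0 : 0 ≤ Real.logb 2 n := Real.logb_nonneg (by norm_num) (by linarith)
  rw [logb_py]
  -- first
  have t1 : 6 * (2 * n * Real.logb 2 n) / (pv n : ℝ) ≤ 150 * n := by
    rw [div_le_iff₀ (by linarith)]
    have : 12 * Real.logb 2 n ≤ 150 * pv n := by linarith
    nlinarith
  -- second
  have t2 : Real.logb 2 (2 * n * Real.logb 2 n + 1) ≤ 3 * Real.logb 2 n := by
    have : 2 * (n : ℝ) * Real.logb 2 n + 1 ≤ (n : ℝ) ^ 3 := by
      have a1 : 2 * (n : ℝ) * Real.logb 2 n ≤ 2 * n * n := by gcongr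
      have a2 : (1 : ℝ) ≤ n ^ 2 := by nlinarith
      nlinarith [mul_le_mul_of_nonneg_left hn3' (show (0 : ℝ) ≤ (n : ℝ) ^ 2 by positivity)]
    have h := Real.logb_le_logb_of_le (b := 2) (by norm_num) (by positivity) this
    rw [Real.logb_pow] at h
    push_cast at h
    exact h
  have t3 : (py n : ℝ) * (4 + 2 * Real.logb 2 (2 * n * Real.logb 2 n + 1)) ≤ n := by
    calc (py n : ℝ) * (4 + 2 * Real.logb 2 (2 * n * Real.logb 2 n + 1))
        ≤ (py n : ℝ) * (100 * (pv n + 1)) := by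
          apply mul_le_mul_of_nonneg_left _ hpy0.le
          linarith
      _ ≤ (py n : ℝ) * (py n) := by gcongr
      _ = (py n : ℝ) ^ 2 := by ring
      _ ≤ (py n : ℝ) ^ 10 := pow_le_pow_right₀ hpy (by norm_num)
      _ ≤ n := hy10
  have t4 : (py n : ℝ) * (2 * ρ * (ρ * pa n) * (pk C n + ρ : ℕ) * (pv n : ℝ)) ≤ n := by
    have hpa : (pa n : ℝ) = (py n : ℝ) ^ 3 := by unfold pa; push_cast; rfl
    have hpk := pk_le C hn0
    have hρ' : (ρ : ℝ) ≤ J := by exact_mod_cast hρ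
    have h5 : (1 : ℝ) ≤ (py n : ℝ) ^ 5 := one_le_pow₀ hpy
    have hs : ((pk C n + ρ : ℕ) : ℝ) ≤ (32 * (2 * (C + 12) + 1) + J) * (py n : ℝ) ^ 5 := by
      push_cast
      nlinarith [mul_le_mul_of_nonneg_left h5 (show (0 : ℝ) ≤ (J : ℝ) by positivity)]
    rw [hpa]
    calc (py n : ℝ) * (2 * ρ * (ρ * (py n : ℝ) ^ 3) * (pk C n + ρ : ℕ) * (pv n : ℝ))
        ≤ (py n : ℝ) * (2 * J * (J * (py n : ℝ) ^ 3) * ((32 * (2 * (C + 12) + 1) + J) * (py n : ℝ) ^ 5) * (pv n : ℝ)) := by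
          gcongr
      _ = (py n : ℝ) ^ 9 * (K1 * pv n) := by rw [hK1]; ring
      _ ≤ (py n : ℝ) ^ 9 * (K1 * (pv n + 1)) := by
          have : 0 ≤ K1 := by rw [hK1]; positivity
          gcongr
          linarith
      _ ≤ (py n : ℝ) ^ 9 * (py n) := by gcongr
      _ = (py n : ℝ) ^ 10 := by ring
      _ ≤ n := hy10
  have e : (py n : ℝ) * (4 + 2 * Real.logb 2 (2 * n * Real.logb 2 n + 1) + 2 * ρ * (ρ * pa n) * (pk C n + ρ : ℕ) * (pv n : ℝ)) =
      (py n : ℝ) * (4 + 2 * Real.logb 2 (2 * n * Real.logb 2 n + 1)) + (py n : ℝ) * (2 * ρ * (ρ * pa n) * (pk C n + ρ : ℕ) * (pv n : ℝ)) := by ring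
  rw [e]
  linarith

theorem part1 (J A ρ : ℕ) (hρ : ρ ≤ J) : ∀ᶠ n : ℕ in atTop,
    Real.logb 2 (((ρ + 1).factorial * ((ρ + 1) * (n * n.factorial * n ^ A)) ^ (ρ + 1) : ℕ) : ℝ) ≤ 2 * (J + 2) * n * Real.logb 2 n := by
  set K : ℝ := Real.logb 2 ((ρ + 1).factorial * (ρ + 1) ^ (ρ + 1)) with hK
  obtain ⟨n₁, hn₁⟩ := exists_nat_ge (|K| + (J + 1) * (A + 1))
  filter_upwards [eventually_ge_atTop (max 2 n₁)] with n hn
  have hn2 : 2 ≤ n := le_trans (le_max_left _ _) hn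
  have hn0 : n ≠ 0 := by omega
  have hnp : (0 : ℝ) < n := by exact_mod_cast Nat.pos_of_ne_zero hn0
  have hn2' : (2 : ℝ) ≤ n := by exact_mod_cast hn2
  have hn1' : |K| + (J + 1) * (A + 1) ≤ (n : ℝ) := hn₁.trans (by exact_mod_cast le_trans (le_max_right _ _) hn)
  have hL1 : 1 ≤ Real.logb 2 n := by
    rw [← Real.logb_self_eq_one (b := 2) (by norm_num)]
    exact Real.logb_le_logb_of_le (by norm_num) (by norm_num) hn2'
  have hf := logb_fact hn0
  have hf0 : (0 : ℝ) < n.factorial := by exact_mod_cast Nat.factorial_pos n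
  have e : Real.logb 2 (((ρ + 1).factorial * ((ρ + 1) * (n * n.factorial * n ^ A)) ^ (ρ + 1) : ℕ) : ℝ) =
      K + (ρ + 1) * (Real.logb 2 n + Real.logb 2 n.factorial + A * Real.logb 2 n) := by
    have e1 : (((ρ + 1).factorial * ((ρ + 1) * (n * n.factorial * n ^ A)) ^ (ρ + 1) : ℕ) : ℝ) =
        (((ρ + 1).factorial : ℝ) * (ρ + 1) ^ (ρ + 1)) * ((n : ℝ) * n.factorial * n ^ A) ^ (ρ + 1) := by
      push_cast
      rw [mul_pow]
      ring
    have e2 : Real.logb 2 ((n : ℝ) * n.factorial * n ^ A) = Real.logb 2 n + Real.logb 2 n.factorial + A * Real.logb 2 n := by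
      rw [Real.logb_mul (by positivity) (by positivity), Real.logb_mul (by positivity) (by positivity), Real.logb_pow]
    rw [e1, Real.logb_mul (by positivity) (by positivity), ← hK, Real.logb_pow, e2]
    push_cast
    ring
  rw [e]
  have hρ' : (ρ : ℝ) ≤ J := by exact_mod_cast hρ
  set L := Real.logb 2 (n : ℝ) with hLdef
  have hL0 : 0 ≤ L := by linarith
  have h1 : ((ρ : ℝ) + 1) * (L + Real.logb 2 n.factorial + A * L) ≤ (J + 1) * (L + n * L + A * L) := by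
    have : 0 ≤ Real.logb 2 (n.factorial : ℝ) := Real.logb_nonneg (by norm_num) (by exact_mod_cast Nat.factorial_pos n)
    gcongr
  have h2 : K ≤ |K| * L := by
    calc K ≤ |K| := le_abs_self K
      _ ≤ |K| * L := by nlinarith [abs_nonneg K]
  have h3 : (|K| + (J + 1) * (A + 1)) * L ≤ n * L := by gcongr
  have hnL : 0 ≤ (n : ℝ) * L := by positivity
  have hJ : (0 : ℝ) ≤ J := by positivity
  nlinarith [mul_nonneg hJ hnL]

theorem part2 (J A ρ : ℕ) (hρ : ρ ≤ J) : ∀ᶠ n : ℕ in atTop,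
    Real.logb 2 (n.factorial * (ρ.factorial * ((n : ℝ) ^ (A : ℝ)) ^ ρ) ^ 2) ≤ 2 * n * Real.logb 2 n := by
  set K : ℝ := Real.logb 2 ρ.factorial with hK
  obtain ⟨n₁, hn₁⟩ := exists_nat_ge (2 * |K| + 2 * J * A)
  filter_upwards [eventually_ge_atTop (max 2 n₁)] with n hn
  have hn2 : 2 ≤ n := le_trans (le_max_left _ _) hn
  have hn0 : n ≠ 0 := by omega
  have hnp : (0 : ℝ) < n := by exact_mod_cast Nat.pos_of_ne_zero hn0
  have hn2' : (2 : ℝ) ≤ n := by exact_mod_cast hn2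
  have hn1' : 2 * |K| + 2 * J * A ≤ (n : ℝ) := hn₁.trans (by exact_mod_cast le_trans (le_max_right _ _) hn)
  have hL1 : 1 ≤ Real.logb 2 n := by
    rw [← Real.logb_self_eq_one (b := 2) (by norm_num)]
    exact Real.logb_le_logb_of_le (by norm_num) (by norm_num) hn2'
  have hf := logb_fact hn0
  have hf0 : (0 : ℝ) < n.factorial := by exact_mod_cast Nat.factorial_pos n
  have hr0 : (0 : ℝ) < ρ.factorial := by exact_mod_cast Nat.factorial_pos ρ
  have hρ' : (ρ : ℝ) ≤ J := by exact_mod_cast hρ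
  rw [Real.rpow_natCast]
  have e : Real.logb 2 (n.factorial * (ρ.factorial * ((n : ℝ) ^ A) ^ ρ) ^ 2) =
      Real.logb 2 n.factorial + 2 * (K + ρ * (A * Real.logb 2 n)) := by
    rw [Real.logb_mul (by positivity) (by positivity), Real.logb_pow, Real.logb_mul (by positivity) (by positivity),
      Real.logb_pow, Real.logb_pow, hK]
    push_cast
    ring
  rw [e]
  set L := Real.logb 2 (n : ℝ) with hLdef
  have hL0 : 0 ≤ L := by linarith
  have h2 : K ≤ |K| * L := by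
    calc K ≤ |K| := le_abs_self K
      _ ≤ |K| * L := by nlinarith [abs_nonneg K]
  have h3 : (2 * |K| + 2 * J * A) * L ≤ n * L := by gcongr
  have h4 : (ρ : ℝ) * (A * L) ≤ J * (A * L) := by gcongr
  nlinarith

theorem num7 : Num7 := by
  intro C J A ρ hρ
  filter_upwards [part1 J A ρ hρ, part2 J A ρ hρ, part3 C J ρ hρ] with n h1 h2 h3
  exact ⟨h1, h2, h3⟩

end Vale.Agent.P160.Half.G.Num7H183
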