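import Vale.Agent.P160.Half.GAsmFin319
import Vale.Agent.P160.Half.GDet837
import Vale.Agent.P160.Half.NoSp2
import Vale.Agent.P160.Half.NoSpZ
import Vale.Agent.P160.Half.Core
import Vale.Agent.P160.Half.Rows2
import Vale.Agent.P160.Half.KZ1
import Vale.Agent.P160.Half.KZA2
import Vale.Agent.P160.Half.LOpp
import Vale.Agent.P160.Half.RC
import Vale.Agent.P160.Half.CountL
import Vale.Agent.P160.Half.KZF
import Vale.Agent.P160.Half.Con589
import Vale.Agent.P160.Half.RelFin837
import Vale.Agent.P160.Half.GoodR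
import Vale.Agent.P160.Half.Avg
import Vale.Agent.P160.Half.Num1
import Vale.Agent.P160.Half.Num2
import Vale.Agent.P160.Half.Num3
import Vale.Agent.P160.Half.Num4
import Vale.Agent.P160.Half.Num5
import Vale.Agent.P160.Half.Num6
import Vale.Agent.P160.Half.Num7H183
import Vale.Agent.P160.Half.Num8_574
import Vale.Agent.P160.Half.A5g
import Vale.Agent.P160.Half.A4
import Vale.Agent.P160.Half.LA2
import Vale.Agent.P160.Half.LA3

/-! # P160, half rate, part (A) complete: `RichSmall` (helper319) -/

namespace Vale.Agent.P160.Half.G.Asm319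

open Vale.Agent.P160.Half Vale.Agent.P160.Half.G

theorem stmtG : A.StmtG :=
  gasm (ns2 (core2 rows2)) nsz (kz1 rows2 (core2 rows2) nsz) (kza2 rows2 lopp) rc countL
    (Det837.gdet kzf Con589.con rel837 goodr AvgF.avg) num1 num2 num3 num4 num5 num6 Num7H183.num7 N574.num8

theorem richSmall_all : A.RichSmall :=
  A.richSmall stmtG (A.stmtA2 A.stmtA1) A.stmtA3 A4.stmtA4

end Vale.Agent.P160.Half.G.Asm319
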