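import Vale.Agent.P160.Half.GAsmStmt

/-! # P160, half rate: G13.N1 (hedge, helper752) -/

open Finset Matrix

namespace Vale.Agent.P160.Half.G13.H752

open A G Labels

theorem n1 : N1Stmt := by
  intro n l M P E a F I
  unfold LF LFg
  have h : Set.range (gs P E a F I) = Set.range (gF P (Fm E a F I)) := rfl
  rw [h]
  apply le_antisymm
  · refine Submodule.span_le.2 (Set.union_subset ?_ fun x hx => Submodule.subset_span (Or.inr hx))
    rintro _ ⟨z, rfl⟩
    have e : (fun i => (z i : ℚ)) = ∑ j, z j • (Pi.single j (1 : ℚ) : Fin n → ℚ) := by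
      funext i
      simp [Finset.sum_apply, Pi.single_apply]
    show (fun i => (z i : ℚ)) ∈ _
    rw [e]
    exact Submodule.sum_mem _ fun j _ =>
      Submodule.smul_mem _ _ (Submodule.subset_span (Or.inl ⟨j, rfl⟩))
  · refine Submodule.span_le.2 (Set.union_subset ?_ fun x hx => Submodule.subset_span (Or.inr hx))
    rintro _ ⟨j, rfl⟩
    refine Submodule.subset_span (Or.inl ⟨Pi.single j 1, ?_⟩)
    funext i
    by_cases hi : i = j
    · subst hi; simp
    · simp [hi]

end Vale.Agent.P160.Half.G13.H752
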