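import Vale.Agent.P160.Half.GAsmStmt

/-! # P160, half rate: gap (G), assembly: N3, the lattice side (helper888) -/

set_option linter.unusedVariables false

open Finset Matrix

namespace Vale.Agent.P160.Half.G13

open A G Labels

namespace N3H888

variable {n : ℕ} {β : Type} [Fintype β] [DecidableEq β]

theorem single_mem {P : Matrix (Fin n) (Fin n) ℤ} {L : Submodule ℤ (Fin n → ℚ)} (hL : Over P L) (j : Fin n) :
    (Pi.single j (1 : ℚ) : Fin n → ℚ) ∈ L := by
  have h := hL.std (Pi.single j 1)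
  have e : (fun i => ((Pi.single j (1 : ℤ) : Fin n → ℤ) i : ℚ)) = (Pi.single j (1 : ℚ) : Fin n → ℚ) := by
    funext i
    by_cases hi : i = j
    · subst hi; simp
    · simp [Pi.single_eq_of_ne hi]
  rw [e] at h
  exact h

theorem LFg_le {P : Matrix (Fin n) (Fin n) ℤ} {F : Matrix (Fin n) β ℤ} {L : Submodule ℤ (Fin n → ℚ)}
    (hL : Over P L) (hF : ∀ q, gF P F q ∈ L) : LFg P F ≤ L := by
  unfold LFg
  rw [Submodule.span_le]
  rintro v (⟨j, rfl⟩ | ⟨q, rfl⟩)
  · exact single_mem hL j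
  · exact hF q

theorem col_mem {L : Submodule ℤ (Fin n → ℚ)} (R : β → Fin n) (g : β → Fin n → ℚ) (h1 : ∀ j, (Pi.single j (1 : ℚ) : Fin n → ℚ) ∈ L)
    (hg : ∀ q, g q ∈ L) (k : Fin n) : (fun j => cob R g j k) ∈ L := by
  have e : (fun j => cob R g j k) = (∑ i, if R i = k then g i else 0) +
      (if k ∈ univ.image R then 0 else (Pi.single k (1 : ℚ) : Fin n → ℚ)) := by
    funext j
    rw [Pi.add_apply, Finset.sum_apply]
    show (∑ i, if R i = k then g i j else 0) + (if k ∈ univ.image R then 0 else if j = k then 1 else 0) = _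
    congr 1
    · refine sum_congr rfl fun i _ => ?_
      split_ifs <;> rfl
    · by_cases hk : k ∈ univ.image R
      · rw [if_pos hk, if_pos hk]; rfl
      · rw [if_neg hk, if_neg hk, Pi.single_apply]
  rw [e]
  refine L.add_mem (L.sum_mem fun i _ => ?_) ?_
  · split_ifs
    · exact hg i
    · exact L.zero_mem
  · split_ifs
    · exact L.zero_mem
    · exact h1 k

/-- **N3** -/
theorem n3 : N3Stmt := by
  intro n β _ _ b F L R M' hz hdet hL hF hR hmin hM' hdM hM hmem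
  have h1 := single_mem hL
  have hle := LFg_le hL hF
  have hcol := col_mem R (gF (matZ b) F) h1 hF
  set P := matZ b with hP
  set g := gF P F with hg
  set Cb := cob R g with hC
  have hMv : ∀ v : Fin n → ℚ, M'.map (Int.cast : ℤ → ℚ) *ᵥ v = Cbᵀ *ᵥ (PQ P *ᵥ (Cb *ᵥ v)) := by
    intro v
    rw [hM']
    unfold newP
    rw [← mulVec_mulVec, ← mulVec_mulVec]
  have hdq : (M'.map (Int.cast : ℤ → ℚ)).det = ((M'.det : ℤ) : ℚ) := by
    have h1 := (Int.castRingHom ℚ).map_det M'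
    simpa using h1.symm
  have hdq0 : (M'.map (Int.cast : ℤ → ℚ)).det ≠ 0 := by
    rw [hdq]; exact_mod_cast hdM
  have hinj : Function.Injective (fun v : Fin n → ℚ => M'.map (Int.cast : ℤ → ℚ) *ᵥ v) := by
    intro v v' h
    exact Matrix.mulVec_injective_of_isUnit ((Matrix.isUnit_iff_isUnit_det _).2 (isUnit_iff_ne_zero.2 hdq0)) h
  have hint : ∀ v ∈ newL (LFg P F) R g, ∃ w : Fin n → ℤ, M'.map (Int.cast : ℤ → ℚ) *ᵥ v = fun j => (w j : ℚ) := by
    intro v hv
    have hv' : Cb *ᵥ v ∈ LFg P F := hv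
    have h2 : ∀ k, ∃ w : ℤ, (M'.map (Int.cast : ℤ → ℚ) *ᵥ v) k = w := by
      intro k
      obtain ⟨w, hw⟩ := hL.int _ (hcol k) _ (hle hv')
      refine ⟨w, ?_⟩
      rw [hMv, ← hw]
      rfl
    choose w hw using h2
    exact ⟨w, funext hw⟩
  refine ⟨?_, ?_⟩
  · ext v
    constructor
    · intro hv
      obtain ⟨w, hw⟩ := hint v hv
      exact ⟨w, hw, (hmem w).2 ⟨v, hv, hw⟩⟩
    · rintro ⟨w, hw, hq⟩
      obtain ⟨v', hv', hw'⟩ := (hmem w).1 hq
      have : v = v' := hinj (by show _ *ᵥ v = _ *ᵥ v'; rw [hw, hw'])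
      rw [this]; exact hv'
  · intro x hx x' hx'
    obtain ⟨w, rfl⟩ := QuotientAddGroup.mk_surjective x
    obtain ⟨w', rfl⟩ := QuotientAddGroup.mk_surjective x'
    obtain ⟨v, hv, hw⟩ := (hmem w).1 hx
    obtain ⟨v', hv', hw'⟩ := (hmem w').1 hx'
    have hv1 : Cb *ᵥ v ∈ LFg P F := hv
    have hv1' : Cb *ᵥ v' ∈ LFg P F := hv'
    obtain ⟨k, hk⟩ := hL.int _ (hle hv1') _ (hle hv1)
    rw [cokPair_mk, ZMod.intCast_zmod_eq_zero_iff_dvd, Int.natAbs_dvd]
    refine ⟨k, ?_⟩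
    have e1 : ((w ⬝ᵥ (M'.adjugate *ᵥ w') : ℤ) : ℚ) =
        (fun j => (w j : ℚ)) ⬝ᵥ ((M'.map (Int.cast : ℤ → ℚ)).adjugate *ᵥ (fun j => (w' j : ℚ))) := by
      have e2 : (M'.map (Int.cast : ℤ → ℚ)).adjugate = M'.adjugate.map (Int.cast : ℤ → ℚ) := by
        have := (Int.castRingHom ℚ).map_adjugate M'
        exact this.symm
      rw [e2]
      simp [dotProduct, Matrix.mulVec]
    have e3 : (M'.map (Int.cast : ℤ → ℚ)).adjugate *ᵥ (fun j => (w' j : ℚ)) = (M'.det : ℚ) • v' := by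
      rw [← hw', mulVec_mulVec, adjugate_mul, smul_mulVec, one_mulVec, hdq]
    have e4 : (fun j => (w j : ℚ)) ⬝ᵥ v' = k := by
      rw [← hw, hMv, dotProduct_comm, dotProduct_mulVec, vecMul_transpose]
      exact hk
    have e5 : ((w ⬝ᵥ (M'.adjugate *ᵥ w') : ℤ) : ℚ) = ((M'.det * k : ℤ) : ℚ) := by
      rw [e1, e3, dotProduct_smul, e4, smul_eq_mul]
      push_cast
      rfl
    exact_mod_cast e5

end N3H888

end Vale.Agent.P160.Half.G13
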