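import Vale.Agent.P160.Half.GAsmStmt

/-! # P160, half rate: `N3Stmt` of GAsmStmt -/

open Finset Matrix

namespace Vale.Agent.P160.Half.G13.N3H427

open A G Labels

set_option linter.unusedSectionVars false

variable {n : ℕ} {β : Type} [Fintype β] [DecidableEq β]

theorem LFg_le (b : Bits n) (F : Matrix (Fin n) β ℤ) (L : Submodule ℤ (Fin n → ℚ))
    (hL : Over (matZ b) L) (hg : ∀ q, gF (matZ b) F q ∈ L) : LFg (matZ b) F ≤ L := by
  refine Submodule.span_le.2 ?_
  rintro v (⟨j, rfl⟩ | ⟨q, rfl⟩)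
  · have h := hL.std (Pi.single j 1)
    have h2 : (fun i => (((Pi.single j 1 : Fin n → ℤ) i : ℤ) : ℚ)) =
        (Pi.single j (1 : ℚ) : Fin n → ℚ) := by
      funext i
      by_cases hij : i = j
      · subst hij; simp
      · simp [Pi.single_eq_of_ne hij]
    rw [h2] at h
    exact h
  · exact hg q

theorem col_mem (g : β → Fin n → ℚ) (L : Submodule ℤ (Fin n → ℚ))
    (hstd : ∀ j : Fin n, (Pi.single j (1 : ℚ) : Fin n → ℚ) ∈ L) (hg : ∀ q, g q ∈ L)
    (R : β → Fin n) (k : Fin n) : (fun j => cob R g j k) ∈ L := by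
  have h : (fun j => cob R g j k) = (∑ i, if R i = k then g i else 0) +
      (if k ∈ univ.image R then 0 else Pi.single k (1 : ℚ)) := by
    funext j
    unfold cob
    rw [Pi.add_apply, Finset.sum_apply]
    congr 1
    · refine Finset.sum_congr rfl fun i _ => ?_
      split_ifs <;> rfl
    · split_ifs with h1 h2
      · rfl
      · subst h2; simp
      · simp [Pi.single_eq_of_ne h2]
  rw [h]
  refine L.add_mem (L.sum_mem fun i _ => ?_) ?_
  · split_ifs
    · exact hg i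
    · exact L.zero_mem
  · split_ifs
    · exact L.zero_mem
    · exact hstd k

theorem n3 : N3Stmt := by
  intro n β _ _ b F L R M' hz hdet hL hg hR hmin hM' hdet' hM hmem
  have hle := LFg_le b F L hL hg
  have hstd : ∀ j : Fin n, (Pi.single j (1 : ℚ) : Fin n → ℚ) ∈ L := fun j =>
    hle (Submodule.subset_span (Or.inl ⟨j, rfl⟩))
  have hcol : ∀ k, (fun j => cob R (gF (matZ b) F) j k) ∈ L :=
    fun k => col_mem _ L hstd hg R k
  -- injectivity of `M'`
  have hdetQ : (M'.map (Int.cast : ℤ → ℚ)).det ≠ 0 := by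
    have h1 : ((M'.det : ℤ) : ℚ) = (M'.map (Int.cast : ℤ → ℚ)).det :=
      (Int.castRingHom ℚ).map_det M'
    rw [← h1]
    exact_mod_cast hdet'
  have hinj : ∀ v v' : Fin n → ℚ, M'.map (Int.cast : ℤ → ℚ) *ᵥ v =
      M'.map (Int.cast : ℤ → ℚ) *ᵥ v' → v = v' := by
    intro v v' h
    have h1 : IsUnit (M'.map (Int.cast : ℤ → ℚ)) :=
      (isUnit_iff_isUnit_det _).2 (isUnit_iff_ne_zero.2 hdetQ)
    exact Matrix.mulVec_injective_of_isUnit h1 h
  -- the quadratic form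
  have hform : ∀ v v' : Fin n → ℚ, v' ⬝ᵥ (M'.map (Int.cast : ℤ → ℚ) *ᵥ v) =
      (cob R (gF (matZ b) F) *ᵥ v') ⬝ᵥ (PQ (matZ b) *ᵥ (cob R (gF (matZ b) F) *ᵥ v)) := by
    intro v v'
    rw [hM', newP, ← Matrix.mulVec_mulVec, ← Matrix.mulVec_mulVec, Matrix.dotProduct_mulVec,
      Matrix.vecMul_transpose]
  have hint : ∀ v ∈ newL (LFg (matZ b) F) R (gF (matZ b) F),
      ∃ w : Fin n → ℤ, M'.map (Int.cast : ℤ → ℚ) *ᵥ v = fun j => (w j : ℚ) := by
    intro v hv
    have hv' : cob R (gF (matZ b) F) *ᵥ v ∈ L := hle hv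
    have h1 : ∀ k, ∃ m : ℤ, (M'.map (Int.cast : ℤ → ℚ) *ᵥ v) k = m := by
      intro k
      obtain ⟨m, hm⟩ := hL.int _ (hcol k) _ hv'
      refine ⟨m, ?_⟩
      rw [← hm]
      have h2 := hform v (Pi.single k 1)
      rw [single_one_dotProduct] at h2
      rw [h2]
      congr 1
      funext j
      simp
    choose w hw using h1
    exact ⟨w, funext hw⟩
  refine ⟨?_, ?_⟩
  · apply le_antisymm
    · intro v hv
      obtain ⟨w, hw⟩ := hint v hv
      exact ⟨w, hw, (hmem w).2 ⟨v, hv, hw⟩⟩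
    · rintro v ⟨w, hw, hq⟩
      obtain ⟨v', hv', hw'⟩ := (hmem w).1 hq
      have h1 : v = v' := hinj v v' (hw.trans hw'.symm)
      rw [h1]
      exact hv'
  · intro x hx x' hx'
    obtain ⟨w, rfl⟩ := QuotientAddGroup.mk_surjective x
    obtain ⟨w', rfl⟩ := QuotientAddGroup.mk_surjective x'
    obtain ⟨v, hv, hw⟩ := (hmem w).1 hx
    obtain ⟨v', hv', hw'⟩ := (hmem w').1 hx'
    obtain ⟨m, hm⟩ := hL.int _ (hle hv') _ (hle hv)
    rw [cokPair_mk, ZMod.intCast_zmod_eq_zero_iff_dvd, Int.natAbs_dvd]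
    refine ⟨m, ?_⟩
    have h1 : (((w ⬝ᵥ (M'.adjugate *ᵥ w') : ℤ)) : ℚ) = ((M'.det * m : ℤ) : ℚ) := by
      have h2 : (fun j => (((M'.adjugate *ᵥ w') j : ℤ) : ℚ)) = (M'.det : ℚ) • v' := by
        have h3 : (fun j => (((M'.adjugate *ᵥ w') j : ℤ) : ℚ)) =
            (M'.map (Int.cast : ℤ → ℚ)).adjugate *ᵥ (fun j => (w' j : ℚ)) := by
          funext j
          have h4 : (M'.map (Int.cast : ℤ → ℚ)).adjugate = M'.adjugate.map (Int.cast : ℤ → ℚ) :=
            ((Int.castRingHom ℚ).map_adjugate M').symm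
          rw [h4]
          simp [Matrix.mulVec, dotProduct]
        have h5 : ((M'.det : ℤ) : ℚ) = (M'.map (Int.cast : ℤ → ℚ)).det :=
          (Int.castRingHom ℚ).map_det M'
        rw [h3, ← hw', Matrix.mulVec_mulVec, Matrix.adjugate_mul, Matrix.smul_mulVec,
          Matrix.one_mulVec, h5]
      have h6 : (((w ⬝ᵥ (M'.adjugate *ᵥ w') : ℤ)) : ℚ) =
          (fun j => (w j : ℚ)) ⬝ᵥ (fun j => (((M'.adjugate *ᵥ w') j : ℤ) : ℚ)) := by
        simp [dotProduct]
      rw [h6, h2, ← hw, dotProduct_smul, dotProduct_comm, hform, ]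
      have h7 : (cob R (gF (matZ b) F) *ᵥ v') ⬝ᵥ
          (PQ (matZ b) *ᵥ (cob R (gF (matZ b) F) *ᵥ v)) = (m : ℚ) := hm
      rw [h7, smul_eq_mul]
      push_cast
      ring
    exact_mod_cast h1

end Vale.Agent.P160.Half.G13.N3H427
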