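import Vale.Agent.P160.Half.GAsmStmt

/-! # P160, gap (G), assembly: N3 (helper726) -/

set_option linter.unusedVariables false

open Finset Matrix

namespace Vale.Agent.P160.Half.G13.N3H726

open A G Labels

variable {n : ℕ} {β : Type} [Fintype β] [DecidableEq β]

theorem col_mem {L : Submodule ℤ (Fin n → ℚ)} (hstd : ∀ z : Fin n → ℤ, (fun i => (z i : ℚ)) ∈ L)
    {g : β → Fin n → ℚ} (hg : ∀ q, g q ∈ L) (R : β → Fin n) (k : Fin n) :
    (fun j => cob R g j k) ∈ L := by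
  have h : (fun j => cob R g j k) = (∑ i, if R i = k then g i else 0) +
      (fun j => (((if k ∈ univ.image R then (0 : Fin n → ℤ) else Pi.single k 1) j : ℤ) : ℚ)) := by
    funext j
    rw [Pi.add_apply, Finset.sum_apply]
    unfold cob
    congr 1
    · refine Finset.sum_congr rfl fun i _ => ?_
      split_ifs <;> rfl
    · by_cases hk : k ∈ univ.image R
      · rw [if_pos hk, if_pos hk]; simp
      · rw [if_neg hk, if_neg hk, Pi.single_apply]
        split_ifs <;> simp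
  rw [h]
  refine L.add_mem (L.sum_mem fun i _ => ?_) (hstd _)
  split_ifs
  · exact hg i
  · exact L.zero_mem

theorem LFg_le {L : Submodule ℤ (Fin n → ℚ)} (hstd : ∀ z : Fin n → ℤ, (fun i => (z i : ℚ)) ∈ L)
    {P : Matrix (Fin n) (Fin n) ℤ} {F : Matrix (Fin n) β ℤ} (hg : ∀ q, gF P F q ∈ L) : LFg P F ≤ L := by
  unfold LFg
  rw [Submodule.span_le]
  rintro _ (⟨j, rfl⟩ | ⟨q, rfl⟩)
  · have h := hstd (Pi.single j 1)
    have e : (fun i => (((Pi.single j 1 : Fin n → ℤ) i : ℤ) : ℚ)) = Pi.single j (1 : ℚ) := by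
      funext i
      rw [Pi.single_apply, Pi.single_apply]
      split_ifs <;> simp
    rw [e] at h
    exact h
  · exact hg q

theorem mulVec_newP (P : Matrix (Fin n) (Fin n) ℤ) (R : β → Fin n) (g : β → Fin n → ℚ) (v : Fin n → ℚ) :
    newP P R g *ᵥ v = (cob R g)ᵀ *ᵥ (PQ P *ᵥ (cob R g *ᵥ v)) := by
  unfold newP
  rw [mulVec_mulVec, mulVec_mulVec, Matrix.mul_assoc]

theorem n3 : N3Stmt := by
  intro n β _ _ b F L R M' hz hdet hO hgL hR hmin hM' hdM hM hmem
  have hle : LFg (matZ b) F ≤ L := LFg_le hO.std hgL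
  -- images of elements of the new lattice are integral
  have hint : ∀ v ∈ newL (LFg (matZ b) F) R (gF (matZ b) F),
      ∃ w : Fin n → ℤ, M'.map (Int.cast : ℤ → ℚ) *ᵥ v = fun j => (w j : ℚ) := by
    intro v hv
    have hv' : cob R (gF (matZ b) F) *ᵥ v ∈ LFg (matZ b) F := hv
    have h : ∀ k, ∃ m : ℤ, (M'.map (Int.cast : ℤ → ℚ) *ᵥ v) k = m := by
      intro k
      obtain ⟨m, hm⟩ := hO.int _ (col_mem hO.std hgL R k) _ (hle hv')
      refine ⟨m, ?_⟩
      rw [hM', mulVec_newP, ← hm]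
      rfl
    choose w hw using h
    exact ⟨w, funext hw⟩
  have hinj : ∀ v v' : Fin n → ℚ, M'.map (Int.cast : ℤ → ℚ) *ᵥ v = M'.map (Int.cast : ℤ → ℚ) *ᵥ v' → v = v' := by
    intro v v' h
    have hd : (M'.map (Int.cast : ℤ → ℚ)).det ≠ 0 := by
      have : (M'.map (Int.cast : ℤ → ℚ)).det = ((M'.det : ℤ) : ℚ) := by
        rw [Int.cast_det]
      rw [this]
      exact_mod_cast hdM
    exact Matrix.mulVec_injective_of_isUnit ((Matrix.isUnit_iff_isUnit_det _).2 (isUnit_iff_ne_zero.2 hd)) h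
  refine ⟨?_, ?_⟩
  · ext v
    constructor
    · intro hv
      obtain ⟨w, hw⟩ := hint v hv
      exact ⟨w, hw, (hmem w).2 ⟨v, hv, hw⟩⟩
    · rintro ⟨w, hw, hq⟩
      obtain ⟨v', hv', hw'⟩ := (hmem w).1 hq
      rw [hinj v v' (hw.trans hw'.symm)]
      exact hv'
  · intro x hx x' hx'
    obtain ⟨w, rfl⟩ := QuotientAddGroup.mk_surjective x
    obtain ⟨w', rfl⟩ := QuotientAddGroup.mk_surjective x'
    obtain ⟨v, hv, hw⟩ := (hmem w).1 hx
    obtain ⟨v', hv', hw'⟩ := (hmem w').1 hx'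
    have h1 : cob R (gF (matZ b) F) *ᵥ v ∈ L := hle hv
    have h2 : cob R (gF (matZ b) F) *ᵥ v' ∈ L := hle hv'
    obtain ⟨k, hk⟩ := hO.int _ h2 _ h1
    rw [cokPair_mk, ZMod.intCast_zmod_eq_zero_iff_dvd, Int.natAbs_dvd]
    refine ⟨k, ?_⟩
    have e1 : ((w ⬝ᵥ (M'.adjugate *ᵥ w') : ℤ) : ℚ) =
        (fun j => (w j : ℚ)) ⬝ᵥ ((M'.map (Int.cast : ℤ → ℚ)).adjugate *ᵥ fun j => (w' j : ℚ)) := by
      have ea : (M'.map (Int.cast : ℤ → ℚ)).adjugate = M'.adjugate.map (Int.cast : ℤ → ℚ) := by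
        have := (Int.castRingHom ℚ).map_adjugate M'
        exact this.symm
      rw [ea]
      simp only [dotProduct, mulVec, Matrix.map_apply]
      push_cast
      rfl
    have e2 : (fun j => (w j : ℚ)) ⬝ᵥ ((M'.map (Int.cast : ℤ → ℚ)).adjugate *ᵥ fun j => (w' j : ℚ)) =
        (M'.det : ℚ) * k := by
      rw [← hw, ← hw', mulVec_mulVec, adjugate_mul, smul_mulVec, one_mulVec, dotProduct_smul, smul_eq_mul]
      have ed : (M'.map (Int.cast : ℤ → ℚ)).det = ((M'.det : ℤ) : ℚ) := by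
        rw [Int.cast_det]
      rw [ed, hM', mulVec_newP, ← hk, dotProduct_comm, dotProduct_mulVec, vecMul_transpose]
    have e3 : ((w ⬝ᵥ (M'.adjugate *ᵥ w') : ℤ) : ℚ) = ((M'.det * k : ℤ) : ℚ) := by
      rw [e1, e2]; push_cast; rfl
    exact_mod_cast e3

end Vale.Agent.P160.Half.G13.N3H726
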