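import Vale.Agent.P160.Half.GAsmStmt

/-! # P160, half rate: gap (G), N4: coranks of the exchanged matrix (helper980) -/

open Finset Matrix

namespace Vale.Agent.P160.Half.G13

open A G Labels

/-- **N4** -/
theorem n4 : N4Stmt := by
  intro n β _ _ b R M' k hC hM p hp
  have : Fact p.Prime := ⟨hp⟩
  classical
  set T : Finset (Fin n) := univ.filter fun j => j ∉ Set.range R with hT
  have h1 := hC p hp T
  have h2 : prin ((matZ b).map (Int.cast : ℤ → ZMod p)) T =
      (M'.map (Int.cast : ℤ → ZMod p)).submatrix (fun a : T => (a : Fin n)) (fun a : T => (a : Fin n)) := by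
    ext i j
    have hi := (Finset.mem_filter.1 i.2).2
    have hj := (Finset.mem_filter.1 j.2).2
    simp only [prin, submatrix_apply, map_apply]
    rw [hM _ _ hi hj]
  rw [h2] at h1
  have h3 := rank_submatrix_le (M'.map (Int.cast : ℤ → ZMod p)) (fun a : T => (a : Fin n))
    (fun a : T => (a : Fin n))
  have h4 : n ≤ T.card + Fintype.card β := by
    have h5 : (univ : Finset (Fin n)) = T ∪ univ.image R := by
      ext j
      simp only [mem_univ, mem_union, mem_image, true_and, true_iff, hT, mem_filter]
      by_cases hj : j ∈ Set.range R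
      · obtain ⟨i, rfl⟩ := hj
        exact Or.inr ⟨i, rfl⟩
      · exact Or.inl hj
    have h6 : (univ : Finset (Fin n)).card ≤ T.card + Fintype.card β := by
      rw [h5]
      refine (card_union_le _ _).trans (Nat.add_le_add_left ?_ _)
      exact card_image_le.trans (by simp)
    simpa using h6
  omega

end Vale.Agent.P160.Half.G13
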