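import Vale.Agent.P160.Half.GAsmStmt

/-! # P160, gap (G), assembly: N4 and N6 (helper726) -/

set_option linter.unusedVariables false

open Finset Matrix

namespace Vale.Agent.P160.Half.G13.N46H726

open A G Labels

theorem n4 : N4Stmt := by
  intro n β _ _ b R M' k hC hM p hp
  set T : Finset (Fin n) := (univ.image R)ᶜ with hT
  have h1 := hC p hp T
  have hmT : ∀ x : Fin n, x ∈ T → x ∉ Set.range R := by
    intro x hx
    rw [hT, mem_compl, mem_image] at hx
    rintro ⟨q, hq⟩
    exact hx ⟨q, mem_univ _, hq⟩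
  have h2 : prin ((matZ b).map (Int.cast : ℤ → ZMod p)) T =
      (M'.map (Int.cast : ℤ → ZMod p)).submatrix (fun a : T => (a : Fin n)) (fun a : T => (a : Fin n)) := by
    ext i j
    have hi : (i : Fin n) ∉ Set.range R := hmT _ i.2
    have hj : (j : Fin n) ∉ Set.range R := hmT _ j.2
    show ((matZ b i j : ℤ) : ZMod p) = ((M' i j : ℤ) : ZMod p)
    rw [hM i j hi hj]
  have h3 : (prin ((matZ b).map (Int.cast : ℤ → ZMod p)) T).rank ≤ (M'.map (Int.cast : ℤ → ZMod p)).rank := by
    rw [h2]
    haveI : Nontrivial (ZMod p) := ZMod.nontrivial_iff.2 hp.one_lt.ne'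
    exact Matrix.rank_submatrix_le _ _ _
  have h4 : n ≤ T.card + Fintype.card β := by
    have h5 : (univ.image R).card ≤ Fintype.card β := card_image_le.trans (le_of_eq card_univ)
    have h6 := card_compl_add_card (univ.image R)
    rw [Fintype.card_fin] at h6
    rw [hT]
    omega
  omega

theorem n6 : N6Stmt := by
  intro n β _ _ P F y a z h1 h2 p hp
  by_cases h : y ≤ p
  · have key : ∀ m : ℕ, m = p → ∀ (g : Fin n → ZMod m) (c : β → ZMod m), Word _ P F g c →
        ((∃ i, IsUnit (g i)) ∨ ∃ j, IsUnit (c j)) → (univ.filter fun i => g i = 0).card < z := by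
      intro m hm g c hw hpr
      subst hm
      by_contra hlt
      push Not at hlt
      haveI : Nontrivial (ZMod m) := ZMod.nontrivial_iff.2 hp.one_lt.ne'
      refine h1 ⟨m, hp, h, g, c, hw, ?_, hlt⟩
      rcases hpr with ⟨i, hi⟩ | ⟨j, hj⟩
      · left; intro h0
        rw [h0, Pi.zero_apply] at hi
        exact not_isUnit_zero hi
      · right; intro h0
        rw [h0, Pi.zero_apply] at hj
        exact not_isUnit_zero hj
    have e : p ^ (if y ≤ p then 1 else a) = p := by rw [if_pos h, pow_one]
    intro g c hw hpr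
    exact key _ e g c hw hpr
  · have key : ∀ e' : ℕ, e' = a → ∀ (g : Fin n → ZMod (p ^ e')) (c : β → ZMod (p ^ e')), Word _ P F g c →
        Prim g c → (univ.filter fun i => g i = 0).card < z := by
      intro e' he g c hw hpr
      subst he
      by_contra hlt
      push Not at hlt
      exact h2 ⟨p, hp, not_le.1 h, g, c, hw, hpr, hlt⟩
    intro g c hw hpr
    exact key _ (if_neg h) g c hw hpr

end Vale.Agent.P160.Half.G13.N46H726
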