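import Vale.Agent.P160.Half.GAsmStmt

/-! # P160, half rate: `N4Stmt` (hedge, helper906) -/

open Finset Matrix

namespace Vale.Agent.P160.Half.GN4H906

open A G Labels G13

theorem rank_sub_le {K : Type*} [Field K] {m n m' n' : Type*} [Fintype m] [Fintype n] [Fintype m'] [Fintype n']
    [DecidableEq m] [DecidableEq n] (A : Matrix m n K) (f : m' → m) (g : n' → n) : (A.submatrix f g).rank ≤ A.rank := by
  have h : A.submatrix f g = (1 : Matrix m m K).submatrix f id * A * (1 : Matrix n n K).submatrix id g := by
    ext i j
    simp [Matrix.mul_apply, Matrix.submatrix_apply, Matrix.one_apply]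
  rw [h]
  exact (Matrix.rank_mul_le_left _ _).trans (Matrix.rank_mul_le_right _ _)

theorem n4 : N4Stmt := by
  classical
  intro n β _ _ b R M' k hc hM p hp
  have := Fact.mk hp
  have h1 := hc p hp (univ.filter fun j => j ∉ Set.range R)
  have h2 : prin ((matZ b).map (Int.cast : ℤ → ZMod p)) (univ.filter fun j => j ∉ Set.range R) =
      (M'.map (Int.cast : ℤ → ZMod p)).submatrix (fun a : (univ.filter fun j => j ∉ Set.range R : Finset (Fin n)) => (a : Fin n))
        (fun a : (univ.filter fun j => j ∉ Set.range R : Finset (Fin n)) => (a : Fin n)) := by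
    ext i j
    have hi := (mem_filter.1 i.2).2
    have hj := (mem_filter.1 j.2).2
    simp only [prin, submatrix_apply, map_apply]
    rw [hM i j hi hj]
  rw [h2] at h1
  have h3 := rank_sub_le (M'.map (Int.cast : ℤ → ZMod p)) (fun a : (univ.filter fun j => j ∉ Set.range R : Finset (Fin n)) => (a : Fin n))
        (fun a : (univ.filter fun j => j ∉ Set.range R : Finset (Fin n)) => (a : Fin n))
  have h4 : n ≤ (univ.filter fun j => j ∉ Set.range R : Finset (Fin n)).card + Fintype.card β := by
    have h5 : (univ : Finset (Fin n)) ⊆ (univ.filter fun j => j ∉ Set.range R) ∪ univ.image R := by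
      intro j _
      by_cases hj : j ∈ Set.range R
      · obtain ⟨q, rfl⟩ := hj
        exact mem_union_right _ (mem_image_of_mem _ (mem_univ _))
      · exact mem_union_left _ (mem_filter.2 ⟨mem_univ _, hj⟩)
    have h6 := (card_le_card h5).trans (card_union_le _ _)
    have h7 : (univ.image R).card ≤ Fintype.card β := card_image_le
    simp only [card_univ, Fintype.card_fin] at h6
    omega
  omega

end Vale.Agent.P160.Half.GN4H906
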