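import Vale.Agent.P160.Half.GAsmStmt
import Vale.Agent.P160.Half.Cnt404
import Vale.Agent.P160.Half.LabCok

/-! # P160, half rate: gap (G), G13 N5: the number of subgroups of a label (helper409) -/

namespace Vale.Agent.P160.Half.GN5

open Finset Matrix Vale.Agent.P160.Half.Labels Vale.Agent.P160.Half.G Vale.Agent.P160.Half.G13

section weights

variable {G : Type*} [AddCommGroup G] [Fintype G]

omit [Fintype G] in
theorem bb_self (p : ℕ) (A : AddSubgroup G) : Rev.bb p (A ⧸ A.addSubgroupOf A) = 0 := by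
  have h : Subsingleton (A ⧸ A.addSubgroupOf A) := by
    rw [AddSubgroup.addSubgroupOf_self]
    exact QuotientAddGroup.subsingleton_quotient_top
  rw [Rev.bb]
  have h1 : Nat.card (A ⧸ A.addSubgroupOf A) = 1 := Nat.card_of_subsingleton 0
  rw [h1, Nat.log_one_right, Nat.zero_sub]

theorem log_card {p : ℕ} (hp : p.Prime) {R : AddSubgroup G} (hR : R ≤ prim G p) :
    Nat.log p (Nat.card R) = (Nat.card R).factorization p := by
  obtain ⟨h, -⟩ := Cnt.card_pow_of_le hp hR
  conv_rhs => rw [h]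
  rw [hp.factorization_pow, Finsupp.single_eq_same]

omit [Fintype G] in
theorem pp_le (p e : ℕ) (Q : AddSubgroup G) : pp p e Q ≤ prim G p := by
  rintro _ ⟨x, hx, rfl⟩
  exact (prim G p).nsmul_mem hx.2 _

theorem wt_le {p : ℕ} (hp : p.Prime) (ρ e : ℕ) (H Q : AddSubgroup G) :
    Cnt.wt ρ p e H Q ≤ cst ρ p e H Q +
      (2 * Real.logb 2 ((Nat.card G).factorization p + 1) + 3) := by
  have hl : 0 ≤ Real.logb 2 (((Nat.card G).factorization p : ℝ) + 1) := by
    apply Real.logb_nonneg (by norm_num)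
    have : (0 : ℝ) ≤ ((Nat.card G).factorization p : ℝ) := by positivity
    linarith
  have hpp : ∀ A : AddSubgroup G, Cnt.pp p e A = pp p e A := fun A => rfl
  rw [Cnt.wt, Cnt.w0, cst, hpp, hpp]
  by_cases h : pp p e Q = pp p e H
  · rw [if_pos h, if_pos h, h, bb_self]
    simp only [Nat.cast_zero, mul_zero, add_zero, zero_mul, zero_add]
    linarith
  · rw [if_neg h, if_neg h, log_card hp (pp_le p e Q)]
    apply le_of_eq
    ring

end weights

theorem tor_le {G : Type*} [AddCommGroup G] [Fintype G] {p k : ℕ}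
    (h : Nat.card (LabAll.kil p G) ≤ p ^ k) (e : ℕ) : Nat.card (Cnt.tor G p e) ≤ p ^ (e * k) := by
  have h1 : Nat.card (Cnt.tor G p e) ≤ Nat.card (LabAll.kil (p ^ e) G) := by
    apply Nat.card_mono (Set.toFinite _)
    intro x hx
    exact hx.2
  calc _ ≤ Nat.card (LabAll.kil (p ^ e) G) := h1
    _ ≤ (Nat.card (LabAll.kil p G)) ^ e := LabCok.card_kil_pow_le p e
    _ ≤ (p ^ k) ^ e := Nat.pow_le_pow_left h e
    _ = p ^ (e * k) := by rw [← pow_mul, mul_comm]

theorem n5_aux {G : Type} [AddCommGroup G] [Fintype G] {N : ℕ} [NeZero N]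
    (b : G →+ G →+ ZMod N) (hs : ∀ x y, b x y = b y x) (hn : ∀ x, (∀ y, b x y = 0) → x = 0)
    (ρ k : ℕ) (e : ℕ → ℕ) (H : AddSubgroup G) (X : ℝ) (S : Finset (AddSubgroup G))
    (hiso : ∀ Q ∈ S, ∀ x ∈ Q, ∀ y ∈ Q, b x y = 0) (hH : ∀ Q ∈ S, H ≤ Q)
    (hg : ∀ Q ∈ S, ∃ g : Fin ρ → G, Q = AddSubgroup.closure (Set.range g))
    (hX : ∀ Q ∈ S, ∑ p ∈ (Nat.card G).primeFactors, cst ρ p (e p) H Q ≤ X)
    (hk : ∀ p, p.Prime → Nat.card (LabAll.kil p G) ≤ p ^ k) :
    (S.card : ℝ) ≤ (2 : ℝ) ^ X * ∏ p ∈ (Nat.card G).primeFactors,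
      (12 * (((Nat.card G).factorization p : ℝ) + 1) ^ 2 * (p : ℝ) ^ (2 * ρ * e p * k)) := by
  have hpr : ∀ p ∈ (Nat.card G).primeFactors, p.Prime := fun p hp => Nat.prime_of_mem_primeFactors hp
  have h1 := Cnt.count b hs hn ρ e H
    (X + ∑ p ∈ (Nat.card G).primeFactors,
      (2 * Real.logb 2 (((Nat.card G).factorization p : ℝ) + 1) + 3)) S hiso hH hg (fun Q hQ => by
      refine (Finset.sum_le_sum fun p hp => wt_le (hpr p hp) ρ (e p) H Q).trans ?_
      rw [Finset.sum_add_distrib]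
      exact add_le_add (hX Q hQ) le_rfl)
  refine h1.trans ?_
  rw [Real.rpow_add (by norm_num), mul_assoc, Real.rpow_sum_of_pos (by norm_num),
    ← Finset.prod_mul_distrib]
  apply mul_le_mul_of_nonneg_left _ (by positivity)
  apply Finset.prod_le_prod
  · intro p _; positivity
  · intro p hp
    have hv : (0 : ℝ) < ((Nat.card G).factorization p : ℝ) + 1 := by positivity
    have e1 : (2 : ℝ) ^ (2 * Real.logb 2 (((Nat.card G).factorization p : ℝ) + 1) + 3) =
        8 * (((Nat.card G).factorization p : ℝ) + 1) ^ 2 := by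
      rw [Real.rpow_add (by norm_num), mul_comm 2, Real.rpow_mul (by norm_num),
        Real.rpow_logb (by norm_num) (by norm_num) hv, show (2 : ℝ) = ((2 : ℕ) : ℝ) by norm_num,
        Real.rpow_natCast]
      norm_num
      ring
    rw [e1]
    have h2 : (Nat.card (Cnt.tor G p (e p)) : ℝ) ^ (2 * ρ) ≤ (p : ℝ) ^ (2 * ρ * e p * k) := by
      have h3 : ((Nat.card (Cnt.tor G p (e p)) : ℕ) : ℝ) ≤ (p : ℝ) ^ (e p * k) := by
        exact_mod_cast tor_le (hk p (hpr p hp)) (e p)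
      calc _ ≤ ((p : ℝ) ^ (e p * k)) ^ (2 * ρ) := pow_le_pow_left₀ (by positivity) h3 _
        _ = (p : ℝ) ^ (2 * ρ * e p * k) := by rw [← pow_mul]; congr 1; ring
    calc _ = 12 * (((Nat.card G).factorization p : ℝ) + 1) ^ 2 *
          (Nat.card (Cnt.tor G p (e p)) : ℝ) ^ (2 * ρ) := by ring
      _ ≤ _ := mul_le_mul_of_nonneg_left h2 (by positivity)

end Vale.Agent.P160.Half.GN5

namespace Vale.Agent.P160.Half.G13

open Finset Matrix Vale.Agent.P160.Half.Labels Vale.Agent.P160.Half.G Vale.Agent.P160.Half.GN5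

/-- **N5** -/
theorem n5 : N5Stmt := by
  intro n M' hM s hz ρ y a k X hdet hrk
  have hpos : 0 < Nat.card (Coker M') := by
    rw [card_coker M' hdet]
    exact Int.natAbs_pos.2 hdet
  have hfin : Finite (Coker M') := (Nat.card_pos_iff.1 hpos).2
  have hft : Fintype (Coker M') := Fintype.ofFinite _
  have hN : NeZero M'.det.natAbs := ⟨(Int.natAbs_pos.2 hdet).ne'⟩
  have hSf : {Q : AddSubgroup (Coker M') | LabQ M' hM hz ρ y a X Q}.Finite := Set.toFinite _
  refine ⟨hSf, ?_⟩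
  rw [Set.ncard_eq_toFinset_card _ hSf]
  have hmem : ∀ Q ∈ hSf.toFinset, LabQ M' hM hz ρ y a X Q := fun Q hQ => (hSf.mem_toFinset.1 hQ)
  have h := n5_aux (cokPair M' hM) (cokPair_symm M' hM) (cokPair_nondeg M' hM hdet) ρ k
    (fun p => if y ≤ p then 0 else ρ * (a - 1))
    (AddSubgroup.closure (Set.range fun t => (QuotientAddGroup.mk (hz t) : Coker M'))) X hSf.toFinset
    (fun Q hQ => (hmem Q hQ).2.1) (fun Q hQ => (hmem Q hQ).1) (fun Q hQ => (hmem Q hQ).2.2.1)
    (fun Q hQ => (hmem Q hQ).2.2.2 hfin) (fun p hp => by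
      refine (LabCok.card_kil_coker M' hdet hp).trans ?_
      apply Nat.pow_le_pow_right hp.pos
      have := hrk p hp
      omega)
  rw [card_coker M' hdet] at h
  exact h

end Vale.Agent.P160.Half.G13
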