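import Vale.Agent.P160.Half.GAsmStmt
import Vale.Agent.P160.Half.Cnt404

/-! # P160, half rate: gap (G), assembly, N5: number of subgroups of a label (helper829) -/

set_option linter.unusedVariables false

open Finset Matrix

namespace Vale.Agent.P160.Half.G13.N5H829

open A G Labels

section tors

variable {G : Type*} [AddCommGroup G]

theorem card_tor_succ [Finite G] (p e : ℕ) :
    Nat.card (nsmulAddMonoidHom (p ^ (e + 1)) : G →+ G).ker ≤
      Nat.card (nsmulAddMonoidHom p : G →+ G).ker * Nat.card (nsmulAddMonoidHom (p ^ e) : G →+ G).ker := by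
  classical
  rw [← Nat.card_prod]
  have hs : ∀ y : G, ∃ x : G, (∃ x' ∈ (nsmulAddMonoidHom (p ^ (e + 1)) : G →+ G).ker, p • x' = y) → p • x = y := by
    intro y
    by_cases h : ∃ x' ∈ (nsmulAddMonoidHom (p ^ (e + 1)) : G →+ G).ker, p • x' = y
    · obtain ⟨x', _, hx'⟩ := h
      exact ⟨x', fun _ => hx'⟩
    · exact ⟨0, fun h' => absurd h' h⟩
  choose s hs using hs
  let f : (nsmulAddMonoidHom (p ^ (e + 1)) : G →+ G).ker →
      (nsmulAddMonoidHom p : G →+ G).ker × (nsmulAddMonoidHom (p ^ e) : G →+ G).ker := fun x =>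
    (⟨x.1 - s (p • x.1), by
      rw [AddMonoidHom.mem_ker]
      show p • (x.1 - s (p • x.1)) = 0
      rw [smul_sub, hs (p • x.1) ⟨x.1, x.2, rfl⟩, sub_self]⟩,
     ⟨p • x.1, by
      have hx := x.2
      rw [AddMonoidHom.mem_ker] at hx ⊢
      change p ^ (e + 1) • x.1 = 0 at hx
      show p ^ e • (p • x.1) = 0
      rw [smul_smul, ← pow_succ]
      exact hx⟩)
  have hf : Function.Injective f := by
    intro x x' h
    have h1 : x.1 - s (p • x.1) = x'.1 - s (p • x'.1) := congrArg (fun z => (z.1 : G)) h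
    have h2 : p • x.1 = p • x'.1 := congrArg (fun z => (z.2 : G)) h
    rw [h2] at h1
    exact Subtype.ext (sub_left_injective h1)
  exact Nat.card_le_card_of_injective f hf

theorem card_tor_pow [Finite G] (p e : ℕ) :
    Nat.card (nsmulAddMonoidHom (p ^ e) : G →+ G).ker ≤ (Nat.card (nsmulAddMonoidHom p : G →+ G).ker) ^ e := by
  induction e with
  | zero =>
    rw [pow_zero, pow_zero]
    have : (nsmulAddMonoidHom 1 : G →+ G).ker = ⊥ := by
      ext x
      rw [AddMonoidHom.mem_ker, AddSubgroup.mem_bot]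
      show (1 : ℕ) • x = 0 ↔ x = 0
      rw [one_smul]
    rw [this]
    simp
  | succ e ih =>
    refine (card_tor_succ p e).trans ?_
    rw [pow_succ, mul_comm]
    exact Nat.mul_le_mul_right _ ih

end tors

theorem card_ptor {n : ℕ} (M' : Matrix (Fin n) (Fin n) ℤ) (hd : M'.det ≠ 0) (p k : ℕ) (hp : p.Prime)
    (hk : n ≤ (M'.map (Int.cast : ℤ → ZMod p)).rank + k) :
    Nat.card (nsmulAddMonoidHom p : Coker M' →+ Coker M').ker ≤ p ^ k := by
  classical
  have : Fact p.Prime := ⟨hp⟩
  set A := M'.map (Int.cast : ℤ → ZMod p) with hA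
  have hker : Nat.card (LinearMap.ker A.mulVecLin) ≤ p ^ k := by
    have h1 := Module.natCard_eq_pow_finrank (K := ZMod p) (V := LinearMap.ker A.mulVecLin)
    rw [h1, Nat.card_zmod]
    apply Nat.pow_le_pow_right hp.pos
    have h2 := LinearMap.finrank_range_add_finrank_ker A.mulVecLin
    rw [Module.finrank_fin_fun] at h2
    have h3 : A.rank = Module.finrank (ZMod p) (LinearMap.range A.mulVecLin) := rfl
    omega
  refine le_trans ?_ hker
  have hz : ∀ x : (nsmulAddMonoidHom p : Coker M' →+ Coker M').ker, ∃ (w z : Fin n → ℤ),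
      (QuotientAddGroup.mk w : Coker M') = x.1 ∧ M' *ᵥ z = (p : ℤ) • w := by
    intro x
    obtain ⟨w, hw⟩ := QuotientAddGroup.mk_surjective x.1
    have hx := x.2
    rw [AddMonoidHom.mem_ker] at hx
    change p • x.1 = 0 at hx
    rw [← hw] at hx
    have h1 : (QuotientAddGroup.mk (p • w) : Coker M') = 0 := hx
    rw [QuotientAddGroup.eq_zero_iff, mem_lat] at h1
    obtain ⟨z, hz⟩ := h1
    exact ⟨w, z, hw, by rw [hz, natCast_zsmul]⟩
  choose w z hw hz using hz
  let f : (nsmulAddMonoidHom p : Coker M' →+ Coker M').ker → LinearMap.ker A.mulVecLin := fun x =>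
    ⟨fun j => ((z x j : ℤ) : ZMod p), by
      rw [LinearMap.mem_ker]
      show A *ᵥ (fun j => ((z x j : ℤ) : ZMod p)) = 0
      funext i
      have h1 := congrFun (hz x) i
      have h2 := congrArg (Int.cast : ℤ → ZMod p) h1
      rw [mulVec, dotProduct] at h2 ⊢
      rw [Int.cast_sum] at h2
      simp only [Int.cast_mul, Pi.smul_apply, smul_eq_mul, Int.cast_natCast, CharP.cast_eq_zero, zero_mul] at h2
      simpa [hA] using h2⟩
  have hf : Function.Injective f := by
    intro x x' h
    have h1 : ∀ j, ((z x j : ℤ) : ZMod p) = ((z x' j : ℤ) : ZMod p) := fun j => congrFun (congrArg Subtype.val h) j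
    have h2 : ∀ j, (p : ℤ) ∣ z x j - z x' j := by
      intro j
      rw [← ZMod.intCast_zmod_eq_zero_iff_dvd, Int.cast_sub, h1 j, sub_self]
    choose u hu using h2
    apply Subtype.ext
    rw [← hw x, ← hw x', QuotientAddGroup.eq_iff_sub_mem, mem_lat]
    refine ⟨u, ?_⟩
    have h3 : z x - z x' = (p : ℤ) • u := by
      funext j
      rw [Pi.sub_apply, hu j]; rfl
    have h4 : (p : ℤ) • (M' *ᵥ u) = (p : ℤ) • (w x - w x') := by
      rw [← mulVec_smul, ← h3, mulVec_sub, hz x, hz x', smul_sub]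
    have hp0 : (p : ℤ) ≠ 0 := by exact_mod_cast hp.ne_zero
    exact smul_right_injective _ hp0 h4
  exact Nat.card_le_card_of_injective f hf

theorem card_tor {n : ℕ} (M' : Matrix (Fin n) (Fin n) ℤ) (hd : M'.det ≠ 0) (p k e : ℕ) (hp : p.Prime)
    (hk : n ≤ (M'.map (Int.cast : ℤ → ZMod p)).rank + k) [Finite (Coker M')] :
    Nat.card (Cnt.tor (Coker M') p e) ≤ p ^ (k * e) := by
  have h1 : Nat.card (Cnt.tor (Coker M') p e) ≤ Nat.card (nsmulAddMonoidHom (p ^ e) : Coker M' →+ Coker M').ker :=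
    Nat.card_le_card_of_injective _ (AddSubgroup.inclusion_injective (inf_le_right : Cnt.tor (Coker M') p e ≤ _))
  refine h1.trans ((card_tor_pow p e).trans ?_)
  rw [pow_mul]
  exact Nat.pow_le_pow_left (card_ptor M' hd p k hp hk) e

section wts

variable {G : Type*} [AddCommGroup G]

theorem pp_le_prim (p e : ℕ) (Q : AddSubgroup G) : pp p e Q ≤ prim G p := by
  rintro _ ⟨x, hx, rfl⟩
  have hx2 := hx.2
  exact (prim G p).nsmul_mem hx2 _

theorem wt_le [Fintype G] (ρ p e : ℕ) (hp : p.Prime) (H Q : AddSubgroup G) :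
    Cnt.wt ρ p e H Q ≤ cst ρ p e H Q + (2 * Real.logb 2 (((Nat.card G).factorization p : ℝ) + 1) + 3) := by
  classical
  have hlp : 0 ≤ Real.logb 2 (p : ℝ) := Real.logb_nonneg (by norm_num) (by exact_mod_cast hp.one_lt.le)
  have hlv : 0 ≤ Real.logb 2 (((Nat.card G).factorization p : ℝ) + 1) :=
    Real.logb_nonneg (by norm_num) (by linarith [(Nat.cast_nonneg ((Nat.card G).factorization p) : (0:ℝ) ≤ _)])
  have hR : (Nat.card (pp p e Q)).factorization p = Nat.log p (Nat.card (pp p e Q)) := by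
    have h := (Cnt.card_pow_of_le hp (pp_le_prim p e Q)).1
    conv_lhs => rw [h]
    rw [Nat.Prime.factorization_pow hp, Finsupp.single_eq_same]
  show Cnt.w0 ρ p ((Nat.card G).factorization p) (pp p e H) (pp p e Q) ≤ _
  rw [Cnt.w0, cst]
  by_cases h : pp p e Q = pp p e H
  · rw [if_pos h, if_pos h]
    positivity
  · rw [if_neg h, if_neg h, hR]
    apply le_of_eq
    ring

end wts

/-- **N5** -/
theorem n5 : N5Stmt := by
  classical
  intro n M' hM s hz ρ y a k X hd hk
  have hc : Nat.card (Coker M') = M'.det.natAbs := card_coker M' hd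
  have hN : M'.det.natAbs ≠ 0 := Int.natAbs_ne_zero.mpr hd
  have hfin : Finite (Coker M') := Nat.finite_of_card_ne_zero (by rw [hc]; exact hN)
  let _ : Fintype (Coker M') := Fintype.ofFinite _
  have : NeZero M'.det.natAbs := ⟨hN⟩
  have hfs : Finite (AddSubgroup (Coker M')) := Finite.of_injective (fun H => (H : Set (Coker M'))) SetLike.coe_injective
  have hSf : {Q : AddSubgroup (Coker M') | LabQ M' hM hz ρ y a X Q}.Finite := Set.toFinite _
  refine ⟨hSf, ?_⟩
  rw [Set.ncard_eq_toFinset_card _ hSf]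
  set e : ℕ → ℕ := fun p => if y ≤ p then 0 else ρ * (a - 1) with he
  set H := AddSubgroup.closure (Set.range fun t => (QuotientAddGroup.mk (hz t) : Coker M')) with hH
  have hcnt := Cnt.count (cokPair M' hM) (cokPair_symm M' hM) (cokPair_nondeg M' hM hd) ρ e H
    (X + ∑ p ∈ (Nat.card (Coker M')).primeFactors, (2 * Real.logb 2 (((Nat.card (Coker M')).factorization p : ℝ) + 1) + 3))
    hSf.toFinset
    (fun Q hQ => ((hSf.mem_toFinset).mp hQ).2.1)
    (fun Q hQ => ((hSf.mem_toFinset).mp hQ).1)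
    (fun Q hQ => ((hSf.mem_toFinset).mp hQ).2.2.1)
    (by
      intro Q hQ
      have h1 := ((hSf.mem_toFinset).mp hQ).2.2.2 hfin
      calc ∑ p ∈ (Nat.card (Coker M')).primeFactors, Cnt.wt ρ p (e p) H Q
          ≤ ∑ p ∈ (Nat.card (Coker M')).primeFactors, (cst ρ p (e p) H Q +
            (2 * Real.logb 2 (((Nat.card (Coker M')).factorization p : ℝ) + 1) + 3)) :=
            Finset.sum_le_sum fun p hp => wt_le ρ p (e p) (Nat.prime_of_mem_primeFactors hp) H Q
        _ = ∑ p ∈ (Nat.card (Coker M')).primeFactors, cst ρ p (e p) H Q +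
            ∑ p ∈ (Nat.card (Coker M')).primeFactors, (2 * Real.logb 2 (((Nat.card (Coker M')).factorization p : ℝ) + 1) + 3) :=
            Finset.sum_add_distrib
        _ ≤ _ := by linarith)
  refine hcnt.trans ?_
  rw [Real.rpow_add (by norm_num), mul_assoc]
  apply mul_le_mul_of_nonneg_left _ (by positivity)
  rw [Real.rpow_sum_of_pos (by norm_num), ← Finset.prod_mul_distrib, hc]
  apply Finset.prod_le_prod
  · intro p _; positivity
  · intro p hp
    have hpp := Nat.prime_of_mem_primeFactors hp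
    have hv : (0 : ℝ) < (M'.det.natAbs.factorization p : ℝ) + 1 := by positivity
    have h1 : (2 : ℝ) ^ (2 * Real.logb 2 ((M'.det.natAbs.factorization p : ℝ) + 1) + 3) =
        8 * ((M'.det.natAbs.factorization p : ℝ) + 1) ^ 2 := by
      have e1 : 2 * Real.logb 2 ((M'.det.natAbs.factorization p : ℝ) + 1) + 3 =
          Real.logb 2 ((M'.det.natAbs.factorization p : ℝ) + 1) * ((2 : ℕ) : ℝ) + ((3 : ℕ) : ℝ) := by push_cast; ring
      rw [e1, Real.rpow_add (by norm_num), Real.rpow_mul (by norm_num), Real.rpow_logb (by norm_num) (by norm_num) hv,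
        Real.rpow_natCast, Real.rpow_natCast]
      norm_num; ring
    rw [h1]
    have h2 : (Nat.card (Cnt.tor (Coker M') p (e p)) : ℝ) ^ (2 * ρ) ≤
        (p : ℝ) ^ (2 * ρ * (if y ≤ p then 0 else ρ * (a - 1)) * k) := by
      have h3 := card_tor M' hd p k (e p) hpp (hk p hpp)
      have h4 : (Nat.card (Cnt.tor (Coker M') p (e p))) ^ (2 * ρ) ≤ p ^ (2 * ρ * (if y ≤ p then 0 else ρ * (a - 1)) * k) := by
        refine (Nat.pow_le_pow_left h3 _).trans (le_of_eq ?_)
        rw [← pow_mul]
        congr 1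
        rw [he]
        ring
      exact_mod_cast h4
    calc 8 * ((M'.det.natAbs.factorization p : ℝ) + 1) ^ 2 * (3 / 2 * (Nat.card (Cnt.tor (Coker M') p (e p)) : ℝ) ^ (2 * ρ))
        ≤ 8 * ((M'.det.natAbs.factorization p : ℝ) + 1) ^ 2 * (3 / 2 * (p : ℝ) ^ (2 * ρ * (if y ≤ p then 0 else ρ * (a - 1)) * k)) := by
          gcongr
      _ = _ := by ring

end Vale.Agent.P160.Half.G13.N5H829
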