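import Vale.Agent.P160.Half.GAsmStmt

/-! # P160, half rate: gap (G), assembly: N6 (helper781) -/

set_option linter.unusedVariables false

open Finset Matrix

namespace Vale.Agent.P160.Half.G13

open A G Labels

theorem n6_one {n : ℕ} {β : Type} [Fintype β] [DecidableEq β] (P : Matrix (Fin n) (Fin n) ℤ) (F : Matrix (Fin n) β ℤ) (z p : ℕ)
    (hp : p.Prime) : ∀ (q : ℕ), q = p → ∀ (g : Fin n → ZMod q) (c : β → ZMod q), Word _ P F g c →
    ((∃ i, IsUnit (g i)) ∨ ∃ j, IsUnit (c j)) → z ≤ (univ.filter fun i => g i = 0).card →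
    ∃ (g : Fin n → ZMod p) (c : β → ZMod p), Word _ P F g c ∧ (g ≠ 0 ∨ c ≠ 0) ∧ z ≤ (univ.filter fun i => g i = 0).card := by
  intro q hq g c hw hu hz
  subst hq
  have : Fact q.Prime := ⟨hp⟩
  refine ⟨g, c, hw, ?_, hz⟩
  rcases hu with ⟨i, hi⟩ | ⟨j, hj⟩
  · left
    intro h0
    rw [h0] at hi
    exact not_isUnit_zero hi
  · right
    intro h0
    rw [h0] at hj
    exact not_isUnit_zero hj

theorem n6_two {n : ℕ} {β : Type} [Fintype β] [DecidableEq β] (P : Matrix (Fin n) (Fin n) ℤ) (F : Matrix (Fin n) β ℤ) (z p a : ℕ) :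
    ∀ (e : ℕ), e = a → ∀ (g : Fin n → ZMod (p ^ e)) (c : β → ZMod (p ^ e)), Word _ P F g c →
    Prim g c → z ≤ (univ.filter fun i => g i = 0).card →
    ∃ (g : Fin n → ZMod (p ^ a)) (c : β → ZMod (p ^ a)), Word _ P F g c ∧ Prim g c ∧ z ≤ (univ.filter fun i => g i = 0).card := by
  intro e he g c hw hu hz
  subst he
  exact ⟨g, c, hw, hu, hz⟩

/-- **N6** zero counts outside the two events. -/
theorem n6 : N6Stmt := by
  intro n β _ _ P F y a z h1 h2 p hp g c hw hpr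
  by_contra hz
  have hz' : z ≤ (univ.filter fun i => g i = 0).card := not_lt.mp hz
  by_cases hy : y ≤ p
  · exact h1 ⟨p, hp, hy, n6_one P F z p hp _ (by rw [if_pos hy, pow_one]) g c hw hpr hz'⟩
  · exact h2 ⟨p, hp, not_le.mp hy, n6_two P F z p a _ (if_neg hy) g c hw hpr hz'⟩

end Vale.Agent.P160.Half.G13
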