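import Vale.Agent.P160.Half.GAsmStmt

/-! # P160, half rate: G13, leaf N6 (zero counts outside the two events), hedge (helper164) -/

open Finset Matrix

namespace Vale.Agent.P160.Half.G13

open A G Labels

private theorem n6_aux164 {n : ℕ} {β : Type} [Fintype β] (P : Matrix (Fin n) (Fin n) ℤ) (F : Matrix (Fin n) β ℤ) {z p : ℕ} (hp : p.Prime) :
    ∀ m : ℕ, m = p → ∀ (g : Fin n → ZMod m) (c : β → ZMod m), Word _ P F g c → ((∃ i, IsUnit (g i)) ∨ ∃ j, IsUnit (c j)) →
      z ≤ (univ.filter fun i => g i = 0).card →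
      ∃ (g : Fin n → ZMod p) (c : β → ZMod p), Word _ P F g c ∧ (g ≠ 0 ∨ c ≠ 0) ∧ z ≤ (univ.filter fun i => g i = 0).card := by
  rintro m rfl g c hw hprim hz
  have := Fact.mk hp
  refine ⟨g, c, hw, ?_, hz⟩
  rcases hprim with ⟨i, hi⟩ | ⟨j, hj⟩
  · left
    intro h
    rw [h] at hi
    exact hi.ne_zero rfl
  · right
    intro h
    rw [h] at hj
    exact hj.ne_zero rfl

theorem n6_h164 : N6Stmt := by
  intro n β _ _ P F y a z h1 h2 p hp g c hw hprim
  by_contra hz
  have hz' : z ≤ (univ.filter fun i => g i = 0).card := not_lt.mp hz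
  by_cases hy : y ≤ p
  · refine h1 ⟨p, hp, hy, ?_⟩
    refine n6_aux164 P F hp (p ^ if y ≤ p then 1 else a) ?_ g c hw hprim hz'
    rw [if_pos hy, pow_one]
  · refine h2 ⟨p, hp, not_le.mp hy, ?_⟩
    have key : ∀ e : ℕ, e = a → ∀ (g : Fin n → ZMod (p ^ e)) (c : β → ZMod (p ^ e)), Word _ P F g c → Prim g c →
        z ≤ (univ.filter fun i => g i = 0).card → ∃ (g : Fin n → ZMod (p ^ a)) (c : β → ZMod (p ^ a)), Word _ P F g c ∧ Prim g c ∧
          z ≤ (univ.filter fun i => g i = 0).card := by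
      rintro e rfl g c hw hprim hz
      exact ⟨g, c, hw, hprim, hz⟩
    exact key (if y ≤ p then 1 else a) (if_neg hy) g c hw hprim hz'

end Vale.Agent.P160.Half.G13
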