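import Vale.Agent.P160.Half.GAsmStmt

/-! # P160, half rate: `N6Stmt` (hedge, helper906) -/

open Finset Matrix

namespace Vale.Agent.P160.Half.GN6H906

open A G Labels G13

theorem n6 : N6Stmt := by
  intro n β _ _ P F y a z h1 h2 p hp g c hw hpr
  have := Fact.mk hp
  by_contra hlt
  push Not at hlt
  unfold Prim at hpr
  revert g c
  by_cases hy : y ≤ p
  · have hq : (p ^ if y ≤ p then 1 else a) = p := by simp [hy]
    rw [hq]
    intro g c hw hpr hlt
    refine h1 ⟨p, hp, hy, g, c, hw, ?_, hlt⟩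
    rcases hpr with ⟨i, hi⟩ | ⟨j, hj⟩
    · left; intro h0; rw [h0] at hi; exact not_isUnit_zero hi
    · right; intro h0; rw [h0] at hj; exact not_isUnit_zero hj
  · have hq : (p ^ if y ≤ p then 1 else a) = p ^ a := by simp [hy]
    rw [hq]
    intro g c hw hpr hlt
    exact h2 ⟨p, hp, lt_of_not_ge hy, g, c, hw, hpr, hlt⟩

end Vale.Agent.P160.Half.GN6H906
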