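import Vale.Agent.P160.Half.GAsmStmt

/-! # P160, half rate: G13 / N7 (helper272): choice of `R` and `c` by averaging -/

set_option linter.unusedVariables false
set_option linter.unusedSectionVars false

open Finset Matrix

namespace Vale.Agent.P160.Half.G13

open A G Labels

namespace N7

theorem cst_nonneg {G : Type*} [AddCommGroup G] [Finite G] (ρ p e D : ℕ) (hp : p.Prime)
    (H Q : AddSubgroup G) (hD : 0 < D) (hc : Nat.card G = D * (Nat.card Q) ^ 2) : 0 ≤ cst ρ p e H Q := by
  classical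
  unfold cst
  have h1 : Nat.card (pp p e Q) ∣ Nat.card Q := by
    unfold pp
    have a1 : Nat.card ((Q ⊓ prim G p).map (nsmulAddMonoidHom (p ^ e))) ∣ Nat.card (Q ⊓ prim G p : AddSubgroup G) :=
      AddSubgroup.card_map_dvd _ _
    exact a1.trans (AddSubgroup.card_dvd_of_le inf_le_left)
  have hQ : Nat.card Q ≠ 0 := Nat.card_pos.ne'
  have h2 : (Nat.card (pp p e Q)).factorization p ≤ (Nat.card Q).factorization p :=
    (Nat.factorization_le_iff_dvd (Nat.card_pos.ne') hQ).2 h1 p
  have h3 : (Nat.card G).factorization p = D.factorization p + 2 * (Nat.card Q).factorization p := by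
    rw [hc, Nat.factorization_mul hD.ne' (pow_ne_zero _ hQ), Nat.factorization_pow]
    simp
  have h4 : (0 : ℝ) ≤ ((Nat.card G).factorization p : ℝ) - 2 * ((Nat.card (pp p e Q)).factorization p : ℝ) := by
    rw [h3]; push_cast
    have : ((Nat.card (pp p e Q)).factorization p : ℝ) ≤ (Nat.card Q).factorization p := by exact_mod_cast h2
    have h0 : (0 : ℝ) ≤ D.factorization p := Nat.cast_nonneg _
    linarith
  have h5 : (0 : ℝ) ≤ Real.logb 2 p := Real.logb_nonneg (by norm_num) (by exact_mod_cast hp.one_lt.le)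
  refine mul_nonneg (mul_nonneg (add_nonneg ?_ ?_) (by positivity)) h5
  · split_ifs
    · exact le_rfl
    · exact h4
  · positivity

theorem sum_fact_le (D m : ℕ) (hD : 0 < D) (hm : D ≤ m) (Pr : Finset ℕ) (hPr : ∀ p ∈ Pr, p.Prime) :
    ∑ p ∈ Pr, (D.factorization p : ℝ) * Real.logb 2 p ≤ Real.logb 2 m := by
  have h1 : ∑ p ∈ Pr, (D.factorization p : ℝ) * Real.logb 2 p ≤
      ∑ p ∈ Pr ∪ D.primeFactors, (D.factorization p : ℝ) * Real.logb 2 p := by
    refine sum_le_sum_of_subset_of_nonneg subset_union_left ?_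
    intro p hp _
    refine mul_nonneg (Nat.cast_nonneg _) (Real.logb_nonneg (by norm_num) ?_)
    rcases mem_union.1 hp with h | h
    · exact_mod_cast (hPr p h).one_lt.le
    · exact_mod_cast (Nat.prime_of_mem_primeFactors h).one_lt.le
  have h2 : ∑ p ∈ Pr ∪ D.primeFactors, (D.factorization p : ℝ) * Real.logb 2 p =
      ∑ p ∈ D.primeFactors, (D.factorization p : ℝ) * Real.logb 2 p := by
    symm
    refine sum_subset subset_union_right ?_
    intro p _ hp
    have : D.factorization p = 0 := by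
      rw [← Finsupp.notMem_support_iff, Nat.support_factorization]; exact hp
    rw [this]; simp
  have h3 : ∑ p ∈ D.primeFactors, (D.factorization p : ℝ) * Real.logb 2 p = Real.logb 2 D := by
    have e1 : (D : ℝ) = ∏ p ∈ D.primeFactors, (p : ℝ) ^ D.factorization p := by
      have := Nat.prod_factorization_pow_eq_self hD.ne'
      rw [Nat.prod_factorization_eq_prod_primeFactors] at this
      exact_mod_cast this.symm
    conv_rhs => rw [e1]
    unfold Real.logb
    rw [Real.log_prod, sum_div]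
    · refine sum_congr rfl fun p _ => ?_
      rw [Real.log_pow]; ring
    · intro p hp
      have := (Nat.prime_of_mem_primeFactors hp).pos
      positivity
  calc _ ≤ _ := h1
    _ = Real.logb 2 D := by rw [h2, h3]
    _ ≤ Real.logb 2 m := by
      apply Real.logb_le_logb_of_le (by norm_num) (by exact_mod_cast hD) (by exact_mod_cast hm)

theorem cl_eq {n : ℕ} {β : Type} [Fintype β] (P : Matrix (Fin n) (Fin n) ℤ) (h : β → Fin n → ℤ) (e : β ≃ Fin (Fintype.card β)) :
    AddSubgroup.closure (Set.range fun i : Fin (Fintype.card β) => (QuotientAddGroup.mk (h (e.symm i)) : Coker P)) =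
      AddSubgroup.closure (Set.range fun i : β => (QuotientAddGroup.mk (h i) : Coker P)) := by
  congr 1
  ext x
  simp only [Set.mem_range]
  constructor
  · rintro ⟨i, hi⟩; exact ⟨e.symm i, hi⟩
  · rintro ⟨i, hi⟩; exact ⟨e i, by rw [e.symm_apply_apply]; exact hi⟩

theorem sum_eq {n : ℕ} {β : Type} [Fintype β] (P : Matrix (Fin n) (Fin n) ℤ) (h : β → Fin n → ℤ) (e : β ≃ Fin (Fintype.card β))
    (c : Fin (Fintype.card β) → Bool) :
    (∑ i, if c i then (QuotientAddGroup.mk (h (e.symm i)) : Coker P) else 0) =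
      (QuotientAddGroup.mk (fun j => ∑ i, if c (e i) then h i j else 0) : Coker P) := by
  have e1 : (fun j => ∑ i, if c (e i) then h i j else 0) = ∑ i, if c (e i) then h i else 0 := by
    funext j
    rw [Finset.sum_apply]
    refine sum_congr rfl fun i _ => ?_
    split_ifs <;> rfl
  rw [e1]
  have e2 : ((QuotientAddGroup.mk (∑ i, if c (e i) then h i else 0) : Coker P)) =
      ∑ i, (QuotientAddGroup.mk (if c (e i) then h i else 0) : Coker P) := by
    exact map_sum (QuotientAddGroup.mk' (lat P)) _ _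
  rw [e2, ← e.sum_comp]
  refine sum_congr rfl fun i _ => ?_
  rw [e.symm_apply_apply]
  split_ifs <;> rfl

end N7

open N7 in
theorem n7 : AvgStmt → RelStmt → KZFStmt → ConStmt → N7Stmt := by
  classical
  intro hAvg hRel hKZF hCon n β _ _ b F gr s y a z k X W 𝓡 hdet hn ha hX hF hgr hKZ hR hcard hW
  obtain ⟨M', hz, D, hD0, hD, hrel⟩ := hRel n β b F gr hdet hgr
  set ρ := Fintype.card β with hρ
  let e : β ≃ Fin ρ := Fintype.equivFin β
  let 𝓡' : Finset (Fin ρ → Fin n) := univ.filter fun R' => R' ∘ e ∈ 𝓡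
  have h𝓡' : ∀ R', R' ∈ 𝓡' ↔ R' ∘ e ∈ 𝓡 := fun R' => by simp [𝓡']
  have hcard' : 𝓡'.card = 𝓡.card := by
    refine card_bij (fun R' _ => R' ∘ e) (fun R' h => (h𝓡' R').1 h) ?_ ?_
    · intro R₁ _ R₂ _ h
      funext i
      have := congrFun h (e.symm i)
      simpa using this
    · intro R h
      exact ⟨R ∘ e.symm, (h𝓡' _).2 (by
        have : (R ∘ e.symm) ∘ e = R := by funext i; simp
        rw [this]; exact h), by funext i; simp⟩
  let Gt : (Fin ρ → Fin n) → Type := fun R' => Coker (M' (R' ∘ e))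
  let x : ∀ R' : Fin ρ → Fin n, Fin ρ → Gt R' := fun R' i => (QuotientAddGroup.mk (hz (R' ∘ e) (e.symm i)) : Coker (M' (R' ∘ e)))
  let Pr : Finset ℕ := 𝓡'.biUnion fun R' => (Nat.card (Gt R')).primeFactors
  have hPr : ∀ p ∈ Pr, p.Prime := by
    intro p hp
    obtain ⟨R', _, h⟩ := mem_biUnion.1 hp
    exact Nat.prime_of_mem_primeFactors h
  have hfin : ∀ R ∈ 𝓡', Finite (Gt R) := by
    intro R hR'
    have h1 := hR _ ((h𝓡' R).1 hR')
    have h2 := (hrel _ h1.1 h1.2).2.2.1
    refine Nat.finite_of_card_ne_zero ?_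
    change Nat.card (Coker (M' (R ∘ e))) ≠ 0
    rw [card_coker _ h2]
    exact Int.natAbs_ne_zero.2 h2
  set CX : ℕ := (ρ + 1).factorial * ((ρ + 1) * (n * n.factorial * X)) ^ (ρ + 1) with hCX
  have hCX1 : 1 ≤ CX := by
    have : 0 < X := hX
    have h3 : 0 < (ρ + 1) * (n * n.factorial * X) := by positivity
    have : 0 < CX := by positivity
    exact this
  have hTle : ∀ (i : Fin ρ) (R : Fin ρ → Fin n), ((univ.filter (· < i)).image R).card < Fintype.card β := by
    intro i R
    refine lt_of_le_of_lt card_image_le ?_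
    rw [← hρ]
    have : (univ.filter (· < i) : Finset (Fin ρ)).card = i := by
      have e1 : (univ.filter (· < i) : Finset (Fin ρ)) = Finset.Iio i := by ext; simp
      rw [e1, Fin.card_Iio]
    omega
  have hTall : ∀ (i : Fin ρ) (R : Fin ρ → Fin n) (u : Fin n → ℤ),
      (∀ j ∈ (univ.filter (· < i)).image R, u j = 0) ↔ (∀ j < i, u (R j) = 0) := by
    intro i R u
    constructor
    · intro h j hj
      exact h _ (mem_image_of_mem _ (mem_filter.2 ⟨mem_univ _, hj⟩))
    · intro h j hj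
      obtain ⟨j', hj', rfl⟩ := mem_image.1 hj
      exact h _ (mem_filter.1 hj').2
  have key := hAvg n ρ s y a z (KW (matZ b) F) (Real.logb 2 CX) (Real.logb 2 (matZ b).det.natAbs) (fun p => D.factorization p)
    Pr 𝓡' Gt x hn ha (Real.logb_nonneg (by norm_num) (by exact_mod_cast hCX1))
    (Real.logb_nonneg (by norm_num) (by
      have : 1 ≤ (matZ b).det.natAbs := Int.natAbs_pos.2 hdet
      exact_mod_cast this)) hfin
    (by
      intro R hR' c
      have h1 := hR _ ((h𝓡' R).1 hR')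
      have h2 := (hrel _ h1.1 h1.2).2.2.2.2.2.2.1 (fun i => c (e i))
      have h3 : ∑ i, c i • x R i = ∑ i, c (e i) • (QuotientAddGroup.mk (hz (R ∘ e) i) : Coker (M' (R ∘ e))) := by
        rw [← e.sum_comp]
        refine sum_congr rfl fun i _ => ?_
        simp only [x, e.symm_apply_apply]
      rw [h3, h2]
      constructor
      · rintro ⟨u, hu, hc⟩
        exact ⟨u, hu, fun i => by have := hc (e.symm i); simpa using this⟩
      · rintro ⟨u, hu, hc⟩
        exact ⟨u, hu, fun i => hc (e i)⟩)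
    (by
      intro R hR' p
      have h1 := hR _ ((h𝓡' R).1 hR')
      have h2 := (hrel _ h1.1 h1.2).2.2.2.2.2.2.2.1
      have : Finite (Gt R) := hfin R hR'
      have h4 : Nat.card (Gt R) = D * (Nat.card (AddSubgroup.closure (Set.range (x R)))) ^ 2 := by
        have := cl_eq (M' (R ∘ e)) (hz (R ∘ e)) e
        change Nat.card (Coker (M' (R ∘ e))) = _
        rw [h2, ← this]
      have hQ : Nat.card (AddSubgroup.closure (Set.range (x R))) ≠ 0 := Nat.card_pos.ne'
      rw [h4, Nat.factorization_mul hD0.ne' (pow_ne_zero _ hQ), Nat.factorization_pow]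
      simp)
    hPr (sum_fact_le D _ hD0 hD Pr hPr)
    (by
      intro p hp i R
      have := hKZF n β (matZ b) F y a z hdet ha hKZ p (hPr p hp) ((univ.filter (· < i)).image R) (hTle i R)
      simp only [hTall] at this
      exact this)
    (by
      intro i R h
      obtain ⟨u, hu, h0, hne, hb⟩ := hCon n β b F X hdet hX hF ((univ.filter (· < i)).image R) (R i) (hTle i R)
        (by simpa only [hTall] using h)
      refine ⟨u, hu, (hTall i R u).1 h0, hne, ?_⟩
      have h1 : (0 : ℝ) < |((u (R i) : ℤ) : ℝ)| := abs_pos.2 (by exact_mod_cast hne)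
      refine Real.logb_le_logb_of_le (by norm_num) h1 ?_
      have : ((|u (R i)| : ℤ) : ℝ) ≤ ((CX : ℕ) : ℝ) := by exact_mod_cast hb
      rwa [Int.cast_abs] at this)
  -- pigeonhole
  have hnR : (0 : ℝ) < n := by exact_mod_cast hn
  have hR0 : (0 : ℝ) < 𝓡.card := by
    have : (0 : ℝ) < (n : ℝ) ^ ρ := pow_pos hnR _
    linarith
  set T : ℝ := ((Real.logb 2 (matZ b).det.natAbs + 2 * ρ * (ρ * a) * y * Real.logb 2 (y + 1)) *
      ((1 / 2) ^ s * (ρ * z / n) + (ρ * z / n) ^ 2) +
      2 * (ρ * Real.logb 2 (CX : ℝ)) * ((1 / 2) ^ s * (ρ * z / n) + ρ * (ρ * z / n) ^ 2)) with hT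
  have hW' : 2 * ((ρ + 1) * T) ≤ W := hW
  by_contra hcon
  have hall : ∀ R ∈ 𝓡', ∀ c : Fin s → Fin ρ → Bool, W <
      ∑ p ∈ Pr, cst ρ p (if y ≤ p then 0 else ρ * (a - 1))
      (AddSubgroup.closure (Set.range fun t : Fin s => ∑ i, if c t i then x R i else 0)) (AddSubgroup.closure (Set.range (x R))) := by
    intro R hR' c
    by_contra hle
    push Not at hle
    apply hcon
    have h1 := hR _ ((h𝓡' R).1 hR')
    obtain ⟨q1, q2, q3, q4, q5, q6, q7, q8, q9⟩ := hrel _ h1.1 h1.2
    refine ⟨R ∘ e, (h𝓡' R).1 hR', M' (R ∘ e), q2, hz (R ∘ e), q1, q3, q4, q5, q6, q9, fun t i => c t (e i), ?_⟩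
    intro hf
    have hfin' : Finite (Gt R) := hf
    have h4 : Nat.card (Gt R) = D * (Nat.card (AddSubgroup.closure (Set.range (x R)))) ^ 2 := by
      have := cl_eq (M' (R ∘ e)) (hz (R ∘ e)) e
      change Nat.card (Coker (M' (R ∘ e))) = _
      rw [q8, ← this]
    have hcl : AddSubgroup.closure (Set.range (x R)) =
        AddSubgroup.closure (Set.range fun i => (QuotientAddGroup.mk (hz (R ∘ e) i) : Coker (M' (R ∘ e)))) :=
      cl_eq (M' (R ∘ e)) (hz (R ∘ e)) e
    have hcl2 : (fun t : Fin s => ∑ i, if c t i then x R i else 0) =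
        (fun t : Fin s => (QuotientAddGroup.mk (fun j => ∑ i, if c t (e i) then hz (R ∘ e) i j else 0) : Coker (M' (R ∘ e)))) := by
      funext t
      exact sum_eq (M' (R ∘ e)) (hz (R ∘ e)) e (c t)
    rw [← hcl, ← hcl2]
    refine le_trans ?_ hle
    refine sum_le_sum_of_subset_of_nonneg ?_ ?_
    · intro p hp
      exact mem_biUnion.2 ⟨R, hR', hp⟩
    · intro p hp _
      exact cst_nonneg (G := Gt R) ρ p _ D (hPr p hp) _ _ hD0 h4
  have hlt : ((𝓡'.card : ℝ) * 2 ^ (s * ρ)) * W < ∑ R ∈ 𝓡', ∑ c : Fin s → Fin ρ → Bool, ∑ p ∈ Pr, cst ρ p (if y ≤ p then 0 else ρ * (a - 1))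
      (AddSubgroup.closure (Set.range fun t : Fin s => ∑ i, if c t i then x R i else 0)) (AddSubgroup.closure (Set.range (x R))) := by
    have h1 : ((𝓡'.card : ℝ) * 2 ^ (s * ρ)) * W = ∑ R ∈ 𝓡', ∑ c : Fin s → Fin ρ → Bool, W := by
      rw [sum_const, sum_const, card_univ, nsmul_eq_mul, nsmul_eq_mul, Fintype.card_fun, Fintype.card_fun, Fintype.card_fin,
        Fintype.card_fin, Fintype.card_bool]
      push_cast
      rw [← pow_mul, mul_comm ρ s]; ring
    rw [h1]
    refine sum_lt_sum_of_nonempty ?_ ?_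
    · rw [← card_pos, hcard']; exact_mod_cast hR0
    · intro R hR'
      exact sum_lt_sum_of_nonempty univ_nonempty fun c _ => hall R hR' c
  have hT0 : 0 ≤ T := by
    have a1 : 0 ≤ Real.logb 2 (matZ b).det.natAbs := Real.logb_nonneg (by norm_num) (by
      have : 1 ≤ (matZ b).det.natAbs := Int.natAbs_pos.2 hdet
      exact_mod_cast this)
    have a2 : 0 ≤ Real.logb 2 ((y : ℝ) + 1) := Real.logb_nonneg (by norm_num) (by
      have : (0 : ℝ) ≤ y := Nat.cast_nonneg _
      linarith)
    have a3 : 0 ≤ Real.logb 2 (CX : ℝ) := Real.logb_nonneg (by norm_num) (by exact_mod_cast hCX1)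
    rw [hT]
    positivity
  have hfinal : (n : ℝ) ^ ρ * 2 ^ (s * ρ) * (ρ + 1) * T ≤ ((𝓡'.card : ℝ) * 2 ^ (s * ρ)) * W := by
    rw [hcard']
    have b1 : (n : ℝ) ^ ρ * ((ρ + 1) * T) ≤ 2 * 𝓡.card * ((ρ + 1) * T) :=
      mul_le_mul_of_nonneg_right hcard (by positivity)
    have b2 : (𝓡.card : ℝ) * (2 * ((ρ + 1) * T)) ≤ 𝓡.card * W := mul_le_mul_of_nonneg_left hW' hR0.le
    have b3 : (n : ℝ) ^ ρ * ((ρ + 1) * T) ≤ 𝓡.card * W := by nlinarith
    have b4 : (0 : ℝ) < 2 ^ (s * ρ) := by positivity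
    calc (n : ℝ) ^ ρ * 2 ^ (s * ρ) * (ρ + 1) * T = 2 ^ (s * ρ) * ((n : ℝ) ^ ρ * ((ρ + 1) * T)) := by ring
      _ ≤ 2 ^ (s * ρ) * (𝓡.card * W) := mul_le_mul_of_nonneg_left b3 b4.le
      _ = _ := by ring
  have := hlt.trans_le key
  exact absurd (lt_of_le_of_lt hfinal this) (lt_irrefl _)

end Vale.Agent.P160.Half.G13
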