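import Vale.Agent.P160.Half.GAsmStmt

/-! # P160, half rate: gap (G), `N7Stmt` of `GAsmStmt` (choice of rows and vectors by averaging), helper679 -/

open Finset Matrix

namespace Vale.Agent.P160.Half.N7H679

open A G Labels G13

lemma logb_nat_nonneg (m : ℕ) (hm : 1 ≤ m) : 0 ≤ Real.logb 2 (m : ℝ) :=
  Real.logb_nonneg (by norm_num) (by exact_mod_cast hm)

lemma sum_fact_le (Pr : Finset ℕ) (hPr : ∀ p ∈ Pr, p.Prime) (D : ℕ) (hD : D ≠ 0) :
    ∑ p ∈ Pr, (D.factorization p : ℝ) * Real.logb 2 p ≤ Real.logb 2 D := by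
  have h1 : Real.logb 2 D = ∑ p ∈ D.primeFactors, (D.factorization p : ℝ) * Real.logb 2 p := by
    have h := Nat.prod_factorization_pow_eq_self hD
    conv_lhs => rw [← h]
    rw [Finsupp.prod, Nat.cast_prod, Real.logb_prod]
    · refine sum_congr rfl fun p _ => ?_
      rw [Nat.cast_pow, Real.logb_pow]
    · intro p hp
      have : p.Prime := Nat.prime_of_mem_primeFactors hp
      have := this.pos
      positivity
  rw [h1]
  calc ∑ p ∈ Pr, (D.factorization p : ℝ) * Real.logb 2 p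
      = ∑ p ∈ Pr.filter (· ∈ D.primeFactors), (D.factorization p : ℝ) * Real.logb 2 p := by
        rw [sum_filter]
        refine sum_congr rfl fun p hp => ?_
        split_ifs with h
        · rfl
        · have : D.factorization p = 0 := by
            apply Nat.factorization_eq_zero_of_not_dvd
            intro hd
            exact h (Nat.mem_primeFactors.2 ⟨hPr p hp, hd, hD⟩)
          rw [this]; simp
    _ ≤ _ := sum_le_sum_of_subset_of_nonneg (fun p hp => (mem_filter.1 hp).2) (fun p hp _ =>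
        mul_nonneg (Nat.cast_nonneg _) (logb_nat_nonneg p (Nat.prime_of_mem_primeFactors hp).one_lt.le))

lemma cst_nonneg_of {Γ : Type*} [AddCommGroup Γ] [Finite Γ] {p : ℕ} (hp : p.Prime) (hnd : ¬ p ∣ Nat.card Γ)
    (ρ e : ℕ) (H Q : AddSubgroup Γ) : 0 ≤ cst ρ p e H Q := by
  have h1 : (Nat.card Γ).factorization p = 0 := Nat.factorization_eq_zero_of_not_dvd hnd
  have h2 : (Nat.card (pp p e Q)).factorization p = 0 := Nat.factorization_eq_zero_of_not_dvd
    (fun h => hnd (h.trans (AddSubgroup.card_addSubgroup_dvd_card _)))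
  unfold cst
  rw [h1, h2]
  refine mul_nonneg (mul_nonneg (add_nonneg ?_ (by positivity)) (by positivity)) (logb_nat_nonneg p hp.one_lt.le)
  split_ifs <;> simp

theorem n7 (havg : AvgStmt) (hrel : RelStmt) (hkzf : KZFStmt) (hcon : ConStmt) : N7Stmt := by
  classical
  intro n β _ _ b F gr s y a z k X W 𝓡 hdet hn ha hX hF hgr hKZ h𝓡 hcard hW
  obtain ⟨M', hz, D, hD0, hDle, hR⟩ := hrel n β b F gr hdet hgr
  let e : β ≃ Fin (Fintype.card β) := Fintype.equivFin β
  let ψ : (β → Fin n) ≃ (Fin (Fintype.card β) → Fin n) := Equiv.arrowCongr e (Equiv.refl _)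
  let 𝓡' : Finset (Fin (Fintype.card β) → Fin n) := 𝓡.map ψ.toEmbedding
  have hmem : ∀ R' ∈ 𝓡', ψ.symm R' ∈ 𝓡 := by
    intro R' h
    obtain ⟨R, hR1, rfl⟩ := mem_map.1 h
    simpa using hR1
  have hψ : ∀ (R' : Fin (Fintype.card β) → Fin n) (i : β), (ψ.symm R') i = R' (e i) := fun R' i => rfl
  let x : ∀ R' : Fin (Fintype.card β) → Fin n, Fin (Fintype.card β) → Coker (M' (ψ.symm R')) :=
    fun R' i => QuotientAddGroup.mk (hz (ψ.symm R') (e.symm i))
  have hxr : ∀ R', Set.range (x R') = Set.range fun i => (QuotientAddGroup.mk (hz (ψ.symm R') i) : Coker (M' (ψ.symm R'))) := by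
    intro R'
    exact e.symm.surjective.range_comp (fun i => (QuotientAddGroup.mk (hz (ψ.symm R') i) : Coker (M' (ψ.symm R'))))
  have hfin : ∀ R ∈ 𝓡, Finite (Coker (M' R)) := by
    intro R hRm
    apply Nat.finite_of_card_ne_zero
    rw [card_coker _ (hR R (h𝓡 R hRm).1 (h𝓡 R hRm).2).2.2.1]
    exact Int.natAbs_ne_zero.2 (hR R (h𝓡 R hRm).1 (h𝓡 R hRm).2).2.2.1
  let Pr : Finset ℕ := 𝓡.biUnion fun R => (Nat.card (Coker (M' R))).primeFactors
  have hPr : ∀ p ∈ Pr, p.Prime := by
    intro p hp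
    obtain ⟨R, -, h⟩ := mem_biUnion.1 hp
    exact Nat.prime_of_mem_primeFactors h
  set Nb : ℕ := (Fintype.card β + 1).factorial * ((Fintype.card β + 1) * (n * n.factorial * X)) ^ (Fintype.card β + 1) with hNb
  have hNb1 : 1 ≤ Nb := Nat.one_le_iff_ne_zero.2 (by rw [hNb]; positivity)
  have hB0 : 0 ≤ Real.logb 2 (Nb : ℝ) := logb_nat_nonneg _ hNb1
  have hdn : 1 ≤ (matZ b).det.natAbs := Nat.one_le_iff_ne_zero.2 (Int.natAbs_ne_zero.2 hdet)
  have hDl0 : 0 ≤ Real.logb 2 ((matZ b).det.natAbs : ℝ) := logb_nat_nonneg _ hdn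
  -- the sets `T`
  have hT : ∀ (i : Fin (Fintype.card β)) (R' : Fin (Fintype.card β) → Fin n),
      ((Finset.Iio i).image R').card < Fintype.card β := by
    intro i R'
    refine card_image_le.trans_lt ?_
    rw [Fin.card_Iio]
    exact i.2
  have hTi : ∀ (i : Fin (Fintype.card β)) (R' : Fin (Fintype.card β) → Fin n) (u : Fin n → ℤ),
      (∀ j ∈ (Finset.Iio i).image R', u j = 0) ↔ ∀ j < i, u (R' j) = 0 := by
    intro i R' u
    simp
  have H := havg n (Fintype.card β) s y a z (KW (matZ b) F) (Real.logb 2 (Nb : ℝ))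
    (Real.logb 2 ((matZ b).det.natAbs : ℝ)) (fun p => D.factorization p) Pr 𝓡'
    (fun R' => Coker (M' (ψ.symm R'))) x hn ha hB0 hDl0
    (fun R' h => hfin _ (hmem R' h)) (by
      intro R' h c
      have h1 := (hR _ (h𝓡 _ (hmem R' h)).1 (h𝓡 _ (hmem R' h)).2).2.2.2.2.2.2.1 (fun i => c (e i))
      have h2 : ∑ i, c i • x R' i = ∑ i, c (e i) • (QuotientAddGroup.mk (hz (ψ.symm R') i) : Coker (M' (ψ.symm R'))) := by
        rw [← e.sum_comp]
        refine sum_congr rfl fun i _ => ?_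
        simp [x]
      rw [h2, h1]
      constructor
      · rintro ⟨u, hu, h3⟩
        refine ⟨u, hu, fun i => ?_⟩
        have := h3 (e.symm i)
        rw [hψ] at this
        simpa using this
      · rintro ⟨u, hu, h3⟩
        exact ⟨u, hu, fun i => by rw [hψ]; exact h3 (e i)⟩) (by
      intro R' h p
      have h1 := (hR _ (h𝓡 _ (hmem R' h)).1 (h𝓡 _ (hmem R' h)).2).2.2.2.2.2.2.2.1
      rw [hxr R']
      have := hfin _ (hmem R' h)
      rw [h1, Nat.factorization_mul hD0.ne' (pow_ne_zero _ Nat.card_pos.ne'), Nat.factorization_pow]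
      simp) hPr ((sum_fact_le Pr hPr D hD0.ne').trans
        (Real.logb_le_logb_of_le (by norm_num) (by exact_mod_cast hD0) (by exact_mod_cast hDle))) (by
      intro p hp i R'
      have h1 := hkzf n β (matZ b) F y a z hdet ha hKZ p (hPr p hp) ((Finset.Iio i).image R') (hT i R')
      simpa only [hTi] using h1) (by
      intro i R' hex
      have h1 := hcon n β b F X hdet hX hF ((Finset.Iio i).image R') (R' i) (hT i R')
        (by obtain ⟨u, hu, h0, hne⟩ := hex; exact ⟨u, hu, (hTi i R' u).2 h0, hne⟩)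
      obtain ⟨u, hu, h0, hne, hle⟩ := h1
      refine ⟨u, hu, (hTi i R' u).1 h0, hne, ?_⟩
      apply Real.logb_le_logb_of_le (by norm_num)
      · rw [abs_pos]
        exact_mod_cast hne
      · have h3 : ((|u (R' i)| : ℤ) : ℝ) ≤ ((Nb : ℤ) : ℝ) := by exact_mod_cast hle
        simpa using h3)
  set Wh : ℝ := ((Fintype.card β : ℝ) + 1) * ((Real.logb 2 (matZ b).det.natAbs + 2 * Fintype.card β * (Fintype.card β * a) * y * Real.logb 2 (y + 1)) *
      ((1 / 2) ^ s * (Fintype.card β * z / n) + (Fintype.card β * z / n) ^ 2) +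
      2 * (Fintype.card β * Real.logb 2 (Nb : ℝ)) *
        ((1 / 2) ^ s * (Fintype.card β * z / n) + Fintype.card β * (Fintype.card β * z / n) ^ 2)) with hWh
  have hy1 : 0 ≤ Real.logb 2 ((y : ℝ) + 1) := by
    have := logb_nat_nonneg (y + 1) (by omega)
    push_cast at this
    exact this
  have hWh0 : 0 ≤ Wh := by
    rw [hWh]
    positivity
  have hH : ∑ R ∈ 𝓡', ∑ c : Fin s → Fin (Fintype.card β) → Bool, ∑ p ∈ Pr, cst (Fintype.card β) p (if y ≤ p then 0 else Fintype.card β * (a - 1))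
      (AddSubgroup.closure (Set.range fun t : Fin s => ∑ i, if c t i then x R i else 0)) (AddSubgroup.closure (Set.range (x R))) ≤
      (n : ℝ) ^ Fintype.card β * 2 ^ (s * Fintype.card β) * Wh := by
    refine H.trans (le_of_eq ?_)
    rw [hWh]
    ring
  have hex : ∃ R' ∈ 𝓡', ∃ c : Fin s → Fin (Fintype.card β) → Bool, ∑ p ∈ Pr, cst (Fintype.card β) p (if y ≤ p then 0 else Fintype.card β * (a - 1))
      (AddSubgroup.closure (Set.range fun t : Fin s => ∑ i, if c t i then x R' i else 0)) (AddSubgroup.closure (Set.range (x R'))) ≤ W := by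
    by_contra hcon'
    push Not at hcon'
    have hc𝓡 : 𝓡'.card = 𝓡.card := card_map _
    have hnpos : (0 : ℝ) < (n : ℝ) ^ Fintype.card β := by positivity
    have hpos : (0 : ℝ) < 𝓡'.card := by
      rw [hc𝓡]
      linarith
    have hne : 𝓡'.Nonempty := by
      rw [← card_pos]
      exact_mod_cast hpos
    have h1 : ∑ R ∈ 𝓡', ∑ _c : Fin s → Fin (Fintype.card β) → Bool, W <
        ∑ R ∈ 𝓡', ∑ c : Fin s → Fin (Fintype.card β) → Bool, ∑ p ∈ Pr, cst (Fintype.card β) p (if y ≤ p then 0 else Fintype.card β * (a - 1))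
      (AddSubgroup.closure (Set.range fun t : Fin s => ∑ i, if c t i then x R i else 0)) (AddSubgroup.closure (Set.range (x R))) := by
      refine sum_lt_sum_of_nonempty hne fun R hRm => ?_
      exact sum_lt_sum_of_nonempty univ_nonempty fun c _ => hcon' R hRm c
    have h2 := h1.trans_le hH
    have h3 : ∑ R ∈ 𝓡', ∑ _c : Fin s → Fin (Fintype.card β) → Bool, W = 𝓡'.card * (2 ^ (s * Fintype.card β) * W) := by
      simp only [sum_const, card_univ, Fintype.card_pi, Fintype.card_bool, prod_const, Fintype.card_fin, nsmul_eq_mul]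
      push_cast
      rw [← pow_mul, mul_comm (Fintype.card β) s]
    rw [h3, hc𝓡] at h2
    have h4 : (2 : ℝ) ^ (s * Fintype.card β) * (2 * Wh) ≤ 2 ^ (s * Fintype.card β) * W :=
      mul_le_mul_of_nonneg_left hW (by positivity)
    have h5 : (𝓡.card : ℝ) * (2 ^ (s * Fintype.card β) * (2 * Wh)) ≤ 𝓡.card * (2 ^ (s * Fintype.card β) * W) :=
      mul_le_mul_of_nonneg_left h4 (by positivity)
    have h6 : (n : ℝ) ^ Fintype.card β * (2 ^ (s * Fintype.card β) * Wh) ≤ 2 * 𝓡.card * (2 ^ (s * Fintype.card β) * Wh) :=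
      mul_le_mul_of_nonneg_right hcard (by positivity)
    nlinarith
  obtain ⟨R', hR', c', hc'⟩ := hex
  have hRm := hmem R' hR'
  obtain ⟨g1, g2, g3, g4, g5, g6, -, -, g9⟩ := hR _ (h𝓡 _ hRm).1 (h𝓡 _ hRm).2
  refine ⟨ψ.symm R', hRm, M' (ψ.symm R'), g2, hz (ψ.symm R'), g1, g3, g4, g5, g6, g9, fun t i => c' t (e i), ?_⟩
  intro hf
  have hcl : (fun t : Fin s => (QuotientAddGroup.mk (fun j => ∑ i, if c' t (e i) then hz (ψ.symm R') i j else 0) : Coker (M' (ψ.symm R')))) =
      fun t : Fin s => ∑ i, if c' t i then x R' i else 0 := by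
    funext t
    have h1 : (fun j => ∑ i, if c' t (e i) then hz (ψ.symm R') i j else 0) = ∑ i, if c' t (e i) then hz (ψ.symm R') i else 0 := by
      funext j
      rw [Finset.sum_apply]
      refine sum_congr rfl fun i _ => ?_
      split_ifs <;> rfl
    rw [h1]
    have h2 := map_sum (QuotientAddGroup.mk' (lat (M' (ψ.symm R')))) (fun i => if c' t (e i) then hz (ψ.symm R') i else 0) univ
    refine h2.trans ?_
    rw [← e.sum_comp]
    refine sum_congr rfl fun i _ => ?_
    split_ifs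
    · simp [x]
    · exact map_zero _
  rw [hcl, ← hxr R']
  refine le_trans ?_ hc'
  refine sum_le_sum_of_subset_of_nonneg (fun p hp => mem_biUnion.2 ⟨_, hRm, hp⟩) fun p hp hnp => ?_
  refine cst_nonneg_of (hPr p hp) (fun hd => hnp (Nat.mem_primeFactors.2 ⟨hPr p hp, hd, Nat.card_pos.ne'⟩)) _ _ _ _

end Vale.Agent.P160.Half.N7H679
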