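import Vale.Agent.P160.RD.SwapB304

/-!
# P160, block (M), leaf M/RQ-G: the swap lemma with the sharp constant

For a rational subspace `V` of codimension `r` and `0 < m ≤ 1/3`:
`P_{1/2}(x ∈ V)^2 (27/8 (1-m)^2)^r ≤ P_m(x ∈ V)^2`, `P_m` the law `(1-m, m/2, m/2)` of `0, 1, -1`.
-/

namespace Vale.Agent.P160.Half.GapG770

open Finset Module
open Vale.Agent.P160.RD.Swap304 (val vec addChar_sum' norm_addChar' add_inv' mul_inv' inv_eq_conj'
  val_0 val_1 val_2 val_bound exists_group abs_re_le')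

/-- law `(1-m, m/2, m/2)` -/
noncomputable def wm (m : ℝ) (b : Fin 3) : ℝ := if b = 0 then 1 - m else m / 2

/-- product weight -/
noncomputable def wt (m : ℝ) {k : ℕ} (x : Fin k → Fin 3) : ℝ := ∏ i, wm m (x i)

theorem wm_0 (m : ℝ) : wm m 0 = 1 - m := by simp [wm]
theorem wm_1 (m : ℝ) : wm m 1 = m / 2 := by simp [wm]
theorem wm_2 (m : ℝ) : wm m 2 = m / 2 := by
  unfold wm; rw [if_neg (by decide)]

theorem wm_nonneg {m : ℝ} (h0 : 0 ≤ m) (h1 : m ≤ 1) (b : Fin 3) : 0 ≤ wm m b := by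
  unfold wm; split_ifs <;> linarith

theorem wt_nonneg {m : ℝ} (h0 : 0 ≤ m) (h1 : m ≤ 1) {k : ℕ} (x : Fin k → Fin 3) : 0 ≤ wt m x :=
  prod_nonneg fun _ _ => wm_nonneg h0 h1 _

/-- characteristic function -/
noncomputable def ph (m : ℝ) (z : ℂ) : ℝ := 1 - m + m * z.re

theorem ph_pos {m : ℝ} (h0 : 0 < m) (h1 : m < 1 / 2) {z : ℂ} (hz : ‖z‖ = 1) : 0 < ph m z := by
  have h := abs_le.1 (abs_re_le' hz)
  unfold ph
  nlinarith

theorem lf0 (m : ℝ) {z : ℂ} (hz : ‖z‖ = 1) :
    ∑ b, (wm m b : ℂ) * z ^ (val b) = ((ph m z : ℝ) : ℂ) := by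
  have h := add_inv' hz
  rw [Fin.sum_univ_three, wm_0, wm_1, wm_2, val_0, val_1, val_2, zpow_zero, zpow_one, zpow_neg_one]
  unfold ph
  push_cast
  linear_combination (m / 2 : ℂ) * h

theorem sub_inv' {z : ℂ} (hz : ‖z‖ = 1) : z - z⁻¹ = 2 * Complex.I * (z.im : ℂ) := by
  rw [inv_eq_conj' hz, Complex.sub_conj]
  push_cast
  ring

theorem lf1 (m : ℝ) {z : ℂ} (hz : ‖z‖ = 1) :
    ∑ b, (wm m b : ℂ) * ((val b : ℤ) : ℂ) * z ^ (val b) = Complex.I * m * (z.im : ℂ) := by
  have h := sub_inv' hz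
  rw [Fin.sum_univ_three, wm_0, wm_1, wm_2, val_0, val_1, val_2, zpow_zero, zpow_one, zpow_neg_one]
  push_cast
  linear_combination (m / 2 : ℂ) * h

/-- the test function `1/(1-m)` at 0, `-1/m` at `±1` -/
noncomputable def gq (m : ℝ) (b : Fin 3) : ℝ := if b = 0 then 1 / (1 - m) else -1 / m

theorem lf2 {m : ℝ} (h0 : 0 < m) (h1 : m < 1 / 2) {z : ℂ} (hz : ‖z‖ = 1) :
    ∑ b, (wm m b : ℂ) * ((gq m b : ℝ) : ℂ) * z ^ (val b) = ((1 - z.re : ℝ) : ℂ) := by
  have h := add_inv' hz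
  have e0 : wm m 0 * gq m 0 = 1 := by
    rw [wm_0]; simp only [gq, if_true]; field_simp [show (1 - m) ≠ 0 by linarith]
  have e1 : wm m 1 * gq m 1 = -1 / 2 := by
    rw [wm_1]; simp only [gq]; rw [if_neg (by decide)]; field_simp
  have e2 : wm m 2 * gq m 2 = -1 / 2 := by
    rw [wm_2]; simp only [gq]; rw [if_neg (by decide)]; field_simp
  have c0 : (wm m 0 : ℂ) * ((gq m 0 : ℝ) : ℂ) = 1 := by exact_mod_cast congrArg (fun t : ℝ => (t : ℂ)) e0
  have c1 : (wm m 1 : ℂ) * ((gq m 1 : ℝ) : ℂ) = -1 / 2 := by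
    have := congrArg (fun t : ℝ => (t : ℂ)) e1
    push_cast at this; exact this
  have c2 : (wm m 2 : ℂ) * ((gq m 2 : ℝ) : ℂ) = -1 / 2 := by
    have := congrArg (fun t : ℝ => (t : ℂ)) e2
    push_cast at this; exact this
  rw [Fin.sum_univ_three, c0, c1, c2, val_0, val_1, val_2, zpow_zero, zpow_one, zpow_neg_one]
  push_cast
  linear_combination (-1 / 2 : ℂ) * h

section fourier

variable {G : Type} [AddCommGroup G] [Fintype G] [DecidableEq G]

theorem fourierC {k : ℕ} (w : Fin k → Fin 3 → ℂ) (c : Fin k → G) :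
    (Fintype.card G : ℂ) *
        (∑ x : Fin k → Fin 3, if ∑ i, val (x i) • c i = 0 then ∏ i, w i (x i) else 0) =
      ∑ ψ : AddChar G ℂ, ∏ i, ∑ b, w i b * (ψ (c i)) ^ (val b) := by
  have h1 : ∀ ψ : AddChar G ℂ, (∏ i, ∑ b, w i b * (ψ (c i)) ^ (val b)) =
      ∑ x : Fin k → Fin 3, (∏ i, w i (x i)) * ψ (∑ i, val (x i) • c i) := by
    intro ψ
    have h2 := Finset.prod_univ_sum (fun _ : Fin k => (univ : Finset (Fin 3)))
      (fun i b => w i b * (ψ (c i)) ^ (val b))
    rw [Fintype.piFinset_univ] at h2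
    rw [h2]
    refine sum_congr rfl fun x _ => ?_
    rw [prod_mul_distrib, addChar_sum']
    congr 1
    refine prod_congr rfl fun i _ => ?_
    rw [AddChar.map_zsmul_eq_zpow]
  simp only [h1]
  rw [sum_comm, mul_sum]
  refine sum_congr rfl fun x _ => ?_
  rw [← mul_sum, AddChar.sum_apply_eq_ite]
  by_cases hx : ∑ i, val (x i) • c i = 0
  · rw [if_pos hx, if_pos hx]; ring
  · rw [if_neg hx, if_neg hx]; simp

theorem modF {k : ℕ} (m : ℝ) (c : Fin k → G) (f : Fin k → Fin 3 → ℂ)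
    (h : Fin k → AddChar G ℂ → ℂ)
    (hfh : ∀ i (ψ : AddChar G ℂ), ∑ b, (wm m b : ℂ) * f i b * (ψ (c i)) ^ (val b) =
      ((ph m (ψ (c i)) : ℝ) : ℂ) * h i ψ) :
    (Fintype.card G : ℂ) *
        (∑ x : Fin k → Fin 3, if ∑ i, val (x i) • c i = 0
          then ((wt m x : ℝ) : ℂ) * ∏ i, f i (x i) else 0) =
      ∑ ψ : AddChar G ℂ, ((∏ i, ph m (ψ (c i)) : ℝ) : ℂ) * ∏ i, h i ψ := by
  have h1 := fourierC (fun i b => (wm m b : ℂ) * f i b) c
  have e1 : (∑ x : Fin k → Fin 3, if ∑ i, val (x i) • c i = 0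
          then ((wt m x : ℝ) : ℂ) * ∏ i, f i (x i) else 0) =
      ∑ x : Fin k → Fin 3, if ∑ i, val (x i) • c i = 0
        then ∏ i, ((wm m (x i) : ℂ) * f i (x i)) else 0 := by
    refine sum_congr rfl fun x _ => ?_
    rw [prod_mul_distrib]
    simp [wt, Complex.ofReal_prod]
  rw [e1, h1]
  refine sum_congr rfl fun ψ _ => ?_
  rw [prod_congr rfl fun i _ => hfh i ψ, prod_mul_distrib, Complex.ofReal_prod]

end fourier

/-! ### an orthonormal family orthogonal to `V` -/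

theorem exists_onb {k : ℕ} (V : Submodule ℚ (Fin k → ℚ)) :
    ∃ (n : ℕ) (u : Fin n → Fin k → ℝ), k - finrank ℚ V ≤ n ∧
      (∀ a, ∑ i, u a i ^ 2 = 1) ∧
      (∀ h : Fin k → ℝ, ∑ a, (∑ i, u a i * h i) ^ 2 ≤ ∑ i, h i ^ 2) ∧
      (∀ a (y : Fin k → ℚ), y ∈ V → ∑ i, u a i * (y i : ℝ) = 0) := by
  classical
  let b := Module.finBasis ℚ V
  let vr : Fin (finrank ℚ V) → EuclideanSpace ℝ (Fin k) :=
    fun j => WithLp.toLp 2 (fun i => (((b j : Fin k → ℚ) i : ℚ) : ℝ))
  let U : Submodule ℝ (EuclideanSpace ℝ (Fin k)) := Submodule.span ℝ (Set.range vr)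
  have hU : finrank ℝ U ≤ finrank ℚ V := by
    have := finrank_range_le_card (R := ℝ) vr
    simpa [Set.finrank] using this
  have hW : finrank ℝ U + finrank ℝ Uᗮ = k := by
    rw [Submodule.finrank_add_finrank_orthogonal]
    simp
  let o := stdOrthonormalBasis ℝ Uᗮ
  have ho : Orthonormal ℝ (fun a => ((o a : Uᗮ) : EuclideanSpace ℝ (Fin k))) :=
    o.orthonormal.comp_linearIsometry Uᗮ.subtypeₗᵢ
  refine ⟨finrank ℝ Uᗮ, fun a i => ((o a : Uᗮ) : EuclideanSpace ℝ (Fin k)) i, by omega, ?_, ?_, ?_⟩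
  · intro a
    have h1 := ho.1 a
    have h2 := EuclideanSpace.norm_sq_eq ((o a : Uᗮ) : EuclideanSpace ℝ (Fin k))
    rw [h1] at h2
    simp only [Real.norm_eq_abs, sq_abs] at h2
    linarith
  · intro h
    have h1 := ho.sum_inner_products_le (WithLp.toLp 2 h : EuclideanSpace ℝ (Fin k)) (s := univ)
    rw [EuclideanSpace.norm_sq_eq] at h1
    simp only [Real.norm_eq_abs, sq_abs] at h1
    refine le_trans (le_of_eq ?_) h1
    refine sum_congr rfl fun a _ => ?_
    rw [PiLp.inner_apply]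
    congr 1
    refine sum_congr rfl fun i _ => ?_
    simp [mul_comm]
  · intro a y hy
    have hmem : (WithLp.toLp 2 (fun i => (y i : ℝ)) : EuclideanSpace ℝ (Fin k)) ∈ U := by
      have h1 := b.sum_repr ⟨y, hy⟩
      have h2 : (WithLp.toLp 2 (fun i => (y i : ℝ)) : EuclideanSpace ℝ (Fin k)) =
          ∑ j, ((b.repr ⟨y, hy⟩ j : ℚ) : ℝ) • vr j := by
        ext i
        have h3 := congrFun (congrArg Subtype.val h1) i
        rw [Submodule.coe_sum] at h3
        rw [Finset.sum_apply] at h3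
        have h4 : y i = ∑ j, (b.repr ⟨y, hy⟩ j) * ((b j : Fin k → ℚ) i) := by
          have h3' := h3.symm
          simpa using h3'
        have h5 : ((y i : ℚ) : ℝ) = ∑ j, ((b.repr ⟨y, hy⟩ j : ℚ) : ℝ) * (((b j : Fin k → ℚ) i : ℚ) : ℝ) := by
          conv_lhs => rw [h4]
          push_cast
          rfl
        simp [vr, h5]
      rw [h2]
      exact Submodule.sum_mem _ fun j _ => Submodule.smul_mem _ _ (Submodule.subset_span ⟨j, rfl⟩)
    have h6 := Submodule.inner_left_of_mem_orthogonal hmem (o a).2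
    rw [PiLp.inner_apply] at h6
    rw [← h6]
    refine sum_congr rfl fun i _ => ?_
    simp [mul_comm]

/-! ### the main inequality -/

open Classical in
/-- measure of `V` -/
noncomputable def Fm {k : ℕ} (V : Submodule ℚ (Fin k → ℚ)) (m : ℝ) : ℝ :=
  ∑ x : Fin k → Fin 3, if vec x ∈ V then wt m x else 0

open Classical in
/-- second moments -/
noncomputable def Tm {k : ℕ} (V : Submodule ℚ (Fin k → ℚ)) (m : ℝ) (i l : Fin k) : ℝ :=
  ∑ x : Fin k → Fin 3, if vec x ∈ V
    then wt m x * (((val (x i) : ℤ) : ℝ) * ((val (x l) : ℤ) : ℝ)) else 0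

/-- `Im z / φ` -/
noncomputable def yy (m : ℝ) (z : ℂ) : ℝ := z.im / ph m z

theorem gq_eq {m : ℝ} (h0 : 0 < m) (h1 : m < 1 / 2) (b : Fin 3) :
    gq m b = (m - ((val b : ℤ) : ℝ) ^ 2) / (m * (1 - m)) := by
  have h2 : (1 - m) ≠ 0 := by linarith
  have h3 : m ≠ 0 := h0.ne'
  fin_cases b
  · show gq m 0 = (m - ((val 0 : ℤ) : ℝ) ^ 2) / (m * (1 - m))
    rw [val_0]; simp only [gq, if_true]; push_cast; field_simp; ring
  · show gq m 1 = (m - ((val 1 : ℤ) : ℝ) ^ 2) / (m * (1 - m))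
    rw [val_1]; simp only [gq]; rw [if_neg (by decide)]; push_cast; field_simp; ring
  · show gq m 2 = (m - ((val 2 : ℤ) : ℝ) ^ 2) / (m * (1 - m))
    rw [val_2]; simp only [gq]; rw [if_neg (by decide)]; push_cast; field_simp; ring

section group

variable {G : Type} [AddCommGroup G] [Fintype G] [DecidableEq G]

theorem F0 {k : ℕ} (V : Submodule ℚ (Fin k → ℚ)) (c : Fin k → G)
    (hc : ∀ x : Fin k → Fin 3, ∑ i, val (x i) • c i = 0 ↔ vec x ∈ V) (m : ℝ) :
    (Fintype.card G : ℝ) * Fm V m = ∑ ψ : AddChar G ℂ, ∏ i, ph m (ψ (c i)) := by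
  classical
  have h := modF m c (fun _ _ => 1) (fun _ _ => 1) (by
    intro i ψ
    simp only [mul_one]
    exact lf0 m (norm_addChar' ψ _))
  simp only [prod_const_one, mul_one, hc] at h
  apply Complex.ofReal_injective
  unfold Fm
  push_cast
  push_cast at h
  rw [← h]
  congr 1
  refine sum_congr rfl fun x _ => ?_
  by_cases hx : vec x ∈ V
  · simp [hx]
  · simp [hx]

theorem F1 {k : ℕ} (V : Submodule ℚ (Fin k → ℚ)) (c : Fin k → G)
    (hc : ∀ x : Fin k → Fin 3, ∑ i, val (x i) • c i = 0 ↔ vec x ∈ V) {m : ℝ} (h0 : 0 < m)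
    (h1 : m < 1 / 2) (i : Fin k) :
    (Fintype.card G : ℝ) * ((m * Fm V m - Tm V m i i) / (m * (1 - m))) =
      ∑ ψ : AddChar G ℂ, (∏ j, ph m (ψ (c j))) * ((1 - (ψ (c i)).re) / ph m (ψ (c i))) := by
  classical
  have h := modF m c (fun j b => if j = i then ((gq m b : ℝ) : ℂ) else 1)
    (fun j ψ => if j = i then (((1 - (ψ (c j)).re) / ph m (ψ (c j)) : ℝ) : ℂ) else 1) (by
    intro j ψ
    by_cases hj : j = i
    · simp only [hj, if_true]
      rw [lf2 h0 h1 (norm_addChar' ψ _)]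
      have h2 := (ph_pos h0 h1 (norm_addChar' ψ (c i))).ne'
      rw [← Complex.ofReal_mul]
      congr 1
      field_simp
    · simp only [if_neg hj, mul_one]
      exact lf0 m (norm_addChar' ψ _))
  simp only [prod_ite_eq', mem_univ, if_true, hc] at h
  have e : (m * Fm V m - Tm V m i i) / (m * (1 - m)) =
      ∑ x : Fin k → Fin 3, if vec x ∈ V then wt m x * gq m (x i) else 0 := by
    unfold Fm Tm
    rw [mul_sum, ← sum_sub_distrib, sum_div]
    refine sum_congr rfl fun x _ => ?_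
    by_cases hx : vec x ∈ V
    · rw [if_pos hx, if_pos hx, if_pos hx, gq_eq h0 h1]; ring
    · rw [if_neg hx, if_neg hx, if_neg hx]; simp
  rw [e]
  apply Complex.ofReal_injective
  rw [Complex.ofReal_mul, Complex.ofReal_sum, Complex.ofReal_sum]
  rw [Complex.ofReal_natCast]
  have e2 : ∑ x : Fin k → Fin 3, (((if vec x ∈ V then wt m x * gq m (x i) else 0 : ℝ)) : ℂ) =
      ∑ x : Fin k → Fin 3, if vec x ∈ V then ((wt m x : ℝ) : ℂ) * ((gq m (x i) : ℝ) : ℂ) else 0 := by
    refine sum_congr rfl fun x _ => ?_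
    by_cases hx : vec x ∈ V
    · rw [if_pos hx, if_pos hx, Complex.ofReal_mul]
    · rw [if_neg hx, if_neg hx, Complex.ofReal_zero]
  rw [e2, h]
  refine sum_congr rfl fun ψ _ => ?_
  rw [Complex.ofReal_mul]

theorem F2 {k : ℕ} (V : Submodule ℚ (Fin k → ℚ)) (c : Fin k → G)
    (hc : ∀ x : Fin k → Fin 3, ∑ i, val (x i) • c i = 0 ↔ vec x ∈ V) {m : ℝ} (h0 : 0 < m)
    (h1 : m < 1 / 2) {i l : Fin k} (hil : i ≠ l) :
    (Fintype.card G : ℝ) * Tm V m i l =
      -(m ^ 2 * ∑ ψ : AddChar G ℂ, (∏ j, ph m (ψ (c j))) * (yy m (ψ (c i)) * yy m (ψ (c l)))) := by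
  classical
  have hli : l ≠ i := fun h => hil h.symm
  have h := modF m c
    (fun j b => (if j = i then (((val b : ℤ) : ℂ)) else 1) * (if j = l then (((val b : ℤ) : ℂ)) else 1))
    (fun j ψ => (if j = i then Complex.I * m * ((yy m (ψ (c j)) : ℝ) : ℂ) else 1) *
      (if j = l then Complex.I * m * ((yy m (ψ (c j)) : ℝ) : ℂ) else 1)) (by
    intro j ψ
    have key : ∀ g : G, Complex.I * m * ((ψ g).im : ℂ) =
        ((ph m (ψ g) : ℝ) : ℂ) * (Complex.I * m * ((yy m (ψ g) : ℝ) : ℂ)) := by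
      intro g
      have h2 := (ph_pos h0 h1 (norm_addChar' ψ g)).ne'
      have h3 : (ψ g).im = ph m (ψ g) * yy m (ψ g) := by
        unfold yy; field_simp
      conv_lhs => rw [h3]
      push_cast
      ring
    by_cases hj : j = i
    · subst hj
      simp only [if_true, if_neg hil, mul_one]
      rw [lf1 m (norm_addChar' ψ _), key]
    · by_cases hj2 : j = l
      · subst hj2
        simp only [if_true, if_neg hj, one_mul]
        rw [lf1 m (norm_addChar' ψ _), key]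
      · simp only [if_neg hj, if_neg hj2, mul_one]
        exact lf0 m (norm_addChar' ψ _))
  simp only [prod_mul_distrib, prod_ite_eq', mem_univ, if_true, hc] at h
  apply Complex.ofReal_injective
  unfold Tm
  rw [Complex.ofReal_mul, Complex.ofReal_sum, Complex.ofReal_natCast]
  have e2 : ∑ x : Fin k → Fin 3, (((if vec x ∈ V
      then wt m x * (((val (x i) : ℤ) : ℝ) * ((val (x l) : ℤ) : ℝ)) else 0 : ℝ)) : ℂ) =
      ∑ x : Fin k → Fin 3, if vec x ∈ V then ((wt m x : ℝ) : ℂ) *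
        (((val (x i) : ℤ) : ℂ) * ((val (x l) : ℤ) : ℂ)) else 0 := by
    refine sum_congr rfl fun x _ => ?_
    by_cases hx : vec x ∈ V
    · rw [if_pos hx, if_pos hx]; push_cast; ring
    · rw [if_neg hx, if_neg hx, Complex.ofReal_zero]
  rw [e2, h, Complex.ofReal_neg, Complex.ofReal_mul, Complex.ofReal_sum, mul_sum, ← sum_neg_distrib]
  refine sum_congr rfl fun ψ _ => ?_
  push_cast
  linear_combination ((∏ j, ((ph m (ψ (c j)) : ℝ) : ℂ)) * m ^ 2 * ((yy m (ψ (c i)) : ℝ) : ℂ) *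
    ((yy m (ψ (c l)) : ℝ) : ℂ)) * Complex.I_sq

end group

theorem yy_sq_le {m : ℝ} (h0 : 0 < m) (h1 : m < 1 / 2) {z : ℂ} (hz : ‖z‖ = 1) :
    yy m z ^ 2 ≤ 2 * ((1 - z.re) / ph m z) := by
  have hp := ph_pos h0 h1 hz
  have h2 : z.re ^ 2 + z.im ^ 2 = 1 := by
    have := Complex.sq_norm z
    rw [hz, Complex.normSq_apply] at this
    nlinarith
  have h3 := abs_le.1 (abs_re_le' hz)
  unfold yy
  rw [div_pow, ← mul_div_assoc, div_le_div_iff₀ (by positivity) hp]
  have h4 : z.im ^ 2 ≤ 2 * (1 - z.re) * ph m z := by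
    unfold ph
    nlinarith [mul_nonneg (sub_nonneg.2 h3.2) (sub_nonneg.2 h3.2)]
  nlinarith

theorem quad {X : Type*} [Fintype X] {k : ℕ} (w : X → ℝ) (y : X → Fin k → ℝ) (a : Fin k → ℝ) :
    ∑ i, ∑ l, a i * a l * (∑ x, w x * (y x i * y x l)) = ∑ x, w x * (∑ i, a i * y x i) ^ 2 := by
  have e : ∀ x, w x * (∑ i, a i * y x i) ^ 2 = ∑ i, ∑ l, a i * a l * (w x * (y x i * y x l)) := by
    intro x
    rw [sq, sum_mul_sum, mul_sum]
    refine sum_congr rfl fun i _ => ?_
    rw [mul_sum]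
    exact sum_congr rfl fun l _ => by ring
  symm
  simp only [e]
  rw [sum_comm]
  refine sum_congr rfl fun i _ => ?_
  rw [sum_comm]
  exact sum_congr rfl fun l _ => by rw [mul_sum]

theorem Fm_nonneg {k : ℕ} (V : Submodule ℚ (Fin k → ℚ)) {m : ℝ} (h0 : 0 ≤ m) (h1 : m ≤ 1) :
    0 ≤ Fm V m := sum_nonneg fun x _ => by
  split_ifs
  · exact wt_nonneg h0 h1 x
  · exact le_refl _

theorem main_ineq {k : ℕ} (V : Submodule ℚ (Fin k → ℚ)) {m : ℝ} (h0 : 0 < m) (h1 : m < 1 / 2)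
    {K : ℝ} (hK1 : 1 ≤ K) (hK2 : 2 * m / (1 - m) ≤ K) :
    m * ((k - finrank ℚ V : ℕ) : ℝ) * Fm V m ≤ K * ∑ i, (m * Fm V m - Tm V m i i) := by
  classical
  obtain ⟨G, _, _, _, c, hc0⟩ := exists_group V
  have hc : ∀ x : Fin k → Fin 3, ∑ i, val (x i) • c i = 0 ↔ vec x ∈ V :=
    fun x => hc0 (fun i => val (x i)) (fun i => val_bound _)
  obtain ⟨n, u, hn, hu1, hu2, hu3⟩ := exists_onb V
  have hg : (0 : ℝ) < Fintype.card G := by exact_mod_cast Fintype.card_pos
  have hF0 : 0 ≤ Fm V m := Fm_nonneg V h0.le (by linarith)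
  have hF1 := F1 V c hc h0 h1
  have hF2 := fun {i l : Fin k} (h : i ≠ l) => F2 V c hc h0 h1 h
  set g : ℝ := (Fintype.card G : ℝ) with hgdef
  set F := Fm V m with hF
  let S : Fin k → ℝ := fun i => Tm V m i i
  let D : AddChar G ℂ → ℝ := fun ψ => ∏ j, ph m (ψ (c j))
  let Y : AddChar G ℂ → Fin k → ℝ := fun ψ i => yy m (ψ (c i))
  have hD : ∀ ψ, 0 < D ψ := fun ψ => prod_pos fun j _ => ph_pos h0 h1 (norm_addChar' ψ _)
  let A : Fin k → Fin k → ℝ := fun i l => ∑ ψ, D ψ * (Y ψ i * Y ψ l)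
  let B : Fin k → ℝ := fun i => m ^ 2 / g * A i i
  have hm1 : 0 < 1 - m := by linarith
  have hpos : ∀ i, 0 ≤ m * F - S i := by
    intro i
    have h2 : 0 ≤ g * ((m * F - S i) / (m * (1 - m))) := by
      rw [hF1 i]
      exact sum_nonneg fun ψ _ => mul_nonneg (hD ψ).le (div_nonneg (by
        have := abs_le.1 (abs_re_le' (norm_addChar' ψ (c i)))
        linarith) (ph_pos h0 h1 (norm_addChar' ψ _)).le)
    have h3 : 0 ≤ (m * F - S i) / (m * (1 - m)) := by
      by_contra hneg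
      push Not at hneg
      nlinarith
    have h4 : 0 < m * (1 - m) := by positivity
    by_contra hneg
    push Not at hneg
    have := div_neg_of_neg_of_pos hneg h4
    linarith
  have hA : ∀ i, A i i ≤ 2 * (g * ((m * F - S i) / (m * (1 - m)))) := by
    intro i
    rw [hF1 i, mul_sum]
    refine sum_le_sum fun ψ _ => ?_
    have h2 := yy_sq_le h0 h1 (norm_addChar' ψ (c i))
    have h3 := mul_le_mul_of_nonneg_left h2 (hD ψ).le
    show D ψ * (yy m (ψ (c i)) * yy m (ψ (c i))) ≤ 2 * (D ψ * _)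
    nlinarith
  have hB : ∀ i, B i ≤ 2 * m / (1 - m) * (m * F - S i) := by
    intro i
    have h2 : m ^ 2 / g * A i i ≤ m ^ 2 / g * (2 * (g * ((m * F - S i) / (m * (1 - m))))) :=
      mul_le_mul_of_nonneg_left (hA i) (by positivity)
    refine h2.trans (le_of_eq ?_)
    field_simp
  have hB0 : ∀ i, 0 ≤ B i := fun i => mul_nonneg (by positivity)
    (sum_nonneg fun ψ _ => mul_nonneg (hD ψ).le (mul_self_nonneg _))
  have hrow : ∀ a, ∑ i, u a i ^ 2 * (S i + B i) = m ^ 2 / g * ∑ ψ, D ψ * (∑ i, u a i * Y ψ i) ^ 2 := by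
    intro a
    have hT : ∑ i, ∑ l, u a i * u a l * Tm V m i l = 0 := by
      have h2 := quad (fun x : Fin k → Fin 3 => if vec x ∈ V then wt m x else 0)
        (fun x i => ((val (x i) : ℤ) : ℝ)) (u a)
      have h3 : ∀ i l, Tm V m i l = ∑ x : Fin k → Fin 3, (if vec x ∈ V then wt m x else 0) *
          (((val (x i) : ℤ) : ℝ) * ((val (x l) : ℤ) : ℝ)) := by
        intro i l
        unfold Tm
        refine sum_congr rfl fun x _ => ?_
        by_cases hx : vec x ∈ V
        · rw [if_pos hx, if_pos hx]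
        · rw [if_neg hx, if_neg hx]; simp
      simp only [h3]
      rw [h2]
      apply sum_eq_zero
      intro x _
      by_cases hx : vec x ∈ V
      · have h4 := hu3 a (vec x) hx
        have h5 : ∑ i, u a i * ((val (x i) : ℤ) : ℝ) = 0 := by
          rw [← h4]
          refine sum_congr rfl fun i _ => ?_
          simp [vec]
        rw [h5]; simp
      · rw [if_neg hx]; simp
    have hAq : ∑ i, ∑ l, u a i * u a l * A i l = ∑ ψ, D ψ * (∑ i, u a i * Y ψ i) ^ 2 :=
      quad D Y (u a)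
    have hdiag : ∑ i, ∑ l, u a i * u a l * (Tm V m i l + m ^ 2 / g * A i l) =
        ∑ i, u a i ^ 2 * (S i + B i) := by
      refine sum_congr rfl fun i _ => ?_
      rw [sum_eq_single i]
      · show u a i * u a i * (Tm V m i i + m ^ 2 / g * A i i) = u a i ^ 2 * (Tm V m i i + m ^ 2 / g * A i i)
        ring
      · intro l _ hl
        have h2 := hF2 (Ne.symm hl)
        have h3 : Tm V m i l + m ^ 2 / g * A i l = 0 := by
          have h4 : g * Tm V m i l = -(m ^ 2 * A i l) := h2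
          have h5 : Tm V m i l = -(m ^ 2 * A i l) / g := by
            rw [eq_div_iff hg.ne']; linarith
          rw [h5]; ring
        rw [h3, mul_zero]
      · intro h; exact absurd (mem_univ i) h
    rw [← hdiag, ← hAq]
    have h6 : ∑ i, ∑ l, u a i * u a l * (Tm V m i l + m ^ 2 / g * A i l) =
        (∑ i, ∑ l, u a i * u a l * Tm V m i l) + m ^ 2 / g * ∑ i, ∑ l, u a i * u a l * A i l := by
      rw [mul_sum, ← sum_add_distrib]
      refine sum_congr rfl fun i _ => ?_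
      rw [mul_sum, ← sum_add_distrib]
      exact sum_congr rfl fun l _ => by ring
    rw [h6, hT, zero_add]
  let p : Fin k → ℝ := fun i => ∑ a, u a i ^ 2
  have hp1 : ∀ i, p i ≤ 1 := by
    intro i
    have h2 := hu2 (Pi.single i 1)
    have h3 : ∀ a, ∑ j, u a j * (Pi.single i (1 : ℝ) : Fin k → ℝ) j = u a i := by
      intro a
      simp [Pi.single_apply]
    have h4 : ∑ j, (Pi.single i (1 : ℝ) : Fin k → ℝ) j ^ 2 = 1 := by
      simp [Pi.single_apply]
    rw [h4] at h2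
    simp only [h3] at h2
    exact h2
  have hp0 : ∀ i, 0 ≤ p i := fun i => sum_nonneg fun a _ => sq_nonneg _
  have hpn : ∑ i, p i = n := by
    show ∑ i, ∑ a, u a i ^ 2 = n
    rw [sum_comm]
    simp [hu1]
  have hsum : ∑ i, p i * (S i + B i) ≤ ∑ i, B i := by
    have e1 : ∑ i, p i * (S i + B i) = ∑ a, ∑ i, u a i ^ 2 * (S i + B i) := by
      rw [sum_comm]
      exact sum_congr rfl fun i _ => by rw [← sum_mul]
    rw [e1, sum_congr rfl fun a _ => hrow a, ← mul_sum, sum_comm]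
    have e2 : ∑ i, B i = m ^ 2 / g * ∑ ψ, D ψ * ∑ i, Y ψ i ^ 2 := by
      show ∑ i, m ^ 2 / g * ∑ ψ, D ψ * (Y ψ i * Y ψ i) = _
      rw [← mul_sum, sum_comm]
      congr 1
      refine sum_congr rfl fun ψ _ => ?_
      rw [mul_sum]
      exact sum_congr rfl fun i _ => by ring
    rw [e2]
    refine mul_le_mul_of_nonneg_left (sum_le_sum fun ψ _ => ?_) (by positivity)
    rw [← mul_sum]
    exact mul_le_mul_of_nonneg_left (hu2 (Y ψ)) (hD ψ).le
  have hnr : (((k - finrank ℚ V : ℕ) : ℝ)) ≤ n := by exact_mod_cast hn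
  have h2 : m * ((k - finrank ℚ V : ℕ) : ℝ) * F ≤ m * n * F := by
    refine mul_le_mul_of_nonneg_right ?_ hF0
    exact mul_le_mul_of_nonneg_left hnr h0.le
  refine h2.trans ?_
  have e3 : m * n * F = ∑ i, p i * (m * F) := by
    rw [← sum_mul, hpn]; ring
  have e4 : ∑ i, p i * (m * F) = ∑ i, p i * (S i + B i) + ∑ i, (p i * (m * F - S i) - p i * B i) := by
    rw [← sum_add_distrib]
    exact sum_congr rfl fun i _ => by ring
  rw [e3, e4]
  have h5 : ∑ i, p i * (S i + B i) + ∑ i, (p i * (m * F - S i) - p i * B i) ≤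
      ∑ i, B i + ∑ i, (p i * (m * F - S i) - p i * B i) := by linarith
  refine h5.trans ?_
  rw [← sum_add_distrib, mul_sum]
  refine sum_le_sum fun i _ => ?_
  have h6 := hB i
  have h7 := hpos i
  have h8 : B i ≤ K * (m * F - S i) := h6.trans (mul_le_mul_of_nonneg_right hK2 h7)
  have h9 : 0 ≤ 1 - p i := by linarith [hp1 i]
  have h10 : (1 - p i) * B i ≤ (1 - p i) * (K * (m * F - S i)) := mul_le_mul_of_nonneg_left h8 h9
  have h11 : p i * (m * F - S i) ≤ p i * (K * (m * F - S i)) := by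
    refine mul_le_mul_of_nonneg_left ?_ (hp0 i)
    nlinarith
  show B i + (p i * (m * F - S i) - p i * B i) ≤ K * (m * F - S i)
  nlinarith

/-! ### the derivative -/

/-- derivative of the entry weight -/
noncomputable def dw (b : Fin 3) : ℝ := if b = 0 then -1 else 1 / 2

theorem hasDerivAt_wm (b : Fin 3) (m : ℝ) : HasDerivAt (fun m => wm m b) (dw b) m := by
  unfold wm dw
  by_cases hb : b = 0
  · simp only [if_pos hb]
    simpa using (hasDerivAt_id m).const_sub 1
  · simp only [if_neg hb]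
    simpa using (hasDerivAt_id m).div_const 2

theorem dw_eq {m : ℝ} (h0 : 0 < m) (h1 : m < 1) (b : Fin 3) :
    dw b = wm m b * ((((val b : ℤ) : ℝ) ^ 2 - m) / (m * (1 - m))) := by
  have h2 : (1 - m) ≠ 0 := by linarith
  have h3 : m ≠ 0 := h0.ne'
  fin_cases b
  · show dw 0 = wm m 0 * ((((val 0 : ℤ) : ℝ) ^ 2 - m) / (m * (1 - m)))
    rw [val_0, wm_0]; simp only [dw, if_true]; push_cast; field_simp; ring
  · show dw 1 = wm m 1 * ((((val 1 : ℤ) : ℝ) ^ 2 - m) / (m * (1 - m)))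
    rw [val_1, wm_1]; simp only [dw]; rw [if_neg (by decide)]; push_cast; field_simp
  · show dw 2 = wm m 2 * ((((val 2 : ℤ) : ℝ) ^ 2 - m) / (m * (1 - m)))
    rw [val_2, wm_2]; simp only [dw]; rw [if_neg (by decide)]; push_cast; field_simp

theorem hasDerivAt_wt {k : ℕ} (x : Fin k → Fin 3) {m : ℝ} (h0 : 0 < m) (h1 : m < 1) :
    HasDerivAt (fun m => wt m x)
      (wt m x * ∑ i, ((((val (x i) : ℤ) : ℝ) ^ 2 - m) / (m * (1 - m)))) m := by
  have h := HasDerivAt.fun_finsetProd (u := (univ : Finset (Fin k)))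
    (f := fun i m => wm m (x i)) (f' := fun i => dw (x i)) (x := m)
    (fun i _ => hasDerivAt_wm (x i) m)
  refine h.congr_deriv ?_
  rw [mul_sum]
  refine sum_congr rfl fun i _ => ?_
  rw [smul_eq_mul, dw_eq h0 h1 (x i), ← mul_assoc]
  congr 1
  unfold wt
  rw [Finset.prod_erase_mul _ _ (mem_univ i)]

theorem hasDerivAt_Fm {k : ℕ} (V : Submodule ℚ (Fin k → ℚ)) {m : ℝ} (h0 : 0 < m) (h1 : m < 1) :
    HasDerivAt (Fm V) (-(∑ i, (m * Fm V m - Tm V m i i)) / (m * (1 - m))) m := by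
  classical
  have h : HasDerivAt (fun m => ∑ x : Fin k → Fin 3, if vec x ∈ V then wt m x else 0)
      (∑ x : Fin k → Fin 3, if vec x ∈ V then
        wt m x * ∑ i, ((((val (x i) : ℤ) : ℝ) ^ 2 - m) / (m * (1 - m))) else 0) m := by
    apply HasDerivAt.fun_sum
    intro x _
    by_cases hx : vec x ∈ V
    · simp only [if_pos hx]
      exact hasDerivAt_wt x h0 h1
    · simp only [if_neg hx]
      exact hasDerivAt_const m 0
  have e0 : Fm V = fun m => ∑ x : Fin k → Fin 3, if vec x ∈ V then wt m x else 0 := by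
    funext m; unfold Fm; rfl
  have e1 : (∑ x : Fin k → Fin 3, if vec x ∈ V then
        wt m x * ∑ i, ((((val (x i) : ℤ) : ℝ) ^ 2 - m) / (m * (1 - m))) else 0) =
      -(∑ i, (m * Fm V m - Tm V m i i)) / (m * (1 - m)) := by
    have e2 : ∀ i, m * Fm V m - Tm V m i i = ∑ x : Fin k → Fin 3, if vec x ∈ V then
        wt m x * (m - ((val (x i) : ℤ) : ℝ) ^ 2) else 0 := by
      intro i
      unfold Fm Tm
      rw [mul_sum, ← sum_sub_distrib]
      refine sum_congr rfl fun x _ => ?_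
      by_cases hx : vec x ∈ V
      · rw [if_pos hx, if_pos hx, if_pos hx]; ring
      · rw [if_neg hx, if_neg hx, if_neg hx]; simp
    simp only [e2]
    rw [sum_comm, neg_div, sum_div, ← sum_neg_distrib]
    refine sum_congr rfl fun x _ => ?_
    by_cases hx : vec x ∈ V
    · simp only [if_pos hx]
      rw [mul_sum, sum_div, ← sum_neg_distrib]
      exact sum_congr rfl fun i _ => by ring
    · simp [hx]
  rw [← e1, e0]
  exact h

theorem continuous_Fm {k : ℕ} (V : Submodule ℚ (Fin k → ℚ)) : Continuous (Fm V) := by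
  classical
  unfold Fm
  apply continuous_finsetSum
  intro x _
  by_cases hx : vec x ∈ V
  · simp only [if_pos hx]
    unfold wt
    apply continuous_finsetProd
    intro i _
    exact continuous_iff_continuousAt.2 fun m => (hasDerivAt_wm (x i) m).continuousAt
  · simp only [if_neg hx]
    exact continuous_const

/-- first range -/
theorem deriv_le_one {k : ℕ} (V : Submodule ℚ (Fin k → ℚ)) {m : ℝ} (h0 : 0 < m) (h1 : m ≤ 1 / 3) :
    (1 - m) * (-(∑ i, (m * Fm V m - Tm V m i i)) / (m * (1 - m))) +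
      ((k - finrank ℚ V : ℕ) : ℝ) * Fm V m ≤ 0 := by
  have h2 := main_ineq V h0 (by linarith) (K := 1) le_rfl (by
    rw [div_le_one (by linarith)]; linarith)
  have h3 : (1 - m) ≠ 0 := by linarith
  have e : (1 - m) * (-(∑ i, (m * Fm V m - Tm V m i i)) / (m * (1 - m))) =
      -(∑ i, (m * Fm V m - Tm V m i i)) / m := by
    field_simp
  rw [e, div_add' _ _ _ h0.ne']
  apply div_nonpos_of_nonpos_of_nonneg _ h0.le
  nlinarith

/-- second range -/
theorem deriv_le_two {k : ℕ} (V : Submodule ℚ (Fin k → ℚ)) {m : ℝ} (h0 : 1 / 3 ≤ m)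
    (h1 : m < 1 / 2) :
    2 * m * (-(∑ i, (m * Fm V m - Tm V m i i)) / (m * (1 - m))) +
      ((k - finrank ℚ V : ℕ) : ℝ) * Fm V m ≤ 0 := by
  have hm : 0 < m := by linarith
  have h3 : 0 < (1 - m) := by linarith
  have h2 := main_ineq V hm h1 (K := 2 * m / (1 - m)) (by
    rw [le_div_iff₀ h3]; linarith) le_rfl
  have e : 2 * m * (-(∑ i, (m * Fm V m - Tm V m i i)) / (m * (1 - m))) =
      -(2 * m / (1 - m) * (∑ i, (m * Fm V m - Tm V m i i))) / m := by
    field_simp
  rw [e, div_add' _ _ _ hm.ne']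
  apply div_nonpos_of_nonpos_of_nonneg _ hm.le
  nlinarith

theorem anti_one {k : ℕ} (V : Submodule ℚ (Fin k → ℚ)) {m : ℝ} (h0 : 0 < m) (h1 : m ≤ 1 / 3) :
    Fm V (1 / 3) * (3 / 2 : ℝ) ^ (k - finrank ℚ V) ≤
      Fm V m * (1 / (1 - m)) ^ (k - finrank ℚ V) := by
  set r := k - finrank ℚ V with hr
  have hder : ∀ t ∈ Set.Icc m (1 / 3), HasDerivAt (fun t => Fm V t * (1 / (1 - t)) ^ r)
      ((-(∑ i, (t * Fm V t - Tm V t i i)) / (t * (1 - t))) * (1 / (1 - t)) ^ r +
        Fm V t * (r * (1 / (1 - t)) ^ (r - 1) * (1 / (1 - t) ^ 2))) t := by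
    intro t ht
    have ht0 : 0 < t := lt_of_lt_of_le h0 ht.1
    have ht1 : 0 < 1 - t := by have := ht.2; linarith
    have hinv : HasDerivAt (fun t : ℝ => 1 / (1 - t)) (1 / (1 - t) ^ 2) t := by
      have h2 : HasDerivAt (fun t : ℝ => 1 - t) (-1) t := by
        simpa using (hasDerivAt_id t).const_sub 1
      have h3 := h2.inv ht1.ne'
      simp only [one_div]
      refine h3.congr_deriv ?_
      simp
    exact (hasDerivAt_Fm V ht0 (by linarith)).mul (hinv.pow r)
  have hanti : AntitoneOn (fun t => Fm V t * (1 / (1 - t)) ^ r) (Set.Icc m (1 / 3)) := by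
    apply antitoneOn_of_deriv_nonpos (convex_Icc _ _)
    · intro t ht
      exact (hder t ht).continuousAt.continuousWithinAt
    · intro t ht
      rw [interior_Icc] at ht
      exact (hder t ⟨ht.1.le, ht.2.le⟩).differentiableAt.differentiableWithinAt
    · intro t ht
      rw [interior_Icc] at ht
      rw [(hder t ⟨ht.1.le, ht.2.le⟩).deriv]
      have ht0 : 0 < t := lt_trans h0 ht.1
      have ht1 : 0 < 1 - t := by have := ht.2; linarith
      have h2 := deriv_le_one V ht0 ht.2.le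
      rw [← hr] at h2
      set d := (-(∑ i, (t * Fm V t - Tm V t i i)) / (t * (1 - t)))
      set q := 1 / (1 - t) with hq
      have hq0 : 0 < q := by positivity
      have e1 : Fm V t * (r * q ^ (r - 1) * (1 / (1 - t) ^ 2)) = r * Fm V t * q ^ r * q := by
        rcases Nat.eq_zero_or_pos r with h | h
        · rw [h]; simp
        · have : q ^ r = q ^ (r - 1) * q := by
            rw [← pow_succ]; congr 1; omega
          rw [this, hq]
          field_simp
      have e2 : d * q ^ r + Fm V t * (r * q ^ (r - 1) * (1 / (1 - t) ^ 2)) =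
          q ^ r * q * ((1 - t) * d + r * Fm V t) := by
        rw [e1]
        have : q * (1 - t) = 1 := by rw [hq]; field_simp
        linear_combination (-(q ^ r * d)) * this
      rw [e2]
      exact mul_nonpos_of_nonneg_of_nonpos (by positivity) h2
  have h2 := hanti (Set.left_mem_Icc.2 h1) (Set.right_mem_Icc.2 h1) h1
  simp only at h2
  have e3 : (1 / (1 - 1 / 3) : ℝ) = 3 / 2 := by norm_num
  rw [e3] at h2
  exact h2

theorem anti_two {k : ℕ} (V : Submodule ℚ (Fin k → ℚ)) :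
    Fm V (1 / 2) ^ 2 * (1 / 2 : ℝ) ^ (k - finrank ℚ V) ≤
      Fm V (1 / 3) ^ 2 * (1 / 3) ^ (k - finrank ℚ V) := by
  set r := k - finrank ℚ V with hr
  have hder : ∀ t ∈ Set.Ioo (1 / 3 : ℝ) (1 / 2), HasDerivAt (fun t => Fm V t ^ 2 * t ^ r)
      ((2 * Fm V t * (-(∑ i, (t * Fm V t - Tm V t i i)) / (t * (1 - t)))) * t ^ r +
        Fm V t ^ 2 * (r * t ^ (r - 1))) t := by
    intro t ht
    have ht0 : 0 < t := lt_trans (by norm_num) ht.1
    have h2 := (hasDerivAt_Fm V ht0 (by have := ht.2; linarith)).pow 2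
    have h3 := h2.mul (hasDerivAt_pow r t)
    refine h3.congr_deriv ?_
    simp
  have hanti : AntitoneOn (fun t => Fm V t ^ 2 * t ^ r) (Set.Icc (1 / 3) (1 / 2)) := by
    apply antitoneOn_of_deriv_nonpos (convex_Icc _ _)
    · exact (((continuous_Fm V).pow 2).mul (continuous_pow r)).continuousOn
    · intro t ht
      rw [interior_Icc] at ht
      exact (hder t ht).differentiableAt.differentiableWithinAt
    · intro t ht
      rw [interior_Icc] at ht
      rw [(hder t ht).deriv]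
      have ht0 : 0 < t := lt_trans (by norm_num) ht.1
      have h2 := deriv_le_two V ht.1.le ht.2
      rw [← hr] at h2
      set d := (-(∑ i, (t * Fm V t - Tm V t i i)) / (t * (1 - t)))
      have hF0 : 0 ≤ Fm V t := Fm_nonneg V ht0.le (by have := ht.2; linarith)
      rcases Nat.eq_zero_or_pos r with h | h
      · rw [h] at h2 ⊢
        simp only [Nat.cast_zero, zero_mul, mul_zero, add_zero, pow_zero, mul_one] at h2 ⊢
        have h4 : d ≤ 0 := by
          by_contra hneg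
          push Not at hneg
          have : 0 < 2 * t * d := by positivity
          linarith
        nlinarith
      · have e1 : t ^ r = t ^ (r - 1) * t := by
          rw [← pow_succ]; congr 1; omega
        have e2 : 2 * Fm V t * d * t ^ r + Fm V t ^ 2 * (r * t ^ (r - 1)) =
            Fm V t * t ^ (r - 1) * (2 * t * d + r * Fm V t) := by
          rw [e1]; ring
        rw [e2]
        exact mul_nonpos_of_nonneg_of_nonpos (by positivity) h2
  exact hanti (Set.left_mem_Icc.2 (by norm_num)) (Set.right_mem_Icc.2 (by norm_num)) (by norm_num)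

/-- **swap lemma, sharp constant** -/
theorem swapG {k : ℕ} (V : Submodule ℚ (Fin k → ℚ)) {m : ℝ} (h0 : 0 < m) (h1 : m ≤ 1 / 3) :
    Fm V (1 / 2) ^ 2 ≤ Fm V m ^ 2 * (8 / 27 * (1 / (1 - m)) ^ 2) ^ (k - finrank ℚ V) := by
  have a1 := anti_one V h0 h1
  have a2 := anti_two V
  set r := k - finrank ℚ V with hr
  have hF3 : 0 ≤ Fm V (1 / 3) := Fm_nonneg V (by norm_num) (by norm_num)
  have hFm : 0 ≤ Fm V m := Fm_nonneg V h0.le (by linarith)
  have hm : 0 < 1 - m := by linarith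
  have b1 : (Fm V (1 / 3) * (3 / 2 : ℝ) ^ r) ^ 2 ≤ (Fm V m * (1 / (1 - m)) ^ r) ^ 2 :=
    pow_le_pow_left₀ (by positivity) a1 2
  have b2 : Fm V (1 / 2) ^ 2 ≤ Fm V (1 / 3) ^ 2 * (2 / 3) ^ r := by
    have h2 : (0 : ℝ) < (1 / 2) ^ r := by positivity
    have h3 : Fm V (1 / 3) ^ 2 * (1 / 3 : ℝ) ^ r = (Fm V (1 / 3) ^ 2 * (2 / 3) ^ r) * (1 / 2) ^ r := by
      rw [mul_assoc, ← mul_pow]; norm_num
    rw [h3] at a2
    exact le_of_mul_le_mul_right a2 h2
  refine b2.trans ?_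
  have h4 : (0 : ℝ) < (9 / 4) ^ r := by positivity
  refine le_of_mul_le_mul_right ?_ h4
  calc Fm V (1 / 3) ^ 2 * (2 / 3) ^ r * (9 / 4) ^ r = (Fm V (1 / 3) * (3 / 2 : ℝ) ^ r) ^ 2 * (2 / 3) ^ r := by
        rw [mul_pow, ← pow_mul, mul_comm r 2, pow_mul (3 / 2 : ℝ) 2 r]
        norm_num
        ring
    _ ≤ (Fm V m * (1 / (1 - m)) ^ r) ^ 2 * (2 / 3) ^ r := mul_le_mul_of_nonneg_right b1 (by positivity)
    _ = Fm V m ^ 2 * (8 / 27 * (1 / (1 - m)) ^ 2) ^ r * (9 / 4) ^ r := by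
        rw [mul_pow (Fm V m), ← pow_mul, mul_comm r 2, pow_mul _ 2 r, mul_assoc, mul_assoc,
          ← mul_pow, ← mul_pow]
        congr 2
        ring

end Vale.Agent.P160.Half.GapG770
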