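import Mathlib.LinearAlgebra.Dimension.Finrank
import Mathlib.LinearAlgebra.FiniteDimensional.Basic
import Mathlib.FieldTheory.Finite.Basic
import Mathlib.Algebra.Field.ZMod
import Mathlib.Algebra.Order.BigOperators.Ring.Finset
import Mathlib.Data.Real.Basic
import Mathlib.Tactic

/-! # P160/Half, block (M): the weight on the good event by the first moment of pairs

`ω : Fin k → Ω` are `k` iid columns `vec (ω j) ∈ ℤ^a`, `a ≤ k`.  For a finite family of primes `p i`
put `W(ω) = ∏_i (#left kernel mod p i)²`.  On the event `Good` that every nondegenerate tuple of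
PAIRS of left kernel vectors is flat, `E[W; Good] ≤ (∏ p_i)² 2^(#ι) (1+η)^k`. -/

namespace Vale.Agent.P160.Half.Good2

open Finset

variable {ι : Type*} [Fintype ι] [DecidableEq ι] (p : ι → ℕ) [hp : ∀ i, Fact (p i).Prime]
variable {Ω : Type*} [Fintype Ω] {a : ℕ} (vec : Ω → Fin a → ℤ) (μ : Ω → ℝ)

/-- `y ⊥ u` mod `q` -/
def perp (q : ℕ) (y : Fin a → ℤ) (u : Fin a → ZMod q) : Prop := ∑ i, (y i : ZMod q) * u i = 0

/-- left kernel mod `q` -/
def ker (q : ℕ) {k : ℕ} (ω : Fin k → Ω) : Submodule (ZMod q) (Fin a → ZMod q) where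
  carrier := {u | ∀ j, perp q (vec (ω j)) u}
  add_mem' := by
    intro u v hu hv j
    have h1 := hu j
    have h2 := hv j
    unfold perp at *
    simp only [Pi.add_apply, mul_add, sum_add_distrib, h1, h2, add_zero]
  zero_mem' := by
    intro j
    simp [perp]
  smul_mem' := by
    intro c u hu j
    have h1 := hu j
    unfold perp at *
    have : ∑ i, ((vec (ω j) i : ℤ) : ZMod q) * (c • u) i = c * ∑ i, ((vec (ω j) i : ℤ) : ZMod q) * u i := by
      rw [mul_sum]
      refine sum_congr rfl fun i _ => ?_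
      simp only [Pi.smul_apply, smul_eq_mul]
      ring
    rw [this, h1, mul_zero]

/-- linearly independent pair -/
def nd {q : ℕ} (v : (Fin a → ZMod q) × (Fin a → ZMod q)) : Prop :=
  v.1 ≠ 0 ∧ ∀ c : ZMod q, v.2 ≠ c • v.1

/-- pairs of vectors mod `p i`, `i ∈ B` -/
abbrev PV (a : ℕ) (B : Finset ι) : Type _ :=
  ∀ i : B, (Fin a → ZMod (p i)) × (Fin a → ZMod (p i))

/-- `y` is orthogonal to all vectors of `x` -/
def orth {B : Finset ι} (x : PV p a B) (y : Fin a → ℤ) : Prop :=
  ∀ i : B, perp (p i) y (x i).1 ∧ perp (p i) y (x i).2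

open Classical in
/-- probability that a column is orthogonal to `x` -/
noncomputable def rho {B : Finset ι} (x : PV p a B) : ℝ :=
  ∑ y, μ y * if orth p x (vec y) then 1 else 0

/-- all nondegenerate tuples of pairs of kernel vectors are flat -/
def Good (η : ℝ) {k : ℕ} (ω : Fin k → Ω) : Prop :=
  ∀ (B : Finset ι) (x : PV p a B), (∀ i, nd (x i)) → (∀ j, orth p x (vec (ω j))) →
    rho p vec μ x ≤ (1 + η) / ∏ i ∈ B, (p i : ℝ) ^ 2

open Classical in
/-- number of nondegenerate pairs in the kernel mod `q` -/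
noncomputable def nn (q : ℕ) [NeZero q] {k : ℕ} (ω : Fin k → Ω) : ℕ :=
  ((univ : Finset ((Fin a → ZMod q) × (Fin a → ZMod q))).filter fun v =>
    nd v ∧ ∀ j, perp q (vec (ω j)) v.1 ∧ perp q (vec (ω j)) v.2).card

omit [Fintype Ω] in
theorem card_sq_le (q : ℕ) [Fact q.Prime] {k : ℕ} (ω : Fin k → Ω) :
    ((Nat.card (ker vec q ω) : ℝ)) ^ 2 ≤ (q : ℝ) ^ 2 * (1 + nn vec q ω) := by
  classical
  set K := ker vec q ω with hK
  have hq : 2 ≤ q := (Fact.out : q.Prime).two_le
  have hcard : Nat.card K = q ^ Module.finrank (ZMod q) K := by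
    rw [Module.natCard_eq_pow_finrank (K := ZMod q), Nat.card_zmod]
  set C := Nat.card K with hC
  -- all pairs
  set S := (univ : Finset ((Fin a → ZMod q) × (Fin a → ZMod q))).filter
    fun v => v.1 ∈ K ∧ v.2 ∈ K with hS
  have hKf : (univ.filter fun u : Fin a → ZMod q => u ∈ K).card = C := by
    rw [hC, Nat.card_eq_fintype_card, Fintype.card_subtype]
  have hScard : S.card = C * C := by
    have : S = (univ.filter fun u : Fin a → ZMod q => u ∈ K) ×ˢ
        (univ.filter fun u : Fin a → ZMod q => u ∈ K) := by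
      ext v; simp [hS]
    rw [this, card_product, hKf]
  -- degenerate pairs
  set D := S.filter fun v => ¬ nd v with hD
  have hDcard : D.card ≤ C + C * q := by
    have hsub : D ⊆ ((univ.filter fun u : Fin a → ZMod q => u ∈ K).image fun u => ((0 : Fin a → ZMod q), u)) ∪
        (((univ.filter fun u : Fin a → ZMod q => u ∈ K) ×ˢ (univ : Finset (ZMod q))).image
          fun t => (t.1, t.2 • t.1)) := by
      intro v hv
      simp only [hD, hS, mem_filter, mem_univ, true_and, nd] at hv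
      obtain ⟨⟨h1, h2⟩, h3⟩ := hv
      rw [mem_union]
      by_cases h0 : v.1 = 0
      · left
        rw [mem_image]
        exact ⟨v.2, by simpa using h2, by rw [← h0]⟩
      · right
        have : ∃ c : ZMod q, v.2 = c • v.1 := by
          by_contra hne
          push Not at hne
          exact h3 ⟨h0, hne⟩
        obtain ⟨c, hc⟩ := this
        rw [mem_image]
        exact ⟨(v.1, c), by simpa using h1, by rw [← hc]⟩
    refine (card_le_card hsub).trans ((card_union_le _ _).trans (Nat.add_le_add ?_ ?_))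
    · exact card_image_le.trans (le_of_eq hKf)
    · refine card_image_le.trans (le_of_eq ?_)
      rw [card_product, hKf, card_univ, ZMod.card]
  have hn : nn vec q ω = (S.filter fun v => nd v).card := by
    unfold nn
    congr 1
    ext v
    simp only [hS, mem_filter, mem_univ, true_and]
    constructor
    · rintro ⟨h1, h2⟩
      exact ⟨⟨fun j => (h2 j).1, fun j => (h2 j).2⟩, h1⟩
    · rintro ⟨⟨h1, h2⟩, h3⟩
      exact ⟨h3, fun j => ⟨h1 j, h2 j⟩⟩
  have hsplit : (S.filter fun v => nd v).card + D.card = C * C := by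
    rw [hD, card_filter_add_card_filter_not, hScard]
  have hmain : C * C ≤ nn vec q ω + (C + C * q) := by rw [hn]; omega
  rcases Nat.lt_or_ge (Module.finrank (ZMod q) K) 2 with hf | hf
  · have : C ≤ q := by
      rw [hcard]
      calc q ^ Module.finrank (ZMod q) K ≤ q ^ 1 := Nat.pow_le_pow_right (by omega) (by omega)
        _ = q := pow_one q
    have h1 : (C : ℝ) ≤ q := by exact_mod_cast this
    have h2 : (C : ℝ) ^ 2 ≤ (q : ℝ) ^ 2 := pow_le_pow_left₀ (Nat.cast_nonneg _) h1 2
    have h3 : (0 : ℝ) ≤ nn vec q ω := Nat.cast_nonneg _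
    nlinarith [sq_nonneg (q : ℝ)]
  · have : q * q ≤ C := by
      rw [hcard]
      calc q * q = q ^ 2 := (sq q).symm
        _ ≤ q ^ Module.finrank (ZMod q) K := Nat.pow_le_pow_right (by omega) hf
    have hC2 : (q : ℝ) * q ≤ C := by exact_mod_cast this
    have hq2 : (2 : ℝ) ≤ q := by exact_mod_cast hq
    have hm : (C : ℝ) * C ≤ nn vec q ω + (C + C * q) := by exact_mod_cast hmain
    have hC0 : (0 : ℝ) ≤ C := Nat.cast_nonneg _
    -- q^2 * n ≥ q^2 (C^2 - C (q+1)) ≥ C^2
    have h1 : (q : ℝ) ^ 2 * ((C : ℝ) * C - (C + C * q)) ≤ (q : ℝ) ^ 2 * nn vec q ω :=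
      mul_le_mul_of_nonneg_left (by linarith) (by positivity)
    have h2 : (C : ℝ) ^ 2 ≤ (q : ℝ) ^ 2 * ((C : ℝ) * C - (C + C * q)) := by
      have h3 : (C : ℝ) * 1 ≤ (q : ℝ) ^ 2 * (C - (1 + q)) := by
        nlinarith [mul_nonneg (sub_nonneg.2 hq2) (sub_nonneg.2 hC2),
          mul_nonneg (sub_nonneg.2 hq2) (sub_nonneg.2 hq2), mul_nonneg hC0 (sub_nonneg.2 hq2)]
      calc (C : ℝ) ^ 2 = C * (C * 1) := by ring
        _ ≤ C * ((q : ℝ) ^ 2 * (C - (1 + q))) := mul_le_mul_of_nonneg_left h3 hC0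
        _ = (q : ℝ) ^ 2 * ((C : ℝ) * C - (C + C * q)) := by ring
    nlinarith [sq_nonneg (q : ℝ)]

open Classical in
/-- **First moment of pairs.** -/
theorem main (hμ : ∀ y, 0 ≤ μ y) {η : ℝ} (hη : 0 ≤ η) {k : ℕ} (ha : a ≤ k) :
    ∑ ω : Fin k → Ω, (∏ j, μ (ω j)) * (if Good p vec μ η ω then
      ∏ i, ((Nat.card (ker vec (p i) ω) : ℝ)) ^ 2 else 0) ≤
      (∏ i, (p i : ℝ) ^ 2) * (2 ^ Fintype.card ι * (1 + η) ^ k) := by
  have hp0 : ∀ i, (0 : ℝ) < p i := fun i => by exact_mod_cast (hp i).out.pos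
  have hp1 : ∀ i, (1 : ℝ) ≤ p i := fun i => by exact_mod_cast (hp i).out.one_le
  have hmu0 : ∀ ω : Fin k → Ω, 0 ≤ ∏ j, μ (ω j) := fun ω => prod_nonneg fun j _ => hμ _
  -- pointwise
  have h1 : ∀ ω : Fin k → Ω, ∏ i, ((Nat.card (ker vec (p i) ω) : ℝ)) ^ 2 ≤
      (∏ i, (p i : ℝ) ^ 2) * ∑ B ∈ (univ : Finset ι).powerset, ∏ i ∈ B, (nn vec (p i) ω : ℝ) := by
    intro ω
    calc ∏ i, ((Nat.card (ker vec (p i) ω) : ℝ)) ^ 2
        ≤ ∏ i, ((p i : ℝ) ^ 2 * (1 + nn vec (p i) ω)) :=
          prod_le_prod (fun i _ => by positivity) fun i _ => card_sq_le vec (p i) ω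
      _ = (∏ i, (p i : ℝ) ^ 2) * ∏ i, ((nn vec (p i) ω : ℝ) + 1) := by
          rw [prod_mul_distrib]
          congr 1
          exact prod_congr rfl fun i _ => add_comm _ _
      _ = _ := by
          congr 1
          rw [prod_add]
          refine sum_congr rfl fun B _ => ?_
          rw [prod_const_one, mul_one]
  -- counting form
  have h2 : ∀ (B : Finset ι) (ω : Fin k → Ω), ∏ i ∈ B, (nn vec (p i) ω : ℝ) =
      ∑ x : PV p a B, if (∀ i, nd (x i)) ∧ ∀ j, orth p x (vec (ω j)) then (1 : ℝ) else 0 := by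
    intro B ω
    rw [← prod_coe_sort B fun i => (nn vec (p i) ω : ℝ)]
    rw [sum_boole]
    have : (univ.filter fun x : PV p a B => (∀ i, nd (x i)) ∧ ∀ j, orth p x (vec (ω j))) =
        Fintype.piFinset fun i : B => (univ.filter fun v : (Fin a → ZMod (p i)) × (Fin a → ZMod (p i)) =>
          nd v ∧ ∀ j, perp (p i) (vec (ω j)) v.1 ∧ perp (p i) (vec (ω j)) v.2) := by
      ext x
      rw [mem_filter, Fintype.mem_piFinset]
      simp only [mem_filter, mem_univ, true_and]
      unfold orth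
      constructor
      · rintro ⟨g1, g2⟩ i
        exact ⟨g1 i, fun j => g2 j i⟩
      · intro g
        exact ⟨fun i => (g i).1, fun j i => (g i).2 j⟩
    rw [this, Fintype.card_piFinset]
    push_cast
    rfl
  -- first moment for fixed B
  have h3 : ∀ B : Finset ι, ∑ ω : Fin k → Ω, (∏ j, μ (ω j)) * (if Good p vec μ η ω then
      ∏ i ∈ B, (nn vec (p i) ω : ℝ) else 0) ≤ (1 + η) ^ k := by
    intro B
    set Q : ℝ := ∏ i ∈ B, (p i : ℝ) ^ 2 with hQ
    have hQ1 : 1 ≤ Q := by
      rw [hQ]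
      calc (1 : ℝ) = ∏ _i ∈ B, (1 : ℝ) := prod_const_one.symm
        _ ≤ ∏ i ∈ B, (p i : ℝ) ^ 2 :=
            prod_le_prod (fun _ _ => zero_le_one) fun i _ => one_le_pow₀ (hp1 i)
    have hQ0 : 0 < Q := by linarith
    have hcardPV : (Fintype.card (PV p a B) : ℝ) = Q ^ a := by
      rw [Fintype.card_pi]
      push_cast
      rw [hQ, ← prod_pow, ← prod_coe_sort B fun i => ((p i : ℝ) ^ 2) ^ a]
      refine prod_congr rfl fun i _ => ?_
      rw [Fintype.card_prod, Fintype.card_fun, ZMod.card, Fintype.card_fin]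
      push_cast
      ring
    have hrho0 : ∀ x : PV p a B, 0 ≤ rho p vec μ x := by
      intro x
      unfold rho
      refine sum_nonneg fun y _ => mul_nonneg (hμ y) ?_
      split_ifs <;> norm_num
    have hx : ∀ x : PV p a B, ∑ ω : Fin k → Ω, (∏ j, μ (ω j)) *
        (if Good p vec μ η ω ∧ ((∀ i, nd (x i)) ∧ ∀ j, orth p x (vec (ω j))) then (1 : ℝ) else 0) ≤
        ((1 + η) / Q) ^ k := by
      intro x
      by_cases hflat : rho p vec μ x ≤ (1 + η) / Q
      · calc ∑ ω : Fin k → Ω, (∏ j, μ (ω j)) *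
            (if Good p vec μ η ω ∧ ((∀ i, nd (x i)) ∧ ∀ j, orth p x (vec (ω j))) then (1 : ℝ) else 0)
            ≤ ∑ ω : Fin k → Ω, ∏ j, (μ (ω j) * if orth p x (vec (ω j)) then 1 else 0) := by
              refine sum_le_sum fun ω _ => ?_
              rw [prod_mul_distrib]
              refine mul_le_mul_of_nonneg_left ?_ (hmu0 ω)
              by_cases h : ∀ j, orth p x (vec (ω j))
              · have : ∏ j, (if orth p x (vec (ω j)) then (1 : ℝ) else 0) = 1 :=
                  prod_eq_one fun j _ => if_pos (h j)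
                rw [this]
                split_ifs <;> norm_num
              · rw [if_neg (fun g => h g.2.2)]
                refine prod_nonneg fun j _ => ?_
                split_ifs <;> norm_num
          _ = rho p vec μ x ^ k := by
              unfold rho
              rw [← Fin.prod_const, prod_univ_sum]
              simp only [Fintype.piFinset_univ]
          _ ≤ ((1 + η) / Q) ^ k := pow_le_pow_left₀ (hrho0 x) hflat k
      · have : ∀ ω : Fin k → Ω, ¬ (Good p vec μ η ω ∧ ((∀ i, nd (x i)) ∧ ∀ j, orth p x (vec (ω j)))) := by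
          rintro ω ⟨g, g1, g2⟩
          exact hflat (g B x g1 g2)
        rw [sum_eq_zero fun ω _ => by rw [if_neg (this ω), mul_zero]]
        positivity
    calc ∑ ω : Fin k → Ω, (∏ j, μ (ω j)) * (if Good p vec μ η ω then
        ∏ i ∈ B, (nn vec (p i) ω : ℝ) else 0)
        = ∑ x : PV p a B, ∑ ω : Fin k → Ω, (∏ j, μ (ω j)) *
          (if Good p vec μ η ω ∧ ((∀ i, nd (x i)) ∧ ∀ j, orth p x (vec (ω j))) then (1 : ℝ) else 0) := by
          rw [sum_comm]
          refine sum_congr rfl fun ω _ => ?_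
          rw [← mul_sum]
          congr 1
          by_cases hG : Good p vec μ η ω
          · rw [if_pos hG, h2]
            exact sum_congr rfl fun x _ => by simp only [hG, true_and]
          · rw [if_neg hG]
            exact (sum_eq_zero fun x _ => if_neg fun h => hG h.1).symm
      _ ≤ ∑ _x : PV p a B, ((1 + η) / Q) ^ k := sum_le_sum fun x _ => hx x
      _ = Q ^ a * ((1 + η) / Q) ^ k := by rw [sum_const, card_univ, nsmul_eq_mul, hcardPV]
      _ ≤ Q ^ k * ((1 + η) / Q) ^ k :=
          mul_le_mul_of_nonneg_right (pow_le_pow_right₀ hQ1 ha) (by positivity)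
      _ = (1 + η) ^ k := by
          rw [← mul_pow, mul_div_cancel₀ _ hQ0.ne']
  calc ∑ ω : Fin k → Ω, (∏ j, μ (ω j)) * (if Good p vec μ η ω then
      ∏ i, ((Nat.card (ker vec (p i) ω) : ℝ)) ^ 2 else 0)
      ≤ ∑ ω : Fin k → Ω, (∏ j, μ (ω j)) * (if Good p vec μ η ω then
        (∏ i, (p i : ℝ) ^ 2) * ∑ B ∈ (univ : Finset ι).powerset, ∏ i ∈ B, (nn vec (p i) ω : ℝ) else 0) := by
        refine sum_le_sum fun ω _ => mul_le_mul_of_nonneg_left ?_ (hmu0 ω)
        split_ifs
        · exact h1 ω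
        · exact le_rfl
    _ = (∏ i, (p i : ℝ) ^ 2) * ∑ B ∈ (univ : Finset ι).powerset, ∑ ω : Fin k → Ω,
        (∏ j, μ (ω j)) * (if Good p vec μ η ω then ∏ i ∈ B, (nn vec (p i) ω : ℝ) else 0) := by
        rw [sum_comm, mul_sum]
        refine sum_congr rfl fun ω _ => ?_
        rw [← mul_sum]
        split_ifs
        · ring
        · simp
    _ ≤ (∏ i, (p i : ℝ) ^ 2) * ∑ B ∈ (univ : Finset ι).powerset, (1 + η) ^ k :=
        mul_le_mul_of_nonneg_left (sum_le_sum fun B _ => h3 B) (by positivity)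
    _ = (∏ i, (p i : ℝ) ^ 2) * (2 ^ Fintype.card ι * (1 + η) ^ k) := by
        rw [sum_const, card_powerset, card_univ, nsmul_eq_mul]
        push_cast
        ring

end Vale.Agent.P160.Half.Good2
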