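import Mathlib

/-! # P160, half rate, block (M): the good period (note 11023 (2)), chain lemma.

`y : Fin k → Ω` independent columns with law `wt`; `Fl j y` is the set of failing indices (primes) at step `j`
(it depends on `y i`, `i ≤ j`), `good j y` an event of the past (it depends on `y i`, `i < j`).  If on `good j`
the probability that all indices in `B` fail is at most `∏_{p ∈ B} b p (k - j) e_p`, then
`E[∏ V_p ^ #failures; good] ≤ ∏ φ_p(k, 0)`. -/

open Finset

set_option linter.unusedSectionVars false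
set_option linter.unusedVariables false

namespace Vale.Agent.P160.Half.GoodChain

/-- expected future weight: `m` steps left, `e` failures so far, `g m e` = weight × probability bound -/
def phi (g : ℕ → ℕ → ℝ) : ℕ → ℕ → ℝ
  | 0, _ => 1
  | m + 1, e => phi g m e + g (m + 1) e * phi g m (e + 1)

theorem phi_zero (g : ℕ → ℕ → ℝ) (e : ℕ) : phi g 0 e = 1 := rfl

theorem phi_succ (g : ℕ → ℕ → ℝ) (m e : ℕ) :
    phi g (m + 1) e = phi g m e + g (m + 1) e * phi g m (e + 1) := rfl

theorem phi_nonneg {g : ℕ → ℕ → ℝ} (hg : ∀ m e, 0 ≤ g m e) : ∀ m e, 0 ≤ phi g m e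
  | 0, _ => by rw [phi_zero]; exact zero_le_one
  | m + 1, e => by
      rw [phi_succ]
      exact add_nonneg (phi_nonneg hg m e) (mul_nonneg (hg _ _) (phi_nonneg hg m (e + 1)))

section resample

variable {Ω : Type*} [Fintype Ω] {k : ℕ}

/-- product weight of a configuration -/
def PW (wt : Ω → ℝ) (y : Fin k → Ω) : ℝ := ∏ i, wt (y i)

theorem PW_nonneg {wt : Ω → ℝ} (h0 : ∀ x, 0 ≤ wt x) (y : Fin k → Ω) : 0 ≤ PW wt y :=
  Finset.prod_nonneg fun _ _ => h0 _

theorem sum_PW {wt : Ω → ℝ} (h1 : ∑ x, wt x = 1) : ∑ y : Fin k → Ω, PW wt y = 1 := by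
  have h := (Finset.prod_univ_sum (fun _ : Fin k => (univ : Finset Ω)) (fun _ x => wt x)).symm
  rw [Fintype.piFinset_univ] at h
  unfold PW
  rw [h]
  simp [h1]

theorem PW_update (wt : Ω → ℝ) (y : Fin k → Ω) (j : Fin k) (x : Ω) :
    PW wt (Function.update y j x) * wt (y j) = PW wt y * wt x := by
  unfold PW
  rw [← Finset.mul_prod_erase univ _ (Finset.mem_univ j), ← Finset.mul_prod_erase univ (fun i => wt (y i)) (Finset.mem_univ j)]
  have h : ∏ i ∈ univ.erase j, wt (Function.update y j x i) = ∏ i ∈ univ.erase j, wt (y i) := by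
    refine Finset.prod_congr rfl fun i hi => ?_
    rw [Function.update_of_ne (Finset.ne_of_mem_erase hi)]
  rw [h, Function.update_self]
  ring

/-- swap of coordinate `j` with the extra coordinate -/
def sw (j : Fin k) : ((Fin k → Ω) × Ω) ≃ ((Fin k → Ω) × Ω) where
  toFun p := (Function.update p.1 j p.2, p.1 j)
  invFun p := (Function.update p.1 j p.2, p.1 j)
  left_inv p := by simp
  right_inv p := by simp

/-- resampling one coordinate does not change the expectation -/
theorem resample {wt : Ω → ℝ} (h1 : ∑ x, wt x = 1) (j : Fin k) (G : (Fin k → Ω) → ℝ) :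
    ∑ y : Fin k → Ω, PW wt y * G y =
      ∑ y : Fin k → Ω, PW wt y * ∑ x, wt x * G (Function.update y j x) := by
  have e1 : ∑ y : Fin k → Ω, PW wt y * G y = ∑ p : (Fin k → Ω) × Ω, PW wt p.1 * wt p.2 * G p.1 := by
    rw [Fintype.sum_prod_type]
    refine Finset.sum_congr rfl fun y _ => ?_
    simp only
    rw [← Finset.sum_mul, ← Finset.mul_sum, h1, mul_one]
  have e2 : ∑ y : Fin k → Ω, PW wt y * ∑ x, wt x * G (Function.update y j x) =
      ∑ p : (Fin k → Ω) × Ω, PW wt p.1 * wt p.2 * G (Function.update p.1 j p.2) := by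
    rw [Fintype.sum_prod_type]
    refine Finset.sum_congr rfl fun y _ => ?_
    simp only
    rw [Finset.mul_sum]
    exact Finset.sum_congr rfl fun x _ => by ring
  rw [e1, e2, ← (sw (Ω := Ω) j).sum_comp]
  refine Finset.sum_congr rfl fun p _ => ?_
  show PW wt (Function.update p.1 j p.2) * wt (p.1 j) * G (Function.update p.1 j p.2) = _
  rw [PW_update]

end resample

section chain

variable {Ω ι : Type*} [Fintype Ω] [DecidableEq ι] {k : ℕ}

/-- number of failures of `p` before step `s` -/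
def cnt (Fl : Fin k → (Fin k → Ω) → Finset ι) (s : ℕ) (y : Fin k → Ω) (p : ι) : ℕ :=
  (univ.filter fun j : Fin k => (j : ℕ) < s ∧ p ∈ Fl j y).card

/-- one step: expansion over the failing set -/
theorem step_prod (P : Finset ι) {Ω : Type*} [Fintype Ω] (wt : Ω → ℝ) (h0 : ∀ x, 0 ≤ wt x) (h1 : ∑ x, wt x = 1)
    (S : Ω → Finset ι) (bb : ι → ℝ) (hbb : ∀ p, 0 ≤ bb p)
    (H : ∀ B ⊆ P, B.Nonempty → ∑ x, wt x * (if B ⊆ S x then 1 else 0) ≤ ∏ p ∈ B, bb p)
    (u v : ι → ℝ) (hu : ∀ p, 0 ≤ u p) (hv : ∀ p, 0 ≤ v p) :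
    ∑ x, wt x * ∏ p ∈ P, (if p ∈ S x then v p else u p) ≤ ∏ p ∈ P, (u p + bb p * v p) := by
  classical
  have key : ∀ x, ∏ p ∈ P, (if p ∈ S x then v p else u p) ≤
      ∑ B ∈ P.powerset, (if B ⊆ S x then 1 else 0) * ((∏ p ∈ B, v p) * ∏ p ∈ P \ B, u p) := by
    intro x
    have hmem : P.filter (fun p => p ∈ S x) ∈ P.powerset := Finset.mem_powerset.2 (Finset.filter_subset _ _)
    refine le_trans (le_of_eq ?_) (Finset.single_le_sum (f := fun B => (if B ⊆ S x then (1 : ℝ) else 0) *
      ((∏ p ∈ B, v p) * ∏ p ∈ P \ B, u p)) (fun B _ => ?_) hmem)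
    · have hs : P.filter (fun p => p ∈ S x) ⊆ S x := fun p hp => (Finset.mem_filter.1 hp).2
      simp only [hs, if_true, one_mul]
      rw [Finset.prod_ite]
      congr 1
      refine Finset.prod_congr ?_ fun _ _ => rfl
      ext p
      simp only [Finset.mem_filter, Finset.mem_sdiff, not_and]
      constructor
      · rintro ⟨a, b⟩
        exact ⟨a, fun _ => b⟩
      · rintro ⟨a, b⟩
        exact ⟨a, b a⟩
    · refine mul_nonneg ?_ (mul_nonneg (Finset.prod_nonneg fun _ _ => hv _) (Finset.prod_nonneg fun _ _ => hu _))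
      split_ifs
      · exact zero_le_one
      · exact le_rfl
  calc ∑ x, wt x * ∏ p ∈ P, (if p ∈ S x then v p else u p)
      ≤ ∑ x, wt x * ∑ B ∈ P.powerset, (if B ⊆ S x then 1 else 0) * ((∏ p ∈ B, v p) * ∏ p ∈ P \ B, u p) :=
        Finset.sum_le_sum fun x _ => mul_le_mul_of_nonneg_left (key x) (h0 x)
    _ = ∑ B ∈ P.powerset, (∑ x, wt x * (if B ⊆ S x then 1 else 0)) * ((∏ p ∈ B, v p) * ∏ p ∈ P \ B, u p) := by
        simp_rw [Finset.mul_sum]
        rw [Finset.sum_comm]
        refine Finset.sum_congr rfl fun B _ => ?_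
        rw [Finset.sum_mul]
        exact Finset.sum_congr rfl fun x _ => by ring
    _ ≤ ∑ B ∈ P.powerset, (∏ p ∈ B, bb p) * ((∏ p ∈ B, v p) * ∏ p ∈ P \ B, u p) := by
        refine Finset.sum_le_sum fun B hB => ?_
        refine mul_le_mul_of_nonneg_right ?_ (mul_nonneg (Finset.prod_nonneg fun _ _ => hv _) (Finset.prod_nonneg fun _ _ => hu _))
        rcases B.eq_empty_or_nonempty with rfl | hne
        · simp [h1]
        · exact H B (Finset.mem_powerset.1 hB) hne
    _ = ∏ p ∈ P, (u p + bb p * v p) := by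
        have := Finset.prod_add (fun p => bb p * v p) u P
        rw [show (∏ p ∈ P, (u p + bb p * v p)) = ∏ p ∈ P, (bb p * v p + u p) from
          Finset.prod_congr rfl fun p _ => add_comm _ _, this]
        refine Finset.sum_congr rfl fun B _ => ?_
        rw [Finset.prod_mul_distrib]
        ring

/-- summand after `s` steps -/
noncomputable def GG (P : Finset ι) (V : ι → ℝ) (g : ι → ℕ → ℕ → ℝ) (Fl : Fin k → (Fin k → Ω) → Finset ι)
    (good : Fin k → (Fin k → Ω) → Prop) (s : ℕ) (y : Fin k → Ω) : ℝ :=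
  open Classical in
  (if ∀ j : Fin k, (j : ℕ) < s → good j y then 1 else 0) *
    ((∏ p ∈ P, V p ^ cnt Fl s y p) * ∏ p ∈ P, phi (g p) (k - s) (cnt Fl s y p))

theorem GG_nonneg (P : Finset ι) {V : ι → ℝ} (hV : ∀ p, 0 ≤ V p) {g : ι → ℕ → ℕ → ℝ}
    (hg : ∀ p m e, 0 ≤ g p m e) (Fl : Fin k → (Fin k → Ω) → Finset ι)
    (good : Fin k → (Fin k → Ω) → Prop) (s : ℕ) (y : Fin k → Ω) : 0 ≤ GG P V g Fl good s y := by
  unfold GG
  refine mul_nonneg ?_ (mul_nonneg (Finset.prod_nonneg fun _ _ => pow_nonneg (hV _) _)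
    (Finset.prod_nonneg fun _ _ => phi_nonneg (hg _) _ _))
  split_ifs
  · exact zero_le_one
  · exact le_rfl

theorem cnt_succ {Fl : Fin k → (Fin k → Ω) → Finset ι}
    (hF : ∀ (j : Fin k) (y y' : Fin k → Ω), (∀ i ≤ j, y i = y' i) → Fl j y = Fl j y')
    (j : Fin k) (y : Fin k → Ω) (x : Ω) (p : ι) :
    cnt Fl ((j : ℕ) + 1) (Function.update y j x) p =
      cnt Fl (j : ℕ) y p + if p ∈ Fl j (Function.update y j x) then 1 else 0 := by
  classical
  unfold cnt
  have hsame : ∀ i : Fin k, (i : ℕ) < (j : ℕ) → Fl i (Function.update y j x) = Fl i y := by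
    intro i hi
    refine hF i _ _ fun i' hi' => ?_
    rw [Function.update_of_ne]
    rintro rfl
    exact absurd (lt_of_le_of_lt (Fin.le_def.1 hi') hi) (lt_irrefl _)
  have hset : (univ.filter fun i : Fin k => (i : ℕ) < (j : ℕ) + 1 ∧ p ∈ Fl i (Function.update y j x)) =
      (univ.filter fun i : Fin k => (i : ℕ) < (j : ℕ) ∧ p ∈ Fl i y) ∪
        (if p ∈ Fl j (Function.update y j x) then {j} else ∅) := by
    ext i
    simp only [Finset.mem_filter, Finset.mem_univ, true_and, Finset.mem_union]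
    constructor
    · rintro ⟨h1, h2⟩
      rcases Nat.lt_succ_iff_lt_or_eq.1 h1 with h | h
      · left
        rw [hsame i h] at h2
        exact ⟨h, h2⟩
      · right
        have hij : i = j := Fin.ext h
        subst hij
        simp [h2]
    · rintro (⟨h1, h2⟩ | h)
      · exact ⟨Nat.lt_succ_of_lt h1, by rw [hsame i h1]; exact h2⟩
      · split_ifs at h with hp
        · rw [Finset.mem_singleton] at h
          subst h
          exact ⟨Nat.lt_succ_self _, hp⟩
        · exact absurd h (Finset.notMem_empty _)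
  rw [hset, Finset.card_union_of_disjoint]
  · split_ifs <;> simp
  · rw [Finset.disjoint_left]
    intro i hi h
    split_ifs at h with hp
    · rw [Finset.mem_singleton] at h
      subst h
      exact absurd (Finset.mem_filter.1 hi).2.1 (lt_irrefl _)
    · exact absurd h (Finset.notMem_empty _)

theorem good_update {good : Fin k → (Fin k → Ω) → Prop}
    (hG : ∀ (j : Fin k) (y y' : Fin k → Ω), (∀ i < j, y i = y' i) → (good j y ↔ good j y'))
    (j : Fin k) (y : Fin k → Ω) (x : Ω) :
    (∀ i : Fin k, (i : ℕ) < (j : ℕ) + 1 → good i (Function.update y j x)) ↔ ∀ i ≤ j, good i y := by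
  have h : ∀ i : Fin k, i ≤ j → (good i (Function.update y j x) ↔ good i y) := by
    intro i hi
    refine hG i _ _ fun i' hi' => ?_
    rw [Function.update_of_ne]
    rintro rfl
    exact absurd (lt_of_lt_of_le hi' hi) (lt_irrefl _)
  constructor
  · intro H i hi
    exact (h i hi).1 (H i (Nat.lt_succ_of_le (Fin.le_def.1 hi)))
  · intro H i hi
    have hi' : i ≤ j := Fin.le_def.2 (Nat.le_of_lt_succ hi)
    exact (h i hi').2 (H i hi')

/-- **The chain lemma.** -/
theorem chain (P : Finset ι) {wt : Ω → ℝ} (h0 : ∀ x, 0 ≤ wt x) (h1 : ∑ x, wt x = 1)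
    {V : ι → ℝ} (hV : ∀ p, 0 ≤ V p) {b : ι → ℕ → ℕ → ℝ} (hb : ∀ p m e, 0 ≤ b p m e)
    (Fl : Fin k → (Fin k → Ω) → Finset ι) (good : Fin k → (Fin k → Ω) → Prop)
    [DecidablePred fun y : Fin k → Ω => ∀ j : Fin k, good j y]
    (hF : ∀ (j : Fin k) (y y' : Fin k → Ω), (∀ i ≤ j, y i = y' i) → Fl j y = Fl j y')
    (hG : ∀ (j : Fin k) (y y' : Fin k → Ω), (∀ i < j, y i = y' i) → (good j y ↔ good j y'))
    (H : ∀ (j : Fin k) (y : Fin k → Ω), (∀ i ≤ j, good i y) → ∀ B ⊆ P, B.Nonempty →
      ∑ x, wt x * (if B ⊆ Fl j (Function.update y j x) then 1 else 0) ≤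
        ∏ p ∈ B, b p (k - (j : ℕ)) (cnt Fl (j : ℕ) y p)) :
    ∑ y : Fin k → Ω, PW wt y * ((if ∀ j : Fin k, good j y then 1 else 0) *
        ∏ p ∈ P, V p ^ (univ.filter fun j : Fin k => p ∈ Fl j y).card) ≤
      ∏ p ∈ P, phi (fun m e => V p * b p m e) k 0 := by
  classical
  set g : ι → ℕ → ℕ → ℝ := fun p m e => V p * b p m e with hgdef
  have hg : ∀ p m e, 0 ≤ g p m e := fun p m e => mul_nonneg (hV p) (hb p m e)
  -- monotonicity
  have step : ∀ s, (hs : s < k) → ∑ y : Fin k → Ω, PW wt y * GG P V g Fl good (s + 1) y ≤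
      ∑ y : Fin k → Ω, PW wt y * GG P V g Fl good s y := by
    intro s hs
    set j : Fin k := ⟨s, hs⟩ with hj
    rw [resample h1 j]
    refine Finset.sum_le_sum fun y _ => mul_le_mul_of_nonneg_left ?_ (PW_nonneg h0 y)
    have hcnt : ∀ x p, cnt Fl (s + 1) (Function.update y j x) p =
        cnt Fl s y p + if p ∈ Fl j (Function.update y j x) then 1 else 0 := fun x p =>
      cnt_succ hF j y x p
    by_cases hgood : ∀ i ≤ j, good i y
    · have hks : k - s = (k - (s + 1)) + 1 := by omega
      have e1 : ∀ x, GG P V g Fl good (s + 1) (Function.update y j x) =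
          (∏ p ∈ P, V p ^ cnt Fl s y p) * ∏ p ∈ P, (if p ∈ Fl j (Function.update y j x) then
            V p * phi (g p) (k - (s + 1)) (cnt Fl s y p + 1) else phi (g p) (k - (s + 1)) (cnt Fl s y p)) := by
        intro x
        unfold GG
        rw [if_pos ((good_update hG j y x).2 hgood), one_mul, ← Finset.prod_mul_distrib, ← Finset.prod_mul_distrib]
        refine Finset.prod_congr rfl fun p _ => ?_
        rw [hcnt x p]
        split_ifs
        · rw [pow_succ]
          ring
        · rw [add_zero]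
      have e2 : GG P V g Fl good s y = (∏ p ∈ P, V p ^ cnt Fl s y p) *
          ∏ p ∈ P, (phi (g p) (k - (s + 1)) (cnt Fl s y p) +
            b p (k - s) (cnt Fl s y p) * (V p * phi (g p) (k - (s + 1)) (cnt Fl s y p + 1))) := by
        unfold GG
        rw [if_pos (fun i hi => hgood i (Fin.le_def.2 hi.le)), one_mul]
        congr 1
        refine Finset.prod_congr rfl fun p _ => ?_
        rw [hks, phi_succ]
        simp only [hgdef]
        ring
      rw [e2]
      simp_rw [e1]
      have e3 : ∑ x, wt x * ((∏ p ∈ P, V p ^ cnt Fl s y p) * ∏ p ∈ P, (if p ∈ Fl j (Function.update y j x) then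
            V p * phi (g p) (k - (s + 1)) (cnt Fl s y p + 1) else phi (g p) (k - (s + 1)) (cnt Fl s y p))) =
          (∏ p ∈ P, V p ^ cnt Fl s y p) * ∑ x, wt x * ∏ p ∈ P, (if p ∈ Fl j (Function.update y j x) then
            V p * phi (g p) (k - (s + 1)) (cnt Fl s y p + 1) else phi (g p) (k - (s + 1)) (cnt Fl s y p)) := by
        rw [Finset.mul_sum]
        exact Finset.sum_congr rfl fun x _ => by ring
      rw [e3]
      refine mul_le_mul_of_nonneg_left ?_ (Finset.prod_nonneg fun _ _ => pow_nonneg (hV _) _)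
      exact step_prod P wt h0 h1 (fun x => Fl j (Function.update y j x)) (fun p => b p (k - s) (cnt Fl s y p))
        (fun p => hb _ _ _) (H j y hgood) (fun p => phi (g p) (k - (s + 1)) (cnt Fl s y p))
        (fun p => V p * phi (g p) (k - (s + 1)) (cnt Fl s y p + 1)) (fun p => phi_nonneg (hg p) _ _)
        (fun p => mul_nonneg (hV p) (phi_nonneg (hg p) _ _))
    · have e1 : ∀ x, GG P V g Fl good (s + 1) (Function.update y j x) = 0 := by
        intro x
        unfold GG
        rw [if_neg (fun h => hgood ((good_update hG j y x).1 h)), zero_mul]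
      simp_rw [e1, mul_zero, Finset.sum_const_zero]
      exact GG_nonneg P hV hg Fl good s y
  have all : ∀ s ≤ k, ∑ y : Fin k → Ω, PW wt y * GG P V g Fl good s y ≤
      ∑ y : Fin k → Ω, PW wt y * GG P V g Fl good 0 y := by
    intro s
    induction s with
    | zero => intro _; exact le_rfl
    | succ s ih => intro hs; exact (step s hs).trans (ih (Nat.le_of_succ_le hs))
  have hk := all k le_rfl
  have e0 : ∀ y : Fin k → Ω, GG P V g Fl good 0 y = ∏ p ∈ P, phi (g p) k 0 := by
    intro y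
    unfold GG
    rw [if_pos (fun j hj => absurd hj (Nat.not_lt_zero _)), one_mul]
    have hc : ∀ p, cnt Fl 0 y p = 0 := fun p => by simp [cnt]
    simp [hc]
  have ek : ∀ y : Fin k → Ω, GG P V g Fl good k y = (if ∀ j : Fin k, good j y then 1 else 0) *
      ∏ p ∈ P, V p ^ (univ.filter fun j : Fin k => p ∈ Fl j y).card := by
    intro y
    unfold GG
    have hc : ∀ p, cnt Fl k y p = (univ.filter fun j : Fin k => p ∈ Fl j y).card := fun p => by
      simp [cnt]
    have hi : (∀ j : Fin k, (j : ℕ) < k → good j y) ↔ ∀ j : Fin k, good j y :=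
      ⟨fun h j => h j j.2, fun h j _ => h j⟩
    simp only [hc, hi, Nat.sub_self, phi_zero, Finset.prod_const_one, mul_one]
  simp_rw [e0, ek] at hk
  refine hk.trans (le_of_eq ?_)
  rw [← Finset.sum_mul, sum_PW h1, one_mul]

end chain

end Vale.Agent.P160.Half.GoodChain
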