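import Mathlib

/-! # P160, half rate, block (M): the good period (item (2) of the note 11023)

Tuples of vectors over a finite abelian group `Γ` (for instance `∏ F_p ^ {r_p}`), columns with
independent entries of an arbitrary law `e : Ω → ℤ`. -/

namespace Vale.Agent.P160.Half.GoodPer

open Finset

set_option linter.unusedSectionVars false

variable {Ω ι Γ : Type*} [Fintype Ω] [Fintype ι] [DecidableEq ι] [AddCommGroup Γ] [Fintype Γ]

/-- number of columns `y` orthogonal to the tuple `w` -/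
noncomputable def orth (e : Ω → ℤ) (w : ι → Γ) : ℕ :=
  Nat.card {y : ι → Ω // ∑ i, e (y i) • w i = 0}

/-- probability that a random column is orthogonal to `w` -/
noncomputable def rho (e : Ω → ℤ) (w : ι → Γ) : ℝ :=
  orth e w / (Fintype.card Ω : ℝ) ^ Fintype.card ι

/-- the tuples orthogonal to all the columns `Y` -/
def KK (Γ : Type*) [AddCommGroup Γ] (e : Ω → ℤ) {j : ℕ} (Y : Fin j → ι → Ω) : Set (ι → Γ) :=
  {w | ∀ l, ∑ i, e (Y l i) • w i = 0}

theorem rho_nonneg (e : Ω → ℤ) (w : ι → Γ) : 0 ≤ rho e w := by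
  unfold rho; positivity

/-- the linear map whose kernel is `KK` -/
def hom (Γ : Type*) [AddCommGroup Γ] (e : Ω → ℤ) {j : ℕ} (Y : Fin j → ι → Ω) :
    (ι → Γ) →+ (Fin j → Γ) where
  toFun w l := ∑ i, e (Y l i) • w i
  map_zero' := by funext l; simp
  map_add' w w' := by
    funext l
    simp only [Pi.add_apply, smul_add, sum_add_distrib]

theorem card_KK_ge (e : Ω → ℤ) {j : ℕ} (Y : Fin j → ι → Ω) :
    (Fintype.card Γ) ^ Fintype.card ι ≤ Nat.card (KK Γ e Y) * (Fintype.card Γ) ^ j := by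
  classical
  have hk : Nat.card (KK Γ e Y) = Nat.card (hom Γ e Y).ker := by
    refine Nat.card_congr (Equiv.subtypeEquivRight fun w => ?_)
    rw [AddMonoidHom.mem_ker]
    constructor
    · intro h; funext l; exact h l
    · intro h l; exact congrFun h l
  have h1 := AddSubgroup.card_eq_card_quotient_mul_card_addSubgroup (hom Γ e Y).ker
  have h2 : Nat.card ((ι → Γ) ⧸ (hom Γ e Y).ker) ≤ (Fintype.card Γ) ^ j := by
    rw [Nat.card_congr (QuotientAddGroup.quotientKerEquivRange (hom Γ e Y)).toEquiv]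
    calc Nat.card (hom Γ e Y).range ≤ Nat.card (Fin j → Γ) :=
          Nat.card_le_card_of_injective _ Subtype.val_injective
      _ = (Fintype.card Γ) ^ j := by
          rw [Nat.card_eq_fintype_card, Fintype.card_fun, Fintype.card_fin]
  have h3 : Nat.card (ι → Γ) = (Fintype.card Γ) ^ Fintype.card ι := by
    rw [Nat.card_eq_fintype_card, Fintype.card_fun]
  rw [← h3, h1, hk, mul_comm]
  exact Nat.mul_le_mul_left _ h2

/-- the number of arrays of `j` columns orthogonal to `w` -/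
theorem card_orth_pow (e : Ω → ℤ) (w : ι → Γ) (j : ℕ) :
    Nat.card {Y : Fin j → ι → Ω // w ∈ KK Γ e Y} = orth e w ^ j := by
  have : Nat.card {Y : Fin j → ι → Ω // w ∈ KK Γ e Y} =
      Nat.card (Fin j → {y : ι → Ω // ∑ i, e (y i) • w i = 0}) :=
    Nat.card_congr
      { toFun := fun Y l => ⟨Y.1 l, Y.2 l⟩
        invFun := fun Y => ⟨fun l => (Y l).1, fun l => (Y l).2⟩
        left_inv := fun _ => rfl
        right_inv := fun _ => rfl }
  rw [this, Nat.card_fun, Nat.card_eq_fintype_card (α := Fin j), Fintype.card_fin]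
  rfl

open Classical in
/-- **Bad column with excess**: the arrays `Y` whose space of orthogonal tuples has at least
`D |Γ| ^ (a - j)` elements, half of them in `N`, have density at most `(2 / D) ∑_N ρ ^ a`. -/
theorem good_period_excess (e : Ω → ℤ) [Nonempty Ω] (N : Finset (ι → Γ))
    (hN : ∀ w ∈ N, 1 ≤ (Fintype.card Γ : ℝ) * rho e w) (j : ℕ) (hj : j ≤ Fintype.card ι) (E : ℝ)
    (hE : 0 < E) :
    (Nat.card {Y : Fin j → ι → Ω //
      E * (Fintype.card Γ : ℝ) ^ Fintype.card ι ≤ (Nat.card (KK Γ e Y) : ℝ) * (Fintype.card Γ : ℝ) ^ j ∧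
        Nat.card (KK Γ e Y) ≤ 2 * (N.filter fun w => w ∈ KK Γ e Y).card} : ℝ) ≤
      2 / E * (∑ w ∈ N, rho e w ^ Fintype.card ι) * ((Fintype.card Ω : ℝ) ^ Fintype.card ι) ^ j := by
  have hΓ : (0 : ℝ) < Fintype.card Γ := by exact_mod_cast Fintype.card_pos
  have hΩ : (0 : ℝ) < Fintype.card Ω := by exact_mod_cast Fintype.card_pos
  set G : ℝ := (Fintype.card Γ : ℝ) with hG
  set D : ℝ := (Fintype.card Ω : ℝ) ^ Fintype.card ι with hD
  have hDpos : 0 < D := by positivity
  set a := Fintype.card ι with ha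
  -- pointwise
  have h1 : ∀ Y : Fin j → ι → Ω,
      (if E * G ^ a ≤ (Nat.card (KK Γ e Y) : ℝ) * G ^ j ∧
          Nat.card (KK Γ e Y) ≤ 2 * (N.filter fun w => w ∈ KK Γ e Y).card then (1 : ℝ) else 0) ≤
        2 / E * (G ^ j / G ^ a) * ∑ w ∈ N, if w ∈ KK Γ e Y then (1 : ℝ) else 0 := by
    intro Y
    have hc : (∑ w ∈ N, if w ∈ KK Γ e Y then (1 : ℝ) else 0) =
        ((N.filter fun w => w ∈ KK Γ e Y).card : ℝ) := by
      rw [sum_boole]
    rw [hc]
    split_ifs with h
    · have h2 := h.1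
      have h3 : (Nat.card (KK Γ e Y) : ℝ) ≤ 2 * ((N.filter fun w => w ∈ KK Γ e Y).card : ℝ) := by
        exact_mod_cast h.2
      have h4 : E * G ^ a ≤ 2 * ((N.filter fun w => w ∈ KK Γ e Y).card : ℝ) * G ^ j :=
        h2.trans (mul_le_mul_of_nonneg_right h3 (by positivity))
      have h5 : (0 : ℝ) < E * G ^ a := by positivity
      have h6 : 2 / E * (G ^ j / G ^ a) * ((N.filter fun w => w ∈ KK Γ e Y).card : ℝ) =
          (2 * ((N.filter fun w => w ∈ KK Γ e Y).card : ℝ) * G ^ j) / (E * G ^ a) := by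
        have : (G ^ a : ℝ) ≠ 0 := by positivity
        field_simp
      rw [h6, le_div_iff₀ h5]
      linarith
    · positivity
  have h6 : (Nat.card {Y : Fin j → ι → Ω //
      E * G ^ a ≤ (Nat.card (KK Γ e Y) : ℝ) * G ^ j ∧
        Nat.card (KK Γ e Y) ≤ 2 * (N.filter fun w => w ∈ KK Γ e Y).card} : ℝ) =
      ∑ Y : Fin j → ι → Ω,
        (if E * G ^ a ≤ (Nat.card (KK Γ e Y) : ℝ) * G ^ j ∧
          Nat.card (KK Γ e Y) ≤ 2 * (N.filter fun w => w ∈ KK Γ e Y).card then (1 : ℝ) else 0) := by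
    rw [sum_boole, Nat.card_eq_fintype_card, Fintype.card_subtype]
  rw [h6]
  refine (sum_le_sum fun Y _ => h1 Y).trans ?_
  rw [← mul_sum, sum_comm]
  have h7 : ∀ w ∈ N, (∑ Y : Fin j → ι → Ω, if w ∈ KK Γ e Y then (1 : ℝ) else 0) =
      D ^ j * rho e w ^ j := by
    intro w _
    have h8 : (∑ Y : Fin j → ι → Ω, if w ∈ KK Γ e Y then (1 : ℝ) else 0) =
        (Nat.card {Y : Fin j → ι → Ω // w ∈ KK Γ e Y} : ℝ) := by
      rw [sum_boole, Nat.card_eq_fintype_card, Fintype.card_subtype]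
    rw [h8, card_orth_pow, ← mul_pow]
    unfold rho
    rw [mul_div_cancel₀ _ (ne_of_gt hDpos)]
    push_cast
    rfl
  rw [sum_congr rfl h7, ← mul_sum]
  have h9 : ∀ w ∈ N, G ^ j / G ^ a * rho e w ^ j ≤ rho e w ^ a := by
    intro w hw
    have hr := rho_nonneg e w
    have h10 : 1 ≤ (G * rho e w) ^ (a - j) := one_le_pow₀ (hN w hw)
    have h11 : rho e w ^ a = rho e w ^ j * rho e w ^ (a - j) := by
      rw [← pow_add, Nat.add_sub_cancel' hj]
    have h12 : G ^ a = G ^ j * G ^ (a - j) := by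
      rw [← pow_add, Nat.add_sub_cancel' hj]
    have h13 : G ^ j / G ^ a = 1 / G ^ (a - j) := by
      rw [h12]
      have : (G ^ j : ℝ) ≠ 0 := by positivity
      field_simp
    rw [h13, h11, mul_comm (rho e w ^ j)]
    refine mul_le_mul_of_nonneg_right ?_ (by positivity)
    rw [div_le_iff₀ (by positivity), mul_comm, ← mul_pow]
    exact h10
  have h14 : ∑ w ∈ N, G ^ j / G ^ a * rho e w ^ j ≤ ∑ w ∈ N, rho e w ^ a := sum_le_sum h9
  rw [← mul_sum] at h14
  calc 2 / E * (G ^ j / G ^ a) * (D ^ j * ∑ i ∈ N, rho e i ^ j) =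
      2 / E * D ^ j * (G ^ j / G ^ a * ∑ i ∈ N, rho e i ^ j) := by ring
    _ ≤ 2 / E * D ^ j * ∑ w ∈ N, rho e w ^ a := mul_le_mul_of_nonneg_left h14 (by positivity)
    _ = _ := by ring

open Classical in
/-- **item (2) of 11023**: the arrays for which at least half of the orthogonal tuples are in `N` -/
theorem good_period (e : Ω → ℤ) [Nonempty Ω] (N : Finset (ι → Γ))
    (hN : ∀ w ∈ N, 1 ≤ (Fintype.card Γ : ℝ) * rho e w) (j : ℕ) (hj : j ≤ Fintype.card ι) :
    (Nat.card {Y : Fin j → ι → Ω // Nat.card (KK Γ e Y) ≤ 2 * (N.filter fun w => w ∈ KK Γ e Y).card} : ℝ) ≤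
      2 * (∑ w ∈ N, rho e w ^ Fintype.card ι) * ((Fintype.card Ω : ℝ) ^ Fintype.card ι) ^ j := by
  have h := good_period_excess e N hN j hj 1 one_pos
  simp only [one_mul, div_one] at h
  refine le_trans (le_of_eq ?_) h
  congr 1
  refine Nat.card_congr (Equiv.subtypeEquivRight fun Y => ?_)
  constructor
  · intro h1
    exact ⟨by exact_mod_cast card_KK_ge (Γ := Γ) e Y, h1⟩
  · exact fun h1 => h1.2

/-- the difference law `f a - f b` -/
def dif (f : Ω → ℤ) : Ω × Ω → ℤ := fun z => f z.1 - f z.2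

/-- number of columns with `∑ e (y i) • w i = g` -/
noncomputable def at' (e : Ω → ℤ) (w : ι → Γ) (g : Γ) : ℕ :=
  Nat.card {y : ι → Ω // ∑ i, e (y i) • w i = g}

theorem at_dif (f : Ω → ℤ) (w : ι → Γ) (g : Γ) :
    at' (dif f) w g = ∑ h : Γ, at' f w (h + g) * at' f w h := by
  classical
  have h1 : at' (dif f) w g = Nat.card {z : (ι → Ω) × (ι → Ω) //
      (∑ i, f (z.1 i) • w i) = (∑ i, f (z.2 i) • w i) + g} := by
    refine Nat.card_congr
      { toFun := fun y => ⟨(fun i => (y.1 i).1, fun i => (y.1 i).2), ?_⟩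
        invFun := fun z => ⟨fun i => (z.1.1 i, z.1.2 i), ?_⟩
        left_inv := fun _ => rfl
        right_inv := fun _ => rfl }
    · have h := y.2
      simp only [dif, sub_smul, sum_sub_distrib] at h
      exact (sub_eq_iff_eq_add'.1 h)
    · have h := z.2
      simp only [dif, sub_smul, sum_sub_distrib]
      rw [h]
      abel
  rw [h1]
  have h2 : Nat.card {z : (ι → Ω) × (ι → Ω) //
      (∑ i, f (z.1 i) • w i) = (∑ i, f (z.2 i) • w i) + g} =
      Nat.card (Σ h : Γ, {y : ι → Ω // ∑ i, f (y i) • w i = h + g} × {y : ι → Ω // ∑ i, f (y i) • w i = h}) := by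
    refine Nat.card_congr
      { toFun := fun z => ⟨∑ i, f (z.1.2 i) • w i, ⟨z.1.1, z.2⟩, ⟨z.1.2, rfl⟩⟩
        invFun := fun z => ⟨(z.2.1.1, z.2.2.1), by rw [z.2.1.2, z.2.2.2]⟩
        left_inv := fun _ => rfl
        right_inv := ?_ }
    rintro ⟨h, ⟨y, hy⟩, ⟨y', hy'⟩⟩
    subst hy'
    rfl
  rw [h2, Nat.card_sigma]
  refine sum_congr rfl fun h _ => ?_
  rw [Nat.card_prod]
  rfl

/-- the atom at `0` is the largest for a difference law -/
theorem at_le (f : Ω → ℤ) (w : ι → Γ) (g : Γ) : at' (dif f) w g ≤ at' (dif f) w 0 := by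
  rw [at_dif, at_dif]
  have h1 : ∑ h : Γ, at' f w (h + g) ^ 2 = ∑ h : Γ, at' f w h ^ 2 :=
    Fintype.sum_equiv (Equiv.addRight g) _ _ fun h => rfl
  have h2 : ∀ h : Γ, 2 * (at' f w (h + g) * at' f w h) ≤ at' f w (h + g) ^ 2 + at' f w h ^ 2 := by
    intro h
    have := sq_nonneg ((at' f w (h + g) : ℤ) - at' f w h)
    zify
    nlinarith
  have h3 := sum_le_sum (s := univ) fun h (_ : h ∈ univ) => h2 h
  rw [← mul_sum, sum_add_distrib, h1] at h3
  simp only [add_zero]
  have h4 : ∑ h : Γ, at' f w h * at' f w h = ∑ h : Γ, at' f w h ^ 2 :=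
    sum_congr rfl fun h _ => (sq _).symm
  rw [h4]
  omega

/-- **flatness is inherited by quotients** (difference laws) -/
theorem rho_proj {Γ' : Type*} [AddCommGroup Γ'] [Fintype Γ'] (f : Ω → ℤ) (w : ι → Γ)
    (π : Γ →+ Γ') (hπ : Function.Surjective π) :
    (Fintype.card Γ' : ℝ) * rho (dif f) (fun i => π (w i)) ≤
      (Fintype.card Γ : ℝ) * rho (dif f) w := by
  classical
  have h1 : orth (dif f) (fun i => π (w i)) = ∑ g ∈ univ.filter (fun g : Γ => π g = 0), at' (dif f) w g := by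
    have h2 : orth (dif f) (fun i => π (w i)) =
        Nat.card (Σ g : {g : Γ // π g = 0}, {y : ι → Ω × Ω // ∑ i, dif f (y i) • w i = g}) := by
      refine Nat.card_congr
        { toFun := fun y => ⟨⟨∑ i, dif f (y.1 i) • w i, ?_⟩, ⟨y.1, rfl⟩⟩
          invFun := fun z => ⟨z.2.1, ?_⟩
          left_inv := fun _ => rfl
          right_inv := ?_ }
      · rw [map_sum]
        simp only [map_zsmul]
        exact y.2
      · have h := congrArg π z.2.2
        rw [map_sum, z.1.2] at h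
        simp only [map_zsmul] at h
        exact h
      · rintro ⟨⟨g, hg⟩, ⟨y, hy⟩⟩
        simp only at hy
        subst hy
        rfl
    rw [h2, Nat.card_sigma]
    exact (Finset.sum_subtype (univ.filter (fun g : Γ => π g = 0)) (fun g => by simp)
      (fun g => at' (dif f) w g)).symm
  have h3 : orth (dif f) (fun i => π (w i)) ≤ (univ.filter (fun g : Γ => π g = 0)).card * orth (dif f) w := by
    rw [h1]
    calc _ ≤ ∑ _g ∈ univ.filter (fun g : Γ => π g = 0), at' (dif f) w 0 :=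
          sum_le_sum fun g _ => at_le f w g
      _ = _ := by rw [sum_const, smul_eq_mul]; rfl
  have h4 : Fintype.card Γ = Fintype.card Γ' * (univ.filter (fun g : Γ => π g = 0)).card := by
    have h5 := AddSubgroup.card_eq_card_quotient_mul_card_addSubgroup π.ker
    rw [Nat.card_congr (QuotientAddGroup.quotientKerEquivOfSurjective π hπ).toEquiv,
      Nat.card_eq_fintype_card, Nat.card_eq_fintype_card (α := Γ')] at h5
    rw [h5]
    congr 1
    rw [← Fintype.card_subtype, ← Nat.card_eq_fintype_card]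
    exact Nat.card_congr (Equiv.subtypeEquivRight fun g => by rw [AddMonoidHom.mem_ker])
  unfold rho
  rw [← mul_div_assoc, ← mul_div_assoc]
  refine div_le_div_of_nonneg_right ?_ (by positivity)
  rw [h4]
  push_cast
  have h6 : (orth (dif f) (fun i => π (w i)) : ℝ) ≤
      ((univ.filter (fun g : Γ => π g = 0)).card : ℝ) * orth (dif f) w := by exact_mod_cast h3
  calc (Fintype.card Γ' : ℝ) * orth (dif f) (fun i => π (w i)) ≤
      Fintype.card Γ' * (((univ.filter (fun g : Γ => π g = 0)).card : ℝ) * orth (dif f) w) :=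
        mul_le_mul_of_nonneg_left h6 (by positivity)
    _ = _ := by ring

end Vale.Agent.P160.Half.GoodPer
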