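import Vale.Agent.P160.Half.Near

namespace Vale.Agent.P160.Half

open Finset

/-- Adding one more function and one more point multiplies the determinant by the value of the
function, corrected to vanish at the old points. -/
theorem det_snoc {m ρ : ℕ} (g : Fin (ρ + 1) → Fin m → ℝ) (R : Fin ρ → Fin m)
    (hdet : (Matrix.of fun a b => g (Fin.castSucc a) (R b)).det ≠ 0) :
    ∃ c : Fin ρ → ℝ, (∀ b, ∑ a, c a * g (Fin.castSucc a) (R b) = g (Fin.last ρ) (R b)) ∧
      ∀ j : Fin m,
      (Matrix.of fun a b => g a ((Fin.snoc R j : Fin (ρ + 1) → Fin m) b)).det =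
        (Matrix.of fun a b => g (Fin.castSucc a) (R b)).det *
          (g (Fin.last ρ) j - ∑ a, c a * g (Fin.castSucc a) j) := by
  classical
  let A : Matrix (Fin ρ) (Fin ρ) ℝ := Matrix.of fun a b => g (Fin.castSucc a) (R b)
  have hA : IsUnit A.det := isUnit_iff_ne_zero.2 hdet
  let c : Fin ρ → ℝ := Matrix.vecMul (fun b => g (Fin.last ρ) (R b)) A⁻¹
  have hc : Matrix.vecMul c A = fun b => g (Fin.last ρ) (R b) := by
    change Matrix.vecMul (Matrix.vecMul _ _) _ = _
    rw [Matrix.vecMul_vecMul, Matrix.nonsing_inv_mul _ hA, Matrix.vecMul_one]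
  refine ⟨c, fun b => congrFun hc b, fun j => ?_⟩
  have : Invertible A := Matrix.invertibleOfIsUnitDet A hA
  let B : Matrix (Fin ρ) (Fin 1) ℝ := Matrix.of fun a _ => g (Fin.castSucc a) j
  let C : Matrix (Fin 1) (Fin ρ) ℝ := Matrix.of fun _ b => g (Fin.last ρ) (R b)
  let D : Matrix (Fin 1) (Fin 1) ℝ := Matrix.of fun _ _ => g (Fin.last ρ) j
  have h1 : (Matrix.of fun a b => g a ((Fin.snoc R j : Fin (ρ + 1) → Fin m) b)).submatrix
      finSumFinEquiv finSumFinEquiv = Matrix.fromBlocks A B C D := by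
    ext a b
    rcases a with a | a <;> rcases b with b | b
    · simp only [Matrix.submatrix_apply, Matrix.of_apply, Matrix.fromBlocks_apply₁₁,
        finSumFinEquiv_apply_left, A]
      have e1 : (Fin.castAdd 1 a : Fin (ρ + 1)) = Fin.castSucc a := rfl
      have e2 : (Fin.castAdd 1 b : Fin (ρ + 1)) = Fin.castSucc b := rfl
      rw [e1, e2, Fin.snoc_castSucc]
    · simp only [Matrix.submatrix_apply, Matrix.of_apply, Matrix.fromBlocks_apply₁₂,
        finSumFinEquiv_apply_left, finSumFinEquiv_apply_right, B]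
      have e1 : (Fin.castAdd 1 a : Fin (ρ + 1)) = Fin.castSucc a := rfl
      have e2 : (Fin.natAdd ρ b : Fin (ρ + 1)) = Fin.last ρ := by
        ext; simp
      rw [e1, e2, Fin.snoc_last]
    · simp only [Matrix.submatrix_apply, Matrix.of_apply, Matrix.fromBlocks_apply₂₁,
        finSumFinEquiv_apply_left, finSumFinEquiv_apply_right, C]
      have e1 : (Fin.castAdd 1 b : Fin (ρ + 1)) = Fin.castSucc b := rfl
      have e2 : (Fin.natAdd ρ a : Fin (ρ + 1)) = Fin.last ρ := by
        ext; simp
      rw [e1, e2, Fin.snoc_castSucc]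
    · simp only [Matrix.submatrix_apply, Matrix.of_apply, Matrix.fromBlocks_apply₂₂,
        finSumFinEquiv_apply_right, D]
      have e1 : (Fin.natAdd ρ a : Fin (ρ + 1)) = Fin.last ρ := by
        ext; simp
      have e2 : (Fin.natAdd ρ b : Fin (ρ + 1)) = Fin.last ρ := by
        ext; simp
      rw [e1, e2, Fin.snoc_last]
  rw [← Matrix.det_submatrix_equiv_self finSumFinEquiv, h1, Matrix.det_fromBlocks₁₁]
  congr 1
  rw [Matrix.det_fin_one]
  have h2 : (C * ⅟A) = Matrix.of fun _ a => c a := by
    ext x a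
    rw [Matrix.invOf_eq_nonsing_inv]
    simp only [Matrix.mul_apply, Matrix.of_apply, C]
    rfl
  rw [h2]
  simp only [Matrix.sub_apply, Matrix.mul_apply, Matrix.of_apply, B, D]

/-- (N3) sequential elimination: many choices of rows with a large determinant. -/
theorem card_good_rows {m s : ℕ} (τ : ℝ) (hτ : 0 < τ) : ∀ {ρ : ℕ} (g : Fin ρ → Fin m → ℝ),
    (∀ i : Fin ρ, ∀ c : Fin ρ → ℝ, (∀ a, i ≤ a → c a = 0) →
      s ≤ (univ.filter fun j => τ ≤ |g i j - ∑ a, c a * g a j|).card) →
    s ^ ρ ≤ (univ.filter fun R : Fin ρ → Fin m =>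
      τ ^ ρ ≤ |(Matrix.of fun a b => g a (R b)).det|).card := by
  classical
  intro ρ
  induction ρ with
  | zero =>
    intro g _
    rw [pow_zero]
    refine Nat.one_le_iff_ne_zero.2 (Finset.card_ne_zero.2 ⟨Fin.elim0, ?_⟩)
    rw [mem_filter]
    refine ⟨mem_univ _, ?_⟩
    rw [Matrix.det_isEmpty]
    simp
  | succ ρ ih =>
    intro g h
    have ih' := ih (fun i => g (Fin.castSucc i)) (by
      intro i c hc
      have := h (Fin.castSucc i) (Fin.snoc c 0) (by
        intro a ha
        induction a using Fin.lastCases with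
        | last => rw [Fin.snoc_last]
        | cast a =>
          rw [Fin.snoc_castSucc]
          exact hc a (by simpa using ha))
      refine this.trans (card_le_card ?_)
      intro j hj
      rw [mem_filter] at hj ⊢
      refine ⟨mem_univ _, ?_⟩
      have h2 := hj.2
      rw [Fin.sum_univ_castSucc] at h2
      simpa [Fin.snoc_castSucc, Fin.snoc_last] using h2)
    set 𝓡 := univ.filter fun R : Fin ρ → Fin m =>
      τ ^ ρ ≤ |(Matrix.of fun a b => g (Fin.castSucc a) (R b)).det| with h𝓡
    have hpos : 0 < τ ^ ρ := pow_pos hτ ρ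
    have hne : ∀ R ∈ 𝓡, (Matrix.of fun a b => g (Fin.castSucc a) (R b)).det ≠ 0 := by
      intro R hR h0
      have := (mem_filter.1 hR).2
      rw [h0, abs_zero] at this
      linarith
    -- for a good `R` choose the correction
    have key : ∀ R ∈ 𝓡, ∃ J : Finset (Fin m), s ≤ J.card ∧ ∀ j ∈ J,
        τ ^ (ρ + 1) ≤ |(Matrix.of fun a b => g a ((Fin.snoc R j : Fin (ρ + 1) → Fin m) b)).det| := by
      intro R hR
      obtain ⟨c, _, hc2⟩ := det_snoc g R (hne R hR)
      refine ⟨univ.filter fun j => τ ≤ |g (Fin.last ρ) j - ∑ a, (Fin.snoc c 0 : Fin (ρ + 1) → ℝ) a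
        * g a j|, h (Fin.last ρ) (Fin.snoc c 0) ?_, ?_⟩
      · intro a ha
        have : a = Fin.last ρ := Fin.last_le_iff.1 ha
        rw [this, Fin.snoc_last]
      · intro j hj
        have h3 := (mem_filter.1 hj).2
        rw [Fin.sum_univ_castSucc] at h3
        simp only [Fin.snoc_castSucc, Fin.snoc_last, zero_mul, add_zero] at h3
        rw [hc2 j, abs_mul, pow_succ]
        exact mul_le_mul (mem_filter.1 hR).2 h3 hτ.le (abs_nonneg _)
    choose! J hJ1 hJ2 using key
    calc s ^ (ρ + 1) = s ^ ρ * s := pow_succ _ _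
      _ ≤ 𝓡.card * s := Nat.mul_le_mul_right _ ih'
      _ = ∑ _R ∈ 𝓡, s := by rw [sum_const, smul_eq_mul]
      _ ≤ ∑ R ∈ 𝓡, (J R).card := sum_le_sum fun R hR => hJ1 R hR
      _ = (𝓡.sigma J).card := (card_sigma _ _).symm
      _ = ((𝓡.sigma J).image
            (fun x => (Fin.snoc x.1 x.2 : Fin (ρ + 1) → Fin m))).card := by
          rw [card_image_of_injective]
          rintro ⟨R, j⟩ ⟨R', j'⟩ hh
          have e1 : R = R' := by
            funext b
            have := congrFun hh (Fin.castSucc b)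
            simpa [Fin.snoc_castSucc] using this
          have e2 : j = j' := by
            have := congrFun hh (Fin.last ρ)
            simpa [Fin.snoc_last] using this
          subst e1; subst e2; rfl
      _ ≤ _ := by
          refine card_le_card ?_
          intro x hx
          rw [mem_image] at hx
          obtain ⟨⟨R, j⟩, hRj, rfl⟩ := hx
          rw [mem_sigma] at hRj
          rw [mem_filter]
          exact ⟨mem_univ _, hJ2 R hRj.1 j hRj.2⟩

end Vale.Agent.P160.Half
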