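import Vale.Agent.P160.Half.GStmt3
import Vale.Agent.P160.Half.Near2

/-! # P160, half rate: `GoodRStmt` (many rows with a large minor, avoiding a set) -/

set_option linter.unusedSectionVars false

open Finset Matrix

namespace Vale.Agent.P160.Half.G.GoodR288

open A

/-- Bernoulli, in the form needed. -/
theorem bern (n a ρ : ℕ) (b : ℝ) (hb : (a : ℝ) ≤ b) :
    (n : ℝ) ^ ρ - ρ * b * (n : ℝ) ^ (ρ - 1) ≤ (((n - a : ℕ) : ℝ)) ^ ρ := by
  rcases Nat.eq_zero_or_pos ρ with rfl | hρ
  · simp
  obtain ⟨r, rfl⟩ := Nat.exists_eq_add_of_le' (show 1 ≤ ρ by omega)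
  rw [Nat.add_sub_cancel]
  have hn0 : (0 : ℝ) ≤ n := by positivity
  have ha0 : (0 : ℝ) ≤ a := by positivity
  rcases Nat.lt_or_ge n a with h | h
  · have h1 : (n : ℝ) ^ (r + 1) - ((r + 1 : ℕ) : ℝ) * b * (n : ℝ) ^ r ≤ 0 := by
      have h2 : (n : ℝ) ≤ b := by
        have : (n : ℝ) ≤ a := by exact_mod_cast h.le
        linarith
      have h3 : (0 : ℝ) ≤ (n : ℝ) ^ r := by positivity
      have h4 : (n : ℝ) ≤ ((r + 1 : ℕ) : ℝ) * b := by
        have h5 : (1 : ℝ) ≤ ((r + 1 : ℕ) : ℝ) := by
          push_cast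
          have : (0 : ℝ) ≤ r := by positivity
          linarith
        have h6 : 0 ≤ b := hn0.trans h2
        nlinarith
      rw [pow_succ]
      nlinarith
    exact h1.trans (by positivity)
  · rw [Nat.cast_sub h]
    have key : ∀ r : ℕ, (n : ℝ) ^ (r + 1) - ((r + 1 : ℕ) : ℝ) * a * (n : ℝ) ^ r ≤
        ((n : ℝ) - a) ^ (r + 1) := by
      intro r
      have hna : (0 : ℝ) ≤ (n : ℝ) - a := by
        have : (a : ℝ) ≤ n := by exact_mod_cast h
        linarith
      induction r with
      | zero => simp
      | succ r ih =>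
        have h1 := mul_le_mul_of_nonneg_right ih hna
        rw [← pow_succ] at h1
        refine le_trans (le_of_sub_nonneg ?_) h1
        have h2 : (0 : ℝ) ≤ (n : ℝ) ^ r := by positivity
        have h3 : ((n : ℝ) ^ (r + 1) - ((r + 1 : ℕ) : ℝ) * a * (n : ℝ) ^ r) * ((n : ℝ) - a) -
            ((n : ℝ) ^ (r + 1 + 1) - ((r + 1 + 1 : ℕ) : ℝ) * a * (n : ℝ) ^ (r + 1)) =
            ((r + 1 : ℕ) : ℝ) * a ^ 2 * (n : ℝ) ^ r := by
          push_cast
          ring
        rw [h3]
        positivity
    refine le_trans ?_ (key r)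
    have h5 : (0 : ℝ) ≤ ((r + 1 : ℕ) : ℝ) * (n : ℝ) ^ r := by positivity
    nlinarith

theorem goodr : GoodRStmt := by
  classical
  intro n β _ _ g τ s X hτ hg
  set ρ := Fintype.card β with hρ
  let e : β ≃ Fin ρ := Fintype.equivFin β
  -- the functions, made zero on `X`
  let g' : Fin ρ → Fin n → ℝ := fun i j => if j ∈ X then 0 else ((g (e.symm i) j : ℚ) : ℝ)
  have hcount : ∀ i : Fin ρ, ∀ c : Fin ρ → ℝ, (∀ a, i ≤ a → c a = 0) →
      n - (s + X.card) ≤ (univ.filter fun j => τ ≤ |g' i j - ∑ a, c a * g' a j|).card := by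
    intro i c hc
    -- normalise
    let d : Fin ρ → ℝ := fun a => (if a = i then 1 else 0) - c a
    have hdi : d i = 1 := by simp [d, hc i le_rfl]
    obtain ⟨i0, -, hi0⟩ := Finset.exists_max_image (univ : Finset (Fin ρ)) (fun a => |d a|)
      ⟨i, mem_univ i⟩
    set m := |d i0| with hm
    have hm1 : 1 ≤ m := by
      have := hi0 i (mem_univ i)
      rw [hdi, abs_one] at this
      exact this
    have hm0 : 0 < m := by linarith
    have hg' := hg (fun q => d (e q) / m) (fun q => by
      rw [abs_div, abs_of_pos hm0, div_le_one hm0]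
      exact hi0 _ (mem_univ _)) ⟨e.symm i0, by
        rw [Equiv.apply_symm_apply, abs_div, abs_of_pos hm0, ← hm, div_self hm0.ne']⟩
    -- the complement
    have hsub : (univ : Finset (Fin n)) ⊆ (univ.filter fun j => τ ≤ |g' i j - ∑ a, c a * g' a j|) ∪
        (X ∪ (univ.filter fun j => |∑ q, (d (e q) / m) * ((g q j : ℚ) : ℝ)| < τ)) := by
      intro j _
      by_cases hjX : j ∈ X
      · exact mem_union_right _ (mem_union_left _ hjX)
      by_cases hjs : |∑ q, (d (e q) / m) * ((g q j : ℚ) : ℝ)| < τ
      · exact mem_union_right _ (mem_union_right _ (mem_filter.2 ⟨mem_univ _, hjs⟩))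
      refine mem_union_left _ (mem_filter.2 ⟨mem_univ _, ?_⟩)
      rw [not_lt] at hjs
      have h1 : g' i j - ∑ a, c a * g' a j = ∑ a, d a * g' a j := by
        simp only [d, sub_mul, sum_sub_distrib, ite_mul, one_mul, zero_mul, sum_ite_eq',
          mem_univ, if_true]
      have h2 : ∑ a, d a * g' a j = m * ∑ q, (d (e q) / m) * ((g q j : ℚ) : ℝ) := by
        rw [← Equiv.sum_comp e, mul_sum]
        refine sum_congr rfl fun q _ => ?_
        have h3 : g' (e q) j = ((g q j : ℚ) : ℝ) := by
          simp only [g', if_neg hjX, Equiv.symm_apply_apply]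
        rw [h3]
        field_simp
      rw [h1, h2, abs_mul, abs_of_pos hm0]
      nlinarith
    have hc1 := (card_le_card hsub).trans (card_union_le _ _)
    have hc2 := card_union_le X (univ.filter fun j => |∑ q, (d (e q) / m) * ((g q j : ℚ) : ℝ)| < τ)
    have hc3 : (univ.filter fun j => |∑ q, (d (e q) / m) * ((g q j : ℚ) : ℝ)| < τ).card ≤ s := by
      refine le_trans (le_of_eq ?_) hg'
      rw [← Set.ncard_coe_finset]
      congr 1
      ext j
      simp
    rw [card_univ, Fintype.card_fin] at hc1
    omega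
  have hmain := card_good_rows τ hτ g' hcount
  -- transfer
  have hle : (univ.filter fun R : Fin ρ → Fin n =>
      τ ^ ρ ≤ |(Matrix.of fun a b => g' a (R b)).det|).card ≤
      Nat.card {R : β → Fin n // Function.Injective R ∧ (∀ i, R i ∉ X) ∧
        τ ^ Fintype.card β ≤ |((minor R g : ℚ) : ℝ)|} := by
    rw [Nat.card_eq_fintype_card, Fintype.card_subtype]
    refine card_le_card_of_injOn (fun R => R ∘ e) ?_ ?_
    · intro R hR
      have hR' := (mem_filter.1 hR).2
      have hpos : 0 < τ ^ ρ := pow_pos hτ ρ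
      have hdet : (Matrix.of fun a b => g' a (R b)).det ≠ 0 := by
        intro h0
        rw [h0, abs_zero] at hR'
        linarith
      have hX : ∀ b, R b ∉ X := by
        intro b hb
        apply hdet
        refine Matrix.det_eq_zero_of_column_eq_zero b fun a => ?_
        simp only [Matrix.of_apply, g', if_pos hb]
      have hinj : Function.Injective R := by
        intro b b' hbb
        by_contra hne
        apply hdet
        refine Matrix.det_zero_of_column_eq hne fun a => ?_
        simp only [Matrix.of_apply, hbb]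
      rw [Finset.mem_coe, mem_filter]
      refine ⟨mem_univ _, hinj.comp e.injective, fun i => hX _, ?_⟩
      have h1 : ((minor (R ∘ e) g : ℚ) : ℝ) = (Matrix.of fun a b => g' a (R b)).det := by
        unfold minor
        have h2 : (Matrix.of fun a b => g' a (R b)) =
            ((Matrix.of fun i k : β => g i ((R ∘ e) k)).map (Rat.castHom ℝ)).submatrix
              e.symm e.symm := by
          ext a b
          simp only [Matrix.of_apply, g', if_neg (hX b), Matrix.submatrix_apply, Matrix.map_apply,
            Function.comp_apply, Equiv.apply_symm_apply, Rat.coe_castHom]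
        rw [h2, Matrix.det_submatrix_equiv_self, ← RingHom.mapMatrix_apply, ← RingHom.map_det]
        rfl
      rw [h1]
      exact hR'
    · intro R _ R' _ hRR
      have h1 : R ∘ e = R' ∘ e := hRR
      funext b
      have := congrFun h1 (e.symm b)
      simpa using this
  have hb := bern n (s + X.card) ρ ((s : ℝ) + X.card + ρ) (by
    push_cast
    have : (0 : ℝ) ≤ ρ := by positivity
    linarith)
  refine hb.trans ?_
  have h3 : (n - (s + X.card)) ^ ρ ≤ Nat.card {R : β → Fin n // Function.Injective R ∧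
      (∀ i, R i ∉ X) ∧ τ ^ Fintype.card β ≤ |((minor R g : ℚ) : ℝ)|} := hmain.trans hle
  exact_mod_cast h3

end Vale.Agent.P160.Half.G.GoodR288
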