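import Vale.Agent.P160.Model

set_option linter.unusedSectionVars false

/-! # P160/Half: the half size reduction with coefficients in any finite abelian group `A`

(`A = ZMod N`: one kernel vector, `A = Fin r → ZMod N`: `r` kernel vectors at once; no condition on `N`).
`S` uniform symmetric 0/1 matrix on `ι`, `D ⊆ ι`, `Y` iid lazy matrix (entries `±1` with probability
`1/M` each, `M ≥ 8`) with rows indexed by `ι ∖ D` and columns by `D`.

* `SprA_le_BprA`: `P(S v = w) ≤ P(Y v_D = 0 ∧ Yᵀ v_{ι∖D} = 0)`.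
* `sum_SprA_le`: `E #{v ∈ V : S v = 0} ≤ E #{(x,z) ∈ V : Y x = 0, Yᵀ z = 0}`.
-/

namespace Vale.Agent.P160.Half

open Finset Vale.Agent.P160

section model

variable {A : Type*} [AddCommGroup A] [Fintype A] [DecidableEq A]
variable {ι : Type*} [Fintype ι] [DecidableEq ι]

/-- `P(S v = w)` over the uniform symmetric 0/1 matrix `S`. -/
noncomputable def SprA (v w : ι → A) : ℝ :=
  ((univ.filter (fun b : Sym2 ι → Bool => smul2 b v = w)).card : ℝ) /
    (2 : ℝ) ^ Fintype.card (Sym2 ι)

/-- `P(Y x = 0 ∧ Yᵀ z = 0)` over the lazy matrix `Y`. -/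
noncomputable def BprA {α β : Type*} [Fintype α] [Fintype β] [DecidableEq α] [DecidableEq β]
    (M : ℕ) (x : α → A) (z : β → A) : ℝ :=
  ((univ.filter (fun ω : β → α → Fin M =>
    (∀ i, gwalk (ω i) x = 0) ∧ ∀ j, gwalk (fun i => ω i j) z = 0)).card : ℝ) /
      (M : ℝ) ^ (Fintype.card β * Fintype.card α)

omit [Fintype A] [DecidableEq A] in
lemma bwalk_symcA (b : Sym2 ι → Bool) (v : ι → A) : bwalk b (symc v) = smul2 b v := by
  funext i
  unfold bwalk smul2 symc
  rw [Finset.sum_apply]
  have h1 : ∀ e : Sym2 ι, (if b e then (fun i => ∑ j, if s(i, j) = e then v j else 0) else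
      (0 : ι → A)) i = ∑ j, if s(i, j) = e then (if b s(i, j) then v j else 0) else 0 := by
    intro e
    split_ifs with h
    · refine sum_congr rfl fun j _ => ?_
      split_ifs with h2 h3
      · rfl
      · rw [h2] at h3; exact absurd h h3
      · rfl
    · rw [Pi.zero_apply]
      symm
      apply sum_eq_zero
      intro j _
      split_ifs with h2 h3
      · rw [h2] at h3; exact absurd h3 h
      · rfl
      · rfl
  rw [sum_congr rfl fun e _ => h1 e, sum_comm]
  refine sum_congr rfl fun j _ => ?_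
  rw [sum_ite_eq]
  simp only [mem_univ, ↓reduceIte]

lemma SprA_eq_bpr (v w : ι → A) : SprA v w = bpr (symc v) w := by
  unfold SprA bpr
  simp only [bwalk_symcA]

omit [Fintype A] [DecidableEq A] in
lemma symc_neA (v : ι → A) {i j : ι} (hij : i ≠ j) :
    symc v s(i, j) = Pi.single i (v j) + Pi.single j (v i) := by
  funext k
  unfold symc
  simp only [Pi.add_apply]
  by_cases hki : k = i
  · subst hki
    rw [Pi.single_eq_same, Pi.single_eq_of_ne hij, add_zero]
    rw [Finset.sum_eq_single j]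
    · simp
    · intro l _ hl
      rw [if_neg]
      intro h
      rw [Sym2.eq_iff] at h
      rcases h with h | h
      · exact hl h.2
      · exact hij h.1
    · simp
  · by_cases hkj : k = j
    · subst hkj
      rw [Pi.single_eq_same, Pi.single_eq_of_ne hki, zero_add]
      rw [Finset.sum_eq_single i]
      · rw [if_pos]
        exact Sym2.eq_swap
      · intro l _ hl
        rw [if_neg]
        intro h
        rw [Sym2.eq_iff] at h
        rcases h with h | h
        · exact hki h.1
        · exact hl h.2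
      · simp
    · rw [Pi.single_eq_of_ne hki, Pi.single_eq_of_ne hkj, zero_add]
      apply sum_eq_zero
      intro l _
      rw [if_neg]
      intro h
      rw [Sym2.eq_iff] at h
      rcases h with h | h
      · exact hki h.1
      · exact hkj h.1

variable (D : Finset ι)

omit [Fintype A] [DecidableEq A] in
lemma gwalk_offpA {M : ℕ} (v : ι → A)
    (ω : {i // i ∉ D} × {i // i ∈ D} → Fin M) (k : ι) :
    gwalk ω (fun p => symc v (offp D p)) k =
      if hk : k ∈ D then gwalk (fun i => ω (i, ⟨k, hk⟩)) (fun i : {i // i ∉ D} => v i)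
      else gwalk (fun j => ω (⟨k, hk⟩, j)) (fun j : {i // i ∈ D} => v j) := by
  unfold gwalk
  rw [Finset.sum_apply]
  have h1 : ∀ p : {i // i ∉ D} × {i // i ∈ D},
      ((st (ω p)) • symc v (offp D p)) k =
        (st (ω p)) • ((Pi.single p.1.1 (v p.2) : ι → A) k +
          (Pi.single p.2.1 (v p.1) : ι → A) k) := by
    intro p
    have hne : p.1.1 ≠ p.2.1 := fun h => p.1.2 (h ▸ p.2.2)
    rw [Pi.smul_apply]
    unfold offp
    rw [symc_neA v hne, Pi.add_apply]
  rw [sum_congr rfl fun p _ => h1 p, Fintype.sum_prod_type]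
  by_cases hk : k ∈ D
  · rw [dif_pos hk]
    refine sum_congr rfl fun i _ => ?_
    rw [Finset.sum_eq_single (⟨k, hk⟩ : {i // i ∈ D})]
    · have : k ≠ i.1 := fun h => i.2 (h ▸ hk)
      rw [Pi.single_eq_of_ne this, Pi.single_eq_same, zero_add]
    · intro j _ hj
      have h2 : k ≠ i.1 := fun h => i.2 (h ▸ hk)
      have h3 : k ≠ j.1 := fun h => hj (Subtype.ext h.symm)
      rw [Pi.single_eq_of_ne h2, Pi.single_eq_of_ne h3, add_zero, smul_zero]
    · simp
  · rw [dif_neg hk]
    rw [Finset.sum_eq_single (⟨k, hk⟩ : {i // i ∉ D})]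
    · refine sum_congr rfl fun j _ => ?_
      have : k ≠ j.1 := fun h => hk (h ▸ j.2)
      rw [Pi.single_eq_same, Pi.single_eq_of_ne this, add_zero]
    · intro i _ hi
      apply sum_eq_zero
      intro j _
      have h2 : k ≠ i.1 := fun h => hi (Subtype.ext h.symm)
      have h3 : k ≠ j.1 := fun h => hk (h ▸ j.2)
      rw [Pi.single_eq_of_ne h2, Pi.single_eq_of_ne h3, add_zero, smul_zero]
    · simp

omit [Fintype A] [DecidableEq A] in
lemma gwalk_offpA_eq_zero {M : ℕ} (v : ι → A)
    (ω : {i // i ∉ D} × {i // i ∈ D} → Fin M) :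
    gwalk ω (fun p => symc v (offp D p)) = 0 ↔
      (∀ i : {i // i ∉ D}, gwalk (fun j => ω (i, j)) (fun j : {i // i ∈ D} => v j) = 0) ∧
      ∀ j : {i // i ∈ D}, gwalk (fun i => ω (i, j)) (fun i : {i // i ∉ D} => v i) = 0 := by
  constructor
  · intro h
    constructor
    · intro i
      have := congrFun h i.1
      rw [gwalk_offpA, dif_neg i.2] at this
      exact this
    · intro j
      have := congrFun h j.1
      rw [gwalk_offpA, dif_pos j.2] at this
      exact this
  · rintro ⟨h1, h2⟩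
    funext k
    rw [gwalk_offpA]
    split_ifs with hk
    · exact h2 ⟨k, hk⟩
    · exact h1 ⟨k, hk⟩

lemma gpr_offpA {M : ℕ} (v : ι → A) :
    gpr M (fun p => symc v (offp D p)) 0 =
      BprA M (fun j : {i // i ∈ D} => v j) (fun i : {i // i ∉ D} => v i) := by
  unfold gpr BprA
  congr 1
  · congr 1
    apply Finset.card_bij (fun ω _ => fun i j => ω (i, j))
    · intro ω hω
      simp only [mem_filter, mem_univ, true_and] at hω ⊢
      exact (gwalk_offpA_eq_zero D v ω).1 hω
    · intro ω _ ω' _ h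
      funext p
      exact congrFun (congrFun h p.1) p.2
    · intro ω hω
      refine ⟨fun p => ω p.1 p.2, ?_, rfl⟩
      simp only [mem_filter, mem_univ, true_and] at hω ⊢
      exact (gwalk_offpA_eq_zero D v _).2 hω
  · rw [Fintype.card_prod]

/-- Domination: the symmetric 0/1 matrix is dominated by the lazy bipartite matrix. -/
theorem SprA_le_BprA {M : ℕ} (hM : 8 ≤ M) (v w : ι → A) :
    SprA v w ≤ BprA M (fun j : {i // i ∈ D} => v j) (fun i : {i // i ∉ D} => v i) := by
  rw [SprA_eq_bpr, ← gpr_offpA D v]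
  exact bpr_le_gpr hM (offp D) (offp_injective D) (symc v) w

/-- Splitting a vector into its `D`-part and its complement part. -/
def splitE : (ι → A) ≃ ({i // i ∈ D} → A) × ({i // i ∉ D} → A) :=
  Equiv.piEquivPiSubtypeProd (fun i => i ∈ D) fun _ => A

open Classical in
/-- `E #{v ∈ V : S v = 0} ≤ E #{(x,z) ∈ V : Y x = 0, Yᵀ z = 0}`. -/
theorem sum_SprA_le {M : ℕ} (hM : 8 ≤ M) (V : Finset (({i // i ∈ D} → A) × ({i // i ∉ D} → A))) :
    ∑ v ∈ univ.filter (fun v : ι → A => splitE D v ∈ V), SprA v 0 ≤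
      (∑ ω : {i // i ∉ D} → {i // i ∈ D} → Fin M,
        ((V.filter fun p => (∀ i, gwalk (ω i) p.1 = 0) ∧
          ∀ j, gwalk (fun i => ω i j) p.2 = 0).card : ℝ)) /
        (M : ℝ) ^ (Fintype.card {i // i ∉ D} * Fintype.card {i // i ∈ D}) := by
  have h1 : ∑ v ∈ univ.filter (fun v : ι → A => splitE D v ∈ V), SprA v 0 ≤
      ∑ v ∈ univ.filter (fun v : ι → A => splitE D v ∈ V),
        BprA M (splitE D v).1 (splitE D v).2 :=
    sum_le_sum fun v _ => SprA_le_BprA D hM v 0
  have h2 : ∑ v ∈ univ.filter (fun v : ι → A => splitE D v ∈ V),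
        BprA M (splitE D v).1 (splitE D v).2 = ∑ p ∈ V, BprA M p.1 p.2 := by
    refine sum_bij (fun v _ => splitE D v) (fun v hv => by simpa using hv)
      (fun v _ v' _ h => (splitE D).injective h) (fun p hp => ⟨(splitE D).symm p, by simpa using hp, by simp⟩)
      (fun v _ => rfl)
  refine h1.trans (le_of_eq ?_)
  rw [h2]
  unfold BprA
  rw [← sum_div]
  congr 1
  have h3 : ∀ p : ({i // i ∈ D} → A) × ({i // i ∉ D} → A),
      ((univ.filter (fun ω : {i // i ∉ D} → {i // i ∈ D} → Fin M =>
        (∀ i, gwalk (ω i) p.1 = 0) ∧ ∀ j, gwalk (fun i => ω i j) p.2 = 0)).card : ℝ) =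
      ∑ ω : {i // i ∉ D} → {i // i ∈ D} → Fin M,
        if (∀ i, gwalk (ω i) p.1 = 0) ∧ (∀ j, gwalk (fun i => ω i j) p.2 = 0) then (1 : ℝ) else 0 := by
    intro p
    rw [Finset.sum_boole]
  rw [sum_congr rfl fun p _ => h3 p, sum_comm]
  refine sum_congr rfl fun ω _ => ?_
  rw [Finset.sum_boole]

open Classical in
/-- product form: `E #{v : S v = 0, v_D ∈ U} ≤ E (#{x ∈ U : Y x = 0} * #ker Yᵀ)`. -/
theorem sum_SprA_le_prod {M : ℕ} (hM : 8 ≤ M) (U : Finset ({i // i ∈ D} → A))
    (W : Finset ({i // i ∉ D} → A)) :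
    ∑ v ∈ univ.filter (fun v : ι → A => (splitE D v).1 ∈ U ∧ (splitE D v).2 ∈ W), SprA v 0 ≤
      (∑ ω : {i // i ∉ D} → {i // i ∈ D} → Fin M,
        ((U.filter fun x => ∀ i, gwalk (ω i) x = 0).card : ℝ) *
          ((W.filter fun z => ∀ j, gwalk (fun i => ω i j) z = 0).card : ℝ)) /
        (M : ℝ) ^ (Fintype.card {i // i ∉ D} * Fintype.card {i // i ∈ D}) := by
  have h := sum_SprA_le D hM (U ×ˢ W)
  have e1 : (univ.filter (fun v : ι → A => splitE D v ∈ U ×ˢ W)) =
      univ.filter (fun v : ι → A => (splitE D v).1 ∈ U ∧ (splitE D v).2 ∈ W) := by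
    ext v; simp [mem_product]
  rw [e1] at h
  refine h.trans (le_of_eq ?_)
  congr 1
  refine sum_congr rfl fun ω _ => ?_
  rw [← Nat.cast_mul, ← card_product]
  congr 2
  ext p
  simp only [mem_filter, mem_product]
  tauto

end model

end Vale.Agent.P160.Half
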