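import Vale.Agent.P160.QDom
import Vale.Agent.P160.Half.HalfSize505
import Mathlib.Data.Nat.Choose.Central

set_option linter.unusedSectionVars false

/-! # P160/Half: the half size reduction by balanced cuts (zero probability `1/2 + 1/(2m)`)

`|ι| = 2k`, `S` uniform symmetric 0/1 matrix on `ι`, `A` any finite abelian group.
`Ξ` : iid `k × k` matrix, entries `±1` with probability `(2k-1)/(8k)` each, `0` with probability
`1/2 + 1/(4k)` (seeds in `Fin (8k)`, `L = 2k-1`).

* `SprA_le_bal`: `P(S v = w) ≤ E_D P(Ξ v_D = 0 ∧ Ξᵀ v_{Dᶜ} = 0)`, `D` uniform among the `k`-subsets.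
* `sum_SprA_le_bal`: the same summed over `v ∈ V`.
* `sum_SprA_le_sq`: `E #ker S ≤ E (#ker Ξ)²`.
-/

namespace Vale.Agent.P160.Half

open Finset Vale.Agent.P160

section step

/-- lazy step with a seed in `Fin M`: `+1` on the first `L` seeds, `-1` on the next `L` seeds -/
def stL (L : ℕ) {M : ℕ} (a : Fin M) : ℤ := if a.val < L then 1 else if a.val < 2 * L then -1 else 0

/-- characteristic function of the step `stL` at a unit complex number -/
noncomputable def cfL (L M : ℕ) (z : ℂ) : ℝ := 1 - 2 * L / M + 2 * L / M * z.re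

lemma sum_range_ite {L M : ℕ} (hLM : 2 * L ≤ M) (a b c : ℂ) :
    ∑ i ∈ range M, (if i < L then a else if i < 2 * L then b else c) =
      L * a + L * b + (M - 2 * L : ℝ) * c := by
  obtain ⟨r, rfl⟩ := Nat.exists_eq_add_of_le hLM
  have h2 : 2 * L = L + L := by ring
  rw [sum_range_add, h2, sum_range_add]
  have e1 : ∑ x ∈ range L, (if x < L then a else if x < L + L then b else c) = L * a := by
    rw [sum_congr rfl fun x hx => if_pos (mem_range.1 hx), sum_const, card_range, nsmul_eq_mul]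
  have e2 : ∑ x ∈ range L, (if L + x < L then a else if L + x < L + L then b else c) = L * b := by
    have : ∀ x ∈ range L, (if L + x < L then a else if L + x < L + L then b else c) = b := by
      intro x hx
      have := mem_range.1 hx
      rw [if_neg (by omega), if_pos (by omega)]
    rw [sum_congr rfl this, sum_const, card_range, nsmul_eq_mul]
  have e3 : ∑ x ∈ range r, (if L + L + x < L then a else if L + L + x < L + L then b else c) =
      r * c := by
    have : ∀ x ∈ range r, (if L + L + x < L then a else if L + L + x < L + L then b else c) = c := by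
      intro x _
      rw [if_neg (by omega), if_neg (by omega)]
    rw [sum_congr rfl this, sum_const, card_range, nsmul_eq_mul]
  rw [e1, e2, e3]
  push_cast
  ring

lemma sum_zpow_stL {L M : ℕ} (hM : 0 < M) (hLM : 2 * L ≤ M) (z : ℂ) (hz : ‖z‖ = 1) :
    ∑ a : Fin M, z ^ (stL L a) = ((M * cfL L M z : ℝ) : ℂ) := by
  have h1 : ∀ a : Fin M, z ^ (stL L a) =
      (fun i : ℕ => if i < L then z else if i < 2 * L then z⁻¹ else 1) a.val := by
    intro a
    unfold stL
    simp only
    split_ifs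
    · rw [zpow_one]
    · rw [zpow_neg, zpow_one]
    · rw [zpow_zero]
  rw [sum_congr rfl fun a _ => h1 a, Fin.sum_univ_eq_sum_range
    (fun i : ℕ => if i < L then z else if i < 2 * L then z⁻¹ else 1) M, sum_range_ite hLM]
  have hM0 : (M : ℂ) ≠ 0 := by exact_mod_cast hM.ne'
  have h3 : z + z⁻¹ = 2 * (z.re : ℂ) := by
    have : z⁻¹ = (starRingEnd ℂ) z := by
      rw [Complex.inv_def, Complex.normSq_eq_norm_sq, hz]; simp
    rw [this, Complex.add_conj]
    push_cast
    ring
  unfold cfL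
  push_cast
  have h4 : (M : ℂ) * (1 - 2 * L / M + 2 * L / M * z.re) = M - 2 * L + L * (2 * (z.re : ℂ)) := by
    field_simp
  rw [h4, ← h3]
  ring

lemma cfL_nonneg {L M : ℕ} (hM : 0 < M) (hLM : 4 * L ≤ M) {z : ℂ} (hz : ‖z‖ = 1) : 0 ≤ cfL L M z := by
  have hre : -1 ≤ z.re := by
    have := Complex.abs_re_le_norm z
    rw [hz] at this
    exact (abs_le.mp this).1
  unfold cfL
  have hM0 : (0 : ℝ) < M := by exact_mod_cast hM
  have h1 : (0 : ℝ) ≤ 2 * L / M := by positivity
  have h2 : (2 : ℝ) * L / M ≤ 1 / 2 := by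
    rw [div_le_div_iff₀ hM0 (by norm_num)]
    have : ((4 * L : ℕ) : ℝ) ≤ M := by exact_mod_cast hLM
    push_cast at this
    linarith
  nlinarith

end step

section group

variable {G : Type*} [AddCommGroup G] [Fintype G] [DecidableEq G]
variable {E : Type*} [Fintype E] [DecidableEq E]

/-- lazy walk with steps `stL` and weights in an abelian group -/
def gwL (L : ℕ) {M : ℕ} (ω : E → Fin M) (c : E → G) : G := ∑ e, stL L (ω e) • c e

/-- probability that this walk ends at `g` -/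
noncomputable def prL (L M : ℕ) (c : E → G) (g : G) : ℝ :=
  ((univ.filter (fun ω : E → Fin M => gwL L ω c = g)).card : ℝ) / (M : ℝ) ^ Fintype.card E

lemma sum_addChar_gwL {L M : ℕ} (hM : 0 < M) (hLM : 2 * L ≤ M) (ψ : AddChar G ℂ) (c : E → G) :
    ∑ ω : E → Fin M, ψ (gwL L ω c) =
      (((M : ℝ) ^ Fintype.card E * ∏ e, cfL L M (ψ (c e)) : ℝ) : ℂ) := by
  have h := Finset.prod_univ_sum (fun _ : E => (univ : Finset (Fin M)))
    (fun e a => (ψ (c e)) ^ (stL L a))
  rw [Fintype.piFinset_univ] at h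
  have h2 : ∀ e, ∑ a : Fin M, (ψ (c e)) ^ (stL L a) = ((M * cfL L M (ψ (c e)) : ℝ) : ℂ) :=
    fun e => sum_zpow_stL hM hLM _ (norm_addChar ψ _)
  simp only [h2] at h
  have h3 : (((M : ℝ) ^ Fintype.card E * ∏ e, cfL L M (ψ (c e)) : ℝ) : ℂ) =
      ∏ e : E, ((M * cfL L M (ψ (c e)) : ℝ) : ℂ) := by
    rw [← Complex.ofReal_prod, prod_mul_distrib, prod_const, card_univ]
  rw [h3, h]
  refine sum_congr rfl fun ω _ => ?_
  unfold gwL
  rw [addChar_sum]
  refine prod_congr rfl fun e _ => ?_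
  rw [AddChar.map_zsmul_eq_zpow]

lemma prL_zero_eq {L M : ℕ} (hM : 0 < M) (hLM : 2 * L ≤ M) (c : E → G) :
    Fintype.card G * prL L M c 0 = ∑ ψ : AddChar G ℂ, ∏ e, cfL L M (ψ (c e)) := by
  have hM0 : ((M : ℝ) ^ Fintype.card E : ℝ) ≠ 0 := by
    have : (0 : ℝ) < M := by exact_mod_cast hM
    positivity
  have hM0' : (((M : ℝ) ^ Fintype.card E : ℝ) : ℂ) ≠ 0 := by exact_mod_cast hM0
  have h := card_filter_eq_sum (fun ω : E → Fin M => gwL L ω c) 0
  have key : ((Fintype.card G * prL L M c 0 : ℝ) : ℂ) =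
      ∑ ψ : AddChar G ℂ, ((∏ e, cfL L M (ψ (c e)) : ℝ) : ℂ) := by
    rw [← mul_right_inj' hM0']
    have e1 : (((M : ℝ) ^ Fintype.card E : ℝ) : ℂ) * ((Fintype.card G * prL L M c 0 : ℝ) : ℂ) =
        (Fintype.card G : ℂ) *
          ((univ.filter (fun ω : E → Fin M => gwL L ω c = 0)).card : ℂ) := by
      have : (M : ℂ) ^ Fintype.card E ≠ 0 := by exact_mod_cast hM0
      unfold prL
      push_cast
      field_simp
    rw [e1, h, mul_sum]
    refine sum_congr rfl fun ψ _ => ?_
    rw [sum_addChar_gwL hM hLM, neg_zero, AddChar.map_zero_eq_one, one_mul]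
    push_cast
    ring
  exact_mod_cast key

end group

section cuts

variable {ι : Type*} [Fintype ι] [DecidableEq ι]

/-- the `k`-subsets of `ι` -/
abbrev Cut (ι : Type*) [Fintype ι] [DecidableEq ι] (k : ℕ) := {D : Finset ι // D.card = k}

lemma card_cut (k : ℕ) (h : Fintype.card ι = 2 * k) : Fintype.card (Cut ι k) = Nat.centralBinom k := by
  rw [Fintype.card_subtype]
  have : (univ.filter fun D : Finset ι => D.card = k) = powersetCard k univ := by
    ext D; simp [mem_powersetCard]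
  rw [this, card_powersetCard, card_univ, h, Nat.centralBinom]

lemma card_sep (k : ℕ) (hk : 0 < k) (h : Fintype.card ι = 2 * k) {i j : ι} (hij : i ≠ j) :
    (univ.filter fun D : Cut ι k => i ∈ D.1 ∧ j ∉ D.1).card = Nat.centralBinom (k - 1) := by
  have h1 : (univ.filter fun D : Cut ι k => i ∈ D.1 ∧ j ∉ D.1).card =
      (powersetCard (k - 1) ((univ.erase i).erase j)).card := by
    refine card_bij (fun D _ => D.1.erase i) ?_ ?_ ?_
    · intro D hD
      simp only [mem_filter, mem_univ, true_and] at hD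
      rw [mem_powersetCard]
      refine ⟨fun x hx => ?_, by rw [card_erase_of_mem hD.1, D.2]⟩
      rw [mem_erase] at hx
      rw [mem_erase, mem_erase]
      exact ⟨fun hxj => hD.2 (hxj ▸ hx.2), hx.1, mem_univ _⟩
    · intro D hD D' hD' he
      simp only [mem_filter, mem_univ, true_and] at hD hD'
      apply Subtype.ext
      rw [← insert_erase hD.1, ← insert_erase hD'.1, he]
    · intro D hD
      rw [mem_powersetCard] at hD
      have hi : i ∉ D := fun hi => by simpa using hD.1 hi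
      have hj : j ∉ D := fun hj => by simpa using hD.1 hj
      refine ⟨⟨insert i D, by rw [card_insert_of_notMem hi, hD.2]; omega⟩, ?_, ?_⟩
      · simp only [mem_filter, mem_univ, true_and, mem_insert, true_or, not_or]
        exact ⟨hij.symm, hj⟩
      · exact erase_insert hi
  rw [h1, card_powersetCard, card_erase_of_mem (by simp [hij.symm]), card_erase_of_mem (mem_univ _),
    card_univ, h, Nat.centralBinom]
  congr 1
  omega

/-- separated pairs -/
lemma sep_iff (D : Finset ι) (i j : ι) :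
    (∃ p, offp D p = s(i, j)) ↔ (i ∈ D ∧ j ∉ D) ∨ (j ∈ D ∧ i ∉ D) := by
  constructor
  · rintro ⟨⟨⟨a, ha⟩, ⟨b, hb⟩⟩, h⟩
    unfold offp at h
    simp only [Sym2.eq_iff] at h
    rcases h with ⟨rfl, rfl⟩ | ⟨rfl, rfl⟩
    · exact Or.inr ⟨hb, ha⟩
    · exact Or.inl ⟨hb, ha⟩
  · rintro (h | h)
    · exact ⟨⟨⟨j, h.2⟩, ⟨i, h.1⟩⟩, Sym2.eq_swap⟩
    · exact ⟨⟨⟨i, h.2⟩, ⟨j, h.1⟩⟩, rfl⟩

open Classical in
lemma card_sep2 (k : ℕ) (hk : 0 < k) (h : Fintype.card ι = 2 * k) {i j : ι} (hij : i ≠ j) :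
    (univ.filter fun D : Cut ι k => ∃ p, offp D.1 p = s(i, j)).card =
      2 * Nat.centralBinom (k - 1) := by
  have h1 : (univ.filter fun D : Cut ι k => ∃ p, offp D.1 p = s(i, j)) =
      (univ.filter fun D : Cut ι k => i ∈ D.1 ∧ j ∉ D.1) ∪
        (univ.filter fun D : Cut ι k => j ∈ D.1 ∧ i ∉ D.1) := by
    ext D
    simp only [mem_filter, mem_univ, true_and, mem_union, sep_iff]
  rw [h1, card_union_of_disjoint, card_sep k hk h hij, card_sep k hk h hij.symm]
  · ring
  · rw [disjoint_left]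
    intro D hD hD'
    simp only [mem_filter, mem_univ, true_and] at hD hD'
    exact hD'.2 hD.1

/-- `x^{2k-1} ≤ ((2k-1)x²+1)/(2k))^k` -/
lemma am_gm_pow (k : ℕ) (hk : 0 < k) {x : ℝ} (hx : 0 ≤ x) :
    x ^ (2 * k - 1) ≤ (((2 * k - 1 : ℕ) * x ^ 2 + 1) / (2 * k)) ^ k := by
  have hk' : (0 : ℝ) < k := by exact_mod_cast hk
  have hc : ((2 * k - 1 : ℕ) : ℝ) = 2 * k - 1 := by
    rw [Nat.cast_sub (by omega)]; push_cast; ring
  have h := Real.geom_mean_le_arith_mean2_weighted (w₁ := (2 * k - 1) / (2 * k)) (w₂ := 1 / (2 * k))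
    (p₁ := x ^ 2) (p₂ := 1) (by
      apply div_nonneg _ (by positivity)
      have : (1 : ℝ) ≤ k := by exact_mod_cast hk
      linarith) (by positivity) (by positivity) (by norm_num) (by field_simp; ring)
  rw [Real.one_rpow, mul_one] at h
  have hy : ((2 * k - 1 : ℕ) * x ^ 2 + 1) / (2 * k) = (2 * k - 1) / (2 * k) * x ^ 2 + 1 / (2 * k) * (1 : ℝ) := by
    rw [hc]; ring
  rw [hy]
  refine le_trans (le_of_eq ?_) (pow_le_pow_left₀ (Real.rpow_nonneg (by positivity) _) h k)
  rw [← Real.rpow_natCast ((x ^ 2) ^ (((2 : ℝ) * k - 1) / (2 * k))) k, ← Real.rpow_mul (by positivity),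
    ← Real.rpow_natCast x 2, ← Real.rpow_mul hx, ← Real.rpow_natCast x (2 * k - 1), hc]
  congr 1
  push_cast
  field_simp

/-- the exponent comparison for one pair -/
lemma pow_card_le (k : ℕ) (hk : 0 < k) {x y : ℝ} (hx : 0 ≤ x) (hy : 0 ≤ y)
    (hxy : x ^ (2 * k - 1) ≤ y ^ k) :
    x ^ Nat.centralBinom k ≤ y ^ (2 * Nat.centralBinom (k - 1)) := by
  have h1 : k * Nat.centralBinom k = (2 * k - 1) * (2 * Nat.centralBinom (k - 1)) := by
    obtain ⟨r, rfl⟩ := Nat.exists_eq_succ_of_ne_zero hk.ne'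
    have := Nat.succ_mul_centralBinom_succ r
    simp only [Nat.succ_eq_add_one, Nat.add_sub_cancel] at this ⊢
    rw [this]
    have h2 : 2 * (r + 1) - 1 = 2 * r + 1 := by omega
    rw [h2]
    ring
  refine le_of_pow_le_pow_left₀ hk.ne' (by positivity) ?_
  rw [← pow_mul, ← pow_mul, mul_comm (Nat.centralBinom k) k, h1, mul_comm (2 * Nat.centralBinom (k-1)) k,
    pow_mul, pow_mul y]
  exact pow_le_pow_left₀ (by positivity) hxy _

end cuts

section main

variable {A : Type*} [AddCommGroup A] [Fintype A] [DecidableEq A]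
variable {ι : Type*} [Fintype ι] [DecidableEq ι]

/-- `P(Ξ x = 0 ∧ Ξᵀ z = 0)` -/
noncomputable def BprL {α β : Type*} [Fintype α] [Fintype β] [DecidableEq α] [DecidableEq β]
    (L M : ℕ) (x : α → A) (z : β → A) : ℝ :=
  ((univ.filter (fun ω : β → α → Fin M =>
    (∀ i, gwL L (ω i) x = 0) ∧ ∀ j, gwL L (fun i => ω i j) z = 0)).card : ℝ) /
      (M : ℝ) ^ (Fintype.card β * Fintype.card α)

variable (D : Finset ι)

omit [Fintype A] [DecidableEq A] in
lemma gwL_offp {L M : ℕ} (v : ι → A)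
    (ω : {i // i ∉ D} × {i // i ∈ D} → Fin M) (k : ι) :
    gwL L ω (fun p => symc v (offp D p)) k =
      if hk : k ∈ D then gwL L (fun i => ω (i, ⟨k, hk⟩)) (fun i : {i // i ∉ D} => v i)
      else gwL L (fun j => ω (⟨k, hk⟩, j)) (fun j : {i // i ∈ D} => v j) := by
  unfold gwL
  rw [Finset.sum_apply]
  have h1 : ∀ p : {i // i ∉ D} × {i // i ∈ D},
      ((stL L (ω p)) • symc v (offp D p)) k =
        (stL L (ω p)) • ((Pi.single p.1.1 (v p.2) : ι → A) k +
          (Pi.single p.2.1 (v p.1) : ι → A) k) := by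
    intro p
    have hne : p.1.1 ≠ p.2.1 := fun h => p.1.2 (h ▸ p.2.2)
    rw [Pi.smul_apply]
    unfold offp
    rw [symc_neA v hne, Pi.add_apply]
  rw [sum_congr rfl fun p _ => h1 p, Fintype.sum_prod_type]
  by_cases hk : k ∈ D
  · rw [dif_pos hk]
    refine sum_congr rfl fun i _ => ?_
    rw [Finset.sum_eq_single (⟨k, hk⟩ : {i // i ∈ D})]
    · have : k ≠ i.1 := fun h => i.2 (h ▸ hk)
      rw [Pi.single_eq_of_ne this, Pi.single_eq_same, zero_add]
    · intro j _ hj
      have h2 : k ≠ i.1 := fun h => i.2 (h ▸ hk)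
      have h3 : k ≠ j.1 := fun h => hj (Subtype.ext h.symm)
      rw [Pi.single_eq_of_ne h2, Pi.single_eq_of_ne h3, add_zero, smul_zero]
    · simp
  · rw [dif_neg hk]
    rw [Finset.sum_eq_single (⟨k, hk⟩ : {i // i ∉ D})]
    · refine sum_congr rfl fun j _ => ?_
      have : k ≠ j.1 := fun h => hk (h ▸ j.2)
      rw [Pi.single_eq_same, Pi.single_eq_of_ne this, add_zero]
    · intro i _ hi
      apply sum_eq_zero
      intro j _
      have h2 : k ≠ i.1 := fun h => hi (Subtype.ext h.symm)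
      have h3 : k ≠ j.1 := fun h => hk (h ▸ j.2)
      rw [Pi.single_eq_of_ne h2, Pi.single_eq_of_ne h3, add_zero, smul_zero]
    · simp

omit [Fintype A] [DecidableEq A] in
lemma gwL_offp_eq_zero {L M : ℕ} (v : ι → A)
    (ω : {i // i ∉ D} × {i // i ∈ D} → Fin M) :
    gwL L ω (fun p => symc v (offp D p)) = 0 ↔
      (∀ i : {i // i ∉ D}, gwL L (fun j => ω (i, j)) (fun j : {i // i ∈ D} => v j) = 0) ∧
      ∀ j : {i // i ∈ D}, gwL L (fun i => ω (i, j)) (fun i : {i // i ∉ D} => v i) = 0 := by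
  constructor
  · intro h
    constructor
    · intro i
      have := congrFun h i.1
      rw [gwL_offp, dif_neg i.2] at this
      exact this
    · intro j
      have := congrFun h j.1
      rw [gwL_offp, dif_pos j.2] at this
      exact this
  · rintro ⟨h1, h2⟩
    funext k
    rw [gwL_offp]
    split_ifs with hk
    · exact h2 ⟨k, hk⟩
    · exact h1 ⟨k, hk⟩

lemma prL_offp {L M : ℕ} (v : ι → A) :
    prL L M (fun p => symc v (offp D p)) 0 =
      BprL L M (fun j : {i // i ∈ D} => v j) (fun i : {i // i ∉ D} => v i) := by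
  unfold prL BprL
  congr 1
  · congr 1
    apply Finset.card_bij (fun ω _ => fun i j => ω (i, j))
    · intro ω hω
      simp only [mem_filter, mem_univ, true_and] at hω ⊢
      exact (gwL_offp_eq_zero D v ω).1 hω
    · intro ω _ ω' _ h
      funext p
      exact congrFun (congrFun h p.1) p.2
    · intro ω hω
      refine ⟨fun p => ω p.1 p.2, ?_, rfl⟩
      simp only [mem_filter, mem_univ, true_and] at hω ⊢
      exact (gwL_offp_eq_zero D v _).2 hω
  · rw [Fintype.card_prod]

/-- **Balanced cuts.** `P(S v = w) ≤ E_D P(Ξ v_D = 0 ∧ Ξᵀ v_{Dᶜ} = 0)`. -/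
theorem SprA_le_bal (k : ℕ) (hk : 0 < k) (hι : Fintype.card ι = 2 * k) (v w : ι → A) :
    SprA v w ≤ (∑ D : Cut ι k, BprL (2 * k - 1) (8 * k) (fun j : {i // i ∈ D.1} => v j)
      (fun i : {i // i ∉ D.1} => v i)) / Nat.centralBinom k := by
  classical
  have hne : Nonempty (Cut ι k) := by
    have : 0 < Fintype.card (Cut ι k) := by rw [card_cut k hι]; exact Nat.centralBinom_pos k
    exact Fintype.card_pos_iff.1 this
  have hcard : (Fintype.card (Cut ι k) : ℝ) = Nat.centralBinom k := by rw [card_cut k hι]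
  have hG : (0 : ℝ) < Fintype.card (ι → A) := by exact_mod_cast Fintype.card_pos
  have hT : (0 : ℝ) < Nat.centralBinom k := by exact_mod_cast Nat.centralBinom_pos k
  have h2E : (0 : ℝ) < (2 : ℝ) ^ Fintype.card (Sym2 ι) := by positivity
  have h8 : 0 < 8 * k := by omega
  have hL2 : 2 * (2 * k - 1) ≤ 8 * k := by omega
  have hL4 : 4 * (2 * k - 1) ≤ 8 * k := by omega
  have hk' : (0 : ℝ) < k := by exact_mod_cast hk
  have hc : ((2 * k - 1 : ℕ) : ℝ) = 2 * k - 1 := by
    rw [Nat.cast_sub (by omega)]; push_cast; ring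
  rw [SprA_eq_bpr]
  set c := symc v with hcdef
  have h := card_filter_eq_sum (fun b : Sym2 ι → Bool => bwalk b c) w
  have hb : (Fintype.card (ι → A) * bpr c w : ℝ) * (2 : ℝ) ^ Fintype.card (Sym2 ι) =
      ‖(Fintype.card (ι → A) : ℂ) *
        ((univ.filter (fun b : Sym2 ι → Bool => bwalk b c = w)).card : ℂ)‖ := by
    rw [norm_mul, Complex.norm_natCast, Complex.norm_natCast]
    unfold bpr
    (clear * -; field_simp)
  -- the bound for every character
  have key : ∀ ψ : AddChar (ι → A) ℂ, ∏ e, ‖(1 + ψ (c e)) / 2‖ ≤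
      (∑ D : Cut ι k, ∏ p, cfL (2 * k - 1) (8 * k) (ψ (c (offp D.1 p)))) / Nat.centralBinom k := by
    intro ψ
    have hk0 : ∀ e, 0 ≤ ‖(1 + ψ (c e)) / 2‖ := fun e => norm_nonneg _
    have hk1 : ∀ e, ‖(1 + ψ (c e)) / 2‖ ≤ 1 := fun e => norm_half_le_one (norm_addChar _ _)
    have hcf : ∀ e, 0 ≤ cfL (2 * k - 1) (8 * k) (ψ (c e)) :=
      fun e => cfL_nonneg h8 hL4 (norm_addChar _ _)
    have hcfe : ∀ e, cfL (2 * k - 1) (8 * k) (ψ (c e)) =
        ((2 * k - 1 : ℕ) * ‖(1 + ψ (c e)) / 2‖ ^ 2 + 1) / (2 * k) := by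
      intro e
      rw [norm_half_sq (norm_addChar _ _)]
      unfold cfL cf
      rw [hc]
      push_cast
      field_simp
      ring
    have h3 := amgm_core (T := Cut ι k) (fun e => ‖(1 + ψ (c e)) / 2‖) hk0 (fun _ => 1)
      (fun _ => zero_le_one) (by simp)
      (fun D e => if ∃ p, offp D.1 p = e then cfL (2 * k - 1) (8 * k) (ψ (c e)) else 1)
      (fun D e => by
        split_ifs
        · exact hcf e
        · exact zero_le_one)
      (by
        intro e
        rw [card_cut k hι]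
        have hprod : ∏ D : Cut ι k, (if ∃ p, offp D.1 p = e then
            cfL (2 * k - 1) (8 * k) (ψ (c e)) else 1) =
            cfL (2 * k - 1) (8 * k) (ψ (c e)) ^
              (univ.filter fun D : Cut ι k => ∃ p, offp D.1 p = e).card := by
          rw [← Finset.prod_const, Finset.prod_filter]
        rw [hprod]
        induction e using Sym2.ind with
        | _ i j =>
        by_cases hij : i = j
        · have h0 : (univ.filter fun D : Cut ι k => ∃ p, offp D.1 p = s(i, j)) = ∅ := by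
            rw [filter_eq_empty_iff]
            intro D _
            rw [sep_iff, hij]
            tauto
          rw [h0, card_empty, pow_zero]
          exact pow_le_one₀ (hk0 _) (hk1 _)
        · rw [card_sep2 k hk hι hij]
          refine pow_card_le k hk (hk0 _) (hcf _) ?_
          rw [hcfe]
          exact am_gm_pow k hk (hk0 _))
    rw [hcard] at h3
    refine h3.trans (le_of_eq ?_)
    congr 1
    refine sum_congr rfl fun D _ => ?_
    rw [one_mul, ← prod_comp_eq (offp D.1) (offp_injective D.1)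
      (fun e => cfL (2 * k - 1) (8 * k) (ψ (c e)))]
  refine le_of_mul_le_mul_left ?_ hG
  refine le_of_mul_le_mul_right ?_ h2E
  rw [hb, h]
  have h4 : (Fintype.card (ι → A) : ℝ) * ((∑ D : Cut ι k, BprL (2 * k - 1) (8 * k)
      (fun j : {i // i ∈ D.1} => v j) (fun i : {i // i ∉ D.1} => v i)) / Nat.centralBinom k) =
      ∑ ψ : AddChar (ι → A) ℂ, (∑ D : Cut ι k, ∏ p,
        cfL (2 * k - 1) (8 * k) (ψ (c (offp D.1 p)))) / Nat.centralBinom k := by
    rw [← sum_div, sum_comm, mul_div_assoc', mul_sum]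
    congr 1
    refine sum_congr rfl fun D _ => ?_
    rw [← prL_zero_eq h8 hL2, prL_offp]
  rw [h4, sum_mul]
  refine (norm_sum_le _ _).trans (sum_le_sum fun ψ _ => ?_)
  rw [norm_mul, norm_addChar, one_mul, sum_addChar_bwalk, norm_prod]
  have h3 : ∏ e, ‖1 + ψ (c e)‖ =
      (∏ e, ‖(1 + ψ (c e)) / 2‖) * (2 : ℝ) ^ Fintype.card (Sym2 ι) := by
    rw [← Finset.card_univ, ← Finset.prod_const, ← Finset.prod_mul_distrib]
    refine prod_congr rfl fun e _ => ?_
    rw [norm_div]
    simp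
  rw [h3]
  exact mul_le_mul_of_nonneg_right (key ψ) h2E.le

open Classical in
/-- summed form, restriction set `V` -/
theorem sum_SprA_le_bal (k : ℕ) (hk : 0 < k) (hι : Fintype.card ι = 2 * k) (V : Finset (ι → A)) :
    ∑ v ∈ V, SprA v 0 ≤ (∑ D : Cut ι k,
      (∑ ω : {i // i ∉ D.1} → {i // i ∈ D.1} → Fin (8 * k),
        ((V.filter fun v => (∀ i, gwL (2 * k - 1) (ω i) (fun j : {i // i ∈ D.1} => v j) = 0) ∧
          ∀ j, gwL (2 * k - 1) (fun i => ω i j) (fun i : {i // i ∉ D.1} => v i) = 0).card : ℝ)) /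
        ((8 * k : ℕ) : ℝ) ^ (k * k)) / Nat.centralBinom k := by
  have h1 : ∑ v ∈ V, SprA v 0 ≤ ∑ v ∈ V, (∑ D : Cut ι k, BprL (2 * k - 1) (8 * k)
      (fun j : {i // i ∈ D.1} => v j) (fun i : {i // i ∉ D.1} => v i)) / Nat.centralBinom k :=
    sum_le_sum fun v _ => SprA_le_bal k hk hι v 0
  refine h1.trans (le_of_eq ?_)
  rw [← sum_div, sum_comm]
  congr 1
  refine sum_congr rfl fun D _ => ?_
  unfold BprL
  rw [← sum_div]
  have hc1 : Fintype.card {i // i ∈ D.1} = k := by rw [Fintype.card_coe, D.2]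
  have hc2 : Fintype.card {i // i ∉ D.1} = k := by
    rw [Fintype.card_subtype_compl, hι, hc1]; omega
  rw [hc1, hc2]
  congr 1
  have h3 : ∀ v : ι → A,
      ((univ.filter (fun ω : {i // i ∉ D.1} → {i // i ∈ D.1} → Fin (8 * k) =>
        (∀ i, gwL (2 * k - 1) (ω i) (fun j : {i // i ∈ D.1} => v j) = 0) ∧
          ∀ j, gwL (2 * k - 1) (fun i => ω i j) (fun i : {i // i ∉ D.1} => v i) = 0)).card : ℝ) =
      ∑ ω : {i // i ∉ D.1} → {i // i ∈ D.1} → Fin (8 * k),
        if (∀ i, gwL (2 * k - 1) (ω i) (fun j : {i // i ∈ D.1} => v j) = 0) ∧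
          (∀ j, gwL (2 * k - 1) (fun i => ω i j) (fun i : {i // i ∉ D.1} => v i) = 0)
        then (1 : ℝ) else 0 := by
    intro v
    rw [Finset.sum_boole]
  rw [sum_congr rfl fun v _ => h3 v, sum_comm]
  refine sum_congr rfl fun ω _ => ?_
  rw [Finset.sum_boole]

variable (A) in
/-- number of `A`-valued kernel vectors of the matrix with seeds `ω` -/
def kerC {α β : Type*} [Fintype α] [Fintype β] [DecidableEq α] (L : ℕ) {M : ℕ}
    (ω : β → α → Fin M) : ℕ :=
  (univ.filter fun x : α → A => ∀ i, gwL L (ω i) x = 0).card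

omit [Fintype A] [DecidableEq A] in
lemma gwL_comp {α α' : Type*} [Fintype α] [Fintype α'] (e : α ≃ α') (L : ℕ) {M : ℕ}
    (ω : α' → Fin M) (x : α' → A) : gwL L (fun a => ω (e a)) (fun a => x (e a)) = gwL L ω x := by
  unfold gwL
  exact Fintype.sum_equiv e _ _ fun a => rfl

lemma kerC_comp {α β α' β' : Type*} [Fintype α] [Fintype β] [Fintype α'] [Fintype β']
    [DecidableEq α] [DecidableEq α'] (e : α ≃ α') (f : β ≃ β') (L : ℕ) {M : ℕ}
    (ω : β' → α' → Fin M) : kerC A L (fun b a => ω (f b) (e a)) = kerC A L ω := by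
  unfold kerC
  refine card_bij' (fun x _ => fun a => x (e.symm a)) (fun x _ => fun a => x (e a)) ?_ ?_ ?_ ?_
  · intro x hx
    simp only [mem_filter, mem_univ, true_and] at hx ⊢
    intro i
    have h := hx (f.symm i)
    rw [f.apply_symm_apply] at h
    rw [← gwL_comp e L (ω i) (fun a => x (e.symm a))]
    simpa using h
  · intro x hx
    simp only [mem_filter, mem_univ, true_and] at hx ⊢
    intro i
    rw [gwL_comp e L (ω (f i)) x]
    exact hx _
  · intro x _; funext a; simp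
  · intro x _; funext a; simp

lemma sum_kerC_reindex {α β : Type*} [Fintype α] [Fintype β] [DecidableEq α] [DecidableEq β]
    (k : ℕ) (hα : Fintype.card α = k) (hβ : Fintype.card β = k) (L M : ℕ) (F : ℕ → ℝ) :
    ∑ ω : β → α → Fin M, F (kerC A L ω) = ∑ ω : Fin k → Fin k → Fin M, F (kerC A L ω) := by
  let e : α ≃ Fin k := Fintype.equivFinOfCardEq hα
  let f : β ≃ Fin k := Fintype.equivFinOfCardEq hβ
  symm
  refine Fintype.sum_equiv (Equiv.arrowCongr f.symm (Equiv.arrowCongr e.symm (Equiv.refl _))) _ _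
    fun ω => ?_
  congr 1
  rw [← kerC_comp e f L ω]
  rfl

open Classical in
/-- **Half size reduction, squared form**: `E #ker S ≤ E (#ker Ξ)²`. -/
theorem sum_SprA_le_sq (k : ℕ) (hk : 0 < k) (hι : Fintype.card ι = 2 * k) :
    ∑ v : ι → A, SprA v 0 ≤
      (∑ ω : Fin k → Fin k → Fin (8 * k), ((kerC A (2 * k - 1) ω : ℕ) : ℝ) ^ 2) /
        ((8 * k : ℕ) : ℝ) ^ (k * k) := by
  have hT : (0 : ℝ) < Nat.centralBinom k := by exact_mod_cast Nat.centralBinom_pos k
  have hM : (0 : ℝ) < ((8 * k : ℕ) : ℝ) ^ (k * k) := by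
    have : (0 : ℝ) < ((8 * k : ℕ) : ℝ) := by exact_mod_cast (by omega : 0 < 8 * k)
    positivity
  refine (sum_SprA_le_bal k hk hι univ).trans ?_
  rw [div_le_iff₀ hT]
  have hD : ∀ D : Cut ι k, (∑ ω : {i // i ∉ D.1} → {i // i ∈ D.1} → Fin (8 * k),
        (((univ : Finset (ι → A)).filter fun v =>
          (∀ i, gwL (2 * k - 1) (ω i) (fun j : {i // i ∈ D.1} => v j) = 0) ∧
          ∀ j, gwL (2 * k - 1) (fun i => ω i j) (fun i : {i // i ∉ D.1} => v i) = 0).card : ℝ)) /
        ((8 * k : ℕ) : ℝ) ^ (k * k) ≤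
      (∑ ω : Fin k → Fin k → Fin (8 * k), ((kerC A (2 * k - 1) ω : ℕ) : ℝ) ^ 2) /
        ((8 * k : ℕ) : ℝ) ^ (k * k) := by
    intro D
    refine div_le_div_of_nonneg_right ?_ hM.le
    have hc1 : Fintype.card {i // i ∈ D.1} = k := by rw [Fintype.card_coe, D.2]
    have hc2 : Fintype.card {i // i ∉ D.1} = k := by
      rw [Fintype.card_subtype_compl, hι, hc1]; omega
    have h1 : ∀ ω : {i // i ∉ D.1} → {i // i ∈ D.1} → Fin (8 * k),
        (((univ : Finset (ι → A)).filter fun v =>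
          (∀ i, gwL (2 * k - 1) (ω i) (fun j : {i // i ∈ D.1} => v j) = 0) ∧
          ∀ j, gwL (2 * k - 1) (fun i => ω i j) (fun i : {i // i ∉ D.1} => v i) = 0).card : ℝ) =
        (kerC A (2 * k - 1) ω : ℝ) * (kerC A (2 * k - 1) (fun j i => ω i j) : ℝ) := by
      intro ω
      rw [← Nat.cast_mul]
      unfold kerC
      rw [← card_product]
      congr 1
      refine card_bij (fun v _ => splitE D.1 v) ?_ ?_ ?_
      · intro v hv
        simp only [mem_filter, mem_univ, true_and, mem_product] at hv ⊢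
        exact hv
      · intro v _ v' _ h
        exact (splitE D.1).injective h
      · intro p hp
        refine ⟨(splitE D.1).symm p, ?_, by simp⟩
        simp only [mem_filter, mem_univ, true_and, mem_product] at hp ⊢
        have e1 : (splitE D.1 ((splitE D.1).symm p)) = p := by simp
        have e2 : (fun j : {i // i ∈ D.1} => (splitE D.1).symm p j) = p.1 := congrArg Prod.fst e1
        have e3 : (fun j : {i // i ∉ D.1} => (splitE D.1).symm p j) = p.2 := congrArg Prod.snd e1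
        rw [e2, e3]
        exact hp
    have h2 : ∑ ω : {i // i ∉ D.1} → {i // i ∈ D.1} → Fin (8 * k),
        ((kerC A (2 * k - 1) (fun j i => ω i j) : ℕ) : ℝ) ^ 2 =
        ∑ ω : {i // i ∈ D.1} → {i // i ∉ D.1} → Fin (8 * k),
          ((kerC A (2 * k - 1) ω : ℕ) : ℝ) ^ 2 :=
      Fintype.sum_equiv (Equiv.piComm _) _ _ fun ω => rfl
    rw [sum_congr rfl fun ω _ => h1 ω]
    have h3 : ∀ ω : {i // i ∉ D.1} → {i // i ∈ D.1} → Fin (8 * k),
        (kerC A (2 * k - 1) ω : ℝ) * (kerC A (2 * k - 1) (fun j i => ω i j) : ℝ) ≤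
        (((kerC A (2 * k - 1) ω : ℕ) : ℝ) ^ 2 +
          ((kerC A (2 * k - 1) (fun j i => ω i j) : ℕ) : ℝ) ^ 2) / 2 := by
      intro ω
      nlinarith [sq_nonneg ((kerC A (2 * k - 1) ω : ℝ) - (kerC A (2 * k - 1) (fun j i => ω i j) : ℝ))]
    refine (sum_le_sum fun ω _ => h3 ω).trans (le_of_eq ?_)
    rw [← sum_div, sum_add_distrib, h2,
      sum_kerC_reindex k hc1 hc2 (2 * k - 1) (8 * k) (fun x => (x : ℝ) ^ 2),
      sum_kerC_reindex k hc2 hc1 (2 * k - 1) (8 * k) (fun x => (x : ℝ) ^ 2)]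
    ring
  refine (sum_le_sum fun D _ => hD D).trans (le_of_eq ?_)
  rw [sum_const, card_univ, card_cut k hι, nsmul_eq_mul]
  ring

end main

end Vale.Agent.P160.Half
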