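import Vale.Agent.P160.Half.HalfBal505

set_option linter.unusedSectionVars false

/-! # P160/Half: the half size reduction with the EXACT law `(1/4, 1/2, 1/4)`

`|ι| = 2k`, `S` uniform symmetric 0/1 matrix on `ι`, `A` any finite abelian group, `V` a set of
vectors.  `Ξ` : iid `k × k` matrix, entries `stL 1 (a : Fin 4)`, that is `1, -1, 0, 0` for
`a = 0, 1, 2, 3` (the difference of two fair bits).

* `sum_SprA_le_exact`: `∑_{v ∈ V} P(S v = 0) ≤ |A| (E_D ∑_{v ∈ V} P(Ξ v_D = 0 ∧ Ξᵀ v_{Dᶜ} = 0))^(1-1/(2k))`,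
  `D` uniform among the `k`-subsets (Hölder; the loss is one factor `|A|`).
-/

namespace Vale.Agent.P160.Half

open Finset Vale.Agent.P160

section holder

/-- Jensen for the concave function `x ^ τ` -/
lemma mean_rpow_le {T : Type*} (s : Finset T) (hs : s.Nonempty) (a : T → ℝ)
    (ha : ∀ t ∈ s, 0 ≤ a t) {τ : ℝ} (h0 : 0 < τ) (h1 : τ ≤ 1) :
    (∑ t ∈ s, a t ^ τ) / s.card ≤ ((∑ t ∈ s, a t) / s.card) ^ τ := by
  have hc : (0 : ℝ) < s.card := by exact_mod_cast hs.card_pos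
  have h := Real.rpow_arith_mean_le_arith_mean_rpow s (fun _ => (1 : ℝ) / s.card)
    (fun t => a t ^ τ) (fun _ _ => by positivity)
    (by rw [sum_const, nsmul_eq_mul]; field_simp)
    (fun t ht => Real.rpow_nonneg (ha t ht) _) (p := 1 / τ) (by rw [le_div_iff₀ h0]; linarith)
  have e1 : ∑ i ∈ s, 1 / (s.card : ℝ) * a i ^ τ = (∑ t ∈ s, a t ^ τ) / s.card := by
    rw [← mul_sum]; ring
  have e2 : ∑ i ∈ s, 1 / (s.card : ℝ) * (a i ^ τ) ^ (1 / τ) = (∑ t ∈ s, a t) / s.card := by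
    rw [← mul_sum, one_div_mul_eq_div]
    congr 1
    refine sum_congr rfl fun t ht => ?_
    rw [← Real.rpow_mul (ha t ht), mul_one_div_cancel h0.ne', Real.rpow_one]
  rw [e1, e2] at h
  have h2 : 0 ≤ (∑ t ∈ s, a t ^ τ) / s.card :=
    div_nonneg (sum_nonneg fun t ht => Real.rpow_nonneg (ha t ht) _) hc.le
  have h3 := Real.rpow_le_rpow (Real.rpow_nonneg h2 _) h h0.le
  rwa [← Real.rpow_mul h2, one_div_mul_cancel h0.ne', Real.rpow_one] at h3

lemma sum_rpow_le {T : Type*} (s : Finset T) (a : T → ℝ)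
    (ha : ∀ t ∈ s, 0 ≤ a t) {τ : ℝ} (h0 : 0 < τ) (h1 : τ ≤ 1) :
    ∑ t ∈ s, a t ^ τ ≤ (s.card : ℝ) ^ (1 - τ) * (∑ t ∈ s, a t) ^ τ := by
  rcases s.eq_empty_or_nonempty with rfl | hs
  · simp only [sum_empty, card_empty]
    positivity
  have hc : (0 : ℝ) < s.card := by exact_mod_cast hs.card_pos
  have h := mean_rpow_le s hs a ha h0 h1
  rw [div_le_iff₀ hc, Real.div_rpow (sum_nonneg ha) hc.le] at h
  refine h.trans (le_of_eq ?_)
  rw [Real.rpow_sub hc, Real.rpow_one]
  have : (0 : ℝ) < (s.card : ℝ) ^ τ := Real.rpow_pos_of_pos hc _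
  field_simp

end holder

section main

variable {A : Type*} [AddCommGroup A] [Fintype A] [DecidableEq A]
variable {ι : Type*} [Fintype ι] [DecidableEq ι]

lemma card_mul_SprA_le (v w : ι → A) :
    (Fintype.card (ι → A) : ℝ) * SprA v w ≤
      ∑ ψ : AddChar (ι → A) ℂ, ∏ e, ‖(1 + ψ (symc v e)) / 2‖ := by
  classical
  have h2E : (0 : ℝ) < (2 : ℝ) ^ Fintype.card (Sym2 ι) := by positivity
  rw [SprA_eq_bpr]
  set c := symc v with hcdef
  have h := card_filter_eq_sum (fun b : Sym2 ι → Bool => bwalk b c) w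
  have hb : (Fintype.card (ι → A) * bpr c w : ℝ) * (2 : ℝ) ^ Fintype.card (Sym2 ι) =
      ‖(Fintype.card (ι → A) : ℂ) *
        ((univ.filter (fun b : Sym2 ι → Bool => bwalk b c = w)).card : ℂ)‖ := by
    rw [norm_mul, Complex.norm_natCast, Complex.norm_natCast]
    unfold bpr
    (clear * -; field_simp)
  refine le_of_mul_le_mul_right ?_ h2E
  rw [hb, h, sum_mul]
  refine (norm_sum_le _ _).trans (sum_le_sum fun ψ _ => ?_)
  rw [norm_mul, norm_addChar, one_mul, sum_addChar_bwalk, norm_prod]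
  have h3 : ∏ e, ‖1 + ψ (c e)‖ =
      (∏ e, ‖(1 + ψ (c e)) / 2‖) * (2 : ℝ) ^ Fintype.card (Sym2 ι) := by
    rw [← Finset.card_univ, ← Finset.prod_const, ← Finset.prod_mul_distrib]
    refine prod_congr rfl fun e _ => ?_
    rw [norm_div]
    simp
  rw [h3]

lemma cfL_one_four {z : ℂ} (hz : ‖z‖ = 1) : cfL 1 4 z = ‖(1 + z) / 2‖ ^ 2 := by
  rw [norm_half_sq hz]
  unfold cfL cf
  push_cast
  ring

/-- the exponent `1 - 1/(2k)` -/
noncomputable def tau (k : ℕ) : ℝ := 1 - 1 / (2 * k)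

lemma tau_pos {k : ℕ} (hk : 0 < k) : 0 < tau k := by
  unfold tau
  have hk' : (1 : ℝ) ≤ k := by exact_mod_cast hk
  have : 1 / (2 * (k : ℝ)) ≤ 1 / 2 := by
    apply one_div_le_one_div_of_le <;> linarith
  linarith

lemma tau_le {k : ℕ} : tau k ≤ 1 := by
  unfold tau
  have : (0 : ℝ) ≤ 1 / (2 * (k : ℝ)) := by positivity
  linarith

lemma pow_centralBinom_eq (k : ℕ) (hk : 0 < k) {x : ℝ} (hx : 0 ≤ x) :
    x ^ Nat.centralBinom k = ((x ^ 2) ^ tau k) ^ (2 * Nat.centralBinom (k - 1)) := by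
  have h1 : k * Nat.centralBinom k = (2 * k - 1) * (2 * Nat.centralBinom (k - 1)) := by
    obtain ⟨r, rfl⟩ := Nat.exists_eq_succ_of_ne_zero hk.ne'
    have := Nat.succ_mul_centralBinom_succ r
    simp only [Nat.succ_eq_add_one, Nat.add_sub_cancel] at this ⊢
    rw [this]
    have h2 : 2 * (r + 1) - 1 = 2 * r + 1 := by omega
    rw [h2]
    ring
  have hk' : (0 : ℝ) < k := by exact_mod_cast hk
  have h2 : (k : ℝ) * Nat.centralBinom k = (2 * k - 1) * (2 * Nat.centralBinom (k - 1)) := by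
    have hc : ((2 * k - 1 : ℕ) : ℝ) = 2 * k - 1 := by
      rw [Nat.cast_sub (by omega)]; push_cast; ring
    rw [← hc]
    exact_mod_cast h1
  rw [← Real.rpow_natCast ((x ^ 2) ^ tau k), ← Real.rpow_mul (by positivity),
    ← Real.rpow_natCast x 2, ← Real.rpow_mul hx, ← Real.rpow_natCast x]
  congr 1
  unfold tau
  push_cast
  field_simp
  linarith

/-- the pointwise bound for one character -/
lemma prod_le_mean_rpow (k : ℕ) (hk : 0 < k) (hι : Fintype.card ι = 2 * k) (c : Sym2 ι → ι → A)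
    (ψ : AddChar (ι → A) ℂ) : ∏ e, ‖(1 + ψ (c e)) / 2‖ ≤
      ((∑ D : Cut ι k, ∏ p, cfL 1 4 (ψ (c (offp D.1 p)))) / Nat.centralBinom k) ^ tau k := by
  classical
  have hne : Nonempty (Cut ι k) := by
    have : 0 < Fintype.card (Cut ι k) := by rw [card_cut k hι]; exact Nat.centralBinom_pos k
    exact Fintype.card_pos_iff.1 this
  have hcard : (Fintype.card (Cut ι k) : ℝ) = Nat.centralBinom k := by rw [card_cut k hι]
  have hk0 : ∀ e, 0 ≤ ‖(1 + ψ (c e)) / 2‖ := fun e => norm_nonneg _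
  have hk1 : ∀ e, ‖(1 + ψ (c e)) / 2‖ ≤ 1 := fun e => norm_half_le_one (norm_addChar _ _)
  have hcf : ∀ e, 0 ≤ cfL 1 4 (ψ (c e)) := fun e => by
    rw [cfL_one_four (norm_addChar _ _)]; positivity
  have h3 := amgm_core (T := Cut ι k) (fun e => ‖(1 + ψ (c e)) / 2‖) hk0 (fun _ => 1)
    (fun _ => zero_le_one) (by simp)
    (fun D e => if ∃ p, offp D.1 p = e then cfL 1 4 (ψ (c e)) ^ tau k else 1)
    (fun D e => by
      split_ifs
      · exact Real.rpow_nonneg (hcf e) _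
      · exact zero_le_one)
    (by
      intro e
      rw [card_cut k hι]
      have hprod : ∏ D : Cut ι k, (if ∃ p, offp D.1 p = e then
          cfL 1 4 (ψ (c e)) ^ tau k else 1) =
          (cfL 1 4 (ψ (c e)) ^ tau k) ^
            (univ.filter fun D : Cut ι k => ∃ p, offp D.1 p = e).card := by
        rw [← Finset.prod_const, Finset.prod_filter]
      rw [hprod]
      induction e using Sym2.ind with
      | _ i j =>
      by_cases hij : i = j
      · have h0 : (univ.filter fun D : Cut ι k => ∃ p, offp D.1 p = s(i, j)) = ∅ := by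
          rw [filter_eq_empty_iff]
          intro D _
          rw [sep_iff, hij]
          tauto
        rw [h0, card_empty, pow_zero]
        exact pow_le_one₀ (hk0 _) (hk1 _)
      · rw [card_sep2 k hk hι hij, cfL_one_four (norm_addChar _ _)]
        exact (pow_centralBinom_eq k hk (hk0 _)).le)
  rw [hcard] at h3
  refine h3.trans ?_
  have h4 : ∀ D : Cut ι k, (1 : ℝ) * ∏ e, (if ∃ p, offp D.1 p = e then
      cfL 1 4 (ψ (c e)) ^ tau k else 1) = (∏ p, cfL 1 4 (ψ (c (offp D.1 p)))) ^ tau k := by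
    intro D
    rw [one_mul, ← prod_comp_eq (offp D.1) (offp_injective D.1)
      (fun e => cfL 1 4 (ψ (c e)) ^ tau k), Real.finsetProd_rpow _ _ (fun p _ => hcf _)]
  rw [sum_congr rfl fun D _ => h4 D]
  have h5 := mean_rpow_le (univ : Finset (Cut ι k)) univ_nonempty
    (fun D => ∏ p, cfL 1 4 (ψ (c (offp D.1 p)))) (fun D _ => prod_nonneg fun p _ => hcf _)
    (tau_pos hk) tau_le
  rw [card_univ, hcard] at h5
  exact h5

/-- **Half size reduction with the exact law.** -/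
theorem sum_SprA_le_exact (k : ℕ) (hk : 0 < k) (hι : Fintype.card ι = 2 * k)
    (V : Finset (ι → A)) :
    ∑ v ∈ V, SprA v 0 ≤ Fintype.card A *
      ((∑ D : Cut ι k, ∑ v ∈ V, BprL 1 4 (fun j : {i // i ∈ D.1} => v j)
        (fun i : {i // i ∉ D.1} => v i)) / Nat.centralBinom k) ^ tau k := by
  classical
  have hA : (0 : ℝ) < Fintype.card A := by exact_mod_cast Fintype.card_pos
  have hG : (0 : ℝ) < Fintype.card (ι → A) := by exact_mod_cast Fintype.card_pos
  have hG2 : (Fintype.card (ι → A) : ℝ) = (Fintype.card A : ℝ) ^ (2 * k) := by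
    rw [Fintype.card_fun, hι]; push_cast; ring
  have hT : (0 : ℝ) < Nat.centralBinom k := by exact_mod_cast Nat.centralBinom_pos k
  have hcf : ∀ (v : ι → A) (ψ : AddChar (ι → A) ℂ) (e : Sym2 ι), 0 ≤ cfL 1 4 (ψ (symc v e)) :=
    fun v ψ e => by
      rw [cfL_one_four (norm_addChar _ _)]; positivity
  set X : ℝ := (∑ D : Cut ι k, ∑ v ∈ V, BprL 1 4 (fun j : {i // i ∈ D.1} => v j)
        (fun i : {i // i ∉ D.1} => v i)) / Nat.centralBinom k with hX
  have hB0 : ∀ (D : Cut ι k) (v : ι → A), 0 ≤ BprL 1 4 (fun j : {i // i ∈ D.1} => v j)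
        (fun i : {i // i ∉ D.1} => v i) := fun D v => by
    unfold BprL; positivity
  have hX0 : 0 ≤ X := div_nonneg (sum_nonneg fun D _ => sum_nonneg fun v _ => hB0 D v) hT.le
  let h : (ι → A) × AddChar (ι → A) ℂ → ℝ := fun q =>
    (∑ D : Cut ι k, ∏ p, cfL 1 4 (q.2 (symc q.1 (offp D.1 p)))) / Nat.centralBinom k
  have hh0 : ∀ q, 0 ≤ h q := fun q =>
    div_nonneg (sum_nonneg fun D _ => prod_nonneg fun p _ => hcf _ _ _) hT.le
  -- the sum of `h`
  have hsum : ∑ q ∈ V ×ˢ (univ : Finset (AddChar (ι → A) ℂ)), h q =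
      Fintype.card (ι → A) * X := by
    rw [sum_product]
    show ∑ v ∈ V, ∑ ψ : AddChar (ι → A) ℂ,
      (∑ D : Cut ι k, ∏ p, cfL 1 4 (ψ (symc v (offp D.1 p)))) / Nat.centralBinom k = _
    rw [hX, mul_div_assoc', mul_sum]
    simp_rw [← sum_div]
    congr 1
    rw [sum_congr rfl fun v _ => sum_comm, sum_comm]
    refine sum_congr rfl fun D _ => ?_
    rw [mul_sum]
    refine sum_congr rfl fun v _ => ?_
    rw [← prL_offp, prL_zero_eq (by norm_num) (by norm_num)]
  have h1 : (Fintype.card (ι → A) : ℝ) * ∑ v ∈ V, SprA v 0 ≤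
      ∑ q ∈ V ×ˢ (univ : Finset (AddChar (ι → A) ℂ)), h q ^ tau k := by
    rw [mul_sum, sum_product]
    refine sum_le_sum fun v _ => (card_mul_SprA_le v 0).trans (sum_le_sum fun ψ _ => ?_)
    exact prod_le_mean_rpow k hk hι (symc v) ψ
  have h2 := sum_rpow_le (V ×ˢ (univ : Finset (AddChar (ι → A) ℂ))) h (fun q _ => hh0 q)
    (tau_pos hk) tau_le
  rw [hsum] at h2
  have hk' : (0 : ℝ) < k := by exact_mod_cast hk
  have hcard : ((V ×ˢ (univ : Finset (AddChar (ι → A) ℂ))).card : ℝ) ≤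
      (Fintype.card A : ℝ) ^ (4 * k) := by
    rw [card_product, card_univ, AddChar.card_eq]
    push_cast
    have h3 : (V.card : ℝ) ≤ (Fintype.card (ι → A) : ℝ) := by exact_mod_cast card_le_univ V
    calc (V.card : ℝ) * Fintype.card (ι → A)
        ≤ Fintype.card (ι → A) * Fintype.card (ι → A) :=
          mul_le_mul_of_nonneg_right h3 hG.le
      _ = (Fintype.card A : ℝ) ^ (4 * k) := by rw [hG2]; ring
  have hcard2 : ((V ×ˢ (univ : Finset (AddChar (ι → A) ℂ))).card : ℝ) ^ (1 - tau k) ≤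
      (Fintype.card A : ℝ) ^ 2 := by
    have h3 : 0 ≤ 1 - tau k := by linarith [tau_le (k := k)]
    refine (Real.rpow_le_rpow (Nat.cast_nonneg _) hcard h3).trans (le_of_eq ?_)
    rw [← Real.rpow_natCast, ← Real.rpow_mul hA.le, ← Real.rpow_natCast _ 2]
    congr 1
    unfold tau
    push_cast
    field_simp
    ring
  have h3 : (Fintype.card (ι → A) : ℝ) * ∑ v ∈ V, SprA v 0 ≤
      (Fintype.card A : ℝ) ^ 2 * ((Fintype.card (ι → A) : ℝ) * X) ^ tau k :=
    (h1.trans h2).trans (mul_le_mul_of_nonneg_right hcard2 (Real.rpow_nonneg (by positivity) _))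
  have h4 : (Fintype.card A : ℝ) ^ 2 * ((Fintype.card (ι → A) : ℝ) * X) ^ tau k =
      (Fintype.card (ι → A) : ℝ) * (Fintype.card A * X ^ tau k) := by
    rw [Real.mul_rpow hG.le hX0]
    have h5 : (Fintype.card (ι → A) : ℝ) ^ tau k * Fintype.card A = Fintype.card (ι → A) := by
      rw [hG2, ← Real.rpow_natCast, ← Real.rpow_mul hA.le]
      nth_rewrite 2 [← Real.rpow_one (Fintype.card A : ℝ)]
      rw [← Real.rpow_add hA]
      congr 1
      unfold tau
      push_cast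
      field_simp
      ring
    calc (Fintype.card A : ℝ) ^ 2 * ((Fintype.card (ι → A) : ℝ) ^ tau k * X ^ tau k)
        = (Fintype.card A : ℝ) * ((Fintype.card (ι → A) : ℝ) ^ tau k * Fintype.card A) *
          X ^ tau k := by ring
      _ = _ := by rw [h5]; ring
  rw [h4] at h3
  exact le_of_mul_le_mul_left h3 hG

open Classical in
/-- counting form of `X` -/
theorem sum_BprL_eq (k : ℕ) (hι : Fintype.card ι = 2 * k) (V : Finset (ι → A)) (D : Cut ι k) :
    ∑ v ∈ V, BprL 1 4 (fun j : {i // i ∈ D.1} => v j) (fun i : {i // i ∉ D.1} => v i) =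
      (∑ ω : {i // i ∉ D.1} → {i // i ∈ D.1} → Fin 4,
        ((V.filter fun v => (∀ i, gwL 1 (ω i) (fun j : {i // i ∈ D.1} => v j) = 0) ∧
          ∀ j, gwL 1 (fun i => ω i j) (fun i : {i // i ∉ D.1} => v i) = 0).card : ℝ)) /
        (4 : ℝ) ^ (k * k) := by
  unfold BprL
  rw [← sum_div]
  have hc1 : Fintype.card {i // i ∈ D.1} = k := by rw [Fintype.card_coe, D.2]
  have hc2 : Fintype.card {i // i ∉ D.1} = k := by
    rw [Fintype.card_subtype_compl, hι, hc1]; omega
  rw [hc1, hc2]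
  push_cast
  congr 1
  have h3 : ∀ v : ι → A,
      ((univ.filter (fun ω : {i // i ∉ D.1} → {i // i ∈ D.1} → Fin 4 =>
        (∀ i, gwL 1 (ω i) (fun j : {i // i ∈ D.1} => v j) = 0) ∧
          ∀ j, gwL 1 (fun i => ω i j) (fun i : {i // i ∉ D.1} => v i) = 0)).card : ℝ) =
      ∑ ω : {i // i ∉ D.1} → {i // i ∈ D.1} → Fin 4,
        if (∀ i, gwL 1 (ω i) (fun j : {i // i ∈ D.1} => v j) = 0) ∧
          (∀ j, gwL 1 (fun i => ω i j) (fun i : {i // i ∉ D.1} => v i) = 0)
        then (1 : ℝ) else 0 := by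
    intro v
    rw [Finset.sum_boole]
  rw [sum_congr rfl fun v _ => h3 v, sum_comm]
  refine sum_congr rfl fun ω _ => ?_
  rw [Finset.sum_boole]

/-- **Half size reduction with the exact law**, a uniform bound `Y` for every cut is enough. -/
theorem sum_SprA_le_exact_of (k : ℕ) (hk : 0 < k) (hι : Fintype.card ι = 2 * k)
    (V : Finset (ι → A)) (Y : ℝ)
    (hY : ∀ D : Cut ι k, ∑ v ∈ V, BprL 1 4 (fun j : {i // i ∈ D.1} => v j)
        (fun i : {i // i ∉ D.1} => v i) ≤ Y) :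
    ∑ v ∈ V, SprA v 0 ≤ Fintype.card A * Y ^ (1 - 1 / (2 * k) : ℝ) := by
  have hT : (0 : ℝ) < Nat.centralBinom k := by exact_mod_cast Nat.centralBinom_pos k
  refine (sum_SprA_le_exact k hk hι V).trans ?_
  refine mul_le_mul_of_nonneg_left ?_ (Nat.cast_nonneg _)
  refine Real.rpow_le_rpow (div_nonneg (sum_nonneg fun D _ => sum_nonneg fun v _ => ?_) hT.le)
    ?_ (tau_pos hk).le
  · unfold BprL; positivity
  · rw [div_le_iff₀ hT]
    refine (sum_le_sum fun D _ => hY D).trans (le_of_eq ?_)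
    rw [sum_const, card_univ, card_cut k hι, nsmul_eq_mul, mul_comm]

end main

end Vale.Agent.P160.Half
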