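import Vale.Agent.P160.Half.HalfBal505

set_option linter.unusedSectionVars false

/-! # P160/Half: the lossless half size reduction ((L) of 11242)

`S` uniform symmetric 0/1 matrix on `Option ι`, `|ι| = 2k`, `v : Option ι → A` with `v none` a unit of
the finite commutative ring `A` in which `2` is a unit.  Besides the pairs `D × Dᶜ` of the balanced
cuts we keep the pairs `{none, i}` with the lazy law `(1/8, 3/4, 1/8)`: this gives the two extra
factors `P(g · v_D = 0)` and `P(h · v_{Dᶜ} = 0)`. -/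

namespace Vale.Agent.P160.Half.HalfL

open Finset Vale.Agent.P160 Vale.Agent.P160.Half

section group

variable {G : Type*} [AddCommGroup G] [Fintype G] [DecidableEq G]
variable {E F : Type*} [Fintype E] [DecidableEq E] [Fintype F] [DecidableEq F]

theorem two_walk {L M L' M' : ℕ} (hM : 0 < M) (hLM : 2 * L ≤ M) (hM' : 0 < M') (hLM' : 2 * L' ≤ M')
    (c : E → G) (c' : F → G) :
    (Fintype.card G : ℝ) * (((univ.filter fun x : (E → Fin M) × (F → Fin M') =>
      gwL L x.1 c + gwL L' x.2 c' = 0).card : ℝ) /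
        ((M : ℝ) ^ Fintype.card E * (M' : ℝ) ^ Fintype.card F)) =
      ∑ ψ : AddChar G ℂ, (∏ e, cfL L M (ψ (c e))) * ∏ e, cfL L' M' (ψ (c' e)) := by
  have hM0 : ((M : ℝ) ^ Fintype.card E * (M' : ℝ) ^ Fintype.card F : ℝ) ≠ 0 := by
    have h1 : (0 : ℝ) < M := by exact_mod_cast hM
    have h2 : (0 : ℝ) < M' := by exact_mod_cast hM'
    positivity
  have hM0' : (((M : ℝ) ^ Fintype.card E * (M' : ℝ) ^ Fintype.card F : ℝ) : ℂ) ≠ 0 := by
    exact_mod_cast hM0
  have h := card_filter_eq_sum (fun x : (E → Fin M) × (F → Fin M') =>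
      gwL L x.1 c + gwL L' x.2 c') 0
  have key : (((Fintype.card G : ℝ) * (((univ.filter fun x : (E → Fin M) × (F → Fin M') =>
      gwL L x.1 c + gwL L' x.2 c' = 0).card : ℝ) /
        ((M : ℝ) ^ Fintype.card E * (M' : ℝ) ^ Fintype.card F)) : ℝ) : ℂ) =
      ∑ ψ : AddChar G ℂ, (((∏ e, cfL L M (ψ (c e))) * ∏ e, cfL L' M' (ψ (c' e)) : ℝ) : ℂ) := by
    rw [← mul_right_inj' hM0']
    have e1 : (((M : ℝ) ^ Fintype.card E * (M' : ℝ) ^ Fintype.card F : ℝ) : ℂ) *
        (((Fintype.card G : ℝ) * (((univ.filter fun x : (E → Fin M) × (F → Fin M') =>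
          gwL L x.1 c + gwL L' x.2 c' = 0).card : ℝ) /
        ((M : ℝ) ^ Fintype.card E * (M' : ℝ) ^ Fintype.card F)) : ℝ) : ℂ) =
        (Fintype.card G : ℂ) *
          ((univ.filter (fun x : (E → Fin M) × (F → Fin M') =>
            gwL L x.1 c + gwL L' x.2 c' = 0)).card : ℂ) := by
      rw [← Complex.ofReal_mul]
      have : ((M : ℝ) ^ Fintype.card E * (M' : ℝ) ^ Fintype.card F : ℝ) *
        ((Fintype.card G : ℝ) * (((univ.filter fun x : (E → Fin M) × (F → Fin M') =>
          gwL L x.1 c + gwL L' x.2 c' = 0).card : ℝ) /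
        ((M : ℝ) ^ Fintype.card E * (M' : ℝ) ^ Fintype.card F))) = (Fintype.card G : ℝ) *
          ((univ.filter (fun x : (E → Fin M) × (F → Fin M') =>
            gwL L x.1 c + gwL L' x.2 c' = 0)).card : ℝ) := by
        field_simp
      rw [this]
      push_cast
      rfl
    rw [e1, h, mul_sum]
    refine sum_congr rfl fun ψ _ => ?_
    rw [neg_zero, AddChar.map_zero_eq_one, one_mul, Fintype.sum_prod_type]
    have h2 : ∀ (a : E → Fin M) (b : F → Fin M'), ψ (gwL L a c + gwL L' b c') =
        ψ (gwL L a c) * ψ (gwL L' b c') := fun a b => AddChar.map_add_eq_mul _ _ _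
    simp only [h2]
    rw [← Finset.sum_mul_sum, sum_addChar_gwL hM hLM, sum_addChar_gwL hM' hLM']
    push_cast
    ring
  exact_mod_cast key

theorem prL_le_zero {L M : ℕ} (hM : 0 < M) (hLM : 4 * L ≤ M) (c : E → G) (w : G) :
    prL L M c w ≤ prL L M c 0 := by
  have hG : (0 : ℝ) < Fintype.card G := by exact_mod_cast Fintype.card_pos
  have hM0 : (0 : ℝ) < ((M : ℝ) ^ Fintype.card E : ℝ) := by
    have : (0 : ℝ) < M := by exact_mod_cast hM
    positivity
  refine le_of_mul_le_mul_left ?_ hG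
  rw [prL_zero_eq hM (by omega)]
  refine le_of_mul_le_mul_right ?_ hM0
  have h := card_filter_eq_sum (fun ω : E → Fin M => gwL L ω c) w
  have hb : ((Fintype.card G : ℝ) * prL L M c w) * (M : ℝ) ^ Fintype.card E =
      ‖(Fintype.card G : ℂ) * ((univ.filter (fun ω : E → Fin M => gwL L ω c = w)).card : ℂ)‖ := by
    rw [norm_mul, Complex.norm_natCast, Complex.norm_natCast]
    unfold prL
    (clear * - hM0; field_simp)
  rw [hb, h, sum_mul]
  refine (norm_sum_le _ _).trans (sum_le_sum fun ψ _ => ?_)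
  rw [norm_mul, norm_addChar, one_mul, sum_addChar_gwL hM (by omega), Complex.norm_real,
    Real.norm_eq_abs, abs_of_nonneg]
  · rw [mul_comm]
  · exact mul_nonneg hM0.le (prod_nonneg fun e _ => cfL_nonneg hM hLM (norm_addChar _ _))

end group

section key

variable {A : Type*} [AddCommGroup A] [Fintype A] [DecidableEq A]
variable {ι : Type*} [Fintype ι] [DecidableEq ι]

theorem key_bal (k : ℕ) (hk : 0 < k) (hι : Fintype.card ι = 2 * k) (v : ι → A)
    (ψ : AddChar (ι → A) ℂ) : ∏ e, ‖(1 + ψ (symc v e)) / 2‖ ≤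
      (∑ D : Cut ι k, ∏ p, cfL (2 * k - 1) (8 * k) (ψ (symc v (offp D.1 p)))) /
        Nat.centralBinom k := by
  classical
  have hne : Nonempty (Cut ι k) := by
    have : 0 < Fintype.card (Cut ι k) := by rw [card_cut k hι]; exact Nat.centralBinom_pos k
    exact Fintype.card_pos_iff.1 this
  have hcard : (Fintype.card (Cut ι k) : ℝ) = Nat.centralBinom k := by rw [card_cut k hι]
  have h8 : 0 < 8 * k := by omega
  have hL4 : 4 * (2 * k - 1) ≤ 8 * k := by omega
  have hk' : (0 : ℝ) < k := by exact_mod_cast hk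
  have hc : ((2 * k - 1 : ℕ) : ℝ) = 2 * k - 1 := by
    rw [Nat.cast_sub (by omega)]; push_cast; ring
  set c := symc v with hcdef
  have hk0 : ∀ e, 0 ≤ ‖(1 + ψ (c e)) / 2‖ := fun e => norm_nonneg _
  have hk1 : ∀ e, ‖(1 + ψ (c e)) / 2‖ ≤ 1 := fun e => norm_half_le_one (norm_addChar _ _)
  have hcf : ∀ e, 0 ≤ cfL (2 * k - 1) (8 * k) (ψ (c e)) :=
    fun e => cfL_nonneg h8 hL4 (norm_addChar _ _)
  have hcfe : ∀ e, cfL (2 * k - 1) (8 * k) (ψ (c e)) =
      ((2 * k - 1 : ℕ) * ‖(1 + ψ (c e)) / 2‖ ^ 2 + 1) / (2 * k) := by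
    intro e
    rw [norm_half_sq (norm_addChar _ _)]
    unfold cfL cf
    rw [hc]
    push_cast
    field_simp
    ring
  have h3 := amgm_core (T := Cut ι k) (fun e => ‖(1 + ψ (c e)) / 2‖) hk0 (fun _ => 1)
    (fun _ => zero_le_one) (by simp)
    (fun D e => if ∃ p, offp D.1 p = e then cfL (2 * k - 1) (8 * k) (ψ (c e)) else 1)
    (fun D e => by
      split_ifs
      · exact hcf e
      · exact zero_le_one)
    (by
      intro e
      rw [card_cut k hι]
      have hprod : ∏ D : Cut ι k, (if ∃ p, offp D.1 p = e then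
          cfL (2 * k - 1) (8 * k) (ψ (c e)) else 1) =
          cfL (2 * k - 1) (8 * k) (ψ (c e)) ^
            (univ.filter fun D : Cut ι k => ∃ p, offp D.1 p = e).card := by
        rw [← Finset.prod_const, Finset.prod_filter]
      rw [hprod]
      induction e using Sym2.ind with
      | _ i j =>
      by_cases hij : i = j
      · have h0 : (univ.filter fun D : Cut ι k => ∃ p, offp D.1 p = s(i, j)) = ∅ := by
          rw [filter_eq_empty_iff]
          intro D _
          rw [sep_iff, hij]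
          tauto
        rw [h0, card_empty, pow_zero]
        exact pow_le_one₀ (hk0 _) (hk1 _)
      · rw [card_sep2 k hk hι hij]
        refine pow_card_le k hk (hk0 _) (hcf _) ?_
        rw [hcfe]
        exact am_gm_pow k hk (hk0 _))
  rw [hcard] at h3
  refine h3.trans (le_of_eq ?_)
  congr 1
  refine sum_congr rfl fun D _ => ?_
  rw [one_mul, ← prod_comp_eq (offp D.1) (offp_injective D.1)
    (fun e => cfL (2 * k - 1) (8 * k) (ψ (c e)))]

/-- extension by zero at `none` -/
def emb : (ι → A) →+ (Option ι → A) where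
  toFun f := fun o => o.elim 0 f
  map_zero' := by funext o; cases o <;> rfl
  map_add' f g := by funext o; cases o <;> simp

theorem emb_none (f : ι → A) : emb f none = 0 := rfl

theorem emb_some (f : ι → A) (i : ι) : emb f (some i) = f i := rfl

theorem symc_map (v : Option ι → A) (e : Sym2 ι) :
    symc v (e.map some) = emb (symc (fun i => v (some i)) e) := by
  funext o
  induction e using Sym2.ind with
  | _ a b =>
  rw [Sym2.map_mk]
  cases o with
  | none =>
    rw [emb_none]
    unfold symc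
    refine sum_eq_zero fun j _ => ?_
    rw [if_neg]
    intro h
    have h1 : (none : Option ι) ∈ s(some a, some b) := by rw [← h]; exact Sym2.mem_mk_left _ _
    rw [Sym2.mem_iff] at h1
    rcases h1 with h1 | h1 <;> simp at h1
  | some i =>
    rw [emb_some]
    unfold symc
    rw [Fintype.sum_option, if_neg, zero_add]
    · refine sum_congr rfl fun j _ => ?_
      have h1 : (s(some i, some j) = s(some a, some b)) ↔ s(i, j) = s(a, b) := by
        simp
      by_cases h2 : s(i, j) = s(a, b)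
      · rw [if_pos h2]
        exact if_pos (h1.2 h2)
      · rw [if_neg h2]
        exact if_neg (fun h => h2 (h1.1 h))
    · intro h
      have h1 : (none : Option ι) ∈ s(some a, some b) := by rw [← h]; exact Sym2.mem_mk_right _ _
      rw [Sym2.mem_iff] at h1
      rcases h1 with h1 | h1 <;> simp at h1

theorem norm_half_le_cfL {z : ℂ} (hz : ‖z‖ = 1) : ‖(1 + z) / 2‖ ≤ cfL 1 8 z := by
  have h1 := norm_half_sq hz
  unfold cf at h1
  unfold cfL
  have h2 : 0 ≤ ‖(1 + z) / 2‖ := norm_nonneg _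
  push_cast at h1 ⊢
  nlinarith [sq_nonneg (‖(1 + z) / 2‖ - 1)]

/-- the pairs of `some`s and the pairs `{none, some i}` -/
def pmap (q : Sym2 ι ⊕ ι) : Sym2 (Option ι) := q.elim (fun e => e.map some) (fun i => s(none, some i))

theorem none_notMem_map (e : Sym2 ι) : (none : Option ι) ∉ e.map some := by
  induction e using Sym2.ind with
  | _ a b =>
  rw [Sym2.map_mk, Sym2.mem_iff]
  rintro (h | h) <;> simp at h

theorem pmap_injective : Function.Injective (pmap : Sym2 ι ⊕ ι → Sym2 (Option ι)) := by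
  rintro (a | a) (b | b) h
  · have : a = b := Sym2.map.injective (Option.some_injective ι) h
    rw [this]
  · have h1 : (a.map some : Sym2 (Option ι)) = s(none, some b) := h
    exact absurd (by rw [h1]; exact Sym2.mem_mk_left _ _) (none_notMem_map a)
  · have h1 : s(none, some a) = (b.map some : Sym2 (Option ι)) := h
    exact absurd (by rw [← h1]; exact Sym2.mem_mk_left _ _) (none_notMem_map b)
  · have h1 : s((none : Option ι), some a) = s(none, some b) := h
    rw [Sym2.eq_iff] at h1
    rcases h1 with h1 | h1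
    · rw [Option.some_injective ι h1.2]
    · exact absurd h1.1 (by simp)

theorem key_opt (k : ℕ) (hk : 0 < k) (hι : Fintype.card ι = 2 * k) (v : Option ι → A)
    (ψ : AddChar (Option ι → A) ℂ) : ∏ e, ‖(1 + ψ (symc v e)) / 2‖ ≤
      (∑ D : Cut ι k, (∏ p, cfL (2 * k - 1) (8 * k)
        (ψ (emb (symc (fun i => v (some i)) (offp D.1 p))))) *
        ∏ i : ι, cfL 1 8 (ψ (symc v s(none, some i)))) / Nat.centralBinom k := by
  classical
  have hx1 : ∀ e, ‖(1 + ψ (symc v e)) / 2‖ ≤ 1 := fun e => norm_half_le_one (norm_addChar _ _)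
  have hx0 : ∀ e, 0 ≤ ‖(1 + ψ (symc v e)) / 2‖ := fun e => norm_nonneg _
  have h1 : ∏ e, ‖(1 + ψ (symc v e)) / 2‖ ≤
      ∏ q : Sym2 ι ⊕ ι, ‖(1 + ψ (symc v (pmap q))) / 2‖ := by
    rw [← Finset.prod_mul_prod_compl (univ.image (pmap : Sym2 ι ⊕ ι → Sym2 (Option ι))),
      prod_image (fun a _ b _ h => pmap_injective h)]
    refine mul_le_of_le_one_right (prod_nonneg fun q _ => hx0 _) ?_
    exact prod_le_one (fun e _ => hx0 e) (fun e _ => hx1 e)
  rw [Fintype.prod_sum_type] at h1
  refine h1.trans ?_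
  have h2 : ∏ e : Sym2 ι, ‖(1 + ψ (symc v (pmap (Sum.inl e)))) / 2‖ ≤
      (∑ D : Cut ι k, ∏ p, cfL (2 * k - 1) (8 * k)
        (ψ (emb (symc (fun i => v (some i)) (offp D.1 p))))) / Nat.centralBinom k := by
    have h3 := key_bal k hk hι (fun i => v (some i)) (ψ.compAddMonoidHom emb)
    simp only [AddChar.compAddMonoidHom_apply] at h3
    refine le_trans (le_of_eq ?_) h3
    refine prod_congr rfl fun e _ => ?_
    have : pmap (Sum.inl e : Sym2 ι ⊕ ι) = e.map some := rfl
    rw [this, symc_map]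
  have h4 : ∏ i : ι, ‖(1 + ψ (symc v (pmap (Sum.inr i)))) / 2‖ ≤
      ∏ i : ι, cfL 1 8 (ψ (symc v s(none, some i))) := by
    refine prod_le_prod (fun i _ => hx0 _) fun i _ => ?_
    exact norm_half_le_cfL (norm_addChar _ _)
  rw [← sum_mul, mul_div_right_comm]
  exact mul_le_mul h2 h4 (prod_nonneg fun i _ => hx0 _)
    (le_trans (prod_nonneg fun i _ => hx0 _) h2)

/-- probability that the combined walk (pairs `D × Dᶜ` and pairs `{none, i}`) vanishes -/
noncomputable def wpr (k : ℕ) (v : Option ι → A) (D : Finset ι) : ℝ :=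
  ((univ.filter fun x : ({i // i ∉ D} × {i // i ∈ D} → Fin (8 * k)) × (ι → Fin 8) =>
    gwL (2 * k - 1) x.1 (fun p => (emb (symc (fun i => v (some i)) (offp D p)) : Option ι → A)) +
      gwL 1 x.2 (fun i => symc v s(none, some i)) = 0).card : ℝ) /
    (((8 * k : ℕ) : ℝ) ^ Fintype.card ({i // i ∉ D} × {i // i ∈ D}) *
      ((8 : ℕ) : ℝ) ^ Fintype.card ι)

theorem SprA_le_wpr (k : ℕ) (hk : 0 < k) (hι : Fintype.card ι = 2 * k) (v w : Option ι → A) :
    SprA v w ≤ (∑ D : Cut ι k, wpr k v D.1) / Nat.centralBinom k := by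
  classical
  have hG : (0 : ℝ) < Fintype.card (Option ι → A) := by exact_mod_cast Fintype.card_pos
  have h2E : (0 : ℝ) < (2 : ℝ) ^ Fintype.card (Sym2 (Option ι)) := by positivity
  have h8 : 0 < 8 * k := by omega
  have hL2 : 2 * (2 * k - 1) ≤ 8 * k := by omega
  rw [SprA_eq_bpr]
  set c := symc v with hcdef
  have h := card_filter_eq_sum (fun b : Sym2 (Option ι) → Bool => bwalk b c) w
  have hb : (Fintype.card (Option ι → A) * bpr c w : ℝ) * (2 : ℝ) ^ Fintype.card (Sym2 (Option ι)) =
      ‖(Fintype.card (Option ι → A) : ℂ) *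
        ((univ.filter (fun b : Sym2 (Option ι) → Bool => bwalk b c = w)).card : ℂ)‖ := by
    rw [norm_mul, Complex.norm_natCast, Complex.norm_natCast]
    unfold bpr
    (clear * -; field_simp)
  refine le_of_mul_le_mul_left ?_ hG
  refine le_of_mul_le_mul_right ?_ h2E
  rw [hb, h]
  have h4 : (Fintype.card (Option ι → A) : ℝ) * ((∑ D : Cut ι k, wpr k v D.1) /
      Nat.centralBinom k) =
      ∑ ψ : AddChar (Option ι → A) ℂ, (∑ D : Cut ι k, (∏ p, cfL (2 * k - 1) (8 * k)
        (ψ (emb (symc (fun i => v (some i)) (offp D.1 p))))) *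
        ∏ i : ι, cfL 1 8 (ψ (symc v s(none, some i)))) / Nat.centralBinom k := by
    rw [← sum_div, sum_comm, mul_div_assoc', mul_sum]
    congr 1
    refine sum_congr rfl fun D _ => ?_
    unfold wpr
    rw [two_walk h8 hL2 (by norm_num) (by norm_num)]
  rw [h4, sum_mul]
  refine (norm_sum_le _ _).trans (sum_le_sum fun ψ _ => ?_)
  rw [norm_mul, norm_addChar, one_mul, sum_addChar_bwalk, norm_prod]
  have h3 : ∏ e, ‖1 + ψ (c e)‖ =
      (∏ e, ‖(1 + ψ (c e)) / 2‖) * (2 : ℝ) ^ Fintype.card (Sym2 (Option ι)) := by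
    rw [← Finset.card_univ, ← Finset.prod_const, ← Finset.prod_mul_distrib]
    refine prod_congr rfl fun e _ => ?_
    rw [norm_div]
    simp
  rw [h3]
  exact mul_le_mul_of_nonneg_right (key_opt k hk hι v ψ) h2E.le

end key

section ring

variable {A : Type*} [CommRing A] [Fintype A] [DecidableEq A]
variable {ι : Type*} [Fintype ι] [DecidableEq ι]

/-- the two halves of the walk on `D × Dᶜ` have the same pairing with `v` -/
theorem bil {L M : ℕ} (D : Finset ι) (v : ι → A)
    (ω : {i // i ∉ D} × {i // i ∈ D} → Fin M) :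
    ∑ j : {i // i ∈ D}, v j * gwL L ω (fun p => symc v (offp D p)) j =
      ∑ i : {i // i ∉ D}, v i * gwL L ω (fun p => symc v (offp D p)) i := by
  have h1 : ∀ j : {i // i ∈ D}, gwL L ω (fun p => symc v (offp D p)) j =
      gwL L (fun i => ω (i, j)) (fun i : {i // i ∉ D} => v i) :=
    fun j => by rw [gwL_offp, dif_pos j.2]
  have h2 : ∀ i : {i // i ∉ D}, gwL L ω (fun p => symc v (offp D p)) i =
      gwL L (fun j => ω (i, j)) (fun j : {i // i ∈ D} => v j) :=
    fun i => by rw [gwL_offp, dif_neg i.2]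
  simp only [h1, h2]
  unfold gwL
  simp only [mul_sum]
  rw [sum_comm]
  refine sum_congr rfl fun i _ => sum_congr rfl fun j _ => ?_
  rw [zsmul_eq_mul, zsmul_eq_mul]
  ring

theorem gwL_emb {L M : ℕ} {E : Type*} [Fintype E] (ω : E → Fin M) (c : E → ι → A) :
    gwL L ω (fun p => (emb (c p) : Option ι → A)) = emb (gwL L ω c) := by
  unfold gwL
  rw [map_sum]
  exact sum_congr rfl fun e _ => (map_zsmul _ _ _).symm

theorem symc_none (v : Option ι → A) (i : ι) :
    symc v s(none, some i) = Pi.single none (v (some i)) + Pi.single (some i) (v none) :=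
  symc_neA v (Option.some_ne_none i).symm

theorem gwL_none {L M : ℕ} (v : Option ι → A) (g : ι → Fin M) :
    gwL L g (fun i => symc v s(none, some i)) none = ∑ i, stL L (g i) • v (some i) := by
  simp only [symc_none]
  unfold gwL
  rw [Finset.sum_apply]
  refine sum_congr rfl fun i _ => ?_
  rw [Pi.smul_apply]
  beta_reduce
  rw [Pi.add_apply, Pi.single_eq_same,
    Pi.single_eq_of_ne (Option.some_ne_none i).symm, add_zero]

theorem gwL_some {L M : ℕ} (v : Option ι → A) (g : ι → Fin M) (j : ι) :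
    gwL L g (fun i => symc v s(none, some i)) (some j) = stL L (g j) • v none := by
  simp only [symc_none]
  unfold gwL
  rw [Finset.sum_apply, Finset.sum_eq_single j]
  · rw [Pi.smul_apply]
    beta_reduce
    rw [Pi.add_apply, Pi.single_eq_same,
      Pi.single_eq_of_ne (Option.some_ne_none j), zero_add]
  · intro i _ hi
    rw [Pi.smul_apply]
    beta_reduce
    rw [Pi.add_apply, Pi.single_eq_of_ne (Option.some_ne_none j),
      Pi.single_eq_of_ne (fun h => hi (Option.some_injective ι h).symm), add_zero, smul_zero]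
  · simp

theorem event {k : ℕ} (h2 : IsUnit (2 : A)) (v : Option ι → A) (hv : IsUnit (v none))
    (D : Finset ι) (x : ({i // i ∉ D} × {i // i ∈ D} → Fin (8 * k)) × (ι → Fin 8))
    (hx : gwL (2 * k - 1) x.1
      (fun p => (emb (symc (fun i => v (some i)) (offp D p)) : Option ι → A)) +
      gwL 1 x.2 (fun i => symc v s(none, some i)) = 0) :
    (gwL 1 (fun j : {i // i ∈ D} => x.2 j) (fun j : {i // i ∈ D} => v (some j)) = 0 ∧
      gwL 1 (fun i : {i // i ∉ D} => x.2 i) (fun i : {i // i ∉ D} => v (some i)) = 0) ∧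
    gwL (2 * k - 1) x.1 (fun p => symc (fun i => v (some i)) (offp D p)) =
      fun j => -(stL 1 (x.2 j) • v none) := by
  rw [gwL_emb] at hx
  have hn : ∑ i, stL 1 (x.2 i) • v (some i) = 0 := by
    have := congrFun hx none
    rw [Pi.add_apply, emb_none, gwL_none, zero_add] at this
    exact this
  have hy : gwL (2 * k - 1) x.1 (fun p => symc (fun i => v (some i)) (offp D p)) =
      fun j => -(stL 1 (x.2 j) • v none) := by
    funext j
    have := congrFun hx (some j)
    rw [Pi.add_apply, emb_some, gwL_some] at this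
    exact eq_neg_of_add_eq_zero_left this
  refine ⟨?_, hy⟩
  have hb := bil (L := 2 * k - 1) D (fun i => v (some i)) x.1
  rw [hy] at hb
  set a := gwL 1 (fun j : {i // i ∈ D} => x.2 j) (fun j : {i // i ∈ D} => v (some j)) with ha
  set b := gwL 1 (fun i : {i // i ∉ D} => x.2 i) (fun i : {i // i ∉ D} => v (some i)) with hbd
  have hab : a + b = 0 := by
    have hs := Fintype.sum_subtype_add_sum_subtype (fun i => i ∈ D)
      (fun i => stL 1 (x.2 i) • v (some i))
    rw [ha, hbd]
    unfold gwL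
    refine Eq.trans (congrArg₂ (· + ·) ?_ ?_) (hs.trans hn)
    · exact Finset.sum_congr (by ext x; simp only [Finset.mem_univ]) (fun _ _ => rfl)
    · exact Finset.sum_congr (by ext x; simp only [Finset.mem_univ]) (fun _ _ => rfl)
  have e1 : ∑ j : {i // i ∈ D}, v (some j) * (-(stL 1 (x.2 j) • v none)) = -(v none * a) := by
    rw [ha]
    unfold gwL
    rw [mul_sum, ← sum_neg_distrib]
    refine sum_congr rfl fun j _ => ?_
    rw [zsmul_eq_mul, zsmul_eq_mul]
    ring
  have e2 : ∑ i : {i // i ∉ D}, v (some i) * (-(stL 1 (x.2 i) • v none)) = -(v none * b) := by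
    rw [hbd]
    unfold gwL
    rw [mul_sum, ← sum_neg_distrib]
    refine sum_congr rfl fun j _ => ?_
    rw [zsmul_eq_mul, zsmul_eq_mul]
    ring
  have e3 : v none * a = v none * b := by
    have : -(v none * a) = -(v none * b) := e1.symm.trans (hb.trans e2)
    exact neg_injective this
  have e4 : a = b := hv.mul_left_cancel e3
  have e5 : (2 : A) * a = 2 * 0 := by
    rw [mul_zero, two_mul]
    nth_rewrite 2 [e4]
    exact hab
  have e6 : a = 0 := h2.mul_left_cancel e5
  exact ⟨e6, e4 ▸ e6⟩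

theorem card_split {M L : ℕ} (D : Finset ι) (v : ι → A) :
    (univ.filter fun g : ι → Fin M =>
      gwL L (fun j : {i // i ∈ D} => g j) (fun j : {i // i ∈ D} => v j) = 0 ∧
      gwL L (fun i : {i // i ∉ D} => g i) (fun i : {i // i ∉ D} => v i) = 0).card =
    (univ.filter fun g : {i // i ∈ D} → Fin M => gwL L g (fun j : {i // i ∈ D} => v j) = 0).card *
    (univ.filter fun g : {i // i ∉ D} → Fin M =>
      gwL L g (fun i : {i // i ∉ D} => v i) = 0).card := by
  rw [← card_product]
  refine card_bij (fun g _ => (fun j => g j, fun i => g i)) ?_ ?_ ?_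
  · intro g hg
    rw [mem_filter] at hg
    rw [mem_product, mem_filter, mem_filter]
    exact ⟨⟨mem_univ _, hg.2.1⟩, mem_univ _, hg.2.2⟩
  · intro g _ g' _ h
    funext i
    rw [Prod.mk.injEq] at h
    by_cases hi : i ∈ D
    · exact congrFun h.1 ⟨i, hi⟩
    · exact congrFun h.2 ⟨i, hi⟩
  · rintro ⟨g1, g2⟩ hg
    rw [mem_product, mem_filter, mem_filter] at hg
    have e1 : (fun j : {i // i ∈ D} =>
        (fun i => if h : i ∈ D then g1 ⟨i, h⟩ else g2 ⟨i, h⟩ : ι → Fin M) j) = g1 := by
      funext j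
      exact dif_pos j.2
    have e2 : (fun j : {i // i ∉ D} =>
        (fun i => if h : i ∈ D then g1 ⟨i, h⟩ else g2 ⟨i, h⟩ : ι → Fin M) j) = g2 := by
      funext j
      exact dif_neg j.2
    refine ⟨fun i => if h : i ∈ D then g1 ⟨i, h⟩ else g2 ⟨i, h⟩, ?_, ?_⟩
    · rw [mem_filter, e1, e2]
      exact ⟨mem_univ _, hg.1.2, hg.2.2⟩
    · exact Prod.ext e1 e2

theorem wpr_le (k : ℕ) (hk : 0 < k) (h2 : IsUnit (2 : A)) (v : Option ι → A)
    (hv : IsUnit (v none)) (D : Finset ι) :
    wpr k v D ≤ prL 1 8 (fun j : {i // i ∈ D} => v (some j)) 0 *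
      prL 1 8 (fun i : {i // i ∉ D} => v (some i)) 0 *
      BprL (2 * k - 1) (8 * k) (fun j : {i // i ∈ D} => v (some j))
        (fun i : {i // i ∉ D} => v (some i)) := by
  classical
  have h8 : 0 < 8 * k := by omega
  have hL4 : 4 * (2 * k - 1) ≤ 8 * k := by omega
  have hM0 : (0 : ℝ) < ((8 * k : ℕ) : ℝ) ^ Fintype.card ({i // i ∉ D} × {i // i ∈ D}) := by
    have : (0 : ℝ) < ((8 * k : ℕ) : ℝ) := by exact_mod_cast h8
    positivity
  set c1 : {i // i ∉ D} × {i // i ∈ D} → ι → A :=
    fun p => symc (fun i => v (some i)) (offp D p) with hc1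
  set G0 := univ.filter fun g : ι → Fin 8 =>
      gwL 1 (fun j : {i // i ∈ D} => g j) (fun j : {i // i ∈ D} => v (some j)) = 0 ∧
      gwL 1 (fun i : {i // i ∉ D} => g i) (fun i : {i // i ∉ D} => v (some i)) = 0 with hG0
  have hle : ((univ.filter fun x : ({i // i ∉ D} × {i // i ∈ D} → Fin (8 * k)) × (ι → Fin 8) =>
      gwL (2 * k - 1) x.1 (fun p => (emb (symc (fun i => v (some i)) (offp D p)) :
        Option ι → A)) + gwL 1 x.2 (fun i => symc v s(none, some i)) = 0).card : ℝ) ≤
      (G0.card : ℝ) * (prL (2 * k - 1) (8 * k) c1 0 *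
        ((8 * k : ℕ) : ℝ) ^ Fintype.card ({i // i ∉ D} × {i // i ∈ D})) := by
    have hsub : (univ.filter fun x : ({i // i ∉ D} × {i // i ∈ D} → Fin (8 * k)) × (ι → Fin 8) =>
      gwL (2 * k - 1) x.1 (fun p => (emb (symc (fun i => v (some i)) (offp D p)) :
        Option ι → A)) + gwL 1 x.2 (fun i => symc v s(none, some i)) = 0) ⊆
        ((univ : Finset ({i // i ∉ D} × {i // i ∈ D} → Fin (8 * k))) ×ˢ G0).filter
          (fun x => gwL (2 * k - 1) x.1 c1 = fun j => -(stL 1 (x.2 j) • v none)) := by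
      intro x hx
      rw [mem_filter] at hx
      have h := event h2 v hv D x hx.2
      rw [mem_filter, mem_product, hG0, mem_filter]
      exact ⟨⟨mem_univ _, mem_univ _, h.1⟩, h.2⟩
    refine le_trans (Nat.cast_le.2 (card_le_card hsub)) ?_
    rw [card_filter, sum_product_right, Nat.cast_sum, ← nsmul_eq_mul]
    refine sum_le_card_nsmul _ _ _ fun g _ => ?_
    rw [← card_filter]
    have h3 := prL_le_zero h8 hL4 c1 (fun j => -(stL 1 (g j) • v none))
    rw [← div_le_iff₀ hM0]
    exact h3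
  have hsp := card_split (M := 8) (L := 1) D (fun i => v (some i))
  unfold wpr
  rw [div_le_iff₀ (by positivity)]
  refine hle.trans (le_of_eq ?_)
  have hcard : Fintype.card ι = Fintype.card {i // i ∈ D} + Fintype.card {i // i ∉ D} := by
    rw [← Fintype.card_sum]
    exact (Fintype.card_congr (Equiv.sumCompl (fun i => i ∈ D))).symm
  rw [hc1, prL_offp]
  have e1 : ((8 : ℕ) : ℝ) ^ Fintype.card {i // i ∈ D} *
      prL 1 8 (fun j : {i // i ∈ D} => v (some j)) 0 =
      ((univ.filter fun g : {i // i ∈ D} → Fin 8 =>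
        gwL 1 g (fun j : {i // i ∈ D} => v (some j)) = 0).card : ℝ) := by
    unfold prL
    rw [mul_div_cancel₀]
    positivity
  have e2 : ((8 : ℕ) : ℝ) ^ Fintype.card {i // i ∉ D} *
      prL 1 8 (fun j : {i // i ∉ D} => v (some j)) 0 =
      ((univ.filter fun g : {i // i ∉ D} → Fin 8 =>
        gwL 1 g (fun j : {i // i ∉ D} => v (some j)) = 0).card : ℝ) := by
    unfold prL
    rw [mul_div_cancel₀]
    positivity
  rw [hG0, hsp, Nat.cast_mul, ← e1, ← e2, hcard, pow_add]
  ring

/-- lossless half size, any target `w` -/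
theorem SprA_le_lossless_w (k : ℕ) (hk : 0 < k) (hι : Fintype.card ι = 2 * k)
    (h2 : IsUnit (2 : A)) (v w : Option ι → A) (hv : IsUnit (v none)) :
    SprA v w ≤ (∑ D : Cut ι k, prL 1 8 (fun j : {i // i ∈ D.1} => v (some j)) 0 *
      prL 1 8 (fun i : {i // i ∉ D.1} => v (some i)) 0 *
      BprL (2 * k - 1) (8 * k) (fun j : {i // i ∈ D.1} => v (some j))
        (fun i : {i // i ∉ D.1} => v (some i))) / Nat.centralBinom k := by
  refine (SprA_le_wpr k hk hι v w).trans ?_
  have hT : (0 : ℝ) < Nat.centralBinom k := by exact_mod_cast Nat.centralBinom_pos k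
  rw [div_le_div_iff_of_pos_right hT]
  exact sum_le_sum fun D _ => wpr_le k hk h2 v hv D.1

/-- **Lossless half size.**  The row `none` of the random symmetric matrix on `Option ι` costs
nothing: it gives the two extra factors `P(g · v_D = 0)` and `P(h · v_{Dᶜ} = 0)`. -/
theorem SprA_le_lossless (k : ℕ) (hk : 0 < k) (hι : Fintype.card ι = 2 * k)
    (h2 : IsUnit (2 : A)) (v : Option ι → A) (hv : IsUnit (v none)) :
    SprA v 0 ≤ (∑ D : Cut ι k, prL 1 8 (fun j : {i // i ∈ D.1} => v (some j)) 0 *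
      prL 1 8 (fun i : {i // i ∉ D.1} => v (some i)) 0 *
      BprL (2 * k - 1) (8 * k) (fun j : {i // i ∈ D.1} => v (some j))
        (fun i : {i // i ∉ D.1} => v (some i))) / Nat.centralBinom k :=
  SprA_le_lossless_w k hk hι h2 v 0 hv

open Classical in
/-- summed form, restriction set `V` (all with a unit at `none`) -/
theorem sum_SprA_le_lossless (k : ℕ) (hk : 0 < k) (hι : Fintype.card ι = 2 * k)
    (h2 : IsUnit (2 : A)) (V : Finset (Option ι → A)) (hV : ∀ v ∈ V, IsUnit (v none)) :
    ∑ v ∈ V, SprA v 0 ≤ (∑ D : Cut ι k,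
      (∑ ω : {i // i ∉ D.1} → {i // i ∈ D.1} → Fin (8 * k),
        ∑ v ∈ V.filter (fun v =>
          (∀ i, gwL (2 * k - 1) (ω i) (fun j : {i // i ∈ D.1} => v (some j)) = 0) ∧
          ∀ j, gwL (2 * k - 1) (fun i => ω i j) (fun i : {i // i ∉ D.1} => v (some i)) = 0),
          prL 1 8 (fun j : {i // i ∈ D.1} => v (some j)) 0 *
            prL 1 8 (fun i : {i // i ∉ D.1} => v (some i)) 0) /
        ((8 * k : ℕ) : ℝ) ^ (k * k)) / Nat.centralBinom k := by
  have h1 : ∑ v ∈ V, SprA v 0 ≤ ∑ v ∈ V, (∑ D : Cut ι k,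
      prL 1 8 (fun j : {i // i ∈ D.1} => v (some j)) 0 *
      prL 1 8 (fun i : {i // i ∉ D.1} => v (some i)) 0 *
      BprL (2 * k - 1) (8 * k) (fun j : {i // i ∈ D.1} => v (some j))
        (fun i : {i // i ∉ D.1} => v (some i))) / Nat.centralBinom k :=
    sum_le_sum fun v hv => SprA_le_lossless k hk hι h2 v (hV v hv)
  refine h1.trans (le_of_eq ?_)
  rw [← sum_div, sum_comm]
  congr 1
  refine sum_congr rfl fun D _ => ?_
  have e1 : Fintype.card {i // i ∈ D.1} = k := by rw [Fintype.card_coe, D.2]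
  have e2 : Fintype.card {i // i ∉ D.1} = k := by
    rw [Fintype.card_subtype_compl, Fintype.card_coe, D.2, hι]
    omega
  have e3 : ∀ v : Option ι → A, BprL (2 * k - 1) (8 * k) (fun j : {i // i ∈ D.1} => v (some j))
      (fun i : {i // i ∉ D.1} => v (some i)) =
      (∑ ω : {i // i ∉ D.1} → {i // i ∈ D.1} → Fin (8 * k),
        if ((∀ i, gwL (2 * k - 1) (ω i) (fun j : {i // i ∈ D.1} => v (some j)) = 0) ∧
          ∀ j, gwL (2 * k - 1) (fun i => ω i j) (fun i : {i // i ∉ D.1} => v (some i)) = 0)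
        then (1 : ℝ) else 0) / ((8 * k : ℕ) : ℝ) ^ (k * k) := by
    intro v
    unfold BprL
    rw [e1, e2, ← Finset.sum_boole]
  simp only [e3]
  rw [sum_div]
  simp only [← mul_div_assoc, mul_sum, sum_div]
  rw [sum_comm]
  refine sum_congr rfl fun ω _ => ?_
  rw [sum_filter]
  refine sum_congr rfl fun v _ => ?_
  by_cases h : ((∀ i, gwL (2 * k - 1) (ω i) (fun j : {i // i ∈ D.1} => v (some j)) = 0) ∧
          ∀ j, gwL (2 * k - 1) (fun i => ω i j) (fun i : {i // i ∉ D.1} => v (some i)) = 0)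
  · rw [if_pos h, if_pos h, mul_one]
  · rw [if_neg h, if_neg h, mul_zero, zero_div]

end ring

section reindex

theorem sym2_left {α β : Type*} (e : α ≃ β) (x : Sym2 α) : (x.map e).map e.symm = x := by
  induction x using Sym2.ind with
  | _ a b => rw [Sym2.map_mk, Sym2.map_mk, e.symm_apply_apply, e.symm_apply_apply]

theorem sym2_right {α β : Type*} (e : α ≃ β) (x : Sym2 β) : (x.map e.symm).map e = x := by
  induction x using Sym2.ind with
  | _ a b => rw [Sym2.map_mk, Sym2.map_mk, e.apply_symm_apply, e.apply_symm_apply]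

variable {A : Type*} [AddCommGroup A] [Fintype A] [DecidableEq A]
variable {κ κ' : Type*} [Fintype κ] [DecidableEq κ] [Fintype κ'] [DecidableEq κ']

theorem smul2_comp (e : κ ≃ κ') (b : Sym2 κ → Bool) (v : κ' → A) :
    smul2 b (v ∘ e) = smul2 (fun x => b (x.map e.symm)) v ∘ e := by
  funext i
  unfold smul2
  rw [Function.comp_apply]
  refine Fintype.sum_equiv e _ _ fun j => ?_
  beta_reduce
  rw [Sym2.map_mk, e.symm_apply_apply, e.symm_apply_apply, Function.comp_apply]

/-- the probability `P(S v = w)` does not depend on the names of the indices -/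
theorem SprA_comp (e : κ ≃ κ') (v w : κ' → A) : SprA (v ∘ e) (w ∘ e) = SprA v w := by
  have hc : Fintype.card (Sym2 κ) = Fintype.card (Sym2 κ') :=
    Fintype.card_congr ⟨fun x => x.map e, fun x => x.map e.symm, sym2_left e, sym2_right e⟩
  unfold SprA
  rw [hc]
  congr 2
  refine card_bij (fun b _ => fun x => b (x.map e.symm)) ?_ ?_ ?_
  · intro b hb
    rw [mem_filter] at hb ⊢
    refine ⟨mem_univ _, ?_⟩
    have h := hb.2
    rw [smul2_comp] at h
    funext i
    have := congrFun h (e.symm i)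
    rw [Function.comp_apply, Function.comp_apply, e.apply_symm_apply] at this
    exact this
  · intro b _ b' _ h
    funext x
    have := congrFun h (x.map e)
    simp only [sym2_left] at this
    exact this
  · intro b hb
    rw [mem_filter] at hb
    have h1 : (fun x : Sym2 κ' => (fun y : Sym2 κ => b (y.map e)) (x.map e.symm)) = b := by
      funext x
      exact congrArg b (sym2_right e x)
    refine ⟨fun y => b (y.map e), ?_, h1⟩
    rw [mem_filter, smul2_comp, h1, hb.2]
    exact ⟨mem_univ _, rfl⟩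

end reindex

section lzero

variable {A : Type*} [CommRing A] [Fintype A] [DecidableEq A]
variable {κ : Type*} [Fintype κ] [DecidableEq κ]

/-- lossless half size with a row `l₀` of the index set `κ`, `|κ| = 2k + 1` -/
theorem SprA_le_lossless_l0 (k : ℕ) (hk : 0 < k) (hκ : Fintype.card κ = 2 * k + 1)
    (h2 : IsUnit (2 : A)) (l₀ : κ) (v w : κ → A) (hv : IsUnit (v l₀)) :
    SprA v w ≤ (∑ D : Cut {i // i ≠ l₀} k, prL 1 8 (fun j : {i // i ∈ D.1} => v j.1.1) 0 *
      prL 1 8 (fun i : {i // i ∉ D.1} => v i.1.1) 0 *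
      BprL (2 * k - 1) (8 * k) (fun j : {i // i ∈ D.1} => v j.1.1)
        (fun i : {i // i ∉ D.1} => v i.1.1)) / Nat.centralBinom k := by
  have hc : Fintype.card {i // i ≠ l₀} = 2 * k := by
    rw [Fintype.card_subtype_compl, Fintype.card_subtype_eq, hκ]
    omega
  rw [← SprA_comp (Equiv.optionSubtypeNe l₀) v w]
  exact SprA_le_lossless_w k hk hc h2 (v ∘ Equiv.optionSubtypeNe l₀)
    (w ∘ Equiv.optionSubtypeNe l₀) hv

end lzero

end Vale.Agent.P160.Half.HalfL
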