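import Vale.Agent.P160.Model
import Vale.Agent.P160.QTop
import Mathlib.Analysis.SpecialFunctions.Trigonometric.Series

/-! # Summed domination by half-size blocks (P160, rate 1/2)

The number of zeros of a random symmetric 0/1 matrix in a set `U` of vectors is dominated, in
mean, by the average over the half-size blocks `D` of the same number for a lazy iid block. -/

set_option linter.unusedSectionVars false

namespace Vale.Agent.P160.Half.HalfSum

open Finset

/-! ## One step -/

/-- The eighth power of the half step is at most the `M`-th power of the lazy step. -/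
lemma norm_half_pow_le {M : ℕ} (hM : 4 ≤ M) {z : ℂ} (hz : ‖z‖ = 1) :
    ‖(1 + z) / 2‖ ^ 8 ≤ cf M z ^ M := by
  have : Nonempty (Fin M) := ⟨⟨0, by omega⟩⟩
  obtain ⟨r, rfl⟩ := Nat.exists_eq_add_of_le hM
  have h4 := cf_nonneg (M := 4) le_rfl hz
  have hb : ‖(1 + z) / 2‖ ^ 8 = cf 4 z ^ 4 := by
    rw [← norm_half_sq hz, ← pow_mul]
  have h := prod_le_mean_pow (T := Fin (4 + r))
    (Fin.append (fun _ : Fin 4 => cf 4 z) (fun _ : Fin r => (1 : ℝ))) (by
      intro t
      refine Fin.addCases (fun i => ?_) (fun i => ?_) t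
      · rw [Fin.append_left]; exact h4
      · rw [Fin.append_right]; exact zero_le_one)
  rw [Fin.prod_univ_add, Fin.sum_univ_add] at h
  simp only [Fin.append_left, Fin.append_right, prod_const, sum_const, card_univ,
    Fintype.card_fin, one_pow, mul_one, nsmul_eq_mul] at h
  rw [hb]
  refine h.trans (le_of_eq ?_)
  congr 1
  have hM' : ((4 : ℕ) : ℝ) + (r : ℝ) ≠ 0 := by positivity
  unfold cf
  push_cast at hM' ⊢
  field_simp
  ring

/-! ## A family of lazy walks -/

section family

variable {G : Type*} [AddCommGroup G] [Fintype G] [DecidableEq G]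
variable {E T : Type*} [Fintype E] [DecidableEq E] [Fintype T] [Nonempty T]
variable {E₁ : T → Type*} [∀ t, Fintype (E₁ t)] [∀ t, DecidableEq (E₁ t)]

open Classical in
/-- Domination of a random subset sum by a weighted family of lazy walks with parameter `M`:
every pair may be used by a fraction `M / 8` of the family. -/
theorem bpr_le_familyM {M : ℕ} (hM : 4 ≤ M) (c : E → G) (g : G) (w : T → ℝ)
    (hw : ∀ t, 0 ≤ w t) (hw1 : 1 ≤ ∏ t, w t) (f : ∀ t, E₁ t → E)
    (hf : ∀ t, Function.Injective (f t))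
    (hE : ∀ e, 8 * (univ.filter (fun t => ∃ e₁, f t e₁ = e)).card ≤ M * Fintype.card T) :
    bpr c g ≤ (∑ t, w t * gpr M (fun e => c (f t e)) 0) / Fintype.card T := by
  have hG : (0 : ℝ) < Fintype.card G := by exact_mod_cast Fintype.card_pos
  have hT : (0 : ℝ) < Fintype.card T := by exact_mod_cast Fintype.card_pos
  have h := card_filter_eq_sum (fun b : E → Bool => bwalk b c) g
  have h2E : (0 : ℝ) < (2 : ℝ) ^ Fintype.card E := by positivity
  have hb : (Fintype.card G * bpr c g : ℝ) * (2 : ℝ) ^ Fintype.card E =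
      ‖(Fintype.card G : ℂ) *
        ((univ.filter (fun b : E → Bool => bwalk b c = g)).card : ℂ)‖ := by
    rw [norm_mul, Complex.norm_natCast, Complex.norm_natCast]
    unfold bpr
    (clear * -; field_simp)
  -- the bound for every character
  have key : ∀ ψ : AddChar G ℂ, ∏ e, ‖(1 + ψ (c e)) / 2‖ ≤
      (∑ t, w t * ∏ e, cf M (ψ (c (f t e)))) / Fintype.card T := by
    intro ψ
    have hk0 : ∀ e, 0 ≤ ‖(1 + ψ (c e)) / 2‖ := fun e => norm_nonneg _
    have hk1 : ∀ e, ‖(1 + ψ (c e)) / 2‖ ≤ 1 := fun e => norm_half_le_one (norm_addChar _ _)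
    have hc0 : ∀ e, 0 ≤ cf M (ψ (c e)) := fun e => cf_nonneg hM (norm_addChar _ _)
    set y : T → E → ℝ := fun t e =>
      (if ∃ e₁, f t e₁ = e then cf M (ψ (c e)) else 1) with hy
    have hy0 : ∀ t e, 0 ≤ y t e := by
      intro t e
      simp only [hy]
      split_ifs
      · exact hc0 e
      · exact zero_le_one
    have h3 := amgm_core (fun e => ‖(1 + ψ (c e)) / 2‖) hk0 w hw hw1 y hy0 (by
      intro e
      have hA : ∏ t, y t e =
          cf M (ψ (c e)) ^ (univ.filter (fun t => ∃ e₁, f t e₁ = e)).card := by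
        simp only [hy]
        rw [← Finset.prod_const, Finset.prod_filter]
      rw [hA]
      refine le_of_pow_le_pow_left₀ (n := M) (by omega) (pow_nonneg (hc0 e) _) ?_
      calc (‖(1 + ψ (c e)) / 2‖ ^ Fintype.card T) ^ M
          = ‖(1 + ψ (c e)) / 2‖ ^ (M * Fintype.card T) := by
            rw [← pow_mul, mul_comm]
        _ ≤ ‖(1 + ψ (c e)) / 2‖ ^
            (8 * (univ.filter (fun t => ∃ e₁, f t e₁ = e)).card) :=
            pow_le_pow_of_le_one (hk0 e) (hk1 e) (hE e)
        _ = (‖(1 + ψ (c e)) / 2‖ ^ 8) ^ (univ.filter (fun t => ∃ e₁, f t e₁ = e)).card := by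
            rw [pow_mul]
        _ ≤ (cf M (ψ (c e)) ^ M) ^ (univ.filter (fun t => ∃ e₁, f t e₁ = e)).card :=
            pow_le_pow_left₀ (pow_nonneg (hk0 e) _)
              (norm_half_pow_le hM (norm_addChar _ _)) _
        _ = (cf M (ψ (c e)) ^ (univ.filter (fun t => ∃ e₁, f t e₁ = e)).card) ^ M := by
            rw [← pow_mul, ← pow_mul, mul_comm])
    refine h3.trans (le_of_eq ?_)
    congr 1
    refine sum_congr rfl fun t _ => ?_
    rw [prod_comp_eq (f t) (hf t) (fun e => cf M (ψ (c e)))]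
  refine le_of_mul_le_mul_left ?_ hG
  refine le_of_mul_le_mul_right ?_ h2E
  rw [hb, h]
  have h4 : (Fintype.card G : ℝ) * ((∑ t, w t * gpr M (fun e => c (f t e)) 0) /
      Fintype.card T) =
      ∑ ψ : AddChar G ℂ, (∑ t, w t * ∏ e, cf M (ψ (c (f t e)))) / Fintype.card T := by
    rw [← sum_div, sum_comm, mul_div_assoc', mul_sum]
    congr 1
    refine sum_congr rfl fun t _ => ?_
    rw [← mul_sum, ← gpr_zero_eq (by omega : 2 ≤ M)]
    ring
  rw [h4, sum_mul]
  refine (norm_sum_le _ _).trans (sum_le_sum fun ψ _ => ?_)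
  rw [norm_mul, norm_addChar, one_mul, sum_addChar_bwalk, norm_prod]
  have h3 : ∏ e, ‖1 + ψ (c e)‖ = (∏ e, ‖(1 + ψ (c e)) / 2‖) * (2 : ℝ) ^ Fintype.card E := by
    rw [← Finset.card_univ, ← Finset.prod_const, ← Finset.prod_mul_distrib]
    refine prod_congr rfl fun e _ => ?_
    rw [norm_div]
    simp only [Complex.norm_ofNat, isUnit_iff_ne_zero, ne_eq, OfNat.ofNat_ne_zero, not_false_eq_true, IsUnit.div_mul_cancel]
  rw [h3]
  exact mul_le_mul_of_nonneg_right (key ψ) h2E.le

end family

/-! ## Families of blocks -/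

section blocks

variable {ι : Type*} [Fintype ι] [DecidableEq ι]
variable {T : Type*} [Fintype T] [Nonempty T]

/-- Domination of one symmetric probability by the weighted mean over a family of blocks. -/
theorem Spr_le_mean {M N : ℕ} [NeZero N] (hM : 4 ≤ M) (D : T → Finset ι)
    (hD : ∀ i j : ι, i ≠ j → 8 * (univ.filter (fun t => (i ∈ D t ∧ j ∉ D t) ∨
      (i ∉ D t ∧ j ∈ D t))).card ≤ M * Fintype.card T)
    (w : T → ℝ) (hw : ∀ t, 0 ≤ w t) (hw1 : 1 ≤ ∏ t, w t) (v g : ι → ZMod N) :
    Spr v g ≤ (∑ t, w t * Bpr M (fun j : {i // i ∈ D t} => v j)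
      (fun i : {i // i ∉ D t} => v i)) / Fintype.card T := by
  classical
  rw [Spr_eq_bpr]
  have h := bpr_le_familyM (E₁ := fun t => {i // i ∉ D t} × {i // i ∈ D t}) hM (symc v) g w hw
    hw1 (fun t => offp (D t)) (fun t => offp_injective (D t)) (by
      intro e
      induction e using Sym2.ind with
      | _ i j =>
        by_cases hij : i = j
        · subst hij
          have h1 : univ.filter (fun t => ∃ e₁, offp (D t) e₁ = s(i, i)) = ∅ := by
            apply Finset.filter_eq_empty_iff.2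
            intro t _ h
            rcases offp_eq_iff (D t) h with h | h
            · exact h.2 h.1
            · exact h.1 h.2
          have h2 : (univ.filter (fun t => ∃ e₁, offp (D t) e₁ = s(i, i))).card = 0 := by
            rw [h1, card_empty]
          refine le_trans (le_of_eq ?_) (Nat.zero_le _)
          convert (congrArg (fun n => 8 * n) h2)
        · refine le_trans ?_ (hD i j hij)
          refine Nat.mul_le_mul_left _ (Finset.card_le_card ?_)
          intro t ht
          rw [mem_filter] at ht ⊢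
          exact ⟨mem_univ _, offp_eq_iff (D t) ht.2⟩)
  simp only [gpr_offp] at h
  exact h

/-- Weights: the blocks outside a large good set only cost an exponential error. -/
theorem Spr_le_good {M N : ℕ} [NeZero N] (hM : 4 ≤ M) (D : T → Finset ι)
    (hD : ∀ i j : ι, i ≠ j → 8 * (univ.filter (fun t => (i ∈ D t ∧ j ∉ D t) ∨
      (i ∉ D t ∧ j ∈ D t))).card ≤ M * Fintype.card T)
    (good : T → Prop) [DecidablePred good] {L : ℝ}
    (hL : L * ((univ.filter (fun t => ¬ good t)).card : ℝ) ≤ ((univ.filter good).card : ℝ))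
    (v g : ι → ZMod N) :
    Spr v g ≤ (Real.exp 1 * ∑ t ∈ univ.filter good, Bpr M (fun j : {i // i ∈ D t} => v j)
      (fun i : {i // i ∉ D t} => v i)) / Fintype.card T + Real.exp (-L) := by
  classical
  have hT : (0 : ℝ) < Fintype.card T := by exact_mod_cast Fintype.card_pos
  have h := Spr_le_mean hM D hD (fun t => if good t then Real.exp 1 else Real.exp (-L))
    (fun t => by split_ifs <;> exact (Real.exp_pos _).le) (by
      rw [Finset.prod_ite, prod_const, prod_const, ← Real.exp_nat_mul, ← Real.exp_nat_mul,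
        ← Real.exp_add]
      apply Real.one_le_exp
      linarith) v g
  refine h.trans ?_
  have hB1 : ∀ t, Bpr M (fun j : {i // i ∈ D t} => v j) (fun i : {i // i ∉ D t} => v i) ≤ 1 := by
    intro t
    unfold Bpr
    apply div_le_one_of_le₀ _ (by positivity)
    have h1 := Finset.card_le_univ (univ.filter (fun ω : {i // i ∉ D t} → {i // i ∈ D t} → Fin M =>
      (∀ i, walk (ω i) (fun j : {i // i ∈ D t} => v j) = 0) ∧
        ∀ j, walk (fun i => ω i j) (fun i : {i // i ∉ D t} => v i) = 0))
    rw [Fintype.card_fun, Fintype.card_fun, Fintype.card_fin, ← pow_mul, mul_comm] at h1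
    exact_mod_cast h1
  have h2 : ∑ t, (if good t then Real.exp 1 else Real.exp (-L)) *
      Bpr M (fun j : {i // i ∈ D t} => v j) (fun i : {i // i ∉ D t} => v i) ≤
      Real.exp 1 * ∑ t ∈ univ.filter good, Bpr M (fun j : {i // i ∈ D t} => v j)
        (fun i : {i // i ∉ D t} => v i) + Real.exp (-L) * Fintype.card T := by
    have h3 : ∀ t, (if good t then Real.exp 1 else Real.exp (-L)) *
        Bpr M (fun j : {i // i ∈ D t} => v j) (fun i : {i // i ∉ D t} => v i) ≤
        (if good t then Real.exp 1 * Bpr M (fun j : {i // i ∈ D t} => v j)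
          (fun i : {i // i ∉ D t} => v i) else 0) + Real.exp (-L) := by
      intro t
      have h5 := (Real.exp_pos (-L)).le
      split_ifs
      · linarith
      · have h4 := hB1 t
        rw [zero_add]
        exact mul_le_of_le_one_right h5 h4
    refine (sum_le_sum fun t _ => h3 t).trans (le_of_eq ?_)
    rw [sum_add_distrib, sum_const, card_univ, nsmul_eq_mul, mul_sum, sum_filter]
    ring
  calc _ ≤ (Real.exp 1 * ∑ t ∈ univ.filter good, Bpr M (fun j : {i // i ∈ D t} => v j)
        (fun i : {i // i ∉ D t} => v i) + Real.exp (-L) * Fintype.card T) / Fintype.card T :=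
        div_le_div_of_nonneg_right h2 hT.le
    _ = _ := by field_simp

end blocks

/-! ## The law with parameter `5`: blocks of exactly half size -/

section half

/-- The blocks of exactly half size. -/
abbrev HB (k : ℕ) : Type := {D : Finset (Fin (2 * k)) // D.card = k}

instance (k : ℕ) : Nonempty (HB k) := by
  obtain ⟨D, _, hD⟩ := Finset.exists_subset_card_eq
    (s := (univ : Finset (Fin (2 * k)))) (n := k) (by simp; omega)
  exact ⟨⟨D, hD⟩⟩

lemma card_HB (k : ℕ) : Fintype.card (HB k) = Nat.centralBinom k := by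
  have h : (powersetCard k (univ : Finset (Fin (2 * k)))).card = Nat.centralBinom k := by
    rw [card_powersetCard, card_univ, Fintype.card_fin, Nat.centralBinom]
  rw [Fintype.card_subtype, ← h]
  congr 1
  ext t
  simp [mem_powersetCard]

lemma cnt_half {r : ℕ} {i j : Fin (2 * (r + 1))} (hij : i ≠ j) :
    (univ.filter (fun t : HB (r + 1) => i ∈ t.1 ∧ j ∉ t.1)).card ≤ Nat.centralBinom r := by
  have h1 : (powersetCard r (((univ : Finset (Fin (2 * (r + 1)))).erase i).erase j)).card =
      Nat.centralBinom r := by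
    rw [card_powersetCard, card_erase_of_mem (mem_erase.2 ⟨hij.symm, mem_univ _⟩),
      card_erase_of_mem (mem_univ _), card_univ, Fintype.card_fin, Nat.centralBinom]
    congr 1
  rw [← h1]
  refine Finset.card_le_card_of_injOn (fun t => t.1.erase i) ?_ ?_
  · intro t ht
    have ht' := (mem_filter.1 ht).2
    rw [Finset.mem_coe, mem_powersetCard]
    refine ⟨?_, ?_⟩
    · intro x hx
      rw [mem_erase] at hx
      rw [mem_erase, mem_erase]
      refine ⟨?_, hx.1, mem_univ _⟩
      rintro rfl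
      exact ht'.2 hx.2
    · rw [card_erase_of_mem ht'.1, t.2]
      omega
  · intro t ht t' ht' h
    have ht1 := (mem_filter.1 ht).2
    have ht2 := (mem_filter.1 ht').2
    apply Subtype.ext
    have h' : t.1.erase i = t'.1.erase i := h
    rw [← insert_erase ht1.1, h', insert_erase ht2.1]

lemma cnt_half_sep {k : ℕ} (hk : 3 ≤ k) {i j : Fin (2 * k)} (hij : i ≠ j) :
    8 * (univ.filter (fun t : HB k => (i ∈ t.1 ∧ j ∉ t.1) ∨ (i ∉ t.1 ∧ j ∈ t.1))).card ≤
      5 * Fintype.card (HB k) := by
  obtain ⟨r, rfl⟩ : ∃ r, k = r + 1 := ⟨k - 1, by omega⟩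
  have h1 := cnt_half hij
  have h2 := cnt_half hij.symm
  have h3 : (univ.filter (fun t : HB (r + 1) =>
      (i ∈ t.1 ∧ j ∉ t.1) ∨ (i ∉ t.1 ∧ j ∈ t.1))).card ≤ 2 * Nat.centralBinom r := by
    rw [filter_or]
    refine (card_union_le _ _).trans ?_
    have h4 : (univ.filter (fun t : HB (r + 1) => i ∉ t.1 ∧ j ∈ t.1)).card =
        (univ.filter (fun t : HB (r + 1) => j ∈ t.1 ∧ i ∉ t.1)).card := by
      congr 1
      ext t
      simp only [mem_filter, and_comm]
    omega
  rw [card_HB]
  have h5 := Nat.succ_mul_centralBinom_succ r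
  have h6 : (r + 1) * (16 * Nat.centralBinom r) ≤ (r + 1) * (5 * Nat.centralBinom (r + 1)) := by
    have h7 : (r + 1) * (5 * Nat.centralBinom (r + 1)) =
        5 * (2 * (2 * r + 1) * Nat.centralBinom r) := by
      rw [← h5]; ring
    rw [h7]
    have h8 : 16 * (r + 1) ≤ 10 * (2 * r + 1) := by omega
    calc (r + 1) * (16 * Nat.centralBinom r) = 16 * (r + 1) * Nat.centralBinom r := by ring
      _ ≤ 10 * (2 * r + 1) * Nat.centralBinom r := Nat.mul_le_mul_right _ h8
      _ = _ := by ring
  have h9 := Nat.le_of_mul_le_mul_left h6 (Nat.succ_pos r)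
  omega

/-- **Half-size blocks, law `(1/5, 3/5, 1/5)`**. -/
theorem Spr_le_half {N k : ℕ} [NeZero N] (hk : 3 ≤ k) (v g : Fin (2 * k) → ZMod N) :
    Spr v g ≤ (∑ D : HB k, Bpr 5 (fun j : {i // i ∈ D.1} => v j)
      (fun i : {i // i ∉ D.1} => v i)) / Fintype.card (HB k) := by
  have h := Spr_le_mean (M := 5) (T := HB k) (by norm_num) (fun D => D.1)
    (fun i j hij => cnt_half_sep hk hij) (fun _ => 1) (fun _ => zero_le_one) (by simp) v g
  simpa only [one_mul] using h

end half

/-! ## The law with parameter `4`: blocks of nearly half size -/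

section near

variable {ι : Type*} [Fintype ι] [DecidableEq ι]

lemma cnt_all_sep {i j : ι} (hij : i ≠ j) :
    8 * (univ.filter (fun t : Finset ι => (i ∈ t ∧ j ∉ t) ∨ (i ∉ t ∧ j ∈ t))).card ≤
      4 * Fintype.card (Finset ι) := by
  have h1 : (univ.filter (fun t : Finset ι => (i ∈ t ∧ j ∉ t) ∨ (i ∉ t ∧ j ∈ t))).card ≤
      (univ.filter (fun t : Finset ι => ¬ ((i ∈ t ∧ j ∉ t) ∨ (i ∉ t ∧ j ∈ t)))).card := by
    refine Finset.card_le_card_of_injOn (fun t => symmDiff t {i}) ?_ ?_
    · intro t ht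
      have ht' := (mem_filter.1 ht).2
      apply Finset.mem_coe.2
      rw [mem_filter]
      refine ⟨mem_univ _, ?_⟩
      simp only [mem_symmDiff, mem_singleton, hij.symm]
      tauto
    · intro t _ t' _ h
      exact symmDiff_left_injective {i} h
  have h2 := Finset.card_filter_add_card_filter_not (s := (univ : Finset (Finset ι)))
    (fun t : Finset ι => (i ∈ t ∧ j ∉ t) ∨ (i ∉ t ∧ j ∈ t))
  rw [card_univ] at h2
  omega

/-- Binomial tail. -/
lemma tail_le {a : ℝ} (ha : 0 ≤ a) (hι : 0 < Fintype.card ι) :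
    ((univ.filter (fun t : Finset ι => ¬ |2 * (t.card : ℝ) - Fintype.card ι| ≤ a)).card : ℝ) ≤
      2 * 2 ^ Fintype.card ι * Real.exp (-(a ^ 2 / (2 * Fintype.card ι))) := by
  set m : ℝ := (Fintype.card ι : ℝ) with hm
  have hm0 : 0 < m := by rw [hm]; exact_mod_cast hι
  set s : ℝ := a / m with hs
  have hs0 : 0 ≤ s := by positivity
  have hexp : ∀ x : ℝ, ∑ t : Finset ι, Real.exp (x * (2 * (t.card : ℝ) - m)) =
      (2 * Real.cosh x) ^ Fintype.card ι := by
    intro x
    have h := Fintype.sum_pow_mul_eq_add_pow ι (Real.exp x) (Real.exp (-x))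
    rw [Real.cosh_eq]
    have e1 : 2 * ((Real.exp x + Real.exp (-x)) / 2) = Real.exp x + Real.exp (-x) := by ring
    rw [e1, ← h]
    refine sum_congr rfl fun t _ => ?_
    have ht : t.card ≤ Fintype.card ι := Finset.card_le_univ t
    rw [← Real.exp_nat_mul, ← Real.exp_nat_mul, ← Real.exp_add, Nat.cast_sub ht]
    congr 1
    rw [hm]
    ring
  have hcosh : Real.cosh s ^ Fintype.card ι ≤ Real.exp (s ^ 2 / 2 * m) := by
    have h1 := Real.cosh_le_exp_half_sq s
    calc Real.cosh s ^ Fintype.card ι ≤ (Real.exp (s ^ 2 / 2)) ^ Fintype.card ι :=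
          pow_le_pow_left₀ (Real.cosh_pos s).le h1 _
      _ = _ := by rw [← Real.exp_nat_mul, mul_comm]
  have hpt : ∀ t : Finset ι, (if ¬ |2 * (t.card : ℝ) - m| ≤ a then (1 : ℝ) else 0) ≤
      Real.exp (-(s * a)) * (Real.exp (s * (2 * (t.card : ℝ) - m)) +
        Real.exp (-s * (2 * (t.card : ℝ) - m))) := by
    intro t
    by_cases h : |2 * (t.card : ℝ) - m| ≤ a
    · rw [if_neg (not_not.2 h)]
      exact mul_nonneg (Real.exp_pos _).le
        (add_nonneg (Real.exp_pos _).le (Real.exp_pos _).le)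
    · rw [if_pos h]
      rw [not_le] at h
      rw [mul_add, ← Real.exp_add, ← Real.exp_add]
      rcases lt_abs.1 h with h1 | h1
      · have h2 : (1 : ℝ) ≤ Real.exp (-(s * a) + s * (2 * (t.card : ℝ) - m)) := by
          apply Real.one_le_exp
          nlinarith
        have h3 := (Real.exp_pos (-(s * a) + -s * (2 * (t.card : ℝ) - m))).le
        linarith
      · have h2 : (1 : ℝ) ≤ Real.exp (-(s * a) + -s * (2 * (t.card : ℝ) - m)) := by
          apply Real.one_le_exp
          nlinarith
        have h3 := (Real.exp_pos (-(s * a) + s * (2 * (t.card : ℝ) - m))).le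
        linarith
  have h1 : ((univ.filter (fun t : Finset ι => ¬ |2 * (t.card : ℝ) - m| ≤ a)).card : ℝ) =
      ∑ t : Finset ι, (if ¬ |2 * (t.card : ℝ) - m| ≤ a then (1 : ℝ) else 0) := by
    rw [Finset.sum_boole]
  rw [h1]
  refine (sum_le_sum fun t _ => hpt t).trans ?_
  rw [← mul_sum, sum_add_distrib, hexp, hexp, Real.cosh_neg, mul_pow]
  have e2 : s * a = a ^ 2 / m := by rw [hs]; ring
  have e3 : s ^ 2 / 2 * m = a ^ 2 / (2 * m) := by rw [hs]; field_simp
  have e4 : Real.exp (-(s * a)) * Real.exp (s ^ 2 / 2 * m) =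
      Real.exp (-(a ^ 2 / (2 * m))) := by
    rw [← Real.exp_add, e2, e3]
    congr 1
    field_simp
    ring
  calc Real.exp (-(s * a)) * (2 ^ Fintype.card ι * Real.cosh s ^ Fintype.card ι +
        2 ^ Fintype.card ι * Real.cosh s ^ Fintype.card ι)
      = 2 * 2 ^ Fintype.card ι * (Real.exp (-(s * a)) * Real.cosh s ^ Fintype.card ι) := by ring
    _ ≤ 2 * 2 ^ Fintype.card ι * (Real.exp (-(s * a)) * Real.exp (s ^ 2 / 2 * m)) := by
        refine mul_le_mul_of_nonneg_left ?_ (by positivity)
        exact mul_le_mul_of_nonneg_left hcosh (Real.exp_pos _).le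
    _ = _ := by rw [e4]

/-- **Nearly half-size blocks, law `(1/4, 1/2, 1/4)`**: the blocks whose size differs from half
of the size by at most `a / 2`; the error is doubly exponentially small in `a ^ 2 / m`. -/
theorem Spr_le_near {N : ℕ} [NeZero N] (hι : 0 < Fintype.card ι) {a L : ℝ} (ha : 0 ≤ a)
    (hL : 0 ≤ L) (haL : 2 * (L + 1) ≤ Real.exp (a ^ 2 / (2 * Fintype.card ι)))
    (v g : ι → ZMod N) :
    Spr v g ≤ (Real.exp 1 * ∑ D ∈ univ.filter
        (fun t : Finset ι => |2 * (t.card : ℝ) - Fintype.card ι| ≤ a),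
          Bpr 4 (fun j : {i // i ∈ D} => v j) (fun i : {i // i ∉ D} => v i)) /
      2 ^ Fintype.card ι + Real.exp (-L) := by
  classical
  have h := Spr_le_good (M := 4) (T := Finset ι) le_rfl (fun D => D)
    (fun i j hij => cnt_all_sep hij)
    (fun t : Finset ι => |2 * (t.card : ℝ) - Fintype.card ι| ≤ a) (L := L) (by
      have h1 := tail_le ha hι
      have h2 := Finset.card_filter_add_card_filter_not (s := (univ : Finset (Finset ι)))
        (fun t : Finset ι => |2 * (t.card : ℝ) - Fintype.card ι| ≤ a)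
      rw [card_univ, Fintype.card_finset] at h2
      have h3 : ((univ.filter (fun t : Finset ι =>
          |2 * (t.card : ℝ) - Fintype.card ι| ≤ a)).card : ℝ) +
          ((univ.filter (fun t : Finset ι =>
          ¬ |2 * (t.card : ℝ) - Fintype.card ι| ≤ a)).card : ℝ) = 2 ^ Fintype.card ι := by
        exact_mod_cast h2
      have h4 : (L + 1) * ((univ.filter (fun t : Finset ι =>
          ¬ |2 * (t.card : ℝ) - Fintype.card ι| ≤ a)).card : ℝ) ≤ 2 ^ Fintype.card ι := by
        calc (L + 1) * ((univ.filter (fun t : Finset ι =>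
              ¬ |2 * (t.card : ℝ) - Fintype.card ι| ≤ a)).card : ℝ)
            ≤ (L + 1) * (2 * 2 ^ Fintype.card ι *
              Real.exp (-(a ^ 2 / (2 * Fintype.card ι)))) :=
              mul_le_mul_of_nonneg_left h1 (by linarith)
          _ = 2 ^ Fintype.card ι * (2 * (L + 1) *
              Real.exp (-(a ^ 2 / (2 * Fintype.card ι)))) := by ring
          _ ≤ 2 ^ Fintype.card ι * (Real.exp (a ^ 2 / (2 * Fintype.card ι)) *
              Real.exp (-(a ^ 2 / (2 * Fintype.card ι)))) := by
              refine mul_le_mul_of_nonneg_left ?_ (by positivity)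
              exact mul_le_mul_of_nonneg_right haL (Real.exp_pos _).le
          _ = 2 ^ Fintype.card ι := by
              rw [← Real.exp_add, add_neg_cancel, Real.exp_zero, mul_one]
      linarith) v g
  rw [Fintype.card_finset] at h
  push_cast at h
  exact h

end near

/-! ## Summed forms: expected numbers of zeros in a set -/

section summed

variable {ι : Type*} [Fintype ι] [DecidableEq ι]

/-- Expected number of `w ∈ U` with `P w = g w`, over the random symmetric 0/1 matrix. -/
noncomputable def EP {N : ℕ} (U : Finset (ι → ZMod N)) (g : (ι → ZMod N) → ι → ZMod N) : ℝ :=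
  (∑ b : Sym2 ι → Bool, ((U.filter (fun w => smul2 b w = g w)).card : ℝ)) /
    (2 : ℝ) ^ Fintype.card (Sym2 ι)

/-- Expected number of `w ∈ U` with `H (w on D) = 0` and `Hᵀ (w off D) = 0`, over the lazy iid
block `H` with rows outside `D` and columns in `D`. -/
noncomputable def EH {N : ℕ} (M : ℕ) (D : Finset ι) (U : Finset (ι → ZMod N)) : ℝ :=
  (∑ ω : {i // i ∉ D} → {i // i ∈ D} → Fin M, ((U.filter (fun w =>
    (∀ i, walk (ω i) (fun j : {i // i ∈ D} => w j) = 0) ∧
      ∀ j, walk (fun i => ω i j) (fun i : {i // i ∉ D} => w i) = 0)).card : ℝ)) /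
    (M : ℝ) ^ (Fintype.card {i // i ∉ D} * Fintype.card {i // i ∈ D})

theorem EP_eq {N : ℕ} (U : Finset (ι → ZMod N)) (g : (ι → ZMod N) → ι → ZMod N) :
    EP U g = ∑ w ∈ U, Spr w (g w) := by
  unfold EP Spr
  rw [← sum_div]
  congr 1
  simp only [Finset.card_filter, Nat.cast_sum]
  rw [sum_comm]

theorem EH_eq {N M : ℕ} (D : Finset ι) (U : Finset (ι → ZMod N)) :
    EH M D U = ∑ w ∈ U, Bpr M (fun j : {i // i ∈ D} => w j) (fun i : {i // i ∉ D} => w i) := by
  unfold EH Bpr
  rw [← sum_div]
  congr 1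
  simp only [Finset.card_filter, Nat.cast_sum]
  rw [sum_comm]

/-- Law `(1/8, 3/4, 1/8)`, every block. -/
theorem EP_le_eight {N : ℕ} [NeZero N] (D : Finset ι) (U : Finset (ι → ZMod N))
    (g : (ι → ZMod N) → ι → ZMod N) : EP U g ≤ EH 8 D U := by
  rw [EP_eq, EH_eq]
  exact sum_le_sum fun w _ => Spr_le_Bpr D le_rfl w (g w)

/-- General family of blocks, law with parameter `M`. -/
theorem EP_le_mean {T : Type*} [Fintype T] [Nonempty T] {M N : ℕ} [NeZero N] (hM : 4 ≤ M)
    (D : T → Finset ι)
    (hD : ∀ i j : ι, i ≠ j → 8 * (univ.filter (fun t => (i ∈ D t ∧ j ∉ D t) ∨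
      (i ∉ D t ∧ j ∈ D t))).card ≤ M * Fintype.card T)
    (U : Finset (ι → ZMod N)) (g : (ι → ZMod N) → ι → ZMod N) :
    EP U g ≤ (∑ t, EH M (D t) U) / Fintype.card T := by
  rw [EP_eq]
  calc ∑ w ∈ U, Spr w (g w) ≤ ∑ w ∈ U, (∑ t, 1 * Bpr M (fun j : {i // i ∈ D t} => w j)
        (fun i : {i // i ∉ D t} => w i)) / Fintype.card T :=
        sum_le_sum fun w _ => Spr_le_mean hM D hD (fun _ => 1) (fun _ => zero_le_one)
          (by simp) w (g w)
    _ = _ := by
        rw [← sum_div, sum_comm]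
        simp only [one_mul, EH_eq]

/-- **Half-size blocks, law `(1/5, 3/5, 1/5)`**, summed form. -/
theorem EP_le_half {N k : ℕ} [NeZero N] (hk : 3 ≤ k) (U : Finset (Fin (2 * k) → ZMod N))
    (g : (Fin (2 * k) → ZMod N) → Fin (2 * k) → ZMod N) :
    EP U g ≤ (∑ D : HB k, EH 5 D.1 U) / Fintype.card (HB k) :=
  EP_le_mean (by norm_num) (fun D : HB k => D.1) (fun _ _ hij => cnt_half_sep hk hij) U g

/-- Hence one half-size block does at least as well as the mean. -/
theorem exists_half {N k : ℕ} [NeZero N] (hk : 3 ≤ k) (U : Finset (Fin (2 * k) → ZMod N))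
    (g : (Fin (2 * k) → ZMod N) → Fin (2 * k) → ZMod N) :
    ∃ D : HB k, EP U g ≤ EH 5 D.1 U := by
  have h := EP_le_half hk U g
  have hT : (0 : ℝ) < Fintype.card (HB k) := by exact_mod_cast Fintype.card_pos
  rw [le_div_iff₀ hT, mul_comm, ← nsmul_eq_mul, ← card_univ, ← sum_const] at h
  obtain ⟨D, _, hD⟩ := exists_le_of_sum_le (s := (univ : Finset (HB k))) ⟨Classical.arbitrary _, mem_univ _⟩ h
  exact ⟨D, hD⟩

/-- **Nearly half-size blocks, law `(1/4, 1/2, 1/4)`**, summed form. -/
theorem EP_le_near {N : ℕ} [NeZero N] (hι : 0 < Fintype.card ι) {a L : ℝ} (ha : 0 ≤ a)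
    (hL : 0 ≤ L) (haL : 2 * (L + 1) ≤ Real.exp (a ^ 2 / (2 * Fintype.card ι)))
    (U : Finset (ι → ZMod N)) (g : (ι → ZMod N) → ι → ZMod N) :
    EP U g ≤ (Real.exp 1 * ∑ D ∈ univ.filter
        (fun t : Finset ι => |2 * (t.card : ℝ) - Fintype.card ι| ≤ a), EH 4 D U) /
      2 ^ Fintype.card ι + U.card * Real.exp (-L) := by
  rw [EP_eq]
  refine (sum_le_sum fun w _ => Spr_le_near hι ha hL haL w (g w)).trans (le_of_eq ?_)
  rw [sum_add_distrib, sum_const, nsmul_eq_mul, ← sum_div, ← mul_sum, sum_comm]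
  simp only [EH_eq]

end summed

end Vale.Agent.P160.Half.HalfSum
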