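import Vale.Agent.P160.Half.GStmt3
import Vale.Agent.P160.Half.ConA697

/-! # P160, half rate: CON (helper697, hedge) -/

namespace Vale.Agent.P160.Half.Con697

open Finset Matrix A

theorem adj_le {n : ℕ} {β : Type} (b : Bits n) (F : Matrix (Fin n) β ℤ) (X : ℕ)
    (hF : ∀ j q, |F j q| ≤ (X : ℤ)) (j : Fin n) (q : β) :
    |((matZ b).adjugate * F) j q| ≤ ((n * n.factorial * X : ℕ) : ℤ) := by
  classical
  have hadj : ∀ k, |(matZ b).adjugate j k| ≤ (n.factorial : ℤ) := by
    intro k
    rw [Matrix.adjugate_apply]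
    have h1 := Matrix.det_le (A := (matZ b).updateRow k (Pi.single j 1)) (abv := AbsoluteValue.abs)
      (x := (1 : ℤ)) (fun i l => by
        by_cases hi : i = k
        · subst hi
          rw [Matrix.updateRow_self]
          by_cases hl : l = j
          · subst hl; simp
          · rw [Pi.single_eq_of_ne hl]; simp
        · rw [Matrix.updateRow_ne hi]
          simp only [matZ]
          split_ifs <;> simp)
    simpa using h1
  rw [Matrix.mul_apply]
  refine (Finset.abs_sum_le_sum_abs _ _).trans ?_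
  have h2 : ∀ k ∈ (univ : Finset (Fin n)), |(matZ b).adjugate j k * F k q| ≤ (n.factorial : ℤ) * X := by
    intro k _
    rw [abs_mul]
    exact mul_le_mul (hadj k) (hF k q) (abs_nonneg _) (by positivity)
  refine (Finset.sum_le_card_nsmul _ _ _ h2).trans ?_
  rw [card_univ, Fintype.card_fin, nsmul_eq_mul]
  push_cast
  rw [mul_assoc]

theorem con : G.ConStmt := by
  intro n β _ _ b F X hdet hX hF T r hT hex
  classical
  set N : Matrix (Fin n) β ℤ := (matZ b).adjugate * F with hNdef
  have hn : 1 ≤ n := Nat.one_le_iff_ne_zero.2 (by rintro rfl; exact r.elim0)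
  have hY : 1 ≤ n * n.factorial * X :=
    Nat.mul_pos (Nat.mul_pos hn (Nat.factorial_pos n)) hX
  -- words give solutions
  have hsol : ∃ d : β → ℤ, (∀ j ∈ T, (N *ᵥ d) j = 0) ∧ (N *ᵥ d) r ≠ 0 := by
    obtain ⟨u, ⟨d, hd⟩, hu, hur⟩ := hex
    have h1 : (matZ b).det • u + N *ᵥ d = 0 := by
      have := congrArg (fun z => (matZ b).adjugate *ᵥ z) hd
      simp only [Matrix.mulVec_add, Matrix.mulVec_mulVec, Matrix.adjugate_mul, Matrix.mulVec_zero,
        Matrix.smul_mulVec, Matrix.one_mulVec] at this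
      exact this
    have h2 : ∀ j, (N *ᵥ d) j = - ((matZ b).det * u j) := by
      intro j
      have := congrFun h1 j
      simp only [Pi.add_apply, Pi.smul_apply, smul_eq_mul, Pi.zero_apply] at this
      linarith
    refine ⟨d, fun j hj => ?_, ?_⟩
    · rw [h2, hu j hj]; simp
    · rw [h2]
      exact neg_ne_zero.2 (mul_ne_zero hdet hur)
  obtain ⟨d, hd1, hd2, hd3⟩ := exists_small N (n * n.factorial * X) hY (adj_le b F X hF) T r hsol
  refine ⟨N *ᵥ d, ⟨-((matZ b).det • d), ?_⟩, hd1, hd2, hd3.trans ?_⟩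
  · rw [hNdef, Matrix.mulVec_mulVec, ← Matrix.mul_assoc, Matrix.mul_adjugate, Matrix.mulVec_neg,
      Matrix.mulVec_smul, Matrix.smul_mul, Matrix.one_mul, Matrix.smul_mulVec]
    exact add_neg_cancel _
  · have h1 : (Fintype.card β).factorial ≤ (Fintype.card β + 1).factorial :=
      Nat.factorial_le (Nat.le_succ _)
    have h2 : (n * n.factorial * X) ^ Fintype.card β ≤
        ((Fintype.card β + 1) * (n * n.factorial * X)) ^ (Fintype.card β + 1) :=
      (Nat.pow_le_pow_left (Nat.le_mul_of_pos_left _ (Nat.succ_pos _)) _).trans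
        (Nat.pow_le_pow_right (Nat.mul_pos (Nat.succ_pos _) hY) (Nat.le_succ _))
    exact_mod_cast Nat.mul_le_mul h1 h2

end Vale.Agent.P160.Half.Con697
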