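import Mathlib

/-! # P160, half rate, block (M): the Hoelder step (H2) of the notes 11202 (182) / 11192 (D) (196).

`X` a finite probability space (weights `mu`), `c x` the rational corank, `Wex x` the excess weight,
`W x ≤ N ^ (2 c x) * Wex x`.  Two-term Hoelder on the event `Bad ∩ {c = r}`, `min ≤ geometric mean`, sum over `r`. -/

open Finset

set_option linter.unusedSectionVars false
set_option linter.unusedVariables false

namespace Vale.Agent.P160.Half.Hol914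

variable {X : Type*} [Fintype X]

/-- two-term Hoelder inequality on an event -/
theorem holder_event (mu : X → ℝ) (hmu : ∀ x, 0 ≤ mu x) (f : X → ℝ) (hf : ∀ x, 0 ≤ f x)
    (S : Finset X) {q : ℝ} (hq : 1 ≤ q) :
    ∑ x ∈ S, mu x * f x ≤ (∑ x, mu x * f x ^ q) ^ (q⁻¹) * (∑ x ∈ S, mu x) ^ (1 - q⁻¹) := by
  have h := Real.inner_le_weight_mul_Lp_of_nonneg S hq mu f hmu hf
  have h1 : (∑ x ∈ S, mu x * f x ^ q) ^ (q⁻¹) ≤ (∑ x, mu x * f x ^ q) ^ (q⁻¹) := by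
    refine Real.rpow_le_rpow (Finset.sum_nonneg fun x _ => mul_nonneg (hmu x) (Real.rpow_nonneg (hf x) q)) ?_
      (inv_nonneg.2 (by linarith))
    exact Finset.sum_le_sum_of_subset_of_nonneg (Finset.subset_univ S)
      fun x _ _ => mul_nonneg (hmu x) (Real.rpow_nonneg (hf x) q)
  calc ∑ x ∈ S, mu x * f x ≤ (∑ x ∈ S, mu x) ^ (1 - q⁻¹) * (∑ x ∈ S, mu x * f x ^ q) ^ (q⁻¹) := h
    _ ≤ (∑ x ∈ S, mu x) ^ (1 - q⁻¹) * (∑ x, mu x * f x ^ q) ^ (q⁻¹) :=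
        mul_le_mul_of_nonneg_left h1 (Real.rpow_nonneg (Finset.sum_nonneg fun x _ => hmu x) _)
    _ = _ := mul_comm _ _

/-- `p ≤ a`, `p ≤ b` gives `p ≤ a ^ α * b ^ (1 - α)` -/
theorem le_geom {p a b al : ℝ} (hp : 0 ≤ p) (ha : p ≤ a) (hb : p ≤ b) (h0 : 0 ≤ al) (h1 : al ≤ 1) :
    p ≤ a ^ al * b ^ (1 - al) := by
  rcases hp.eq_or_lt with h | h
  · rw [← h]
    exact mul_nonneg (Real.rpow_nonneg (hp.trans ha) _) (Real.rpow_nonneg (hp.trans hb) _)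
  · have e : p = p ^ al * p ^ (1 - al) := by
      rw [← Real.rpow_add h]
      simp
    calc p = p ^ al * p ^ (1 - al) := e
      _ ≤ a ^ al * b ^ (1 - al) :=
        mul_le_mul (Real.rpow_le_rpow hp ha h0) (Real.rpow_le_rpow hp hb (by linarith))
          (Real.rpow_nonneg hp _) (Real.rpow_nonneg (hp.trans ha) _)

/-- the sum over the rational corank -/
theorem bad_sum (mu : X → ℝ) (hmu : ∀ x, 0 ≤ mu x) (W Wex : X → ℝ) (hWex : ∀ x, 0 ≤ Wex x)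
    (c : X → ℕ) (k : ℕ) (hc : ∀ x, c x ≤ k) (N : ℝ) (hN : 0 ≤ N)
    (hW : ∀ x, W x ≤ N ^ (2 * c x) * Wex x) (Bad : Finset X) {q al M PB : ℝ} (PQ : ℕ → ℝ)
    (hq : 1 ≤ q) (h0 : 0 ≤ al) (h1 : al ≤ 1)
    (hM : ∑ x, mu x * Wex x ^ q ≤ M) (hPB : ∑ x ∈ Bad, mu x ≤ PB)
    (hPQ : ∀ r ≤ k, ∑ x ∈ univ.filter (fun x => c x = r), mu x ≤ PQ r) :
    ∑ x ∈ Bad, mu x * W x ≤
      ∑ r ∈ range (k + 1), N ^ (2 * r) * (M ^ (q⁻¹) * (PB ^ al * PQ r ^ (1 - al)) ^ (1 - q⁻¹)) := by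
  classical
  have hq' : 0 ≤ 1 - q⁻¹ := by
    have := inv_le_one_of_one_le₀ hq
    linarith
  have hfib : ∑ x ∈ Bad, mu x * W x =
      ∑ r ∈ range (k + 1), ∑ x ∈ Bad.filter (fun x => c x = r), mu x * W x := by
    refine (Finset.sum_fiberwise_of_maps_to (fun x _ => ?_) _).symm
    exact Finset.mem_range.2 (Nat.lt_succ_of_le (hc x))
  rw [hfib]
  refine Finset.sum_le_sum fun r hr => ?_
  have hrk : r ≤ k := Nat.lt_succ_iff.1 (Finset.mem_range.1 hr)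
  have hMn : 0 ≤ ∑ x, mu x * Wex x ^ q :=
    Finset.sum_nonneg fun x _ => mul_nonneg (hmu x) (Real.rpow_nonneg (hWex x) q)
  set S := Bad.filter (fun x => c x = r) with hS
  have hpS : 0 ≤ ∑ x ∈ S, mu x := Finset.sum_nonneg fun x _ => hmu x
  have hS1 : ∑ x ∈ S, mu x ≤ PB :=
    (Finset.sum_le_sum_of_subset_of_nonneg (Finset.filter_subset _ _) fun x _ _ => hmu x).trans hPB
  have hS2 : ∑ x ∈ S, mu x ≤ PQ r := by
    refine (Finset.sum_le_sum_of_subset_of_nonneg ?_ fun x _ _ => hmu x).trans (hPQ r hrk)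
    intro x hx
    exact Finset.mem_filter.2 ⟨Finset.mem_univ _, (Finset.mem_filter.1 hx).2⟩
  calc ∑ x ∈ S, mu x * W x ≤ ∑ x ∈ S, N ^ (2 * r) * (mu x * Wex x) := by
        refine Finset.sum_le_sum fun x hx => ?_
        have hcx : c x = r := (Finset.mem_filter.1 hx).2
        have := hW x
        rw [hcx] at this
        calc mu x * W x ≤ mu x * (N ^ (2 * r) * Wex x) := mul_le_mul_of_nonneg_left this (hmu x)
          _ = _ := by ring
    _ = N ^ (2 * r) * ∑ x ∈ S, mu x * Wex x := by rw [Finset.mul_sum]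
    _ ≤ N ^ (2 * r) * ((∑ x, mu x * Wex x ^ q) ^ (q⁻¹) * (∑ x ∈ S, mu x) ^ (1 - q⁻¹)) :=
        mul_le_mul_of_nonneg_left (holder_event mu hmu Wex hWex S hq) (pow_nonneg hN _)
    _ ≤ N ^ (2 * r) * (M ^ (q⁻¹) * (PB ^ al * PQ r ^ (1 - al)) ^ (1 - q⁻¹)) := by
        refine mul_le_mul_of_nonneg_left ?_ (pow_nonneg hN _)
        refine mul_le_mul (Real.rpow_le_rpow hMn hM (inv_nonneg.2 (by linarith)))
          (Real.rpow_le_rpow hpS (le_geom hpS hS1 hS2 h0 h1) hq') (Real.rpow_nonneg hpS _)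
          (Real.rpow_nonneg (hMn.trans hM) _)

/-- `bad_sum` with all the bounds as powers of two: `N ≤ 2 ^ ν`, `M ≤ 2 ^ m`, `PB ≤ 2 ^ (-b)`,
`PQ r ≤ 2 ^ (A - r g)` -/
theorem bad_two (mu : X → ℝ) (hmu : ∀ x, 0 ≤ mu x) (W Wex : X → ℝ) (hWex : ∀ x, 0 ≤ Wex x)
    (c : X → ℕ) (k : ℕ) (hc : ∀ x, c x ≤ k) (N : ℝ) (hN : 0 ≤ N)
    (hW : ∀ x, W x ≤ N ^ (2 * c x) * Wex x) (Bad : Finset X) {q al nu m b A g : ℝ}
    (hq : 1 ≤ q) (h0 : 0 ≤ al) (h1 : al ≤ 1) (hNu : N ≤ 2 ^ nu)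
    (hM : ∑ x, mu x * Wex x ^ q ≤ 2 ^ m) (hPB : ∑ x ∈ Bad, mu x ≤ 2 ^ (-b))
    (hPQ : ∀ r ≤ k, ∑ x ∈ univ.filter (fun x => c x = r), mu x ≤ 2 ^ (A - r * g))
    (hg : 2 * nu ≤ (1 - q⁻¹) * (1 - al) * g) :
    ∑ x ∈ Bad, mu x * W x ≤
      (k + 1) * 2 ^ (m * q⁻¹ - (1 - q⁻¹) * al * b + (1 - q⁻¹) * (1 - al) * A) := by
  have h2 : (0 : ℝ) < 2 := two_pos
  refine (bad_sum mu hmu W Wex hWex c k hc N hN hW Bad (fun r : ℕ => (2 : ℝ) ^ (A - r * g)) hq h0 h1 hM hPB hPQ).trans ?_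
  have key : ∀ r ∈ range (k + 1), N ^ (2 * r) * (((2 : ℝ) ^ m) ^ (q⁻¹) *
      (((2 : ℝ) ^ (-b)) ^ al * ((2 : ℝ) ^ (A - r * g)) ^ (1 - al)) ^ (1 - q⁻¹)) ≤
      (2 : ℝ) ^ (m * q⁻¹ - (1 - q⁻¹) * al * b + (1 - q⁻¹) * (1 - al) * A) := by
    intro r _
    have e1 : N ^ (2 * r) ≤ (2 : ℝ) ^ (nu * (2 * r)) := by
      calc N ^ (2 * r) ≤ ((2 : ℝ) ^ nu) ^ (2 * r) := pow_le_pow_left₀ hN hNu _
        _ = (2 : ℝ) ^ (nu * (2 * r)) := by
            rw [Real.rpow_mul h2.le]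
            rw [← Real.rpow_natCast]
            push_cast
            rfl
    have e2 : (((2 : ℝ) ^ m) ^ (q⁻¹) *
      (((2 : ℝ) ^ (-b)) ^ al * ((2 : ℝ) ^ (A - r * g)) ^ (1 - al)) ^ (1 - q⁻¹)) =
        (2 : ℝ) ^ (m * q⁻¹ + (-b * al + (A - r * g) * (1 - al)) * (1 - q⁻¹)) := by
      rw [← Real.rpow_mul h2.le, ← Real.rpow_mul h2.le, ← Real.rpow_mul h2.le, ← Real.rpow_add h2,
        ← Real.rpow_mul h2.le, ← Real.rpow_add h2]
    rw [e2]
    calc N ^ (2 * r) * (2 : ℝ) ^ (m * q⁻¹ + (-b * al + (A - r * g) * (1 - al)) * (1 - q⁻¹))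
        ≤ (2 : ℝ) ^ (nu * (2 * r)) * (2 : ℝ) ^ (m * q⁻¹ + (-b * al + (A - r * g) * (1 - al)) * (1 - q⁻¹)) :=
          mul_le_mul_of_nonneg_right e1 (Real.rpow_nonneg h2.le _)
      _ = (2 : ℝ) ^ (nu * (2 * r) + (m * q⁻¹ + (-b * al + (A - r * g) * (1 - al)) * (1 - q⁻¹))) :=
          (Real.rpow_add h2 _ _).symm
      _ ≤ _ := by
          refine Real.rpow_le_rpow_of_exponent_le one_le_two ?_
          have hr : (0 : ℝ) ≤ r := Nat.cast_nonneg r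
          have := mul_le_mul_of_nonneg_left hg hr
          nlinarith [this]
  refine (Finset.sum_le_sum key).trans ?_
  rw [Finset.sum_const, Finset.card_range, nsmul_eq_mul]
  push_cast
  exact le_rfl

/-- the asymptotic form: `β, c0, γ, H, A` constants with `2 β < (1 - 1/q) (1 - α) γ` and
`H / q < (1 - 1/q) α c0`; then `E[W; Bad] ≤ 2 ^ (- δ k log₂ k)` for `k ≥ k0`. -/
theorem bad_final (be c0 ga H A q al de : ℝ) (hq : 1 ≤ q) (h0 : 0 ≤ al) (h1 : al ≤ 1)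
    (hb : 2 * be < (1 - q⁻¹) * (1 - al) * ga) (hH : H * q⁻¹ + de < (1 - q⁻¹) * al * c0) :
    ∃ k0 : ℕ, ∀ k ≥ k0, ∀ (X : Type) [Fintype X] (mu : X → ℝ) (_ : ∀ x, 0 ≤ mu x)
      (W Wex : X → ℝ) (_ : ∀ x, 0 ≤ Wex x) (c : X → ℕ) (_ : ∀ x, c x ≤ k) (N : ℝ) (_ : 0 ≤ N)
      (_ : ∀ x, W x ≤ N ^ (2 * c x) * Wex x) (Bad : Finset X) (_ : N ≤ 2 ^ (be * k))
      (_ : ∑ x, mu x * Wex x ^ q ≤ 2 ^ (H * k * Real.logb 2 k))
      (_ : ∑ x ∈ Bad, mu x ≤ 2 ^ (-(c0 * k * Real.logb 2 k)))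
      (_ : ∀ r ≤ k, ∑ x ∈ univ.filter (fun x => c x = r), mu x ≤ 2 ^ (A * k + 2 * r - ga * r * k)),
      ∑ x ∈ Bad, mu x * W x ≤ 2 ^ (-(de * k * Real.logb 2 k)) := by
  set s := 1 - q⁻¹ with hs
  have hs0 : 0 ≤ s := by
    have := inv_le_one_of_one_le₀ hq
    rw [hs]; linarith
  set d1 := s * (1 - al) * ga - 2 * be with hd1
  set d2 := s * al * c0 - (H * q⁻¹ + de) with hd2
  have hd1' : 0 < d1 := by rw [hd1]; linarith
  have hd2' : 0 < d2 := by rw [hd2]; linarith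
  obtain ⟨k1, hk1⟩ := exists_nat_ge (2 * (s * (1 - al)) / d1)
  obtain ⟨k2, hk2⟩ := exists_nat_ge ((2 : ℝ) ^ ((s * (1 - al) * A + 1) / d2))
  refine ⟨max (max k1 k2) 1, fun k hk X _ mu hmu W Wex hWex c hc N hN hW Bad hNu hM hPB hPQ => ?_⟩
  have hkk1 : k1 ≤ k := ((le_max_left _ _).trans (le_max_left _ _)).trans hk
  have hkk2 : k2 ≤ k := ((le_max_right _ _).trans (le_max_left _ _)).trans hk
  have hk0 : 1 ≤ k := (le_max_right _ _).trans hk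
  have hkr : (1 : ℝ) ≤ k := by exact_mod_cast hk0
  have hkp : (0 : ℝ) < k := by linarith
  -- logarithm large
  have hL : (s * (1 - al) * A + 1) / d2 ≤ Real.logb 2 k := by
    rw [Real.le_logb_iff_rpow_le one_lt_two hkp]
    exact hk2.trans (by exact_mod_cast hkk2)
  have hL' : s * (1 - al) * A + 1 ≤ d2 * Real.logb 2 k := by
    rw [div_le_iff₀ hd2'] at hL
    linarith
  have hk1' : 2 * (s * (1 - al)) ≤ d1 * k := by
    have : 2 * (s * (1 - al)) / d1 ≤ k := hk1.trans (by exact_mod_cast hkk1)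
    rw [div_le_iff₀ hd1'] at this
    linarith
  have main := bad_two mu hmu W Wex hWex c k hc N hN hW Bad (q := q) (al := al) (nu := be * k)
    (m := H * k * Real.logb 2 k) (b := c0 * k * Real.logb 2 k) (A := A * k) (g := ga * k - 2) hq h0 h1 hNu hM hPB
    (fun r hr => by
      have := hPQ r hr
      rwa [show A * k + 2 * r - ga * r * k = A * k - r * (ga * k - 2) by ring] at this)
    (by
      rw [← hs]
      have : s * (1 - al) * (ga * k - 2) = (d1 + 2 * be) * k - 2 * (s * (1 - al)) := by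
        rw [hd1]; ring
      rw [this]
      linarith)
  refine main.trans ?_
  rw [← hs]
  have hk2' : ((k : ℝ) + 1) ≤ 2 ^ (k : ℝ) := by
    rw [Real.rpow_natCast]
    have := Nat.lt_two_pow_self (n := k)
    exact_mod_cast this
  calc ((k : ℝ) + 1) * 2 ^ (H * k * Real.logb 2 k * q⁻¹ - s * al * (c0 * k * Real.logb 2 k) + s * (1 - al) * (A * k))
      ≤ 2 ^ (k : ℝ) * 2 ^ (H * k * Real.logb 2 k * q⁻¹ - s * al * (c0 * k * Real.logb 2 k) + s * (1 - al) * (A * k)) :=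
        mul_le_mul_of_nonneg_right hk2' (Real.rpow_nonneg two_pos.le _)
    _ = 2 ^ ((k : ℝ) + (H * k * Real.logb 2 k * q⁻¹ - s * al * (c0 * k * Real.logb 2 k) + s * (1 - al) * (A * k))) :=
        (Real.rpow_add two_pos _ _).symm
    _ ≤ _ := by
        refine Real.rpow_le_rpow_of_exponent_le one_le_two ?_
        have h3 : (k : ℝ) * (s * (1 - al) * A + 1) ≤ k * (d2 * Real.logb 2 k) := mul_le_mul_of_nonneg_left hL' hkp.le
        have h4 : (k : ℝ) * (d2 * Real.logb 2 k) =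
            s * al * (c0 * k * Real.logb 2 k) - H * k * Real.logb 2 k * q⁻¹ - de * k * Real.logb 2 k := by
          rw [hd2]; ring
        rw [h4] at h3
        nlinarith [h3]

end Vale.Agent.P160.Half.Hol914
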