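import Mathlib

/-!
# P160-HALF, block (M): the weight on the bad event by Hoelder ((H2) of note 11202)

`X` = excess weight, `cQ` = rational corank, `Bad` = bad event, `N ^ (2 cQ)` = rational weight.
-/

namespace Vale.Agent.P160.Half.Hold427

open Finset

/-- Hoelder with an indicator, whose measure is split between two bounds. -/
theorem holder3 {Ω : Type*} (A : Finset Ω) (X : Ω → ℝ) (hX : ∀ w ∈ A, 0 ≤ X w) (s μ ν : ℝ)
    (hs : 1 < s) (hμ : 0 ≤ μ) (hν : 0 ≤ ν) (hsum : μ + ν = 1 - 1 / s) (S B C : ℝ)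
    (hS : ∑ w ∈ A, X w ^ s ≤ S) (hB : (A.card : ℝ) ≤ B) (hC : (A.card : ℝ) ≤ C) :
    ∑ w ∈ A, X w ≤ S ^ (1 / s) * (B ^ μ * C ^ ν) := by
  have hs0 : 0 < s := by linarith
  have hconj : s.HolderConjugate (Real.conjExponent s) := Real.HolderConjugate.conjExponent hs
  have h1 := Real.inner_le_Lp_mul_Lq_of_nonneg A hconj (f := X) (g := fun _ => 1) hX
    (fun _ _ => zero_le_one)
  simp only [mul_one, Real.one_rpow, Finset.sum_const, nsmul_eq_mul] at h1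
  have h2 : (1 : ℝ) / Real.conjExponent s = μ + ν := by
    rw [hsum]
    have := hconj.inv_add_inv_eq_one
    rw [one_div, one_div]
    linarith
  rw [h2] at h1
  have hA0 : (0 : ℝ) ≤ A.card := Nat.cast_nonneg _
  have h3 : ((A.card : ℝ)) ^ (μ + ν) ≤ B ^ μ * C ^ ν := by
    rw [Real.rpow_add_of_nonneg hA0 hμ hν]
    exact mul_le_mul (Real.rpow_le_rpow hA0 hB hμ) (Real.rpow_le_rpow hA0 hC hν)
      (Real.rpow_nonneg hA0 _) (Real.rpow_nonneg (hA0.trans hB) _)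
  have hS0 : 0 ≤ ∑ w ∈ A, X w ^ s := Finset.sum_nonneg fun w hw => Real.rpow_nonneg (hX w hw) _
  have h4 : (∑ w ∈ A, X w ^ s) ^ (1 / s) ≤ S ^ (1 / s) :=
    Real.rpow_le_rpow hS0 hS (by positivity)
  exact h1.trans (mul_le_mul h4 h3 (Real.rpow_nonneg hA0 _)
    (Real.rpow_nonneg (hS0.trans hS) _))

/-- normalised form -/
theorem holder3_norm {Ω : Type*} (A : Finset Ω) (X : Ω → ℝ) (hX : ∀ w ∈ A, 0 ≤ X w) (s μ ν : ℝ)
    (hs : 1 < s) (hμ : 0 ≤ μ) (hν : 0 ≤ ν) (hsum : μ + ν = 1 - 1 / s) (T S B C : ℝ)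
    (hT : 0 ≤ T) (hS0 : 0 ≤ S) (hB0 : 0 ≤ B) (hC0 : 0 ≤ C)
    (hS : ∑ w ∈ A, X w ^ s ≤ T * S) (hB : (A.card : ℝ) ≤ T * B) (hC : (A.card : ℝ) ≤ T * C) :
    ∑ w ∈ A, X w ≤ T * (S ^ (1 / s) * (B ^ μ * C ^ ν)) := by
  have h := holder3 A X hX s μ ν hs hμ hν hsum _ _ _ hS hB hC
  refine h.trans (le_of_eq ?_)
  rw [Real.mul_rpow hT hS0, Real.mul_rpow hT hB0, Real.mul_rpow hT hC0]
  have hs0 : 0 < s := by linarith
  have h5 : T ^ (1 / s) * T ^ μ * T ^ ν = T := by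
    rw [← Real.rpow_add_of_nonneg hT (by positivity) hμ,
      ← Real.rpow_add_of_nonneg hT (by positivity) hν,
      show 1 / s + μ + ν = 1 by linarith, Real.rpow_one]
  calc T ^ (1 / s) * S ^ (1 / s) * (T ^ μ * B ^ μ * (T ^ ν * C ^ ν))
      = (T ^ (1 / s) * T ^ μ * T ^ ν) * (S ^ (1 / s) * (B ^ μ * C ^ ν)) := by ring
    _ = _ := by rw [h5]

/-- the sum over the rational corank -/
theorem sum_split {Ω : Type*} (Bad : Finset Ω) (X : Ω → ℝ) (cQ : Ω → ℕ) (k : ℕ)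
    (hcQ : ∀ w ∈ Bad, cQ w ≤ k) (N : ℝ) :
    ∑ w ∈ Bad, N ^ (2 * cQ w) * X w =
      ∑ r ∈ range (k + 1), N ^ (2 * r) * ∑ w ∈ Bad.filter (fun w => cQ w = r), X w := by
  rw [← Finset.sum_fiberwise_of_maps_to (s := Bad) (t := range (k + 1)) (g := cQ)
    (fun w hw => Finset.mem_range.2 (Nat.lt_succ_of_le (hcQ w hw)))]
  refine Finset.sum_congr rfl fun r _ => ?_
  rw [Finset.mul_sum]
  refine Finset.sum_congr rfl fun w hw => ?_
  rw [(Finset.mem_filter.1 hw).2]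

/-- one term -/
theorem term_le (β σ s μ ν c₀ g : ℝ) (hs : 1 < s) (hμ : 0 ≤ μ)
    (hsum : μ + ν = 1 - 1 / s) (k r : ℕ) (hk : 1 ≤ k) (N : ℝ) (hN0 : 0 ≤ N)
    (hN : N ≤ 2 ^ (β * k)) (hk2 : 2 * ν ≤ (ν * g - 2 * β) * k) :
    N ^ (2 * r) * (((k : ℝ) ^ (σ * k)) ^ (1 / s) * (((k : ℝ) ^ (-(c₀ * k))) ^ μ *
      (((k : ℝ) + 1) * 2 ^ (2 * (k : ℝ) + 2 * r - r * g * k)) ^ ν)) ≤
      (k : ℝ) ^ (-((μ * c₀ - σ / s) * k)) * (((k : ℝ) + 1) * 4 ^ k) := by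
  have hk0 : (0 : ℝ) < k := by exact_mod_cast hk
  have h2 : (0 : ℝ) < 2 := by norm_num
  have hs0 : 0 < s := by linarith
  have e1 : ((k : ℝ) ^ (σ * k)) ^ (1 / s) * ((k : ℝ) ^ (-(c₀ * k))) ^ μ =
      (k : ℝ) ^ (-((μ * c₀ - σ / s) * k)) := by
    rw [← Real.rpow_mul hk0.le, ← Real.rpow_mul hk0.le, ← Real.rpow_add hk0]
    congr 1
    ring
  have hν1 : ν ≤ 1 := by
    have : 0 < 1 / s := by positivity
    linarith
  have e2 : (((k : ℝ) + 1) * 2 ^ (2 * (k : ℝ) + 2 * r - r * g * k)) ^ ν =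
      ((k : ℝ) + 1) ^ ν * 2 ^ ((2 * (k : ℝ) + 2 * r - r * g * k) * ν) := by
    rw [Real.mul_rpow (by positivity) (by positivity), ← Real.rpow_mul h2.le]
  have e3 : ((k : ℝ) + 1) ^ ν ≤ (k : ℝ) + 1 := by
    calc ((k : ℝ) + 1) ^ ν ≤ ((k : ℝ) + 1) ^ (1 : ℝ) :=
          Real.rpow_le_rpow_of_exponent_le (by linarith) hν1
      _ = _ := Real.rpow_one _
  have e4 : N ^ (2 * r) ≤ 2 ^ (β * k * (2 * r)) := by
    calc N ^ (2 * r) ≤ ((2 : ℝ) ^ (β * k)) ^ (2 * r) := pow_le_pow_left₀ hN0 hN _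
      _ = 2 ^ (β * k * (2 * r)) := by
        rw [← Real.rpow_natCast, ← Real.rpow_mul h2.le]
        push_cast
        ring_nf
  have e5 : (2 : ℝ) ^ (β * k * (2 * r)) * 2 ^ ((2 * (k : ℝ) + 2 * r - r * g * k) * ν) ≤
      4 ^ k := by
    rw [← Real.rpow_add h2]
    have h4 : (4 : ℝ) ^ k = 2 ^ (2 * (k : ℝ)) := by
      rw [Real.rpow_mul h2.le, Real.rpow_natCast]
      norm_num
    rw [h4]
    refine Real.rpow_le_rpow_of_exponent_le (by norm_num) ?_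
    have h5 : 0 ≤ (r : ℝ) * ((ν * g - 2 * β) * k - 2 * ν) :=
      mul_nonneg (Nat.cast_nonneg _) (by linarith)
    have h6 : 2 * (k : ℝ) * ν ≤ 2 * k := by nlinarith
    nlinarith
  calc N ^ (2 * r) * (((k : ℝ) ^ (σ * k)) ^ (1 / s) * (((k : ℝ) ^ (-(c₀ * k))) ^ μ *
      (((k : ℝ) + 1) * 2 ^ (2 * (k : ℝ) + 2 * r - r * g * k)) ^ ν))
      = (((k : ℝ) ^ (σ * k)) ^ (1 / s) * ((k : ℝ) ^ (-(c₀ * k))) ^ μ) *
        (((k : ℝ) + 1) ^ ν * (N ^ (2 * r) * 2 ^ ((2 * (k : ℝ) + 2 * r - r * g * k) * ν))) := by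
        rw [e2]; ring
    _ = (k : ℝ) ^ (-((μ * c₀ - σ / s) * k)) *
        (((k : ℝ) + 1) ^ ν * (N ^ (2 * r) * 2 ^ ((2 * (k : ℝ) + 2 * r - r * g * k) * ν))) := by
        rw [e1]
    _ ≤ (k : ℝ) ^ (-((μ * c₀ - σ / s) * k)) * (((k : ℝ) + 1) * 4 ^ k) := by
        refine mul_le_mul_of_nonneg_left ?_ (by positivity)
        refine mul_le_mul e3 (le_trans ?_ e5) (by positivity) (by positivity)
        exact mul_le_mul_of_nonneg_right e4 (by positivity)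

/-- **The weight on the bad event.**  Inputs: a moment of order `s` of the excess weight, the
probability of the bad event, the rational coranks. -/
theorem bad_sum (β σ s μ ν c₀ g : ℝ) (hs : 1 < s) (hμ : 0 ≤ μ) (hν : 0 ≤ ν)
    (hsum : μ + ν = 1 - 1 / s) (h1 : σ / s < μ * c₀) (h2 : 2 * β < ν * g) :
    ∃ δ : ℝ, 0 < δ ∧ ∃ k₀ : ℕ, ∀ k : ℕ, k₀ ≤ k →
      ∀ (Ω : Type) [Fintype Ω] (X : Ω → ℝ) (cQ : Ω → ℕ) (Bad : Finset Ω) (N : ℝ),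
        (∀ w, 0 ≤ X w) → 0 ≤ N → N ≤ 2 ^ (β * k) → (∀ w, cQ w ≤ k) →
        ∑ w, X w ^ s ≤ Fintype.card Ω * (k : ℝ) ^ (σ * k) →
        (Bad.card : ℝ) ≤ Fintype.card Ω * (k : ℝ) ^ (-(c₀ * k)) →
        (∀ r : ℕ, ((univ.filter fun w => cQ w = r).card : ℝ) ≤
          Fintype.card Ω * (((k : ℝ) + 1) * 2 ^ (2 * (k : ℝ) + 2 * r - r * g * k))) →
        ∑ w ∈ Bad, N ^ (2 * cQ w) * X w ≤ Fintype.card Ω * (k : ℝ) ^ (-(δ * k)) := by
  obtain ⟨D, hD⟩ : ∃ D : ℝ, D = μ * c₀ - σ / s := ⟨_, rfl⟩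
  have hD0 : 0 < D := by rw [hD]; linarith
  refine ⟨D / 2, by linarith, ?_⟩
  have t1 : ∀ᶠ k : ℕ in Filter.atTop, (16 : ℝ) ≤ (k : ℝ) ^ (D / 2) :=
    ((tendsto_rpow_atTop (by linarith : 0 < D / 2)).comp
      tendsto_natCast_atTop_atTop).eventually_ge_atTop 16
  have t2 : ∀ᶠ k : ℕ in Filter.atTop, 2 * ν / (ν * g - 2 * β) ≤ (k : ℝ) :=
    tendsto_natCast_atTop_atTop.eventually_ge_atTop _
  obtain ⟨k₀, hk₀⟩ := Filter.eventually_atTop.1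
    ((t1.and t2).and (Filter.eventually_ge_atTop 1))
  refine ⟨k₀, ?_⟩
  intro k hk Ω _ X cQ Bad N hX hN0 hN hcQ hM hB hC
  obtain ⟨⟨a1, a2⟩, a3⟩ := hk₀ k hk
  have hk0 : (0 : ℝ) < k := by exact_mod_cast a3
  have hgap : 0 < ν * g - 2 * β := by linarith
  have a4 : 2 * ν ≤ (ν * g - 2 * β) * k := by
    rw [div_le_iff₀ hgap] at a2
    linarith
  rw [sum_split Bad X cQ k (fun w _ => hcQ w)]
  have hterm : ∀ r ∈ range (k + 1), N ^ (2 * r) * ∑ w ∈ Bad.filter (fun w => cQ w = r), X w ≤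
      Fintype.card Ω * ((k : ℝ) ^ (-(D * k)) * (((k : ℝ) + 1) * 4 ^ k)) := by
    intro r _
    have hA := holder3_norm (Bad.filter fun w => cQ w = r) X (fun w _ => hX w) s μ ν hs hμ hν hsum
      (Fintype.card Ω) ((k : ℝ) ^ (σ * k)) ((k : ℝ) ^ (-(c₀ * k)))
      (((k : ℝ) + 1) * 2 ^ (2 * (k : ℝ) + 2 * r - r * g * k)) (Nat.cast_nonneg _)
      (by positivity) (by positivity) (by positivity)
      ((Finset.sum_le_sum_of_subset_of_nonneg (Finset.subset_univ _)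
        fun w _ _ => Real.rpow_nonneg (hX w) _).trans hM)
      (le_trans (by exact_mod_cast Finset.card_le_card (Finset.filter_subset _ _)) hB)
      (le_trans (by
        exact_mod_cast Finset.card_le_card (fun w hw => Finset.mem_filter.2
          ⟨Finset.mem_univ _, (Finset.mem_filter.1 hw).2⟩)) (hC r))
    have hT := term_le β σ s μ ν c₀ g hs hμ hsum k r a3 N hN0 hN a4
    rw [← hD] at hT
    calc N ^ (2 * r) * ∑ w ∈ Bad.filter (fun w => cQ w = r), X w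
        ≤ N ^ (2 * r) * (Fintype.card Ω * (((k : ℝ) ^ (σ * k)) ^ (1 / s) *
          (((k : ℝ) ^ (-(c₀ * k))) ^ μ *
          (((k : ℝ) + 1) * 2 ^ (2 * (k : ℝ) + 2 * r - r * g * k)) ^ ν))) :=
          mul_le_mul_of_nonneg_left hA (by positivity)
      _ = Fintype.card Ω * (N ^ (2 * r) * (((k : ℝ) ^ (σ * k)) ^ (1 / s) *
          (((k : ℝ) ^ (-(c₀ * k))) ^ μ *
          (((k : ℝ) + 1) * 2 ^ (2 * (k : ℝ) + 2 * r - r * g * k)) ^ ν))) := by ring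
      _ ≤ _ := mul_le_mul_of_nonneg_left hT (Nat.cast_nonneg _)
  refine (Finset.sum_le_card_nsmul _ _ _ hterm).trans ?_
  rw [Finset.card_range, nsmul_eq_mul]
  have h2k : ((k : ℝ) + 1) ≤ 2 ^ k := by exact_mod_cast (Nat.lt_two_pow_self (n := k))
  have h16 : ((k : ℝ) + 1) * (((k : ℝ) + 1) * 4 ^ k) ≤ 16 ^ k := by
    calc ((k : ℝ) + 1) * (((k : ℝ) + 1) * 4 ^ k) ≤ 2 ^ k * (2 ^ k * 4 ^ k) := by gcongr
      _ = 16 ^ k := by rw [← mul_pow, ← mul_pow]; norm_num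
  have hfin : (k : ℝ) ^ (-(D * k)) * 16 ^ k ≤ (k : ℝ) ^ (-(D / 2 * k)) := by
    have b1 : (16 : ℝ) ^ k ≤ (k : ℝ) ^ (D / 2 * k) := by
      calc (16 : ℝ) ^ k ≤ ((k : ℝ) ^ (D / 2)) ^ k := pow_le_pow_left₀ (by norm_num) a1 k
        _ = (k : ℝ) ^ (D / 2 * k) := by rw [← Real.rpow_natCast, ← Real.rpow_mul hk0.le]
    calc (k : ℝ) ^ (-(D * k)) * 16 ^ k ≤ (k : ℝ) ^ (-(D * k)) * (k : ℝ) ^ (D / 2 * k) :=
          mul_le_mul_of_nonneg_left b1 (by positivity)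
      _ = (k : ℝ) ^ (-(D / 2 * k)) := by
        rw [← Real.rpow_add hk0]; congr 1; ring
  calc ((k + 1 : ℕ) : ℝ) * (Fintype.card Ω * ((k : ℝ) ^ (-(D * k)) * (((k : ℝ) + 1) * 4 ^ k)))
      = Fintype.card Ω * ((k : ℝ) ^ (-(D * k)) * (((k : ℝ) + 1) * (((k : ℝ) + 1) * 4 ^ k))) := by
        push_cast; ring
    _ ≤ Fintype.card Ω * ((k : ℝ) ^ (-(D * k)) * 16 ^ k) := by gcongr
    _ ≤ Fintype.card Ω * (k : ℝ) ^ (-(D / 2 * k)) :=
        mul_le_mul_of_nonneg_left hfin (Nat.cast_nonneg _)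

end Vale.Agent.P160.Half.Hold427
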