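import Vale.Agent.P160.Half.M67Stmt

set_option linter.unusedSectionVars false

/-! # P160/Half: deletion of columns for `StmtHold` (11331 (B))

A matrix of rational rank `k - r` has `k - r` columns of full rational rank; the weight loses at most
`N ^ (2 r)` and a matrix which is not sparse stays not sparse. -/

namespace Vale.Agent.P160.Half.HoldDel622

open Finset M67 Matrix

/-- the matrix with the columns in the range of `f` -/
def sub {k m m' : ℕ} (M : Matrix (Fin k) (Fin m) ℤ) (f : Fin m' → Fin m) :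
    Matrix (Fin k) (Fin m') ℤ := fun i j => M i (f j)

lemma rkp_sub_le (p : ℕ) [Fact p.Prime] {k m m' : ℕ} (M : Matrix (Fin k) (Fin m) ℤ)
    (f : Fin m' → Fin m) : rkp p (sub M f) ≤ rkp p M := by
  unfold rkp
  have h : ((sub M f).map (Int.cast : ℤ → ZMod p)) =
      (M.map (Int.cast : ℤ → ZMod p)).submatrix (fun i => i) f := rfl
  rw [h]
  exact Matrix.rank_submatrix_le _ _ _

lemma rkQ_sub_le {k m m' : ℕ} (M : Matrix (Fin k) (Fin m) ℤ)
    (f : Fin m' → Fin m) : rkQ (sub M f) ≤ rkQ M := by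
  unfold rkQ
  have h : ((sub M f).map (Int.cast : ℤ → ℚ)) =
      (M.map (Int.cast : ℤ → ℚ)).submatrix (fun i => i) f := rfl
  rw [h]
  exact Matrix.rank_submatrix_le _ _ _

lemma W_sub {P : Finset ℕ} (hP : ∀ p ∈ P, p.Prime) {k m r : ℕ} (M : Matrix (Fin k) (Fin (m + r)) ℤ)
    (f : Fin m → Fin (m + r)) :
    W P M ≤ (∏ p ∈ P, (p : ℝ)) ^ (2 * r) * W P (sub M f) := by
  unfold W
  rw [← Finset.prod_pow, ← Finset.prod_mul_distrib]
  apply Finset.prod_le_prod (fun p _ => by positivity)
  intro p hp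
  have : Fact p.Prime := ⟨hP p hp⟩
  rw [← pow_add]
  apply pow_le_pow_right₀
  · exact_mod_cast (hP p hp).one_lt.le
  · have := rkp_sub_le p M f
    omega

lemma W_nonneg (P : Finset ℕ) {k m : ℕ} (M : Matrix (Fin k) (Fin m) ℤ) : 0 ≤ W P M :=
  Finset.prod_nonneg fun p _ => by positivity

/-- extension of a vector by zero -/
noncomputable def ext0 {R : Type*} [Zero R] {m m' : ℕ} (f : Fin m' → Fin m) (u : Fin m' → R) :
    Fin m → R := Function.extend f u 0

lemma sum_ext0 {R : Type*} [CommRing R] {m m' : ℕ} (f : Fin m' → Fin m)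
    (hf : Function.Injective f) (u : Fin m' → R) (a : Fin m → R) :
    ∑ j, a j * ext0 f u j = ∑ j, a (f j) * u j := by
  classical
  have h1 : ∑ j, a (f j) * u j = ∑ j ∈ univ.image f, a j * ext0 f u j := by
    rw [Finset.sum_image fun x _ y _ h => hf h]
    apply Finset.sum_congr rfl
    intro j _
    rw [ext0, hf.extend_apply]
  rw [h1]
  symm
  apply Finset.sum_subset (Finset.subset_univ _)
  intro j _ hj
  have : ext0 f u j = 0 := by
    rw [ext0, Function.extend_apply']
    · rfl
    · rintro ⟨i, rfl⟩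
      exact hj (Finset.mem_image_of_mem _ (Finset.mem_univ _))
  rw [this, mul_zero]

open scoped Classical in
lemma card_ext0 {R : Type*} [Zero R] {m m' : ℕ} (f : Fin m' → Fin m)
    (hf : Function.Injective f) (u : Fin m' → R) :
    (univ.filter fun j => ext0 f u j ≠ 0).card = (univ.filter fun j => u j ≠ 0).card := by
  rw [← Finset.card_image_of_injective _ hf]
  congr 1
  ext j
  simp only [Finset.mem_filter, Finset.mem_univ, true_and, Finset.mem_image]
  constructor
  · intro h
    by_cases hj : ∃ i, f i = j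
    · obtain ⟨i, rfl⟩ := hj
      rw [ext0, hf.extend_apply] at h
      exact ⟨i, h, rfl⟩
    · exact absurd (by rw [ext0, Function.extend_apply' _ _ _ hj]; rfl) h
  · rintro ⟨i, hi, rfl⟩
    rw [ext0, hf.extend_apply]
    exact hi

lemma Sparse_sub {P : Finset ℕ} {s : ℝ} {k m m' : ℕ} (M : Matrix (Fin k) (Fin m) ℤ)
    (f : Fin m' → Fin m) (hf : Function.Injective f) (h : Sparse P s (sub M f)) :
    Sparse P s M := by
  classical
  obtain ⟨p, hp, u, hu, hc, hk⟩ := h
  refine ⟨p, hp, ext0 f u, ?_, ?_, ?_⟩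
  · intro h0
    apply hu
    funext i
    have := congrFun h0 (f i)
    rw [ext0, hf.extend_apply] at this
    exact this
  · have h1 := card_ext0 f hf u
    have h2 : (univ.filter fun j => ext0 f u j ≠ 0).card = (univ.filter fun j => u j ≠ 0).card := by
      convert h1
    rw [h2]
    exact hc
  · intro i
    rw [sum_ext0 f hf u (fun j => (M i j : ZMod p))]
    exact hk i

lemma SpB_sub {s : ℝ} {k m m' : ℕ} (M : Matrix (Fin k) (Fin m) ℤ)
    (f : Fin m' → Fin m) (hf : Function.Injective f) (h : SpB s (sub M f)) : SpB s M := by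
  classical
  obtain ⟨ψ, h1, h2, ⟨c, h3⟩, h4⟩ := h
  refine ⟨ext0 f ψ, ?_, ?_, ⟨f c, ?_⟩, ?_⟩
  · intro j
    by_cases hj : ∃ i, f i = j
    · obtain ⟨i, rfl⟩ := hj
      rw [ext0, hf.extend_apply]
      exact h1 i
    · rw [ext0, Function.extend_apply' _ _ _ hj]
      simp
  · have h5 := card_ext0 f hf ψ
    have h6 : (univ.filter fun j => ext0 f ψ j ≠ 0).card = (univ.filter fun j => ψ j ≠ 0).card := by
      convert h5
    rw [h6]
    convert h2
  · rw [ext0, hf.extend_apply]
    exact h3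
  · intro i
    obtain ⟨z, hz⟩ := h4 i
    refine ⟨z, ?_⟩
    rw [sum_ext0 f hf ψ (fun j => (M i j : ℝ))]
    exact hz

lemma Sp_sub {P : Finset ℕ} {s : ℝ} {k m m' : ℕ} (M : Matrix (Fin k) (Fin m) ℤ)
    (f : Fin m' → Fin m) (hf : Function.Injective f) (h : Sp P s (sub M f)) : Sp P s M := by
  rcases h with h | h
  · exact Or.inl (Sparse_sub M f hf h)
  · exact Or.inr (SpB_sub M f hf h)

/-- columns of full rank -/
lemma exists_cols {k m : ℕ} (M : Matrix (Fin k) (Fin m) ℤ) :
    ∃ T : Finset (Fin m), ∃ hT : T.card = rkQ M, rkQ (sub M (T.orderEmbOfFin hT)) = rkQ M := by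
  classical
  set A : Matrix (Fin k) (Fin m) ℚ := M.map (Int.cast : ℤ → ℚ) with hA
  obtain ⟨κ, a, ha, hspan, hli⟩ := exists_linearIndependent' ℚ A.col
  have : Finite κ := Finite.of_injective a ha
  have : Fintype κ := Fintype.ofFinite κ
  have hc : Fintype.card κ = A.rank := by
    rw [Matrix.rank_eq_finrank_span_cols, ← hspan, finrank_span_eq_card hli]
  set T : Finset (Fin m) := univ.image a with hTdef
  have hTc : T.card = rkQ M := by
    rw [hTdef, Finset.card_image_of_injective _ ha, Finset.card_univ, hc]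
    rfl
  refine ⟨T, hTc, ?_⟩
  generalize hf : (T.orderEmbOfFin hTc : Fin (rkQ M) → Fin m) = f
  apply le_antisymm
  · exact rkQ_sub_le M f
  · have h1 : rkQ M = Module.finrank ℚ (Submodule.span ℚ (Set.range (A.col ∘ a))) := by
      rw [hspan, ← Matrix.rank_eq_finrank_span_cols]
      rfl
    have h4 : rkQ (sub M f) = Module.finrank ℚ (Submodule.span ℚ
        (Set.range ((sub M f).map (Int.cast : ℤ → ℚ)).col)) := by
      rw [← Matrix.rank_eq_finrank_span_cols]
      rfl
    refine h1.le.trans (le_trans ?_ h4.ge)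
    apply Submodule.finrank_mono
    apply Submodule.span_mono
    rintro _ ⟨x, rfl⟩
    have h2 : a x ∈ T := Finset.mem_image_of_mem _ (Finset.mem_univ _)
    have h3 : a x ∈ Set.range f := by
      rw [← hf, Finset.range_orderEmbOfFin]
      exact_mod_cast h2
    obtain ⟨y, hy⟩ := h3
    refine ⟨y, ?_⟩
    funext i
    simp only [Matrix.col_apply, Matrix.map_apply, sub, hy, hA, Function.comp]

/-- a sum over functions on `β` of a function of the restriction along an injection -/
lemma sum_comp_inj {Ω : Type} [Fintype Ω] {α β : Type} [Fintype α] [Fintype β] [DecidableEq α]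
    [DecidableEq β] (f : α → β)
    (hf : Function.Injective f) (g : (α → Ω) → ℝ) :
    ∑ x : β → Ω, g (x ∘ f) = (Fintype.card Ω : ℝ) ^ (Fintype.card β - Fintype.card α) *
      ∑ y : α → Ω, g y := by
  classical
  let E := Equiv.piEquivPiSubtypeProd (fun b => b ∈ Set.range f) (fun _ : β => Ω)
  let A : α ≃ {b // b ∈ Set.range f} := Equiv.ofInjective f hf
  let B : (α → Ω) ≃ ({b // b ∈ Set.range f} → Ω) := Equiv.arrowCongr A (Equiv.refl Ω)
  rw [← E.symm.sum_comp, Fintype.sum_prod_type]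
  have h1 : ∀ (y : {b // b ∈ Set.range f} → Ω) (z : {b // ¬ b ∈ Set.range f} → Ω),
      g ((E.symm (y, z)) ∘ f) = g (B.symm y) := by
    intro y z
    congr 1
    funext a
    have ha : f a ∈ Set.range f := ⟨a, rfl⟩
    simp only [E, Equiv.piEquivPiSubtypeProd, Function.comp, Equiv.coe_fn_symm_mk, B, A,
      Equiv.arrowCongr, Equiv.coe_refl, Equiv.coe_fn_mk, dif_pos ha]
    rfl
  simp_rw [h1]
  simp only [Finset.sum_const, Finset.card_univ, nsmul_eq_mul]
  rw [← Finset.mul_sum]
  congr 1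
  · rw [Fintype.card_fun, Fintype.card_subtype_compl, Set.card_range_of_injective hf]
    push_cast
    rfl
  · exact B.symm.sum_comp g

lemma sum_sub {Ω : Type} [Fintype Ω] {k m m' : ℕ} (f : Fin m → Fin m')
    (hf : Function.Injective f) (g : (Fin k → Fin m → Ω) → ℝ) :
    ∑ ω : Fin k → Fin m' → Ω, g (fun i j => ω i (f j)) =
      (Fintype.card Ω : ℝ) ^ (k * (m' - m)) * ∑ ω' : Fin k → Fin m → Ω, g ω' := by
  have h1 := sum_comp_inj (Ω := Ω) (fun x : Fin k × Fin m => ((x.1, f x.2) : Fin k × Fin m'))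
    (by
      rintro ⟨a, b⟩ ⟨a', b'⟩ h
      simp only [Prod.mk.injEq] at h
      exact Prod.ext h.1 (hf h.2))
    (fun y => g (Function.curry y))
  have h2 : ∑ x : Fin k × Fin m' → Ω, g (Function.curry
      (x ∘ (fun x : Fin k × Fin m => ((x.1, f x.2) : Fin k × Fin m')))) =
      ∑ ω : Fin k → Fin m' → Ω, g (fun i j => ω i (f j)) := by
    rw [← (Equiv.curry (Fin k) (Fin m') Ω).sum_comp]
    rfl
  have h3 : ∑ y : Fin k × Fin m → Ω, g (Function.curry y) =
      ∑ ω' : Fin k → Fin m → Ω, g ω' := by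
    rw [← (Equiv.curry (Fin k) (Fin m) Ω).sum_comp]
    rfl
  rw [h2, h3] at h1
  rw [h1]
  congr 2
  simp only [Fintype.card_prod, Fintype.card_fin]
  rw [Nat.mul_sub]

open scoped Classical in
/-- **deletion of columns**, summed -/
theorem del_count {Ω : Type} [Fintype Ω] (e : Ω → ℤ) (s : ℕ) {P : Finset ℕ}
    (hP : ∀ p ∈ P, p.Prime) (k r m : ℕ) (σ : ℝ) :
    ∑ ω ∈ (univ : Finset (Fin k → Fin (m + r) → Ω)).filter
      (fun ω => rkQ (mt e ω) = m ∧ ¬ Sp P σ (mt e ω)), W P (mt e ω) ^ s ≤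
    ((m + r).choose m : ℝ) * ((∏ p ∈ P, (p : ℝ)) ^ (2 * r)) ^ s * (Fintype.card Ω : ℝ) ^ (k * r) *
      ∑ ω' ∈ (univ : Finset (Fin k → Fin m → Ω)).filter
        (fun ω' => rkQ (mt e ω') = m ∧ ¬ Sp P σ (mt e ω')), W P (mt e ω') ^ s := by
  set N : ℝ := (∏ p ∈ P, (p : ℝ)) with hN
  have hN0 : 0 ≤ N := Finset.prod_nonneg fun p _ => by positivity
  let g : (Fin k → Fin m → Ω) → ℝ := fun ω' =>
    if rkQ (mt e ω') = m ∧ ¬ Sp P σ (mt e ω') then W P (mt e ω') ^ s else 0
  have hg0 : ∀ ω', 0 ≤ g ω' := by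
    intro ω'
    simp only [g]
    split_ifs
    · exact pow_nonneg (W_nonneg _ _) _
    · exact le_rfl
  let em : (T : Finset (Fin (m + r))) → Fin m → Fin (m + r) := fun T =>
    if h : T.card = m then T.orderEmbOfFin h else fun j => Fin.castAdd r j
  have hem : ∀ T, Function.Injective (em T) := by
    intro T
    simp only [em]
    split_ifs with h
    · exact (T.orderEmbOfFin h).injective
    · exact Fin.castAdd_injective m r
  have h1 : ∀ ω ∈ (univ : Finset (Fin k → Fin (m + r) → Ω)).filter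
      (fun ω => rkQ (mt e ω) = m ∧ ¬ Sp P σ (mt e ω)), W P (mt e ω) ^ s ≤
      ∑ T ∈ powersetCard m (univ : Finset (Fin (m + r))),
        (N ^ (2 * r)) ^ s * g (fun i j => ω i (em T j)) := by
    intro ω hω
    obtain ⟨hr, hs⟩ := (Finset.mem_filter.1 hω).2
    obtain ⟨T, hT, hTr⟩ := exists_cols (mt e ω)
    have hTm : T.card = m := hT.trans hr
    have hmem : T ∈ powersetCard m (univ : Finset (Fin (m + r))) :=
      Finset.mem_powersetCard.2 ⟨Finset.subset_univ _, hTm⟩
    refine le_trans ?_ (Finset.single_le_sum (f := fun T =>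
      (N ^ (2 * r)) ^ s * g (fun i j => ω i (em T j)))
      (fun T _ => mul_nonneg (by positivity) (hg0 _)) hmem)
    have h2 : mt e (fun i j => ω i (em T j)) = sub (mt e ω) (em T) := rfl
    have h3 : rkQ (sub (mt e ω) (em T)) = m := by
      have h4 : ∀ (q : ℕ) (hq : T.card = q) (hq' : q = m), rkQ (sub (mt e ω) (T.orderEmbOfFin hq)) = q →
          rkQ (sub (mt e ω) (em T)) = m := by
        intro q hq hq' h
        subst hq'
        simp only [em, dif_pos hq]
        exact h
      exact h4 _ hT hr hTr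
    have h5 : ¬ Sp P σ (sub (mt e ω) (em T)) := fun h => hs (Sp_sub _ _ (hem T) h)
    simp only [g, h2, h3, true_and, h5, not_false_eq_true, if_true]
    rw [← mul_pow]
    exact pow_le_pow_left₀ (W_nonneg _ _) (W_sub hP (mt e ω) (em T)) s
  refine (Finset.sum_le_sum h1).trans ?_
  refine (Finset.sum_le_sum_of_subset_of_nonneg (Finset.filter_subset _ _) fun ω _ _ =>
    Finset.sum_nonneg fun T _ => mul_nonneg (by positivity) (hg0 _)).trans ?_
  apply le_of_eq
  rw [Finset.sum_comm]
  have h6 : ∀ T ∈ powersetCard m (univ : Finset (Fin (m + r))),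
      ∑ ω : Fin k → Fin (m + r) → Ω, (N ^ (2 * r)) ^ s * g (fun i j => ω i (em T j)) =
      (N ^ (2 * r)) ^ s * ((Fintype.card Ω : ℝ) ^ (k * r) * ∑ ω' : Fin k → Fin m → Ω, g ω') := by
    intro T _
    rw [← Finset.mul_sum, sum_sub (em T) (hem T) g, Nat.add_sub_cancel_left]
  rw [Finset.sum_congr rfl h6, Finset.sum_const, Finset.card_powersetCard, Finset.card_univ,
    Fintype.card_fin, nsmul_eq_mul, Finset.sum_filter]
  simp only [g]
  ring

end Vale.Agent.P160.Half.HoldDel622
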