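import Mathlib

/-!
# P160 (M), note 11331 (B): the weight on the bad event, moment of any order `q`

`W` = weight (square of the number of kernel vectors modulo `N`), `cQ` = rational corank, `γ` = rank rate,
`2 β < (1 - 1/q) γ`.  Hoelder (1/q, 1-1/q) for `cQ ≤ (4 q/γ) log2 k`, Hadamard for larger `cQ`.
-/

namespace Vale.Agent.P160.Half.P5Q61

open Finset Real

/-- Hoelder (1/q, 1 - 1/q) on a subset -/
theorem hoel {Ω : Type*} (s : Finset Ω) (W : Ω → ℝ) (hW : ∀ ω, 0 ≤ W ω) {q : ℕ} (hq : 2 ≤ q)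
    (M P : ℝ) (hM : ∑ ω ∈ s, W ω ^ q ≤ M) (hP : (s.card : ℝ) ≤ P) :
    ∑ ω ∈ s, W ω ≤ M ^ (1 / (q : ℝ)) * P ^ (1 - 1 / (q : ℝ)) := by
  have hq1 : (1 : ℝ) < q := by exact_mod_cast hq
  have hpq : Real.HolderConjugate (q : ℝ) (Real.conjExponent q) :=
    Real.HolderConjugate.conjExponent hq1
  have h1 := Real.inner_le_Lp_mul_Lq_of_nonneg s hpq (f := W) (g := fun _ => 1)
    (fun ω _ => hW ω) (fun _ _ => zero_le_one)
  simp only [mul_one, Real.one_rpow, Finset.sum_const, nsmul_eq_mul, Real.rpow_natCast] at h1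
  have h2 : (1 : ℝ) / Real.conjExponent q = 1 - 1 / q := by
    have := hpq.inv_add_inv_eq_one
    rw [one_div, one_div]
    linarith
  rw [h2] at h1
  have h0 : 0 ≤ ∑ ω ∈ s, W ω ^ q := Finset.sum_nonneg fun ω _ => pow_nonneg (hW ω) q
  have h3 : (0 : ℝ) ≤ 1 - 1 / q := by
    have : 1 / (q : ℝ) ≤ 1 := by
      rw [div_le_one (by linarith)]
      exact hq1.le
    linarith
  refine h1.trans ?_
  exact mul_le_mul (Real.rpow_le_rpow h0 hM (by positivity))
    (Real.rpow_le_rpow (Nat.cast_nonneg _) hP h3) (Real.rpow_nonneg (Nat.cast_nonneg _) _)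
    (Real.rpow_nonneg (h0.trans hM) _)

theorem big (M : ℝ) {δ : ℝ} (hδ : 0 < δ) : ∃ k0 : ℕ, ∀ k : ℕ, k0 ≤ k →
    M ≤ logb 2 k ∧ logb 2 k + 4 ≤ δ * k ∧ 1 ≤ k := by
  have h1 : ∀ᶠ k : ℕ in Filter.atTop, M ≤ logb 2 (k : ℝ) :=
    ((Real.tendsto_logb_atTop (by norm_num : (1 : ℝ) < 2)).comp
      tendsto_natCast_atTop_atTop).eventually_ge_atTop M
  have h2 : ∀ᶠ k : ℕ in Filter.atTop, logb 2 (k : ℝ) + 4 ≤ δ * k := by
    have h3 := (Real.isLittleO_log_id_atTop.comp_tendsto
      (tendsto_natCast_atTop_atTop (R := ℝ))).def (c := δ / 2 * Real.log 2)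
      (by have := Real.log_pos (by norm_num : (1 : ℝ) < 2); positivity)
    have h4 : ∀ᶠ k : ℕ in Filter.atTop, 8 / δ ≤ (k : ℝ) :=
      tendsto_natCast_atTop_atTop.eventually_ge_atTop _
    filter_upwards [h3, h4] with k h3 h4
    have hl2 := Real.log_pos (by norm_num : (1 : ℝ) < 2)
    simp only [Function.comp_apply, id_eq, Real.norm_eq_abs] at h3
    have h5 : Real.log k ≤ δ / 2 * Real.log 2 * k := by
      refine (le_abs_self _).trans (h3.trans (le_of_eq ?_))
      rw [abs_of_nonneg (Nat.cast_nonneg k)]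
    have h6 : logb 2 (k : ℝ) ≤ δ / 2 * k := by
      rw [Real.logb, div_le_iff₀ hl2]
      linarith
    have h7 : 4 ≤ δ / 2 * k := by
      rw [div_le_iff₀ hδ] at h4
      linarith
    linarith
  obtain ⟨a, ha⟩ := Filter.eventually_atTop.1 (h1.and h2)
  exact ⟨max a 1, fun k hk => ⟨(ha k (le_trans (le_max_left _ _) hk)).1,
    (ha k (le_trans (le_max_left _ _) hk)).2, le_trans (le_max_right _ _) hk⟩⟩

/-- **The weight on the bad event** (11331 (B)), moment of order `q`, rank rate `γ`. -/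
theorem bad_sumq {c C1 C2 A β γ : ℝ} {q : ℕ} (hq : 2 ≤ q) (hc : 0 < c) (hC1 : 0 ≤ C1)
    (hC2 : 0 ≤ C2) (hA : 0 ≤ A) (hβ0 : 0 ≤ β) (hβ : 2 * β < (1 - 1 / q) * γ) :
    ∃ k0 : ℕ, ∀ k : ℕ, k0 ≤ k → ∀ (Ω : Type) [Fintype Ω] (W : Ω → ℝ) (_ : ∀ ω, 0 ≤ W ω)
      (cQ : Ω → ℕ) (_ : ∀ ω, cQ ω ≤ k) (Bd : Finset Ω) (Nm : ℝ) (_ : 1 ≤ Nm)
      (_ : Nm ≤ (2 : ℝ) ^ (β * k))
      (_ : ∀ r : ℕ, (r : ℝ) ≤ 4 * q / γ * logb 2 k →
        ∑ ω ∈ Bd.filter (fun ω => cQ ω = r), W ω ^ q ≤
          (k : ℝ) ^ r * Nm ^ (2 * q * r) * (2 : ℝ) ^ (C1 * k) * Fintype.card Ω)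
      (_ : ∀ r : ℕ, 1 ≤ r → ((Bd.filter (fun ω => cQ ω = r)).card : ℝ) ≤
        (2 : ℝ) ^ (C2 * k + 2 * r - γ * (k * r)) * Fintype.card Ω)
      (_ : ∀ ω, W ω ≤ (k : ℝ) ^ k * Nm ^ (2 * cQ ω))
      (_ : (Bd.card : ℝ) ≤ (2 : ℝ) ^ (-(c * k * logb 2 k)) * Fintype.card Ω),
      ∑ ω ∈ Bd, W ω ≤ (2 : ℝ) ^ (-(A * k)) * Fintype.card Ω := by
  have hqr : (2 : ℝ) ≤ q := by exact_mod_cast hq
  have hq0 : (0 : ℝ) < q := by linarith
  set θ : ℝ := 1 / q with hθ
  have hθ0 : 0 < θ := by positivity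
  have hθ2 : θ ≤ 1 / 2 := by
    rw [hθ]
    exact one_div_le_one_div_of_le (by norm_num) hqr
  have hqθ : q * θ = 1 := by rw [hθ]; field_simp
  have hγ0 : 0 < γ := by
    by_contra h
    have : (1 - θ) * γ ≤ 0 := mul_nonpos_of_nonneg_of_nonpos (by linarith) (by linarith)
    linarith
  set δ : ℝ := (1 - θ) * γ - 2 * β with hδ
  have hδ0 : 0 < δ := by rw [hδ]; linarith
  set r0 : ℝ := (C1 + C2 + A + 1) / (δ / 2) with hr0
  have hr00 : 0 ≤ r0 := by rw [hr0]; positivity
  have hr0' : r0 * (δ / 2) = C1 + C2 + A + 1 := by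
    rw [hr0]; field_simp
  obtain ⟨k0, hk0⟩ := big (max ((r0 + 2 * r0 * β + C1 + (A + 1)) / (c / 2))
    (C2 + A + 1)) (show 0 < 1 / 2 * δ by positivity)
  obtain ⟨k1, hk1⟩ := big 0 (show (0 : ℝ) < 1 by norm_num)
  obtain ⟨k2, hk2⟩ := big 0 (show (0 : ℝ) < θ * γ / 2 by positivity)
  refine ⟨max k0 (max k1 k2), ?_⟩
  intro k hk Ω _ W hW0 cQ hcQ Bd Nm hN1 hN H1 H2 H3 H4
  obtain ⟨hL, hLk, hk1'⟩ := hk0 k (le_trans (le_max_left _ _) hk)
  obtain ⟨hL0, hLk', -⟩ := hk1 k (le_trans (le_trans (le_max_left _ _) (le_max_right _ _)) hk)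
  obtain ⟨-, hLk2, -⟩ := hk2 k (le_trans (le_trans (le_max_right _ _) (le_max_right _ _)) hk)
  set L : ℝ := logb 2 k with hLdef
  have hkpos : (0 : ℝ) < k := by exact_mod_cast hk1'
  have hkL : (k : ℝ) = (2 : ℝ) ^ L := by
    rw [hLdef, Real.rpow_logb (by norm_num) (by norm_num) hkpos]
  have hT0 : (0 : ℝ) ≤ Fintype.card Ω := Nat.cast_nonneg _
  have hN0 : 0 ≤ Nm := by linarith
  have hpow : ∀ r : ℕ, Nm ^ r ≤ (2 : ℝ) ^ (β * k * r) := by
    intro r
    rw [Real.rpow_mul (by norm_num), Real.rpow_natCast]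
    exact pow_le_pow_left₀ hN0 hN r
  have hkr : ∀ r : ℕ, (k : ℝ) ^ r = (2 : ℝ) ^ (L * r) := by
    intro r
    rw [Real.rpow_mul (by norm_num), Real.rpow_natCast, ← hkL]
  have hT1 : ((Fintype.card Ω : ℝ) ^ θ) * ((Fintype.card Ω : ℝ) ^ (1 - θ)) =
      Fintype.card Ω := by
    rw [← Real.rpow_add_of_nonneg hT0 hθ0.le (by linarith), add_sub_cancel, Real.rpow_one]
  -- Hoelder with exponents
  have hH : ∀ (s : Finset Ω) (x y : ℝ), ∑ ω ∈ s, W ω ^ q ≤ (2 : ℝ) ^ x * Fintype.card Ω →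
      (s.card : ℝ) ≤ (2 : ℝ) ^ y * Fintype.card Ω →
      ∑ ω ∈ s, W ω ≤ (2 : ℝ) ^ (x * θ + y * (1 - θ)) * Fintype.card Ω := by
    intro s x y hx hy
    refine (hoel s W hW0 hq _ _ hx hy).trans (le_of_eq ?_)
    rw [← hθ, Real.mul_rpow (by positivity) hT0, Real.mul_rpow (by positivity) hT0,
      ← Real.rpow_mul (by norm_num), ← Real.rpow_mul (by norm_num)]
    calc _ = ((2 : ℝ) ^ (x * θ) * (2 : ℝ) ^ (y * (1 - θ))) *
          (((Fintype.card Ω : ℝ) ^ θ) * ((Fintype.card Ω : ℝ) ^ (1 - θ))) := by ring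
      _ = _ := by
          rw [hT1, ← Real.rpow_add (by norm_num)]
  -- every `r`
  have hmain : ∀ r ∈ Finset.range (k + 1), ∑ ω ∈ Bd.filter (fun ω => cQ ω = r), W ω ≤
      (2 : ℝ) ^ (-((A + 1) * k)) * Fintype.card Ω := by
    intro r hr
    have h6 : (0 : ℝ) ≤ r := Nat.cast_nonneg r
    rcases le_or_gt (r : ℝ) (4 * q / γ * L) with hrL | hrL
    · have hM : ∑ ω ∈ Bd.filter (fun ω => cQ ω = r), W ω ^ q ≤
          (2 : ℝ) ^ (L * r + 2 * q * β * k * r + C1 * k) * Fintype.card Ω := by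
        refine (H1 r hrL).trans (mul_le_mul_of_nonneg_right ?_ hT0)
        rw [Real.rpow_add (by norm_num), Real.rpow_add (by norm_num), hkr r]
        refine mul_le_mul_of_nonneg_right (mul_le_mul_of_nonneg_left ?_ (by positivity))
          (by positivity)
        refine (hpow (2 * q * r)).trans (le_of_eq ?_)
        congr 1
        push_cast
        ring
      have hx : (L * r + 2 * q * β * k * r + C1 * k) * θ =
          L * r * θ + 2 * β * k * r + C1 * k * θ := by
        have : 2 * q * β * k * r * θ = 2 * β * k * r * (q * θ) := by ring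
        rw [add_mul, add_mul, this, hqθ]
        ring
      have hLr : L * r * θ ≤ L * r := mul_le_of_le_one_right (by positivity) (by linarith)
      have hCk : C1 * k * θ ≤ C1 * k := mul_le_of_le_one_right (by positivity) (by linarith)
      rcases le_or_gt (r : ℝ) r0 with hrr | hrr
      · -- small `r`: probability of the bad event
        have hP : ((Bd.filter (fun ω => cQ ω = r)).card : ℝ) ≤
            (2 : ℝ) ^ (-(c * k * L)) * Fintype.card Ω :=
          le_trans (by exact_mod_cast Finset.card_le_card (Finset.filter_subset _ _)) H4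
        refine (hH _ _ _ hM hP).trans (mul_le_mul_of_nonneg_right ?_ hT0)
        refine Real.rpow_le_rpow_of_exponent_le (by norm_num) ?_
        rw [hx]
        have h3 : (r0 + 2 * r0 * β + C1 + (A + 1)) ≤ L * (c / 2) := by
          have := (le_max_left _ _).trans hL
          rwa [div_le_iff₀ (by positivity)] at this
        have h4 : L * r ≤ k * r0 := by
          have h5 : L ≤ k := by linarith
          exact (mul_le_mul_of_nonneg_right h5 h6).trans
            (mul_le_mul_of_nonneg_left hrr hkpos.le)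
        have h7 : 2 * β * k * r ≤ 2 * β * k * r0 :=
          mul_le_mul_of_nonneg_left hrr (by positivity)
        have h8 : k * (r0 + 2 * r0 * β + C1 + (A + 1)) ≤ k * (L * (c / 2)) :=
          mul_le_mul_of_nonneg_left h3 hkpos.le
        have h9 : c * k * L * (1 / 2) ≤ c * k * L * (1 - θ) :=
          mul_le_mul_of_nonneg_left (by linarith) (by positivity)
        linarith
      · -- middle `r`: rank deficiency
        have hr1 : 1 ≤ r := by
          by_contra h
          have : r = 0 := by omega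
          rw [this] at hrr
          simp at hrr
          linarith
        refine (hH _ _ _ hM (H2 r hr1)).trans (mul_le_mul_of_nonneg_right ?_ hT0)
        refine Real.rpow_le_rpow_of_exponent_le (by norm_num) ?_
        rw [hx]
        have h7 : (L + 4) * r ≤ 1 / 2 * δ * k * r := mul_le_mul_of_nonneg_right hLk h6
        have h8 : k * (r0 * (δ / 2)) ≤ k * (r * (δ / 2)) :=
          mul_le_mul_of_nonneg_left
            (mul_le_mul_of_nonneg_right hrr.le (by positivity)) hkpos.le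
        rw [hr0'] at h8
        have h9 : k * r * (2 * β) = k * r * ((1 - θ) * γ - δ) := by rw [hδ]; ring
        have h10 : C2 * k * (1 - θ) ≤ C2 * k := mul_le_of_le_one_right (by positivity) (by linarith)
        have h11 : 2 * (r : ℝ) * (1 - θ) ≤ 2 * r :=
          mul_le_of_le_one_right (by positivity) (by linarith)
        linarith
    · -- large `r`: Hadamard
      have hr1 : 1 ≤ r := by
        by_contra h
        have : r = 0 := by omega
        rw [this] at hrL
        have h7 : 0 ≤ 4 * q / γ * L := by positivity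
        simp at hrL
        linarith
      calc ∑ ω ∈ Bd.filter (fun ω => cQ ω = r), W ω
          ≤ ∑ ω ∈ Bd.filter (fun ω => cQ ω = r), (2 : ℝ) ^ (L * k + 2 * β * k * r) := by
            refine Finset.sum_le_sum fun ω hω => ?_
            refine (H3 ω).trans ?_
            rw [(Finset.mem_filter.1 hω).2, Real.rpow_add (by norm_num), ← hkr k]
            refine mul_le_mul_of_nonneg_left ?_ (by positivity)
            refine (hpow (2 * r)).trans (le_of_eq ?_)
            congr 1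
            push_cast
            ring
        _ = ((Bd.filter (fun ω => cQ ω = r)).card : ℝ) * (2 : ℝ) ^ (L * k + 2 * β * k * r) := by
            rw [Finset.sum_const, nsmul_eq_mul]
        _ ≤ ((2 : ℝ) ^ (C2 * k + 2 * r - γ * (k * r)) * Fintype.card Ω) *
            (2 : ℝ) ^ (L * k + 2 * β * k * r) :=
              mul_le_mul_of_nonneg_right (H2 r hr1) (by positivity)
        _ = (2 : ℝ) ^ ((C2 * k + 2 * r - γ * (k * r)) + (L * k + 2 * β * k * r)) *
            Fintype.card Ω := by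
            rw [Real.rpow_add (by norm_num) (C2 * k + 2 * r - γ * (k * r))
              (L * k + 2 * β * k * r)]
            ring
        _ ≤ _ := by
            refine mul_le_mul_of_nonneg_right ?_ hT0
            refine Real.rpow_le_rpow_of_exponent_le (by norm_num) ?_
            have h7 : C2 + A + 1 ≤ L := (le_max_right _ _).trans hL
            have h8 : 4 ≤ θ * γ / 2 * (k : ℝ) := by linarith
            have h9 : 4 * (r : ℝ) ≤ θ * γ / 2 * k * r := mul_le_mul_of_nonneg_right h8 h6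
            -- θ γ r ≥ 4 L
            have h10 : 4 * L ≤ θ * γ * r := by
              have := mul_le_mul_of_nonneg_left hrL.le (by positivity : 0 ≤ θ * γ)
              have h13 : θ * γ * (4 * q / γ * L) = 4 * (q * θ) * L := by field_simp
              rw [h13, hqθ] at this
              linarith
            have h14 : k * (4 * L) ≤ k * (θ * γ * r) := mul_le_mul_of_nonneg_left h10 hkpos.le
            have h11 : 2 * β * k * r ≤ (1 - θ) * γ * k * r :=
              mul_le_mul_of_nonneg_right (mul_le_mul_of_nonneg_right hβ.le hkpos.le) h6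
            have h12 : k * (C2 + A + 1) ≤ k * L := mul_le_mul_of_nonneg_left h7 hkpos.le
            have h15 : 0 ≤ k * L := by positivity
            linarith
  have hsum : ∑ ω ∈ Bd, W ω =
      ∑ r ∈ Finset.range (k + 1), ∑ ω ∈ Bd.filter (fun ω => cQ ω = r), W ω := by
    rw [Finset.sum_fiberwise_of_maps_to]
    intro ω _
    exact Finset.mem_range.2 (Nat.lt_succ_of_le (hcQ ω))
  rw [hsum]
  refine (Finset.sum_le_sum hmain).trans ?_
  rw [Finset.sum_const, Finset.card_range, nsmul_eq_mul, ← mul_assoc]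
  refine mul_le_mul_of_nonneg_right ?_ hT0
  have h1 : ((k + 1 : ℕ) : ℝ) ≤ (2 : ℝ) ^ (k : ℝ) := by
    rw [Real.rpow_natCast]
    have : k + 1 ≤ 2 ^ k := Nat.lt_two_pow_self
    exact_mod_cast this
  calc ((k + 1 : ℕ) : ℝ) * (2 : ℝ) ^ (-((A + 1) * k))
      ≤ (2 : ℝ) ^ (k : ℝ) * (2 : ℝ) ^ (-((A + 1) * k)) :=
        mul_le_mul_of_nonneg_right h1 (by positivity)
    _ = (2 : ℝ) ^ (-(A * k)) := by
        rw [← Real.rpow_add (by norm_num)]
        congr 1
        ring

end Vale.Agent.P160.Half.P5Q61
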