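import Vale.Agent.P160.Half.M67Stmt
import Vale.Agent.P160.Half.HadN
import Vale.Agent.P160.Half.P5Q61
import Vale.Agent.P160.Half.HoldDel622

/-!
# P160 (M), `StmtHold`: the weight on the bad event, from the rational rank count, the bad probability and the moment

`hold_of` : `StmtRat t → StmtBadProb → StmtMom q β → StmtHold β` when `2 β < (1 - 1/q) log2 (1/t)` (with
`HoldDel622.del_count`, `P5Q61.bad_sumq`, `HadN.weight_sq_le`);
`hold` : `StmtRat (3/4) → StmtBadProb → StmtMom 3 β → StmtHold β` for `0 < β ≤ 1/8`;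
`hold2` : `q = 2`, `0 < β ≤ 1/10`; `hold4` : `q = 4` with the landed rate `t = 2^{-1/3}`, `0 < β < 1/8`.
-/

set_option linter.unusedVariables false

namespace Vale.Agent.P160.Half.Hold61

open Finset Vale.Agent.P160 Vale.Agent.P160.Half Vale.Agent.P160.Half.Flat
open Vale.Agent.P160.Half.M67

open scoped Classical in
/-- column deletion, weighted (`HoldDel622.del_count`) -/
theorem del (q k r : ℕ) (hr : r ≤ k) (P : Finset ℕ) (hP : ∀ p ∈ P, p.Prime) (s : ℝ) :
    ∑ ω ∈ (univ : Finset (Fin k → Fin k → Bool × Bool)).filter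
      (fun ω => rkQ (mt xi ω) + r = k ∧ ¬ Sp P s (mt xi ω)), W P (mt xi ω) ^ q ≤
    (k.choose r : ℝ) * (∏ p ∈ P, (p : ℝ)) ^ (2 * r * q) * (4 : ℝ) ^ (k * r) *
    ∑ ω ∈ (univ : Finset (Fin k → Fin (k - r) → Bool × Bool)).filter
      (fun ω => rkQ (mt xi ω) = k - r ∧ ¬ Sp P s (mt xi ω)), W P (mt xi ω) ^ q := by
  obtain ⟨m, rfl⟩ : ∃ m, k = m + r := ⟨k - r, by omega⟩
  have h := HoldDel622.del_count xi q hP (m + r) r m s
  have h1 : m + r - r = m := by omega
  rw [h1]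
  have h2 : (univ : Finset (Fin (m + r) → Fin (m + r) → Bool × Bool)).filter
      (fun ω => rkQ (mt xi ω) + r = m + r ∧ ¬ Sp P s (mt xi ω)) =
      (univ : Finset (Fin (m + r) → Fin (m + r) → Bool × Bool)).filter
      (fun ω => rkQ (mt xi ω) = m ∧ ¬ Sp P s (mt xi ω)) := by
    ext ω
    simp
  rw [h2]
  refine h.trans (le_of_eq ?_)
  have h3 : ((Fintype.card (Bool × Bool) : ℕ) : ℝ) = 4 := by
    rw [Fintype.card_prod, Fintype.card_bool]
    norm_num
  rw [h3, ← pow_mul, Nat.choose_symm_add]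

theorem W_nonneg (P : Finset ℕ) {k m : ℕ} (M : Matrix (Fin k) (Fin m) ℤ) : 0 ≤ W P M :=
  Finset.prod_nonneg fun p _ => by positivity

theorem xi_abs (b : Bool × Bool) : |xi b| ≤ 1 := by
  obtain ⟨a, b⟩ := b
  cases a <;> cases b <;> simp [xi]

theorem W_le (P : Finset ℕ) (hP : ∀ p ∈ P, p.Prime) {k : ℕ} (ω : Fin k → Fin k → Bool × Bool) :
    W P (mt xi ω) ≤ (k : ℝ) ^ k * (∏ p ∈ P, (p : ℝ)) ^ (2 * (k - rkQ (mt xi ω))) := by
  have h := HadN.weight_sq_le (mt xi ω) P hP (fun i j => xi_abs _)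
  have h1 : W P (mt xi ω) = (((∏ p ∈ P, p ^ (k - HadN.rP p (mt xi ω))) ^ 2 : ℕ) : ℝ) := by
    unfold W
    push_cast
    rw [← Finset.prod_pow]
    refine Finset.prod_congr rfl fun p _ => ?_
    rw [← pow_mul, mul_comm 2]
    rfl
  rw [h1]
  have h2 : (((∏ p ∈ P, p ^ (k - HadN.rP p (mt xi ω))) ^ 2 : ℕ) : ℝ) ≤
      (((∏ p ∈ P, p) ^ (2 * (k - HadN.rQ (mt xi ω))) * k ^ k : ℕ) : ℝ) := by exact_mod_cast h
  refine h2.trans (le_of_eq ?_)
  push_cast
  rw [mul_comm]
  rfl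

theorem card_seeds (k m : ℕ) : Fintype.card (Fin k → Fin m → Bool × Bool) = 4 ^ (k * m) := by
  rw [Fintype.card_fun, Fintype.card_fun, Fintype.card_prod, Fintype.card_bool, Fintype.card_fin,
    Fintype.card_fin, ← pow_mul, mul_comm m k]

theorem hold_of {β t : ℝ} {q : ℕ} (hq : 2 ≤ q) (hβ0 : 0 < β) (hβ5 : β ≤ 1 / 5) (ht0 : 0 < t)
    (ht1 : t < 1)
    (hβ : 2 * β < (1 - 1 / q) * Real.logb 2 (1 / t)) (hR : StmtRat t)
    (hB : StmtBadProb) (hM : StmtMom q β) : StmtHold β := by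
  classical
  intro δ b₁ B hδ hδ' hb₁ hB₁
  obtain ⟨C, k1, hC⟩ := hM δ b₁ B hδ hδ' hb₁ hB₁
  obtain ⟨k2, hk2⟩ := hB δ b₁ β B hδ (by linarith) hb₁ hβ0 hβ5 hB₁
  set γ : ℝ := Real.logb 2 (1 / t) with hγ
  have hγ0 : 0 < γ := Real.logb_pos (by norm_num) (by rw [lt_div_iff₀ ht0]; linarith)
  have htγ : t = (2 : ℝ) ^ (-γ) := by
    rw [hγ, Real.rpow_neg (by norm_num), Real.rpow_logb (by norm_num) (by norm_num) (by positivity)]
    field_simp
  have hq0 : (0 : ℝ) < q := by positivity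
  obtain ⟨k3, hk3⟩ := P5Q61.bad_sumq (c := 1 / 2 - 2 * δ) (C1 := max C 0) (C2 := 4) (A := 2)
    (β := β) (γ := γ) hq (by linarith) (le_max_right _ _) (by norm_num) (by norm_num) hβ0.le hβ
  obtain ⟨k4, hk4⟩ := P5Q61.big 0 (show (0 : ℝ) < γ / (400 * q) by positivity)
  refine ⟨max (max k1 k2) (max k3 k4), fun k hk P hAdm => ?_⟩
  have hk1' := (le_max_left _ _).trans ((le_max_left _ _).trans hk)
  have hk2' := (le_max_right _ _).trans ((le_max_left _ _).trans hk)
  have hk3' := (le_max_left _ _).trans ((le_max_right _ _).trans hk)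
  have hk4' := (le_max_right _ _).trans ((le_max_right _ _).trans hk)
  obtain ⟨hL0, hLk, hkk⟩ := hk4 k hk4'
  have hkpos : (0 : ℝ) < k := by exact_mod_cast hkk
  set s : ℝ := (k : ℝ) ^ (1 - δ / 4) with hs
  set Bd : Finset (Fin k → Fin k → Bool × Bool) := univ.filter
    (fun ω => Bad P s (mt xi ω) ∧ ¬ Sp P s (mt xi ω)) with hBd
  have hcard : ((Fintype.card (Fin k → Fin k → Bool × Bool) : ℕ) : ℝ) = (4 : ℝ) ^ (k * k) := by
    rw [card_seeds]
    push_cast
    ring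
  have hrk : ∀ ω : Fin k → Fin k → Bool × Bool, rkQ (mt xi ω) ≤ k := fun ω => by
    have := (((mt xi ω).map (Int.cast : ℤ → ℚ))).rank_le_width
    exact this
  have hN1 : (1 : ℝ) ≤ ∏ p ∈ P, (p : ℝ) := by
    have h : 1 ≤ ∏ p ∈ P, p := Nat.one_le_iff_ne_zero.2
      (Finset.prod_ne_zero_iff.2 fun p hp => (hAdm.pr p hp).ne_zero)
    calc (1 : ℝ) = ((1 : ℕ) : ℝ) := by norm_num
      _ ≤ ((∏ p ∈ P, p : ℕ) : ℝ) := Nat.cast_le.2 h
      _ = _ := by push_cast; rfl
  have hmain := hk3 k hk3' (Fin k → Fin k → Bool × Bool) (fun ω => W P (mt xi ω))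
    (fun ω => W_nonneg P _) (fun ω => k - rkQ (mt xi ω)) (fun ω => Nat.sub_le _ _) Bd
    (∏ p ∈ P, (p : ℝ)) hN1 hAdm.size ?_ ?_ (fun ω => W_le P hAdm.pr ω) ?_
  · rw [hcard] at hmain
    refine hmain.trans (le_of_eq ?_)
    congr 2
    ring
  · -- the moment
    intro r hr
    have hr' : (100 : ℝ) * r ≤ k := by
      have h1 : 4 * q / γ * Real.logb 2 k ≤ 4 * q / γ * (γ / (400 * q) * k) :=
        mul_le_mul_of_nonneg_left (by linarith) (by positivity)
      have h2 : 4 * q / γ * (γ / (400 * q) * k) = k / 100 := by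
        field_simp
        norm_num
      linarith
    have hr'' : 100 * r ≤ k := by exact_mod_cast hr'
    have hrk' : r ≤ k := by omega
    have h1 : ∑ ω ∈ Bd.filter (fun ω => k - rkQ (mt xi ω) = r), W P (mt xi ω) ^ q ≤
        ∑ ω ∈ (univ : Finset (Fin k → Fin k → Bool × Bool)).filter
          (fun ω => rkQ (mt xi ω) + r = k ∧ ¬ Sp P s (mt xi ω)), W P (mt xi ω) ^ q := by
      refine Finset.sum_le_sum_of_subset_of_nonneg ?_ fun ω _ _ => pow_nonneg (W_nonneg P _) _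
      intro ω hω
      have hω1 := Finset.mem_filter.1 hω
      have hω2 := (Finset.mem_filter.1 hω1.1).2
      refine Finset.mem_filter.2 ⟨Finset.mem_univ _, ?_, hω2.2⟩
      have := hrk ω
      have := hω1.2
      omega
    refine h1.trans ((del q k r hrk' P hAdm.pr s).trans ?_)
    have h2 := hC k hk1' (k - r) (Nat.sub_le _ _) (by omega) P hAdm
    have h3 : (k.choose r : ℝ) ≤ (k : ℝ) ^ r := by exact_mod_cast Nat.choose_le_pow k r
    have h0 : 0 ≤ ∏ p ∈ P, (p : ℝ) := by linarith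
    calc _ ≤ (k : ℝ) ^ r * (∏ p ∈ P, (p : ℝ)) ^ (2 * r * q) * (4 : ℝ) ^ (k * r) *
          ((2 : ℝ) ^ (C * k) * (4 : ℝ) ^ (k * (k - r))) := by
            refine mul_le_mul ?_ h2 (Finset.sum_nonneg fun ω _ => pow_nonneg (W_nonneg P _) _)
              (by positivity)
            gcongr
      _ ≤ (k : ℝ) ^ r * (∏ p ∈ P, (p : ℝ)) ^ (2 * r * q) * (4 : ℝ) ^ (k * r) *
          ((2 : ℝ) ^ (max C 0 * k) * (4 : ℝ) ^ (k * (k - r))) := by
            gcongr
            · norm_num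
            · exact le_max_left _ _
      _ = (k : ℝ) ^ r * (∏ p ∈ P, (p : ℝ)) ^ (2 * q * r) * (2 : ℝ) ^ (max C 0 * k) *
          ((4 : ℝ) ^ (k * r) * (4 : ℝ) ^ (k * (k - r))) := by
            rw [show 2 * q * r = 2 * r * q by ring]
            ring
      _ = _ := by
            rw [← pow_add, ← mul_add, Nat.add_sub_cancel' hrk', hcard]
  · -- the rational rank
    intro r hr1
    rcases le_or_gt r k with hrk' | hrk'
    · have h1 := hR k r hr1 hrk'
      have h2 : ((Bd.filter (fun ω => k - rkQ (mt xi ω) = r)).card : ℝ) ≤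
          (Nat.card {ω : Fin k → Fin k → Bool × Bool // r ≤ k - rkQ (mt xi ω)} : ℝ) := by
        rw [Nat.card_eq_fintype_card, Fintype.card_subtype]
        refine Nat.cast_le.2 (Finset.card_le_card ?_)
        intro ω hω
        exact Finset.mem_filter.2 ⟨Finset.mem_univ _, (Finset.mem_filter.1 hω).2.ge⟩
      refine (h2.trans h1).trans (le_of_eq_of_le rfl ?_)
      rw [hcard]
      refine mul_le_mul_of_nonneg_right ?_ (by positivity)
      have h3 : t ^ (r * k) = (2 : ℝ) ^ (-(γ * (k * r))) := by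
        rw [htγ, ← Real.rpow_natCast, ← Real.rpow_mul (by norm_num)]
        congr 1
        push_cast
        ring
      have h4 : (k : ℝ) ^ 2 ≤ (2 : ℝ) ^ (2 * (k : ℝ)) := by
        have h5 : (k : ℝ) ≤ (2 : ℝ) ^ (k : ℝ) := by
          rw [Real.rpow_natCast]
          exact_mod_cast Nat.lt_two_pow_self.le
        calc (k : ℝ) ^ 2 ≤ ((2 : ℝ) ^ (k : ℝ)) ^ 2 := pow_le_pow_left₀ hkpos.le h5 2
          _ = _ := by
            rw [← Real.rpow_natCast, ← Real.rpow_mul (by norm_num)]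
            congr 1
            push_cast
            ring
      have h5 : (2 : ℝ) ^ (2 * k + 2 * r : ℕ) = (2 : ℝ) ^ (2 * (k : ℝ) + 2 * r) := by
        rw [← Real.rpow_natCast]
        congr 1
        push_cast
        ring
      rw [h3, h5]
      calc (k : ℝ) ^ 2 * (2 : ℝ) ^ (2 * (k : ℝ) + 2 * r) * (2 : ℝ) ^ (-(γ * (k * r)))
          ≤ (2 : ℝ) ^ (2 * (k : ℝ)) * (2 : ℝ) ^ (2 * (k : ℝ) + 2 * r) *
            (2 : ℝ) ^ (-(γ * (k * r))) := by gcongr
        _ = _ := by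
          rw [← Real.rpow_add (by norm_num), ← Real.rpow_add (by norm_num)]
          congr 1
          ring
    · have h1 : Bd.filter (fun ω => k - rkQ (mt xi ω) = r) = ∅ := by
        refine Finset.filter_eq_empty_iff.2 fun ω _ => ?_
        have := Nat.sub_le k (rkQ (mt xi ω))
        omega
      rw [h1]
      simp only [Finset.card_empty, Nat.cast_zero]
      positivity
  · -- the bad probability
    have h1 := hk2 k hk2' P hAdm
    have h2 : (Bd.card : ℝ) ≤
        (Nat.card {ω : Fin k → Fin k → Bool × Bool // Bad P s (mt xi ω)} : ℝ) := by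
      rw [Nat.card_eq_fintype_card, Fintype.card_subtype]
      refine Nat.cast_le.2 (Finset.card_le_card ?_)
      intro ω hω
      exact Finset.mem_filter.2 ⟨Finset.mem_univ _, (Finset.mem_filter.1 hω).2.1⟩
    refine (h2.trans h1).trans (le_of_eq ?_)
    rw [hcard]
    congr 1
    have h3 : ∀ x : ℝ, (k : ℝ) ^ x = (2 : ℝ) ^ (Real.logb 2 k * x) := by
      intro x
      rw [Real.rpow_mul (by norm_num), Real.rpow_logb (by norm_num) (by norm_num) hkpos]
    rw [h3]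
    congr 1
    ring

theorem logb_three_four : 3 / 8 < Real.logb 2 (1 / (3 / 4 : ℝ)) := by
  rw [Real.lt_logb_iff_rpow_lt (by norm_num) (by norm_num)]
  have h : ((2 : ℝ) ^ (3 / 8 : ℝ)) ^ 8 < (1 / (3 / 4 : ℝ)) ^ 8 := by
    rw [← Real.rpow_natCast, ← Real.rpow_mul (by norm_num)]
    norm_num
  exact lt_of_pow_lt_pow_left₀ 8 (by norm_num) h

theorem logb_three_four' : 2 / 5 < Real.logb 2 (1 / (3 / 4 : ℝ)) := by
  rw [Real.lt_logb_iff_rpow_lt (by norm_num) (by norm_num)]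
  have h : ((2 : ℝ) ^ (2 / 5 : ℝ)) ^ 5 < (1 / (3 / 4 : ℝ)) ^ 5 := by
    rw [← Real.rpow_natCast, ← Real.rpow_mul (by norm_num)]
    norm_num
  exact lt_of_pow_lt_pow_left₀ 5 (by norm_num) h

/-- the official form: sixth moment, `β ≤ 1/8` -/
theorem hold {β : ℝ} (hβ0 : 0 < β) (hβ : β ≤ 1 / 8) (hR : StmtRat (3 / 4)) (hB : StmtBadProb)
    (hM : StmtMom 3 β) : StmtHold β := by
  refine hold_of (q := 3) (t := 3 / 4) (by norm_num) hβ0 (by linarith) (by norm_num) (by norm_num)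
    ?_ hR hB hM
  have := logb_three_four
  push_cast
  linarith

/-- fourth moment, `β ≤ 1/10` -/
theorem hold2 {β : ℝ} (hβ0 : 0 < β) (hβ : β ≤ 1 / 10) (hR : StmtRat (3 / 4)) (hB : StmtBadProb)
    (hM : StmtMom 2 β) : StmtHold β := by
  refine hold_of (q := 2) (t := 3 / 4) le_rfl hβ0 (by linarith) (by norm_num) (by norm_num)
    ?_ hR hB hM
  have := logb_three_four'
  push_cast
  linarith

/-- eighth moment with the rank rate `2^{-1/3}`, `β < 1/8` -/
theorem hold4 {β : ℝ} (hβ0 : 0 < β) (hβ : β < 1 / 8) (hR : StmtRat ((2 : ℝ) ^ (-(1 / 3 : ℝ))))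
    (hB : StmtBadProb) (hM : StmtMom 4 β) : StmtHold β := by
  have h1 : (2 : ℝ) ^ (-(1 / 3 : ℝ)) < 1 :=
    Real.rpow_lt_one_of_one_lt_of_neg (by norm_num) (by norm_num)
  refine hold_of (q := 4) (t := (2 : ℝ) ^ (-(1 / 3 : ℝ))) (by norm_num) hβ0 (by linarith)
    (by positivity) h1 ?_ hR hB hM
  have h2 : Real.logb 2 (1 / (2 : ℝ) ^ (-(1 / 3 : ℝ))) = 1 / 3 := by
    rw [one_div, ← Real.rpow_neg (by norm_num), neg_neg, Real.logb_rpow (by norm_num) (by norm_num)]
  rw [h2]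
  push_cast
  linarith

end Vale.Agent.P160.Half.Hold61
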