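import Vale.Agent.P160.Half.HoldDel622
import Vale.Agent.P160.Half.HadN

/-!
# P160/Half: `StmtHold` for general moment `q` and general rank rate `2 ^ (-γ)`

`hold_gen : StmtRat (2 ^ (-γ)) → StmtBadProb → StmtMomE η q β → StmtHold β` for `2 β < (1 - 1/q) γ`.
-/

set_option linter.unusedSectionVars false

namespace Vale.Agent.P160.Half.HoldGen691

open Finset M67 Matrix HoldDel622

open scoped Classical in
/-- `StmtMom` with `(1 - η) k ≤ m` -/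
def StmtMomE (η : ℝ) (q : ℕ) (β : ℝ) : Prop := ∀ δ b₁ B : ℝ, 0 < δ → δ ≤ 1 / 100 → 1 ≤ b₁ →
  b₁ ≤ B → ∃ (C : ℝ) (k₀ : ℕ), ∀ k ≥ k₀, ∀ m : ℕ,
  m ≤ k → (1 - η) * k ≤ m → ∀ P : Finset ℕ, Adm b₁ β B k P →
  ∑ ω ∈ (univ : Finset (Fin k → Fin m → Bool × Bool)).filter
      (fun ω => rkQ (mt xi ω) = m ∧ ¬ Sp P ((k : ℝ) ^ (1 - δ / 4)) (mt xi ω)), W P (mt xi ω) ^ q ≤
    (2 : ℝ) ^ (C * k) * (4 : ℝ) ^ (k * m)

theorem momE_of_mom {q : ℕ} {β : ℝ} (h : StmtMom q β) : StmtMomE (1 / 100) q β := by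
  intro δ b₁ B h1 h2 h3 h4
  obtain ⟨C, k₀, h5⟩ := h δ b₁ B h1 h2 h3 h4
  refine ⟨C, k₀, fun k hk m hm hm' P hP => h5 k hk m hm ?_ P hP⟩
  have h6 : (99 : ℝ) * k ≤ 100 * m := by linarith
  exact_mod_cast h6

theorem young {w lam : ℝ} (hw : 0 ≤ w) (hl : 0 < lam) {q : ℕ} (hq : 1 ≤ q) :
    w ≤ lam + w ^ q / lam ^ (q - 1) := by
  rcases le_total w lam with h | h
  · have : 0 ≤ w ^ q / lam ^ (q - 1) := by positivity
    linarith
  · have h1 : lam ^ (q - 1) ≤ w ^ (q - 1) := pow_le_pow_left₀ hl.le h _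
    have h2 : w ≤ w ^ q / lam ^ (q - 1) := by
      rw [le_div_iff₀ (by positivity)]
      calc w * lam ^ (q - 1) ≤ w * w ^ (q - 1) := mul_le_mul_of_nonneg_left h1 hw
        _ = w ^ q := by rw [← pow_succ']; congr 1; omega
    linarith

theorem sum_young {Ω : Type*} (A : Finset Ω) (f : Ω → ℝ) (hf : ∀ ω, 0 ≤ f ω) {q : ℕ} (hq : 1 ≤ q)
    {a b lam : ℝ} (hl : 0 < lam) (ha : (A.card : ℝ) ≤ a) (hb : ∑ ω ∈ A, f ω ^ q ≤ b) :
    ∑ ω ∈ A, f ω ≤ lam * a + b / lam ^ (q - 1) := by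
  calc ∑ ω ∈ A, f ω ≤ ∑ ω ∈ A, (lam + f ω ^ q / lam ^ (q - 1)) :=
        sum_le_sum fun ω _ => young (hf ω) hl hq
    _ = A.card * lam + (∑ ω ∈ A, f ω ^ q) / lam ^ (q - 1) := by
        rw [sum_add_distrib, sum_const, nsmul_eq_mul, ← sum_div]
    _ ≤ a * lam + b / lam ^ (q - 1) := by gcongr
    _ = _ := by ring

theorem W_hadamard {P : Finset ℕ} (hP : ∀ p ∈ P, p.Prime) {k : ℕ}
    (M : Matrix (Fin k) (Fin k) ℤ) (h1 : ∀ i j, |M i j| ≤ 1) :
    W P M ≤ (∏ p ∈ P, (p : ℝ)) ^ (2 * (k - rkQ M)) * (k : ℝ) ^ k := by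
  have h := HadN.weight_sq_le M P hP h1
  have h2 : ((∏ p ∈ P, p ^ (k - HadN.rP p M) : ℕ) : ℝ) ^ 2 ≤
      ((∏ p ∈ P, p : ℕ) : ℝ) ^ (2 * (k - HadN.rQ M)) * (k : ℝ) ^ k := by exact_mod_cast h
  have h3 : W P M = ((∏ p ∈ P, p ^ (k - HadN.rP p M) : ℕ) : ℝ) ^ 2 := by
    unfold W
    push_cast
    rw [← Finset.prod_pow]
    refine Finset.prod_congr rfl fun p _ => ?_
    rw [← pow_mul, mul_comm 2]
    rfl
  rw [h3]
  refine h2.trans (le_of_eq ?_)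
  push_cast
  rfl

theorem xi_abs (b : Bool × Bool) : |xi b| ≤ 1 := by
  unfold xi
  rcases b with ⟨b1, b2⟩
  cases b1 <;> cases b2 <;> simp

open scoped Classical in
/-- moment bound at rational corank `r` -/
theorem moment_r {q : ℕ} {β C : ℝ} {b₁ B : ℝ} {σ : ℝ} (hβ : 0 < β) (m r : ℕ) (P : Finset ℕ)
    (hP : Adm b₁ β B (m + r) P)
    (hM : ∑ ω ∈ (univ : Finset (Fin (m + r) → Fin m → Bool × Bool)).filter
      (fun ω => rkQ (mt xi ω) = m ∧ ¬ Sp P σ (mt xi ω)), W P (mt xi ω) ^ q ≤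
        (2 : ℝ) ^ (C * ((m + r : ℕ) : ℝ)) * (4 : ℝ) ^ ((m + r) * m)) :
    ∑ ω ∈ (univ : Finset (Fin (m + r) → Fin (m + r) → Bool × Bool)).filter
      (fun ω => rkQ (mt xi ω) = m ∧ ¬ Sp P σ (mt xi ω)), W P (mt xi ω) ^ q ≤
      (2 : ℝ) ^ ((1 + C) * ((m + r : ℕ) : ℝ) + 2 * β * q * r * ((m + r : ℕ) : ℝ)) *
        (4 : ℝ) ^ ((m + r) * (m + r)) := by
  set k := m + r with hk
  have h := del_count xi q (P := P) hP.pr k r m σ
  refine h.trans ?_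
  have hc : (Fintype.card (Bool × Bool) : ℝ) = 4 := by
    rw [Fintype.card_prod, Fintype.card_bool]; norm_num
  rw [hc]
  set N : ℝ := ∏ p ∈ P, (p : ℝ) with hN
  have hN0 : 0 ≤ N := Finset.prod_nonneg fun p _ => by positivity
  have hNs : N ≤ (2 : ℝ) ^ (β * k) := hP.size
  have h1 : ((m + r).choose m : ℝ) ≤ (2 : ℝ) ^ (k : ℝ) := by
    rw [Real.rpow_natCast]
    exact_mod_cast Nat.choose_le_two_pow (m + r) m
  have h2 : (N ^ (2 * r)) ^ q ≤ (2 : ℝ) ^ (2 * β * q * r * k) := by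
    rw [← pow_mul]
    refine (pow_le_pow_left₀ hN0 hNs _).trans (le_of_eq ?_)
    rw [← Real.rpow_natCast, ← Real.rpow_mul (by norm_num)]
    congr 1
    push_cast
    ring
  calc ((m + r).choose m : ℝ) * (N ^ (2 * r)) ^ q * (4 : ℝ) ^ (k * r) * _
      ≤ (2 : ℝ) ^ (k : ℝ) * (2 : ℝ) ^ (2 * β * q * r * k) * (4 : ℝ) ^ (k * r) *
          ((2 : ℝ) ^ (C * (k : ℝ)) * (4 : ℝ) ^ (k * m)) := by
        refine mul_le_mul (mul_le_mul_of_nonneg_right (mul_le_mul h1 h2 (by positivity)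
          (by positivity)) (by positivity)) hM ?_ (by positivity)
        exact Finset.sum_nonneg fun ω _ => pow_nonneg (W_nonneg _ _) _
    _ = (2 : ℝ) ^ ((1 + C) * (k : ℝ) + 2 * β * q * r * k) * (4 : ℝ) ^ (k * k) := by
        have e1 : (2 : ℝ) ^ ((1 + C) * (k : ℝ) + 2 * β * q * r * k) =
            (2 : ℝ) ^ (k : ℝ) * (2 : ℝ) ^ (2 * β * q * r * k) * (2 : ℝ) ^ (C * (k : ℝ)) := by
          rw [← Real.rpow_add (by norm_num), ← Real.rpow_add (by norm_num)]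
          congr 1
          ring
        have e2 : (4 : ℝ) ^ (k * k) = (4 : ℝ) ^ (k * r) * (4 : ℝ) ^ (k * m) := by
          rw [← pow_add]
          congr 1
          rw [hk]
          ring
        rw [e1, e2]
        ring

/-- the two-term estimate in exponents -/
theorem two_terms {k : ℕ} {T S a b x u v : ℝ} {q : ℕ} (hT : 0 ≤ T) (hS : S ≤ (2 : ℝ) ^ x * a + b /
    ((2 : ℝ) ^ x) ^ (q - 1)) (hq : 1 ≤ q) (ha : a ≤ (2 : ℝ) ^ u * T) (hb : b ≤ (2 : ℝ) ^ v * T)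
    (h1 : x + u ≤ -4 * k) (h2 : v - (q - 1) * x ≤ -4 * k) :
    S ≤ 2 * ((2 : ℝ) ^ (-4 * (k : ℝ)) * T) := by
  have e1 : (2 : ℝ) ^ x * a ≤ (2 : ℝ) ^ (-4 * (k : ℝ)) * T := by
    calc (2 : ℝ) ^ x * a ≤ (2 : ℝ) ^ x * ((2 : ℝ) ^ u * T) := by gcongr
      _ = (2 : ℝ) ^ (x + u) * T := by rw [Real.rpow_add (by norm_num)]; ring
      _ ≤ _ := by
        refine mul_le_mul_of_nonneg_right ?_ hT
        exact Real.rpow_le_rpow_of_exponent_le (by norm_num) h1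
  have e2 : b / ((2 : ℝ) ^ x) ^ (q - 1) ≤ (2 : ℝ) ^ (-4 * (k : ℝ)) * T := by
    have e3 : ((2 : ℝ) ^ x) ^ (q - 1) = (2 : ℝ) ^ ((q - 1 : ℝ) * x) := by
      rw [← Real.rpow_natCast, ← Real.rpow_mul (by norm_num), Nat.cast_sub hq]
      congr 1
      push_cast
      ring
    rw [e3, div_le_iff₀ (by positivity)]
    calc b ≤ (2 : ℝ) ^ v * T := hb
      _ ≤ (2 : ℝ) ^ (-4 * (k : ℝ) + (q - 1 : ℝ) * x) * T := by
        refine mul_le_mul_of_nonneg_right ?_ hT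
        exact Real.rpow_le_rpow_of_exponent_le (by norm_num) (by linarith)
      _ = _ := by rw [Real.rpow_add (by norm_num)]; ring
  linarith

/-- asymptotic facts about `L = log₂ k` -/
theorem large (A c : ℝ) (hc : 0 < c) : ∃ k₀ : ℕ, ∀ k ≥ k₀, 1 ≤ k ∧ A ≤ Real.logb 2 k ∧
    Real.logb 2 k + 1 ≤ c * k := by
  have h1 : ∀ᶠ k : ℕ in Filter.atTop, A ≤ Real.logb 2 (k : ℝ) :=
    ((Real.tendsto_logb_atTop (by norm_num : (1 : ℝ) < 2)).comp
      tendsto_natCast_atTop_atTop).eventually_ge_atTop A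
  have h2 : ∀ᶠ k : ℕ in Filter.atTop, Real.logb 2 (k : ℝ) + 1 ≤ c * k := by
    have h3 := (Real.isLittleO_log_id_atTop.comp_tendsto
      (tendsto_natCast_atTop_atTop (R := ℝ))).def (show 0 < c / 2 * Real.log 2 by positivity)
    have h4 : ∀ᶠ k : ℕ in Filter.atTop, 2 / c ≤ (k : ℝ) :=
      tendsto_natCast_atTop_atTop.eventually_ge_atTop _
    filter_upwards [h3, h4, Filter.eventually_ge_atTop 1] with k h5 h6 h7
    have hk : (1 : ℝ) ≤ k := by exact_mod_cast h7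
    simp only [Function.comp, id, Real.norm_eq_abs] at h5
    rw [abs_of_nonneg (Real.log_nonneg hk), abs_of_nonneg (by linarith)] at h5
    have h8 : Real.logb 2 k ≤ c / 2 * k := by
      rw [Real.logb, div_le_iff₀ (Real.log_pos (by norm_num))]
      calc Real.log k ≤ c / 2 * Real.log 2 * k := h5
        _ = _ := by ring
    have h9 : 1 ≤ c / 2 * k := by
      rw [div_le_iff₀ hc] at h6
      linarith
    linarith
  obtain ⟨k₀, h⟩ := ((h1.and h2).and (Filter.eventually_ge_atTop 1)).exists_forall_of_atTop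
  exact ⟨k₀, fun k hk => ⟨(h k hk).2, (h k hk).1.1, (h k hk).1.2⟩⟩


open scoped Classical in
/-- number of matrices of corank `r` -/
theorem card_le {γ : ℝ} (hγ : 0 < γ) (hR : StmtRat ((2 : ℝ) ^ (-γ))) {k r : ℕ} (hk1 : 1 ≤ k)
    (hrk : r ≤ k) (A : Finset (Fin k → Fin k → Bool × Bool))
    (hA : ∀ ω ∈ A, k - rkQ (mt xi ω) = r) :
    (A.card : ℝ) ≤ (2 : ℝ) ^ (6 * (k : ℝ) - γ * r * k) * (4 : ℝ) ^ (k * k) := by
  have hkR : (1 : ℝ) ≤ k := by exact_mod_cast hk1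
  have hk0 : (0 : ℝ) < k := by linarith
  set T : ℝ := (4 : ℝ) ^ (k * k) with hT
  have hT0 : 0 < T := by positivity
  rcases Nat.eq_zero_or_pos r with h0 | hr
  · have h1 : (A.card : ℝ) ≤ T := by
      refine (Nat.cast_le.2 (Finset.card_le_univ _)).trans (le_of_eq ?_)
      rw [Fintype.card_fun, Fintype.card_fun, Fintype.card_prod, Fintype.card_bool,
        Fintype.card_fin, ← pow_mul]
      push_cast
      norm_num [hT]
    refine h1.trans ?_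
    rw [h0]
    have h2 : (1 : ℝ) ≤ (2 : ℝ) ^ (6 * (k : ℝ) - γ * ((0 : ℕ) : ℝ) * k) := by
      apply Real.one_le_rpow (by norm_num)
      push_cast
      nlinarith
    nlinarith
  · have h1 := hR k r hr hrk
    have h2 : (A.card : ℝ) ≤
        (Nat.card {ω : Fin k → Fin k → Bool × Bool // r ≤ k - rkQ (mt xi ω)} : ℝ) := by
      rw [Nat.card_eq_fintype_card, Fintype.card_subtype]
      refine Nat.cast_le.2 (Finset.card_le_card fun ω hω => ?_)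
      rw [Finset.mem_filter]
      exact ⟨mem_univ _, (hA ω hω).ge⟩
    refine (h2.trans h1).trans ?_
    refine mul_le_mul_of_nonneg_right ?_ hT0.le
    have e1 : (k : ℝ) ^ 2 ≤ (2 : ℝ) ^ (2 * (k : ℝ)) := by
      have h3 : k ^ 2 ≤ 2 ^ (2 * k) := by
        calc k ^ 2 ≤ (2 ^ k) ^ 2 := Nat.pow_le_pow_left Nat.lt_two_pow_self.le 2
          _ = 2 ^ (2 * k) := by rw [← pow_mul, mul_comm]
      have h5 : (2 : ℝ) ^ (2 * (k : ℝ)) = ((2 ^ (2 * k) : ℕ) : ℝ) := by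
        push_cast
        rw [← Real.rpow_natCast]
        congr 1
        push_cast
        ring
      rw [h5]
      exact_mod_cast h3
    have e2 : (2 : ℝ) ^ (2 * k + 2 * r) ≤ (2 : ℝ) ^ (4 * (k : ℝ)) := by
      rw [← Real.rpow_natCast]
      apply Real.rpow_le_rpow_of_exponent_le (by norm_num)
      push_cast
      have : (r : ℝ) ≤ k := by exact_mod_cast hrk
      linarith
    have e3 : ((2 : ℝ) ^ (-γ)) ^ (r * k) = (2 : ℝ) ^ (-(γ * r * k)) := by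
      rw [← Real.rpow_natCast, ← Real.rpow_mul (by norm_num)]
      congr 1
      push_cast
      ring
    rw [e3]
    calc (k : ℝ) ^ 2 * (2 : ℝ) ^ (2 * k + 2 * r) * (2 : ℝ) ^ (-(γ * r * k))
        ≤ (2 : ℝ) ^ (2 * (k : ℝ)) * (2 : ℝ) ^ (4 * (k : ℝ)) * (2 : ℝ) ^ (-(γ * r * k)) := by
          gcongr
      _ = (2 : ℝ) ^ (6 * (k : ℝ) - γ * r * k) := by
          rw [← Real.rpow_add (by norm_num), ← Real.rpow_add (by norm_num)]
          congr 1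
          ring

open scoped Classical in
/-- the moment bound on a set of matrices of corank `r` -/
theorem mom_le {q : ℕ} {β C b₁ B σ : ℝ} (hβ : 0 < β) {k m r : ℕ} (hm : k = m + r) (P : Finset ℕ)
    (hP : Adm b₁ β B k P)
    (hM : ∑ ω ∈ (univ : Finset (Fin k → Fin m → Bool × Bool)).filter
      (fun ω => rkQ (mt xi ω) = m ∧ ¬ Sp P σ (mt xi ω)), W P (mt xi ω) ^ q ≤
        (2 : ℝ) ^ (C * (k : ℝ)) * (4 : ℝ) ^ (k * m))
    (A : Finset (Fin k → Fin k → Bool × Bool))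
    (hA : ∀ ω ∈ A, k - rkQ (mt xi ω) = r ∧ ¬ Sp P σ (mt xi ω)) :
    ∑ ω ∈ A, W P (mt xi ω) ^ q ≤
      (2 : ℝ) ^ ((1 + |C|) * (k : ℝ) + 2 * β * q * r * k) * (4 : ℝ) ^ (k * k) := by
  have h2 : ∑ ω ∈ A, W P (mt xi ω) ^ q ≤
      ∑ ω ∈ (univ : Finset (Fin k → Fin k → Bool × Bool)).filter
        (fun ω => rkQ (mt xi ω) = m ∧ ¬ Sp P σ (mt xi ω)), W P (mt xi ω) ^ q := by
    refine Finset.sum_le_sum_of_subset_of_nonneg (fun ω hω => ?_)
      fun ω _ _ => pow_nonneg (W_nonneg _ _) _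
    rw [Finset.mem_filter]
    have hle : rkQ (mt xi ω) ≤ k := by
      have := ((mt xi ω).map (Int.cast : ℤ → ℚ)).rank_le_width
      exact this
    obtain ⟨h3, h4⟩ := hA ω hω
    refine ⟨mem_univ _, ?_, h4⟩
    omega
  refine h2.trans ?_
  have h3 : (2 : ℝ) ^ (C * (k : ℝ)) * (4 : ℝ) ^ (k * m) ≤
      (2 : ℝ) ^ (|C| * (k : ℝ)) * (4 : ℝ) ^ (k * m) := by
    refine mul_le_mul_of_nonneg_right ?_ (by positivity)
    apply Real.rpow_le_rpow_of_exponent_le (by norm_num)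
    exact mul_le_mul_of_nonneg_right (le_abs_self C) (Nat.cast_nonneg k)
  have h4 := hM.trans h3
  subst hm
  exact moment_r hβ m r P hP h4

/-- Hadamard bound for the weight at corank `r` -/
theorem W_le {β b₁ B L : ℝ} {k r : ℕ} (P : Finset ℕ) (hP : Adm b₁ β B k P)
    (hkL : (2 : ℝ) ^ L = k) (ω : Fin k → Fin k → Bool × Bool) (hr : k - rkQ (mt xi ω) = r) :
    W P (mt xi ω) ≤ (2 : ℝ) ^ (2 * β * r * k + k * L) := by
  refine (W_hadamard hP.pr (mt xi ω) (fun i j => xi_abs _)).trans ?_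
  rw [hr]
  have hN0 : 0 ≤ ∏ p ∈ P, (p : ℝ) := Finset.prod_nonneg fun p _ => by positivity
  have e1 : (∏ p ∈ P, (p : ℝ)) ^ (2 * r) ≤ (2 : ℝ) ^ (2 * β * r * k) := by
    refine (pow_le_pow_left₀ hN0 hP.size _).trans (le_of_eq ?_)
    rw [← Real.rpow_natCast, ← Real.rpow_mul (by norm_num)]
    congr 1
    push_cast
    ring
  have e2 : (k : ℝ) ^ k = (2 : ℝ) ^ (k * L) := by
    calc (k : ℝ) ^ k = ((2 : ℝ) ^ L) ^ k := by rw [hkL]
      _ = (2 : ℝ) ^ (k * L) := by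
        rw [← Real.rpow_natCast, ← Real.rpow_mul (by norm_num), mul_comm]
  rw [Real.rpow_add (by norm_num), e2]
  exact mul_le_mul_of_nonneg_right e1 (by positivity)

/-- few dependent columns -/
theorem range1 {k r r₀ q : ℕ} {β C CA L T S a b : ℝ} (hβ : 0 < β) (hq : 2 ≤ q)
    (hT : 0 ≤ T) (hS : S ≤ (2 : ℝ) ^ (2 / 5 * (k : ℝ) * L) * a + b /
      ((2 : ℝ) ^ (2 / 5 * (k : ℝ) * L)) ^ (q - 1))
    (ha : a ≤ (2 : ℝ) ^ (-(12 / 25) * (k : ℝ) * L) * T)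
    (hb : b ≤ (2 : ℝ) ^ ((1 + |C|) * (k : ℝ) + 2 * β * q * r * k) * T)
    (hL60 : 60 ≤ L) (hCA : CA = 1 + |C| + 2 * β * q * r₀) (hLCA : CA + 4 ≤ 2 / 5 * L)
    (hr0 : r < r₀) : S ≤ 2 * ((2 : ℝ) ^ (-4 * (k : ℝ)) * T) := by
  have hk0 : (0 : ℝ) ≤ k := Nat.cast_nonneg k
  have hqR : (2 : ℝ) ≤ q := by exact_mod_cast hq
  refine two_terms (k := k) (q := q) hT hS (by omega) ha hb ?_ ?_
  · have h7 : 60 * (k : ℝ) ≤ L * k := mul_le_mul_of_nonneg_right hL60 hk0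
    linarith [mul_comm L (k : ℝ)]
  · have h1 : (r : ℝ) ≤ r₀ := by exact_mod_cast hr0.le
    have h2 : 2 * β * q * r * k ≤ 2 * β * q * r₀ * k := by gcongr
    have h3 : (1 : ℝ) * (2 / 5 * (k : ℝ) * L) ≤ (q - 1) * (2 / 5 * (k : ℝ) * L) := by
      apply mul_le_mul_of_nonneg_right (by linarith) (by positivity)
    have h4 : (CA + 4) * k ≤ 2 / 5 * L * k := mul_le_mul_of_nonneg_right hLCA hk0
    rw [hCA] at h4
    have h5 : 2 / 5 * L * k = 2 / 5 * (k : ℝ) * L := by ring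
    rw [h5] at h4
    have h6 : (1 + |C| + 2 * β * q * r₀ + 4) * (k : ℝ) =
      (1 + |C|) * k + 2 * β * q * r₀ * k + 4 * k := by ring
    rw [h6] at h4
    linarith

/-- bounded or logarithmic number of dependent columns -/
theorem range2 {k r r₀ q : ℕ} {β γ y C T S a b : ℝ} (hq : 2 ≤ q)
    (hT : 0 ≤ T) (hS : S ≤ (2 : ℝ) ^ (y * r * k) * a + b / ((2 : ℝ) ^ (y * r * k)) ^ (q - 1))
    (ha : a ≤ (2 : ℝ) ^ (6 * (k : ℝ) - γ * r * k) * T)
    (hb : b ≤ (2 : ℝ) ^ ((1 + |C|) * (k : ℝ) + 2 * β * q * r * k) * T)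
    (hg1 : 0 ≤ γ - y) (hg2 : 0 ≤ (q - 1) * y - 2 * β * q)
    (hr₀1 : 10 ≤ (γ - y) * r₀) (hr₀2 : 5 + |C| ≤ ((q - 1) * y - 2 * β * q) * r₀)
    (hr0 : r₀ ≤ r) : S ≤ 2 * ((2 : ℝ) ^ (-4 * (k : ℝ)) * T) := by
  have hk0 : (0 : ℝ) ≤ k := Nat.cast_nonneg k
  have hrR : (r₀ : ℝ) ≤ r := by exact_mod_cast hr0
  refine two_terms (k := k) (q := q) hT hS (by omega) ha hb ?_ ?_
  · have h1 : 10 ≤ (γ - y) * r := hr₀1.trans (mul_le_mul_of_nonneg_left hrR hg1)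
    have h2 : 10 * (k : ℝ) ≤ (γ - y) * r * k := mul_le_mul_of_nonneg_right h1 hk0
    have h3 : (γ - y) * r * k = γ * r * k - y * r * k := by ring
    rw [h3] at h2
    linarith
  · have h1 : 5 + |C| ≤ ((q - 1) * y - 2 * β * q) * r :=
      hr₀2.trans (mul_le_mul_of_nonneg_left hrR hg2)
    have h2 : (5 + |C|) * (k : ℝ) ≤ ((q - 1) * y - 2 * β * q) * r * k :=
      mul_le_mul_of_nonneg_right h1 hk0
    have h3 : ((q - 1) * y - 2 * β * q) * r * k =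
      (q - 1) * (y * r * k) - 2 * β * q * r * k := by ring
    rw [h3] at h2
    linarith

/-- many dependent columns -/
theorem range3 {k r : ℕ} {β γ L T S : ℝ} (hT : 0 ≤ T)
    (hS : S ≤ (2 : ℝ) ^ (2 * β * r * k + k * L) * ((2 : ℝ) ^ (6 * (k : ℝ) - γ * r * k) * T))
    (hγβ : 0 < γ - 2 * β) (hL60 : 60 ≤ L) (hr : 2 / (γ - 2 * β) * L < r) :
    S ≤ 2 * ((2 : ℝ) ^ (-4 * (k : ℝ)) * T) := by
  have hk0 : (0 : ℝ) ≤ k := Nat.cast_nonneg k
  refine hS.trans ?_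
  rw [← mul_assoc, ← Real.rpow_add (by norm_num)]
  have h2 : (2 : ℝ) ^ (2 * β * r * k + k * L + (6 * (k : ℝ) - γ * r * k)) ≤
      (2 : ℝ) ^ (-4 * (k : ℝ)) := by
    apply Real.rpow_le_rpow_of_exponent_le (by norm_num)
    have h3 : 2 * L ≤ (γ - 2 * β) * r := by
      have h4 := mul_le_mul_of_nonneg_right hr.le hγβ.le
      have h5 : 2 / (γ - 2 * β) * L * (γ - 2 * β) = 2 * L := by field_simp
      linarith
    have h6 : 2 * L * k ≤ (γ - 2 * β) * r * k := mul_le_mul_of_nonneg_right h3 hk0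
    have h7 : 60 * (k : ℝ) ≤ L * k := mul_le_mul_of_nonneg_right hL60 hk0
    have h8 : (γ - 2 * β) * r * k = γ * r * k - 2 * β * r * k := by ring
    have h9 : (k : ℝ) * L = L * k := mul_comm _ _
    linarith
  have h4 := mul_le_mul_of_nonneg_right h2 hT
  have h3 : 0 ≤ (2 : ℝ) ^ (-4 * (k : ℝ)) * T := by positivity
  linarith

open scoped Classical in
/-- the bound for one value of the corank -/
theorem per_r (q : ℕ) {γ β η δ b₁ B C y CA L σ : ℝ} {r₀ k r : ℕ} (hq : 2 ≤ q) (hβ : 0 < β)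
    (hη : 0 < η) (hδ' : δ ≤ 1 / 100)
    (hR : StmtRat ((2 : ℝ) ^ (-γ))) (P : Finset ℕ) (hP : Adm b₁ β B k P)
    (hM : ∀ m : ℕ, m ≤ k → (1 - η) * k ≤ m →
      ∑ ω ∈ (univ : Finset (Fin k → Fin m → Bool × Bool)).filter
        (fun ω => rkQ (mt xi ω) = m ∧ ¬ Sp P σ (mt xi ω)), W P (mt xi ω) ^ q ≤
      (2 : ℝ) ^ (C * k) * (4 : ℝ) ^ (k * m))
    (hB : (Nat.card {ω : Fin k → Fin k → Bool × Bool // Bad P σ (mt xi ω)} : ℝ) ≤
      (k : ℝ) ^ (-(1 / 2 - 2 * δ) * k) * (4 : ℝ) ^ (k * k))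
    (hg1 : 0 < γ - y) (hg2 : 0 < (q - 1) * y - 2 * β * q) (hγβ : 0 < γ - 2 * β)
    (hr₀1 : 10 ≤ (γ - y) * r₀) (hr₀2 : 5 + |C| ≤ ((q - 1) * y - 2 * β * q) * r₀)
    (hCA : CA = 1 + |C| + 2 * β * q * r₀) (hLCA : CA + 4 ≤ 2 / 5 * L) (hL60 : 60 ≤ L)
    (hkL : (2 : ℝ) ^ L = k) (hk1 : 1 ≤ k)
    (hL2 : L + 1 ≤ η / (2 / (γ - 2 * β) + 1) * k) (hrk : r ≤ k) :
    ∑ ω ∈ ((univ : Finset (Fin k → Fin k → Bool × Bool)).filter
      (fun ω => Bad P σ (mt xi ω) ∧ ¬ Sp P σ (mt xi ω))).filter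
        (fun ω => k - rkQ (mt xi ω) = r), W P (mt xi ω) ≤
      2 * ((2 : ℝ) ^ (-4 * (k : ℝ)) * (4 : ℝ) ^ (k * k)) := by
  have hγ : 0 < γ := by linarith
  set A := ((univ : Finset (Fin k → Fin k → Bool × Bool)).filter
      (fun ω => Bad P σ (mt xi ω) ∧ ¬ Sp P σ (mt xi ω))).filter
        (fun ω => k - rkQ (mt xi ω) = r) with hA
  have hA1 : ∀ ω ∈ A, Bad P σ (mt xi ω) ∧ ¬ Sp P σ (mt xi ω) ∧ k - rkQ (mt xi ω) = r := by
    intro ω hω
    rw [hA, Finset.mem_filter, Finset.mem_filter] at hω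
    exact ⟨hω.1.2.1, hω.1.2.2, hω.2⟩
  clear_value A
  have hcard := card_le hγ hR hk1 hrk A fun ω hω => (hA1 ω hω).2.2
  have hT0 : (0 : ℝ) ≤ (4 : ℝ) ^ (k * k) := by positivity
  have hkR : (1 : ℝ) ≤ k := by exact_mod_cast hk1
  by_cases hrC : (r : ℝ) ≤ 2 / (γ - 2 * β) * L
  · obtain ⟨m, hm⟩ : ∃ m, k = m + r := ⟨k - r, by omega⟩
    have hmη : (1 - η) * k ≤ m := by
      have h1 : (m : ℝ) = k - r := by
        have : (k : ℝ) = m + r := by exact_mod_cast hm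
        linarith
      have hC1' : 0 < 2 / (γ - 2 * β) := by positivity
      have h3 : (2 / (γ - 2 * β) + 1) * (L + 1) ≤ η * k := by
        have h2 := hL2
        rw [div_mul_eq_mul_div, le_div_iff₀ (by linarith)] at h2
        linarith
      have h4 : (2 / (γ - 2 * β) + 1) * (L + 1) =
        2 / (γ - 2 * β) * L + 2 / (γ - 2 * β) + L + 1 := by ring
      rw [h1]
      linarith
    have hmom := mom_le hβ hm P hP (hM m (by omega) hmη) A fun ω hω =>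
      ⟨(hA1 ω hω).2.2, (hA1 ω hω).2.1⟩
    by_cases hr0 : r < r₀
    · have hbad : (A.card : ℝ) ≤ (2 : ℝ) ^ (-(12 / 25) * (k : ℝ) * L) * (4 : ℝ) ^ (k * k) := by
        have h2 : (A.card : ℝ) ≤
            (Nat.card {ω : Fin k → Fin k → Bool × Bool // Bad P σ (mt xi ω)} : ℝ) := by
          rw [Nat.card_eq_fintype_card, Fintype.card_subtype]
          refine Nat.cast_le.2 (Finset.card_le_card fun ω hω => ?_)
          rw [Finset.mem_filter]
          exact ⟨mem_univ _, (hA1 ω hω).1⟩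
        refine (h2.trans hB).trans ?_
        refine mul_le_mul_of_nonneg_right ?_ hT0
        have h3 : (k : ℝ) ^ (-(1 / 2 - 2 * δ) * (k : ℝ)) =
            (2 : ℝ) ^ (L * (-(1 / 2 - 2 * δ) * (k : ℝ))) := by
          rw [Real.rpow_mul (by norm_num : (0 : ℝ) ≤ 2) L, hkL]
        rw [h3]
        apply Real.rpow_le_rpow_of_exponent_le (by norm_num)
        have h4 : 0 ≤ (k : ℝ) * L := by positivity
        have h5 : L * (-(1 / 2 - 2 * δ) * (k : ℝ)) = -(1 / 2 - 2 * δ) * (k * L) := by ring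
        have h6 : -(12 / 25) * (k : ℝ) * L = -(12 / 25) * (k * L) := by ring
        rw [h5, h6]
        exact mul_le_mul_of_nonneg_right (by linarith) h4
      exact range1 hβ hq hT0 (sum_young A _ (fun ω => W_nonneg _ _) (by omega) (by positivity)
        le_rfl le_rfl) hbad hmom hL60 hCA hLCA hr0
    · push Not at hr0
      exact range2 hq hT0 (sum_young A _ (fun ω => W_nonneg _ _) (by omega) (by positivity)
        le_rfl le_rfl) hcard hmom hg1.le hg2.le hr₀1 hr₀2 hr0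
  · push Not at hrC
    refine range3 hT0 ?_ hγβ hL60 hrC
    refine (Finset.sum_le_sum fun ω hω => W_le P hP hkL ω (hA1 ω hω).2.2).trans ?_
    rw [Finset.sum_const, nsmul_eq_mul, mul_comm]
    exact mul_le_mul_of_nonneg_left hcard (by positivity)

open scoped Classical in
theorem hold_gen (q : ℕ) (γ β η : ℝ) (hq : 2 ≤ q) (hβ : 0 < β) (hβ' : β ≤ 1 / 5) (hη : 0 < η)
    (h : 2 * β * q < (q - 1) * γ) (hR : StmtRat ((2 : ℝ) ^ (-γ))) (hB : StmtBadProb)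
    (hM : StmtMomE η q β) : StmtHold β := by
  intro δ b₁ B hδ hδ' hb₁ hbB
  obtain ⟨C, k₁, hM⟩ := hM δ b₁ B hδ hδ' hb₁ hbB
  obtain ⟨k₂, hB⟩ := hB δ b₁ β B hδ (by linarith) hb₁ hβ hβ' hbB
  have hq1 : (1 : ℝ) < q := by exact_mod_cast hq
  -- the exponent `y`
  set y : ℝ := (2 * β * q / (q - 1) + γ) / 2 with hy
  have hy0 : 2 * β * q / (q - 1) < γ := by
    rw [div_lt_iff₀ (by linarith)]
    linarith
  have hg1' : 0 < γ - y := by rw [hy]; linarith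
  have hg2' : 0 < (q - 1) * y - 2 * β * q := by
    have : 2 * β * q / (q - 1) < y := by rw [hy]; linarith
    rw [div_lt_iff₀ (by linarith)] at this
    linarith
  have hγβ : 0 < γ - 2 * β := by
    have h1 : 2 * β * (q - 1) < (q - 1) * γ := by
      have : 2 * β * (q - 1) = 2 * β * q - 2 * β := by ring
      linarith
    have h2 : 0 < (q - 1) * (γ - 2 * β) := by linarith
    exact (mul_pos_iff_of_pos_left (by linarith)).1 h2
  -- thresholds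
  obtain ⟨r₀, hr₀⟩ := exists_nat_ge (max (10 / (γ - y)) ((5 + |C|) / ((q - 1) * y - 2 * β * q)))
  have hr₀1 : 10 ≤ (γ - y) * r₀ := by
    have := (le_max_left _ _).trans hr₀
    rw [div_le_iff₀ hg1'] at this
    linarith
  have hr₀2 : 5 + |C| ≤ ((q - 1) * y - 2 * β * q) * r₀ := by
    have := (le_max_right _ _).trans hr₀
    rw [div_le_iff₀ hg2'] at this
    linarith
  clear_value y
  obtain ⟨k₃, hk₃⟩ := large (max 60 ((1 + |C| + 2 * β * q * r₀ + 4) / (2 / 5)))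
    (η / (2 / (γ - 2 * β) + 1)) (by positivity)
  refine ⟨max k₁ (max k₂ k₃), fun k hk P hP => ?_⟩
  have hkk1 : k₁ ≤ k := le_trans (le_max_left _ _) hk
  have hkk2 : k₂ ≤ k := le_trans (le_trans (le_max_left _ _) (le_max_right _ _)) hk
  have hkk3 : k₃ ≤ k := le_trans (le_trans (le_max_right _ _) (le_max_right _ _)) hk
  obtain ⟨hk1, hL1, hL2⟩ := hk₃ k hkk3
  have hk0 : (0 : ℝ) < k := by exact_mod_cast hk1
  have hL60 : 60 ≤ Real.logb 2 k := (le_max_left _ _).trans hL1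
  have hLCA : 1 + |C| + 2 * β * q * r₀ + 4 ≤ 2 / 5 * Real.logb 2 k := by
    have := (le_max_right _ _).trans hL1
    rw [div_le_iff₀ (by norm_num)] at this
    linarith
  have hkL : (2 : ℝ) ^ Real.logb 2 k = k := Real.rpow_logb (by norm_num) (by norm_num) hk0
  have hmain : ∀ r ∈ range (k + 1), _ := fun r hr =>
    per_r q (r := r) hq hβ hη hδ' hR P hP (fun m h1 h2 => hM k hkk1 m h1 h2 P hP)
      (hB k hkk2 P hP) hg1' hg2' hγβ hr₀1 hr₀2 rfl hLCA hL60 hkL hk1 hL2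
      (by rw [Finset.mem_range] at hr; omega)
  have hsplit := Finset.sum_fiberwise_of_maps_to
    (s := (univ : Finset (Fin k → Fin k → Bool × Bool)).filter
      (fun ω => Bad P ((k : ℝ) ^ (1 - δ / 4)) (mt xi ω) ∧
        ¬ Sp P ((k : ℝ) ^ (1 - δ / 4)) (mt xi ω))) (t := range (k + 1))
    (g := fun ω => k - rkQ (mt xi ω)) (fun ω _ => by rw [Finset.mem_range]; omega)
    (fun ω => W P (mt xi ω))
  rw [← hsplit]
  refine (Finset.sum_le_sum hmain).trans ?_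
  rw [Finset.sum_const, Finset.card_range, nsmul_eq_mul]
  have h1 : ((k + 1 : ℕ) : ℝ) * 2 ≤ (2 : ℝ) ^ (2 * (k : ℝ)) := by
    have h2 : (k + 1) * 2 ≤ 2 ^ (2 * k) := by
      have h3 : k + 1 ≤ 2 ^ k := Nat.lt_two_pow_self
      have h4 : 2 ≤ 2 ^ k := by
        calc 2 = 2 ^ 1 := by norm_num
          _ ≤ 2 ^ k := Nat.pow_le_pow_right (by norm_num) hk1
      calc (k + 1) * 2 ≤ 2 ^ k * 2 ^ k := Nat.mul_le_mul h3 h4
        _ = 2 ^ (2 * k) := by rw [← pow_add]; congr 1; omega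
    have h5 : (2 : ℝ) ^ (2 * (k : ℝ)) = ((2 ^ (2 * k) : ℕ) : ℝ) := by
      push_cast
      rw [← Real.rpow_natCast]
      congr 1
      push_cast
      ring
    rw [h5]
    exact_mod_cast h2
  calc ((k + 1 : ℕ) : ℝ) * (2 * ((2 : ℝ) ^ (-4 * (k : ℝ)) * (4 : ℝ) ^ (k * k)))
      = ((k + 1 : ℕ) : ℝ) * 2 * ((2 : ℝ) ^ (-4 * (k : ℝ)) * (4 : ℝ) ^ (k * k)) := by ring
    _ ≤ (2 : ℝ) ^ (2 * (k : ℝ)) * ((2 : ℝ) ^ (-4 * (k : ℝ)) * (4 : ℝ) ^ (k * k)) :=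
        mul_le_mul_of_nonneg_right h1 (by positivity)
    _ = (2 : ℝ) ^ (-(2 : ℝ) * k) * (4 : ℝ) ^ (k * k) := by
        rw [← mul_assoc, ← Real.rpow_add (by norm_num)]
        congr 2
        ring

/-- rank rate `2 ^ (-1/3)` (landed), eighth moment of the kernel, `β < 1/8` -/
theorem hold_third (β η : ℝ) (hβ : 0 < β) (hβ' : β < 1 / 8) (hη : 0 < η)
    (hR : StmtRat ((2 : ℝ) ^ (-(1 / 3) : ℝ))) (hB : StmtBadProb) (hM : StmtMomE η 4 β) :
    StmtHold β :=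
  hold_gen 4 (1 / 3) β η (by norm_num) hβ (by linarith) hη (by push_cast; linarith) hR hB hM

/-- rank rate `3/4`, moments `q = 2, 3` -/
theorem hold_34 (q : ℕ) (β : ℝ) (hq : 2 ≤ q) (hβ : 0 < β) (hβ' : β ≤ 1 / 5)
    (h : 2 * β * q < (q - 1) * Real.logb 2 (4 / 3))
    (hR : StmtRat (3 / 4)) (hB : StmtBadProb) (hM : StmtMom q β) : StmtHold β := by
  refine hold_gen q (Real.logb 2 (4 / 3)) β (1 / 100) hq hβ hβ' (by norm_num) h ?_ hB
    (momE_of_mom hM)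
  have e : (2 : ℝ) ^ (-Real.logb 2 (4 / 3)) = 3 / 4 := by
    rw [Real.rpow_neg (by norm_num), Real.rpow_logb (by norm_num) (by norm_num) (by norm_num)]
    norm_num
  rw [e]
  exact hR

end Vale.Agent.P160.Half.HoldGen691
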