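import Mathlib

/-! # P160, part (M): real numbers of the joint (min) form (note 11444)

`ρ = 1 - 4 c`; the row bound `max c (2 s - K b)` is at least `ρ s`; cases A and B of the joint event. -/

namespace Vale.Agent.P160.Half.JointNum624

/-- exponential moment constant with `θ = 2` -/
noncomputable def K (b : ℝ) : ℝ := Real.logb 2 (1 + 3 * (4 : ℝ) ^ (-b)) / (2 * b)

theorem four_rpow_le {b : ℝ} (hb : 199 / 100 ≤ b) : (4 : ℝ) ^ (-b) ≤ 8 / 125 := by
  have h1 : (4 : ℝ) ^ (-b) ≤ (4 : ℝ) ^ (-(199 / 100) : ℝ) :=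
    Real.rpow_le_rpow_of_exponent_le (by norm_num) (by linarith)
  refine h1.trans ?_
  have h2 : (0 : ℝ) ≤ (4 : ℝ) ^ (-(199 / 100) : ℝ) := by positivity
  refine le_of_pow_le_pow_left₀ (n := 100) (by norm_num) (by norm_num) ?_
  rw [← Real.rpow_natCast, ← Real.rpow_mul (by norm_num)]
  have h3 : (-(199 / 100) : ℝ) * ((100 : ℕ) : ℝ) = -((199 : ℕ) : ℝ) := by push_cast; norm_num
  rw [h3, Real.rpow_neg (by norm_num), Real.rpow_natCast]
  norm_num

theorem logb_le : Real.logb 2 (149 / 125) ≤ 32 / 125 := by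
  have h : (125 : ℝ) * Real.logb 2 (149 / 125) ≤ 32 := by
    have h1 : (125 : ℝ) * Real.logb 2 (149 / 125) = Real.logb 2 ((149 / 125) ^ 125) := by
      rw [Real.logb_pow]; push_cast; ring
    rw [h1]
    have h2 : Real.logb 2 ((149 / 125 : ℝ) ^ 125) ≤ Real.logb 2 ((2 : ℝ) ^ 32) := by
      apply Real.logb_le_logb_of_le (by norm_num) (by positivity)
      norm_num
    refine h2.trans ?_
    rw [Real.logb_pow, Real.logb_self_eq_one (by norm_num)]
    norm_num
  linarith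

theorem K_le {b : ℝ} (hb : 199 / 100 ≤ b) : K b ≤ 161 / 2500 := by
  unfold K
  have hb0 : 0 < b := by linarith
  rw [div_le_iff₀ (by linarith)]
  have h1 := four_rpow_le hb
  have h2 : Real.logb 2 (1 + 3 * (4 : ℝ) ^ (-b)) ≤ Real.logb 2 (149 / 125) := by
    apply Real.logb_le_logb_of_le (by norm_num) (by positivity)
    linarith
  have h3 := logb_le
  nlinarith

/-- the row bound dominates `ρ s`, `ρ = 1 - 4 c`, `c = 9 / 200` -/
theorem row_num {b s : ℝ} (hb : 199 / 100 ≤ b) :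
    (1 - 4 * (9 / 200)) * s ≤ max (9 / 200) (2 * s - K b) := by
  have hK := K_le hb
  by_cases hs : s ≤ (9 / 200) / (41 / 50)
  · refine le_max_of_le_left ?_
    rw [le_div_iff₀ (by norm_num)] at hs
    linarith
  · refine le_max_of_le_right ?_
    push Not at hs
    rw [div_lt_iff₀ (by norm_num)] at hs
    linarith

/-- the exponential moment in product form: `(1 + 3 · 4^(-b))^(m/2b) = 2^(K b · m)` -/
theorem rpow_K {b : ℝ} (m : ℝ) :
    (1 + 3 * (4 : ℝ) ^ (-b)) ^ (m / (2 * b)) = (2 : ℝ) ^ (K b * m) := by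
  have h0 : (0 : ℝ) < 1 + 3 * (4 : ℝ) ^ (-b) := by positivity
  unfold K
  rw [show Real.logb 2 (1 + 3 * (4 : ℝ) ^ (-b)) / (2 * b) * m = Real.logb 2 (1 + 3 * (4 : ℝ) ^ (-b)) * (m / (2 * b)) by ring,
    Real.rpow_mul (by norm_num), Real.rpow_logb (by norm_num) (by norm_num) h0]

/-- case A: the killed event is expensive -/
theorem case_A {b c κ τ : ℝ} (hc : c ≤ 1 / 4) (hτ : 0 ≤ τ) (h : 4 * c ≤ 2 * b * κ) :
    τ * max 0 (1 - 2 * b * κ) ≤ (1 - 4 * c) * τ := by
  rcases le_total 0 (1 - 2 * b * κ) with h1 | h1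
  · rw [max_eq_right h1]
    nlinarith
  · rw [max_eq_left h1]
    nlinarith

/-- case B: the killed event is cheap -/
theorem case_B {b c κ τ z : ℝ} (hb : 0 < b) (hκ : 0 ≤ κ) (hz : 0 ≤ z) (hc : c ≤ 1 / 4) (hτ2 : τ ≤ 1 / (4 * b))
    (h : 2 * b * κ ≤ 4 * c) : (1 / 2 - z) * κ + τ * max 0 (1 - 2 * b * κ) ≤ c / b + (1 - 4 * c) * τ := by
  have h0 : 0 ≤ 1 - 2 * b * κ := by linarith
  rw [max_eq_right h0]
  have h1 : 0 ≤ 2 * c / b - κ := by
    rw [sub_nonneg, le_div_iff₀ hb]; nlinarith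
  have h2 : 0 ≤ 1 / 2 - 2 * b * τ := by
    rw [le_div_iff₀ (by positivity)] at hτ2; nlinarith
  have h3 := mul_nonneg h1 h2
  have h4 : (2 * c / b - κ) * (1 / 2 - 2 * b * τ) = c / b - κ / 2 - 4 * c * τ + 2 * b * κ * τ := by
    field_simp
    ring
  nlinarith [mul_nonneg hz hκ]

end Vale.Agent.P160.Half.JointNum624
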