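import Mathlib

/-! P160-HALF, (M), STEP A (K rows, notes 11135, 11250, 11264): factorial moments for several
rows at once.  `X` = the possible rows `x`, `F j x` = set of primes of the row `j`, contained in the
fixed finite set `S j` with at most `n₁` elements.  If for every choice of `u` primes in every
`S j` at most `Q` rows `x` have all these primes in `F j x`, then
`#{x | all F j x have at least s elements} * (s + 1 - u)^(u K) ≤ n₁^(u K) * Q`. -/

set_option linter.all false
set_option autoImplicit false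

namespace Vale.Agent.P160.Half.KRow964

open Finset

open scoped Classical in
theorem krow {Ω κ ι : Type} [Fintype κ] (X : Finset Ω) (S : κ → Finset ι)
    (F : κ → Ω → Finset ι) (hF : ∀ j, ∀ x ∈ X, F j x ⊆ S j) (n₁ s u Q : ℕ)
    (hS : ∀ j, (S j).card ≤ n₁)
    (hQ : ∀ T : κ → Finset ι, (∀ j, T j ⊆ S j ∧ (T j).card = u) →
      (X.filter (fun x => ∀ j, T j ⊆ F j x)).card ≤ Q) :
    (X.filter (fun x => ∀ j, s ≤ (F j x).card)).card * (s.choose u) ^ Fintype.card κ ≤
      (n₁.choose u) ^ Fintype.card κ * Q := by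
  set A := X.filter (fun x => ∀ j, s ≤ (F j x).card) with hA
  set 𝒯 := Fintype.piFinset (fun j => (S j).powersetCard u) with h𝒯
  -- double counting of the pairs `(x, T)`
  have h1 : ∀ x ∈ A, (s.choose u) ^ Fintype.card κ ≤
      (𝒯.filter (fun T => ∀ j, T j ⊆ F j x)).card := by
    intro x hx
    rw [hA, Finset.mem_filter] at hx
    have h2 : (Fintype.piFinset (fun j => (F j x).powersetCard u)) ⊆
        𝒯.filter (fun T => ∀ j, T j ⊆ F j x) := by
      intro T hT
      rw [Fintype.mem_piFinset] at hT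
      rw [Finset.mem_filter, h𝒯, Fintype.mem_piFinset]
      refine ⟨fun j => ?_, fun j => (Finset.mem_powersetCard.1 (hT j)).1⟩
      have h3 := Finset.mem_powersetCard.1 (hT j)
      exact Finset.mem_powersetCard.2 ⟨h3.1.trans (hF j x hx.1), h3.2⟩
    refine le_trans ?_ (Finset.card_le_card h2)
    rw [Fintype.card_piFinset]
    calc (s.choose u) ^ Fintype.card κ = ∏ _j : κ, s.choose u := by
          rw [Finset.prod_const, Finset.card_univ]
      _ ≤ ∏ j : κ, ((F j x).powersetCard u).card := by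
          refine Finset.prod_le_prod' fun j _ => ?_
          rw [Finset.card_powersetCard]
          exact Nat.choose_le_choose u (hx.2 j)
  have h4 : ∀ T ∈ 𝒯, (A.filter (fun x => ∀ j, T j ⊆ F j x)).card ≤ Q := by
    intro T hT
    rw [h𝒯, Fintype.mem_piFinset] at hT
    refine le_trans (Finset.card_le_card ?_) (hQ T (fun j => Finset.mem_powersetCard.1 (hT j)))
    intro x hx
    rw [Finset.mem_filter] at hx ⊢
    exact ⟨(Finset.mem_filter.1 hx.1).1, hx.2⟩
  have h5 : 𝒯.card ≤ (n₁.choose u) ^ Fintype.card κ := by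
    rw [h𝒯, Fintype.card_piFinset]
    calc ∏ j : κ, ((S j).powersetCard u).card ≤ ∏ _j : κ, n₁.choose u := by
          refine Finset.prod_le_prod' fun j _ => ?_
          rw [Finset.card_powersetCard]
          exact Nat.choose_le_choose u (hS j)
      _ = (n₁.choose u) ^ Fintype.card κ := by
          rw [Finset.prod_const, Finset.card_univ]
  calc A.card * (s.choose u) ^ Fintype.card κ
      = ∑ _x ∈ A, (s.choose u) ^ Fintype.card κ := by
        rw [Finset.sum_const, smul_eq_mul]
    _ ≤ ∑ x ∈ A, (𝒯.filter (fun T => ∀ j, T j ⊆ F j x)).card := Finset.sum_le_sum h1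
    _ = ∑ T ∈ 𝒯, (A.filter (fun x => ∀ j, T j ⊆ F j x)).card := by
        simp_rw [Finset.card_filter]
        exact Finset.sum_comm
    _ ≤ ∑ _T ∈ 𝒯, Q := Finset.sum_le_sum h4
    _ = 𝒯.card * Q := by rw [Finset.sum_const, smul_eq_mul]
    _ ≤ (n₁.choose u) ^ Fintype.card κ * Q := Nat.mul_le_mul_right _ h5

/-- the ratio of the binomial coefficients -/
theorem choose_ratio (n₁ s u : ℕ) : n₁.choose u * (s + 1 - u) ^ u ≤ s.choose u * n₁ ^ u := by
  have h1 : n₁.descFactorial u ≤ n₁ ^ u := Nat.descFactorial_le_pow n₁ u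
  have h2 : (s + 1 - u) ^ u ≤ s.descFactorial u := Nat.pow_sub_le_descFactorial s u
  have h3 : u.factorial * n₁.choose u = n₁.descFactorial u :=
    (Nat.descFactorial_eq_factorial_mul_choose n₁ u).symm
  have h4 : u.factorial * s.choose u = s.descFactorial u :=
    (Nat.descFactorial_eq_factorial_mul_choose s u).symm
  have h5 : u.factorial * (n₁.choose u * (s + 1 - u) ^ u) ≤ u.factorial * (s.choose u * n₁ ^ u) := by
    calc u.factorial * (n₁.choose u * (s + 1 - u) ^ u)
        = n₁.descFactorial u * (s + 1 - u) ^ u := by rw [← mul_assoc, h3]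
      _ ≤ n₁ ^ u * s.descFactorial u := Nat.mul_le_mul h1 h2
      _ = u.factorial * (s.choose u * n₁ ^ u) := by
          rw [← h4]
          ring
  exact Nat.le_of_mul_le_mul_left h5 u.factorial_pos

open scoped Classical in
/-- the same with powers instead of binomial coefficients -/
theorem krow_pow {Ω κ ι : Type} [Fintype κ] (X : Finset Ω) (S : κ → Finset ι)
    (F : κ → Ω → Finset ι) (hF : ∀ j, ∀ x ∈ X, F j x ⊆ S j) (n₁ s u Q : ℕ) (hu : u ≤ s)
    (hS : ∀ j, (S j).card ≤ n₁)
    (hQ : ∀ T : κ → Finset ι, (∀ j, T j ⊆ S j ∧ (T j).card = u) →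
      (X.filter (fun x => ∀ j, T j ⊆ F j x)).card ≤ Q) :
    (X.filter (fun x => ∀ j, s ≤ (F j x).card)).card * ((s + 1 - u) ^ u) ^ Fintype.card κ ≤
      (n₁ ^ u) ^ Fintype.card κ * Q := by
  have h := krow X S F hF n₁ s u Q hS hQ
  set a := (X.filter (fun x => ∀ j, s ≤ (F j x).card)).card with ha
  set K := Fintype.card κ with hK
  have hc : 0 < (s.choose u) ^ K := pow_pos (Nat.choose_pos hu) K
  have h1 := pow_le_pow_left₀ (Nat.zero_le _) (choose_ratio n₁ s u) K
  rw [mul_pow, mul_pow] at h1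
  refine Nat.le_of_mul_le_mul_left ?_ hc
  calc (s.choose u) ^ K * (a * ((s + 1 - u) ^ u) ^ K)
      = (a * (s.choose u) ^ K) * ((s + 1 - u) ^ u) ^ K := by ring
    _ ≤ ((n₁.choose u) ^ K * Q) * ((s + 1 - u) ^ u) ^ K := Nat.mul_le_mul_right _ h
    _ = ((n₁.choose u) ^ K * ((s + 1 - u) ^ u) ^ K) * Q := by ring
    _ ≤ ((s.choose u) ^ K * (n₁ ^ u) ^ K) * Q := Nat.mul_le_mul_right _ h1
    _ = (s.choose u) ^ K * ((n₁ ^ u) ^ K * Q) := by ring

end Vale.Agent.P160.Half.KRow964
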