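import Vale.Agent.P160.Half.KZAa

/-! # P160, half rate, final assembly, small primes (helper418)

* `kill_pp`: sharp killed lemma modulo a prime power `p ^ a` (direct union over the kernel of the revealed block);
* `nosp_small`: no sparse kernel vector modulo a small prime. -/

open Finset Matrix Vale.Agent.P160.Half.G.KZAa

namespace Vale.Agent.P160.Half.G.KS

/-- double counting: re-randomise the bits indexed by `K` -/
theorem count_extend {I K : Type} [Fintype I] [Fintype K] [DecidableEq I] [DecidableEq K] (e : K → I)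
    (he : Function.Injective e) (Q : (I → Bool) → Prop) (B : ℝ)
    (h : ∀ f₀ : I → Bool, (Nat.card {x : K → Bool // Q (Function.extend e x f₀)} : ℝ) ≤ B) :
    (Nat.card {f : I → Bool // Q f} : ℝ) * 2 ^ Fintype.card K ≤ B * 2 ^ Fintype.card I := by
  classical
  have h1 : ((univ : Finset (I → Bool)).filter Q).card * 2 ^ Fintype.card K ≤
      ∑ f₀ : I → Bool, ((univ : Finset (K → Bool)).filter fun x => Q (Function.extend e x f₀)).card := by
    have h2 : ∑ f₀ : I → Bool, ((univ : Finset (K → Bool)).filter fun x => Q (Function.extend e x f₀)).card =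
        ((univ : Finset ((I → Bool) × (K → Bool))).filter fun z => Q (Function.extend e z.2 z.1)).card := by
      simp only [Finset.card_filter]
      rw [Fintype.sum_prod_type]
    have h3 : 2 ^ Fintype.card K = (univ : Finset (K → Bool)).card := by simp
    rw [h2, h3, ← Finset.card_product]
    refine Finset.card_le_card_of_injOn (fun p => (Function.extend e p.2 p.1, p.1 ∘ e)) ?_ ?_
    · intro p hp
      simp only [Finset.coe_product, Set.mem_prod, Finset.mem_coe, mem_filter, mem_univ, true_and, and_true] at hp ⊢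
      have : Function.extend e (p.1 ∘ e) (Function.extend e p.2 p.1) = p.1 := by
        funext i
        by_cases hi : ∃ k, e k = i
        · obtain ⟨k, rfl⟩ := hi
          rw [he.extend_apply]; rfl
        · rw [Function.extend_apply' _ _ _ hi, Function.extend_apply' _ _ _ hi]
      rw [this]; exact hp
    · intro p _ p' _ hpp
      simp only [Prod.mk.injEq] at hpp
      obtain ⟨ha, hb⟩ := hpp
      refine Prod.ext ?_ ?_
      · funext i
        by_cases hi : ∃ k, e k = i
        · obtain ⟨k, rfl⟩ := hi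
          exact congrFun hb k
        · have := congrFun ha i
          rwa [Function.extend_apply' _ _ _ hi, Function.extend_apply' _ _ _ hi] at this
      · funext k
        have := congrFun ha (e k)
        rwa [he.extend_apply, he.extend_apply] at this
  have h4 : (Nat.card {f : I → Bool // Q f} : ℝ) = ((univ : Finset (I → Bool)).filter Q).card := by
    rw [Nat.card_eq_fintype_card, Fintype.card_subtype]
  rw [h4]
  calc ((((univ : Finset (I → Bool)).filter Q).card : ℝ)) * 2 ^ Fintype.card K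
      ≤ ∑ f₀ : I → Bool, (((univ : Finset (K → Bool)).filter fun x => Q (Function.extend e x f₀)).card : ℝ) := by
        exact_mod_cast h1
    _ ≤ ∑ f₀ : I → Bool, B := by
        refine Finset.sum_le_sum fun f₀ _ => ?_
        have := h f₀
        rwa [Nat.card_eq_fintype_card, Fintype.card_subtype] at this
    _ = B * 2 ^ Fintype.card I := by
        rw [Finset.sum_const, nsmul_eq_mul, mul_comm]
        simp

/-- a nonzero vector has atoms at most `1/2` -/
theorem half_atom {R ι : Type*} [CommRing R] [Fintype ι] [DecidableEq ι] (w : ι → R) (hw : w ≠ 0) :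
    (Nat.card {x : ι → Bool // bdot x w = 0} : ℝ) ≤ 1 / 2 * 2 ^ Fintype.card ι := by
  classical
  obtain ⟨i, hi⟩ := Function.ne_iff.1 hw
  have h1 : ((univ : Finset (ι → Bool)).filter fun x => bdot x w = 0).card ≤
      ((univ : Finset (ι → Bool)).filter fun x => ¬ bdot x w = 0).card := by
    refine Finset.card_le_card_of_injOn (fun x => Function.update x i (!x i)) ?_ ?_
    · intro x hx
      simp only [Finset.mem_coe, mem_filter, mem_univ, true_and] at hx ⊢
      intro h0
      have h2 : bdot (Function.update x i (!x i)) w - bdot x w = if x i then - w i else w i := by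
        unfold bdot
        rw [← Finset.sum_sub_distrib, Finset.sum_eq_single i]
        · cases x i <;> simp
        · intro j _ hj
          rw [Function.update_of_ne hj, sub_self]
        · simp
      rw [h0, hx, sub_zero] at h2
      have hi' : w i ≠ 0 := hi
      split_ifs at h2 with h3
      · exact hi' (neg_eq_zero.1 h2.symm)
      · exact hi' h2.symm
    · intro x _ y _ hxy
      funext j
      by_cases hj : j = i
      · subst hj
        have := congrFun hxy j
        simpa using this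
      · have := congrFun hxy j
        simpa only [Function.update_of_ne hj] using this
  have h2 := Finset.card_filter_add_card_filter_not (s := (univ : Finset (ι → Bool))) (fun x => bdot x w = 0)
  rw [Nat.card_eq_fintype_card, Fintype.card_subtype]
  have h3 : (univ : Finset (ι → Bool)).card = 2 ^ Fintype.card ι := by simp
  rw [h3] at h2
  have h4 : 2 * ((univ : Finset (ι → Bool)).filter fun x => bdot x w = 0).card ≤ 2 ^ Fintype.card ι := by omega
  have h5 : (2 : ℝ) * (((univ : Finset (ι → Bool)).filter fun x => bdot x w = 0).card : ℝ) ≤ 2 ^ Fintype.card ι := by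
    exact_mod_cast h4
  linarith

variable {α : Type} [Fintype α] [DecidableEq α]

/-- the bits between `S` and its complement -/
def emb (S : Finset α) : S × (Sᶜ : Finset α) → Sym2 α := fun z => s((z.1 : α), (z.2 : α))

theorem emb_inj (S : Finset α) : Function.Injective (emb S) := by
  rintro ⟨s, t⟩ ⟨s', t'⟩ h
  simp only [emb, Sym2.eq_iff] at h
  rcases h with ⟨h1, h2⟩ | ⟨h1, -⟩
  · rw [Subtype.ext h1, Subtype.ext h2]
  · exact absurd (h1 ▸ s.2) (mem_compl.1 t'.2)

theorem matZ_out (S : Finset α) (x : S × (Sᶜ : Finset α) → Bool) (b₀ : Sym2 α → Bool) (t t' : (Sᶜ : Finset α)) :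
    matZ (Function.extend (emb S) x b₀) (t : α) (t' : α) = matZ b₀ (t : α) (t' : α) := by
  unfold matZ
  rw [Function.extend_apply']
  rintro ⟨⟨s, u⟩, h⟩
  simp only [emb, Sym2.eq_iff] at h
  rcases h with ⟨h1, -⟩ | ⟨h1, -⟩
  · exact absurd (h1 ▸ s.2) (mem_compl.1 t.2)
  · exact absurd (h1 ▸ s.2) (mem_compl.1 t'.2)

theorem matZ_in (S : Finset α) (x : S × (Sᶜ : Finset α) → Bool) (b₀ : Sym2 α → Bool) (s : S) (t : (Sᶜ : Finset α)) :
    matZ (Function.extend (emb S) x b₀) (s : α) (t : α) = if x (s, t) then 1 else 0 := by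
  unfold matZ
  have := (emb_inj S).extend_apply x b₀ (s, t)
  simp only [emb] at this
  rw [this]

/-- the revealed block -/
def blk (S : Finset α) (b : Sym2 α → Bool) : Matrix (Sᶜ : Finset α) (Sᶜ : Finset α) ℤ := fun t t' => matZ b t t'

theorem blk_extend (S : Finset α) (x : S × (Sᶜ : Finset α) → Bool) (b₀ : Sym2 α → Bool) :
    blk S (Function.extend (emb S) x b₀) = blk S b₀ := by
  funext t t'
  exact matZ_out S x b₀ t t'

theorem card_rows {R : Type*} [CommRing R] (S : Finset α) (w : (Sᶜ : Finset α) → R) :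
    Nat.card {x : S × (Sᶜ : Finset α) → Bool // ∀ s, bdot (fun t => x (s, t)) w = 0} =
      Nat.card {y : (Sᶜ : Finset α) → Bool // bdot y w = 0} ^ S.card := by
  classical
  have e1 : {x : S × (Sᶜ : Finset α) → Bool // ∀ s, bdot (fun t => x (s, t)) w = 0} ≃
      {x : S → (Sᶜ : Finset α) → Bool // ∀ s, bdot (x s) w = 0} :=
    (Equiv.curry S (Sᶜ : Finset α) Bool).subtypeEquiv fun x => Iff.rfl
  have e2 : {x : S → (Sᶜ : Finset α) → Bool // ∀ s, bdot (x s) w = 0} ≃
      (S → {y : (Sᶜ : Finset α) → Bool // bdot y w = 0}) :=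
    Equiv.subtypePiEquivPi (p := fun (_ : S) (y : (Sᶜ : Finset α) → Bool) => bdot y w = 0)
  rw [Nat.card_congr (e1.trans e2), Nat.card_fun, Nat.card_eq_fintype_card (α := S), Fintype.card_coe]

/-- **killed rows, fixed zero set** -/
theorem killed (S : Finset α) {p : ℕ} (hp : p.Prime) (a k : ℕ) (q : ℝ) (hq : 0 ≤ q)
    (hv : ((Sᶜ : Finset α) → ZMod (p ^ a)) → Prop)
    (hat : ∀ w, hv w → (Nat.card {x : (Sᶜ : Finset α) → Bool // bdot x w = 0} : ℝ) ≤
      q * 2 ^ Fintype.card (Sᶜ : Finset α)) :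
    (Nat.card {b : Sym2 α → Bool // (Sᶜ : Finset α).card ≤ ((blk S b).map (Int.cast : ℤ → ZMod p)).rank + k ∧
      ∃ g : α → ZMod (p ^ a), (matZ b).map (Int.cast : ℤ → ZMod (p ^ a)) *ᵥ g = 0 ∧ (∀ s ∈ S, g s = 0) ∧
        hv (fun t => g t)} : ℝ) ≤ (p : ℝ) ^ (a * k) * q ^ S.card * 2 ^ Fintype.card (Sym2 α) := by
  classical
  have : NeZero (p ^ a) := ⟨(pow_pos hp.pos a).ne'⟩
  have key := count_extend (emb S) (emb_inj S) (fun b : Sym2 α → Bool =>
    (Sᶜ : Finset α).card ≤ ((blk S b).map (Int.cast : ℤ → ZMod p)).rank + k ∧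
      ∃ g : α → ZMod (p ^ a), (matZ b).map (Int.cast : ℤ → ZMod (p ^ a)) *ᵥ g = 0 ∧ (∀ s ∈ S, g s = 0) ∧
        hv (fun t => g t)) ((p : ℝ) ^ (a * k) * (q * 2 ^ Fintype.card (Sᶜ : Finset α)) ^ S.card) ?_
  · rw [Fintype.card_prod, Fintype.card_coe, Fintype.card_coe] at key
    rw [mul_pow, ← pow_mul, mul_comm (Sᶜ : Finset α).card S.card] at key
    have h0 : (0 : ℝ) < 2 ^ (S.card * (Sᶜ : Finset α).card) := by positivity
    refine le_of_mul_le_mul_right (key.trans (le_of_eq ?_)) h0
    ring
  intro b₀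
  by_cases hr : (Sᶜ : Finset α).card ≤ ((blk S b₀).map (Int.cast : ℤ → ZMod p)).rank + k
  swap
  · have : IsEmpty {x : S × (Sᶜ : Finset α) → Bool //
      (Sᶜ : Finset α).card ≤ ((blk S (Function.extend (emb S) x b₀)).map (Int.cast : ℤ → ZMod p)).rank + k ∧
      ∃ g : α → ZMod (p ^ a), (matZ (Function.extend (emb S) x b₀)).map (Int.cast : ℤ → ZMod (p ^ a)) *ᵥ g = 0 ∧
        (∀ s ∈ S, g s = 0) ∧ hv (fun t => g t)} := by
      refine ⟨fun x => hr ?_⟩
      have := x.2.1
      rwa [blk_extend] at this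
    rw [Nat.card_of_isEmpty]
    push_cast
    positivity
  set K : Finset ((Sᶜ : Finset α) → ZMod (p ^ a)) :=
    univ.filter fun w => (blk S b₀).map (Int.cast : ℤ → ZMod (p ^ a)) *ᵥ w = 0 with hK
  have hKc : K.card ≤ p ^ (a * k) := by
    have h1 := card_ker_le (blk S b₀) hp _ le_rfl a
    rw [Nat.card_eq_fintype_card, Fintype.card_subtype] at h1
    refine h1.trans (Nat.pow_le_pow_right hp.pos (Nat.mul_le_mul_left a ?_))
    rw [Fintype.card_coe]
    omega
  have hsub : ((univ : Finset (S × (Sᶜ : Finset α) → Bool)).filter fun x =>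
      (Sᶜ : Finset α).card ≤ ((blk S (Function.extend (emb S) x b₀)).map (Int.cast : ℤ → ZMod p)).rank + k ∧
      ∃ g : α → ZMod (p ^ a), (matZ (Function.extend (emb S) x b₀)).map (Int.cast : ℤ → ZMod (p ^ a)) *ᵥ g = 0 ∧
        (∀ s ∈ S, g s = 0) ∧ hv (fun t => g t)) ⊆
      (K.filter hv).biUnion fun w => univ.filter fun x => ∀ s, bdot (fun t => x (s, t)) w = 0 := by
    intro x hx
    rw [mem_filter] at hx
    obtain ⟨-, -, g, hg, hgS, hgv⟩ := hx
    have hsum : ∀ h : α → ZMod (p ^ a), ∑ i, h i * g i = ∑ t : (Sᶜ : Finset α), h t * g t := by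
      intro h
      rw [Finset.sum_coe_sort (Sᶜ) (fun i => h i * g i), ← Finset.sum_add_sum_compl S]
      rw [Finset.sum_eq_zero (fun s hs => by rw [hgS s hs, mul_zero]), zero_add]
    rw [mem_biUnion]
    refine ⟨fun t => g t, mem_filter.2 ⟨mem_filter.2 ⟨mem_univ _, ?_⟩, hgv⟩, mem_filter.2 ⟨mem_univ _, ?_⟩⟩
    · funext t
      have h1 := congrFun hg (t : α)
      simp only [mulVec, dotProduct, Matrix.map_apply, Pi.zero_apply] at h1 ⊢
      rw [hsum] at h1
      rw [← h1]
      refine Finset.sum_congr rfl fun t' _ => ?_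
      rw [matZ_out]
      rfl
    · intro s
      have h1 := congrFun hg (s : α)
      simp only [mulVec, dotProduct, Matrix.map_apply, Pi.zero_apply] at h1
      rw [hsum] at h1
      rw [← h1]
      unfold bdot
      refine Finset.sum_congr rfl fun t' _ => ?_
      rw [matZ_in]
      split_ifs <;> simp
  rw [Nat.card_eq_fintype_card, Fintype.card_subtype]
  calc _ ≤ (((K.filter hv).biUnion fun w => (univ : Finset (S × (Sᶜ : Finset α) → Bool)).filter
        fun x => ∀ s, bdot (fun t => x (s, t)) w = 0).card : ℝ) := by exact_mod_cast Finset.card_le_card hsub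
    _ ≤ ∑ w ∈ K.filter hv, (((univ : Finset (S × (Sᶜ : Finset α) → Bool)).filter
        fun x => ∀ s, bdot (fun t => x (s, t)) w = 0).card : ℝ) := by exact_mod_cast Finset.card_biUnion_le
    _ ≤ ∑ w ∈ K.filter hv, (q * 2 ^ Fintype.card (Sᶜ : Finset α)) ^ S.card := by
        refine Finset.sum_le_sum fun w hw => ?_
        have h1 := card_rows S w
        rw [Nat.card_eq_fintype_card, Fintype.card_subtype] at h1
        rw [h1]
        push_cast
        exact pow_le_pow_left₀ (Nat.cast_nonneg _) (hat w (mem_filter.1 hw).2) _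
    _ = ((K.filter hv).card : ℝ) * (q * 2 ^ Fintype.card (Sᶜ : Finset α)) ^ S.card := by
        rw [Finset.sum_const, nsmul_eq_mul]
    _ ≤ (p : ℝ) ^ (a * k) * (q * 2 ^ Fintype.card (Sᶜ : Finset α)) ^ S.card := by
        refine mul_le_mul_of_nonneg_right ?_ (by positivity)
        have : (K.filter hv).card ≤ p ^ (a * k) := (Finset.card_filter_le _ _).trans hKc
        exact_mod_cast this

/-- the rank condition from `CorLt` -/
theorem rank_blk (S : Finset α) (b : Sym2 α → Bool) (k : ℕ) (h : CorLt (matZ b) k) (p : ℕ) (hp : p.Prime) :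
    (Sᶜ : Finset α).card ≤ ((blk S b).map (Int.cast : ℤ → ZMod p)).rank + k := by
  have h1 := h p hp Sᶜ
  have h2 : prin ((matZ b).map (Int.cast : ℤ → ZMod p)) Sᶜ = (blk S b).map (Int.cast : ℤ → ZMod p) := rfl
  rw [h2] at h1
  omega

/-- union bound -/
theorem card_union_le {X Y : Type} [Fintype X] (s : Finset Y) (A : X → Prop) (B : Y → X → Prop)
    (h : ∀ x, A x → ∃ y ∈ s, B y x) (c : ℝ) (hc : ∀ y ∈ s, (Nat.card {x // B y x} : ℝ) ≤ c) :
    (Nat.card {x // A x} : ℝ) ≤ s.card * c := by
  classical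
  have h1 : (univ.filter A) ⊆ s.biUnion fun y => univ.filter (B y) := by
    intro x hx
    obtain ⟨y, hy, hB⟩ := h x (mem_filter.1 hx).2
    exact mem_biUnion.2 ⟨y, hy, mem_filter.2 ⟨mem_univ _, hB⟩⟩
  have h2 : ∀ y ∈ s, ((univ.filter (B y)).card : ℝ) ≤ c := fun y hy => by
    have := hc y hy
    rwa [Nat.card_eq_fintype_card, Fintype.card_subtype] at this
  rw [Nat.card_eq_fintype_card, Fintype.card_subtype]
  calc ((univ.filter A).card : ℝ) ≤ ((s.biUnion fun y => univ.filter (B y)).card : ℝ) := by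
        exact_mod_cast Finset.card_le_card h1
    _ ≤ ∑ y ∈ s, ((univ.filter (B y)).card : ℝ) := by exact_mod_cast Finset.card_biUnion_le
    _ ≤ ∑ y ∈ s, c := Finset.sum_le_sum h2
    _ = s.card * c := by rw [Finset.sum_const, nsmul_eq_mul]

/-- atom bound for vectors with `t` units -/
theorem unit_atom {ι : Type} [Fintype ι] [DecidableEq ι] {N : ℕ} [NeZero N] (t : ℕ) (ht : 0 < t) (w : ι → ZMod N)
    (hw : t ≤ Nat.card {i // IsUnit (w i)}) :
    (Nat.card {x : ι → Bool // bdot x w = 0} : ℝ) ≤ (1 / (N : ℝ) + 3 / 2 / Real.sqrt t) * 2 ^ Fintype.card ι := by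
  classical
  set U : Finset ι := univ.filter fun i => IsUnit (w i) with hU
  have hUc : t ≤ U.card := by
    rwa [Nat.card_eq_fintype_card, Fintype.card_subtype] at hw
  have h1 := LOq.atom_le w 0 U (by omega) (fun i hi => (mem_filter.1 hi).2)
  have h2 : (1 : ℝ) / N + 3 / 2 / Real.sqrt U.card ≤ 1 / N + 3 / 2 / Real.sqrt t := by
    have ht' : (0 : ℝ) < t := by exact_mod_cast ht
    have : (3 : ℝ) / 2 / Real.sqrt U.card ≤ 3 / 2 / Real.sqrt t := by
      refine div_le_div_of_nonneg_left (by norm_num) (Real.sqrt_pos.2 ht') (Real.sqrt_le_sqrt ?_)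
      exact_mod_cast hUc
    linarith
  have h3 : LOq.atom w 0 * 2 ^ Fintype.card ι = (Nat.card {x : ι → Bool // bdot x w = 0} : ℝ) := by
    rw [LOq.atom, div_mul_cancel₀ _ (by positivity), Nat.card_eq_fintype_card, Fintype.card_subtype]
    rfl
  rw [← h3]
  exact mul_le_mul_of_nonneg_right (h1.trans h2) (by positivity)

/-- **sharp killed lemma modulo a prime power** -/
theorem kill_pp {p : ℕ} (hp : p.Prime) (a k t z : ℕ) (ha : 1 ≤ a) (ht : 0 < t) :
    (Nat.card {b : Sym2 α → Bool // CorLt (matZ b) k ∧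
      ∃ g : α → ZMod (p ^ a), (matZ b).map (Int.cast : ℤ → ZMod (p ^ a)) *ᵥ g = 0 ∧
        t ≤ Nat.card {i // IsUnit (g i)} ∧ z ≤ (univ.filter fun i => g i = 0).card} : ℝ) ≤
      (Fintype.card α).choose z * ((p : ℝ) ^ (a * k) * (1 / (p : ℝ) ^ a + 3 / 2 / Real.sqrt t) ^ z *
        2 ^ Fintype.card (Sym2 α)) := by
  classical
  have hNe : NeZero (p ^ a) := ⟨(pow_pos hp.pos a).ne'⟩
  have hNt : Nontrivial (ZMod (p ^ a)) := by
    have : Fact (1 < p ^ a) := ⟨Nat.one_lt_pow (by omega) hp.one_lt⟩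
    infer_instance
  have h0 : (Fintype.card α).choose z = (powersetCard z (univ : Finset α)).card := by
    rw [card_powersetCard, card_univ]
  rw [h0]
  refine card_union_le (powersetCard z (univ : Finset α)) _
    (fun S b => (Sᶜ : Finset α).card ≤ ((blk S b).map (Int.cast : ℤ → ZMod p)).rank + k ∧
      ∃ g : α → ZMod (p ^ a), (matZ b).map (Int.cast : ℤ → ZMod (p ^ a)) *ᵥ g = 0 ∧ (∀ s ∈ S, g s = 0) ∧
        t ≤ Nat.card {i : (Sᶜ : Finset α) // IsUnit (g i)}) ?_ _ ?_
  · rintro b ⟨hcor, g, hg, htg, hz⟩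
    obtain ⟨S, hS, hSc⟩ := Finset.exists_subset_card_eq hz
    refine ⟨S, mem_powersetCard.2 ⟨subset_univ _, hSc⟩, rank_blk S b k hcor p hp, g, hg,
      fun s hs => (mem_filter.1 (hS hs)).2, htg.trans ?_⟩
    refine Nat.card_le_card_of_injective
      (fun i : {i // IsUnit (g i)} => (⟨⟨i.1, mem_compl.2 fun hi => ?_⟩, i.2⟩ : {i : (Sᶜ : Finset α) // IsUnit (g i)})) ?_
    · have h1 : g i.1 = 0 := (mem_filter.1 (hS hi)).2
      have h2 := i.2
      rw [h1] at h2
      exact not_isUnit_zero h2
    · intro i j hij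
      simp only [Subtype.mk.injEq] at hij
      exact Subtype.ext hij
  · intro S hS
    have hSc := (mem_powersetCard.1 hS).2
    have h1 := killed S hp a k (1 / (p : ℝ) ^ a + 3 / 2 / Real.sqrt t) (by positivity)
      (fun w => t ≤ Nat.card {i : (Sᶜ : Finset α) // IsUnit (w i)}) (fun w hw => by
        have := unit_atom t ht w hw
        push_cast at this
        exact this)
    rw [hSc] at h1
    exact h1

/-- **no sparse kernel vector modulo a prime** (fixed prime) -/
theorem nosp_one {p : ℕ} (hp : p.Prime) (k t : ℕ) :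
    (Nat.card {b : Sym2 α → Bool // CorLt (matZ b) k ∧
      ∃ g : α → ZMod p, g ≠ 0 ∧ (matZ b).map (Int.cast : ℤ → ZMod p) *ᵥ g = 0 ∧
        (univ.filter fun i => g i ≠ 0).card ≤ t} : ℝ) ≤
      ((univ : Finset (Finset α)).filter fun S => (Sᶜ : Finset α).card ≤ t).card *
        ((p : ℝ) ^ k * (1 / 2) ^ (Fintype.card α - t) * 2 ^ Fintype.card (Sym2 α)) := by
  classical
  refine card_union_le ((univ : Finset (Finset α)).filter fun S => (Sᶜ : Finset α).card ≤ t) _
    (fun S b => (Sᶜ : Finset α).card ≤ ((blk S b).map (Int.cast : ℤ → ZMod p)).rank + k ∧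
      ∃ g : α → ZMod (p ^ 1), (matZ b).map (Int.cast : ℤ → ZMod (p ^ 1)) *ᵥ g = 0 ∧ (∀ s ∈ S, g s = 0) ∧
        (fun t : (Sᶜ : Finset α) => g t) ≠ 0) ?_ _ ?_
  · rintro b ⟨hcor, g, hg0, hg, hgt⟩
    refine ⟨univ.filter fun i => g i = 0, mem_filter.2 ⟨mem_univ _, ?_⟩, rank_blk _ b k hcor p hp, ?_⟩
    · rw [Finset.compl_filter]
      exact hgt
    · rw [pow_one]
      refine ⟨g, hg, fun s hs => (mem_filter.1 hs).2, fun h0 => hg0 ?_⟩
      funext i
      by_contra hi
      have := congrFun h0 ⟨i, mem_compl.2 fun h => hi (mem_filter.1 h).2⟩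
      exact hi this
  · intro S hS
    have hSc := (mem_filter.1 hS).2
    have h1 := killed S hp 1 k (1 / 2) (by norm_num) (fun w => w ≠ 0) (fun w hw => half_atom w hw)
    rw [one_mul] at h1
    refine h1.trans ?_
    have h2 : Fintype.card α - t ≤ S.card := by
      have := Finset.card_add_card_compl S
      omega
    have h3 : ((1 : ℝ) / 2) ^ S.card ≤ (1 / 2) ^ (Fintype.card α - t) :=
      pow_le_pow_of_le_one (by norm_num) (by norm_num) h2
    exact mul_le_mul_of_nonneg_right (mul_le_mul_of_nonneg_left h3 (by positivity)) (by positivity)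

end Vale.Agent.P160.Half.G.KS
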