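import Vale.Agent.P160.Half.Blk

/-! # P160, half rate: G6 (helper525): zero counts modulo `p ^ a` for the primes `p < y` -/

open Finset Matrix

set_option linter.unusedSectionVars false

namespace Vale.Agent.P160.Half.G.KA525

/-- a matrix over `ℤ` with trivial integral kernel has a nonzero maximal minor -/
theorem exists_minor {α κ : Type*} [Fintype α] [Fintype κ] [DecidableEq α] [DecidableEq κ] (M : Matrix α κ ℤ)
    (h : ∀ v : κ → ℤ, M *ᵥ v = 0 → v = 0) : ∃ r : κ → α, (M.submatrix r id).det ≠ 0 := by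
  classical
  set N : Matrix α κ ℚ := M.map (Int.cast : ℤ → ℚ) with hN
  -- the rational kernel is trivial
  have hker : ∀ v : κ → ℚ, N *ᵥ v = 0 → v = 0 := by
    intro v hv
    obtain ⟨d, hd⟩ := IsLocalization.exist_integer_multiples_of_finset (nonZeroDivisors ℤ) (univ.image v)
    have hd0 : (d : ℤ) ≠ 0 := nonZeroDivisors.ne_zero d.2
    have h1 : ∀ i, ∃ z : ℤ, (z : ℚ) = (d : ℤ) * v i := by
      intro i
      obtain ⟨z, hz⟩ := hd (v i) (mem_image_of_mem v (mem_univ i))
      refine ⟨z, ?_⟩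
      have : (algebraMap ℤ ℚ) z = (d : ℤ) • v i := hz
      rw [eq_intCast, zsmul_eq_mul] at this
      exact this
    choose z hz using h1
    have h2 : M *ᵥ z = 0 := by
      funext i
      have h3 := congrFun hv i
      have h4 : (((M *ᵥ z) i : ℤ) : ℚ) = 0 := by
        have : (((M *ᵥ z) i : ℤ) : ℚ) = (d : ℤ) * (N *ᵥ v) i := by
          simp only [Matrix.mulVec, dotProduct, hN, Matrix.map_apply]
          push_cast
          rw [Finset.mul_sum]
          refine Finset.sum_congr rfl fun j _ => ?_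
          rw [hz]
          ring
        rw [this, h3]
        simp
      exact_mod_cast h4
    have h5 := h z h2
    funext i
    have h6 : ((z i : ℤ) : ℚ) = 0 := by rw [h5]; simp
    rw [hz] at h6
    rcases mul_eq_zero.1 h6 with h7 | h7
    · exact absurd (by exact_mod_cast h7) hd0
    · exact h7
  -- rank
  have hrank : N.rank = Fintype.card κ := by
    have hcol : LinearIndependent ℚ N.col := by
      rw [← Matrix.mulVec_injective_iff]
      intro v w hvw
      have : N *ᵥ (v - w) = 0 := by rw [Matrix.mulVec_sub]; exact sub_eq_zero.2 hvw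
      exact sub_eq_zero.1 (hker _ this)
    rw [← Matrix.rank_transpose]
    exact hcol.rank_matrix (M := Nᵀ)
  obtain ⟨τ, a, ha, hspan, hli⟩ := exists_linearIndependent' ℚ N.row
  have : Finite τ := Finite.of_injective a ha
  have : Fintype τ := Fintype.ofFinite τ
  have hτ : Fintype.card τ = Fintype.card κ := by
    rw [← hrank, Matrix.rank_eq_finrank_span_row, ← hspan, finrank_span_eq_card hli]
  let e : κ ≃ τ := Fintype.equivOfCardEq hτ.symm
  refine ⟨fun k => a (e k), ?_⟩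
  have h8 : LinearIndependent ℚ (N.submatrix (fun k => a (e k)) id).row := by
    have := hli.comp e e.injective
    exact this
  have h9 : (N.submatrix (fun k => a (e k)) id).det ≠ 0 := by
    have := Matrix.linearIndependent_rows_iff_isUnit.1 h8
    rw [Matrix.isUnit_iff_isUnit_det] at this
    exact this.ne_zero
  intro h0
  apply h9
  have h10 : N.submatrix (fun k => a (e k)) id = (M.submatrix (fun k => a (e k)) id).map (Int.castRingHom ℚ) := by
    ext i j
    rfl
  rw [h10, ← RingHom.mapMatrix_apply, ← RingHom.map_det, h0]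
  simp

theorem abs_det_le' {κ : Type*} [Fintype κ] [DecidableEq κ] (N : Matrix κ κ ℤ) (h : ∀ i j, |N i j| ≤ 1) :
    |N.det| ≤ (Fintype.card κ).factorial := by
  have := Matrix.det_le (abv := (IsAbsoluteValue.toAbsoluteValue (fun x : ℤ => |x|))) (A := N) (x := 1) (fun i j => h i j)
  simpa using this

section heavy

variable {α β : Type} [Fintype α] [Fintype β] [DecidableEq α] [DecidableEq β]

theorem fm_abs (f : α → β → Bool) (i : α) (j : β) : |fm f i j| ≤ 1 := by
  unfold fm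
  split_ifs <;> simp

open Classical in
/-- primitive words are heavy modulo `p ^ (a - s)` -/
theorem heavy (b : Sym2 α → Bool) (f : α → β → Bool) {p a s t : ℕ} (hp : p.Prime) (hs : s ≤ a)
    (hfac : (t + Fintype.card β).factorial < 2 ^ (a - s)) (hns : NoSparseZ (matZ b) (fm f) t)
    (g : α → ZMod (p ^ a)) (c : β → ZMod (p ^ a)) (hw : Word _ (matZ b) (fm f) g c) (hpr : Prim g c) :
    t < (univ.filter fun i => ¬ ((p : ZMod (p ^ a)) ^ (a - s) ∣ g i)).card := by
  by_contra hcon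
  push Not at hcon
  set J := univ.filter fun i => ¬ ((p : ZMod (p ^ a)) ^ (a - s) ∣ g i) with hJ
  have has : 1 ≤ a - s := by
    by_contra h
    have h0 : a - s = 0 := by omega
    rw [h0, pow_zero] at hfac
    exact absurd (Nat.factorial_pos (t + Fintype.card β)) (by omega)
  have hpa : ((p : ZMod (p ^ a)) ^ a) = 0 := by
    rw [← Nat.cast_pow]; exact ZMod.natCast_self _
  -- the matrix
  set M : Matrix α (J ⊕ β) ℤ := fun i v => Sum.elim (fun j : J => matZ b i j) (fun j => fm f i j) v with hM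
  have hker : ∀ v : J ⊕ β → ℤ, M *ᵥ v = 0 → v = 0 := by
    intro v hv
    by_contra hne
    set g' : α → ℤ := fun i => if h : i ∈ J then v (Sum.inl ⟨i, h⟩) else 0 with hg'
    have hw' : Word ℤ (matZ b) (fm f) g' (fun j => v (Sum.inr j)) := by
      funext i
      have h1 := congrFun hv i
      simp only [Matrix.mulVec, dotProduct, Fintype.sum_sum_type, hM, Sum.elim_inl, Sum.elim_inr, Pi.zero_apply] at h1
      simp only [Pi.add_apply, Matrix.mulVec, dotProduct, Matrix.map_apply, Pi.zero_apply, Int.cast_id]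
      rw [← h1]
      congr 1
      have h2 : ∑ x, matZ b i x * g' x = ∑ x ∈ J, matZ b i x * g' x := by
        refine (Finset.sum_subset (Finset.subset_univ J) fun x _ hx => ?_).symm
        simp only [hg', dif_neg hx, mul_zero]
      rw [h2, ← Finset.sum_coe_sort J]
      refine Finset.sum_congr rfl fun x _ => ?_
      simp only [hg']
      rw [dif_pos x.2]
    have hne' : g' ≠ 0 ∨ (fun j => v (Sum.inr j)) ≠ 0 := by
      by_contra hc
      push Not at hc
      apply hne
      funext u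
      cases u with
      | inl j =>
        have := congrFun hc.1 j
        simp only [hg', Pi.zero_apply] at this
        rw [dif_pos j.2] at this
        exact this
      | inr j => exact congrFun hc.2 j
    have h3 := hns g' _ hw' hne'
    have h4 : (univ.filter fun i => g' i ≠ 0).card ≤ J.card := by
      refine Finset.card_le_card fun i hi => ?_
      by_contra hiJ
      have := (mem_filter.1 hi).2
      simp only [hg', dif_neg hiJ, ne_eq, not_true_eq_false] at this
    omega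
  obtain ⟨r, hr⟩ := exists_minor M hker
  set D := (M.submatrix r id).det with hD
  -- bound
  have hDle : |D| ≤ ((t + Fintype.card β).factorial : ℕ) := by
    have h1 : |D| ≤ (Fintype.card (J ⊕ β)).factorial := by
      refine abs_det_le' _ fun i j => ?_
      cases j with
      | inl j => exact matZ_abs b _ _
      | inr j => exact fm_abs f _ _
    refine h1.trans ?_
    have h2 : Fintype.card (J ⊕ β) ≤ t + Fintype.card β := by
      rw [Fintype.card_sum, Fintype.card_coe]
      omega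
    exact_mod_cast Nat.factorial_le h2
  -- divisibility
  set v : J ⊕ β → ZMod (p ^ a) := Sum.elim (fun j => g j) c with hv
  have hMv : (M.map (Int.cast : ℤ → ZMod (p ^ a))) *ᵥ ((p : ZMod (p ^ a)) ^ s • v) = 0 := by
    funext i
    have h1 := congrFun hw i
    simp only [Pi.add_apply, Matrix.mulVec, dotProduct, Matrix.map_apply, Pi.zero_apply] at h1
    have h2 : ∑ x, (matZ b i x : ZMod (p ^ a)) * g x =
        ∑ x ∈ J, (matZ b i x : ZMod (p ^ a)) * g x + ∑ x ∈ Jᶜ, (matZ b i x : ZMod (p ^ a)) * g x :=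
      (Finset.sum_add_sum_compl J _).symm
    have h3 : (p : ZMod (p ^ a)) ^ s * ∑ x ∈ Jᶜ, (matZ b i x : ZMod (p ^ a)) * g x = 0 := by
      rw [Finset.mul_sum]
      refine Finset.sum_eq_zero fun x hx => ?_
      have hx' : x ∉ J := Finset.mem_compl.1 hx
      rw [hJ, mem_filter] at hx'
      push Not at hx'
      obtain ⟨y, hy⟩ := hx' (mem_univ _)
      rw [hy]
      have : (p : ZMod (p ^ a)) ^ s * ((matZ b i x : ZMod (p ^ a)) * ((p : ZMod (p ^ a)) ^ (a - s) * y)) =
        (p : ZMod (p ^ a)) ^ (s + (a - s)) * ((matZ b i x : ZMod (p ^ a)) * y) := by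
        rw [pow_add]; ring
      rw [this, Nat.add_sub_cancel' hs, hpa, zero_mul]
    rw [Matrix.mulVec_smul]
    have hMi : ((M.map (Int.cast : ℤ → ZMod (p ^ a))) *ᵥ v) i =
        ∑ x : J, (matZ b i x : ZMod (p ^ a)) * g x + ∑ j : β, (fm f i j : ZMod (p ^ a)) * c j := by
      simp only [Matrix.mulVec, dotProduct, Fintype.sum_sum_type]
      rfl
    rw [Pi.smul_apply, hMi, smul_eq_mul, Pi.zero_apply]
    have h4 : ∑ x : J, (matZ b i x : ZMod (p ^ a)) * g x = ∑ x ∈ J, (matZ b i x : ZMod (p ^ a)) * g x :=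
      Finset.sum_coe_sort J (fun x => (matZ b i x : ZMod (p ^ a)) * g x)
    rw [h4]
    rw [h2] at h1
    have h5 := congrArg (fun z => (p : ZMod (p ^ a)) ^ s * z) h1
    simp only [mul_zero, mul_add] at h5
    rw [h3, add_zero] at h5
    rw [mul_add]
    exact h5
  have hDv : ∀ j, (D : ZMod (p ^ a)) * ((p : ZMod (p ^ a)) ^ s * v j) = 0 := by
    intro j
    set N : Matrix (J ⊕ β) (J ⊕ β) (ZMod (p ^ a)) := (M.submatrix r id).map (Int.castRingHom (ZMod (p ^ a))) with hN
    have h1 : N *ᵥ ((p : ZMod (p ^ a)) ^ s • v) = 0 := by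
      funext i
      exact congrFun hMv (r i)
    have h2 : N.det = (D : ZMod (p ^ a)) := by
      rw [hN, ← RingHom.mapMatrix_apply, ← RingHom.map_det]
      rfl
    have h3 : N.adjugate *ᵥ (N *ᵥ ((p : ZMod (p ^ a)) ^ s • v)) = 0 := by rw [h1, Matrix.mulVec_zero]
    rw [Matrix.mulVec_mulVec, Matrix.adjugate_mul, Matrix.smul_mulVec, Matrix.one_mulVec, h2] at h3
    exact congrFun h3 j
  have hunit : ∃ j, IsUnit (v j) := by
    rcases hpr with ⟨i, hi⟩ | ⟨j, hj⟩
    · have hiJ : i ∈ J := by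
        rw [hJ, mem_filter]
        refine ⟨mem_univ _, fun hdvd => ?_⟩
        have h1 : IsUnit ((p : ZMod (p ^ a)) ^ (a - s)) := isUnit_of_dvd_unit hdvd hi
        have h2 : (p : ZMod (p ^ a)) ^ (a - s) * (p : ZMod (p ^ a)) ^ s = 0 := by
          rw [← pow_add, Nat.sub_add_cancel hs, hpa]
        have h3 : (p : ZMod (p ^ a)) ^ s = 0 := (h1.mul_right_eq_zero).1 h2
        rw [← Nat.cast_pow, ZMod.natCast_eq_zero_iff] at h3
        have := (Nat.pow_dvd_pow_iff_le_right hp.one_lt).1 h3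
        omega
      exact ⟨Sum.inl ⟨i, hiJ⟩, hi⟩
    · exact ⟨Sum.inr j, hj⟩
  obtain ⟨j, hj⟩ := hunit
  have h1 : ((D * (p : ℤ) ^ s : ℤ) : ZMod (p ^ a)) = 0 := by
    have h2 := hDv j
    rw [← mul_assoc] at h2
    have := (hj.mul_left_eq_zero).1 h2
    push_cast
    exact this
  rw [ZMod.intCast_zmod_eq_zero_iff_dvd] at h1
  have h2 : (p : ℤ) ^ (a - s) ∣ D := by
    have h3 : ((p ^ a : ℕ) : ℤ) = (p : ℤ) ^ (a - s) * (p : ℤ) ^ s := by
      rw [← pow_add, Nat.sub_add_cancel hs]; push_cast; rfl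
    rw [h3] at h1
    exact (mul_dvd_mul_iff_right (pow_ne_zero _ (by exact_mod_cast hp.ne_zero))).1 h1
  have h3 : (p : ℤ) ^ (a - s) ≤ |D| := Int.le_of_dvd (abs_pos.2 hr) ((dvd_abs _ _).2 h2)
  have h4 : (2 : ℤ) ^ (a - s) ≤ (p : ℤ) ^ (a - s) := pow_le_pow_left₀ (by norm_num) (by exact_mod_cast hp.two_le) _
  have h5 : (2 : ℤ) ^ (a - s) ≤ ((t + Fintype.card β).factorial : ℕ) := h4.trans (h3.trans hDle)
  have h6 : 2 ^ (a - s) ≤ (t + Fintype.card β).factorial := by exact_mod_cast h5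
  omega

end heavy


section ker

variable {α β : Type} [Fintype α] [Fintype β] [DecidableEq α] [DecidableEq β]

/-- the fixed block -/
def EE (R : Type) [CommRing R] (S : Finset α) (b : Sym2 α → Bool) (f : α → β → Bool) : Matrix ↥(Sᶜ) (↥(Sᶜ) ⊕ β) R :=
  Matrix.of fun i v => Sum.elim (fun j : ↥(Sᶜ) => ((matZ b i j : ℤ) : R)) (fun j => ((fm f i j : ℤ) : R)) v

theorem EE_mulVec (R : Type) [CommRing R] (S : Finset α) (b : Sym2 α → Bool) (f : α → β → Bool) (w : ↥(Sᶜ) ⊕ β → R)
    (i : ↥(Sᶜ)) : (EE R S b f *ᵥ w) i = ∑ j : ↥(Sᶜ), ((matZ b i j : ℤ) : R) * w (Sum.inl j) +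
      ∑ j : β, ((fm f i j : ℤ) : R) * w (Sum.inr j) := by
  simp only [Matrix.mulVec, dotProduct, Fintype.sum_sum_type]
  rfl

/-- the kernel modulo `p ^ a` is small -/
theorem card_ker (S : Finset α) (b : Sym2 α → Bool) (f : α → β → Bool) {p a k : ℕ} (hp : p.Prime)
    (hr : (Sᶜ).card < (prin ((matZ b).map (Int.cast : ℤ → ZMod p)) (Sᶜ)).rank + k) :
    Nat.card (LinearMap.ker (EE (ZMod (p ^ a)) S b f).mulVecLin) ≤ p ^ (a * (k + Fintype.card β)) := by
  classical
  have : Fact p.Prime := ⟨hp⟩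
  have : NeZero (p ^ a) := ⟨pow_ne_zero _ hp.ne_zero⟩
  set N := (matZ b).map (Int.cast : ℤ → ZMod p) with hN
  obtain ⟨A, hAT, hAcard, hAdet, -⟩ := exists_base N (fun i j => by simp only [hN, Matrix.map_apply, matZ_symm b i j]) (Sᶜ)
  -- the determinant is a unit modulo `p ^ a`
  have hdet : ((prin (matZ b) A).det : ZMod p) ≠ 0 := by
    have h1 : prin N A = (prin (matZ b) A).map (Int.castRingHom (ZMod p)) := by
      ext i j; rfl
    rw [h1, ← RingHom.mapMatrix_apply, ← RingHom.map_det] at hAdet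
    exact hAdet
  have hcop : IsCoprime ((p ^ a : ℕ) : ℤ) (prin (matZ b) A).det := by
    have h2 : ¬ ((p : ℤ) ∣ (prin (matZ b) A).det) := fun h => hdet ((ZMod.intCast_zmod_eq_zero_iff_dvd _ _).2 h)
    have h3 : IsCoprime (p : ℤ) (prin (matZ b) A).det :=
      (Nat.prime_iff_prime_int.1 hp).coprime_iff_not_dvd.2 h2
    push_cast
    exact h3.pow_left
  have hunit : IsUnit (((prin (matZ b) A).det : ℤ) : ZMod (p ^ a)) := (ZMod.coe_int_isUnit_iff_isCoprime _ _).2 hcop
  -- restriction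
  set U := LinearMap.ker (EE (ZMod (p ^ a)) S b f).mulVecLin with hU
  set ρ : U → ({i : ↥(Sᶜ) // (i : α) ∉ A} ⊕ β → ZMod (p ^ a)) :=
    fun w v => Sum.elim (fun i => w.1 (Sum.inl i.1)) (fun j => w.1 (Sum.inr j)) v with hρ
  have hinj : Function.Injective ρ := by
    intro w w' hww
    set d : ↥(Sᶜ) ⊕ β → ZMod (p ^ a) := w.1 - w'.1 with hd
    have hdU : EE (ZMod (p ^ a)) S b f *ᵥ d = 0 := by
      have h1 : EE (ZMod (p ^ a)) S b f *ᵥ w.1 = 0 := w.2
      have h2 : EE (ZMod (p ^ a)) S b f *ᵥ w'.1 = 0 := w'.2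
      rw [hd, Matrix.mulVec_sub, h1, h2, sub_zero]
    have hd1 : ∀ i : ↥(Sᶜ), (i : α) ∉ A → d (Sum.inl i) = 0 := by
      intro i hi
      have := congrFun hww (Sum.inl ⟨i, hi⟩)
      simp only [hρ, Sum.elim_inl] at this
      rw [hd, Pi.sub_apply, this, sub_self]
    have hd2 : ∀ j : β, d (Sum.inr j) = 0 := by
      intro j
      have := congrFun hww (Sum.inr j)
      simp only [hρ, Sum.elim_inr] at this
      rw [hd, Pi.sub_apply, this, sub_self]
    set dA : A → ZMod (p ^ a) := fun i => d (Sum.inl ⟨i, hAT i.2⟩) with hdA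
    set P := (prin (matZ b) A).map (Int.castRingHom (ZMod (p ^ a))) with hP
    have hPd : P *ᵥ dA = 0 := by
      funext i
      have h1 := congrFun hdU ⟨i, hAT i.2⟩
      rw [EE_mulVec, Pi.zero_apply] at h1
      have h2 : ∑ j : β, ((fm f i j : ℤ) : ZMod (p ^ a)) * d (Sum.inr j) = 0 :=
        Finset.sum_eq_zero fun j _ => by rw [hd2, mul_zero]
      rw [h2, add_zero] at h1
      simp only [Matrix.mulVec, dotProduct, Pi.zero_apply]
      rw [← h1]
      -- both are sums over `α`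
      set F : α → ZMod (p ^ a) := fun j => if h : j ∈ Sᶜ then ((matZ b i j : ℤ) : ZMod (p ^ a)) * d (Sum.inl ⟨j, h⟩) else 0
        with hF
      have h3 : ∑ j : ↥(Sᶜ), ((matZ b i j : ℤ) : ZMod (p ^ a)) * d (Sum.inl j) = ∑ j ∈ Sᶜ, F j := by
        rw [← Finset.sum_coe_sort (Sᶜ)]
        refine Finset.sum_congr rfl fun j _ => ?_
        simp only [hF]
        rw [dif_pos j.2]
      have h4 : ∑ j : A, P i j * dA j = ∑ j ∈ A, F j := by
        rw [← Finset.sum_coe_sort A]
        refine Finset.sum_congr rfl fun j _ => ?_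
        simp only [hF]
        rw [dif_pos (hAT j.2)]
        rfl
      change ∑ j : A, P i j * dA j = _
      rw [h3, h4]
      refine Finset.sum_subset hAT fun j hj hjA => ?_
      simp only [hF]
      rw [dif_pos hj, hd1 ⟨j, hj⟩ hjA, mul_zero]
    have hdA0 : ∀ i : A, dA i = 0 := by
      intro i
      have h1 : P.adjugate *ᵥ (P *ᵥ dA) = 0 := by rw [hPd, Matrix.mulVec_zero]
      rw [Matrix.mulVec_mulVec, Matrix.adjugate_mul, Matrix.smul_mulVec, Matrix.one_mulVec] at h1
      have h2 : P.det = (((prin (matZ b) A).det : ℤ) : ZMod (p ^ a)) := by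
        rw [hP, ← RingHom.mapMatrix_apply, ← RingHom.map_det]
        rfl
      have h3 := congrFun h1 i
      rw [h2, Pi.smul_apply, smul_eq_mul, Pi.zero_apply] at h3
      exact (hunit.mul_right_eq_zero).1 h3
    refine Subtype.ext (funext fun v => ?_)
    have h5 : d v = 0 := by
      cases v with
      | inl i =>
        by_cases hi : (i : α) ∈ A
        · exact hdA0 ⟨i, hi⟩
        · exact hd1 i hi
      | inr j => exact hd2 j
    exact sub_eq_zero.1 h5
  have hle := Nat.card_le_card_of_injective ρ hinj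
  refine hle.trans ?_
  rw [Nat.card_eq_fintype_card, Fintype.card_fun, ZMod.card, Fintype.card_sum, ← pow_mul]
  refine Nat.pow_le_pow_right hp.pos (Nat.mul_le_mul_left _ (Nat.add_le_add_right ?_ _))
  have h1 : Fintype.card {i : ↥(Sᶜ) // (i : α) ∉ A} + A.card = (Sᶜ).card := by
    have h2 : Fintype.card {i : ↥(Sᶜ) // (i : α) ∈ A} = A.card := by
      rw [← Fintype.card_coe A]
      refine Fintype.card_congr ⟨fun i => ⟨i.1.1, i.2⟩, fun i => ⟨⟨i.1, hAT i.2⟩, i.2⟩, fun i => rfl, fun i => rfl⟩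
    have h3 := Fintype.card_subtype_compl (fun i : ↥(Sᶜ) => (i : α) ∈ A)
    rw [h2, Fintype.card_coe] at h3
    have h4 : A.card ≤ (Sᶜ).card := Finset.card_le_card hAT
    omega
  rw [← hAcard] at hr
  omega

end ker

/-- the length function -/
noncomputable def len (p : ℕ) {R ι : Type} [CommRing R] (U : Submodule R (ι → R)) : ℕ := Nat.log p (Nat.card U)

theorem len_lt {p a : ℕ} (hp : p.Prime) {ι : Type} [Fintype ι] (U V : Submodule (ZMod (p ^ a)) (ι → ZMod (p ^ a)))
    (h : V < U) : len p V < len p U := by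
  have : NeZero (p ^ a) := ⟨pow_ne_zero _ hp.ne_zero⟩
  have hc : ∀ W : Submodule (ZMod (p ^ a)) (ι → ZMod (p ^ a)), ∃ u, Nat.card W = p ^ u := by
    intro W
    have h1 : Nat.card W.toAddSubgroup ∣ Nat.card (ι → ZMod (p ^ a)) := AddSubgroup.card_addSubgroup_dvd_card _
    rw [Nat.card_fun, Nat.card_zmod, ← pow_mul] at h1
    obtain ⟨u, -, hu⟩ := (Nat.dvd_prime_pow hp).1 h1
    exact ⟨u, hu⟩
  obtain ⟨u, hu⟩ := hc U
  obtain ⟨v, hv⟩ := hc V
  have hlt : Nat.card V < Nat.card U := by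
    have : (V : Set (ι → ZMod (p ^ a))) ⊂ U := h
    have h2 := Set.ncard_lt_ncard this (Set.toFinite _)
    exact h2
  unfold len
  rw [hu, hv] at hlt ⊢
  rw [Nat.log_pow hp.one_lt, Nat.log_pow hp.one_lt]
  exact (Nat.pow_lt_pow_iff_right hp.one_lt).1 hlt

section one

variable {α β : Type} [Fintype α] [Fintype β] [DecidableEq α] [DecidableEq β]

/-- the event for one prime and one set of zeros -/
def Ev (p a t k : ℕ) (S : Finset α) (bf : (Sym2 α → Bool) × (α → β → Bool)) : Prop :=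
  CorLt (matZ bf.1) k ∧ NoSparseZ (matZ bf.1) (fm bf.2) t ∧
    ∃ (g : α → ZMod (p ^ a)) (c : β → ZMod (p ^ a)), Word _ (matZ bf.1) (fm bf.2) g c ∧ Prim g c ∧ ∀ i ∈ S, g i = 0

theorem not_cross (S : Finset α) {i j : α} (hi : i ∉ S) (hj : j ∉ S) :
    ¬ ∃ u : S × ↥(Sᶜ), s(i, j) = s((u.1 : α), (u.2 : α)) := by
  rintro ⟨u, hu⟩
  rcases Sym2.eq_iff.1 hu with ⟨h1, -⟩ | ⟨-, h2⟩
  · exact hi (h1 ▸ u.1.2)
  · exact hj (h2 ▸ u.1.2)

theorem matZ_upd (S : Finset α) (c : (Sym2 α → Bool) × (α → β → Bool)) (x : S → (↥(Sᶜ) ⊕ β) → Bool) {i j : α}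
    (hi : i ∉ S) (hj : j ∉ S) : matZ (Blk.upd S c x).1 i j = matZ c.1 i j := by
  unfold matZ
  rw [Blk.upd_fst_other S c x _ (not_cross S hi hj)]

theorem fm_upd (S : Finset α) (c : (Sym2 α → Bool) × (α → β → Bool)) (x : S → (↥(Sᶜ) ⊕ β) → Bool) {i : α}
    (hi : i ∉ S) (j : β) : fm (Blk.upd S c x).2 i j = fm c.2 i j := by
  unfold fm
  rw [Blk.upd_snd_not S c x i hi j]

theorem prin_upd (S : Finset α) (c : (Sym2 α → Bool) × (α → β → Bool)) (x : S → (↥(Sᶜ) ⊕ β) → Bool) (p : ℕ) :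
    prin ((matZ (Blk.upd S c x).1).map (Int.cast : ℤ → ZMod p)) (Sᶜ) =
      prin ((matZ c.1).map (Int.cast : ℤ → ZMod p)) (Sᶜ) := by
  ext i j
  change ((matZ (Blk.upd S c x).1 i j : ℤ) : ZMod p) = ((matZ c.1 i j : ℤ) : ZMod p)
  rw [matZ_upd S c x (Finset.mem_compl.1 i.2) (Finset.mem_compl.1 j.2)]

theorem card_Ev (hR : RowsStmt) (hLO : LOppStmt) {p a s L t k : ℕ} {q : ℝ} (hp : p.Prime) (hs : s ≤ a) (hL : 1 ≤ L) (ht : 1 ≤ t)
    (hfac : (t + Fintype.card β).factorial < 2 ^ (a - s))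
    (hq : q = max ((1 / 2) ^ L) (1 / (2 : ℝ) ^ s + 3 / 2 / Real.sqrt (t / L))) (hq1 : q ≤ 1) (S : Finset α) :
    (Nat.card {bf : (Sym2 α → Bool) × (α → β → Bool) // Ev p a t k S bf} : ℝ) ≤
      2 ^ S.card * q ^ (S.card - a * (k + Fintype.card β)) * 2 ^ (Fintype.card (Sym2 α) + Fintype.card α * Fintype.card β) := by
  classical
  have hpz : NeZero (p ^ a) := ⟨pow_ne_zero _ hp.ne_zero⟩
  have hq0 : 0 ≤ q := by rw [hq]; positivity
  refine Blk.card_block S _ _ fun c0 => ?_
  by_cases hex : ∃ x0, CorLt (matZ (Blk.upd S c0 x0).1) k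
  swap
  · have : IsEmpty {x : S → (↥(Sᶜ) ⊕ β) → Bool // Ev p a t k S (Blk.upd S c0 x)} := ⟨fun x => hex ⟨x.1, x.2.1⟩⟩
    rw [Nat.card_of_isEmpty, Nat.cast_zero]
    positivity
  obtain ⟨x0, hx0⟩ := hex
  have hr := hx0 p hp (Sᶜ)
  rw [prin_upd] at hr
  set U := LinearMap.ker (EE (ZMod (p ^ a)) S c0.1 c0.2).mulVecLin with hU
  have hlen : len p U ≤ a * (k + Fintype.card β) := by
    unfold len
    have := Nat.log_mono_right (b := p) (card_ker S c0.1 c0.2 (a := a) hp hr)
    rwa [Nat.log_pow hp.one_lt] at this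
  set hv : ((↥(Sᶜ) ⊕ β) → ZMod (p ^ a)) → Prop :=
    fun w => t ≤ Nat.card {j // ¬ ((p : ZMod (p ^ a)) ^ (a - s) ∣ w j)} with hhv
  have hatom : ∀ w, hv w → (Nat.card {x : (↥(Sᶜ) ⊕ β) → Bool // bdot x w = 0} : ℝ) ≤ q * 2 ^ Fintype.card (↥(Sᶜ) ⊕ β) := by
    intro w hw
    have h1 := hLO (↥(Sᶜ) ⊕ β) p a s L t hp hs hL ht w 0 hw
    have h2 : max ((1 / 2 : ℝ) ^ L) (1 / (p : ℝ) ^ s + 3 / 2 / Real.sqrt (t / L)) ≤ q := by
      rw [hq]
      refine max_le_max le_rfl (add_le_add ?_ le_rfl)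
      refine one_div_le_one_div_of_le (by positivity) ?_
      exact pow_le_pow_left₀ (by norm_num) (by exact_mod_cast hp.two_le) _
    have h3 := h1.trans h2
    unfold LOq.atom at h3
    rw [div_le_iff₀ (by positivity)] at h3
    have h4 : Nat.card {x : (↥(Sᶜ) ⊕ β) → Bool // bdot x w = 0} =
        (univ.filter (fun x : (↥(Sᶜ) ⊕ β) → Bool => ∑ i, (if x i then w i else 0) = 0)).card := by
      rw [Nat.card_eq_fintype_card, Fintype.card_subtype]
      rfl
    rw [h4]
    exact h3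
  have key := hR (ZMod (p ^ a)) (↥(Sᶜ) ⊕ β) S hv (len p) q (fun U V h => len_lt hp U V h) hq0 hq1 hatom U
    (a * (k + Fintype.card β)) hlen
  rw [Fintype.card_coe] at key ⊢
  refine le_trans ?_ key
  -- the inclusion
  have hsub : ∀ x, Ev p a t k S (Blk.upd S c0 x) → ∃ w ∈ U, hv w ∧ ∀ s, bdot (x s) w = 0 := by
    rintro x ⟨-, hns, g, c, hw, hpr, hz⟩
    have hsplit : ∀ (F : α → ZMod (p ^ a)), ∑ j, F j * g j = ∑ j : ↥(Sᶜ), F j * g j := by
      intro F
      rw [Finset.sum_coe_sort (Sᶜ) (fun j => F j * g j)]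
      refine (Finset.sum_subset (Finset.subset_univ (Sᶜ)) fun j _ hj => ?_).symm
      rw [hz j (by simpa using hj), mul_zero]
    refine ⟨fun v => Sum.elim (fun j : ↥(Sᶜ) => g j) c v, ?_, ?_, ?_⟩
    · rw [hU, LinearMap.mem_ker]
      funext i
      change (EE (ZMod (p ^ a)) S c0.1 c0.2 *ᵥ _) i = 0
      rw [EE_mulVec]
      have h1 := congrFun hw (i : α)
      simp only [Pi.add_apply, Matrix.mulVec, dotProduct, Matrix.map_apply, Pi.zero_apply] at h1
      rw [hsplit] at h1
      rw [← h1]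
      congr 1
      · refine Finset.sum_congr rfl fun j _ => ?_
        rw [matZ_upd S c0 x (Finset.mem_compl.1 i.2) (Finset.mem_compl.1 j.2)]
        rfl
      · refine Finset.sum_congr rfl fun j _ => ?_
        rw [fm_upd S c0 x (Finset.mem_compl.1 i.2) j]
        rfl
    · have h1 := heavy (Blk.upd S c0 x).1 (Blk.upd S c0 x).2 hp hs hfac hns g c hw hpr
      refine h1.le.trans ?_
      rw [← Fintype.card_subtype, ← Nat.card_eq_fintype_card]
      refine Nat.card_le_card_of_injective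
        (fun i : {i // ¬ ((p : ZMod (p ^ a)) ^ (a - s) ∣ g i)} =>
          (⟨Sum.inl ⟨i.1, Finset.mem_compl.2 fun hi => i.2 (by rw [hz i.1 hi]; exact dvd_zero _)⟩, i.2⟩ :
            {j : ↥(Sᶜ) ⊕ β // ¬ ((p : ZMod (p ^ a)) ^ (a - s) ∣ Sum.elim (fun j : ↥(Sᶜ) => g j) c j)})) ?_
      intro i i' h
      have h2 := congrArg Subtype.val h
      have h3 := Sum.inl.inj h2
      exact Subtype.ext (congrArg (fun z : ↥(Sᶜ) => (z : α)) h3)
    · intro s'
      have h1 := congrFun hw (s' : α)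
      simp only [Pi.add_apply, Matrix.mulVec, dotProduct, Matrix.map_apply, Pi.zero_apply] at h1
      rw [hsplit] at h1
      unfold bdot
      rw [Fintype.sum_sum_type]
      refine Eq.trans ?_ h1
      congr 1
      · refine Finset.sum_congr rfl fun j _ => ?_
        unfold matZ
        rw [Blk.upd_fst_cross S c0 x s' j]
        cases x s' (Sum.inl j) <;> simp
      · refine Finset.sum_congr rfl fun j _ => ?_
        unfold fm
        rw [Blk.upd_snd_mem S c0 x s' j]
        cases x s' (Sum.inr j) <;> simp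
  exact_mod_cast Nat.card_le_card_of_injective
    (fun x : {x : S → (↥(Sᶜ) ⊕ β) → Bool // Ev p a t k S (Blk.upd S c0 x)} =>
      (⟨x.1, hsub x.1 x.2⟩ : {x : S → (↥(Sᶜ) ⊕ β) → Bool // ∃ w ∈ U, hv w ∧ ∀ s, bdot (x s) w = 0}))
    (fun x x' h => by
      have h2 : x.1 = x'.1 := Subtype.mk.inj h
      exact Subtype.ext h2)

end one

theorem choose_bd (n z : ℕ) : n.choose z * 2 ^ z ≤ 4 ^ n := by
  rcases le_or_gt z n with h | h
  · calc n.choose z * 2 ^ z ≤ 2 ^ n * 2 ^ n :=
          Nat.mul_le_mul (Nat.choose_le_two_pow n z) (Nat.pow_le_pow_right (by norm_num) h)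
      _ = 4 ^ n := by rw [← Nat.mul_pow]
  · rw [Nat.choose_eq_zero_of_lt h, Nat.zero_mul]
    exact Nat.zero_le _

end Vale.Agent.P160.Half.G.KA525

namespace Vale.Agent.P160.Half.G

/-- **G6 KZA**, first version (with random columns `F`, `KZAStmt` of `GStmt.lean`); the version in use is `kza` of `KZA.lean` (helper456, `KZAStmt2`) -/
theorem kza525 : RowsStmt → LOppStmt → KZAStmt := by
  intro hR hLO α β _ _ _ _ y a s L t z k q hs hL ht hfac hq hq1
  classical
  have hq0 : 0 ≤ q := by rw [hq]; positivity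
  set Q : ℝ := q ^ (z - a * (k + Fintype.card β)) * 2 ^ (Fintype.card (Sym2 α) + Fintype.card α * Fintype.card β) with hQ
  have hQ0 : 0 ≤ Q := by positivity
  set I : Finset (ℕ × Finset α) := ((Finset.range y).filter Nat.Prime) ×ˢ (Finset.powersetCard z (univ : Finset α)) with hI
  set Bad : ((Sym2 α → Bool) × (α → β → Bool)) → Prop := fun bf => CorLt (matZ bf.1) k ∧ NoSparseZ (matZ bf.1) (fm bf.2) t ∧
    ∃ p, p.Prime ∧ p < y ∧ ∃ (g : α → ZMod (p ^ a)) (c : β → ZMod (p ^ a)), Word _ (matZ bf.1) (fm bf.2) g c ∧ Prim g c ∧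
      z ≤ (univ.filter fun i => g i = 0).card with hBad
  have hcov : (univ.filter Bad) ⊆ I.biUnion (fun pS => univ.filter (KA525.Ev (α := α) (β := β) pS.1 a t k pS.2)) := by
    intro bf hbf
    obtain ⟨h1, h2, p, hp, hpy, g, c, hw, hpr, hz⟩ := (Finset.mem_filter.1 hbf).2
    obtain ⟨S, hS, hSc⟩ := Finset.exists_subset_card_eq hz
    refine Finset.mem_biUnion.2 ⟨(p, S), ?_, ?_⟩
    · exact Finset.mem_product.2 ⟨Finset.mem_filter.2 ⟨Finset.mem_range.2 hpy, hp⟩,
        Finset.mem_powersetCard.2 ⟨Finset.subset_univ _, hSc⟩⟩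
    · exact Finset.mem_filter.2 ⟨Finset.mem_univ _, h1, h2, g, c, hw, hpr, fun i hi => (Finset.mem_filter.1 (hS hi)).2⟩
  have hone : ∀ pS ∈ I, ((univ.filter (KA525.Ev (α := α) (β := β) pS.1 a t k pS.2)).card : ℝ) ≤ 2 ^ z * Q := by
    intro pS hpS
    obtain ⟨h1, h2⟩ := Finset.mem_product.1 hpS
    have hp := (Finset.mem_filter.1 h1).2
    have hc := (Finset.mem_powersetCard.1 h2).2
    have h3 := KA525.card_Ev (α := α) (β := β) hR hLO (k := k) hp hs hL ht hfac hq hq1 pS.2
    rw [hc, Nat.card_eq_fintype_card, Fintype.card_subtype] at h3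
    rw [hQ, ← mul_assoc]
    exact h3
  have hIc : (I.card : ℝ) * 2 ^ z ≤ y * 4 ^ Fintype.card α := by
    have h1 : I.card ≤ y * (Fintype.card α).choose z := by
      rw [hI, Finset.card_product, Finset.card_powersetCard, Finset.card_univ]
      refine Nat.mul_le_mul_right _ ((Finset.card_filter_le _ _).trans ?_)
      rw [Finset.card_range]
    have h2 : I.card * 2 ^ z ≤ y * 4 ^ Fintype.card α := by
      calc I.card * 2 ^ z ≤ y * (Fintype.card α).choose z * 2 ^ z := Nat.mul_le_mul_right _ h1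
        _ = y * ((Fintype.card α).choose z * 2 ^ z) := by ring
        _ ≤ _ := Nat.mul_le_mul_left _ (KA525.choose_bd _ _)
    exact_mod_cast h2
  change (Nat.card {bf // Bad bf} : ℝ) ≤ _
  rw [Nat.card_eq_fintype_card, Fintype.card_subtype]
  calc ((univ.filter Bad).card : ℝ)
      ≤ ((I.biUnion (fun pS => univ.filter (KA525.Ev (α := α) (β := β) pS.1 a t k pS.2))).card : ℝ) := by
        exact_mod_cast Finset.card_le_card hcov
    _ ≤ ∑ pS ∈ I, ((univ.filter (KA525.Ev (α := α) (β := β) pS.1 a t k pS.2)).card : ℝ) := by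
        exact_mod_cast Finset.card_biUnion_le
    _ ≤ ∑ _pS ∈ I, 2 ^ z * Q := Finset.sum_le_sum hone
    _ = (I.card * 2 ^ z) * Q := by rw [Finset.sum_const, nsmul_eq_mul, mul_assoc]
    _ ≤ (y * 4 ^ Fintype.card α) * Q := mul_le_mul_of_nonneg_right hIc hQ0
    _ = _ := by rw [hQ]; ring

end Vale.Agent.P160.Half.G
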