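import Vale.Agent.P160.Half.GStmt

/-! # P160, half rate: counting lemmas for G6 (helper940): solutions modulo `p ^ a`, minors. -/

open Finset Matrix

namespace Vale.Agent.P160.Half.G.KZAa

/-- number of solutions modulo `p ^ a` of an integral system -/
theorem card_ker_le {τ ι : Type*} [Fintype τ] [Fintype ι] [DecidableEq ι] (E : Matrix τ ι ℤ)
    {p : ℕ} (hp : p.Prime) (r : ℕ) (hr : r ≤ (E.map (Int.cast : ℤ → ZMod p)).rank) (a : ℕ) :
    Nat.card {v : ι → ZMod (p ^ a) // E.map (Int.cast : ℤ → ZMod (p ^ a)) *ᵥ v = 0} ≤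
      p ^ (a * (Fintype.card ι - r)) := by
  classical
  have hF : Fact p.Prime := ⟨hp⟩
  have hne : ∀ a, NeZero (p ^ a) := fun a => ⟨pow_ne_zero _ hp.ne_zero⟩
  have hne1 : NeZero p := ⟨hp.ne_zero⟩
  -- the kernel modulo `p`
  have hK1 : Nat.card {v : ι → ZMod p // E.map (Int.cast : ℤ → ZMod p) *ᵥ v = 0} ≤
      p ^ (Fintype.card ι - r) := by
    have h1 : Nat.card {v : ι → ZMod p // E.map (Int.cast : ℤ → ZMod p) *ᵥ v = 0} =
        Nat.card (LinearMap.ker (E.map (Int.cast : ℤ → ZMod p)).mulVecLin) := by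
      refine Nat.card_congr (Equiv.subtypeEquivRight fun v => ?_)
      rw [LinearMap.mem_ker, Matrix.mulVecLin_apply]
    rw [h1, Module.natCard_eq_pow_finrank (K := ZMod p), Nat.card_zmod]
    refine Nat.pow_le_pow_right hp.pos ?_
    have h2 := LinearMap.finrank_range_add_finrank_ker (E.map (Int.cast : ℤ → ZMod p)).mulVecLin
    rw [Module.finrank_fintype_fun_eq_card] at h2
    unfold Matrix.rank at hr
    omega
  induction a with
  | zero =>
    rw [Nat.zero_mul, pow_zero]
    have : Subsingleton (ZMod (p ^ 0)) := by rw [pow_zero]; infer_instance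
    exact Finite.card_le_one_iff_subsingleton.2 inferInstance
  | succ a ih =>
    have _ := hne a
    have _ := hne (a + 1)
    set φ := ZMod.castHom (dvd_pow_self p (Nat.succ_ne_zero a)) (ZMod p) with hφ
    let Ka := {v : ι → ZMod (p ^ (a + 1)) // E.map (Int.cast : ℤ → ZMod (p ^ (a + 1))) *ᵥ v = 0}
    let K1 := {v : ι → ZMod p // E.map (Int.cast : ℤ → ZMod p) *ᵥ v = 0}
    let K0 := {v : ι → ZMod (p ^ a) // E.map (Int.cast : ℤ → ZMod (p ^ a)) *ᵥ v = 0}
    have hred : ∀ v : Ka, E.map (Int.cast : ℤ → ZMod p) *ᵥ (fun j => φ (v.1 j)) = 0 := by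
      intro v
      funext i
      have h := congrArg φ (congrFun v.2 i)
      simp only [Matrix.mulVec, dotProduct, Matrix.map_apply, Pi.zero_apply, map_zero, map_sum,
        map_mul, map_intCast] at h ⊢
      exact h
    let red : Ka → K1 := fun v => ⟨fun j => φ (v.1 j), hred v⟩
    let sec : K1 → Ka := fun w => if h : ∃ v, red v = w then h.choose else ⟨0, by simp⟩
    have hsec : ∀ v, red (sec (red v)) = red v := by
      intro v
      have h : ∃ v', red v' = red v := ⟨v, rfl⟩
      simp only [sec, dif_pos h]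
      exact h.choose_spec
    let df : Ka → ι → ZMod (p ^ (a + 1)) := fun v j => v.1 j - (sec (red v)).1 j
    have hdfp : ∀ v j, p ∣ (df v j).val := by
      intro v j
      have h1 : φ (df v j) = 0 := by
        have := congrFun (congrArg Subtype.val (hsec v)) j
        simp only [red] at this
        simp only [df, map_sub]
        rw [this, sub_self]
      rw [← ZMod.natCast_zmod_val (df v j), map_natCast, ZMod.natCast_eq_zero_iff] at h1
      exact h1
    have hdfE : ∀ v, E.map (Int.cast : ℤ → ZMod (p ^ a)) *ᵥ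
        (fun j => (((df v j).val / p : ℕ) : ZMod (p ^ a))) = 0 := by
      intro v
      obtain ⟨m, hm⟩ : ∃ m : ι → ℕ, ∀ j, (df v j).val / p = m j := ⟨_, fun j => rfl⟩
      simp only [hm]
      funext i
      have h1 : ∑ j, ((E i j : ℤ) : ZMod (p ^ (a + 1))) * df v j = 0 := by
        have h2 := congrFun v.2 i
        have h3 := congrFun (sec (red v)).2 i
        simp only [Matrix.mulVec, dotProduct, Matrix.map_apply, Pi.zero_apply] at h2 h3
        simp only [df, mul_sub, Finset.sum_sub_distrib]
        rw [h2, h3, sub_self]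
      have h4 : (((p : ℤ) * ∑ j, E i j * (m j : ℤ) : ℤ) : ZMod (p ^ (a + 1))) = 0 := by
        rw [← h1, Finset.mul_sum]
        push_cast
        refine Finset.sum_congr rfl fun j _ => ?_
        have h5 : df v j = (p : ZMod (p ^ (a + 1))) * ((m j : ℕ) : ZMod (p ^ (a + 1))) := by
          rw [← Nat.cast_mul, ← hm, Nat.mul_div_cancel' (hdfp v j), ZMod.natCast_zmod_val]
        rw [h5]
        ring
      rw [ZMod.intCast_zmod_eq_zero_iff_dvd] at h4
      have h6 : ((p ^ a : ℕ) : ℤ) ∣ ∑ j, E i j * (m j : ℤ) := by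
        have e1 : ((p ^ (a + 1) : ℕ) : ℤ) = (p : ℤ) * ((p ^ a : ℕ) : ℤ) := by
          push_cast
          ring
        rw [e1] at h4
        exact Int.dvd_of_mul_dvd_mul_left (by exact_mod_cast hp.ne_zero) h4
      have h7 := (ZMod.intCast_zmod_eq_zero_iff_dvd _ _).2 h6
      simp only [Matrix.mulVec, dotProduct, Matrix.map_apply, Pi.zero_apply]
      rw [← h7]
      push_cast
      rfl
    let f : Ka → K1 × K0 := fun v => (red v, ⟨_, hdfE v⟩)
    have hf : Function.Injective f := by
      intro v v' h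
      have h1 : red v = red v' := congrArg Prod.fst h
      have h2 : ∀ j, (((df v j).val / p : ℕ) : ZMod (p ^ a)) = (((df v' j).val / p : ℕ) : ZMod (p ^ a)) :=
        fun j => congrFun (congrArg Subtype.val (congrArg Prod.snd h)) j
      refine Subtype.ext (funext fun j => ?_)
      have h3 : (df v j).val / p = (df v' j).val / p := by
        have h4 : ∀ z : ZMod (p ^ (a + 1)), z.val / p < p ^ a := fun z =>
          Nat.div_lt_of_lt_mul (by rw [← pow_succ']; exact ZMod.val_lt z)
        have h5 := (ZMod.natCast_eq_natCast_iff' _ _ _).1 (h2 j)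
        rwa [Nat.mod_eq_of_lt (h4 _), Nat.mod_eq_of_lt (h4 _)] at h5
      have h6 : df v j = df v' j := by
        refine ZMod.val_injective _ ?_
        rw [← Nat.mul_div_cancel' (hdfp v j), ← Nat.mul_div_cancel' (hdfp v' j), h3]
      simp only [df, h1] at h6
      exact sub_left_injective h6
    have h8 := Nat.card_le_card_of_injective f hf
    rw [Nat.card_prod] at h8
    refine h8.trans ((Nat.mul_le_mul hK1 ih).trans (le_of_eq ?_))
    rw [← pow_add]
    congr 1
    ring

/-- an integral matrix with trivial integral kernel has a nonzero maximal minor -/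
theorem exists_minor {τ ι : Type*} [Fintype τ] [Fintype ι] [DecidableEq ι] (M : Matrix τ ι ℤ)
    (hker : ∀ v : ι → ℤ, M *ᵥ v = 0 → v = 0) : ∃ f : ι → τ, (M.submatrix f id).det ≠ 0 := by
  classical
  set A : Matrix τ ι ℚ := M.map (Int.cast : ℤ → ℚ) with hA
  have hkerQ : ∀ v : ι → ℚ, A *ᵥ v = 0 → v = 0 := by
    intro v hv
    set d : ℕ := ∏ i, (v i).den with hd
    have hd0 : (d : ℚ) ≠ 0 := by
      rw [hd]
      exact_mod_cast Finset.prod_ne_zero_iff.2 fun i _ => (v i).den_ne_zero
    have hz : ∀ i, ∃ z : ℤ, (z : ℚ) = d * v i := by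
      intro i
      obtain ⟨m, hm⟩ := Finset.dvd_prod_of_mem (fun i => (v i).den) (mem_univ i)
      refine ⟨m * (v i).num, ?_⟩
      rw [hd, hm]
      push_cast
      rw [mul_comm ((v i).den : ℚ) (m : ℚ), mul_assoc, Rat.den_mul_eq_num]
    choose z hz using hz
    have h1 : M *ᵥ z = 0 := by
      funext i
      have h2 : ((∑ j, M i j * z j : ℤ) : ℚ) = 0 := by
        push_cast
        have h3 := congrFun hv i
        simp only [Matrix.mulVec, dotProduct, hA, Matrix.map_apply, Pi.zero_apply] at h3
        calc ∑ j, (M i j : ℚ) * (z j : ℚ) = d * ∑ j, (M i j : ℚ) * v j := by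
              rw [Finset.mul_sum]
              refine Finset.sum_congr rfl fun j _ => ?_
              rw [hz]
              ring
          _ = 0 := by rw [h3, mul_zero]
      simp only [Matrix.mulVec, dotProduct, Pi.zero_apply]
      exact_mod_cast h2
    have h4 := hker z h1
    funext i
    have h5 := hz i
    rw [h4, Pi.zero_apply, Int.cast_zero] at h5
    exact (mul_eq_zero.1 h5.symm).resolve_left hd0
  -- the rows span
  have hrank : A.rank = Fintype.card ι := by
    have h1 : LinearMap.ker A.mulVecLin = ⊥ := by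
      rw [LinearMap.ker_eq_bot']
      intro v hv
      exact hkerQ v (by rwa [Matrix.mulVecLin_apply] at hv)
    have h2 := LinearMap.finrank_range_add_finrank_ker A.mulVecLin
    rw [h1, finrank_bot, Module.finrank_fintype_fun_eq_card, add_zero] at h2
    exact h2
  have hspan : Module.finrank ℚ (Submodule.span ℚ (Set.range A.row)) = Fintype.card ι := by
    rw [← Matrix.rank_eq_finrank_span_row, hrank]
  obtain ⟨g, hg1, hg2, hg3⟩ := Submodule.exists_fun_fin_finrank_span_eq ℚ (Set.range A.row)
  choose k hk using hg1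
  let e : ι ≃ Fin (Module.finrank ℚ (Submodule.span ℚ (Set.range A.row))) :=
    Fintype.equivFinOfCardEq hspan.symm
  refine ⟨fun i => k (e i), fun h0 => ?_⟩
  have h1 : (A.submatrix (fun i => k (e i)) id).det = 0 := by
    have h2 : A.submatrix (fun i => k (e i)) id = (M.submatrix (fun i => k (e i)) id).map (Int.cast : ℤ → ℚ) := rfl
    rw [h2]
    have h3 := (Int.castRingHom ℚ).map_det (M.submatrix (fun i => k (e i)) id)
    rw [h0, map_zero] at h3
    exact h3.symm
  have h4 : LinearIndependent ℚ (A.submatrix (fun i => k (e i)) id).row := by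
    have h5 : (A.submatrix (fun i => k (e i)) id).row = fun i => g (e i) := by
      funext i
      rw [← hk (e i)]
      rfl
    rw [h5]
    exact hg3.comp _ e.injective
  rw [Matrix.linearIndependent_rows_iff_isUnit, Matrix.isUnit_iff_isUnit_det, h1] at h4
  exact not_isUnit_zero h4

/-- no primitive vector in the kernel modulo a large prime power -/
theorem no_prim {τ ι : Type*} [Fintype τ] [Fintype ι] [DecidableEq ι] (M : Matrix τ ι ℤ) (X : ℕ)
    (hX : ∀ i j, |M i j| ≤ X) (hker : ∀ v : ι → ℤ, M *ᵥ v = 0 → v = 0) {p N : ℕ}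
    (hN : (Fintype.card ι).factorial * X ^ Fintype.card ι < p ^ N) (v : ι → ZMod (p ^ N))
    (hv : M.map (Int.cast : ℤ → ZMod (p ^ N)) *ᵥ v = 0) (i : ι) (hu : IsUnit (v i)) : False := by
  obtain ⟨f, hf⟩ := exists_minor M hker
  set D := M.submatrix f id with hD
  have h1 : D.map (Int.cast : ℤ → ZMod (p ^ N)) *ᵥ v = 0 := by
    funext j
    exact congrFun hv (f j)
  have h2 : (D.map (Int.cast : ℤ → ZMod (p ^ N))).det • v = 0 := by
    have h3 := congrArg (fun w => (D.map (Int.cast : ℤ → ZMod (p ^ N))).adjugate *ᵥ w) h1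
    simp only [Matrix.mulVec_mulVec, Matrix.adjugate_mul, Matrix.mulVec_zero] at h3
    rwa [Matrix.smul_mulVec, Matrix.one_mulVec] at h3
  have h4 : (D.map (Int.cast : ℤ → ZMod (p ^ N))).det * v i = 0 := congrFun h2 i
  have h5 : (D.map (Int.cast : ℤ → ZMod (p ^ N))).det = 0 := (hu.mul_left_eq_zero).1 h4
  have h6 : ((D.det : ℤ) : ZMod (p ^ N)) = 0 := by
    have h7 := (Int.castRingHom (ZMod (p ^ N))).map_det D
    rw [← h5]
    exact h7
  rw [ZMod.intCast_zmod_eq_zero_iff_dvd] at h6
  have h8 : |D.det| ≤ ((Fintype.card ι).factorial * X ^ Fintype.card ι : ℕ) := by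
    have h9 := Matrix.det_le (A := D) (abv := AbsoluteValue.abs) (x := (X : ℤ)) fun i j => hX (f i) j
    rw [nsmul_eq_mul] at h9
    push_cast
    exact h9
  have h10 : ((p ^ N : ℕ) : ℤ) ≤ |D.det| := by
    refine Int.le_of_dvd (abs_pos.2 hf) ?_
    rwa [dvd_abs]
  have h11 : (p ^ N) ≤ (Fintype.card ι).factorial * X ^ Fintype.card ι := by exact_mod_cast h10.trans h8
  omega

end Vale.Agent.P160.Half.G.KZAa
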