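import Vale.Agent.P160.Half.KZA557

/-! # P160, half rate, G6: the length function on submodules of `(Z/p^a)^iota` (helper557) -/

open Finset Matrix

namespace Vale.Agent.P160.Half.G

/-- the length of a submodule: `log_p` of its order -/
noncomputable def lgc (p : ℕ) {R V : Type} [Ring R] [AddCommGroup V] [Module R V] (U : Submodule R V) : ℕ :=
  Nat.log p (Nat.card U)

/-- the length is strictly monotone -/
theorem lgc_strictMono {ι : Type} [Fintype ι] {p a : ℕ} (hp : p.Prime)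
    (U V : Submodule (ZMod (p ^ a)) (ι → ZMod (p ^ a))) (h : U < V) : lgc p U < lgc p V := by
  classical
  haveI : NeZero (p ^ a) := ⟨(pow_pos hp.pos a).ne'⟩
  have hfin : Finite (ι → ZMod (p ^ a)) := inferInstance
  have hpow : ∀ W : Submodule (ZMod (p ^ a)) (ι → ZMod (p ^ a)), ∃ e, Nat.card W = p ^ e := by
    intro W
    have h1 : Nat.card W ∣ Nat.card (ι → ZMod (p ^ a)) :=
      AddSubgroup.card_addSubgroup_dvd_card W.toAddSubgroup
    have h2 : Nat.card (ι → ZMod (p ^ a)) = p ^ (a * Fintype.card ι) := by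
      rw [Nat.card_pi]
      simp [Nat.card_zmod, ← pow_mul]
    rw [h2] at h1
    obtain ⟨e, _, he⟩ := (Nat.dvd_prime_pow hp).1 h1
    exact ⟨e, he⟩
  obtain ⟨e, he⟩ := hpow U
  obtain ⟨f, hf⟩ := hpow V
  have hlt : Nat.card U < Nat.card V := by
    have h3 : (U : Set (ι → ZMod (p ^ a))) ⊂ V := SetLike.coe_ssubset_coe.2 h
    exact Set.ncard_lt_ncard h3 (Set.toFinite _)
  unfold lgc
  rw [he, hf] at hlt ⊢
  rw [Nat.log_pow hp.one_lt, Nat.log_pow hp.one_lt]
  exact (Nat.pow_lt_pow_iff_right hp.one_lt).1 hlt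

/-- the length of a kernel of small corank -/
theorem lgc_ker_le {τ ι : Type} [Fintype τ] [DecidableEq τ] [Fintype ι] [DecidableEq ι] (E : Matrix τ ι ℤ)
    {p a k : ℕ} (hp : p.Prime) (h : Fintype.card ι ≤ (E.map (Int.cast : ℤ → ZMod p)).rank + k) :
    lgc p (LinearMap.ker (E.map (Int.cast : ℤ → ZMod (p ^ a))).mulVecLin) ≤ a * k := by
  have h1 := card_ker_le (a := a) E hp h
  have h2 : Nat.card (LinearMap.ker (E.map (Int.cast : ℤ → ZMod (p ^ a))).mulVecLin) =
      Nat.card {w : ι → ZMod (p ^ a) // E.map (Int.cast : ℤ → ZMod (p ^ a)) *ᵥ w = 0} :=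
    Nat.card_congr (Equiv.subtypeEquivRight fun w => by
      rw [LinearMap.mem_ker, Matrix.mulVecLin_apply])
  unfold lgc
  rw [h2]
  calc Nat.log p _ ≤ Nat.log p (p ^ (a * k)) := Nat.log_mono_right h1
    _ = a * k := Nat.log_pow hp.one_lt _

end Vale.Agent.P160.Half.G
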