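import Vale.Agent.P160.Half.GStmt
import Vale.Agent.P160.Half.NoSpZ

/-! # P160, half rate: (S1) zero counts `KZ` in the form used by the failures (helper572) -/

open Finset Matrix

namespace Vale.Agent.P160.Half.KZh572

open Vale.Agent.P160.Half.G

/-- the lattice `{g | ∃ c, (g, c) is an integral word of [P F]}` -/
def latt {α β : Type*} [Fintype α] [Fintype β] (P : Matrix α α ℤ) (F : Matrix α β ℤ) :
    AddSubgroup (α → ℤ) where
  carrier := {g | ∃ c : β → ℤ, Word ℤ P F g c}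
  zero_mem' := ⟨0, by simp [Word]⟩
  add_mem' := by
    rintro g g' ⟨c, hc⟩ ⟨c', hc'⟩
    refine ⟨c + c', ?_⟩
    unfold Word at hc hc' ⊢
    rw [Matrix.mulVec_add, Matrix.mulVec_add]
    have := congrArg₂ (· + ·) hc hc'
    simp only [add_zero] at this
    rw [← this]
    abel
  neg_mem' := by
    rintro g ⟨c, hc⟩
    refine ⟨-c, ?_⟩
    unfold Word at hc ⊢
    rw [Matrix.mulVec_neg, Matrix.mulVec_neg, ← neg_add, hc, neg_zero]

lemma mem_latt {α β : Type*} [Fintype α] [Fintype β] {P : Matrix α α ℤ} {F : Matrix α β ℤ}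
    {g : α → ℤ} : g ∈ latt P F ↔ ∃ c : β → ℤ, Word ℤ P F g c := Iff.rfl

/-- a unit modulo every power of `p` -/
lemma isUnit_of_not_dvd {p : ℕ} (hp : p.Prime) (e : ℕ) {v : ℤ} (h : ¬ (p : ℤ) ∣ v) :
    IsUnit ((v : ℤ) : ZMod (p ^ e)) := by
  have h1 : IsCoprime v ((p : ℤ) ^ e) := by
    refine IsCoprime.pow_right ?_
    exact ((Nat.prime_iff_prime_int.1 hp).coprime_iff_not_dvd.2 h).symm
  have h2 := h1.map (Int.castRingHom (ZMod (p ^ e)))
  have h3 : (Int.castRingHom (ZMod (p ^ e))) ((p : ℤ) ^ e) = 0 := by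
    have := ZMod.natCast_self (p ^ e)
    push_cast at this
    simpa using this
  rw [h3] at h2
  exact isCoprime_zero_right.1 h2

/-- every nonzero vector of the lattice is a multiple of one with few coordinates divisible by the
prime power -/
theorem hKZ_of {α β : Type*} [Fintype α] [Fintype β] [DecidableEq α] [DecidableEq β]
    {P : Matrix α α ℤ} {F : Matrix α β ℤ} {y a z : ℕ} (hK : KZ P F y a z) {p : ℕ} (hp : p.Prime)
    (u : α → ℤ) (hu : u ∈ latt P F) (hu0 : u ≠ 0) :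
    ∃ (s : ℤ) (u' : α → ℤ), u' ∈ latt P F ∧ u = s • u' ∧
      {j | ((p ^ (if y ≤ p then 1 else a) : ℕ) : ℤ) ∣ u' j}.ncard ≤ z := by
  classical
  obtain ⟨c, hc⟩ := hu
  set e := if y ≤ p then 1 else a with he
  obtain ⟨i0, hi0⟩ := Function.ne_iff.1 hu0
  obtain ⟨v, hv, hgcd⟩ := Finset.extract_gcd (s := (univ : Finset (α ⊕ β)))
    (Sum.elim u c) ⟨Sum.inl i0, mem_univ _⟩
  set d : ℤ := (univ : Finset (α ⊕ β)).gcd (Sum.elim u c) with hd
  have hd0 : d ≠ 0 := by
    intro h0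
    have := hv (Sum.inl i0) (mem_univ _)
    rw [h0, zero_mul] at this
    exact hi0 this
  have hu' : u = d • (fun i => v (Sum.inl i)) := by
    funext i
    exact hv (Sum.inl i) (mem_univ _)
  have hc' : c = d • (fun j => v (Sum.inr j)) := by
    funext j
    exact hv (Sum.inr j) (mem_univ _)
  have hw : Word ℤ P F (fun i => v (Sum.inl i)) (fun j => v (Sum.inr j)) := by
    unfold Word at hc ⊢
    rw [hu', hc', Matrix.mulVec_smul, Matrix.mulVec_smul, ← smul_add] at hc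
    exact (smul_eq_zero.1 hc).resolve_left hd0
  refine ⟨d, fun i => v (Sum.inl i), ⟨_, hw⟩, hu', ?_⟩
  -- a coordinate prime to p
  have hk : ∃ k, ¬ (p : ℤ) ∣ v k := by
    by_contra hcon
    push Not at hcon
    have h1 : (p : ℤ) ∣ (univ : Finset (α ⊕ β)).gcd v := Finset.dvd_gcd fun k _ => hcon k
    rw [hgcd] at h1
    exact (Nat.prime_iff_prime_int.1 hp).not_isUnit (isUnit_of_dvd_one h1)
  obtain ⟨k, hk⟩ := hk
  have hprim : Prim (p := p) (a := e) (fun i => ((v (Sum.inl i) : ℤ) : ZMod (p ^ e)))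
      (fun j => ((v (Sum.inr j) : ℤ) : ZMod (p ^ e))) := by
    rcases k with i | j
    · exact Or.inl ⟨i, isUnit_of_not_dvd hp e hk⟩
    · exact Or.inr ⟨j, isUnit_of_not_dvd hp e hk⟩
  have h2 := hK p hp _ _ (word_cast hw (ZMod (p ^ e))) hprim
  have h3 : {j | ((p ^ e : ℕ) : ℤ) ∣ v (Sum.inl j)} =
      ((univ.filter fun i => ((v (Sum.inl i) : ℤ) : ZMod (p ^ e)) = 0 : Finset α) : Set α) := by
    ext j
    rw [Finset.coe_filter]
    simp only [Set.mem_ofPred_eq, mem_univ, true_and]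
    exact (ZMod.intCast_zmod_eq_zero_iff_dvd _ _).symm
  rw [h3, Set.ncard_coe_finset]
  exact h2.le

end Vale.Agent.P160.Half.KZh572
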