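import Vale.Agent.P160.Half.GStmt

/-! # P160, half rate, gap (G), G6: kernels modulo prime powers (helper999) -/

open Finset Matrix

namespace Vale.Agent.P160.Half.G.KPP

/-- kernel of a system with an invertible square block -/
theorem card_ker_le {R τ ι : Type*} [CommRing R] [Finite R] [Fintype ι] [DecidableEq ι]
    (E : Matrix τ ι R) (J : Finset ι) (f : J → τ)
    (hu : IsUnit (E.submatrix f (fun j : J => (j : ι))).det) :
    Nat.card {w : ι → R // E *ᵥ w = 0} ≤ Nat.card R ^ (Fintype.card ι - J.card) := by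
  classical
  let φ : {w : ι → R // E *ᵥ w = 0} → ({i // i ∉ J} → R) := fun w i => w.1 i
  have hinj : Function.Injective φ := by
    intro w w' h
    apply Subtype.ext
    have hout : ∀ i, i ∉ J → w.1 i - w'.1 i = 0 := by
      intro i hi
      have := congrFun h ⟨i, hi⟩
      simp only [φ] at this
      rw [this, sub_self]
    have hE : E *ᵥ (w.1 - w'.1) = 0 := by rw [Matrix.mulVec_sub, w.2, w'.2, sub_zero]
    set N := E.submatrix f (fun j : J => (j : ι)) with hN
    have hN0 : N *ᵥ (fun j : J => w.1 j - w'.1 j) = 0 := by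
      funext s
      have h1 := congrFun hE (f s)
      simp only [Matrix.mulVec, dotProduct, Pi.zero_apply, Pi.sub_apply] at h1 ⊢
      rw [← Finset.sum_subset (Finset.subset_univ J) (fun i _ hi => by rw [hout i hi, mul_zero]),
        ← Finset.sum_coe_sort] at h1
      simpa [hN] using h1
    have hd : (fun j : J => w.1 j - w'.1 j) = 0 := by
      have := congrArg (fun v => N⁻¹ *ᵥ v) hN0
      simpa [Matrix.mulVec_mulVec, Matrix.nonsing_inv_mul N hu] using this
    funext i
    by_cases hi : i ∈ J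
    · have := congrFun hd ⟨i, hi⟩
      simpa [sub_eq_zero] using this
    · exact sub_eq_zero.1 (hout i hi)
  have h1 := Nat.card_le_card_of_injective φ hinj
  refine h1.trans (le_of_eq ?_)
  rw [Nat.card_fun, Nat.card_eq_fintype_card (α := {i // i ∉ J}), Fintype.card_subtype_compl,
    Fintype.card_coe]

/-- units modulo a prime power -/
theorem isUnit_intCast {p a : ℕ} (hp : p.Prime) (z : ℤ) (h : ((z : ℤ) : ZMod p) ≠ 0) :
    IsUnit ((z : ℤ) : ZMod (p ^ a)) := by
  have hcop : IsCoprime z (p : ℤ) := by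
    rw [Int.isCoprime_iff_gcd_eq_one, Int.gcd_eq_natAbs, Int.natAbs_natCast]
    have : ¬ p ∣ z.natAbs := by
      intro hd
      apply h
      rw [ZMod.intCast_zmod_eq_zero_iff_dvd]
      exact Int.natCast_dvd.2 hd
    exact ((hp.coprime_iff_not_dvd).2 this).symm
  have hcop' : IsCoprime z ((p : ℤ) ^ a) := hcop.pow_right
  obtain ⟨u, v, huv⟩ := hcop'
  have := congrArg (Int.cast : ℤ → ZMod (p ^ a)) huv
  push_cast at this
  have hz : ((p : ZMod (p ^ a)) ^ a) = 0 := by
    have := ZMod.natCast_self (p ^ a)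
    push_cast at this
    exact this
  rw [hz, mul_zero, add_zero] at this
  exact IsUnit.of_mul_eq_one _ (by rw [mul_comm]; exact this)

theorem card_ker_block {α β : Type*} [Fintype α] [DecidableEq α] [Fintype β] [DecidableEq β]
    (P : Matrix α α ℤ) (hP : ∀ i j, P i j = P j i) (k : ℕ) (hk : CorLt P k)
    (p a : ℕ) (hp : p.Prime) (T : Finset α) (E : Matrix T (T ⊕ β) (ZMod (p ^ a)))
    (hE : ∀ (t s : T), E t (Sum.inl s) = ((P t s : ℤ) : ZMod (p ^ a))) :
    Nat.card {w : (T ⊕ β) → ZMod (p ^ a) // E *ᵥ w = 0} ≤ p ^ (a * (k + Fintype.card β)) := by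
  classical
  have := Fact.mk hp
  have : NeZero (p ^ a) := ⟨(pow_pos hp.pos a).ne'⟩
  obtain ⟨A, hAT, hAc, hAd, -⟩ := exists_base (P.map (Int.cast : ℤ → ZMod p))
    (fun i j => by simp [hP i j]) T
  have hcor := hk p hp T
  let g : A → T := fun x => ⟨x, hAT x.2⟩
  have hg : Function.Injective g := fun x y h => Subtype.ext (congrArg (fun z : T => (z : α)) h)
  let J : Finset (T ⊕ β) := univ.image (fun x : A => Sum.inl (g x))
  have hinj : Function.Injective (fun x : A => (Sum.inl (g x) : T ⊕ β)) := Sum.inl_injective.comp hg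
  have hJc : J.card = A.card := by
    rw [card_image_of_injective _ hinj, card_univ, Fintype.card_coe]
  let e : A ≃ J := Equiv.ofBijective (fun x => ⟨Sum.inl (g x), mem_image_of_mem _ (mem_univ x)⟩)
    ⟨fun x y h => hinj (congrArg (fun z : J => (z : T ⊕ β)) h), fun y => by
      obtain ⟨x, -, hx⟩ := mem_image.1 y.2
      exact ⟨x, Subtype.ext hx⟩⟩
  have hunit : IsUnit (E.submatrix (fun y : J => g (e.symm y)) (fun y : J => (y : T ⊕ β))).det := by
    have h1 : (E.submatrix (fun y : J => g (e.symm y)) (fun y : J => (y : T ⊕ β))).det =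
        (((prin P A).det : ℤ) : ZMod (p ^ a)) := by
      rw [← Matrix.det_submatrix_equiv_self e]
      have h2 : ((prin P A).det : ZMod (p ^ a)) =
          ((prin P A).map (Int.cast : ℤ → ZMod (p ^ a))).det := by
        have := RingHom.map_det (Int.castRingHom (ZMod (p ^ a))) (prin P A)
        simpa [RingHom.mapMatrix_apply] using this
      rw [h2]
      congr 1
      funext x y
      simp only [Matrix.submatrix_apply, Matrix.map_apply, Equiv.symm_apply_apply, prin]
      exact hE (g x) (g y)
    rw [h1]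
    apply isUnit_intCast hp
    have h3 : ((prin P A).det : ZMod p) = (prin (P.map (Int.cast : ℤ → ZMod p)) A).det := by
      have := RingHom.map_det (Int.castRingHom (ZMod p)) (prin P A)
      simpa [RingHom.mapMatrix_apply, prin, Matrix.submatrix_map] using this
    rw [h3]
    exact hAd
  have h := card_ker_le E J _ hunit
  refine h.trans ?_
  rw [Nat.card_zmod, ← pow_mul]
  apply Nat.pow_le_pow_right hp.pos
  apply Nat.mul_le_mul_left
  rw [Fintype.card_sum, Fintype.card_coe, hJc, hAc]
  omega

/-- the length of a subgroup of a `p`-group -/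
noncomputable def len (p : ℕ) {M : Type*} [AddCommGroup M] {R : Type*} [Ring R] [Module R M]
    (U : Submodule R M) : ℕ := Nat.log p (Nat.card U)

theorem card_eq_pow {ι : Type*} [Fintype ι] {p a : ℕ} (hp : p.Prime)
    (U : Submodule (ZMod (p ^ a)) (ι → ZMod (p ^ a))) : Nat.card U = p ^ len p U := by
  classical
  have : NeZero (p ^ a) := ⟨(pow_pos hp.pos a).ne'⟩
  have hd : Nat.card U ∣ p ^ (a * Fintype.card ι) := by
    have h1 : Nat.card U ∣ Nat.card (ι → ZMod (p ^ a)) :=
      AddSubgroup.card_addSubgroup_dvd_card U.toAddSubgroup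
    rwa [Nat.card_fun, Nat.card_zmod, Nat.card_eq_fintype_card (α := ι), ← pow_mul] at h1
  obtain ⟨m, -, hm⟩ := (Nat.dvd_prime_pow hp).1 hd
  rw [len, hm, Nat.log_pow hp.one_lt]

theorem len_lt {ι : Type*} [Fintype ι] {p a : ℕ} (hp : p.Prime)
    {U V : Submodule (ZMod (p ^ a)) (ι → ZMod (p ^ a))} (h : U < V) : len p U < len p V := by
  classical
  have : NeZero (p ^ a) := ⟨(pow_pos hp.pos a).ne'⟩
  have h1 : Nat.card U < Nat.card V := by
    have := Set.ncard_lt_ncard (show (U : Set (ι → ZMod (p ^ a))) ⊂ V from h) (Set.toFinite _)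
    exact this
  rw [card_eq_pow hp, card_eq_pow hp] at h1
  exact (Nat.pow_lt_pow_iff_right hp.one_lt).1 h1

theorem len_le {ι : Type*} [Fintype ι] {p a m : ℕ} (hp : p.Prime)
    {U : Submodule (ZMod (p ^ a)) (ι → ZMod (p ^ a))} (h : Nat.card U ≤ p ^ m) : len p U ≤ m := by
  rw [card_eq_pow hp] at h
  exact (Nat.pow_le_pow_iff_right hp.one_lt).1 h

end Vale.Agent.P160.Half.G.KPP
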