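import Vale.Agent.P160.Half.GStmt

/-! # P160, half rate, G1: rows (proof of `RowsStmt`) -/

open Finset Matrix

namespace Vale.Agent.P160.Half.G

/-- the subspace of the vectors orthogonal to a 0/1 row -/
def cut {R ι : Type*} [CommRing R] [Fintype ι] (U : Submodule R (ι → R)) (x : ι → Bool) :
    Submodule R (ι → R) where
  carrier := {w | w ∈ U ∧ bdot x w = 0}
  zero_mem' := by
    refine ⟨U.zero_mem, ?_⟩
    simp [bdot]
  add_mem' := by
    rintro a b ⟨ha, ha'⟩ ⟨hb, hb'⟩
    refine ⟨U.add_mem ha hb, ?_⟩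
    have : bdot x (a + b) = bdot x a + bdot x b := by
      unfold bdot
      rw [← Finset.sum_add_distrib]
      refine Finset.sum_congr rfl fun i _ => ?_
      by_cases h : x i <;> simp [h]
    rw [this, ha', hb', add_zero]
  smul_mem' := by
    rintro c a ⟨ha, ha'⟩
    refine ⟨U.smul_mem c ha, ?_⟩
    have : bdot x (c • a) = c * bdot x a := by
      unfold bdot
      rw [Finset.mul_sum]
      refine Finset.sum_congr rfl fun i _ => ?_
      by_cases h : x i <;> simp [h]
    rw [this, ha', mul_zero]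

theorem mem_cut {R ι : Type*} [CommRing R] [Fintype ι] {U : Submodule R (ι → R)} {x : ι → Bool}
    {w : ι → R} : w ∈ cut U x ↔ w ∈ U ∧ bdot x w = 0 := Iff.rfl

theorem card_cons {X : Type} [Fintype X] (N : ℕ) (P : (Fin (N + 1) → X) → Prop) :
    Nat.card {x : Fin (N + 1) → X // P x} =
      ∑ x0 : X, Nat.card {y : Fin N → X // P (Fin.cons x0 y)} := by
  classical
  have e1 : {x : Fin (N + 1) → X // P x} ≃ {p : X × (Fin N → X) // P (Fin.cons p.1 p.2)} := by
    refine Equiv.subtypeEquiv (Fin.consEquiv (fun _ : Fin (N + 1) => X)).symm ?_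
    intro x
    have : (Fin.cons (((Fin.consEquiv (fun _ : Fin (N + 1) => X)).symm x).1)
        (((Fin.consEquiv (fun _ : Fin (N + 1) => X)).symm x).2) : Fin (N + 1) → X) = x := by
      exact (Fin.consEquiv (fun _ : Fin (N + 1) => X)).apply_symm_apply x
    rw [this]
  have e2 : {p : X × (Fin N → X) // P (Fin.cons p.1 p.2)} ≃
      Σ x0 : X, {y : Fin N → X // P (Fin.cons x0 y)} :=
    Equiv.subtypeProdEquivSigmaSubtype (fun (a : X) (b : Fin N → X) => P (Fin.cons a b))
  rw [Nat.card_congr (e1.trans e2), Nat.card_sigma]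

theorem rows_fin (R ι : Type) [CommRing R] [Fintype ι] [DecidableEq ι] (hv : (ι → R) → Prop)
    (ℓ : Submodule R (ι → R) → ℕ) (q : ℝ) (hℓ : ∀ U V, V < U → ℓ V < ℓ U) (hq0 : 0 ≤ q)
    (hq1 : q ≤ 1)
    (hat : ∀ w, hv w → (Nat.card {x : ι → Bool // bdot x w = 0} : ℝ) ≤ q * 2 ^ Fintype.card ι)
    (N : ℕ) : ∀ (U : Submodule R (ι → R)) (k : ℕ), ℓ U ≤ k →
    (Nat.card {x : Fin N → ι → Bool // ∃ w ∈ U, hv w ∧ ∀ s, bdot (x s) w = 0} : ℝ) ≤
      2 ^ N * q ^ (N - k) * 2 ^ (Fintype.card ι * N) := by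
  classical
  induction N with
  | zero =>
    intro U k _
    have h1 : Nat.card {x : Fin 0 → ι → Bool // ∃ w ∈ U, hv w ∧ ∀ s, bdot (x s) w = 0} ≤ 1 := by
      have := Finite.card_subtype_le
        (fun x : Fin 0 → ι → Bool => ∃ w ∈ U, hv w ∧ ∀ s, bdot (x s) w = 0)
      simpa using this
    have h2 : (Nat.card {x : Fin 0 → ι → Bool // ∃ w ∈ U, hv w ∧ ∀ s, bdot (x s) w = 0} : ℝ) ≤ 1 := by
      exact_mod_cast h1
    simpa using h2
  | succ N ih =>
    intro U k hk
    by_cases hw : ∃ w ∈ U, hv w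
    · obtain ⟨w0, hw0, hvw0⟩ := hw
      rw [card_cons N]
      have hrow : ∀ x0 : ι → Bool,
          (Nat.card {y : Fin N → ι → Bool //
            ∃ w ∈ U, hv w ∧ ∀ s, bdot ((Fin.cons x0 y : Fin (N + 1) → ι → Bool) s) w = 0} : ℝ) ≤
          (if bdot x0 w0 = 0 then 2 ^ N * q ^ (N - k) * 2 ^ (Fintype.card ι * N) else 0) +
            2 ^ N * q ^ (N + 1 - k) * 2 ^ (Fintype.card ι * N) := by
        intro x0
        have hset : {y : Fin N → ι → Bool //
            ∃ w ∈ U, hv w ∧ ∀ s, bdot ((Fin.cons x0 y : Fin (N + 1) → ι → Bool) s) w = 0} ≃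
            {y : Fin N → ι → Bool // ∃ w ∈ cut U x0, hv w ∧ ∀ s, bdot (y s) w = 0} := by
          refine Equiv.subtypeEquivRight fun y => ?_
          constructor
          · rintro ⟨w, hwU, hvw, hs⟩
            refine ⟨w, ⟨hwU, ?_⟩, hvw, fun s => ?_⟩
            · simpa using hs 0
            · simpa using hs s.succ
          · rintro ⟨w, ⟨hwU, h0⟩, hvw, hs⟩
            refine ⟨w, hwU, hvw, fun s => ?_⟩
            refine Fin.cases ?_ (fun i => ?_) s
            · simpa using h0
            · simpa using hs i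
        rw [Nat.card_congr hset]
        have hle : cut U x0 ≤ U := fun w hw => hw.1
        rcases eq_or_lt_of_le hle with heq | hlt
        · have h0 : bdot x0 w0 = 0 := by
            have : w0 ∈ cut U x0 := by
              rw [heq]
              exact hw0
            exact this.2
          rw [if_pos h0, heq]
          have := ih U k hk
          have hB : (0 : ℝ) ≤ 2 ^ N * q ^ (N + 1 - k) * 2 ^ (Fintype.card ι * N) := by positivity
          linarith
        · have hl := hℓ U _ hlt
          have hk1 : 1 ≤ k := by omega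
          have := ih (cut U x0) (k - 1) (by omega)
          have he : N - (k - 1) = N + 1 - k := by omega
          rw [he] at this
          have hA : (0 : ℝ) ≤
              (if bdot x0 w0 = 0 then 2 ^ N * q ^ (N - k) * 2 ^ (Fintype.card ι * N) else 0) := by
            split_ifs <;> positivity
          linarith
      push_cast
      refine (Finset.sum_le_sum fun x0 _ => hrow x0).trans ?_
      rw [Finset.sum_add_distrib, Finset.sum_const, ← Finset.sum_filter, Finset.sum_const]
      have hc1 : ((Finset.univ.filter fun x0 : ι → Bool => bdot x0 w0 = 0).card : ℝ) ≤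
          q * 2 ^ Fintype.card ι := by
        have := hat w0 hvw0
        rwa [Nat.card_eq_fintype_card, Fintype.card_subtype] at this
      have hc2 : ((Finset.univ : Finset (ι → Bool)).card : ℝ) = 2 ^ Fintype.card ι := by
        simp
      rw [nsmul_eq_mul, nsmul_eq_mul, hc2]
      have hpow : (2 : ℝ) ^ (Fintype.card ι * (N + 1)) =
          2 ^ Fintype.card ι * 2 ^ (Fintype.card ι * N) := by
        rw [← pow_add]
        congr 1
        ring
      have hqq : q * q ^ (N - k) ≤ q ^ (N + 1 - k) := by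
        rcases le_or_gt k N with h | h
        · have : N + 1 - k = (N - k) + 1 := by omega
          rw [this, pow_succ, mul_comm]
        · have h1 : N - k = 0 := by omega
          have h2 : N + 1 - k = 0 := by omega
          rw [h1, h2]
          simpa using hq1
      have hTN : (0 : ℝ) ≤ 2 ^ N * 2 ^ (Fintype.card ι * N) * 2 ^ Fintype.card ι := by positivity
      calc ((Finset.univ.filter fun x0 : ι → Bool => bdot x0 w0 = 0).card : ℝ) *
              (2 ^ N * q ^ (N - k) * 2 ^ (Fintype.card ι * N)) +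
            2 ^ Fintype.card ι * (2 ^ N * q ^ (N + 1 - k) * 2 ^ (Fintype.card ι * N))
          ≤ (q * 2 ^ Fintype.card ι) * (2 ^ N * q ^ (N - k) * 2 ^ (Fintype.card ι * N)) +
            2 ^ Fintype.card ι * (2 ^ N * q ^ (N + 1 - k) * 2 ^ (Fintype.card ι * N)) := by
            have h0 : (0 : ℝ) ≤ 2 ^ N * q ^ (N - k) * 2 ^ (Fintype.card ι * N) := by positivity
            have := mul_le_mul_of_nonneg_right hc1 h0
            linarith
        _ = 2 ^ N * 2 ^ (Fintype.card ι * N) * 2 ^ Fintype.card ι * (q * q ^ (N - k)) +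
            2 ^ N * 2 ^ (Fintype.card ι * N) * 2 ^ Fintype.card ι * q ^ (N + 1 - k) := by ring
        _ ≤ 2 ^ N * 2 ^ (Fintype.card ι * N) * 2 ^ Fintype.card ι * q ^ (N + 1 - k) +
            2 ^ N * 2 ^ (Fintype.card ι * N) * 2 ^ Fintype.card ι * q ^ (N + 1 - k) := by
            have := mul_le_mul_of_nonneg_left hqq hTN
            linarith
        _ = 2 ^ (N + 1) * q ^ (N + 1 - k) * 2 ^ (Fintype.card ι * (N + 1)) := by
            rw [hpow, pow_succ]
            ring
    · have h0 : Nat.card {x : Fin (N + 1) → ι → Bool //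
          ∃ w ∈ U, hv w ∧ ∀ s, bdot (x s) w = 0} = 0 := by
        have : IsEmpty {x : Fin (N + 1) → ι → Bool // ∃ w ∈ U, hv w ∧ ∀ s, bdot (x s) w = 0} := by
          refine ⟨?_⟩
          rintro ⟨x, w, hwU, hvw, _⟩
          exact hw ⟨w, hwU, hvw⟩
        exact Nat.card_of_isEmpty
      rw [h0]
      push_cast
      positivity

theorem rows : RowsStmt := by
  intro R ι σ _ _ _ _ _ hv ℓ q hℓ hq0 hq1 hat U k hk
  classical
  have e := Fintype.equivFin σ
  have hset : {x : σ → ι → Bool // ∃ w ∈ U, hv w ∧ ∀ s, bdot (x s) w = 0} ≃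
      {x : Fin (Fintype.card σ) → ι → Bool // ∃ w ∈ U, hv w ∧ ∀ s, bdot (x s) w = 0} := by
    refine Equiv.subtypeEquiv (Equiv.arrowCongr e (Equiv.refl _)) ?_
    intro x
    constructor
    · rintro ⟨w, hwU, hvw, hs⟩
      exact ⟨w, hwU, hvw, fun s => hs (e.symm s)⟩
    · rintro ⟨w, hwU, hvw, hs⟩
      refine ⟨w, hwU, hvw, fun s => ?_⟩
      have := hs (e s)
      simpa [Equiv.arrowCongr] using this
  rw [Nat.card_congr hset]
  exact rows_fin R ι hv ℓ q hℓ hq0 hq1 hat _ U k hk

end Vale.Agent.P160.Half.G
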