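import Vale.Agent.P160.Half.KZA525
import Vale.Agent.P160.Half.Rows

/-! # P160, half rate: KILL, prime power moduli (helper525)

The number of symmetric 0/1 matrices with a kernel vector modulo `p ^ a` which has more than `t` unit coordinates and at least `z` zero
coordinates (final assembly, item (6)). -/

open Finset Matrix

set_option linter.unusedSectionVars false

namespace Vale.Agent.P160.Half.KillPP

open Vale.Agent.P160.Half.G Vale.Agent.P160.Half.G.KA525

variable {α : Type} [Fintype α] [DecidableEq α]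

/-- the event for one prime power and one set of zeros; the corank of the principal block `Sᶜ` is `< k` -/
def Ev (p a t k : ℕ) (S : Finset α) (b : Sym2 α → Bool) : Prop :=
  (Sᶜ).card < (prin ((matZ b).map (Int.cast : ℤ → ZMod p)) (Sᶜ)).rank + k ∧
    ∃ g : α → ZMod (p ^ a), (matZ b).map (Int.cast : ℤ → ZMod (p ^ a)) *ᵥ g = 0 ∧ t < Nat.card {i // IsUnit (g i)} ∧
      ∀ i ∈ S, g i = 0

theorem card_Ev_aux {p a t k : ℕ} {q : ℝ} (hp : p.Prime) (hq : q = 1 / ((p ^ a : ℕ) : ℝ) + 3 / 2 / Real.sqrt (t + 1)) (hq1 : q ≤ 1)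
    (S : Finset α) :
    (Nat.card {bf : (Sym2 α → Bool) × (α → Empty → Bool) // Ev p a t k S bf.1} : ℝ) ≤
      2 ^ S.card * q ^ (S.card - a * k) * 2 ^ (Fintype.card (Sym2 α) + Fintype.card α * Fintype.card Empty) := by
  classical
  have hpz : NeZero (p ^ a) := ⟨pow_ne_zero _ hp.ne_zero⟩
  have hq0 : 0 ≤ q := by rw [hq]; positivity
  have ha : 0 < a := by
    rcases Nat.eq_zero_or_pos a with ha | ha
    · exfalso
      subst ha
      rw [pow_zero, Nat.cast_one, div_one] at hq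
      have : 0 < 3 / 2 / Real.sqrt (t + 1) := by positivity
      linarith
    · exact ha
  refine Blk.card_block S _ _ fun c0 => ?_
  by_cases hex : (Sᶜ).card < (prin ((matZ c0.1).map (Int.cast : ℤ → ZMod p)) (Sᶜ)).rank + k
  swap
  · have : IsEmpty {x : S → (↥(Sᶜ) ⊕ Empty) → Bool // Ev p a t k S (Blk.upd S c0 x).1} := by
      refine ⟨fun x => hex ?_⟩
      have h1 := x.2.1
      rwa [prin_upd] at h1
    rw [Nat.card_of_isEmpty, Nat.cast_zero]
    positivity
  set U := LinearMap.ker (EE (ZMod (p ^ a)) S c0.1 c0.2).mulVecLin with hU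
  have hlen : len p U ≤ a * k := by
    unfold len
    have := Nat.log_mono_right (b := p) (card_ker S c0.1 c0.2 (a := a) hp hex)
    rwa [Nat.log_pow hp.one_lt, Fintype.card_empty, Nat.add_zero] at this
  set hv : ((↥(Sᶜ) ⊕ Empty) → ZMod (p ^ a)) → Prop := fun w => t < Nat.card {j // IsUnit (w j)} with hhv
  have hatom : ∀ w, hv w → (Nat.card {x : (↥(Sᶜ) ⊕ Empty) → Bool // bdot x w = 0} : ℝ) ≤
      q * 2 ^ Fintype.card (↥(Sᶜ) ⊕ Empty) := by
    intro w hw
    have hc : t + 1 ≤ (univ.filter fun j => IsUnit (w j)).card := by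
      have h0 : t < Nat.card {j // IsUnit (w j)} := hw
      rw [Nat.card_eq_fintype_card, Fintype.card_subtype] at h0
      exact h0
    have h1 := LOq.atom_le w 0 (univ.filter fun j => IsUnit (w j)) (by omega) (fun i hi => (Finset.mem_filter.1 hi).2)
    have h2 : 1 / ((p ^ a : ℕ) : ℝ) + 3 / 2 / Real.sqrt ((univ.filter fun j => IsUnit (w j)).card : ℝ) ≤ q := by
      rw [hq]
      refine add_le_add le_rfl (div_le_div_of_nonneg_left (by norm_num) (Real.sqrt_pos.2 (by positivity)) (Real.sqrt_le_sqrt ?_))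
      exact_mod_cast hc
    have h3 := h1.trans h2
    unfold LOq.atom at h3
    rw [div_le_iff₀ (by positivity)] at h3
    have h4 : Nat.card {x : (↥(Sᶜ) ⊕ Empty) → Bool // bdot x w = 0} =
        (univ.filter (fun x : (↥(Sᶜ) ⊕ Empty) → Bool => ∑ i, (if x i then w i else 0) = 0)).card := by
      rw [Nat.card_eq_fintype_card, Fintype.card_subtype]
      rfl
    rw [h4]
    exact h3
  have key := rows (ZMod (p ^ a)) (↥(Sᶜ) ⊕ Empty) S hv (len p) q (fun U V h => len_lt hp U V h) hq0 hq1 hatom U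
    (a * k) hlen
  rw [Fintype.card_coe] at key ⊢
  refine le_trans ?_ key
  have he : ∀ F : Empty → ZMod (p ^ a), ∑ j, F j = 0 := fun F => Fintype.sum_empty F
  have hsub : ∀ x, Ev p a t k S (Blk.upd S c0 x).1 → ∃ w ∈ U, hv w ∧ ∀ s, bdot (x s) w = 0 := by
    rintro x ⟨-, g, hw, hun, hz⟩
    have hsplit : ∀ (F : α → ZMod (p ^ a)), ∑ j, F j * g j = ∑ j : ↥(Sᶜ), F j * g j := by
      intro F
      rw [Finset.sum_coe_sort (Sᶜ) (fun j => F j * g j)]
      refine (Finset.sum_subset (Finset.subset_univ (Sᶜ)) fun j _ hj => ?_).symm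
      rw [hz j (by simpa using hj), mul_zero]
    refine ⟨fun v => Sum.elim (fun j : ↥(Sᶜ) => g j) (fun _ => 0) v, ?_, ?_, ?_⟩
    · rw [hU, LinearMap.mem_ker]
      funext i
      change (EE (ZMod (p ^ a)) S c0.1 c0.2 *ᵥ _) i = 0
      rw [EE_mulVec]
      have h1 := congrFun hw (i : α)
      simp only [Matrix.mulVec, dotProduct, Matrix.map_apply, Pi.zero_apply] at h1
      rw [hsplit] at h1
      rw [he, add_zero, ← h1]
      refine Finset.sum_congr rfl fun j _ => ?_
      rw [matZ_upd S c0 x (Finset.mem_compl.1 i.2) (Finset.mem_compl.1 j.2)]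
      rfl
    · change t < Nat.card _
      refine hun.trans_le ?_
      have hnt : Nontrivial (ZMod (p ^ a)) := by
        have : Fact (1 < p ^ a) := ⟨Nat.one_lt_pow ha.ne' hp.one_lt⟩
        infer_instance
      refine Nat.card_le_card_of_injective
        (fun i : {i // IsUnit (g i)} =>
          (⟨Sum.inl ⟨i.1, Finset.mem_compl.2 fun hi => by
            have h1 := i.2
            rw [hz i.1 hi] at h1
            exact not_isUnit_zero h1⟩, i.2⟩ :
            {j : ↥(Sᶜ) ⊕ Empty // IsUnit (Sum.elim (fun j : ↥(Sᶜ) => g j) (fun _ => 0) j)})) ?_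
      intro i i' h
      have h2 := congrArg Subtype.val h
      have h3 := Sum.inl.inj h2
      exact Subtype.ext (congrArg (fun z : ↥(Sᶜ) => (z : α)) h3)
    · intro s'
      have h1 := congrFun hw (s' : α)
      simp only [Matrix.mulVec, dotProduct, Matrix.map_apply, Pi.zero_apply] at h1
      rw [hsplit] at h1
      unfold bdot
      rw [Fintype.sum_sum_type, he, add_zero]
      refine Eq.trans ?_ h1
      refine Finset.sum_congr rfl fun j _ => ?_
      unfold matZ
      rw [Blk.upd_fst_cross S c0 x s' j]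
      cases x s' (Sum.inl j) <;> simp
  exact_mod_cast Nat.card_le_card_of_injective
    (fun x : {x : S → (↥(Sᶜ) ⊕ Empty) → Bool // Ev p a t k S (Blk.upd S c0 x).1} =>
      (⟨x.1, hsub x.1 x.2⟩ : {x : S → (↥(Sᶜ) ⊕ Empty) → Bool // ∃ w ∈ U, hv w ∧ ∀ s, bdot (x s) w = 0}))
    (fun x x' h => by
      have h2 : x.1 = x'.1 := Subtype.mk.inj h
      exact Subtype.ext h2)

theorem card_Ev {p a t k : ℕ} {q : ℝ} (hp : p.Prime) (hq : q = 1 / ((p ^ a : ℕ) : ℝ) + 3 / 2 / Real.sqrt (t + 1)) (hq1 : q ≤ 1)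
    (S : Finset α) :
    (Nat.card {b : Sym2 α → Bool // Ev p a t k S b} : ℝ) ≤ 2 ^ S.card * q ^ (S.card - a * k) * 2 ^ Fintype.card (Sym2 α) := by
  have h := card_Ev_aux (k := k) hp hq hq1 S
  rw [Fintype.card_empty, Nat.mul_zero, Nat.add_zero] at h
  have h1 : Nat.card {bf : (Sym2 α → Bool) × (α → Empty → Bool) // Ev p a t k S bf.1} =
      Nat.card {b : Sym2 α → Bool // Ev p a t k S b} :=
    Nat.card_congr (Equiv.subtypeEquiv (Equiv.prodUnique _ _) fun _ => Iff.rfl)
  rwa [h1] at h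

/-- union over a family of sets of zeros -/
theorem kill_choose {p a t k : ℕ} {q : ℝ} (z : ℕ) (hp : p.Prime) (hq : q = 1 / ((p ^ a : ℕ) : ℝ) + 3 / 2 / Real.sqrt (t + 1))
    (hq1 : q ≤ 1) :
    (Nat.card {b : Sym2 α → Bool // CorLt (matZ b) k ∧ ∃ g : α → ZMod (p ^ a), (matZ b).map (Int.cast : ℤ → ZMod (p ^ a)) *ᵥ g = 0 ∧
      t < Nat.card {i // IsUnit (g i)} ∧ z ≤ Nat.card {i // g i = 0}} : ℝ) ≤
    (Nat.choose (Fintype.card α) z * 2 ^ z) * q ^ (z - a * k) * 2 ^ Fintype.card (Sym2 α) := by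
  classical
  set Bad : (Sym2 α → Bool) → Prop := fun b => CorLt (matZ b) k ∧ ∃ g : α → ZMod (p ^ a),
    (matZ b).map (Int.cast : ℤ → ZMod (p ^ a)) *ᵥ g = 0 ∧ t < Nat.card {i // IsUnit (g i)} ∧ z ≤ Nat.card {i // g i = 0} with hBad
  have hcov : (univ.filter Bad) ⊆ (Finset.powersetCard z (univ : Finset α)).biUnion (fun S => univ.filter (Ev p a t k S)) := by
    intro b hb
    obtain ⟨h1, g, hw, hun, hz⟩ := (Finset.mem_filter.1 hb).2
    rw [Nat.card_eq_fintype_card, Fintype.card_subtype] at hz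
    obtain ⟨S, hS, hSc⟩ := Finset.exists_subset_card_eq hz
    refine Finset.mem_biUnion.2 ⟨S, Finset.mem_powersetCard.2 ⟨Finset.subset_univ _, hSc⟩, ?_⟩
    exact Finset.mem_filter.2 ⟨Finset.mem_univ _, h1 p hp _, g, hw, hun, fun i hi => (Finset.mem_filter.1 (hS hi)).2⟩
  have hone : ∀ S ∈ Finset.powersetCard z (univ : Finset α), ((univ.filter (Ev p a t k S)).card : ℝ) ≤
      2 ^ z * q ^ (z - a * k) * 2 ^ Fintype.card (Sym2 α) := by
    intro S hS
    have hc := (Finset.mem_powersetCard.1 hS).2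
    have h3 := card_Ev (k := k) hp hq hq1 S
    rw [hc, Nat.card_eq_fintype_card, Fintype.card_subtype] at h3
    exact h3
  change (Nat.card {b // Bad b} : ℝ) ≤ _
  rw [Nat.card_eq_fintype_card, Fintype.card_subtype]
  calc ((univ.filter Bad).card : ℝ)
      ≤ (((Finset.powersetCard z (univ : Finset α)).biUnion (fun S => univ.filter (Ev p a t k S))).card : ℝ) := by
        exact_mod_cast Finset.card_le_card hcov
    _ ≤ ∑ S ∈ Finset.powersetCard z (univ : Finset α), ((univ.filter (Ev p a t k S)).card : ℝ) := by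
        exact_mod_cast Finset.card_biUnion_le
    _ ≤ ∑ _S ∈ Finset.powersetCard z (univ : Finset α), 2 ^ z * q ^ (z - a * k) * 2 ^ Fintype.card (Sym2 α) :=
        Finset.sum_le_sum hone
    _ = _ := by
        rw [Finset.sum_const, nsmul_eq_mul, Finset.card_powersetCard, Finset.card_univ]
        ring

/-- **KILL, prime powers, all primes `p < y` at once**: `a p` is the exponent, `w` a lower bound of the moduli -/
theorem kill_pp (y A t k z w : ℕ) (a : ℕ → ℕ) {q : ℝ} (hw0 : 1 ≤ w) (ha : ∀ p, p.Prime → p < y → a p ≤ A)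
    (hw : ∀ p, p.Prime → p < y → w ≤ p ^ a p) (hq : q = 1 / (w : ℝ) + 3 / 2 / Real.sqrt (t + 1)) (hq1 : q ≤ 1) :
    (Nat.card {b : Sym2 α → Bool // CorLt (matZ b) k ∧ ∃ p, p.Prime ∧ p < y ∧ ∃ g : α → ZMod (p ^ a p),
      (matZ b).map (Int.cast : ℤ → ZMod (p ^ a p)) *ᵥ g = 0 ∧ t < Nat.card {i // IsUnit (g i)} ∧ z ≤ Nat.card {i // g i = 0}} : ℝ) ≤
    y * (Nat.choose (Fintype.card α) z * 2 ^ z) * q ^ (z - A * k) * 2 ^ Fintype.card (Sym2 α) := by
  classical
  have hq0 : 0 ≤ q := by rw [hq]; positivity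
  set Bad : ℕ → (Sym2 α → Bool) → Prop := fun p b => CorLt (matZ b) k ∧ ∃ g : α → ZMod (p ^ a p),
    (matZ b).map (Int.cast : ℤ → ZMod (p ^ a p)) *ᵥ g = 0 ∧ t < Nat.card {i // IsUnit (g i)} ∧ z ≤ Nat.card {i // g i = 0} with hBad
  set C : ℝ := (Nat.choose (Fintype.card α) z * 2 ^ z) * q ^ (z - A * k) * 2 ^ Fintype.card (Sym2 α) with hC
  have hC0 : 0 ≤ C := by positivity
  have hone : ∀ p ∈ (Finset.range y).filter Nat.Prime, ((univ.filter (Bad p)).card : ℝ) ≤ C := by
    intro p hpm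
    obtain ⟨hpy, hp⟩ := Finset.mem_filter.1 hpm
    have hpy' := Finset.mem_range.1 hpy
    have h2 : 1 / ((p ^ a p : ℕ) : ℝ) + 3 / 2 / Real.sqrt (t + 1) ≤ q := by
      rw [hq]
      refine add_le_add (one_div_le_one_div_of_le (by exact_mod_cast hw0) ?_) le_rfl
      exact_mod_cast hw p hp hpy'
    have h3 := kill_choose (α := α) (a := a p) (t := t) (k := k) z hp rfl (h2.trans hq1)
    rw [Nat.card_eq_fintype_card, Fintype.card_subtype] at h3
    refine h3.trans ?_
    rw [hC]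
    refine mul_le_mul_of_nonneg_right (mul_le_mul_of_nonneg_left ?_ (by positivity)) (by positivity)
    have h4 : z - A * k ≤ z - a p * k := Nat.sub_le_sub_left (Nat.mul_le_mul_right k (ha p hp hpy')) z
    have h5 : 0 ≤ 1 / ((p ^ a p : ℕ) : ℝ) + 3 / 2 / Real.sqrt (t + 1) := by positivity
    exact (pow_le_pow_left₀ h5 h2 _).trans (pow_le_pow_of_le_one hq0 hq1 h4)
  have hcov : (univ.filter fun b : Sym2 α → Bool => CorLt (matZ b) k ∧ ∃ p, p.Prime ∧ p < y ∧ ∃ g : α → ZMod (p ^ a p),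
      (matZ b).map (Int.cast : ℤ → ZMod (p ^ a p)) *ᵥ g = 0 ∧ t < Nat.card {i // IsUnit (g i)} ∧ z ≤ Nat.card {i // g i = 0}) ⊆
      ((Finset.range y).filter Nat.Prime).biUnion fun p => univ.filter (Bad p) := by
    intro b hb
    obtain ⟨h1, p, hp, hpy, g, h2⟩ := (Finset.mem_filter.1 hb).2
    exact Finset.mem_biUnion.2 ⟨p, Finset.mem_filter.2 ⟨Finset.mem_range.2 hpy, hp⟩,
      Finset.mem_filter.2 ⟨Finset.mem_univ _, h1, g, h2⟩⟩
  rw [Nat.card_eq_fintype_card, Fintype.card_subtype]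
  calc _ ≤ ((((Finset.range y).filter Nat.Prime).biUnion fun p => univ.filter (Bad p)).card : ℝ) := by
        exact_mod_cast Finset.card_le_card hcov
    _ ≤ ∑ p ∈ (Finset.range y).filter Nat.Prime, ((univ.filter (Bad p)).card : ℝ) := by
        exact_mod_cast Finset.card_biUnion_le
    _ ≤ ∑ _p ∈ (Finset.range y).filter Nat.Prime, C := Finset.sum_le_sum hone
    _ = ((Finset.range y).filter Nat.Prime).card * C := by rw [Finset.sum_const, nsmul_eq_mul]
    _ ≤ y * C := by
        refine mul_le_mul_of_nonneg_right ?_ hC0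
        have := Finset.card_filter_le (Finset.range y) Nat.Prime
        rw [Finset.card_range] at this
        exact_mod_cast this
    _ = _ := by rw [hC]; ring

end Vale.Agent.P160.Half.KillPP
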