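import Mathlib

/-!
P160, deterministic Littlewood–Offord inequality (helper685 (1), simplified by binary digits).

`A` a nonsingular integer matrix whose entries are close to `1/2` in operator norm, `w` a vector
mod `N` which is surjective on `ℤ^m` and orthogonal to all the rows of `A`.  Then the number `|X|`
of 0/1 vectors `x` with `x · w = a` satisfies
`N |X| ^ j ≤ (3 m + 1) (e^D (1 + 2 √m)) ^ m` for `2 ^ j ≤ 2 √m`, `D = C / 2 + 2`.

Proof: the points `∑_{i<j} 2^i x_i` are `|X|^j` distinct points of one coset of `ker (· w)`, and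
`ℤ^m / ker (· w)` has `N` representatives in `Aᵀ [-1/2, 1/2)^m`.
-/

namespace Vale.Agent.P160.Half.LODig

open Finset

/-! ### Counting integer points in an `ℓ¹` ball -/

theorem geom_int {l : ℝ} (hl : 0 < l) (L : ℕ) :
    ∑ y ∈ Finset.Icc (-(L : ℤ)) L, Real.exp (-l * |(y : ℝ)|) ≤
      1 + 2 / l * (1 - Real.exp (-l * L)) := by
  induction L with
  | zero => simp
  | succ L ih =>
    have hset : Finset.Icc (-((L + 1 : ℕ) : ℤ)) ((L + 1 : ℕ) : ℤ) =
        insert (((L + 1 : ℕ) : ℤ)) (insert (-((L + 1 : ℕ) : ℤ)) (Finset.Icc (-(L : ℤ)) L)) := by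
      ext y
      simp only [Finset.mem_Icc, Finset.mem_insert]
      push_cast
      omega
    rw [hset, Finset.sum_insert, Finset.sum_insert]
    · have h1 : |((((L + 1 : ℕ) : ℤ)) : ℝ)| = (L : ℝ) + 1 := by
        push_cast
        exact abs_of_nonneg (by positivity)
      have h2 : |((-((L + 1 : ℕ) : ℤ) : ℤ) : ℝ)| = (L : ℝ) + 1 := by
        push_cast
        rw [abs_of_nonpos (by linarith [(Nat.cast_nonneg L : (0 : ℝ) ≤ L)])]
        ring
      rw [h1, h2]
      have h3 : Real.exp (-l * ((L : ℝ) + 1)) = Real.exp (-l * L) * Real.exp (-l) := by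
        rw [← Real.exp_add]; ring_nf
      have h4 : l * Real.exp (-l) ≤ 1 - Real.exp (-l) := by
        have := Real.add_one_le_exp l
        have h5 : Real.exp (-l) * Real.exp l = 1 := by rw [← Real.exp_add]; simp
        have h6 := Real.exp_pos (-l)
        nlinarith
      have h7 := Real.exp_pos (-l * L)
      have h8 : Real.exp (-l * ((L : ℝ) + 1)) ≤
          1 / l * (Real.exp (-l * L) - Real.exp (-l * ((L : ℝ) + 1))) := by
        rw [h3, div_mul_eq_mul_div, le_div_iff₀ hl]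
        nlinarith
      push_cast
      have h9 : 2 / l * (1 - Real.exp (-l * ((L : ℝ) + 1))) =
          2 / l * (1 - Real.exp (-l * L)) +
            2 * (1 / l * (Real.exp (-l * L) - Real.exp (-l * ((L : ℝ) + 1)))) := by
        ring
      rw [h9]
      linarith
    · simp only [Finset.mem_Icc, not_and, not_le]
      intro _
      push_cast
      omega
    · simp only [Finset.mem_insert, Finset.mem_Icc, not_or, not_and, not_le]
      push_cast
      omega

theorem geom_int' {l : ℝ} (hl : 0 < l) (L : ℕ) :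
    ∑ y ∈ Finset.Icc (-(L : ℤ)) L, Real.exp (-l * |(y : ℝ)|) ≤ 1 + 2 / l := by
  refine (geom_int hl L).trans ?_
  have h1 := Real.exp_pos (-l * L)
  have h2 : 0 < 2 / l := by positivity
  nlinarith

/-- Integer points of an `ℓ¹` ball. -/
theorem card_l1 {m : ℕ} {l : ℝ} (hl : 0 < l) {ρ : ℝ} (S : Finset (Fin m → ℤ))
    (hS : ∀ v ∈ S, ∑ c, |(v c : ℝ)| ≤ ρ) :
    (S.card : ℝ) ≤ Real.exp (l * ρ) * (1 + 2 / l) ^ m := by
  obtain ⟨L, hL⟩ : ∃ L : ℕ, ∀ v ∈ S, ∀ c, v c ∈ Finset.Icc (-(L : ℤ)) L := by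
    refine ⟨∑ v ∈ S, ∑ c, (v c).natAbs, fun v hv c => ?_⟩
    have h1 : (v c).natAbs ≤ ∑ v ∈ S, ∑ c, (v c).natAbs :=
      (Finset.single_le_sum (f := fun c => (v c).natAbs) (fun _ _ => Nat.zero_le _)
        (Finset.mem_univ c)).trans
        (Finset.single_le_sum (f := fun v : Fin m → ℤ => ∑ c, (v c).natAbs)
          (fun _ _ => Nat.zero_le _) hv)
    rw [Finset.mem_Icc]
    omega
  have h1 : (S.card : ℝ) ≤ ∑ v ∈ S, Real.exp (l * ρ) * ∏ c, Real.exp (-l * |(v c : ℝ)|) := by
    rw [Finset.card_eq_sum_ones, Nat.cast_sum]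
    refine Finset.sum_le_sum fun v hv => ?_
    rw [← Real.exp_sum, ← Real.exp_add, ← Finset.mul_sum]
    push_cast
    rw [Real.one_le_exp_iff]
    have := mul_le_mul_of_nonneg_left (hS v hv) hl.le
    linarith
  refine h1.trans ?_
  rw [← Finset.mul_sum]
  refine mul_le_mul_of_nonneg_left ?_ (Real.exp_pos _).le
  calc ∑ v ∈ S, ∏ c, Real.exp (-l * |(v c : ℝ)|)
      ≤ ∑ v ∈ Fintype.piFinset fun _ : Fin m => Finset.Icc (-(L : ℤ)) L,
          ∏ c, Real.exp (-l * |(v c : ℝ)|) := by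
        refine Finset.sum_le_sum_of_subset_of_nonneg ?_ fun _ _ _ =>
          Finset.prod_nonneg fun _ _ => (Real.exp_pos _).le
        intro v hv
        rw [Fintype.mem_piFinset]
        exact fun c => hL v hv c
    _ = ∏ _c : Fin m, ∑ y ∈ Finset.Icc (-(L : ℤ)) L, Real.exp (-l * |(y : ℝ)|) := by
        rw [Finset.prod_univ_sum]
    _ ≤ ∏ _c : Fin m, (1 + 2 / l) := by
        refine Finset.prod_le_prod (fun _ _ => Finset.sum_nonneg fun _ _ => (Real.exp_pos _).le)
          fun _ _ => geom_int' hl L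
    _ = (1 + 2 / l) ^ m := by simp

/-! ### Binary digits -/

/-- `∑_{i<j} 2^i x_i`. -/
def dig {m : ℕ} : (j : ℕ) → (Fin j → (Fin m → ℤ)) → (Fin m → ℤ) :=
  fun j x => ∑ i : Fin j, (2 : ℤ) ^ (i : ℕ) • x i

theorem dig_succ {m j : ℕ} (x : Fin (j + 1) → (Fin m → ℤ)) :
    dig (j + 1) x = x 0 + (2 : ℤ) • dig j (fun i => x i.succ) := by
  unfold dig
  rw [Fin.sum_univ_succ, Finset.smul_sum]
  congr 1
  · simp
  · refine Finset.sum_congr rfl fun i _ => ?_
    rw [smul_smul, Fin.val_succ, pow_succ, mul_comm]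

/-- The digits are determined. -/
theorem dig_injOn {m : ℕ} : ∀ (j : ℕ) (x y : Fin j → (Fin m → ℤ)),
    (∀ i c, x i c = 0 ∨ x i c = 1) → (∀ i c, y i c = 0 ∨ y i c = 1) → dig j x = dig j y →
      x = y := by
  intro j
  induction j with
  | zero => intro x y _ _ _; funext i; exact i.elim0
  | succ j ih =>
    intro x y hx hy h
    rw [dig_succ, dig_succ] at h
    have h0 : x 0 = y 0 := by
      funext c
      have h1 := congrFun h c
      simp only [Pi.add_apply, Pi.smul_apply, smul_eq_mul] at h1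
      rcases hx 0 c with h2 | h2 <;> rcases hy 0 c with h3 | h3 <;> omega
    have h1 : dig j (fun i => x i.succ) = dig j (fun i => y i.succ) := by
      funext c
      have h1 := congrFun h c
      have h2 := congrFun h0 c
      simp only [Pi.add_apply, Pi.smul_apply, smul_eq_mul] at h1
      omega
    have h2 := ih _ _ (fun i => hx i.succ) (fun i => hy i.succ) h1
    funext i
    refine Fin.cases h0 (fun i => ?_) i
    exact congrFun h2 i

theorem dig_mem {m : ℕ} : ∀ (j : ℕ) (x : Fin j → (Fin m → ℤ)),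
    (∀ i c, x i c = 0 ∨ x i c = 1) → ∀ c, 0 ≤ dig j x c ∧ dig j x c ≤ 2 ^ j - 1 := by
  intro j
  induction j with
  | zero => intro x _ c; simp [dig]
  | succ j ih =>
    intro x hx c
    rw [dig_succ]
    have h1 := ih (fun i => x i.succ) (fun i => hx i.succ) c
    simp only [Pi.add_apply, Pi.smul_apply, smul_eq_mul]
    rw [pow_succ]
    rcases hx 0 c with h2 | h2 <;> omega

/-! ### The pairing with `w` -/

/-- `z · w`. -/
def pr {m N : ℕ} (w : Fin m → ZMod N) (z : Fin m → ℤ) : ZMod N := ∑ c, (z c : ZMod N) * w c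

theorem pr_add {m N : ℕ} (w : Fin m → ZMod N) (y z : Fin m → ℤ) :
    pr w (y + z) = pr w y + pr w z := by
  unfold pr
  rw [← Finset.sum_add_distrib]
  exact Finset.sum_congr rfl fun c _ => by
    rw [Pi.add_apply]; push_cast; ring

theorem pr_smul {m N : ℕ} (w : Fin m → ZMod N) (n : ℤ) (z : Fin m → ℤ) :
    pr w (n • z) = (n : ZMod N) * pr w z := by
  unfold pr
  rw [Finset.mul_sum]
  exact Finset.sum_congr rfl fun c _ => by
    rw [Pi.smul_apply, smul_eq_mul]; push_cast; ring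

theorem pr_sum {m N : ℕ} {ι : Type*} (w : Fin m → ZMod N) (s : Finset ι) (f : ι → Fin m → ℤ) :
    pr w (∑ i ∈ s, f i) = ∑ i ∈ s, pr w (f i) := by
  classical
  induction s using Finset.induction_on with
  | empty => simp [pr]
  | insert a s ha ih => rw [Finset.sum_insert ha, Finset.sum_insert ha, pr_add, ih]

/-- Every class has a representative in `Aᵀ [-1/2, 1/2]^m`. -/
theorem exists_rep {m N : ℕ} (A : Matrix (Fin m) (Fin m) ℤ) (hdet : A.det ≠ 0)
    (w : Fin m → ZMod N) (hA : ∀ i, pr w (A i) = 0) (z : Fin m → ℤ) :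
    ∃ (r : Fin m → ℤ) (t : Fin m → ℝ), pr w r = pr w z ∧ (∀ i, |t i| ≤ 1 / 2) ∧
      ∀ c, (r c : ℝ) = ∑ i, t i * (A i c : ℝ) := by
  set AR : Matrix (Fin m) (Fin m) ℝ := A.map (fun x : ℤ => (x : ℝ)) with hAR
  have hdetR : AR.det ≠ 0 := by
    have h1 : AR.det = ((A.det : ℤ) : ℝ) := by
      rw [hAR]
      exact (Int.cast_det A).symm
    rw [h1]
    exact_mod_cast hdet
  set zR : Fin m → ℝ := fun c => (z c : ℝ) with hzR
  set t0 : Fin m → ℝ := Matrix.vecMul zR AR⁻¹ with ht0
  have ht : Matrix.vecMul t0 AR = zR := by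
    rw [ht0, Matrix.vecMul_vecMul, Matrix.nonsing_inv_mul _ (isUnit_iff_ne_zero.2 hdetR),
      Matrix.vecMul_one]
  refine ⟨z - ∑ i, (round (t0 i)) • A i, fun i => t0 i - round (t0 i), ?_, ?_, ?_⟩
  · rw [sub_eq_add_neg, pr_add, ← neg_one_smul ℤ, pr_smul, pr_sum]
    have : ∑ i, pr w ((round (t0 i)) • A i) = 0 :=
      Finset.sum_eq_zero fun i _ => by rw [pr_smul, hA i, mul_zero]
    rw [this, mul_zero, add_zero]
  · intro i
    exact abs_sub_round (t0 i)
  · intro c
    have h1 := congrFun ht c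
    simp only [Matrix.vecMul, dotProduct, hAR, Matrix.map_apply] at h1
    simp only [Pi.sub_apply, Finset.sum_apply, Pi.smul_apply, smul_eq_mul, sub_mul,
      Finset.sum_sub_distrib]
    rw [h1]
    push_cast
    rfl

/-! ### The main inequality -/

theorem lo_dig {m N j : ℕ} [NeZero N] (hm : 1 ≤ m) (A : Matrix (Fin m) (Fin m) ℤ)
    (hdet : A.det ≠ 0) {C : ℝ} (hC : 0 ≤ C)
    (hB : ∀ t : Fin m → ℝ, ∑ c, (∑ i, t i * ((A i c : ℝ) - 1 / 2)) ^ 2 ≤
      C ^ 2 * m * ∑ i, t i ^ 2)
    (w : Fin m → ZMod N) (hsurj : ∀ a : ZMod N, ∃ z : Fin m → ℤ, pr w z = a)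
    (hA : ∀ i, pr w (A i) = 0) (a : ZMod N) (X : Finset (Fin m → ℤ))
    (hX01 : ∀ x ∈ X, ∀ c, x c = 0 ∨ x c = 1) (hX : ∀ x ∈ X, pr w x = a)
    (hj : (2 : ℝ) ^ j ≤ 2 * Real.sqrt m) :
    (N : ℝ) * (X.card : ℝ) ^ j ≤
      (3 * m + 1) * (Real.exp (C / 2 + 2) * (1 + 2 * Real.sqrt m)) ^ m := by
  classical
  have hm0 : (0 : ℝ) < m := by exact_mod_cast hm
  have hm1 : (1 : ℝ) ≤ m := by exact_mod_cast hm
  set q := Real.sqrt m with hq
  have hq0 : 0 < q := Real.sqrt_pos.2 hm0
  have hqq : q * q = m := Real.mul_self_sqrt hm0.le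
  have hq1 : 1 ≤ q := by
    rw [hq]; exact Real.one_le_sqrt.2 hm1
  have hqm : q ≤ m := by nlinarith
  -- representatives
  have hrep : ∀ b : ZMod N, ∃ (r : Fin m → ℤ) (t : Fin m → ℝ), pr w r = b ∧
      (∀ i, |t i| ≤ 1 / 2) ∧ ∀ c, (r c : ℝ) = ∑ i, t i * (A i c : ℝ) := by
    intro b
    obtain ⟨z, hz⟩ := hsurj b
    obtain ⟨r, t, h1, h2, h3⟩ := exists_rep A hdet w hA z
    exact ⟨r, t, by rw [h1, hz], h2, h3⟩
  choose r t hr1 hr2 hr3 using hrep
  -- the points
  let Y : Finset (Fin j → (Fin m → ℤ)) := Fintype.piFinset fun _ => X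
  let pt : ZMod N × (Fin j → (Fin m → ℤ)) → (Fin m → ℤ) := fun p => r p.1 + dig j p.2
  have hpr : ∀ x ∈ Y, pr w (dig j x) = (((2 : ℤ) ^ j - 1 : ℤ) : ZMod N) * a := by
    intro x hx
    have hx' : ∀ i, x i ∈ X := fun i => Fintype.mem_piFinset.1 hx i
    unfold dig
    rw [pr_sum]
    simp only [pr_smul]
    have h1 : ∀ i : Fin j, (((2 : ℤ) ^ (i : ℕ) : ℤ) : ZMod N) * pr w (x i) =
        (((2 : ℤ) ^ (i : ℕ) : ℤ) : ZMod N) * a := fun i => by rw [hX _ (hx' i)]
    rw [Finset.sum_congr rfl fun i _ => h1 i, ← Finset.sum_mul, ← Int.cast_sum]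
    congr 2
    have h2 : ∑ i : Fin j, (2 : ℤ) ^ (i : ℕ) = 2 ^ j - 1 := by
      rw [Fin.sum_univ_eq_sum_range fun i => (2 : ℤ) ^ i]
      have h3 := mul_geom_sum (2 : ℤ) j
      linarith
    exact h2
  have hinj : ∀ p ∈ (univ : Finset (ZMod N)) ×ˢ Y, ∀ p' ∈ (univ : Finset (ZMod N)) ×ˢ Y,
      pt p = pt p' → p = p' := by
    rintro ⟨b, x⟩ hp ⟨b', x'⟩ hp' h
    rw [Finset.mem_product] at hp hp'
    have h1 : pr w (r b + dig j x) = pr w (r b' + dig j x') := congrArg (pr w) h
    rw [pr_add, pr_add, hr1, hr1, hpr x hp.2, hpr x' hp'.2] at h1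
    have hb : b = b' := add_right_cancel h1
    subst hb
    have h2 : dig j x = dig j x' := add_left_cancel h
    have h3 := dig_injOn j x x'
      (fun i c => hX01 _ (Fintype.mem_piFinset.1 hp.2 i) c)
      (fun i c => hX01 _ (Fintype.mem_piFinset.1 hp'.2 i) c) h2
    rw [h3]
  let P : Finset (Fin m → ℤ) := ((univ : Finset (ZMod N)) ×ˢ Y).image pt
  have hPcard : (P.card : ℝ) = (N : ℝ) * (X.card : ℝ) ^ j := by
    have h1 : P.card = ((univ : Finset (ZMod N)) ×ˢ Y).card := Finset.card_image_of_injOn hinj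
    rw [h1, Finset.card_product, Finset.card_univ, ZMod.card, Fintype.card_piFinset]
    simp
  -- the shift
  have hshift : ∀ y ∈ P, ∃ s : ℤ, s ∈ Finset.Icc (-(m : ℤ)) (2 * m) ∧
      ∑ c, |((y c - s : ℤ) : ℝ)| ≤ (C / 2 + 2) * m * q := by
    intro y hy
    obtain ⟨⟨b, x⟩, hp, rfl⟩ := Finset.mem_image.1 hy
    have hx := (Finset.mem_product.1 hp).2
    have hx01 : ∀ i c, x i c = 0 ∨ x i c = 1 :=
      fun i c => hX01 _ (Fintype.mem_piFinset.1 hx i) c
    set k : ℝ := 2 ^ j - 1 with hk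
    have hk0 : 0 ≤ k := by
      have : (1 : ℝ) ≤ 2 ^ j := one_le_pow₀ (by norm_num)
      linarith
    have hk1 : k ≤ 2 * q := by linarith
    set T : ℝ := ∑ i, t b i with hT
    have hTabs : |T| ≤ m / 2 := by
      calc |T| ≤ ∑ i, |t b i| := Finset.abs_sum_le_sum_abs _ _
        _ ≤ ∑ _i : Fin m, (1 / 2 : ℝ) := Finset.sum_le_sum fun i _ => hr2 b i
        _ = m / 2 := by simp; ring
    set s : ℝ := T / 2 + k / 2 with hs
    have hT2 := abs_le.1 hTabs
    refine ⟨⌊s⌋, ?_, ?_⟩
    · rw [Finset.mem_Icc]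
      constructor
      · rw [Int.le_floor]
        push_cast
        linarith
      · have : (⌊s⌋ : ℝ) ≤ s := Int.floor_le s
        have h2 : s ≤ 2 * m := by linarith
        have h3 : ((⌊s⌋ : ℤ) : ℝ) ≤ ((2 * m : ℤ) : ℝ) := by push_cast; linarith
        exact_mod_cast h3
    · set e : Fin m → ℝ := fun c => ∑ i, t b i * ((A i c : ℝ) - 1 / 2) with he
      have hpoint : ∀ c, |(((r b + dig j x) c - ⌊s⌋ : ℤ) : ℝ)| ≤ |e c| + q + 1 := by
        intro c
        have h1 : (((r b + dig j x) c - ⌊s⌋ : ℤ) : ℝ) =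
            e c + (((dig j x c : ℤ) : ℝ) - k / 2) + (s - ⌊s⌋) := by
          rw [Pi.add_apply]
          push_cast
          rw [hr3 b c, he]
          simp only [mul_sub, Finset.sum_sub_distrib]
          rw [← Finset.sum_mul, ← hT, hs]
          ring
        have h2 := dig_mem j x hx01 c
        have h3 : (0 : ℝ) ≤ (dig j x c : ℝ) := by exact_mod_cast h2.1
        have h4 : (dig j x c : ℝ) ≤ k := by
          rw [hk]
          have : ((dig j x c : ℤ) : ℝ) ≤ ((2 ^ j - 1 : ℤ) : ℝ) := by exact_mod_cast h2.2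
          push_cast at this
          exact this
        have h5 : |(dig j x c : ℝ) - k / 2| ≤ q := by
          rw [abs_le]; constructor <;> linarith
        have h6 : |s - ⌊s⌋| ≤ 1 := by
          have h7 := Int.floor_le s
          have h8 := Int.lt_floor_add_one s
          rw [abs_le]; constructor <;> linarith
        rw [h1]
        refine (abs_add_le _ _).trans ?_
        refine (add_le_add (abs_add_le _ _) le_rfl).trans ?_
        linarith
      have hesum : ∑ c, |e c| ≤ C / 2 * m * q := by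
        have h1 : ∑ c, e c ^ 2 ≤ (C * m / 2) ^ 2 := by
          refine (hB (t b)).trans ?_
          have h2 : ∑ i, t b i ^ 2 ≤ m / 4 := by
            calc ∑ i, t b i ^ 2 ≤ ∑ _i : Fin m, (1 / 4 : ℝ) := by
                  refine Finset.sum_le_sum fun i _ => ?_
                  have := abs_le.1 (hr2 b i)
                  nlinarith
              _ = m / 4 := by simp; ring
          have h3 : 0 ≤ C ^ 2 * m := by positivity
          nlinarith
        have h2 : (∑ c, |e c|) ^ 2 ≤ m * ∑ c, e c ^ 2 := by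
          have h3 := sq_sum_le_card_mul_sum_sq (s := (univ : Finset (Fin m))) (f := fun c => |e c|)
          simp only [sq_abs, Finset.card_univ, Fintype.card_fin] at h3
          exact h3
        have h3 : (∑ c, |e c|) ^ 2 ≤ (C / 2 * m * q) ^ 2 := by
          calc (∑ c, |e c|) ^ 2 ≤ m * (C * m / 2) ^ 2 :=
                h2.trans (mul_le_mul_of_nonneg_left h1 hm0.le)
            _ = (C / 2 * m * q) ^ 2 := by
                rw [mul_pow (C / 2 * m) q 2, sq q, hqq]; ring
        exact abs_le_of_sq_le_sq' h3 (by positivity) |>.2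
      calc ∑ c, |(((r b + dig j x) c - ⌊s⌋ : ℤ) : ℝ)| ≤ ∑ c, (|e c| + q + 1) :=
            Finset.sum_le_sum fun c _ => hpoint c
        _ = ∑ c, |e c| + m * q + m := by
            simp only [Finset.sum_add_distrib, Finset.sum_const, Finset.card_univ,
              Fintype.card_fin, nsmul_eq_mul, mul_one]
        _ ≤ C / 2 * m * q + m * q + m * q := by nlinarith
        _ = (C / 2 + 2) * m * q := by ring
  choose! sh hsh1 hsh2 using hshift
  -- counting
  let Q : ℤ → Finset (Fin m → ℤ) := fun s =>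
    (P.filter fun y => sh y = s).image fun y => fun c => y c - s
  have hQ : ∀ s, ((P.filter fun y => sh y = s).card : ℝ) ≤
      (Real.exp (C / 2 + 2) * (1 + 2 * q)) ^ m := by
    intro s
    have h1 : (P.filter fun y => sh y = s).card = (Q s).card := by
      refine (Finset.card_image_of_injective _ ?_).symm
      intro y y' h
      funext c
      have := congrFun h c
      simp only at this
      omega
    rw [h1]
    have h2 := card_l1 (m := m) (l := 1 / q) (by positivity) (ρ := (C / 2 + 2) * m * q) (Q s) (by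
      intro v hv
      obtain ⟨y, hy, rfl⟩ := Finset.mem_image.1 hv
      obtain ⟨hy1, hy2⟩ := Finset.mem_filter.1 hy
      have := hsh2 y hy1
      rw [hy2] at this
      exact this)
    refine h2.trans (le_of_eq ?_)
    have h3 : 1 / q * ((C / 2 + 2) * m * q) = m * (C / 2 + 2) := by
      field_simp
    have h4 : 2 / (1 / q) = 2 * q := by field_simp
    rw [h3, h4, mul_pow, ← Real.exp_nat_mul]
  have hfin : P.card = ∑ s ∈ Finset.Icc (-(m : ℤ)) (2 * m), (P.filter fun y => sh y = s).card :=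
    Finset.card_eq_sum_card_fiberwise fun y hy => hsh1 y hy
  rw [← hPcard, hfin]
  push_cast
  refine (Finset.sum_le_sum fun s _ => hQ s).trans (le_of_eq ?_)
  rw [Finset.sum_const, nsmul_eq_mul]
  congr 1
  rw [Int.card_Icc]
  have : (2 * (m : ℤ) + 1 - -(m : ℤ)).toNat = 3 * m + 1 := by omega
  rw [this]
  push_cast
  ring

end Vale.Agent.P160.Half.LODig
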