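import Vale.Agent.P160.Half.LODig

/-!
P160, deterministic Littlewood–Offord inequality without any hypothesis on the norm of the matrix
(rounding: helper628).  `A` an integer `m × m` matrix, `det A ≠ 0`, rows of norm `≤ √m`, orthogonal
to `w` mod `N`; `z ↦ z · w` onto `ℤ / N`; `X` a set of 0/1 vectors with `x · w = a`; `2^j ≤ 2 √m`:
`N |X| ^ j ≤ (e^{5/2} (1 + 2 √m)) ^ m`.
-/

namespace Vale.Agent.P160.Half.LODig

open Finset

/-- Rounding with small error. -/
theorem exists_round {m : ℕ} {ι : Type*} [DecidableEq ι] (t : ι → ℝ) (a : ι → Fin m → ℝ)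
    (S : Finset ι) : ∃ z : ι → ℤ, ∑ c, (∑ i ∈ S, (t i - z i) * a i c) ^ 2 ≤
      1 / 4 * ∑ i ∈ S, ∑ c, a i c ^ 2 := by
  induction S using Finset.induction_on with
  | empty => exact ⟨fun _ => 0, by simp⟩
  | insert i S hi ih =>
    obtain ⟨z, hz⟩ := ih
    set v : Fin m → ℝ := fun c => ∑ i ∈ S, (t i - z i) * a i c with hv
    set s : ℝ := Int.fract (t i) with hs
    have hs0 : 0 ≤ s := Int.fract_nonneg _
    have hs1 : s ≤ 1 := (Int.fract_lt_one _).le
    have hid : (1 - s) * ∑ c, (v c + s * a i c) ^ 2 + s * ∑ c, (v c - (1 - s) * a i c) ^ 2 =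
        ∑ c, v c ^ 2 + s * (1 - s) * ∑ c, a i c ^ 2 := by
      rw [Finset.mul_sum, Finset.mul_sum, Finset.mul_sum, ← Finset.sum_add_distrib,
        ← Finset.sum_add_distrib]
      exact Finset.sum_congr rfl fun c _ => by ring
    have hq : 0 ≤ ∑ c, a i c ^ 2 := Finset.sum_nonneg fun _ _ => sq_nonneg _
    have hs4 : s * (1 - s) ≤ 1 / 4 := by nlinarith [sq_nonneg (s - 1 / 2)]
    have hbound : ∑ c, v c ^ 2 + s * (1 - s) * ∑ c, a i c ^ 2 ≤
        1 / 4 * ∑ k ∈ insert i S, ∑ c, a k c ^ 2 := by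
      rw [Finset.sum_insert hi]
      have := mul_le_mul_of_nonneg_right hs4 hq
      linarith
    by_cases h : ∑ c, (v c + s * a i c) ^ 2 ≤ 1 / 4 * ∑ k ∈ insert i S, ∑ c, a k c ^ 2
    · refine ⟨fun k => if k = i then ⌊t i⌋ else z k, le_trans (le_of_eq ?_) h⟩
      refine Finset.sum_congr rfl fun c _ => ?_
      rw [Finset.sum_insert hi]
      have h1 : ∑ k ∈ S, (t k - ((if k = i then ⌊t i⌋ else z k : ℤ) : ℝ)) * a k c = v c := by
        refine Finset.sum_congr rfl fun k hk => ?_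
        have hki : k ≠ i := fun e => hi (by rw [← e]; exact hk)
        rw [if_neg hki]
      rw [h1]
      simp only [if_true]
      have h2 : t i - ((⌊t i⌋ : ℤ) : ℝ) = s := rfl
      rw [h2]
      ring
    · have h' : ∑ c, (v c - (1 - s) * a i c) ^ 2 ≤
          1 / 4 * ∑ k ∈ insert i S, ∑ c, a k c ^ 2 := by
        by_contra h2
        push Not at h h2
        have h3 : 1 / 4 * ∑ k ∈ insert i S, ∑ c, a k c ^ 2 <
            (1 - s) * ∑ c, (v c + s * a i c) ^ 2 + s * ∑ c, (v c - (1 - s) * a i c) ^ 2 := by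
          rcases hs0.eq_or_lt with h0 | h0
          · rw [← h0]
            rw [← h0] at h
            linarith
          · nlinarith [mul_lt_mul_of_pos_left h2 h0,
              mul_le_mul_of_nonneg_left h.le (by linarith : 0 ≤ 1 - s)]
        linarith
      refine ⟨fun k => if k = i then ⌊t i⌋ + 1 else z k, le_trans (le_of_eq ?_) h'⟩
      refine Finset.sum_congr rfl fun c _ => ?_
      rw [Finset.sum_insert hi]
      have h1 : ∑ k ∈ S, (t k - ((if k = i then ⌊t i⌋ + 1 else z k : ℤ) : ℝ)) * a k c = v c := by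
        refine Finset.sum_congr rfl fun k hk => ?_
        have hki : k ≠ i := fun e => hi (by rw [← e]; exact hk)
        rw [if_neg hki]
      rw [h1]
      simp only [if_true]
      have h2 : t i - ((⌊t i⌋ : ℤ) : ℝ) = s := rfl
      push_cast
      have h3 : t i - ((⌊t i⌋ : ℝ) + 1) = s - 1 := by linarith
      rw [h3]
      ring

/-- Every class has a representative of norm at most `√(∑ |A_i|²) / 2`. -/
theorem exists_rep_small {m N : ℕ} (A : Matrix (Fin m) (Fin m) ℤ) (hdet : A.det ≠ 0)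
    (w : Fin m → ZMod N) (hA : ∀ i, pr w (A i) = 0) (z : Fin m → ℤ) :
    ∃ r : Fin m → ℤ, pr w r = pr w z ∧
      ∑ c, (r c : ℝ) ^ 2 ≤ 1 / 4 * ∑ i, ∑ c, (A i c : ℝ) ^ 2 := by
  set AR : Matrix (Fin m) (Fin m) ℝ := A.map (fun x : ℤ => (x : ℝ)) with hAR
  have hdetR : AR.det ≠ 0 := by
    have h1 : AR.det = ((A.det : ℤ) : ℝ) := by
      rw [hAR]
      exact (Int.cast_det A).symm
    rw [h1]
    exact_mod_cast hdet
  set zR : Fin m → ℝ := fun c => (z c : ℝ) with hzR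
  set t0 : Fin m → ℝ := Matrix.vecMul zR AR⁻¹ with ht0
  have ht : Matrix.vecMul t0 AR = zR := by
    rw [ht0, Matrix.vecMul_vecMul, Matrix.nonsing_inv_mul _ (isUnit_iff_ne_zero.2 hdetR),
      Matrix.vecMul_one]
  obtain ⟨y, hy⟩ := exists_round t0 (fun i c => (A i c : ℝ)) univ
  refine ⟨z - ∑ i, (y i) • A i, ?_, ?_⟩
  · rw [sub_eq_add_neg, pr_add, ← neg_one_smul ℤ, pr_smul, pr_sum]
    have : ∑ i, pr w ((y i) • A i) = 0 :=
      Finset.sum_eq_zero fun i _ => by rw [pr_smul, hA i, mul_zero]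
    rw [this, mul_zero, add_zero]
  · refine le_trans (le_of_eq ?_) hy
    refine Finset.sum_congr rfl fun c _ => ?_
    congr 1
    have h1 := congrFun ht c
    simp only [Matrix.vecMul, dotProduct, hAR, Matrix.map_apply] at h1
    simp only [Pi.sub_apply, Finset.sum_apply, Pi.smul_apply, smul_eq_mul, sub_mul,
      Finset.sum_sub_distrib]
    rw [h1]
    push_cast
    rfl

/-- **Deterministic Littlewood–Offord**, rows of norm at most `√m`. -/
theorem lo_round {m N j : ℕ} [NeZero N] (hm : 1 ≤ m) (A : Matrix (Fin m) (Fin m) ℤ)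
    (hdet : A.det ≠ 0) (hrow : ∀ i, ∑ c, (A i c : ℝ) ^ 2 ≤ m)
    (w : Fin m → ZMod N) (hsurj : ∀ a : ZMod N, ∃ z : Fin m → ℤ, pr w z = a)
    (hA : ∀ i, pr w (A i) = 0) (a : ZMod N) (X : Finset (Fin m → ℤ))
    (hX01 : ∀ x ∈ X, ∀ c, x c = 0 ∨ x c = 1) (hX : ∀ x ∈ X, pr w x = a)
    (hj : (2 : ℝ) ^ j ≤ 2 * Real.sqrt m) :
    (N : ℝ) * (X.card : ℝ) ^ j ≤ (Real.exp (5 / 2) * (1 + 2 * Real.sqrt m)) ^ m := by
  classical
  have hm0 : (0 : ℝ) < m := by exact_mod_cast hm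
  set q := Real.sqrt m with hq
  have hq0 : 0 < q := Real.sqrt_pos.2 hm0
  have hqq : q * q = m := Real.mul_self_sqrt hm0.le
  -- representatives
  have hrep : ∀ b : ZMod N, ∃ r : Fin m → ℤ, pr w r = b ∧ ∑ c, |(r c : ℝ)| ≤ 1 / 2 * m * q := by
    intro b
    obtain ⟨z, hz⟩ := hsurj b
    obtain ⟨r, h1, h2⟩ := exists_rep_small A hdet w hA z
    refine ⟨r, by rw [h1, hz], ?_⟩
    have h3 : ∑ c, (r c : ℝ) ^ 2 ≤ (m / 2) ^ 2 := by
      refine h2.trans ?_
      have h4 : ∑ i, ∑ c, (A i c : ℝ) ^ 2 ≤ m * m := by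
        calc ∑ i, ∑ c, (A i c : ℝ) ^ 2 ≤ ∑ _i : Fin m, (m : ℝ) := Finset.sum_le_sum fun i _ => hrow i
          _ = m * m := by simp
      nlinarith
    have h5 : (∑ c, |(r c : ℝ)|) ^ 2 ≤ m * ∑ c, (r c : ℝ) ^ 2 := by
      have h6 := sq_sum_le_card_mul_sum_sq (s := (univ : Finset (Fin m)))
        (f := fun c => |(r c : ℝ)|)
      simp only [sq_abs, Finset.card_univ, Fintype.card_fin] at h6
      exact h6
    have h7 : (∑ c, |(r c : ℝ)|) ^ 2 ≤ (1 / 2 * m * q) ^ 2 := by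
      calc (∑ c, |(r c : ℝ)|) ^ 2 ≤ m * (m / 2) ^ 2 := h5.trans (mul_le_mul_of_nonneg_left h3 hm0.le)
        _ = (1 / 2 * m * q) ^ 2 := by
            rw [mul_pow (1 / 2 * (m : ℝ)) q 2, sq q, hqq]; ring
    exact abs_le_of_sq_le_sq' h7 (by positivity) |>.2
  choose r hr1 hr2 using hrep
  let Y : Finset (Fin j → (Fin m → ℤ)) := Fintype.piFinset fun _ => X
  let pt : ZMod N × (Fin j → (Fin m → ℤ)) → (Fin m → ℤ) := fun p => r p.1 + dig j p.2
  have hpr : ∀ x ∈ Y, pr w (dig j x) = (((2 : ℤ) ^ j - 1 : ℤ) : ZMod N) * a := by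
    intro x hx
    have hx' : ∀ i, x i ∈ X := fun i => Fintype.mem_piFinset.1 hx i
    unfold dig
    rw [pr_sum]
    simp only [pr_smul]
    have h1 : ∀ i : Fin j, (((2 : ℤ) ^ (i : ℕ) : ℤ) : ZMod N) * pr w (x i) =
        (((2 : ℤ) ^ (i : ℕ) : ℤ) : ZMod N) * a := fun i => by rw [hX _ (hx' i)]
    rw [Finset.sum_congr rfl fun i _ => h1 i, ← Finset.sum_mul, ← Int.cast_sum]
    congr 2
    rw [Fin.sum_univ_eq_sum_range fun i => (2 : ℤ) ^ i]
    have h3 := mul_geom_sum (2 : ℤ) j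
    linarith
  have hinj : ∀ p ∈ (univ : Finset (ZMod N)) ×ˢ Y, ∀ p' ∈ (univ : Finset (ZMod N)) ×ˢ Y,
      pt p = pt p' → p = p' := by
    rintro ⟨b, x⟩ hp ⟨b', x'⟩ hp' h
    rw [Finset.mem_product] at hp hp'
    have h1 : pr w (r b + dig j x) = pr w (r b' + dig j x') := congrArg (pr w) h
    rw [pr_add, pr_add, hr1, hr1, hpr x hp.2, hpr x' hp'.2] at h1
    have hb : b = b' := add_right_cancel h1
    subst hb
    have h2 : dig j x = dig j x' := add_left_cancel h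
    have h3 := dig_injOn j x x'
      (fun i c => hX01 _ (Fintype.mem_piFinset.1 hp.2 i) c)
      (fun i c => hX01 _ (Fintype.mem_piFinset.1 hp'.2 i) c) h2
    rw [h3]
  let P : Finset (Fin m → ℤ) := ((univ : Finset (ZMod N)) ×ˢ Y).image pt
  have hPcard : (P.card : ℝ) = (N : ℝ) * (X.card : ℝ) ^ j := by
    have h1 : P.card = ((univ : Finset (ZMod N)) ×ˢ Y).card := Finset.card_image_of_injOn hinj
    rw [h1, Finset.card_product, Finset.card_univ, ZMod.card, Fintype.card_piFinset]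
    simp
  have hk1 : (2 : ℝ) ^ j - 1 ≤ 2 * q := by linarith
  have hk0 : (0 : ℝ) ≤ 2 ^ j - 1 := by
    have : (1 : ℝ) ≤ 2 ^ j := one_le_pow₀ (by norm_num)
    linarith
  have hl1 : ∀ v ∈ P, ∑ c, |(v c : ℝ)| ≤ 5 / 2 * m * q := by
    intro v hv
    obtain ⟨⟨b, x⟩, hp, rfl⟩ := Finset.mem_image.1 hv
    have hx := (Finset.mem_product.1 hp).2
    have hx01 : ∀ i c, x i c = 0 ∨ x i c = 1 :=
      fun i c => hX01 _ (Fintype.mem_piFinset.1 hx i) c
    have h1 : ∀ c, |(((r b + dig j x) c : ℤ) : ℝ)| ≤ |(r b c : ℝ)| + 2 * q := by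
      intro c
      rw [Pi.add_apply]
      push_cast
      refine (abs_add_le _ _).trans (add_le_add le_rfl ?_)
      have h2 := dig_mem j x hx01 c
      have h3 : (0 : ℝ) ≤ (dig j x c : ℝ) := by exact_mod_cast h2.1
      have h4 : ((dig j x c : ℤ) : ℝ) ≤ ((2 ^ j - 1 : ℤ) : ℝ) := by exact_mod_cast h2.2
      push_cast at h4
      rw [abs_of_nonneg h3]
      linarith
    calc ∑ c, |(((r b + dig j x) c : ℤ) : ℝ)| ≤ ∑ c, (|(r b c : ℝ)| + 2 * q) :=
          Finset.sum_le_sum fun c _ => h1 c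
      _ = ∑ c, |(r b c : ℝ)| + m * (2 * q) := by
          simp only [Finset.sum_add_distrib, Finset.sum_const, Finset.card_univ,
            Fintype.card_fin, nsmul_eq_mul]
      _ ≤ 1 / 2 * m * q + m * (2 * q) := add_le_add (hr2 b) le_rfl
      _ = 5 / 2 * m * q := by ring
  have h2 := card_l1 (m := m) (l := 1 / q) (by positivity) (ρ := 5 / 2 * m * q) P hl1
  rw [hPcard] at h2
  refine h2.trans (le_of_eq ?_)
  have h3 : 1 / q * (5 / 2 * m * q) = m * (5 / 2) := by field_simp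
  have h4 : 2 / (1 / q) = 2 * q := by field_simp
  rw [h3, h4, mul_pow, ← Real.exp_nat_mul]

end Vale.Agent.P160.Half.LODig
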