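import Vale.Agent.P160.Half.LODig2

/-!
P160, deterministic Littlewood–Offord inequality with any number of missing rows.

`R` any finite set of integer vectors of norm `≤ √m` orthogonal to `w` mod `N`, `X` a set of 0/1
vectors with `x · w = a`.  Either some nonzero integer vector `u` is orthogonal to `R` and has
`x · u` constant on `X`, or `N |X| ^ j ≤ (e^{5/2} (1 + 2 √m)) ^ m`.
(Complete `R` by differences of elements of `X`.)
-/

namespace Vale.Agent.P160.Half.LODig

open Finset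

/-- Cast of an integer vector. -/
def qv {m : ℕ} (v : Fin m → ℤ) : Fin m → ℚ := fun c => (v c : ℚ)

theorem exists_int_normal {m : ℕ} (S : Set (Fin m → ℤ))
    (h : Submodule.span ℚ (qv '' S) ≠ ⊤) :
    ∃ u : Fin m → ℤ, u ≠ 0 ∧ ∀ v ∈ S, ∑ c, v c * u c = 0 := by
  obtain ⟨f, hf0, hf⟩ := Submodule.exists_le_ker_of_lt_top _ (lt_top_iff_ne_top.2 h)
  set g : Fin m → ℚ := fun c => f (Pi.single c 1) with hg
  have hfg : ∀ v : Fin m → ℚ, f v = ∑ c, v c * g c := by
    intro v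
    have h1 : v = ∑ c, v c • (Pi.single c 1 : Fin m → ℚ) := by
      ext i
      simp [Finset.sum_apply, Pi.single_apply]
    conv_lhs => rw [h1]
    rw [map_sum]
    exact Finset.sum_congr rfl fun c _ => by rw [map_smul, smul_eq_mul]
  have hg0 : g ≠ 0 := by
    intro h0
    apply hf0
    ext c
    rw [LinearMap.comp_apply, LinearMap.comp_apply, hfg]
    simp [h0]
  set D : ℤ := ∏ c, ((g c).den : ℤ) with hD
  have hD0 : D ≠ 0 := Finset.prod_ne_zero_iff.2 fun c _ => by exact_mod_cast (g c).den_ne_zero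
  have hint : ∀ c, ∃ k : ℤ, (k : ℚ) = (D : ℚ) * g c := by
    intro c
    refine ⟨(∏ i ∈ univ.erase c, ((g i).den : ℤ)) * (g c).num, ?_⟩
    have h1 : D = (∏ i ∈ univ.erase c, ((g i).den : ℤ)) * ((g c).den : ℤ) := by
      rw [hD, mul_comm]
      exact (Finset.mul_prod_erase univ (fun i => ((g i).den : ℤ)) (Finset.mem_univ c)).symm
    rw [h1]
    push_cast
    have h2 : ((g c).den : ℚ) * g c = (g c).num := by
      rw [mul_comm]; exact Rat.mul_den_eq_num (g c)
    rw [mul_assoc, h2]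
  choose u hu using hint
  refine ⟨u, ?_, ?_⟩
  · intro h0
    apply hg0
    funext c
    have h1 := hu c
    rw [h0] at h1
    simp only [Pi.zero_apply, Int.cast_zero] at h1
    have h2 : (D : ℚ) ≠ 0 := by exact_mod_cast hD0
    rcases mul_eq_zero.1 h1.symm with h3 | h3
    · exact absurd h3 h2
    · exact h3
  · intro v hv
    have h1 : f (qv v) = 0 := hf (Submodule.subset_span ⟨v, hv, rfl⟩)
    rw [hfg] at h1
    have h2 : ((∑ c, v c * u c : ℤ) : ℚ) = (D : ℚ) * ∑ c, qv v c * g c := by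
      push_cast
      rw [Finset.mul_sum]
      refine Finset.sum_congr rfl fun c _ => ?_
      rw [hu c, qv]
      ring
    rw [h1, mul_zero] at h2
    exact_mod_cast h2

theorem exists_matrix {m : ℕ} (S : Set (Fin m → ℤ))
    (h : Submodule.span ℚ (qv '' S) = ⊤) :
    ∃ A : Matrix (Fin m) (Fin m) ℤ, A.det ≠ 0 ∧ ∀ i, A i ∈ S := by
  obtain ⟨b, hbS, hbspan, hbli⟩ := exists_linearIndependent ℚ (qv '' S)
  have hspan : ⊤ ≤ Submodule.span ℚ (Set.range (Subtype.val : b → (Fin m → ℚ))) := by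
    rw [Subtype.range_coe, hbspan, h]
  let B := Module.Basis.mk hbli hspan
  have hfin : Finite b := Module.Finite.finite_basis B
  have : Fintype b := Fintype.ofFinite b
  have hcard : Fintype.card b = m := by
    have h1 := Module.finrank_eq_card_basis B
    rw [Module.finrank_fin_fun] at h1
    exact h1.symm
  let e : Fin m ≃ b := (Fintype.equivFinOfCardEq hcard).symm
  have hpre : ∀ i : Fin m, ∃ v ∈ S, qv v = (e i : Fin m → ℚ) := fun i => hbS (e i).2
  choose A0 hAS hAq using hpre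
  set A : Matrix (Fin m) (Fin m) ℤ := Matrix.of A0 with hA
  refine ⟨A, ?_, hAS⟩
  intro hdet
  have hli : LinearIndependent ℚ (fun i : Fin m => ((e i : b) : Fin m → ℚ)) :=
    hbli.comp e e.injective
  set AQ : Matrix (Fin m) (Fin m) ℚ := A.map (fun x : ℤ => (x : ℚ))
    with hAQ
  have hrow : AQ.row = fun i : Fin m => ((e i : b) : Fin m → ℚ) := by
    funext i
    rw [← hAq i]
    rfl
  have hunit : IsUnit AQ := by
    rw [← Matrix.linearIndependent_rows_iff_isUnit, hrow]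
    exact hli
  have hdetQ : AQ.det = ((A.det : ℤ) : ℚ) :=
    (Int.cast_det A).symm
  have h2 := (Matrix.isUnit_iff_isUnit_det AQ).1 hunit
  rw [hdetQ, hdet] at h2
  simp at h2

/-- **Deterministic Littlewood–Offord with missing rows.** -/
theorem lo_span {m N j : ℕ} [NeZero N] (hm : 1 ≤ m) (w : Fin m → ZMod N)
    (hsurj : ∀ a : ZMod N, ∃ z : Fin m → ℤ, pr w z = a) (R : Set (Fin m → ℤ))
    (hR : ∀ r ∈ R, ∑ c, (r c : ℝ) ^ 2 ≤ m) (hRw : ∀ r ∈ R, pr w r = 0) (a : ZMod N)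
    (X : Finset (Fin m → ℤ)) (hX01 : ∀ x ∈ X, ∀ c, x c = 0 ∨ x c = 1)
    (hX : ∀ x ∈ X, pr w x = a) (hj : (2 : ℝ) ^ j ≤ 2 * Real.sqrt m) :
    (∃ u : Fin m → ℤ, u ≠ 0 ∧ (∀ r ∈ R, ∑ c, r c * u c = 0) ∧
      ∀ x ∈ X, ∀ y ∈ X, ∑ c, x c * u c = ∑ c, y c * u c) ∨
    (N : ℝ) * (X.card : ℝ) ^ j ≤ (Real.exp (5 / 2) * (1 + 2 * Real.sqrt m)) ^ m := by
  classical
  set S : Set (Fin m → ℤ) := R ∪ {d | ∃ x ∈ X, ∃ y ∈ X, d = x - y} with hS
  have hSnorm : ∀ v ∈ S, ∑ c, (v c : ℝ) ^ 2 ≤ m := by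
    rintro v (hv | ⟨x, hx, y, hy, rfl⟩)
    · exact hR v hv
    · calc ∑ c, (((x - y) c : ℤ) : ℝ) ^ 2 ≤ ∑ _c : Fin m, (1 : ℝ) := by
            refine Finset.sum_le_sum fun c _ => ?_
            rw [Pi.sub_apply]
            rcases hX01 x hx c with h1 | h1 <;> rcases hX01 y hy c with h2 | h2 <;>
              rw [h1, h2] <;> norm_num
        _ = m := by simp
  have hSw : ∀ v ∈ S, pr w v = 0 := by
    rintro v (hv | ⟨x, hx, y, hy, rfl⟩)
    · exact hRw v hv
    · rw [sub_eq_add_neg, pr_add, ← neg_one_smul ℤ, pr_smul, hX x hx, hX y hy]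
      push_cast
      ring
  by_cases h : Submodule.span ℚ (qv '' S) = ⊤
  · right
    obtain ⟨A, hdet, hA⟩ := exists_matrix S h
    exact lo_round hm A hdet (fun i => hSnorm _ (hA i)) w hsurj (fun i => hSw _ (hA i)) a X hX01
      hX hj
  · left
    obtain ⟨u, hu0, hu⟩ := exists_int_normal S h
    refine ⟨u, hu0, fun r hr => hu r (Or.inl hr), fun x hx y hy => ?_⟩
    have h1 := hu (x - y) (Or.inr ⟨x, hx, y, hy, rfl⟩)
    simp only [Pi.sub_apply, sub_mul, Finset.sum_sub_distrib] at h1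
    linarith

end Vale.Agent.P160.Half.LODig
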