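import Vale.Agent.P160.Half.LODig2

/-!
P160, one-row tail (statement (R) of helper624's note 11242).

* `lo_group` : deterministic Littlewood–Offord for a homomorphism of `ℤ ^ m` onto a finite group.
* `lo_primes` : for a set `F` of primes and, for every `p ∈ F`, a matrix `W p` over `ZMod p` with
  independent rows, orthogonal to the rows of `A`.
* `lo_vec` : one nonzero vector for every prime.
* `row_tail` : number of the 0/1 vectors `x` with `x · w_p = a_p` for at least `s` primes of `S`.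
-/

namespace Vale.Agent.P160.Half.LODig

open Finset

/-- Every class has a representative of norm at most `√(∑ |A_i|²) / 2` (group form). -/
theorem exists_rep_group {m : ℕ} {G : Type*} [AddCommGroup G]
    (A : Matrix (Fin m) (Fin m) ℤ) (hdet : A.det ≠ 0)
    (φ : (Fin m → ℤ) →+ G) (hA : ∀ i, φ (A i) = 0) (z : Fin m → ℤ) :
    ∃ r : Fin m → ℤ, φ r = φ z ∧
      ∑ c, (r c : ℝ) ^ 2 ≤ 1 / 4 * ∑ i, ∑ c, (A i c : ℝ) ^ 2 := by
  set AR : Matrix (Fin m) (Fin m) ℝ := A.map (fun x : ℤ => (x : ℝ)) with hAR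
  have hdetR : AR.det ≠ 0 := by
    have h1 : AR.det = ((A.det : ℤ) : ℝ) := by
      rw [hAR]
      exact (Int.cast_det A).symm
    rw [h1]
    exact_mod_cast hdet
  set zR : Fin m → ℝ := fun c => (z c : ℝ) with hzR
  set t0 : Fin m → ℝ := Matrix.vecMul zR AR⁻¹ with ht0
  have ht : Matrix.vecMul t0 AR = zR := by
    rw [ht0, Matrix.vecMul_vecMul, Matrix.nonsing_inv_mul _ (isUnit_iff_ne_zero.2 hdetR),
      Matrix.vecMul_one]
  obtain ⟨y, hy⟩ := exists_round t0 (fun i c => (A i c : ℝ)) univ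
  refine ⟨z - ∑ i, (y i) • A i, ?_, ?_⟩
  · rw [map_sub, map_sum]
    have : ∑ i, φ ((y i) • A i) = 0 :=
      Finset.sum_eq_zero fun i _ => by rw [map_zsmul, hA i, smul_zero]
    rw [this, sub_zero]
  · refine le_trans (le_of_eq ?_) hy
    refine Finset.sum_congr rfl fun c _ => ?_
    congr 1
    have h1 := congrFun ht c
    simp only [Matrix.vecMul, dotProduct, hAR, Matrix.map_apply] at h1
    simp only [Pi.sub_apply, Finset.sum_apply, Pi.smul_apply, smul_eq_mul, sub_mul,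
      Finset.sum_sub_distrib]
    rw [h1]
    push_cast
    rfl

/-- **Deterministic Littlewood–Offord**, group form. -/
theorem lo_group {m j : ℕ} {G : Type*} [AddCommGroup G] [Fintype G] (hm : 1 ≤ m)
    (A : Matrix (Fin m) (Fin m) ℤ) (hdet : A.det ≠ 0)
    (hrow : ∀ i, ∑ c, (A i c : ℝ) ^ 2 ≤ m)
    (φ : (Fin m → ℤ) →+ G) (hsurj : Function.Surjective φ)
    (hA : ∀ i, φ (A i) = 0) (a : G) (X : Finset (Fin m → ℤ))
    (hX01 : ∀ x ∈ X, ∀ c, x c = 0 ∨ x c = 1) (hX : ∀ x ∈ X, φ x = a)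
    (hj : (2 : ℝ) ^ j ≤ 2 * Real.sqrt m) :
    (Fintype.card G : ℝ) * (X.card : ℝ) ^ j ≤ (Real.exp (5 / 2) * (1 + 2 * Real.sqrt m)) ^ m := by
  classical
  have hm0 : (0 : ℝ) < m := by exact_mod_cast hm
  set q := Real.sqrt m with hq
  have hq0 : 0 < q := Real.sqrt_pos.2 hm0
  have hqq : q * q = m := Real.mul_self_sqrt hm0.le
  -- representatives
  have hrep : ∀ b : G, ∃ r : Fin m → ℤ, φ r = b ∧ ∑ c, |(r c : ℝ)| ≤ 1 / 2 * m * q := by
    intro b
    obtain ⟨z, hz⟩ := hsurj b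
    obtain ⟨r, h1, h2⟩ := exists_rep_group A hdet φ hA z
    refine ⟨r, by rw [h1, hz], ?_⟩
    have h3 : ∑ c, (r c : ℝ) ^ 2 ≤ (m / 2) ^ 2 := by
      refine h2.trans ?_
      have h4 : ∑ i, ∑ c, (A i c : ℝ) ^ 2 ≤ m * m := by
        calc ∑ i, ∑ c, (A i c : ℝ) ^ 2 ≤ ∑ _i : Fin m, (m : ℝ) := Finset.sum_le_sum fun i _ => hrow i
          _ = m * m := by simp
      nlinarith
    have h5 : (∑ c, |(r c : ℝ)|) ^ 2 ≤ m * ∑ c, (r c : ℝ) ^ 2 := by
      have h6 := sq_sum_le_card_mul_sum_sq (s := (univ : Finset (Fin m)))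
        (f := fun c => |(r c : ℝ)|)
      simp only [sq_abs, Finset.card_univ, Fintype.card_fin] at h6
      exact h6
    have h7 : (∑ c, |(r c : ℝ)|) ^ 2 ≤ (1 / 2 * m * q) ^ 2 := by
      calc (∑ c, |(r c : ℝ)|) ^ 2 ≤ m * (m / 2) ^ 2 := h5.trans (mul_le_mul_of_nonneg_left h3 hm0.le)
        _ = (1 / 2 * m * q) ^ 2 := by
            rw [mul_pow (1 / 2 * (m : ℝ)) q 2, sq q, hqq]; ring
    exact abs_le_of_sq_le_sq' h7 (by positivity) |>.2
  choose r hr1 hr2 using hrep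
  let Y : Finset (Fin j → (Fin m → ℤ)) := Fintype.piFinset fun _ => X
  let pt : G × (Fin j → (Fin m → ℤ)) → (Fin m → ℤ) := fun p => r p.1 + dig j p.2
  have hpr : ∀ x ∈ Y, φ (dig j x) = ∑ i : Fin j, ((2 : ℤ) ^ (i : ℕ)) • a := by
    intro x hx
    have hx' : ∀ i, x i ∈ X := fun i => Fintype.mem_piFinset.1 hx i
    unfold dig
    rw [map_sum]
    exact Finset.sum_congr rfl fun i _ => by rw [map_zsmul, hX _ (hx' i)]
  have hinj : ∀ p ∈ (univ : Finset G) ×ˢ Y, ∀ p' ∈ (univ : Finset G) ×ˢ Y,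
      pt p = pt p' → p = p' := by
    rintro ⟨b, x⟩ hp ⟨b', x'⟩ hp' h
    rw [Finset.mem_product] at hp hp'
    have h1 : φ (r b + dig j x) = φ (r b' + dig j x') := congrArg φ h
    rw [map_add, map_add, hr1, hr1, hpr x hp.2, hpr x' hp'.2] at h1
    have hb : b = b' := add_right_cancel h1
    subst hb
    have h2 : dig j x = dig j x' := add_left_cancel h
    have h3 := dig_injOn j x x'
      (fun i c => hX01 _ (Fintype.mem_piFinset.1 hp.2 i) c)
      (fun i c => hX01 _ (Fintype.mem_piFinset.1 hp'.2 i) c) h2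
    rw [h3]
  let P : Finset (Fin m → ℤ) := ((univ : Finset G) ×ˢ Y).image pt
  have hPcard : (P.card : ℝ) = (Fintype.card G : ℝ) * (X.card : ℝ) ^ j := by
    have h1 : P.card = ((univ : Finset G) ×ˢ Y).card := Finset.card_image_of_injOn hinj
    rw [h1, Finset.card_product, Finset.card_univ, Fintype.card_piFinset]
    simp
  have hk1 : (2 : ℝ) ^ j - 1 ≤ 2 * q := by linarith
  have hl1 : ∀ v ∈ P, ∑ c, |(v c : ℝ)| ≤ 5 / 2 * m * q := by
    intro v hv
    obtain ⟨⟨b, x⟩, hp, rfl⟩ := Finset.mem_image.1 hv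
    have hx := (Finset.mem_product.1 hp).2
    have hx01 : ∀ i c, x i c = 0 ∨ x i c = 1 :=
      fun i c => hX01 _ (Fintype.mem_piFinset.1 hx i) c
    have h1 : ∀ c, |(((r b + dig j x) c : ℤ) : ℝ)| ≤ |(r b c : ℝ)| + 2 * q := by
      intro c
      rw [Pi.add_apply]
      push_cast
      refine (abs_add_le _ _).trans (add_le_add le_rfl ?_)
      have h2 := dig_mem j x hx01 c
      have h3 : (0 : ℝ) ≤ (dig j x c : ℝ) := by exact_mod_cast h2.1
      have h4 : ((dig j x c : ℤ) : ℝ) ≤ ((2 ^ j - 1 : ℤ) : ℝ) := by exact_mod_cast h2.2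
      push_cast at h4
      rw [abs_of_nonneg h3]
      linarith
    calc ∑ c, |(((r b + dig j x) c : ℤ) : ℝ)| ≤ ∑ c, (|(r b c : ℝ)| + 2 * q) :=
          Finset.sum_le_sum fun c _ => h1 c
      _ = ∑ c, |(r b c : ℝ)| + m * (2 * q) := by
          simp only [Finset.sum_add_distrib, Finset.sum_const, Finset.card_univ,
            Fintype.card_fin, nsmul_eq_mul]
      _ ≤ 1 / 2 * m * q + m * (2 * q) := add_le_add (hr2 b) le_rfl
      _ = 5 / 2 * m * q := by ring
  have h2 := card_l1 (m := m) (l := 1 / q) (by positivity) (ρ := 5 / 2 * m * q) P hl1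
  rw [hPcard] at h2
  refine h2.trans (le_of_eq ?_)
  have h3 : 1 / q * (5 / 2 * m * q) = m * (5 / 2) := by field_simp
  have h4 : 2 / (1 / q) = 2 * q := by field_simp
  rw [h3, h4, mul_pow, ← Real.exp_nat_mul]

/-- Chinese remainders for finitely many distinct primes. -/
theorem crt_primes (F : Finset ℕ) (hF : ∀ p ∈ F, p.Prime) (f : ∀ p : F, ZMod (p : ℕ)) :
    ∃ z : ℤ, ∀ p : F, (z : ZMod (p : ℕ)) = f p := by
  classical
  have hco : Pairwise fun p q : F => Nat.Coprime (p : ℕ) (q : ℕ) := by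
    intro p q hpq
    exact (Nat.coprime_primes (hF _ p.2) (hF _ q.2)).2 fun h => hpq (Subtype.ext h)
  let e := ZMod.prodEquivPi (fun p : F => (p : ℕ)) hco
  obtain ⟨z, hz⟩ := ZMod.intCast_surjective (e.symm f)
  refine ⟨z, fun p => ?_⟩
  have h1 : e (z : ZMod (∏ p : F, (p : ℕ))) = f := by rw [hz, RingEquiv.apply_symm_apply]
  rw [map_intCast] at h1
  have := congrFun h1 p
  simpa using this

/-- The reduction map `z ↦ (W_p z mod p)_p`. -/
def redMap {m : ℕ} (F : Finset ℕ) (r : ℕ → ℕ)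
    (W : ∀ p : ℕ, Matrix (Fin (r p)) (Fin m) (ZMod p)) :
    (Fin m → ℤ) →+ (∀ p : F, Fin (r p) → ZMod (p : ℕ)) where
  toFun z := fun p => (W p).mulVec fun c => (z c : ZMod (p : ℕ))
  map_zero' := by
    funext p
    have : (fun c : Fin m => (((0 : Fin m → ℤ) c : ℤ) : ZMod (p : ℕ))) = 0 := by
      funext c; simp
    rw [this, Matrix.mulVec_zero]
    rfl
  map_add' z z' := by
    funext p
    have : (fun c : Fin m => (((z + z') c : ℤ) : ZMod (p : ℕ))) =
        (fun c => (z c : ZMod (p : ℕ))) + fun c => (z' c : ZMod (p : ℕ)) := by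
      funext c; simp
    rw [this, Matrix.mulVec_add]
    rfl

/-- **Volume Littlewood–Offord for a set of primes**: `W p` of full row rank mod `p`, rows
orthogonal to the rows of `A`. -/
theorem lo_primes {m j : ℕ} (hm : 1 ≤ m)
    (A : Matrix (Fin m) (Fin m) ℤ) (hdet : A.det ≠ 0)
    (hrow : ∀ i, ∑ c, (A i c : ℝ) ^ 2 ≤ m)
    (F : Finset ℕ) (hF : ∀ p ∈ F, p.Prime) (r : ℕ → ℕ)
    (W : ∀ p : ℕ, Matrix (Fin (r p)) (Fin m) (ZMod p))
    (hW : ∀ p ∈ F, Function.Surjective (W p).mulVec)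
    (hA : ∀ p ∈ F, ∀ i, (W p).mulVec (fun c => (A i c : ZMod p)) = 0)
    (a : ∀ p : ℕ, Fin (r p) → ZMod p) (X : Finset (Fin m → ℤ))
    (hX01 : ∀ x ∈ X, ∀ c, x c = 0 ∨ x c = 1)
    (hX : ∀ x ∈ X, ∀ p ∈ F, (W p).mulVec (fun c => (x c : ZMod p)) = a p)
    (hj : (2 : ℝ) ^ j ≤ 2 * Real.sqrt m) :
    (∏ p ∈ F, (p : ℝ) ^ r p) * (X.card : ℝ) ^ j ≤
      (Real.exp (5 / 2) * (1 + 2 * Real.sqrt m)) ^ m := by
  classical
  have : ∀ p : F, NeZero (p : ℕ) := fun p => ⟨(hF _ p.2).ne_zero⟩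
  have hcard : (Fintype.card (∀ p : F, Fin (r p) → ZMod (p : ℕ)) : ℝ) =
      ∏ p ∈ F, (p : ℝ) ^ r p := by
    rw [Fintype.card_pi]
    push_cast
    rw [← Finset.prod_coe_sort F (fun p : ℕ => (p : ℝ) ^ r p)]
    refine Finset.prod_congr rfl fun p _ => ?_
    rw [Fintype.card_fun, ZMod.card, Fintype.card_fin]
    push_cast
    rfl
  have hsurj : Function.Surjective (redMap F r W) := by
    intro f
    have h1 : ∀ p : F, ∃ v : Fin m → ZMod (p : ℕ), (W p).mulVec v = f p :=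
      fun p => hW _ p.2 (f p)
    choose v hv using h1
    have h2 : ∀ c : Fin m, ∃ z : ℤ, ∀ p : F, (z : ZMod (p : ℕ)) = v p c :=
      fun c => crt_primes F hF fun p => v p c
    choose z hz using h2
    refine ⟨z, ?_⟩
    funext p
    change (W p).mulVec (fun c => (z c : ZMod (p : ℕ))) = f p
    have : (fun c => (z c : ZMod (p : ℕ))) = v p := funext fun c => hz c p
    rw [this, hv]
  have := lo_group (j := j) hm A hdet hrow (redMap F r W) hsurj
    (fun i => by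
      funext p
      exact hA _ p.2 i) (fun p => a p) X hX01 (fun x hx => by
      funext p
      exact hX x hx _ p.2) hj
  rw [hcard] at this
  exact this

/-- **Volume Littlewood–Offord, one vector for every prime.** -/
theorem lo_vec {m j : ℕ} (hm : 1 ≤ m)
    (A : Matrix (Fin m) (Fin m) ℤ) (hdet : A.det ≠ 0)
    (hrow : ∀ i, ∑ c, (A i c : ℝ) ^ 2 ≤ m)
    (F : Finset ℕ) (hF : ∀ p ∈ F, p.Prime)
    (w : ∀ p : ℕ, Fin m → ZMod p) (hw : ∀ p ∈ F, w p ≠ 0)
    (hA : ∀ p ∈ F, ∀ i, ∑ c, (A i c : ZMod p) * w p c = 0)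
    (a : ∀ p : ℕ, ZMod p) (X : Finset (Fin m → ℤ))
    (hX01 : ∀ x ∈ X, ∀ c, x c = 0 ∨ x c = 1)
    (hX : ∀ x ∈ X, ∀ p ∈ F, ∑ c, (x c : ZMod p) * w p c = a p)
    (hj : (2 : ℝ) ^ j ≤ 2 * Real.sqrt m) :
    (∏ p ∈ F, (p : ℝ)) * (X.card : ℝ) ^ j ≤
      (Real.exp (5 / 2) * (1 + 2 * Real.sqrt m)) ^ m := by
  classical
  have key : ∀ (p : ℕ) (v : Fin m → ZMod p),
      (Matrix.of fun (_ : Fin 1) (c : Fin m) => w p c).mulVec v =
        fun _ => ∑ c, v c * w p c := by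
    intro p v
    funext i
    simp only [Matrix.mulVec, dotProduct, Matrix.of_apply]
    exact Finset.sum_congr rfl fun c _ => mul_comm _ _
  have := lo_primes (j := j) hm A hdet hrow F hF (fun _ => 1)
    (fun p => Matrix.of fun (_ : Fin 1) (c : Fin m) => w p c)
    (fun p hp f => by
      have : Fact p.Prime := ⟨hF p hp⟩
      obtain ⟨c0, hc0⟩ := Function.ne_iff.1 (hw p hp)
      have hc0' : w p c0 ≠ 0 := by simpa using hc0
      refine ⟨Pi.single c0 (f 0 * (w p c0)⁻¹), ?_⟩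
      rw [key]
      funext i
      rw [Finset.sum_eq_single c0]
      · rw [Pi.single_eq_same, mul_assoc, inv_mul_cancel₀ hc0', mul_one]
        congr 1
        exact Subsingleton.elim _ _
      · intro c _ hc
        rw [Pi.single_eq_of_ne hc, zero_mul]
      · intro h
        exact absurd (Finset.mem_univ _) h)
    (fun p hp i => by
      rw [key]
      funext _
      exact hA p hp i)
    (fun p _ => a p) X hX01
    (fun x hx p hp => by
      rw [key]
      funext _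
      exact hX x hx p hp) hj
  simpa using this

/-- Double counting: `T` points, each hit by at least `s` elements of `S`, every `u`-subset of `S`
hits at most `M` points. -/
theorem tail_count {α β : Type*} [DecidableEq α] [DecidableEq β] (T : Finset α) (S : Finset β)
    (hit : α → β → Prop) [∀ x p, Decidable (hit x p)] (s u : ℕ) (M : ℝ)
    (hs : ∀ x ∈ T, s ≤ (S.filter (hit x)).card)
    (hM : ∀ F ⊆ S, F.card = u → ((T.filter fun x => ∀ p ∈ F, hit x p).card : ℝ) ≤ M) :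
    (T.card : ℝ) * (s.choose u : ℝ) ≤ (S.card.choose u : ℝ) * M := by
  have h1 : ∑ x ∈ T, ((S.filter (hit x)).card.choose u : ℝ) =
      ∑ F ∈ S.powersetCard u, ((T.filter fun x => ∀ p ∈ F, hit x p).card : ℝ) := by
    have h2 : ∀ x ∈ T, ((S.filter (hit x)).card.choose u : ℝ) =
        ∑ F ∈ S.powersetCard u, if (∀ p ∈ F, hit x p) then (1 : ℝ) else 0 := by
      intro x _
      rw [← Finset.card_powersetCard, Finset.sum_boole]
      congr 2
      ext F
      simp only [Finset.mem_powersetCard, Finset.mem_filter, Finset.subset_iff]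
      constructor
      · rintro ⟨h3, h4⟩
        exact ⟨⟨fun p hp => (h3 hp).1, h4⟩, fun p hp => (h3 hp).2⟩
      · rintro ⟨⟨h3, h4⟩, h5⟩
        exact ⟨fun p hp => ⟨h3 hp, h5 p hp⟩, h4⟩
    rw [Finset.sum_congr rfl h2, Finset.sum_comm]
    refine Finset.sum_congr rfl fun F _ => ?_
    rw [Finset.sum_boole]
  calc (T.card : ℝ) * (s.choose u : ℝ) = ∑ _x ∈ T, (s.choose u : ℝ) := by
        rw [Finset.sum_const, nsmul_eq_mul]
    _ ≤ ∑ x ∈ T, ((S.filter (hit x)).card.choose u : ℝ) :=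
        Finset.sum_le_sum fun x hx => by exact_mod_cast Nat.choose_le_choose u (hs x hx)
    _ = ∑ F ∈ S.powersetCard u, ((T.filter fun x => ∀ p ∈ F, hit x p).card : ℝ) := h1
    _ ≤ ∑ _F ∈ S.powersetCard u, M := Finset.sum_le_sum fun F hF => by
        rw [Finset.mem_powersetCard] at hF
        exact hM F hF.1 hF.2
    _ = (S.card.choose u : ℝ) * M := by
        rw [Finset.sum_const, Finset.card_powersetCard, nsmul_eq_mul]

/-- **One-row tail.**  `A` an integer `m × m` matrix, `det A ≠ 0`, rows of norm at most `√m`; `S` a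
set of primes `≥ B`, `w_p ≠ 0` with `A w_p = 0 mod p`; `T` a set of 0/1 vectors `x` with
`x · w_p = a_p` for at least `s` primes `p ∈ S`; `2^j ≤ 2 √m`, `1 ≤ j`:
`|T| C(s,u) ≤ C(|S|,u) ((e^{5/2}(1+2√m))^m / B^u)^(1/j)`. -/
theorem row_tail {m j : ℕ} (hm : 1 ≤ m) (hj1 : 1 ≤ j)
    (A : Matrix (Fin m) (Fin m) ℤ) (hdet : A.det ≠ 0)
    (hrow : ∀ i, ∑ c, (A i c : ℝ) ^ 2 ≤ m)
    (S : Finset ℕ) (hS : ∀ p ∈ S, p.Prime) (B : ℝ) (hB : 0 < B) (hSB : ∀ p ∈ S, B ≤ (p : ℝ))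
    (w : ∀ p : ℕ, Fin m → ZMod p) (hw : ∀ p ∈ S, w p ≠ 0)
    (hA : ∀ p ∈ S, ∀ i, ∑ c, (A i c : ZMod p) * w p c = 0)
    (a : ∀ p : ℕ, ZMod p) (T : Finset (Fin m → ℤ))
    (hT01 : ∀ x ∈ T, ∀ c, x c = 0 ∨ x c = 1) (s u : ℕ)
    (hT : ∀ x ∈ T, s ≤ (S.filter fun p => ∑ c, (x c : ZMod p) * w p c = a p).card)
    (hj : (2 : ℝ) ^ j ≤ 2 * Real.sqrt m) :
    (T.card : ℝ) * (s.choose u : ℝ) ≤ (S.card.choose u : ℝ) *
      ((Real.exp (5 / 2) * (1 + 2 * Real.sqrt m)) ^ m / B ^ u) ^ (1 / (j : ℝ)) := by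
  classical
  refine tail_count T S (fun x p => ∑ c, (x c : ZMod p) * w p c = a p) s u _ hT ?_
  intro F hFS hFu
  set X : Finset (Fin m → ℤ) := T.filter fun x => ∀ p ∈ F, ∑ c, (x c : ZMod p) * w p c = a p
    with hX
  have h1 := lo_vec (j := j) hm A hdet hrow F (fun p hp => hS p (hFS hp)) w
    (fun p hp => hw p (hFS hp)) (fun p hp => hA p (hFS hp)) a X
    (fun x hx => hT01 x (Finset.mem_filter.1 hx).1)
    (fun x hx p hp => (Finset.mem_filter.1 hx).2 p hp) hj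
  have h2 : B ^ u ≤ ∏ p ∈ F, (p : ℝ) := by
    rw [← hFu, ← Finset.prod_const]
    exact Finset.prod_le_prod (fun p _ => hB.le) fun p hp => hSB p (hFS hp)
  have h3 : B ^ u * (X.card : ℝ) ^ j ≤ (Real.exp (5 / 2) * (1 + 2 * Real.sqrt m)) ^ m :=
    (mul_le_mul_of_nonneg_right h2 (by positivity)).trans h1
  have h4 : (X.card : ℝ) ^ j ≤ (Real.exp (5 / 2) * (1 + 2 * Real.sqrt m)) ^ m / B ^ u := by
    rw [le_div_iff₀ (pow_pos hB u), mul_comm]
    exact h3
  have hj0 : (j : ℝ) ≠ 0 := by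
    have : 0 < j := hj1
    exact_mod_cast this.ne'
  calc (X.card : ℝ) = ((X.card : ℝ) ^ j) ^ (1 / (j : ℝ)) := by
        rw [← Real.rpow_natCast, ← Real.rpow_mul (Nat.cast_nonneg _), mul_one_div, div_self hj0,
          Real.rpow_one]
    _ ≤ _ := Real.rpow_le_rpow (by positivity) h4 (by positivity)

end Vale.Agent.P160.Half.LODig
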