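import Vale.Agent.P160.Half.LODig4

/-!
P160, volume Littlewood–Offord with the full kernels modulo a set of primes.

`lo_ker_asymp` : for every `ε > 0` and `m ≥ m₀(ε)`: `A` an integer `m × m` matrix with entries of
absolute value `≤ 1`, `det A ≠ 0`, `F` a set of primes `≥ m ^ b` with `corank_p A ≥ t`, `X` a set of
0/1 vectors orthogonal to `ker_p A` for all `p ∈ F`: `|X| ≤ 2 ^ ((1 + ε) m - 2 b t |F|)`.
-/

namespace Vale.Agent.P160.Half.LODig

open Finset

/-- kernel form -/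
theorem lo_ker {m j t : ℕ} (hm : 1 ≤ m)
    (A : Matrix (Fin m) (Fin m) ℤ) (hdet : A.det ≠ 0)
    (hrow : ∀ i, ∑ c, (A i c : ℝ) ^ 2 ≤ m)
    (F : Finset ℕ) (hF : ∀ p ∈ F, p.Prime)
    (ht : ∀ p ∈ F, t + (A.map (Int.cast : ℤ → ZMod p)).rank ≤ m)
    (X : Finset (Fin m → ℤ))
    (hX01 : ∀ x ∈ X, ∀ c, x c = 0 ∨ x c = 1)
    (hX : ∀ x ∈ X, ∀ p ∈ F, ∀ u : Fin m → ZMod p,
      (A.map (Int.cast : ℤ → ZMod p)).mulVec u = 0 → ∑ c, (x c : ZMod p) * u c = 0)
    (hj : (2 : ℝ) ^ j ≤ 2 * Real.sqrt m) :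
    (∏ p ∈ F, (p : ℝ)) ^ t * (X.card : ℝ) ^ j ≤
      (Real.exp (5 / 2) * (1 + 2 * Real.sqrt m)) ^ m := by
  classical
  have key : ∀ p : ℕ, ∃ W : Matrix (Fin t) (Fin m) (ZMod p), p ∈ F →
      Function.Surjective W.mulVec ∧
        ∀ i, (A.map (Int.cast : ℤ → ZMod p)).mulVec (W i) = 0 := by
    intro p
    by_cases hp : p ∈ F
    swap
    · exact ⟨0, fun h => absurd h hp⟩
    have : Fact p.Prime := ⟨hF p hp⟩
    set Ap : Matrix (Fin m) (Fin m) (ZMod p) := A.map (Int.cast : ℤ → ZMod p) with hAp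
    have hrank : Ap.rank + Module.finrank (ZMod p) (LinearMap.ker Ap.mulVecLin) = m := by
      have h := LinearMap.finrank_range_add_finrank_ker Ap.mulVecLin
      rw [Module.finrank_fin_fun] at h
      exact h
    have hle : t ≤ Module.finrank (ZMod p) (LinearMap.ker Ap.mulVecLin) := by
      have h1 : t + Ap.rank ≤ m := ht p hp
      omega
    let bs := Module.finBasis (ZMod p) (LinearMap.ker Ap.mulVecLin)
    let W : Matrix (Fin t) (Fin m) (ZMod p) :=
      fun i => ((bs (Fin.castLE hle i) : LinearMap.ker Ap.mulVecLin) : Fin m → ZMod p)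
    have hli : LinearIndependent (ZMod p) W.row := by
      have h1 := bs.linearIndependent.map' (LinearMap.ker Ap.mulVecLin).subtype
        (Submodule.ker_subtype _)
      exact h1.comp (Fin.castLE hle) (Fin.castLE_injective hle)
    refine ⟨W, fun _ => ⟨?_, ?_⟩⟩
    · have h1 : W.rank = t := by
        have := hli.rank_matrix
        simpa using this
      have h2 : LinearMap.range W.mulVecLin = ⊤ := by
        apply Submodule.eq_top_of_finrank_eq
        rw [Module.finrank_fin_fun]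
        exact h1
      intro f
      have h3 : f ∈ LinearMap.range W.mulVecLin := by rw [h2]; trivial
      obtain ⟨v, hv⟩ := h3
      exact ⟨v, hv⟩
    · intro i
      have h1 := (bs (Fin.castLE hle i)).2
      rw [LinearMap.mem_ker] at h1
      exact h1
  choose W hW using key
  have h0 : ∀ p ∈ F, ∀ v : Fin m → ZMod p,
      (∀ u : Fin m → ZMod p, (A.map (Int.cast : ℤ → ZMod p)).mulVec u = 0 →
        ∑ c, v c * u c = 0) → (W p).mulVec v = 0 := by
    intro p hp v hv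
    funext i
    simp only [Matrix.mulVec, dotProduct, Pi.zero_apply]
    rw [← hv (W p i) ((hW p hp).2 i)]
    exact Finset.sum_congr rfl fun c _ => mul_comm _ _
  have := lo_primes (j := j) hm A hdet hrow F hF (fun _ => t) W (fun p hp => (hW p hp).1)
    (fun p hp i => h0 p hp _ fun u hu => by
      have := congrFun hu i
      simpa [Matrix.mulVec, dotProduct] using this)
    (fun _ => 0) X hX01 (fun x hx p hp => h0 p hp _ fun u hu => hX x hx p hp u hu) hj
  rw [Finset.prod_pow] at this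
  exact this

/-- **Volume Littlewood–Offord, asymptotic kernel form.** -/
theorem lo_ker_asymp (ε : ℝ) (hε : 0 < ε) : ∃ m₀ : ℕ, ∀ m ≥ m₀,
    ∀ A : Matrix (Fin m) (Fin m) ℤ, A.det ≠ 0 → (∀ i j, |A i j| ≤ 1) →
    ∀ (b : ℝ) (F : Finset ℕ) (t : ℕ), (∀ p ∈ F, p.Prime) → (∀ p ∈ F, (m : ℝ) ^ b ≤ p) →
    (∀ p ∈ F, t + (A.map (Int.cast : ℤ → ZMod p)).rank ≤ m) →
    ∀ X : Finset (Fin m → Bool), (∀ x ∈ X, ∀ p ∈ F, ∀ u : Fin m → ZMod p,
      (A.map (Int.cast : ℤ → ZMod p)).mulVec u = 0 → ∑ c, (if x c then u c else 0) = 0) →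
    (X.card : ℝ) ≤ 2 ^ ((1 + ε) * m - 2 * b * t * F.card) := by
  classical
  refine ⟨⌈(2 : ℝ) ^ (14 / ε)⌉₊ + 2, fun m hm A hdet hA b F t hF hFb ht X hX => ?_⟩
  have hm2 : 2 ≤ m := by omega
  have hm1 : 1 ≤ m := by omega
  have hmR : (2 : ℝ) ≤ m := by exact_mod_cast hm2
  have hm0 : (0 : ℝ) < m := by linarith
  set L := Real.logb 2 m with hL
  have hmL : (2 : ℝ) ^ L = m := Real.rpow_logb (by norm_num) (by norm_num) hm0
  have hL14 : 14 / ε ≤ L := by
    rw [hL, Real.le_logb_iff_rpow_le (by norm_num) hm0]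
    have h1 : (2 : ℝ) ^ (14 / ε) ≤ ⌈(2 : ℝ) ^ (14 / ε)⌉₊ := Nat.le_ceil _
    have h2 : ((⌈(2 : ℝ) ^ (14 / ε)⌉₊ : ℕ) : ℝ) ≤ m := by
      exact_mod_cast (by omega : ⌈(2 : ℝ) ^ (14 / ε)⌉₊ ≤ m)
    linarith
  have hL0 : 0 < L := lt_of_lt_of_le (by positivity) hL14
  have hsq : Real.sqrt m = 2 ^ (L / 2) := by
    rw [Real.sqrt_eq_rpow, ← hmL, ← Real.rpow_mul (by norm_num)]
    congr 1
    ring
  -- empty case
  rcases X.eq_empty_or_nonempty with hXe | hXne
  · rw [hXe]
    simp only [Finset.card_empty, Nat.cast_zero]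
    positivity
  set j : ℕ := ⌈L / 2⌉₊ with hj
  have hj1 : L / 2 ≤ j := Nat.le_ceil _
  have hj2 : (j : ℝ) ≤ L / 2 + 1 := (Nat.ceil_lt_add_one (by positivity)).le
  have hj0 : (0 : ℝ) < j := lt_of_lt_of_le (by positivity) hj1
  have hpow : (2 : ℝ) ^ j ≤ 2 * Real.sqrt m := by
    rw [hsq, ← Real.rpow_natCast]
    calc (2 : ℝ) ^ (j : ℝ) ≤ 2 ^ (L / 2 + 1) :=
          Real.rpow_le_rpow_of_exponent_le (by norm_num) hj2
      _ = 2 * 2 ^ (L / 2) := by
          rw [Real.rpow_add (by norm_num), Real.rpow_one, mul_comm]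
  -- integer vectors
  let ι : (Fin m → Bool) → (Fin m → ℤ) := fun x c => if x c then 1 else 0
  have hι : Function.Injective ι := by
    intro x y h
    funext c
    have h1 := congrFun h c
    simp only [ι] at h1
    cases hx : x c <;> cases hy : y c <;> simp [hx, hy] at h1 ⊢
  have hrow : ∀ i, ∑ c, (A i c : ℝ) ^ 2 ≤ m := by
    intro i
    calc ∑ c, (A i c : ℝ) ^ 2 ≤ ∑ _c : Fin m, (1 : ℝ) := Finset.sum_le_sum fun c _ => by
          have h1 : |(A i c : ℝ)| ≤ 1 := by exact_mod_cast hA i c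
          exact (sq_le_one_iff_abs_le_one _).2 h1
      _ = m := by simp
  have main := lo_ker (j := j) (t := t) hm1 A hdet hrow F hF ht (X.image ι)
    (fun x hx c => by
      obtain ⟨y, -, rfl⟩ := Finset.mem_image.1 hx
      by_cases h : y c <;> simp [ι, h])
    (fun x hx p hp u hu => by
      obtain ⟨y, hy, rfl⟩ := Finset.mem_image.1 hx
      rw [← hX y hy p hp u hu]
      refine Finset.sum_congr rfl fun c _ => ?_
      by_cases h : y c <;> simp [ι, h]) hpow
  rw [Finset.card_image_of_injective _ hι] at main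
  -- logarithms
  have hN1 : (1 : ℝ) ≤ X.card := by exact_mod_cast Finset.card_pos.2 hXne
  have hN0 : (0 : ℝ) < X.card := by linarith
  set y := Real.logb 2 X.card with hy
  have hNy : (2 : ℝ) ^ y = X.card := Real.rpow_logb (by norm_num) (by norm_num) hN0
  have hF1 : (2 : ℝ) ^ (L * b * (t * F.card)) ≤ (∏ p ∈ F, (p : ℝ)) ^ t := by
    have h1 : ((m : ℝ) ^ b) ^ F.card ≤ ∏ p ∈ F, (p : ℝ) := by
      rw [← Finset.prod_const]
      exact Finset.prod_le_prod (fun p _ => by positivity) hFb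
    calc (2 : ℝ) ^ (L * b * (t * F.card)) = (((m : ℝ) ^ b) ^ F.card) ^ t := by
          rw [← hmL, ← Real.rpow_mul (by norm_num), ← Real.rpow_natCast, ← Real.rpow_natCast,
            ← Real.rpow_mul (by positivity), ← Real.rpow_mul (by positivity)]
          congr 1
          ring
      _ ≤ _ := pow_le_pow_left₀ (by positivity) h1 t
  have hK : (Real.exp (5 / 2) * (1 + 2 * Real.sqrt m)) ≤ 2 ^ (L / 2 + 7) := by
    have h1 : Real.exp (5 / 2) ≤ 32 := by
      have h2 : Real.exp (5 / 2) ^ 2 = Real.exp 5 := by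
        rw [← Real.exp_nat_mul]; norm_num
      have h3 : Real.exp 5 = Real.exp 1 ^ 5 := by
        rw [← Real.exp_nat_mul]; norm_num
      have h4 : Real.exp 1 < 3 := lt_trans Real.exp_one_lt_d9 (by norm_num)
      have h5 : Real.exp 1 ^ 5 ≤ 3 ^ 5 := pow_le_pow_left₀ (Real.exp_pos _).le h4.le 5
      have h6 : Real.exp (5 / 2) ^ 2 ≤ 32 ^ 2 := by
        rw [h2, h3]; linarith
      exact (abs_le_of_sq_le_sq' h6 (by norm_num)).2
    have h7 : 1 + 2 * Real.sqrt m ≤ 4 * 2 ^ (L / 2) := by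
      rw [hsq]
      have : (1 : ℝ) ≤ 2 ^ (L / 2) := Real.one_le_rpow (by norm_num) (by positivity)
      linarith
    calc Real.exp (5 / 2) * (1 + 2 * Real.sqrt m) ≤ 32 * (4 * 2 ^ (L / 2)) :=
          mul_le_mul h1 h7 (by positivity) (by norm_num)
      _ = 2 ^ (L / 2 + 7) := by
          rw [Real.rpow_add (by norm_num)]
          have : (2 : ℝ) ^ (7 : ℝ) = 128 := by norm_num
          rw [this]; ring
  have h8 : (2 : ℝ) ^ (L * b * (t * F.card) + y * j) ≤ 2 ^ ((L / 2 + 7) * m) := by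
    rw [Real.rpow_add (by norm_num)]
    calc (2 : ℝ) ^ (L * b * (t * F.card)) * 2 ^ (y * j) ≤
          (∏ p ∈ F, (p : ℝ)) ^ t * (X.card : ℝ) ^ j := by
          refine mul_le_mul hF1 (le_of_eq ?_) (by positivity) (by positivity)
          rw [Real.rpow_mul (by norm_num), hNy, Real.rpow_natCast]
      _ ≤ (Real.exp (5 / 2) * (1 + 2 * Real.sqrt m)) ^ m := main
      _ ≤ (2 ^ (L / 2 + 7)) ^ m := pow_le_pow_left₀ (by positivity) hK m
      _ = 2 ^ ((L / 2 + 7) * m) := by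
          rw [Real.rpow_mul (by norm_num), Real.rpow_natCast]
  have h9 : L * b * (t * F.card) + y * j ≤ (L / 2 + 7) * m :=
    (Real.rpow_le_rpow_left_iff (by norm_num : (1 : ℝ) < 2)).1 h8
  have hy0 : 0 ≤ y := Real.logb_nonneg (by norm_num) hN1
  have h10 : y * (L / 2) ≤ y * j := mul_le_mul_of_nonneg_left hj1 hy0
  have h11 : y * L ≤ (L + 14) * m - 2 * (L * b * (t * F.card)) := by linarith
  have h12 : 14 ≤ ε * L := by
    rw [div_le_iff₀ hε] at hL14
    linarith
  have h13 : y * L ≤ ((1 + ε) * m - 2 * b * t * F.card) * L := by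
    have : 14 * (m : ℝ) ≤ ε * L * m := mul_le_mul_of_nonneg_right h12 hm0.le
    nlinarith
  have h14 : y ≤ (1 + ε) * m - 2 * b * t * F.card := le_of_mul_le_mul_right h13 hL0
  calc (X.card : ℝ) = 2 ^ y := hNy.symm
    _ ≤ _ := Real.rpow_le_rpow_of_exponent_le (by norm_num) h14

end Vale.Agent.P160.Half.LODig
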