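import Mathlib

/-!
# P160: the minor (dissociated) Littlewood-Offord inequality with excess

`Y` an integer matrix with entries in `{-1, 0, 1}`, `B` a finite set of primes, `U_p` the left
kernel of `Y` modulo `p`, `e_p` the excess `rank_ℚ Y - rank_p Y`.  Then there is `d` such that at
most `2 ^ (a - d)` zero-one vectors satisfy any prescribed system `x ⬝ u = c p u`
(`p ∈ B`, `u ∈ U_p`), while `(∏_{p ∈ B} p ^ e_p) ^ 2 ≤ a ^ (3 d)`.
-/

set_option linter.unusedSectionVars false

namespace Vale.Agent.P160.Half.LOMin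

open Finset Matrix

/-! ### dissociated sets -/

section Diss

variable {ι : Type*} [Fintype ι] [DecidableEq ι] {G : Type*} [AddCommGroup G]

/-- no nontrivial relation with coefficients `-1, 0, 1` -/
def Diss (g : ι → G) (D : Finset ι) : Prop :=
  ∀ c : ι → ℤ, (∀ i, |c i| ≤ 1) → ∑ i ∈ D, c i • g i = 0 → ∀ i ∈ D, c i = 0

theorem exists_diss (g : ι → G) : ∃ D : Finset ι, Diss g D ∧
    ∀ k, ∃ c : ι → ℤ, (∀ i, |c i| ≤ 1) ∧ (∀ i ∈ D, k ∈ D → c i = if i = k then 1 else 0) ∧
      g k = ∑ i ∈ D, c i • g i := by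
  classical
  obtain ⟨D, hD, hmax⟩ := Finset.exists_max_image
    ((univ : Finset (Finset ι)).filter (fun D => Diss g D)) Finset.card
    ⟨∅, Finset.mem_filter.2 ⟨mem_univ _, fun c _ _ i hi => absurd hi (Finset.notMem_empty i)⟩⟩
  have hD : Diss g D := (Finset.mem_filter.1 hD).2
  refine ⟨D, hD, fun k => ?_⟩
  by_cases hk : k ∈ D
  · refine ⟨fun i => if i = k then 1 else 0, fun i => ?_, fun i _ _ => rfl, ?_⟩
    · dsimp only
      split_ifs <;> simp
    · simp [hk]
  · have h1 : ¬ Diss g (insert k D) := by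
      intro h
      have h2 := hmax (insert k D) (Finset.mem_filter.2 ⟨mem_univ _, h⟩)
      rw [Finset.card_insert_of_notMem hk] at h2
      omega
    unfold Diss at h1
    push Not at h1
    obtain ⟨c, hc, hsum, i₀, hi₀, hne⟩ := h1
    rw [Finset.sum_insert hk] at hsum
    have hck : c k ≠ 0 := by
      intro h0
      rw [h0, zero_smul, zero_add] at hsum
      have h3 := hD c hc hsum
      rcases Finset.mem_insert.1 hi₀ with h | h
      · exact hne (h ▸ h0)
      · exact hne (h3 _ h)
    have hk1 : c k * c k = 1 := by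
      have := hc k
      have h5 : c k = 1 ∨ c k = -1 := by
        rcases abs_le.1 this with ⟨ha, hb⟩
        omega
      rcases h5 with h | h <;> rw [h] <;> norm_num
    refine ⟨fun i => -(c k * c i), fun i => ?_, fun i _ h => absurd h hk, ?_⟩
    · rw [abs_neg, abs_mul]
      exact mul_le_one₀ (hc k) (abs_nonneg _) (hc i)
    · have h6 : c k • g k = -∑ i ∈ D, c i • g i := eq_neg_of_add_eq_zero_left hsum
      have h7 : g k = (c k * c k) • g k := by rw [hk1, one_smul]
      rw [h7, mul_smul, h6, smul_neg, Finset.smul_sum, ← Finset.sum_neg_distrib]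
      refine Finset.sum_congr rfl fun i _ => ?_
      rw [neg_smul, mul_smul]

/-- at most `2 ^ (|ι| - |D|)` subset sums hit a given target -/
theorem card_diss (g : ι → G) [DecidableEq G] {D : Finset ι} (hD : Diss g D) (t : G) :
    ((univ : Finset (ι → Bool)).filter
      (fun x => ∑ i, (if x i then g i else 0) = t)).card * 2 ^ D.card ≤ 2 ^ Fintype.card ι := by
  classical
  set S := (univ : Finset (ι → Bool)).filter (fun x => ∑ i, (if x i then g i else 0) = t) with hS
  have h1 : S.card ≤ Fintype.card ({i // i ∉ D} → Bool) := by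
    rw [← Finset.card_univ]
    refine Finset.card_le_card_of_injOn (fun x i => x i) (fun x _ => mem_univ _) ?_
    intro x hx y hy hxy
    have hx := (Finset.mem_filter.1 hx).2
    have hy := (Finset.mem_filter.1 hy).2
    have hag : ∀ i, i ∉ D → x i = y i := fun i hi => congrFun hxy ⟨i, hi⟩
    have h2 : ∑ i ∈ D, ((if x i then (1 : ℤ) else 0) - (if y i then 1 else 0)) • g i = 0 := by
      have h3 : ∑ i, (((if x i then (1 : ℤ) else 0) - (if y i then 1 else 0)) • g i) = 0 := by
        have h4 : ∀ i, (((if x i then (1 : ℤ) else 0) - (if y i then 1 else 0)) • g i)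
            = (if x i then g i else 0) - (if y i then g i else 0) := by
          intro i
          rw [sub_smul]
          split_ifs <;> simp
        rw [Finset.sum_congr rfl fun i _ => h4 i, Finset.sum_sub_distrib, hx, hy, sub_self]
      rw [← h3]
      refine Finset.sum_subset (Finset.subset_univ _) fun i _ hi => ?_
      rw [hag i hi, sub_self, zero_smul]
    have h5 := hD _ (fun i => by split_ifs <;> simp) h2
    funext i
    by_cases hi : i ∈ D
    · have := h5 i hi
      by_cases hx' : x i <;> by_cases hy' : y i <;> simp [hx', hy'] at this ⊢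
    · exact hag i hi
  have h2 : Fintype.card ({i // i ∉ D} → Bool) * 2 ^ D.card = 2 ^ Fintype.card ι := by
    rw [Fintype.card_fun, Fintype.card_bool, ← pow_add]
    congr 1
    rw [Fintype.card_subtype_compl, Fintype.card_coe]
    have := Finset.card_le_univ D
    omega
  rw [← h2]
  exact Nat.mul_le_mul_right _ h1

end Diss

/-! ### linear algebra -/

section LinAlg

variable {m n : Type*} [Fintype m] [Fintype n] [DecidableEq m] [DecidableEq n]

theorem finrank_lker {F : Type*} [Field F] (A : Matrix m n F) :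
    Module.finrank F (LinearMap.ker A.vecMulLinear) + A.rank = Fintype.card m := by
  have h1 := LinearMap.finrank_range_add_finrank_ker Aᵀ.mulVecLin
  rw [Module.finrank_fintype_fun_eq_card] at h1
  rw [← h1, add_comm]
  congr 1
  · rw [← rank_transpose]; rfl
  · rw [Matrix.mulVecLin_transpose]

/-- a nonzero minor of the size of the rank -/
theorem exists_minor {F : Type*} [Field F] (A : Matrix m n F) :
    ∃ (r : ℕ) (f : Fin r → m) (g : Fin r → n), r = A.rank ∧ (A.submatrix f g).det ≠ 0 := by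
  classical
  obtain ⟨κ, a, ha, hspan, hli⟩ := exists_linearIndependent' F A.row
  have hfin : Finite κ := Finite.of_injective a ha
  have := Fintype.ofFinite κ
  have hcard : Fintype.card κ = A.rank := by
    rw [rank_eq_finrank_span_row, ← hspan, finrank_span_eq_card hli]
  let e : Fin A.rank ≃ κ := (Fintype.equivFinOfCardEq hcard).symm
  set A' : Matrix (Fin A.rank) n F := A.submatrix (a ∘ e) id with hA'
  have hli' : LinearIndependent F A'.row := hli.comp e e.injective
  have hr' : A'.rank = A.rank := by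
    rw [hli'.rank_matrix, Fintype.card_fin]
  obtain ⟨κ', b, hb, hspan', hlib⟩ := exists_linearIndependent' F A'.col
  have hfin' : Finite κ' := Finite.of_injective b hb
  have := Fintype.ofFinite κ'
  have hcard' : Fintype.card κ' = A.rank := by
    rw [← hr', rank_eq_finrank_span_cols, ← hspan', finrank_span_eq_card hlib]
  let e' : Fin A.rank ≃ κ' := (Fintype.equivFinOfCardEq hcard').symm
  refine ⟨A.rank, a ∘ e, b ∘ e', rfl, ?_⟩
  have h1 : LinearIndependent F (A.submatrix (a ∘ e) (b ∘ e')).col := hlib.comp e' e'.injective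
  have h2 := linearIndependent_cols_iff_isUnit.1 h1
  exact ((isUnit_iff_isUnit_det _).1 h2).ne_zero

theorem pow_dvd_of_rows {k : Type*} [Fintype k] [DecidableEq k] (p : ℤ) (W : Matrix k k ℤ)
    (s : Finset k) (h : ∀ i ∈ s, ∀ j, p ∣ W i j) : p ^ s.card ∣ W.det := by
  classical
  have h1 : ∀ i j, ∃ z : ℤ, W i j = (if i ∈ s then p else 1) * z := by
    intro i j
    by_cases hi : i ∈ s
    · obtain ⟨z, hz⟩ := h i hi j
      exact ⟨z, by simp [hi, hz]⟩
    · exact ⟨W i j, by simp [hi]⟩
  choose z hz using h1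
  have h2 : W = Matrix.of fun i j => (if i ∈ s then p else 1) * (Matrix.of z) i j := by
    ext i j; rw [hz]; rfl
  rw [h2, Matrix.det_mul_column]
  refine Dvd.dvd.mul_right ?_ _
  rw [Finset.prod_ite_mem, Finset.univ_inter, Finset.prod_const]

theorem pow_dvd_det {k : Type*} [Fintype k] [DecidableEq k] {p : ℕ} (hp : p.Prime)
    (N : Matrix k k ℤ) :
    (p : ℤ) ^ (Fintype.card k - (N.map (Int.cast : ℤ → ZMod p)).rank) ∣ N.det := by
  classical
  have := Fact.mk hp
  obtain ⟨V, U, e, hV, hU, hVU⟩ := exists_rank_normal_form (N.map (Int.cast : ℤ → ZMod p))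
  have hlift : ∀ X : Matrix k k (ZMod p), ∃ X' : Matrix k k ℤ,
      X'.map (Int.cast : ℤ → ZMod p) = X := by
    intro X
    refine ⟨Matrix.of fun i j => ((X i j).val : ℤ), ?_⟩
    ext i j
    rw [Matrix.map_apply, Matrix.of_apply, Int.cast_natCast, ZMod.natCast_zmod_val]
  obtain ⟨V', hV'⟩ := hlift V
  obtain ⟨U', hU'⟩ := hlift U
  have hcop : ∀ (X : Matrix k k (ZMod p)) (X' : Matrix k k ℤ),
      X'.map (Int.cast : ℤ → ZMod p) = X → IsUnit X → ¬ ((p : ℤ) ∣ X'.det) := by
    intro X X' h hX hd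
    have h1 : ((X'.det : ℤ) : ZMod p) = X.det := by
      rw [← h]
      exact (Int.castRingHom (ZMod p)).map_det X'
    rw [(ZMod.intCast_zmod_eq_zero_iff_dvd _ _).2 hd] at h1
    exact ((isUnit_iff_isUnit_det _).1 hX).ne_zero h1.symm
  have hmap : (V' * N * U').map (Int.cast : ℤ → ZMod p) =
      (fromBlocks 1 0 0 0).submatrix e e := by
    rw [← hVU, ← hV', ← hU']
    have h1 := Matrix.map_mul (L := V' * N) (M := U') (f := Int.castRingHom (ZMod p))
    have h2 := Matrix.map_mul (L := V') (M := N) (f := Int.castRingHom (ZMod p))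
    rw [h2] at h1
    exact h1
  set s : Finset k := univ.image (fun x : Fin (Fintype.card k -
    (N.map (Int.cast : ℤ → ZMod p)).rank) => e.symm (Sum.inr x)) with hs
  have hscard : s.card = Fintype.card k - (N.map (Int.cast : ℤ → ZMod p)).rank := by
    rw [hs, Finset.card_image_of_injective _ (fun x y h => Sum.inr_injective (e.symm.injective h)),
      Finset.card_univ, Fintype.card_fin]
  have hrow : ∀ i ∈ s, ∀ j, (p : ℤ) ∣ (V' * N * U') i j := by
    intro i hi j
    obtain ⟨x, -, rfl⟩ := Finset.mem_image.1 hi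
    have h1 := congrFun (congrFun hmap (e.symm (Sum.inr x))) j
    rw [Matrix.map_apply, Matrix.submatrix_apply, Equiv.apply_symm_apply] at h1
    rw [← ZMod.intCast_zmod_eq_zero_iff_dvd, h1]
    rcases e j with y | y <;> simp
  have h3 := pow_dvd_of_rows (p : ℤ) (V' * N * U') s hrow
  rw [hscard, det_mul, det_mul] at h3
  have hpr : Prime (p : ℤ) := Nat.prime_iff_prime_int.1 hp
  have hc1 : IsCoprime ((p : ℤ) ^ (Fintype.card k - (N.map (Int.cast : ℤ → ZMod p)).rank))
      U'.det := by
    refine IsCoprime.pow_left ?_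
    exact (Prime.coprime_iff_not_dvd hpr).2 (hcop U U' hU' hU)
  have hc2 : IsCoprime ((p : ℤ) ^ (Fintype.card k - (N.map (Int.cast : ℤ → ZMod p)).rank))
      V'.det := by
    refine IsCoprime.pow_left ?_
    exact (Prime.coprime_iff_not_dvd hpr).2 (hcop V V' hV' hV)
  exact hc2.dvd_of_dvd_mul_left (hc1.dvd_of_dvd_mul_right h3)

/-- Hadamard's inequality, in terms of the entries -/
theorem hadamard {k : ℕ} (N : Matrix (Fin k) (Fin k) ℤ) (K : ℤ)
    (h : ∀ i j, |N i j| ≤ K) : N.det ^ 2 ≤ (K ^ 2 * k) ^ k := by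
  classical
  let E := EuclideanSpace ℝ (Fin k)
  have : Fact (Module.finrank ℝ E = k) := ⟨by simp [E]⟩
  let b : OrthonormalBasis (Fin k) ℝ E := EuclideanSpace.basisFun (Fin k) ℝ
  let o : Orientation ℝ E (Fin k) := b.toBasis.orientation
  let v : Fin k → E := fun i => WithLp.toLp 2 (fun j => (N i j : ℝ))
  have h1 : |o.volumeForm v| ≤ ∏ i : Fin k, ‖v i‖ := o.abs_volumeForm_apply_le v
  have h2 : o.volumeForm v = ((N.det : ℤ) : ℝ) := by
    rw [o.volumeForm_robust b rfl, Module.Basis.det_apply]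
    have h3 : b.toBasis.toMatrix v = (N.map (Int.cast : ℤ → ℝ))ᵀ := by
      ext i j
      rw [Module.Basis.toMatrix_apply, OrthonormalBasis.coe_toBasis_repr_apply,
        EuclideanSpace.basisFun_repr]
      rfl
    rw [h3, det_transpose]
    exact ((Int.castRingHom ℝ).map_det N).symm
  have h4 : ∀ i, ‖v i‖ ^ 2 ≤ (K : ℝ) ^ 2 * k := by
    intro i
    rw [EuclideanSpace.norm_sq_eq]
    have h5 : ∀ j ∈ (univ : Finset (Fin k)), ‖(v i) j‖ ^ 2 ≤ (K : ℝ) ^ 2 := by
      intro j _
      have h6 : ‖(v i) j‖ = ((|N i j| : ℤ) : ℝ) := by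
        simp [v]
      rw [h6]
      have h7 : ((|N i j| : ℤ) : ℝ) ≤ (K : ℝ) := by exact_mod_cast h i j
      have h8 : (0 : ℝ) ≤ ((|N i j| : ℤ) : ℝ) := by exact_mod_cast abs_nonneg (N i j)
      nlinarith
    refine (Finset.sum_le_sum h5).trans ?_
    rw [Finset.sum_const, Finset.card_univ, Fintype.card_fin, nsmul_eq_mul, mul_comm]
  have h9 : ((N.det : ℤ) : ℝ) ^ 2 ≤ ((K : ℝ) ^ 2 * k) ^ k := by
    rw [h2] at h1
    calc ((N.det : ℤ) : ℝ) ^ 2 = |((N.det : ℤ) : ℝ)| ^ 2 := (sq_abs _).symm
      _ ≤ (∏ i : Fin k, ‖v i‖) ^ 2 := by gcongr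
      _ = ∏ i : Fin k, ‖v i‖ ^ 2 := (Finset.prod_pow _ _ _).symm
      _ ≤ ∏ _i : Fin k, ((K : ℝ) ^ 2 * k) :=
        Finset.prod_le_prod (fun i _ => by positivity) fun i _ => h4 i
      _ = ((K : ℝ) ^ 2 * k) ^ k := by rw [Finset.prod_const, Finset.card_univ, Fintype.card_fin]
  exact_mod_cast h9

end LinAlg

/-! ### the main theorem -/

section Main

variable {ι κ : Type*} [Fintype ι] [Fintype κ] [DecidableEq ι] [DecidableEq κ]

/-- the left kernel of `Y` modulo `p` -/
def lker (Y : Matrix ι κ ℤ) (p : ℕ) : Set (ι → ZMod p) :=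
  {u | u ᵥ* Y.map (Int.cast : ℤ → ZMod p) = 0}

/-- the rank modulo `p` (the rank over the rationals for `p = 0`) -/
noncomputable def rk (Y : Matrix ι κ ℤ) (F : Type*) [Field F] : ℕ :=
  (Y.map (Int.cast : ℤ → F)).rank

theorem map_cast_mul {F : Type*} [Field F] {α : Type*} [Fintype α] (C : Matrix ι α ℤ)
    (Y : Matrix ι κ ℤ) : (Cᵀ * Y).map (Int.cast : ℤ → F) =
      (C.map (Int.cast : ℤ → F))ᵀ * Y.map (Int.cast : ℤ → F) := by
  have h1 := Matrix.map_mul (L := Cᵀ) (M := Y) (f := Int.castRingHom F)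
  exact h1

/-- upper bound for the rank of the compressed matrix -/
theorem rank_compress_le {F : Type*} [Field F] {α : Type*} [Fintype α] [DecidableEq α]
    (C : Matrix ι α F) (Y : Matrix ι κ F) (f : α → ι)
    (h : ∀ u : ι → F, u ᵥ* Y = 0 → C *ᵥ (u ∘ f) = u) :
    (Cᵀ * Y).rank + Fintype.card ι ≤ Y.rank + Fintype.card α := by
  have h1 := finrank_lker Y
  have h2 := finrank_lker (Cᵀ * Y)
  let φ : LinearMap.ker Y.vecMulLinear →ₗ[F] LinearMap.ker (Cᵀ * Y).vecMulLinear :=
    LinearMap.codRestrict _ ((LinearMap.funLeft F F f).comp (Submodule.subtype _)) (by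
      rintro ⟨u, hu⟩
      have hu' : u ᵥ* Y = 0 := hu
      show (u ∘ f) ᵥ* (Cᵀ * Y) = 0
      rw [← Matrix.vecMul_vecMul, Matrix.vecMul_transpose, h u hu', hu'])
  have hφ : Function.Injective φ := by
    rintro ⟨u, hu⟩ ⟨w, hw⟩ huw
    have h3 : u ∘ f = w ∘ f := congrArg Subtype.val huw
    have hu' : u ᵥ* Y = 0 := hu
    have hw' : w ᵥ* Y = 0 := hw
    apply Subtype.ext
    show u = w
    rw [← h u hu', ← h w hw', h3]
  have h4 := LinearMap.finrank_le_finrank_of_injective hφ
  omega

/-- lower bound for the rank of the compressed matrix -/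
theorem le_rank_compress {F : Type*} [Field F] {α : Type*} [Fintype α] [DecidableEq α]
    (C : Matrix ι α F) (Y : Matrix ι κ F) (f : α → ι) (h : ∀ v : α → F, (C *ᵥ v) ∘ f = v) :
    Y.rank + Fintype.card α ≤ (Cᵀ * Y).rank + Fintype.card ι := by
  have h1 := finrank_lker Y
  have h2 := finrank_lker (Cᵀ * Y)
  let φ : LinearMap.ker (Cᵀ * Y).vecMulLinear →ₗ[F] LinearMap.ker Y.vecMulLinear :=
    LinearMap.codRestrict _ (C.mulVecLin.comp (Submodule.subtype _)) (by
      rintro ⟨v, hv⟩
      have hv' : v ᵥ* (Cᵀ * Y) = 0 := hv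
      show (C *ᵥ v) ᵥ* Y = 0
      rw [← Matrix.vecMul_transpose, Matrix.vecMul_vecMul, hv'])
  have hφ : Function.Injective φ := by
    rintro ⟨u, hu⟩ ⟨w, hw⟩ huw
    have h3 : C *ᵥ u = C *ᵥ w := congrArg Subtype.val huw
    apply Subtype.ext
    show u = w
    rw [← h u, ← h w, h3]
  have h4 := LinearMap.finrank_le_finrank_of_injective hφ
  omega

open scoped Classical in
/-- **The minor Littlewood-Offord inequality with excess.** -/
theorem lo_min (Y : Matrix ι κ ℤ) (hY : ∀ i l, |Y i l| ≤ 1) (B : Finset ℕ)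
    (hB : ∀ p ∈ B, p.Prime) (e : ℕ → ℕ)
    (he : ∀ p ∈ B, (Y.map (Int.cast : ℤ → ZMod p)).rank + e p ≤
      (Y.map (Int.cast : ℤ → ℚ)).rank) :
    ∃ d ≤ Fintype.card ι, (∏ p ∈ B, p ^ e p) ^ 2 ≤ Fintype.card ι ^ (3 * d) ∧
      (∀ c : (p : ℕ) → (ι → ZMod p) → ZMod p,
        ((univ : Finset (ι → Bool)).filter (fun x : ι → Bool => ∀ p ∈ B, ∀ u : ι → ZMod p,
          u ᵥ* Y.map (Int.cast : ℤ → ZMod p) = 0 →
            ∑ i, (if x i then u i else 0) = c p u)).card * 2 ^ d ≤ 2 ^ Fintype.card ι) ∧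
      (∀ c : (p : ℕ) → (ι → ZMod p) → ZMod p,
        ((univ : Finset ((ι → Bool) × (ι → Bool))).filter
          (fun x : (ι → Bool) × (ι → Bool) => ∀ p ∈ B, ∀ u : ι → ZMod p,
          u ᵥ* Y.map (Int.cast : ℤ → ZMod p) = 0 →
            ∑ i, (if x.1 i then u i else 0) - ∑ i, (if x.2 i then u i else 0) = c p u)).card
              * 2 ^ d ≤ 4 ^ Fintype.card ι) := by
  classical
  -- the group homomorphism
  let g : ι → ((p : {p // p ∈ B}) → (ι → ZMod p) → ZMod p) := fun i p u =>
    if u ᵥ* Y.map (Int.cast : ℤ → ZMod p) = 0 then u i else 0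
  obtain ⟨D, hD, hC⟩ := exists_diss g
  choose C hC1 hC2 hC3 using hC
  have hcount : ∀ c : (p : ℕ) → (ι → ZMod p) → ZMod p,
        ((univ : Finset (ι → Bool)).filter (fun x : ι → Bool => ∀ p ∈ B, ∀ u : ι → ZMod p,
          u ᵥ* Y.map (Int.cast : ℤ → ZMod p) = 0 →
            ∑ i, (if x i then u i else 0) = c p u)).card * 2 ^ D.card ≤ 2 ^ Fintype.card ι := by
    intro c
    refine le_trans (Nat.mul_le_mul_right _ (Finset.card_le_card ?_)) (card_diss g hD
      (fun p u => if u ᵥ* Y.map (Int.cast : ℤ → ZMod p) = 0 then c p u else 0))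
    intro x hx
    rw [Finset.mem_filter] at hx ⊢
    refine ⟨mem_univ _, ?_⟩
    funext p u
    rw [Finset.sum_apply, Finset.sum_apply]
    by_cases hu : u ᵥ* Y.map (Int.cast : ℤ → ZMod p) = 0
    · rw [if_pos hu, ← hx.2 p p.2 u hu]
      refine Finset.sum_congr rfl fun i _ => ?_
      by_cases hxi : x i <;> simp [hxi, g, hu]
    · rw [if_neg hu]
      refine Finset.sum_eq_zero fun i _ => ?_
      by_cases hxi : x i <;> simp [hxi, g, hu]
  refine ⟨D.card, Finset.card_le_univ D, ?_, hcount, ?_⟩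
  · -- the compressed matrix
    let Cm : Matrix ι D ℤ := fun k i => C k i
    let f : D → ι := fun i => i
    have hCk : ∀ p ∈ B, ∀ u : ι → ZMod p, u ᵥ* Y.map (Int.cast : ℤ → ZMod p) = 0 →
        Cm.map (Int.cast : ℤ → ZMod p) *ᵥ (u ∘ f) = u := by
      intro p hp u hu
      funext k
      have h1 := congrFun (congrFun (hC3 k) ⟨p, hp⟩) u
      rw [Finset.sum_apply, Finset.sum_apply] at h1
      have h2 : g k ⟨p, hp⟩ u = u k := if_pos hu
      rw [h2] at h1
      rw [h1, ← Finset.sum_coe_sort D (fun i => (C k i • g i) ⟨p, hp⟩ u)]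
      refine Finset.sum_congr rfl fun i _ => ?_
      show ((C k i : ℤ) : ZMod p) * u i = (C k i • g i ⟨p, hp⟩ u)
      rw [show g i ⟨p, hp⟩ u = u i from if_pos hu, zsmul_eq_mul]
    have hI : ∀ v : D → ℚ, (Cm.map (Int.cast : ℤ → ℚ) *ᵥ v) ∘ f = v := by
      intro v
      funext k
      show ∑ i : D, ((C k i : ℤ) : ℚ) * v i = v k
      rw [Finset.sum_eq_single k]
      · rw [hC2 k k k.2 k.2]; simp
      · intro i _ hik
        rw [hC2 k i i.2 k.2, if_neg (fun h => hik (Subtype.ext h))]
        simp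
      · intro h; exact absurd (mem_univ _) h
    let M : Matrix D κ ℤ := Cmᵀ * Y
    have hMp : ∀ p ∈ B, (M.map (Int.cast : ℤ → ZMod p)).rank + e p ≤
        (M.map (Int.cast : ℤ → ℚ)).rank := by
      intro p hp
      have := Fact.mk (hB p hp)
      have h1 := rank_compress_le (Cm.map (Int.cast : ℤ → ZMod p))
        (Y.map (Int.cast : ℤ → ZMod p)) f (hCk p hp)
      have h2 := le_rank_compress (Cm.map (Int.cast : ℤ → ℚ)) (Y.map (Int.cast : ℤ → ℚ)) f hI
      rw [← map_cast_mul] at h1 h2
      have h3 := he p hp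
      have h4 : (M.map (Int.cast : ℤ → ZMod p)).rank =
        ((Cmᵀ * Y).map (Int.cast : ℤ → ZMod p)).rank := rfl
      have h5 : (M.map (Int.cast : ℤ → ℚ)).rank =
        ((Cmᵀ * Y).map (Int.cast : ℤ → ℚ)).rank := rfl
      omega
    obtain ⟨r, a, b, hr, hdet⟩ := exists_minor (M.map (Int.cast : ℤ → ℚ))
    have hdet' : (M.submatrix a b).det ≠ 0 := by
      intro h0
      apply hdet
      have h1 := (Int.castRingHom ℚ).map_det (M.submatrix a b)
      rw [h0, map_zero] at h1
      exact h1.symm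
    have hrD : r ≤ D.card := by
      have := Matrix.rank_le_card_height (M.map (Int.cast : ℤ → ℚ))
      rwa [Fintype.card_coe, ← hr] at this
    have hdvd : ((∏ p ∈ B, p ^ e p : ℕ) : ℤ) ∣ (M.submatrix a b).det := by
      rw [Nat.cast_prod]
      refine Finset.prod_dvd_of_coprime ?_ ?_
      · intro p hp q hq hpq
        show IsCoprime ((p ^ e p : ℕ) : ℤ) ((q ^ e q : ℕ) : ℤ)
        rw [Nat.isCoprime_iff_coprime]
        exact Nat.Coprime.pow _ _ ((Nat.coprime_primes (hB p hp) (hB q hq)).2 hpq)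
      · intro p hp
        have h1 := pow_dvd_det (hB p hp) (M.submatrix a b)
        rw [Nat.cast_pow]
        refine (pow_dvd_pow _ ?_).trans h1
        rw [Fintype.card_fin]
        have h2 : ((M.submatrix a b).map (Int.cast : ℤ → ZMod p)).rank ≤
            (M.map (Int.cast : ℤ → ZMod p)).rank := by
          have := Fact.mk (hB p hp)
          exact rank_submatrix_le (M.map (Int.cast : ℤ → ZMod p)) a b
        have h3 := hMp p hp
        omega
    have hle : ((∏ p ∈ B, p ^ e p : ℕ) : ℤ) ^ 2 ≤ (M.submatrix a b).det ^ 2 := by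
      have h1 := Int.le_of_dvd (by positivity : (0 : ℤ) < (M.submatrix a b).det ^ 2)
        (pow_dvd_pow_of_dvd hdvd 2)
      exact h1
    have hent : ∀ i j, |(M.submatrix a b) i j| ≤ (Fintype.card ι : ℤ) := by
      intro i j
      show |∑ k, C k (a i) * Y k (b j)| ≤ _
      refine (Finset.abs_sum_le_sum_abs _ _).trans ?_
      refine (Finset.sum_le_sum (g := fun _ => (1 : ℤ)) fun k _ => ?_).trans ?_
      · rw [abs_mul]
        exact mul_le_one₀ (hC1 k _) (abs_nonneg _) (hY k _)
      · simp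
    have hhad := hadamard (M.submatrix a b) (Fintype.card ι) hent
    have hrι : r ≤ Fintype.card ι := hrD.trans (Finset.card_le_univ D)
    have hfin : (((Fintype.card ι : ℕ) : ℤ) ^ 2 * r) ^ r ≤
        ((Fintype.card ι : ℕ) : ℤ) ^ (3 * D.card) := by
      have h1 : ((Fintype.card ι) ^ 2 * r) ^ r ≤ (Fintype.card ι) ^ (3 * D.card) := by
        rcases Nat.eq_zero_or_pos (Fintype.card ι) with h0 | hpos
        · have hr0 : r = 0 := by omega
          have hD0 : D.card = 0 := by
            have := Finset.card_le_univ D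
            omega
          rw [hr0, hD0]
          simp
        · calc ((Fintype.card ι) ^ 2 * r) ^ r ≤ ((Fintype.card ι) ^ 2 * Fintype.card ι) ^ r := by
                gcongr
            _ = (Fintype.card ι) ^ (3 * r) := by ring
            _ ≤ (Fintype.card ι) ^ (3 * D.card) := Nat.pow_le_pow_right hpos (by omega)
      exact_mod_cast h1
    have hall := (hle.trans hhad).trans hfin
    exact_mod_cast hall
  · intro c
    have h1 : ((univ : Finset ((ι → Bool) × (ι → Bool))).filter (fun x => ∀ p ∈ B,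
          ∀ u : ι → ZMod p, u ᵥ* Y.map (Int.cast : ℤ → ZMod p) = 0 →
            ∑ i, (if x.1 i then u i else 0) - ∑ i, (if x.2 i then u i else 0) = c p u)).card ≤
        ∑ y : ι → Bool, ((univ : Finset (ι → Bool)).filter (fun x => ∀ p ∈ B,
          ∀ u : ι → ZMod p, u ᵥ* Y.map (Int.cast : ℤ → ZMod p) = 0 →
            ∑ i, (if x i then u i else 0) = c p u + ∑ i, (if y i then u i else 0))).card := by
      rw [← Finset.card_sigma]
      refine Finset.card_le_card_of_injOn (fun x => ⟨x.2, x.1⟩) ?_ ?_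
      · intro x hx
        have hx := (Finset.mem_filter.1 hx).2
        simp only [Finset.coe_sigma, Set.mem_sigma_iff, Finset.coe_univ, Set.mem_univ, true_and,
          Finset.coe_filter, Set.mem_ofPred_eq, Finset.mem_univ]
        intro p hp u hu
        rw [← hx p hp u hu]
        ring
      · intro x _ y _ hxy
        have := Sigma.mk.inj hxy
        exact Prod.ext (eq_of_heq this.2) this.1
    calc _ ≤ (∑ y : ι → Bool, ((univ : Finset (ι → Bool)).filter (fun x => ∀ p ∈ B,
          ∀ u : ι → ZMod p, u ᵥ* Y.map (Int.cast : ℤ → ZMod p) = 0 →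
            ∑ i, (if x i then u i else 0) = c p u + ∑ i, (if y i then u i else 0))).card) *
              2 ^ D.card := Nat.mul_le_mul_right _ h1
      _ = ∑ y : ι → Bool, ((univ : Finset (ι → Bool)).filter (fun x => ∀ p ∈ B,
          ∀ u : ι → ZMod p, u ᵥ* Y.map (Int.cast : ℤ → ZMod p) = 0 →
            ∑ i, (if x i then u i else 0) = c p u + ∑ i, (if y i then u i else 0))).card *
              2 ^ D.card := Finset.sum_mul _ _ _
      _ ≤ ∑ _y : ι → Bool, 2 ^ Fintype.card ι := Finset.sum_le_sum fun y _ =>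
          hcount (fun p u => c p u + ∑ i, (if y i then u i else 0))
      _ = 4 ^ Fintype.card ι := by
          rw [Finset.sum_const, Finset.card_univ, Fintype.card_fun, Fintype.card_bool, smul_eq_mul,
            ← pow_add, ← two_mul, pow_mul]
          norm_num

end Main

end Vale.Agent.P160.Half.LOMin
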