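import Vale.Agent.P160.Half.LOMin

/-!
# P160: the minor Littlewood-Offord inequality with excess, constant one

Same as `LOMin.lo_min`, with the deterministic bound `∏_{p ∈ B} p ^ e_p ≤ a ^ d`: the minor of
`Cᵀ Y` is a determinant of inner products of vectors of norm at most `√a`.
-/

set_option linter.unusedSectionVars false

namespace Vale.Agent.P160.Half.LOMin

open Finset Matrix

section Gram

variable {E : Type*} [NormedAddCommGroup E] [InnerProductSpace ℝ E] [FiniteDimensional ℝ E]

open scoped InnerProductSpace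

/-- Hadamard's inequality in an orthonormal basis -/
theorem abs_det_basis_le {r : ℕ} (b : OrthonormalBasis (Fin r) ℝ E) (x : Fin r → E) :
    |(Matrix.of fun i j => ⟪b i, x j⟫_ℝ).det| ≤ ∏ i, ‖x i‖ := by
  have : Fact (Module.finrank ℝ E = r) := ⟨by
    rw [Module.finrank_eq_card_basis b.toBasis, Fintype.card_fin]⟩
  let o : Orientation ℝ E (Fin r) := b.toBasis.orientation
  have h1 : |o.volumeForm x| ≤ ∏ i : Fin r, ‖x i‖ := o.abs_volumeForm_apply_le x
  have h2 : o.volumeForm x = (Matrix.of fun i j => ⟪b i, x j⟫_ℝ).det := by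
    rw [o.volumeForm_robust b rfl, Module.Basis.det_apply]
    congr 1
    ext i j
    rw [Module.Basis.toMatrix_apply, OrthonormalBasis.coe_toBasis_repr_apply,
      OrthonormalBasis.repr_apply_apply]
    rfl
  rwa [h2] at h1

/-- a determinant of inner products is at most the product of the norms -/
theorem abs_det_inner_le {r : ℕ} (x y : Fin r → E) :
    |(Matrix.of fun i j => ⟪x i, y j⟫_ℝ).det| ≤ (∏ i, ‖x i‖) * ∏ i, ‖y i‖ := by
  classical
  by_cases hx : LinearIndependent ℝ x
  · set W : Submodule ℝ E := Submodule.span ℝ (Set.range x) with hW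
    have hr : Module.finrank ℝ W = r := by
      rw [hW, finrank_span_eq_card hx, Fintype.card_fin]
    let b : OrthonormalBasis (Fin r) ℝ W := (stdOrthonormalBasis ℝ W).reindex (finCongr hr)
    let x' : Fin r → W := fun i => ⟨x i, Submodule.subset_span ⟨i, rfl⟩⟩
    let y' : Fin r → W := fun i => W.orthogonalProjectionOnto (y i)
    have h1 : (Matrix.of fun i j => ⟪x i, y j⟫_ℝ) =
        (Matrix.of fun i j => ⟪b i, x' j⟫_ℝ)ᵀ * (Matrix.of fun i j => ⟪b i, y' j⟫_ℝ) := by
      ext i j
      rw [Matrix.mul_apply]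
      show ⟪x i, y j⟫_ℝ = ∑ k, ⟪b k, x' i⟫_ℝ * ⟪b k, y' j⟫_ℝ
      have h2 : ⟪x' i, y' j⟫_ℝ = ⟪x i, y j⟫_ℝ :=
        W.inner_orthogonalProjectionOnto_eq_of_mem_left (x' i) (y j)
      rw [← h2, ← b.sum_inner_mul_inner]
      refine Finset.sum_congr rfl fun k _ => ?_
      rw [real_inner_comm]
    rw [h1, det_mul, det_transpose, abs_mul]
    refine mul_le_mul ((abs_det_basis_le b x').trans (le_of_eq rfl))
      ((abs_det_basis_le b y').trans ?_) (abs_nonneg _)
      (Finset.prod_nonneg fun i _ => norm_nonneg _)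
    exact Finset.prod_le_prod (fun i _ => norm_nonneg _)
      fun i _ => W.norm_orthogonalProjectionOnto_apply_le (y i)
  · have h0 : (Matrix.of fun i j => ⟪x i, y j⟫_ℝ).det = 0 := by
      rw [Fintype.linearIndependent_iff] at hx
      push Not at hx
      obtain ⟨c, hc, i₀, hi₀⟩ := hx
      refine Matrix.exists_vecMul_eq_zero_iff.1 ⟨c, fun h => hi₀ (congrFun h i₀), ?_⟩
      funext j
      show ∑ i, c i * ⟪x i, y j⟫_ℝ = 0
      have h1 : ∑ i, c i * ⟪x i, y j⟫_ℝ = ⟪∑ i, c i • x i, y j⟫_ℝ := by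
        rw [sum_inner]
        exact Finset.sum_congr rfl fun i _ => (real_inner_smul_left _ _ _).symm
      rw [h1, hc, inner_zero_left]
    rw [h0, abs_zero]
    exact mul_nonneg (Finset.prod_nonneg fun i _ => norm_nonneg _)
      (Finset.prod_nonneg fun i _ => norm_nonneg _)

end Gram

/-- a determinant of a product of two rectangular matrices with entries at most one -/
theorem abs_det_mul_le {ι : Type*} [Fintype ι] [DecidableEq ι] {r : ℕ}
    (A : Matrix (Fin r) ι ℤ) (Y : Matrix ι (Fin r) ℤ) (hA : ∀ i k, |A i k| ≤ 1)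
    (hY : ∀ k j, |Y k j| ≤ 1) : |(A * Y).det| ≤ (Fintype.card ι : ℤ) ^ r := by
  classical
  let x : Fin r → EuclideanSpace ℝ ι := fun i => WithLp.toLp 2 (fun k => (A i k : ℝ))
  let y : Fin r → EuclideanSpace ℝ ι := fun j => WithLp.toLp 2 (fun k => (Y k j : ℝ))
  have h1 := abs_det_inner_le x y
  have h2 : (Matrix.of fun i j => inner ℝ (x i) (y j)) =
      (A * Y).map (Int.cast : ℤ → ℝ) := by
    ext i j
    rw [Matrix.map_apply, Matrix.mul_apply, Matrix.of_apply]
    simp only [PiLp.inner_apply, x, y, RCLike.inner_apply, conj_trivial]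
    push_cast
    exact Finset.sum_congr rfl fun k _ => mul_comm _ _
  have h3 : ((A * Y).map (Int.cast : ℤ → ℝ)).det = (((A * Y).det : ℤ) : ℝ) :=
    ((Int.castRingHom ℝ).map_det (A * Y)).symm
  rw [h2, h3] at h1
  have hn : ∀ (f : ι → ℤ), (∀ k, |f k| ≤ 1) →
      ‖(WithLp.toLp 2 (fun k => (f k : ℝ)) : EuclideanSpace ℝ ι)‖ ≤
        Real.sqrt (Fintype.card ι) := by
    intro f hf
    rw [EuclideanSpace.norm_eq]
    refine Real.sqrt_le_sqrt ?_
    refine (Finset.sum_le_sum (g := fun _ => (1 : ℝ)) fun k _ => ?_).trans (by simp)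
    have h4 : |((f k : ℤ) : ℝ)| ≤ 1 := by exact_mod_cast hf k
    have h5 : ‖((f k : ℤ) : ℝ)‖ = |((f k : ℤ) : ℝ)| := rfl
    show ‖((f k : ℤ) : ℝ)‖ ^ 2 ≤ 1
    rw [h5]
    nlinarith [abs_nonneg ((f k : ℤ) : ℝ)]
  have h6 : (∏ i, ‖x i‖) * ∏ i, ‖y i‖ ≤ (Fintype.card ι : ℝ) ^ r := by
    have h7 : ∏ i, ‖x i‖ ≤ Real.sqrt (Fintype.card ι) ^ r := by
      refine (Finset.prod_le_prod (fun i _ => norm_nonneg _) fun i _ => hn (A i) (hA i)).trans ?_
      rw [Finset.prod_const, Finset.card_univ, Fintype.card_fin]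
    have h8 : ∏ i, ‖y i‖ ≤ Real.sqrt (Fintype.card ι) ^ r := by
      refine (Finset.prod_le_prod (fun i _ => norm_nonneg _)
        fun i _ => hn (fun k => Y k i) (fun k => hY k i)).trans ?_
      rw [Finset.prod_const, Finset.card_univ, Fintype.card_fin]
    calc _ ≤ Real.sqrt (Fintype.card ι) ^ r * Real.sqrt (Fintype.card ι) ^ r :=
          mul_le_mul h7 h8 (Finset.prod_nonneg fun i _ => norm_nonneg _) (by positivity)
      _ = (Fintype.card ι : ℝ) ^ r := by
          rw [← mul_pow, Real.mul_self_sqrt (by positivity)]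
  have h9 := h1.trans h6
  exact_mod_cast h9

section Main

variable {ι κ : Type*} [Fintype ι] [Fintype κ] [DecidableEq ι] [DecidableEq κ]

open scoped Classical in
/-- **The minor Littlewood-Offord inequality with excess, constant one.** -/
theorem lo_min1 (Y : Matrix ι κ ℤ) (hY : ∀ i l, |Y i l| ≤ 1) (B : Finset ℕ)
    (hB : ∀ p ∈ B, p.Prime) (e : ℕ → ℕ)
    (he : ∀ p ∈ B, (Y.map (Int.cast : ℤ → ZMod p)).rank + e p ≤
      (Y.map (Int.cast : ℤ → ℚ)).rank) :
    ∃ d ≤ Fintype.card ι, ∏ p ∈ B, p ^ e p ≤ Fintype.card ι ^ d ∧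
      (∀ c : (p : ℕ) → (ι → ZMod p) → ZMod p,
        ((univ : Finset (ι → Bool)).filter (fun x : ι → Bool => ∀ p ∈ B, ∀ u : ι → ZMod p,
          u ᵥ* Y.map (Int.cast : ℤ → ZMod p) = 0 →
            ∑ i, (if x i then u i else 0) = c p u)).card * 2 ^ d ≤ 2 ^ Fintype.card ι) ∧
      (∀ c : (p : ℕ) → (ι → ZMod p) → ZMod p,
        ((univ : Finset ((ι → Bool) × (ι → Bool))).filter
          (fun x : (ι → Bool) × (ι → Bool) => ∀ p ∈ B, ∀ u : ι → ZMod p,
          u ᵥ* Y.map (Int.cast : ℤ → ZMod p) = 0 →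
            ∑ i, (if x.1 i then u i else 0) - ∑ i, (if x.2 i then u i else 0) = c p u)).card
              * 2 ^ d ≤ 4 ^ Fintype.card ι) := by
  classical
  -- the group homomorphism
  let g : ι → ((p : {p // p ∈ B}) → (ι → ZMod p) → ZMod p) := fun i p u =>
    if u ᵥ* Y.map (Int.cast : ℤ → ZMod p) = 0 then u i else 0
  obtain ⟨D, hD, hC⟩ := exists_diss g
  choose C hC1 hC2 hC3 using hC
  have hcount : ∀ c : (p : ℕ) → (ι → ZMod p) → ZMod p,
        ((univ : Finset (ι → Bool)).filter (fun x : ι → Bool => ∀ p ∈ B, ∀ u : ι → ZMod p,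
          u ᵥ* Y.map (Int.cast : ℤ → ZMod p) = 0 →
            ∑ i, (if x i then u i else 0) = c p u)).card * 2 ^ D.card ≤ 2 ^ Fintype.card ι := by
    intro c
    refine le_trans (Nat.mul_le_mul_right _ (Finset.card_le_card ?_)) (card_diss g hD
      (fun p u => if u ᵥ* Y.map (Int.cast : ℤ → ZMod p) = 0 then c p u else 0))
    intro x hx
    rw [Finset.mem_filter] at hx ⊢
    refine ⟨mem_univ _, ?_⟩
    funext p u
    rw [Finset.sum_apply, Finset.sum_apply]
    by_cases hu : u ᵥ* Y.map (Int.cast : ℤ → ZMod p) = 0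
    · rw [if_pos hu, ← hx.2 p p.2 u hu]
      refine Finset.sum_congr rfl fun i _ => ?_
      by_cases hxi : x i <;> simp [hxi, g, hu]
    · rw [if_neg hu]
      refine Finset.sum_eq_zero fun i _ => ?_
      by_cases hxi : x i <;> simp [hxi, g, hu]
  refine ⟨D.card, Finset.card_le_univ D, ?_, hcount, ?_⟩
  · -- the compressed matrix
    let Cm : Matrix ι D ℤ := fun k i => C k i
    let f : D → ι := fun i => i
    have hCk : ∀ p ∈ B, ∀ u : ι → ZMod p, u ᵥ* Y.map (Int.cast : ℤ → ZMod p) = 0 →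
        Cm.map (Int.cast : ℤ → ZMod p) *ᵥ (u ∘ f) = u := by
      intro p hp u hu
      funext k
      have h1 := congrFun (congrFun (hC3 k) ⟨p, hp⟩) u
      rw [Finset.sum_apply, Finset.sum_apply] at h1
      have h2 : g k ⟨p, hp⟩ u = u k := if_pos hu
      rw [h2] at h1
      rw [h1, ← Finset.sum_coe_sort D (fun i => (C k i • g i) ⟨p, hp⟩ u)]
      refine Finset.sum_congr rfl fun i _ => ?_
      show ((C k i : ℤ) : ZMod p) * u i = (C k i • g i ⟨p, hp⟩ u)
      rw [show g i ⟨p, hp⟩ u = u i from if_pos hu, zsmul_eq_mul]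
    have hI : ∀ v : D → ℚ, (Cm.map (Int.cast : ℤ → ℚ) *ᵥ v) ∘ f = v := by
      intro v
      funext k
      show ∑ i : D, ((C k i : ℤ) : ℚ) * v i = v k
      rw [Finset.sum_eq_single k]
      · rw [hC2 k k k.2 k.2]; simp
      · intro i _ hik
        rw [hC2 k i i.2 k.2, if_neg (fun h => hik (Subtype.ext h))]
        simp
      · intro h; exact absurd (mem_univ _) h
    let M : Matrix D κ ℤ := Cmᵀ * Y
    have hMp : ∀ p ∈ B, (M.map (Int.cast : ℤ → ZMod p)).rank + e p ≤
        (M.map (Int.cast : ℤ → ℚ)).rank := by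
      intro p hp
      have := Fact.mk (hB p hp)
      have h1 := rank_compress_le (Cm.map (Int.cast : ℤ → ZMod p))
        (Y.map (Int.cast : ℤ → ZMod p)) f (hCk p hp)
      have h2 := le_rank_compress (Cm.map (Int.cast : ℤ → ℚ)) (Y.map (Int.cast : ℤ → ℚ)) f hI
      rw [← map_cast_mul] at h1 h2
      have h3 := he p hp
      have h4 : (M.map (Int.cast : ℤ → ZMod p)).rank =
        ((Cmᵀ * Y).map (Int.cast : ℤ → ZMod p)).rank := rfl
      have h5 : (M.map (Int.cast : ℤ → ℚ)).rank =
        ((Cmᵀ * Y).map (Int.cast : ℤ → ℚ)).rank := rfl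
      omega
    obtain ⟨r, a, b, hr, hdet⟩ := exists_minor (M.map (Int.cast : ℤ → ℚ))
    have hdet' : (M.submatrix a b).det ≠ 0 := by
      intro h0
      apply hdet
      have h1 := (Int.castRingHom ℚ).map_det (M.submatrix a b)
      rw [h0, map_zero] at h1
      exact h1.symm
    have hrD : r ≤ D.card := by
      have := Matrix.rank_le_card_height (M.map (Int.cast : ℤ → ℚ))
      rwa [Fintype.card_coe, ← hr] at this
    have hdvd : ((∏ p ∈ B, p ^ e p : ℕ) : ℤ) ∣ (M.submatrix a b).det := by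
      rw [Nat.cast_prod]
      refine Finset.prod_dvd_of_coprime ?_ ?_
      · intro p hp q hq hpq
        show IsCoprime ((p ^ e p : ℕ) : ℤ) ((q ^ e q : ℕ) : ℤ)
        rw [Nat.isCoprime_iff_coprime]
        exact Nat.Coprime.pow _ _ ((Nat.coprime_primes (hB p hp) (hB q hq)).2 hpq)
      · intro p hp
        have h1 := pow_dvd_det (hB p hp) (M.submatrix a b)
        rw [Nat.cast_pow]
        refine (pow_dvd_pow _ ?_).trans h1
        rw [Fintype.card_fin]
        have h2 : ((M.submatrix a b).map (Int.cast : ℤ → ZMod p)).rank ≤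
            (M.map (Int.cast : ℤ → ZMod p)).rank := by
          have := Fact.mk (hB p hp)
          exact rank_submatrix_le (M.map (Int.cast : ℤ → ZMod p)) a b
        have h3 := hMp p hp
        omega
    have hle : ((∏ p ∈ B, p ^ e p : ℕ) : ℤ) ≤ |(M.submatrix a b).det| :=
      Int.le_of_dvd (abs_pos.2 hdet') ((dvd_abs _ _).2 hdvd)
    have hsub : M.submatrix a b = (Matrix.of fun i k => C k (a i)) *
        (Matrix.of fun k j => Y k (b j)) := rfl
    have hhad := abs_det_mul_le (Matrix.of fun i k => C k (a i))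
      (Matrix.of fun k j => Y k (b j)) (fun i k => hC1 k _) (fun k j => hY k _)
    rw [← hsub] at hhad
    have hfin : Fintype.card ι ^ r ≤ Fintype.card ι ^ D.card := by
      rcases Nat.eq_zero_or_pos (Fintype.card ι) with h0 | hpos
      · have hr0 : r = 0 := by
          have := Finset.card_le_univ D
          omega
        have hD0 : D.card = 0 := by
          have := Finset.card_le_univ D
          omega
        rw [hr0, hD0]
      · exact Nat.pow_le_pow_right hpos hrD
    have hall := hle.trans hhad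
    have hall' : ∏ p ∈ B, p ^ e p ≤ Fintype.card ι ^ r := by exact_mod_cast hall
    exact hall'.trans hfin
  · intro c
    have h1 : ((univ : Finset ((ι → Bool) × (ι → Bool))).filter (fun x => ∀ p ∈ B,
          ∀ u : ι → ZMod p, u ᵥ* Y.map (Int.cast : ℤ → ZMod p) = 0 →
            ∑ i, (if x.1 i then u i else 0) - ∑ i, (if x.2 i then u i else 0) = c p u)).card ≤
        ∑ y : ι → Bool, ((univ : Finset (ι → Bool)).filter (fun x => ∀ p ∈ B,
          ∀ u : ι → ZMod p, u ᵥ* Y.map (Int.cast : ℤ → ZMod p) = 0 →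
            ∑ i, (if x i then u i else 0) = c p u + ∑ i, (if y i then u i else 0))).card := by
      rw [← Finset.card_sigma]
      refine Finset.card_le_card_of_injOn (fun x => ⟨x.2, x.1⟩) ?_ ?_
      · intro x hx
        have hx := (Finset.mem_filter.1 hx).2
        simp only [Finset.coe_sigma, Set.mem_sigma_iff, Finset.coe_univ, Set.mem_univ, true_and,
          Finset.coe_filter, Set.mem_ofPred_eq, Finset.mem_univ]
        intro p hp u hu
        rw [← hx p hp u hu]
        ring
      · intro x _ y _ hxy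
        have := Sigma.mk.inj hxy
        exact Prod.ext (eq_of_heq this.2) this.1
    calc _ ≤ (∑ y : ι → Bool, ((univ : Finset (ι → Bool)).filter (fun x => ∀ p ∈ B,
          ∀ u : ι → ZMod p, u ᵥ* Y.map (Int.cast : ℤ → ZMod p) = 0 →
            ∑ i, (if x i then u i else 0) = c p u + ∑ i, (if y i then u i else 0))).card) *
              2 ^ D.card := Nat.mul_le_mul_right _ h1
      _ = ∑ y : ι → Bool, ((univ : Finset (ι → Bool)).filter (fun x => ∀ p ∈ B,
          ∀ u : ι → ZMod p, u ᵥ* Y.map (Int.cast : ℤ → ZMod p) = 0 →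
            ∑ i, (if x i then u i else 0) = c p u + ∑ i, (if y i then u i else 0))).card *
              2 ^ D.card := Finset.sum_mul _ _ _
      _ ≤ ∑ _y : ι → Bool, 2 ^ Fintype.card ι := Finset.sum_le_sum fun y _ =>
          hcount (fun p u => c p u + ∑ i, (if y i then u i else 0))
      _ = 4 ^ Fintype.card ι := by
          rw [Finset.sum_const, Finset.card_univ, Fintype.card_fun, Fintype.card_bool, smul_eq_mul,
            ← pow_add, ← two_mul, pow_mul]
          norm_num

end Main

end Vale.Agent.P160.Half.LOMin
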