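import Vale.Agent.P160.Half.CauchyBinet

/-!
# P160: the minor Littlewood-Offord inequality with excess, exponent one

As `LOMin.lo_min`, with the bound `∏ p ^ e_p ≤ (3 a) ^ d` (Cauchy-Binet instead of the trivial
bound of the entries), so `P ≤ 2 ^ (-d)` with `d ≥ (∑ e_p log p) / log (3 a)`.
-/

set_option linter.unusedSectionVars false

namespace Vale.Agent.P160.Half.LOMin1

open Finset Matrix Vale.Agent.P160.Half.LOMin

section Main

variable {ι κ : Type*} [Fintype ι] [Fintype κ] [DecidableEq ι] [DecidableEq κ]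

open scoped Classical in
/-- **The minor Littlewood-Offord inequality with excess, exponent one.** -/
theorem lo_min1 (Y : Matrix ι κ ℤ) (hY : ∀ i l, |Y i l| ≤ 1) (B : Finset ℕ)
    (hB : ∀ p ∈ B, p.Prime) (e : ℕ → ℕ)
    (he : ∀ p ∈ B, (Y.map (Int.cast : ℤ → ZMod p)).rank + e p ≤
      (Y.map (Int.cast : ℤ → ℚ)).rank) :
    ∃ d ≤ Fintype.card ι, (∏ p ∈ B, p ^ e p) ≤ (3 * Fintype.card ι) ^ d ∧
      (∀ c : (p : ℕ) → (ι → ZMod p) → ZMod p,
        ((univ : Finset (ι → Bool)).filter (fun x : ι → Bool => ∀ p ∈ B, ∀ u : ι → ZMod p,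
          u ᵥ* Y.map (Int.cast : ℤ → ZMod p) = 0 →
            ∑ i, (if x i then u i else 0) = c p u)).card * 2 ^ d ≤ 2 ^ Fintype.card ι) ∧
      (∀ c : (p : ℕ) → (ι → ZMod p) → ZMod p,
        ((univ : Finset ((ι → Bool) × (ι → Bool))).filter
          (fun x : (ι → Bool) × (ι → Bool) => ∀ p ∈ B, ∀ u : ι → ZMod p,
          u ᵥ* Y.map (Int.cast : ℤ → ZMod p) = 0 →
            ∑ i, (if x.1 i then u i else 0) - ∑ i, (if x.2 i then u i else 0) = c p u)).card
              * 2 ^ d ≤ 4 ^ Fintype.card ι) := by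
  classical
  -- the group homomorphism
  let g : ι → ((p : {p // p ∈ B}) → (ι → ZMod p) → ZMod p) := fun i p u =>
    if u ᵥ* Y.map (Int.cast : ℤ → ZMod p) = 0 then u i else 0
  obtain ⟨D, hD, hC⟩ := exists_diss g
  choose C hC1 hC2 hC3 using hC
  have hcount : ∀ c : (p : ℕ) → (ι → ZMod p) → ZMod p,
        ((univ : Finset (ι → Bool)).filter (fun x : ι → Bool => ∀ p ∈ B, ∀ u : ι → ZMod p,
          u ᵥ* Y.map (Int.cast : ℤ → ZMod p) = 0 →
            ∑ i, (if x i then u i else 0) = c p u)).card * 2 ^ D.card ≤ 2 ^ Fintype.card ι := by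
    intro c
    refine le_trans (Nat.mul_le_mul_right _ (Finset.card_le_card ?_)) (card_diss g hD
      (fun p u => if u ᵥ* Y.map (Int.cast : ℤ → ZMod p) = 0 then c p u else 0))
    intro x hx
    rw [Finset.mem_filter] at hx ⊢
    refine ⟨mem_univ _, ?_⟩
    funext p u
    rw [Finset.sum_apply, Finset.sum_apply]
    by_cases hu : u ᵥ* Y.map (Int.cast : ℤ → ZMod p) = 0
    · rw [if_pos hu, ← hx.2 p p.2 u hu]
      refine Finset.sum_congr rfl fun i _ => ?_
      by_cases hxi : x i <;> simp [hxi, g, hu]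
    · rw [if_neg hu]
      refine Finset.sum_eq_zero fun i _ => ?_
      by_cases hxi : x i <;> simp [hxi, g, hu]
  refine ⟨D.card, Finset.card_le_univ D, ?_, hcount, ?_⟩
  · -- the compressed matrix
    let Cm : Matrix ι D ℤ := fun k i => C k i
    let f : D → ι := fun i => i
    have hCk : ∀ p ∈ B, ∀ u : ι → ZMod p, u ᵥ* Y.map (Int.cast : ℤ → ZMod p) = 0 →
        Cm.map (Int.cast : ℤ → ZMod p) *ᵥ (u ∘ f) = u := by
      intro p hp u hu
      funext k
      have h1 := congrFun (congrFun (hC3 k) ⟨p, hp⟩) u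
      rw [Finset.sum_apply, Finset.sum_apply] at h1
      have h2 : g k ⟨p, hp⟩ u = u k := if_pos hu
      rw [h2] at h1
      rw [h1, ← Finset.sum_coe_sort D (fun i => (C k i • g i) ⟨p, hp⟩ u)]
      refine Finset.sum_congr rfl fun i _ => ?_
      show ((C k i : ℤ) : ZMod p) * u i = (C k i • g i ⟨p, hp⟩ u)
      rw [show g i ⟨p, hp⟩ u = u i from if_pos hu, zsmul_eq_mul]
    have hI : ∀ v : D → ℚ, (Cm.map (Int.cast : ℤ → ℚ) *ᵥ v) ∘ f = v := by
      intro v
      funext k
      show ∑ i : D, ((C k i : ℤ) : ℚ) * v i = v k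
      rw [Finset.sum_eq_single k]
      · rw [hC2 k k k.2 k.2]; simp
      · intro i _ hik
        rw [hC2 k i i.2 k.2, if_neg (fun h => hik (Subtype.ext h))]
        simp
      · intro h; exact absurd (mem_univ _) h
    let M : Matrix D κ ℤ := Cmᵀ * Y
    have hMp : ∀ p ∈ B, (M.map (Int.cast : ℤ → ZMod p)).rank + e p ≤
        (M.map (Int.cast : ℤ → ℚ)).rank := by
      intro p hp
      have := Fact.mk (hB p hp)
      have h1 := rank_compress_le (Cm.map (Int.cast : ℤ → ZMod p))
        (Y.map (Int.cast : ℤ → ZMod p)) f (hCk p hp)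
      have h2 := le_rank_compress (Cm.map (Int.cast : ℤ → ℚ)) (Y.map (Int.cast : ℤ → ℚ)) f hI
      rw [← map_cast_mul] at h1 h2
      have h3 := he p hp
      have h4 : (M.map (Int.cast : ℤ → ZMod p)).rank =
        ((Cmᵀ * Y).map (Int.cast : ℤ → ZMod p)).rank := rfl
      have h5 : (M.map (Int.cast : ℤ → ℚ)).rank =
        ((Cmᵀ * Y).map (Int.cast : ℤ → ℚ)).rank := rfl
      omega
    obtain ⟨r, a, b, hr, hdet⟩ := exists_minor (M.map (Int.cast : ℤ → ℚ))
    have hdet' : (M.submatrix a b).det ≠ 0 := by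
      intro h0
      apply hdet
      have h1 := (Int.castRingHom ℚ).map_det (M.submatrix a b)
      rw [h0, map_zero] at h1
      exact h1.symm
    have hrD : r ≤ D.card := by
      have := Matrix.rank_le_card_height (M.map (Int.cast : ℤ → ℚ))
      rwa [Fintype.card_coe, ← hr] at this
    have hdvd : ((∏ p ∈ B, p ^ e p : ℕ) : ℤ) ∣ (M.submatrix a b).det := by
      rw [Nat.cast_prod]
      refine Finset.prod_dvd_of_coprime ?_ ?_
      · intro p hp q hq hpq
        show IsCoprime ((p ^ e p : ℕ) : ℤ) ((q ^ e q : ℕ) : ℤ)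
        rw [Nat.isCoprime_iff_coprime]
        exact Nat.Coprime.pow _ _ ((Nat.coprime_primes (hB p hp) (hB q hq)).2 hpq)
      · intro p hp
        have h1 := pow_dvd_det (hB p hp) (M.submatrix a b)
        rw [Nat.cast_pow]
        refine (pow_dvd_pow _ ?_).trans h1
        rw [Fintype.card_fin]
        have h2 : ((M.submatrix a b).map (Int.cast : ℤ → ZMod p)).rank ≤
            (M.map (Int.cast : ℤ → ZMod p)).rank := by
          have := Fact.mk (hB p hp)
          exact rank_submatrix_le (M.map (Int.cast : ℤ → ZMod p)) a b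
        have h3 := hMp p hp
        omega
    have hle : ((∏ p ∈ B, p ^ e p : ℕ) : ℤ) ≤ |(M.submatrix a b).det| :=
      Int.le_of_dvd (abs_pos.2 hdet') ((dvd_abs _ _).2 hdvd)
    have hprod : M.submatrix a b = (Cmᵀ.submatrix a id) * (Y.submatrix id b) := by
      ext i j
      rfl
    have hcb := abs_det_mul_le (Cmᵀ.submatrix a id) (Y.submatrix id b)
      (fun i j => hC1 j _) (fun i j => hY i _)
    rw [← hprod] at hcb
    have hfin : (Fintype.card ι).choose r * r ^ r ≤ (3 * Fintype.card ι) ^ D.card := by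
      rcases Nat.eq_zero_or_pos (Fintype.card ι) with h0 | hpos
      · have hD0 : D.card = 0 := by
          have := Finset.card_le_univ D
          omega
        have hr0 : r = 0 := by omega
        rw [hr0, hD0]
        simp
      · exact (choose_mul_pow_le _ r).trans (Nat.pow_le_pow_right (by omega) hrD)
    have hall := hle.trans hcb
    have hall' : (∏ p ∈ B, p ^ e p) ≤ (Fintype.card ι).choose r * r ^ r := by exact_mod_cast hall
    exact hall'.trans hfin
  · intro c
    have h1 : ((univ : Finset ((ι → Bool) × (ι → Bool))).filter (fun x => ∀ p ∈ B,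
          ∀ u : ι → ZMod p, u ᵥ* Y.map (Int.cast : ℤ → ZMod p) = 0 →
            ∑ i, (if x.1 i then u i else 0) - ∑ i, (if x.2 i then u i else 0) = c p u)).card ≤
        ∑ y : ι → Bool, ((univ : Finset (ι → Bool)).filter (fun x => ∀ p ∈ B,
          ∀ u : ι → ZMod p, u ᵥ* Y.map (Int.cast : ℤ → ZMod p) = 0 →
            ∑ i, (if x i then u i else 0) = c p u + ∑ i, (if y i then u i else 0))).card := by
      rw [← Finset.card_sigma]
      refine Finset.card_le_card_of_injOn (fun x => ⟨x.2, x.1⟩) ?_ ?_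
      · intro x hx
        have hx := (Finset.mem_filter.1 hx).2
        simp only [Finset.coe_sigma, Set.mem_sigma_iff, Finset.coe_univ, Set.mem_univ, true_and,
          Finset.coe_filter, Set.mem_ofPred_eq, Finset.mem_univ]
        intro p hp u hu
        rw [← hx p hp u hu]
        ring
      · intro x _ y _ hxy
        have := Sigma.mk.inj hxy
        exact Prod.ext (eq_of_heq this.2) this.1
    calc _ ≤ (∑ y : ι → Bool, ((univ : Finset (ι → Bool)).filter (fun x => ∀ p ∈ B,
          ∀ u : ι → ZMod p, u ᵥ* Y.map (Int.cast : ℤ → ZMod p) = 0 →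
            ∑ i, (if x i then u i else 0) = c p u + ∑ i, (if y i then u i else 0))).card) *
              2 ^ D.card := Nat.mul_le_mul_right _ h1
      _ = ∑ y : ι → Bool, ((univ : Finset (ι → Bool)).filter (fun x => ∀ p ∈ B,
          ∀ u : ι → ZMod p, u ᵥ* Y.map (Int.cast : ℤ → ZMod p) = 0 →
            ∑ i, (if x i then u i else 0) = c p u + ∑ i, (if y i then u i else 0))).card *
              2 ^ D.card := Finset.sum_mul _ _ _
      _ ≤ ∑ _y : ι → Bool, 2 ^ Fintype.card ι := Finset.sum_le_sum fun y _ =>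
          hcount (fun p u => c p u + ∑ i, (if y i then u i else 0))
      _ = 4 ^ Fintype.card ι := by
          rw [Finset.sum_const, Finset.card_univ, Fintype.card_fun, Fintype.card_bool, smul_eq_mul,
            ← pow_add, ← two_mul, pow_mul]
          norm_num

end Main

end Vale.Agent.P160.Half.LOMin1
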