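import Mathlib
import Vale.Agent.P160.Half.LOMin

/-!
# P160: the minor Littlewood-Offord inequality with excess, with exponent one

Same as `LOMin.lo_min`, with `∏_{p ∈ B} p ^ e_p ≤ a ^ d` (so `d ≥ log (∏ p ^ e_p) / log a`).
The minor bound is `|det ⟨x_i, y_j⟩| ≤ ∏ ‖x_i‖ ∏ ‖y_j‖`.
-/

set_option linter.unusedSectionVars false

namespace Vale.Agent.P160.Half.LOMinOne

open Finset Matrix Vale.Agent.P160.Half.LOMin

section Had

/-- Hadamard's inequality in an orthonormal basis -/
theorem had {E : Type*} [NormedAddCommGroup E] [InnerProductSpace ℝ E] {s : ℕ}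
    (b : OrthonormalBasis (Fin s) ℝ E) (v : Fin s → E) :
    |(Matrix.of fun i k => b.repr (v i) k).det| ≤ ∏ i, ‖v i‖ := by
  have hfin : Module.finrank ℝ E = s := by
    rw [Module.finrank_eq_card_basis b.toBasis, Fintype.card_fin]
  have : Fact (Module.finrank ℝ E = s) := ⟨hfin⟩
  let o : Orientation ℝ E (Fin s) := b.toBasis.orientation
  have h1 : |o.volumeForm v| ≤ ∏ i : Fin s, ‖v i‖ := o.abs_volumeForm_apply_le v
  have h2 : o.volumeForm v = (Matrix.of fun i k => b.repr (v i) k).det := by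
    rw [o.volumeForm_robust b rfl, Module.Basis.det_apply, ← det_transpose]
    rfl
  rwa [h2] at h1

/-- the two-sided Hadamard inequality -/
theorem had_two {E : Type*} [NormedAddCommGroup E] [InnerProductSpace ℝ E] [FiniteDimensional ℝ E]
    {s : ℕ} (A B : Fin s → E) :
    |(Matrix.of fun i j => (inner ℝ (A i) (B j) : ℝ)).det| ≤ (∏ i, ‖A i‖) * ∏ j, ‖B j‖ := by
  classical
  by_cases hli : LinearIndependent ℝ A
  · let W : Submodule ℝ E := Submodule.span ℝ (Set.range A)
    have hW : Module.finrank ℝ W = s := by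
      rw [finrank_span_eq_card hli, Fintype.card_fin]
    let b : OrthonormalBasis (Fin s) ℝ W := (stdOrthonormalBasis ℝ W).reindex (finCongr hW)
    let v : Fin s → W := fun i => ⟨A i, Submodule.subset_span ⟨i, rfl⟩⟩
    let w : Fin s → W := fun j => W.orthogonalProjectionOnto (B j)
    have hm : (Matrix.of fun i j => (inner ℝ (A i) (B j) : ℝ)) =
        (Matrix.of fun i k => b.repr (v i) k) * (Matrix.of fun j k => b.repr (w j) k)ᵀ := by
      ext i j
      rw [Matrix.mul_apply]
      have h1 : (inner ℝ (A i) (B j) : ℝ) = inner ℝ (v i) (w j) := by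
        have := Submodule.inner_orthogonalProjectionOnto_eq_of_mem_left (v i) (B j)
        exact this.symm
      have h2 : (inner ℝ (v i) (w j) : ℝ) = ∑ k, b.repr (v i) k * b.repr (w j) k := by
        rw [← b.sum_inner_mul_inner (v i) (w j)]
        refine Finset.sum_congr rfl fun k _ => ?_
        rw [b.repr_apply_apply, b.repr_apply_apply, real_inner_comm]
      show (inner ℝ (A i) (B j) : ℝ) = _
      rw [h1, h2]
      rfl
    rw [hm, det_mul, det_transpose, abs_mul]
    have h3 := had b v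
    have h4 := had b w
    have h5 : ∏ j, ‖w j‖ ≤ ∏ j, ‖B j‖ :=
      Finset.prod_le_prod (fun j _ => norm_nonneg _) fun j _ => W.norm_orthogonalProjectionOnto_apply_le (B j)
    have h6 : ∏ i, ‖v i‖ = ∏ i, ‖A i‖ := rfl
    rw [← h6]
    exact mul_le_mul h3 (h4.trans h5) (abs_nonneg _) (Finset.prod_nonneg fun _ _ => norm_nonneg _)
  · have h0 : (Matrix.of fun i j => (inner ℝ (A i) (B j) : ℝ)).det = 0 := by
      rw [Fintype.linearIndependent_iff] at hli
      push Not at hli
      obtain ⟨g, hg, i, hi⟩ := hli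
      rw [← Matrix.exists_vecMul_eq_zero_iff]
      refine ⟨g, fun h => hi (by rw [h]; rfl), ?_⟩
      funext j
      show ∑ i, g i * (inner ℝ (A i) (B j) : ℝ) = 0
      have h1 : ∑ i, g i * (inner ℝ (A i) (B j) : ℝ) = inner ℝ (∑ i, g i • A i) (B j) := by
        rw [sum_inner]
        refine Finset.sum_congr rfl fun i _ => ?_
        rw [real_inner_smul_left]
      rw [h1, hg, inner_zero_left]
    rw [h0, abs_zero]
    exact mul_nonneg (Finset.prod_nonneg fun _ _ => norm_nonneg _)
      (Finset.prod_nonneg fun _ _ => norm_nonneg _)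

end Had

section Minor

variable {ι κ α : Type*} [Fintype ι] [DecidableEq ι]

/-- the minors of `Cᵀ Y`, when the entries of `C` and `Y` are in `[-1, 1]` -/
theorem minor_le (C : Matrix ι α ℤ) (Y : Matrix ι κ ℤ) (hC : ∀ i l, |C i l| ≤ 1)
    (hY : ∀ i l, |Y i l| ≤ 1) {r : ℕ} (a : Fin r → α) (b : Fin r → κ) :
    |((Cᵀ * Y).submatrix a b).det| ≤ (Fintype.card ι : ℤ) ^ r := by
  let A : Fin r → EuclideanSpace ℝ ι := fun i => WithLp.toLp 2 fun k => (C k (a i) : ℝ)
  let B : Fin r → EuclideanSpace ℝ ι := fun j => WithLp.toLp 2 fun k => (Y k (b j) : ℝ)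
  have h1 := had_two A B
  have h2 : (Matrix.of fun i j => (inner ℝ (A i) (B j) : ℝ)) =
      ((Cᵀ * Y).submatrix a b).map (Int.cast : ℤ → ℝ) := by
    ext i j
    rw [Matrix.map_apply, Matrix.submatrix_apply, Matrix.mul_apply]
    show (inner ℝ (A i) (B j) : ℝ) = _
    rw [PiLp.inner_apply]
    push_cast
    refine Finset.sum_congr rfl fun k _ => ?_
    show ((Y k (b j) : ℝ)) * ((C k (a i) : ℝ)) = _
    rw [mul_comm]
    rfl
  have h3 : (((Cᵀ * Y).submatrix a b).map (Int.cast : ℤ → ℝ)).det =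
      ((((Cᵀ * Y).submatrix a b).det : ℤ) : ℝ) :=
    ((Int.castRingHom ℝ).map_det ((Cᵀ * Y).submatrix a b)).symm
  rw [h2, h3] at h1
  have hn : ∀ (x : ι → ℤ), (∀ k, |x k| ≤ 1) →
      ‖(WithLp.toLp 2 fun k => (x k : ℝ) : EuclideanSpace ℝ ι)‖ ≤ Real.sqrt (Fintype.card ι) := by
    intro x hx
    rw [EuclideanSpace.norm_eq]
    apply Real.sqrt_le_sqrt
    refine (Finset.sum_le_sum (g := fun _ => (1 : ℝ)) fun k _ => ?_).trans (by simp)
    have h4 : ‖((WithLp.toLp 2 fun k => (x k : ℝ) : EuclideanSpace ℝ ι)) k‖ = ((|x k| : ℤ) : ℝ) := by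
      simp
    rw [h4]
    have h5 : ((|x k| : ℤ) : ℝ) ≤ 1 := by exact_mod_cast hx k
    have h6 : (0 : ℝ) ≤ ((|x k| : ℤ) : ℝ) := by exact_mod_cast abs_nonneg (x k)
    nlinarith
  have h7 : ∏ i, ‖A i‖ ≤ Real.sqrt (Fintype.card ι) ^ r := by
    refine (Finset.prod_le_prod (fun _ _ => norm_nonneg _)
      (fun i _ => hn (fun k => C k (a i)) fun k => hC k _)).trans ?_
    rw [Finset.prod_const, Finset.card_univ, Fintype.card_fin]
  have h8 : ∏ i, ‖B i‖ ≤ Real.sqrt (Fintype.card ι) ^ r := by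
    refine (Finset.prod_le_prod (fun _ _ => norm_nonneg _)
      (fun i _ => hn (fun k => Y k (b i)) fun k => hY k _)).trans ?_
    rw [Finset.prod_const, Finset.card_univ, Fintype.card_fin]
  have h9 : (∏ i, ‖A i‖) * ∏ i, ‖B i‖ ≤ (Fintype.card ι : ℝ) ^ r := by
    refine (mul_le_mul h7 h8 (Finset.prod_nonneg fun _ _ => norm_nonneg _) (by positivity)).trans ?_
    rw [← mul_pow, Real.mul_self_sqrt (Nat.cast_nonneg _)]
  have h10 := h1.trans h9
  exact_mod_cast h10

end Minor

section Main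

variable {ι κ : Type*} [Fintype ι] [Fintype κ] [DecidableEq ι] [DecidableEq κ]

open scoped Classical in
/-- **The minor Littlewood-Offord inequality with excess, exponent one.** -/
theorem lo_min_one (Y : Matrix ι κ ℤ) (hY : ∀ i l, |Y i l| ≤ 1) (B : Finset ℕ)
    (hB : ∀ p ∈ B, p.Prime) (e : ℕ → ℕ)
    (he : ∀ p ∈ B, (Y.map (Int.cast : ℤ → ZMod p)).rank + e p ≤
      (Y.map (Int.cast : ℤ → ℚ)).rank) :
    ∃ d ≤ Fintype.card ι, (∏ p ∈ B, p ^ e p) ≤ Fintype.card ι ^ d ∧
      (∀ c : (p : ℕ) → (ι → ZMod p) → ZMod p,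
        ((univ : Finset (ι → Bool)).filter (fun x : ι → Bool => ∀ p ∈ B, ∀ u : ι → ZMod p,
          u ᵥ* Y.map (Int.cast : ℤ → ZMod p) = 0 →
            ∑ i, (if x i then u i else 0) = c p u)).card * 2 ^ d ≤ 2 ^ Fintype.card ι) ∧
      (∀ c : (p : ℕ) → (ι → ZMod p) → ZMod p,
        ((univ : Finset ((ι → Bool) × (ι → Bool))).filter
          (fun x : (ι → Bool) × (ι → Bool) => ∀ p ∈ B, ∀ u : ι → ZMod p,
          u ᵥ* Y.map (Int.cast : ℤ → ZMod p) = 0 →
            ∑ i, (if x.1 i then u i else 0) - ∑ i, (if x.2 i then u i else 0) = c p u)).card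
              * 2 ^ d ≤ 4 ^ Fintype.card ι) := by
  classical
  -- the group homomorphism
  let g : ι → ((p : {p // p ∈ B}) → (ι → ZMod p) → ZMod p) := fun i p u =>
    if u ᵥ* Y.map (Int.cast : ℤ → ZMod p) = 0 then u i else 0
  obtain ⟨D, hD, hC⟩ := exists_diss g
  choose C hC1 hC2 hC3 using hC
  have hcount : ∀ c : (p : ℕ) → (ι → ZMod p) → ZMod p,
        ((univ : Finset (ι → Bool)).filter (fun x : ι → Bool => ∀ p ∈ B, ∀ u : ι → ZMod p,
          u ᵥ* Y.map (Int.cast : ℤ → ZMod p) = 0 →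
            ∑ i, (if x i then u i else 0) = c p u)).card * 2 ^ D.card ≤ 2 ^ Fintype.card ι := by
    intro c
    refine le_trans (Nat.mul_le_mul_right _ (Finset.card_le_card ?_)) (card_diss g hD
      (fun p u => if u ᵥ* Y.map (Int.cast : ℤ → ZMod p) = 0 then c p u else 0))
    intro x hx
    rw [Finset.mem_filter] at hx ⊢
    refine ⟨mem_univ _, ?_⟩
    funext p u
    rw [Finset.sum_apply, Finset.sum_apply]
    by_cases hu : u ᵥ* Y.map (Int.cast : ℤ → ZMod p) = 0
    · rw [if_pos hu, ← hx.2 p p.2 u hu]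
      refine Finset.sum_congr rfl fun i _ => ?_
      by_cases hxi : x i <;> simp [hxi, g, hu]
    · rw [if_neg hu]
      refine Finset.sum_eq_zero fun i _ => ?_
      by_cases hxi : x i <;> simp [hxi, g, hu]
  refine ⟨D.card, Finset.card_le_univ D, ?_, hcount, ?_⟩
  · -- the compressed matrix
    let Cm : Matrix ι D ℤ := fun k i => C k i
    let f : D → ι := fun i => i
    have hCk : ∀ p ∈ B, ∀ u : ι → ZMod p, u ᵥ* Y.map (Int.cast : ℤ → ZMod p) = 0 →
        Cm.map (Int.cast : ℤ → ZMod p) *ᵥ (u ∘ f) = u := by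
      intro p hp u hu
      funext k
      have h1 := congrFun (congrFun (hC3 k) ⟨p, hp⟩) u
      rw [Finset.sum_apply, Finset.sum_apply] at h1
      have h2 : g k ⟨p, hp⟩ u = u k := if_pos hu
      rw [h2] at h1
      rw [h1, ← Finset.sum_coe_sort D (fun i => (C k i • g i) ⟨p, hp⟩ u)]
      refine Finset.sum_congr rfl fun i _ => ?_
      show ((C k i : ℤ) : ZMod p) * u i = (C k i • g i ⟨p, hp⟩ u)
      rw [show g i ⟨p, hp⟩ u = u i from if_pos hu, zsmul_eq_mul]
    have hI : ∀ v : D → ℚ, (Cm.map (Int.cast : ℤ → ℚ) *ᵥ v) ∘ f = v := by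
      intro v
      funext k
      show ∑ i : D, ((C k i : ℤ) : ℚ) * v i = v k
      rw [Finset.sum_eq_single k]
      · rw [hC2 k k k.2 k.2]; simp
      · intro i _ hik
        rw [hC2 k i i.2 k.2, if_neg (fun h => hik (Subtype.ext h))]
        simp
      · intro h; exact absurd (mem_univ _) h
    let M : Matrix D κ ℤ := Cmᵀ * Y
    have hMp : ∀ p ∈ B, (M.map (Int.cast : ℤ → ZMod p)).rank + e p ≤
        (M.map (Int.cast : ℤ → ℚ)).rank := by
      intro p hp
      have := Fact.mk (hB p hp)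
      have h1 := rank_compress_le (Cm.map (Int.cast : ℤ → ZMod p))
        (Y.map (Int.cast : ℤ → ZMod p)) f (hCk p hp)
      have h2 := le_rank_compress (Cm.map (Int.cast : ℤ → ℚ)) (Y.map (Int.cast : ℤ → ℚ)) f hI
      rw [← map_cast_mul] at h1 h2
      have h3 := he p hp
      have h4 : (M.map (Int.cast : ℤ → ZMod p)).rank =
        ((Cmᵀ * Y).map (Int.cast : ℤ → ZMod p)).rank := rfl
      have h5 : (M.map (Int.cast : ℤ → ℚ)).rank =
        ((Cmᵀ * Y).map (Int.cast : ℤ → ℚ)).rank := rfl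
      omega
    obtain ⟨r, a, b, hr, hdet⟩ := exists_minor (M.map (Int.cast : ℤ → ℚ))
    have hdet' : (M.submatrix a b).det ≠ 0 := by
      intro h0
      apply hdet
      have h1 := (Int.castRingHom ℚ).map_det (M.submatrix a b)
      rw [h0, map_zero] at h1
      exact h1.symm
    have hrD : r ≤ D.card := by
      have := Matrix.rank_le_card_height (M.map (Int.cast : ℤ → ℚ))
      rwa [Fintype.card_coe, ← hr] at this
    have hdvd : ((∏ p ∈ B, p ^ e p : ℕ) : ℤ) ∣ (M.submatrix a b).det := by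
      rw [Nat.cast_prod]
      refine Finset.prod_dvd_of_coprime ?_ ?_
      · intro p hp q hq hpq
        show IsCoprime ((p ^ e p : ℕ) : ℤ) ((q ^ e q : ℕ) : ℤ)
        rw [Nat.isCoprime_iff_coprime]
        exact Nat.Coprime.pow _ _ ((Nat.coprime_primes (hB p hp) (hB q hq)).2 hpq)
      · intro p hp
        have h1 := pow_dvd_det (hB p hp) (M.submatrix a b)
        rw [Nat.cast_pow]
        refine (pow_dvd_pow _ ?_).trans h1
        rw [Fintype.card_fin]
        have h2 : ((M.submatrix a b).map (Int.cast : ℤ → ZMod p)).rank ≤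
            (M.map (Int.cast : ℤ → ZMod p)).rank := by
          have := Fact.mk (hB p hp)
          exact rank_submatrix_le (M.map (Int.cast : ℤ → ZMod p)) a b
        have h3 := hMp p hp
        omega
    have hle : ((∏ p ∈ B, p ^ e p : ℕ) : ℤ) ≤ |(M.submatrix a b).det| :=
      Int.le_of_dvd (abs_pos.2 hdet') ((dvd_abs _ _).2 hdvd)
    have hhad := minor_le Cm Y (fun k i => hC1 k i) hY a b
    have hrι : r ≤ Fintype.card ι := hrD.trans (Finset.card_le_univ D)
    have hfin : ((Fintype.card ι : ℕ) : ℤ) ^ r ≤ ((Fintype.card ι : ℕ) : ℤ) ^ D.card := by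
      have h1 : (Fintype.card ι) ^ r ≤ (Fintype.card ι) ^ D.card := by
        rcases Nat.eq_zero_or_pos (Fintype.card ι) with h0 | hpos
        · have hr0 : r = 0 := by omega
          have hD0 : D.card = 0 := by
            have := Finset.card_le_univ D
            omega
          rw [hr0, hD0]
        · exact Nat.pow_le_pow_right hpos hrD
      exact_mod_cast h1
    have hall := (hle.trans hhad).trans hfin
    exact_mod_cast hall
  · intro c
    have h1 : ((univ : Finset ((ι → Bool) × (ι → Bool))).filter (fun x => ∀ p ∈ B,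
          ∀ u : ι → ZMod p, u ᵥ* Y.map (Int.cast : ℤ → ZMod p) = 0 →
            ∑ i, (if x.1 i then u i else 0) - ∑ i, (if x.2 i then u i else 0) = c p u)).card ≤
        ∑ y : ι → Bool, ((univ : Finset (ι → Bool)).filter (fun x => ∀ p ∈ B,
          ∀ u : ι → ZMod p, u ᵥ* Y.map (Int.cast : ℤ → ZMod p) = 0 →
            ∑ i, (if x i then u i else 0) = c p u + ∑ i, (if y i then u i else 0))).card := by
      rw [← Finset.card_sigma]
      refine Finset.card_le_card_of_injOn (fun x => ⟨x.2, x.1⟩) ?_ ?_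
      · intro x hx
        have hx := (Finset.mem_filter.1 hx).2
        simp only [Finset.coe_sigma, Set.mem_sigma_iff, Finset.coe_univ, Set.mem_univ, true_and,
          Finset.coe_filter, Set.mem_ofPred_eq, Finset.mem_univ]
        intro p hp u hu
        rw [← hx p hp u hu]
        ring
      · intro x _ y _ hxy
        have := Sigma.mk.inj hxy
        exact Prod.ext (eq_of_heq this.2) this.1
    calc _ ≤ (∑ y : ι → Bool, ((univ : Finset (ι → Bool)).filter (fun x => ∀ p ∈ B,
          ∀ u : ι → ZMod p, u ᵥ* Y.map (Int.cast : ℤ → ZMod p) = 0 →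
            ∑ i, (if x i then u i else 0) = c p u + ∑ i, (if y i then u i else 0))).card) *
              2 ^ D.card := Nat.mul_le_mul_right _ h1
      _ = ∑ y : ι → Bool, ((univ : Finset (ι → Bool)).filter (fun x => ∀ p ∈ B,
          ∀ u : ι → ZMod p, u ᵥ* Y.map (Int.cast : ℤ → ZMod p) = 0 →
            ∑ i, (if x i then u i else 0) = c p u + ∑ i, (if y i then u i else 0))).card *
              2 ^ D.card := Finset.sum_mul _ _ _
      _ ≤ ∑ _y : ι → Bool, 2 ^ Fintype.card ι := Finset.sum_le_sum fun y _ =>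
          hcount (fun p u => c p u + ∑ i, (if y i then u i else 0))
      _ = 4 ^ Fintype.card ι := by
          rw [Finset.sum_const, Finset.card_univ, Fintype.card_fun, Fintype.card_bool, smul_eq_mul,
            ← pow_add, ← two_mul, pow_mul]
          norm_num

end Main

end Vale.Agent.P160.Half.LOMinOne
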