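import Vale.Agent.P160.Half.Labels3

/-! # P160, final assembly: label count (helper812)

`G` finite abelian with a symmetric pairing. Outside a finite set `S` of primes the primary parts are
cyclic; there is one maximal isotropic subgroup there. On `S` we use the cyclic groups `⟨x_p⟩`. -/

set_option linter.unusedSectionVars false

namespace Vale.Agent.P160.Half.LabMax

open Finset Vale.Agent.P160.Half.Labels

variable {G : Type*} [AddCommGroup G] [Fintype G] {N : ℕ} [NeZero N]

/-- the part of `G` prime to `S` -/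
noncomputable def Fr (G : Type*) [AddCommGroup G] (S : Finset ℕ) : AddSubgroup G :=
  ⨅ p ∈ S, (nsmulAddMonoidHom (Nat.card G / p ^ (Nat.card G).factorization p) : G →+ G).ker

theorem mem_Fr {S : Finset ℕ} {x : G} :
    x ∈ Fr G S ↔ ∀ p ∈ S, (Nat.card G / p ^ (Nat.card G).factorization p) • x = 0 := by
  unfold Fr
  simp only [AddSubgroup.mem_iInf, AddMonoidHom.mem_ker, nsmulAddMonoidHom_apply]

/-- torsion bound in all multiples -/
theorem tors_le {H : Type*} [AddCommGroup H] [Fintype H] [DecidableEq H]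
    (h : ∀ p : ℕ, p.Prime → (univ.filter fun x : H => p • x = 0).card ≤ p) :
    ∀ n : ℕ, 0 < n → (univ.filter fun x : H => n • x = 0).card ≤ n := by
  intro n
  induction n using Nat.recOnMul with
  | zero => intro h; exact absurd h (lt_irrefl 0)
  | one =>
    intro _
    have : (univ.filter fun x : H => 1 • x = 0) = {0} := by
      ext x; simp
    rw [this]; simp
  | prime p hp => intro _; exact h p hp
  | mul a b ha hb =>
    intro hab
    have ha0 : 0 < a := Nat.pos_of_mul_pos_right hab |> fun _ => by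
      rcases Nat.eq_zero_or_pos a with h | h
      · subst h; simp at hab
      · exact h
    have hb0 : 0 < b := by
      rcases Nat.eq_zero_or_pos b with h | h
      · subst h; simp at hab
      · exact h
    have ha' := ha ha0
    have hb' := hb hb0
    have h1 : (univ.filter fun x : H => (a * b) • x = 0).card ≤
        (univ.filter fun x : H => a • x = 0).card * (univ.filter fun x : H => b • x = 0).card := by
      have := Finset.card_le_mul_card_image_of_maps_to
        (s := univ.filter fun x : H => (a * b) • x = 0) (t := univ.filter fun x : H => a • x = 0)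
        (f := fun x => b • x) (by
          intro x hx
          simp only [mem_filter, mem_univ, true_and] at hx ⊢
          rw [← mul_nsmul', hx]) (univ.filter fun x : H => b • x = 0).card (by
          intro y hy
          rcases (filter (fun x => b • x = y) (univ.filter fun x : H => (a * b) • x = 0)).eq_empty_or_nonempty with h | ⟨x0, hx0⟩
          · rw [h]; simp
          · refine Finset.card_le_card_of_injOn (fun x => x - x0) ?_ (fun x _ y _ hxy => sub_left_injective hxy)
            intro x hx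
            simp only [coe_filter, mem_filter, mem_univ, true_and, Set.mem_setOf_eq] at hx hx0 ⊢
            rw [smul_sub, hx.2, hx0.2, sub_self])
      calc _ ≤ _ := this
        _ = _ := by ring
    exact h1.trans (Nat.mul_le_mul ha' hb')

theorem Fr_cyclic (S : Finset ℕ) (hS : ∀ p ∈ S, p.Prime)
    (h : ∀ p : ℕ, p.Prime → p ∉ S → Nat.card {x : G // p • x = 0} ≤ p) :
    IsAddCyclic (Fr G S) := by
  classical
  have : Fintype (Fr G S) := Fintype.ofFinite _
  refine isAddCyclic_of_card_nsmul_eq_zero_le (tors_le ?_)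
  intro p hp
  by_cases hpS : p ∈ S
  · -- no `p`-torsion
    have h0 : (univ.filter fun x : Fr G S => p • x = 0) ⊆ {0} := by
      intro x hx
      rw [mem_filter] at hx
      rw [mem_singleton]
      have h1 := mem_Fr.1 x.2 p hpS
      have h2 : p • (x : G) = 0 := by
        have := congrArg Subtype.val hx.2
        simpa using this
      have hcop : Nat.Coprime p (Nat.card G / p ^ (Nat.card G).factorization p) :=
        Nat.coprime_ordCompl hp Nat.card_pos.ne'
      have h3 : addOrderOf (x : G) ∣ 1 := by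
        rw [← Nat.Coprime.gcd_eq_one hcop]
        exact Nat.dvd_gcd (addOrderOf_dvd_of_nsmul_eq_zero h2) (addOrderOf_dvd_of_nsmul_eq_zero h1)
      have h4 : addOrderOf (x : G) = 1 := Nat.dvd_one.1 h3
      rw [AddMonoid.addOrderOf_eq_one_iff] at h4
      exact Subtype.ext h4
    calc _ ≤ ({0} : Finset (Fr G S)).card := card_le_card h0
      _ = 1 := card_singleton _
      _ ≤ p := hp.one_lt.le
  · have h1 := h p hp hpS
    calc (univ.filter fun x : Fr G S => p • x = 0).card
        ≤ (univ.filter fun x : G => p • x = 0).card := by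
          refine Finset.card_le_card_of_injOn (fun x => (x : G)) ?_ (fun x _ y _ hxy => Subtype.ext hxy)
          intro x hx
          simp only [coe_filter, mem_univ, true_and, Set.mem_setOf_eq] at hx ⊢
          have := congrArg Subtype.val hx
          simpa using this
      _ = Nat.card {x : G // p • x = 0} := by
          rw [Nat.card_eq_fintype_card, Fintype.card_subtype]
      _ ≤ p := h1

variable (b : G →+ G →+ ZMod N)

/-- in the cyclic part, isotropic elements are orthogonal -/
theorem orth_of_cyclic (S : Finset ℕ) (hc : IsAddCyclic (Fr G S)) {x y : G} (hx : x ∈ Fr G S)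
    (hy : y ∈ Fr G S) (hxx : b x x = 0) (hyy : b y y = 0) : b x y = 0 := by
  obtain ⟨g, hg⟩ := hc.exists_zsmul_surjective
  obtain ⟨s, hs⟩ := hg ⟨x, hx⟩
  obtain ⟨t, ht⟩ := hg ⟨y, hy⟩
  have hs' : x = s • (g : G) := by
    have := congrArg Subtype.val hs; simpa using this.symm
  have ht' : y = t • (g : G) := by
    have := congrArg Subtype.val ht; simpa using this.symm
  set β := b (g : G) (g : G) with hβ
  have e : ∀ u v : ℤ, b (u • (g : G)) (v • (g : G)) = (u * v) • β := by
    intro u v
    rw [map_zsmul, map_zsmul, AddMonoidHom.zsmul_apply, hβ, ← mul_zsmul, mul_comm]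
  rw [hs', e] at hxx
  rw [ht', e] at hyy
  rw [hs', ht', e]
  have h1 : (addOrderOf β : ℤ) ∣ s * s := addOrderOf_dvd_iff_zsmul_eq_zero.2 hxx
  have h2 : (addOrderOf β : ℤ) ∣ t * t := addOrderOf_dvd_iff_zsmul_eq_zero.2 hyy
  apply addOrderOf_dvd_iff_zsmul_eq_zero.1
  have h3 : (addOrderOf β : ℤ) ^ 2 ∣ (s * t) ^ 2 := by
    have := mul_dvd_mul h1 h2
    calc (addOrderOf β : ℤ) ^ 2 = (addOrderOf β : ℤ) * (addOrderOf β : ℤ) := sq _
      _ ∣ (s * s) * (t * t) := this
      _ = (s * t) ^ 2 := by ring
  exact (Int.pow_dvd_pow_iff two_ne_zero).1 h3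

/-- the isotropic elements of the part prime to `S` -/
def Iso (S : Finset ℕ) (hc : IsAddCyclic (Fr G S)) : AddSubgroup G where
  carrier := {x | x ∈ Fr G S ∧ b x x = 0}
  zero_mem' := ⟨(Fr G S).zero_mem, by simp⟩
  add_mem' := by
    rintro x y ⟨hx, hx'⟩ ⟨hy, hy'⟩
    refine ⟨(Fr G S).add_mem hx hy, ?_⟩
    rw [map_add, map_add, AddMonoidHom.add_apply, AddMonoidHom.add_apply, hx', hy',
      orth_of_cyclic b S hc hx hy hx' hy', orth_of_cyclic b S hc hy hx hy' hx']
    simp
  neg_mem' := by
    rintro x ⟨hx, hx'⟩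
    refine ⟨(Fr G S).neg_mem hx, ?_⟩
    simp [hx']

theorem orth_of_coprime {u v : ℕ} (huv : Nat.Coprime u v) {x y : G} (hx : u • x = 0)
    (hy : v • y = 0) : b x y = 0 := by
  have h1 : u • b x y = 0 := by
    have : b (u • x) y = u • b x y := by rw [map_nsmul, AddMonoidHom.nsmul_apply]
    rw [← this, hx, map_zero, AddMonoidHom.zero_apply]
  have h2 : v • b x y = 0 := by rw [← map_nsmul, hy, map_zero]
  have h3 : addOrderOf (b x y) ∣ 1 := by
    rw [← Nat.Coprime.gcd_eq_one huv]
    exact Nat.dvd_gcd (addOrderOf_dvd_of_nsmul_eq_zero h1) (addOrderOf_dvd_of_nsmul_eq_zero h2)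
  have h4 := Nat.dvd_one.1 h3
  rwa [AddMonoid.addOrderOf_eq_one_iff] at h4

/-- the `p`-component of `x` -/
theorem exists_comp {p : ℕ} (hp : p.Prime) (x : G) : ∃ k : ℕ, k • x ∈ prim G p ∧
    (Nat.card G / p ^ (Nat.card G).factorization p) • (x - k • x) = 0 ∧
    addOrderOf (k • x) = p ^ (addOrderOf x).factorization p := by
  classical
  set n := Nat.card G with hn
  have hn0 : n ≠ 0 := Nat.card_pos.ne'
  set q := p ^ n.factorization p with hq
  set m := n / q with hm
  have hqm : q * m = n := Nat.ordProj_mul_ordCompl_eq_self n p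
  have hcop : Nat.Coprime q m := (Nat.coprime_ordCompl hp hn0).pow_left _
  obtain ⟨k, hk1, hk2⟩ := Nat.chineseRemainder hcop 1 0
  have hnx : n • x = 0 := by rw [hn, Nat.card_eq_fintype_card]; exact card_nsmul_eq_zero
  have hmk : m ∣ k := (Nat.modEq_zero_iff_dvd).1 hk2
  obtain ⟨k', rfl⟩ := hmk
  have hqk : q • ((m * k') • x) = 0 := by
    rw [← mul_nsmul', ← mul_assoc, hqm, mul_comm, mul_nsmul', hnx, smul_zero]
  have hsub : m • (x - (m * k') • x) = 0 := by
    have h1 : (q : ℤ) ∣ 1 - (m * k' : ℕ) := by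
      have := (Nat.modEq_iff_dvd).1 hk1
      exact this
    obtain ⟨c, hc⟩ := h1
    have h2 : x - (m * k') • x = ((1 : ℤ) - (m * k' : ℕ)) • x := by
      rw [sub_smul, one_smul, natCast_zsmul]
    rw [h2, hc, ← natCast_zsmul, ← mul_zsmul]
    have h3 : (m : ℤ) * (q * c) = c * (n : ℕ) := by
      rw [← hqm]; push_cast; ring
    have h3' : ((q : ℤ) * c * m) = c * (n : ℕ) := by
      rw [← hqm]; push_cast; ring
    first
      | rw [h3, mul_zsmul, natCast_zsmul, hnx, smul_zero]
      | rw [h3', mul_zsmul, natCast_zsmul, hnx, smul_zero]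
      | (rw [h3]; rw [mul_comm, mul_zsmul]; simp [hnx])
  refine ⟨m * k', ?_, hsub, ?_⟩
  · rw [mem_prim]; exact hqk
  · -- order
    set o := addOrderOf x with ho
    have hon : o ∣ n := by rw [hn]; exact addOrderOf_dvd_natCard x
    have ho0 : o ≠ 0 := (addOrderOf_pos x).ne'
    have hd1 : addOrderOf ((m * k') • x) ∣ p ^ o.factorization p := by
      have h1 : addOrderOf ((m * k') • x) ∣ q := addOrderOf_dvd_of_nsmul_eq_zero hqk
      have h2 : addOrderOf ((m * k') • x) ∣ o := by
        apply addOrderOf_dvd_of_nsmul_eq_zero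
        rw [← mul_nsmul', mul_comm, mul_nsmul', addOrderOf_nsmul_eq_zero, smul_zero]
      obtain ⟨e, _, he⟩ := (Nat.dvd_prime_pow hp).1 h1
      rw [he] at h2 ⊢
      exact pow_dvd_pow p ((hp.pow_dvd_iff_le_factorization ho0).1 h2)
    have hd2 : p ^ o.factorization p ∣ addOrderOf ((m * k') • x) := by
      set d := addOrderOf ((m * k') • x) with hd
      have h1 : (m * d) • x = 0 := by
        have h2 : m • x = m • ((m * k') • x) := by
          have := hsub
          rw [smul_sub, sub_eq_zero] at this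
          exact this
        rw [mul_comm, mul_nsmul', h2, ← mul_nsmul', mul_comm, mul_nsmul', addOrderOf_nsmul_eq_zero, smul_zero]
      have h2 : o ∣ m * d := addOrderOf_dvd_of_nsmul_eq_zero h1
      have h3 : p ^ o.factorization p ∣ m * d := (Nat.ordProj_dvd o p).trans h2
      have h4 : Nat.Coprime (p ^ o.factorization p) m := (Nat.coprime_ordCompl hp hn0).pow_left _
      exact h4.dvd_of_dvd_mul_left h3
    exact Nat.dvd_antisymm hd1 hd2

/-- cyclic isotropic subgroups of order `p ^ a` -/
noncomputable def Tp (p a : ℕ) : Finset (AddSubgroup G) :=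
  (Set.toFinite {Q : AddSubgroup G | Q ≤ prim G p ∧ (∀ x ∈ Q, ∀ y ∈ Q, b x y = 0) ∧
    ∃ h : G, addOrderOf h = p ^ a ∧ Q = AddSubgroup.closure {h}}).toFinset

theorem mem_Tp {p a : ℕ} {Q : AddSubgroup G} : Q ∈ Tp b p a ↔ Q ≤ prim G p ∧
    (∀ x ∈ Q, ∀ y ∈ Q, b x y = 0) ∧ ∃ h : G, addOrderOf h = p ^ a ∧ Q = AddSubgroup.closure {h} := by
  unfold Tp
  rw [Set.Finite.mem_toFinset]; rfl

/-- number of labels at `p` -/
noncomputable def tb (n : ℕ) (a p : ℕ) : ℝ :=
  if a = 0 then 1 else 4 * (a + 1) * (p : ℝ) ^ n.factorization p / (p : ℝ) ^ (2 * a)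

theorem card_Tp (hs : ∀ x y, b x y = b y x) (hn : ∀ x, (∀ y, b x y = 0) → x = 0) {p : ℕ}
    (hp : p.Prime) (a : ℕ) : ((Tp b p a).card : ℝ) ≤ tb (Nat.card G) a p := by
  classical
  unfold tb
  split_ifs with h
  · subst h
    have h1 : Tp b p 0 ⊆ {⊥} := by
      intro Q hQ
      obtain ⟨_, _, h, ho, rfl⟩ := (mem_Tp b).1 hQ
      rw [pow_zero, AddMonoid.addOrderOf_eq_one_iff] at ho
      subst ho
      simp
    have := card_le_card h1
    rw [card_singleton] at this
    exact_mod_cast this
  · have key := lab_count_prime b hs hn hp a 0 (Tp b p a)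
      (fun Q hQ => ((mem_Tp b).1 hQ).2.1) (fun Q hQ => ((mem_Tp b).1 hQ).1) (by
        intro Q hQ
        obtain ⟨_, _, h, ho, hQ'⟩ := (mem_Tp b).1 hQ
        refine ⟨h, ho, Fin.elim0, ?_⟩
        rw [hQ']; congr 1; simp)
    rw [zero_add, pow_one, pow_one] at key
    have hp0 : (0 : ℝ) < (p : ℝ) ^ (2 * a) := by
      have : (0 : ℝ) < p := by exact_mod_cast hp.pos
      positivity
    rw [le_div_iff₀ hp0]
    exact_mod_cast key

/-- **Label count.** -/
theorem labels (hs : ∀ x y, b x y = b y x) (hn : ∀ x, (∀ y, b x y = 0) → x = 0) (S : Finset ℕ)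
    (hS : ∀ p ∈ S, p.Prime) (h : ∀ p : ℕ, p.Prime → p ∉ S → Nat.card {x : G // p • x = 0} ≤ p)
    (a : ℕ → ℕ) : ∃ LL : Finset (AddSubgroup G), (∀ L ∈ LL, ∀ x ∈ L, ∀ y ∈ L, b x y = 0) ∧
      (LL.card : ℝ) ≤ ∏ p ∈ S, tb (Nat.card G) (a p) p ∧
      ∀ x : G, b x x = 0 → (∀ p ∈ S, (addOrderOf x).factorization p = a p) → ∃ L ∈ LL, x ∈ L := by
  classical
  have hc := Fr_cyclic S hS h
  set K : ((p : ℕ) → p ∈ S → AddSubgroup G) → AddSubgroup G := fun C =>
    (S.attach.sup fun p => C p.1 p.2) ⊔ Iso b S hc with hK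
  refine ⟨(S.pi fun p => Tp b p (a p)).image K, ?_, ?_, ?_⟩
  · intro L hL
    obtain ⟨C, hC, rfl⟩ := mem_image.1 hL
    rw [mem_pi] at hC
    -- pairwise orthogonality
    have h1 : ∀ p (hp : p ∈ S) q (hq : q ∈ S), C p hp ≤ perp b (C q hq) := by
      intro p hp q hq x hx
      rw [mem_perp]
      intro y hy
      by_cases hpq : p = q
      · subst hpq
        exact ((mem_Tp b).1 (hC p hp)).2.1 x hx y hy
      · have hx' := mem_prim.1 (((mem_Tp b).1 (hC p hp)).1 hx)
        have hy' := mem_prim.1 (((mem_Tp b).1 (hC q hq)).1 hy)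
        exact orth_of_coprime b (((Nat.coprime_primes (hS p hp) (hS q hq)).2 hpq).pow _ _) hx' hy'
    have h2 : ∀ p (hp : p ∈ S), C p hp ≤ perp b (Iso b S hc) := by
      intro p hp x hx
      rw [mem_perp]
      intro y hy
      have hx' := mem_prim.1 (((mem_Tp b).1 (hC p hp)).1 hx)
      have hy' := mem_Fr.1 hy.1 p hp
      exact orth_of_coprime b ((Nat.coprime_ordCompl (hS p hp) Nat.card_pos.ne').pow_left _) hx' hy'
    have h3 : Iso b S hc ≤ perp b (Iso b S hc) := by
      intro x hx
      rw [mem_perp]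
      intro y hy
      exact orth_of_cyclic b S hc hx.1 hy.1 hx.2 hy.2
    have hflip : ∀ A B : AddSubgroup G, A ≤ perp b B → B ≤ perp b A := by
      intro A B hAB y hy
      rw [mem_perp]
      intro x hx
      rw [hs]
      exact (mem_perp b).1 (hAB hx) y hy
    have h4 : ∀ q (hq : q ∈ S), K C ≤ perp b (C q hq) := by
      intro q hq
      refine sup_le (Finset.sup_le fun p _ => h1 p.1 p.2 q hq) (hflip _ _ (h2 q hq))
    have h5 : K C ≤ perp b (Iso b S hc) :=
      sup_le (Finset.sup_le fun p _ => h2 p.1 p.2) h3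
    have h6 : K C ≤ perp b (K C) :=
      sup_le (Finset.sup_le fun p _ => hflip _ _ (h4 p.1 p.2)) (hflip _ _ h5)
    intro x hx y hy
    exact (mem_perp b).1 (h6 hx) y hy
  · calc (((S.pi fun p => Tp b p (a p)).image K).card : ℝ)
        ≤ ((S.pi fun p => Tp b p (a p)).card : ℝ) := by exact_mod_cast card_image_le
      _ = ∏ p ∈ S, ((Tp b p (a p)).card : ℝ) := by rw [card_pi]; push_cast; rfl
      _ ≤ ∏ p ∈ S, tb (Nat.card G) (a p) p :=
        prod_le_prod (fun p _ => Nat.cast_nonneg _) fun p hp => card_Tp b hs hn (hS p hp) (a p)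
  · intro x hxx hx
    have hcomp : ∀ p ∈ S, ∃ k : ℕ, k • x ∈ prim G p ∧
        (Nat.card G / p ^ (Nat.card G).factorization p) • (x - k • x) = 0 ∧
        addOrderOf (k • x) = p ^ (addOrderOf x).factorization p := fun p hp => exists_comp (hS p hp) x
    choose! k hk1 hk2 hk3 using hcomp
    set C : (p : ℕ) → p ∈ S → AddSubgroup G := fun p _ => AddSubgroup.closure {k p • x} with hC
    refine ⟨K C, mem_image.2 ⟨C, ?_, rfl⟩, ?_⟩
    · rw [mem_pi]
      intro p hp
      rw [mem_Tp]
      have hxk : ∀ z ∈ AddSubgroup.closure ({k p • x} : Set G), ∃ t : ℤ, z = t • x := by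
        intro z hz
        rw [AddSubgroup.mem_closure_singleton] at hz
        obtain ⟨t, rfl⟩ := hz
        exact ⟨t * k p, by rw [mul_zsmul, natCast_zsmul]⟩
      refine ⟨?_, ?_, k p • x, ?_, rfl⟩
      · rw [AddSubgroup.closure_le]
        intro z hz
        rw [Set.mem_singleton_iff.1 hz]
        exact hk1 p hp
      · intro y hy z hz
        obtain ⟨s, rfl⟩ := hxk y hy
        obtain ⟨t, rfl⟩ := hxk z hz
        rw [map_zsmul, map_zsmul, AddMonoidHom.zsmul_apply, hxx, smul_zero, smul_zero]
      · rw [hk3 p hp, hx p hp]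
    · -- the remainder
      set w := x - ∑ p ∈ S, k p • x with hw
      have hwF : w ∈ Fr G S := by
        rw [mem_Fr]
        intro p hp
        have h1 : w = (x - k p • x) - ∑ q ∈ S.erase p, k q • x := by
          rw [hw, ← Finset.add_sum_erase S _ hp]; abel
        rw [h1, smul_sub, hk2 p hp, zero_sub, neg_eq_zero, Finset.smul_sum]
        refine sum_eq_zero fun q hq => ?_
        have hqS := mem_of_mem_erase hq
        have hqp := ne_of_mem_erase hq
        have h2 := mem_prim.1 (hk1 q hqS)
        have h3 : q ^ (Nat.card G).factorization q ∣ Nat.card G / p ^ (Nat.card G).factorization p := by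
          have h4 : q ^ (Nat.card G).factorization q ∣
              p ^ (Nat.card G).factorization p * (Nat.card G / p ^ (Nat.card G).factorization p) := by
            rw [Nat.ordProj_mul_ordCompl_eq_self]; exact Nat.ordProj_dvd _ _
          exact (((Nat.coprime_primes (hS q hqS) (hS p hp)).2 hqp).pow _ _).dvd_of_dvd_mul_left h4
        obtain ⟨c, hc'⟩ := h3
        rw [hc', mul_comm, mul_nsmul', h2, smul_zero]
      have hww : b w w = 0 := by
        have h1 : w = ((1 : ℤ) - ((∑ p ∈ S, k p : ℕ) : ℤ)) • x := by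
          rw [hw, sub_smul, one_smul, natCast_zsmul, Finset.sum_smul]
        rw [h1, map_zsmul, map_zsmul, AddMonoidHom.zsmul_apply, hxx, smul_zero, smul_zero]
      have hxw : x = (∑ p ∈ S.attach, k p.1 • x) + w := by
        rw [hw, Finset.sum_attach S (fun p => k p • x)]; abel
      rw [hxw]
      refine AddSubgroup.add_mem _ ?_ ?_
      · refine AddSubgroup.mem_sup_left ?_
        refine AddSubgroup.sum_mem _ fun p _ => ?_
        have : C p.1 p.2 ≤ S.attach.sup fun p => C p.1 p.2 := Finset.le_sup (f := fun p : S => C p.1 p.2) (mem_attach S p)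
        exact this (AddSubgroup.subset_closure (Set.mem_singleton _))
      · exact AddSubgroup.mem_sup_right ⟨hwF, hww⟩

end Vale.Agent.P160.Half.LabMax
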