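import Vale.Agent.P160.Half.LabMax
import Vale.Agent.P160.Half.AStmt

/-! # P160, final assembly: label count for a matrix (helper812) -/

set_option linter.unusedSectionVars false
set_option linter.unusedVariables false

namespace Vale.Agent.P160.Half.LabMax

open Finset Matrix Vale.Agent.P160.Half.Labels Vale.Agent.P160.Half

variable {m : ℕ} (P : Matrix (Fin m) (Fin m) ℤ)

theorem mulVec_inj (hd : P.det ≠ 0) {x y : Fin m → ℤ} (h : P *ᵥ x = P *ᵥ y) : x = y := by
  have h2 : P.adjugate *ᵥ (P *ᵥ x) = P.adjugate *ᵥ (P *ᵥ y) := by rw [h]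
  rw [mulVec_mulVec, mulVec_mulVec, adjugate_mul, smul_mulVec, smul_mulVec, one_mulVec,
    one_mulVec] at h2
  funext i
  have := congrFun h2 i
  simpa [hd] using this

/-- torsion of the cokernel and corank modulo `p` -/
theorem tors_card (hd : P.det ≠ 0) (p : ℕ) [Fact p.Prime]
    (h : m ≤ (P.map (Int.cast : ℤ → ZMod p)).rank + 1) :
    Nat.card {x : Coker P // p • x = 0} ≤ p := by
  classical
  have hp : p.Prime := Fact.out
  have hp0 : (p : ℤ) ≠ 0 := by exact_mod_cast hp.ne_zero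
  set Pb := P.map (Int.cast : ℤ → ZMod p) with hPb
  have hex : ∀ x : {x : Coker P // p • x = 0}, ∃ y z : Fin m → ℤ,
      (QuotientAddGroup.mk y : Coker P) = x.1 ∧ P *ᵥ z = (p : ℤ) • y := by
    rintro ⟨x, hx⟩
    obtain ⟨y, rfl⟩ := QuotientAddGroup.mk_surjective x
    have h1 : (QuotientAddGroup.mk (p • y) : Coker P) = 0 := by
      rw [← hx]; rfl
    rw [QuotientAddGroup.eq_zero_iff, mem_lat] at h1
    obtain ⟨z, hz⟩ := h1
    exact ⟨y, z, rfl, by rw [hz, natCast_zsmul]⟩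
  choose Y Z hY hZ using hex
  have hker : ∀ x, (fun i => ((Z x i : ℤ) : ZMod p)) ∈ LinearMap.ker Pb.mulVecLin := by
    intro x
    rw [LinearMap.mem_ker, mulVecLin_apply]
    funext i
    have h1 := congrFun (hZ x) i
    have h2 := congrArg (Int.cast : ℤ → ZMod p) h1
    simp only [mulVec, dotProduct, Pi.smul_apply, smul_eq_mul] at h2
    push_cast at h2
    rw [ZMod.natCast_self, zero_mul] at h2
    simpa [mulVec, dotProduct, hPb] using h2
  let f : {x : Coker P // p • x = 0} → LinearMap.ker Pb.mulVecLin := fun x => ⟨_, hker x⟩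
  have hf : Function.Injective f := by
    intro x x' hxx
    have h1 : ∀ i, ((Z x i : ℤ) : ZMod p) = ((Z x' i : ℤ) : ZMod p) := fun i =>
      congrFun (congrArg Subtype.val hxx) i
    have h2 : ∀ i, (p : ℤ) ∣ Z x i - Z x' i := by
      intro i
      have := (ZMod.intCast_eq_intCast_iff_dvd_sub _ _ _).1 (h1 i).symm
      exact this
    choose u hu using h2
    have h3 : Z x - Z x' = (p : ℤ) • u := by
      funext i; simp [hu i]
    have h4 : (p : ℤ) • (P *ᵥ u) = (p : ℤ) • (Y x - Y x') := by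
      rw [← mulVec_smul, ← h3, mulVec_sub, hZ, hZ, smul_sub]
    have h5 : P *ᵥ u = Y x - Y x' := by
      funext i
      have := congrFun h4 i
      simp only [Pi.smul_apply, smul_eq_mul] at this
      exact mul_left_cancel₀ hp0 this
    apply Subtype.ext
    rw [← hY x, ← hY x']
    rw [QuotientAddGroup.eq, mem_lat]
    exact ⟨-u, by rw [mulVec_neg, h5]; abel⟩
  have hfin : Finite (LinearMap.ker Pb.mulVecLin) := inferInstance
  have h1 : Nat.card {x : Coker P // p • x = 0} ≤ Nat.card (LinearMap.ker Pb.mulVecLin) :=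
    Nat.card_le_card_of_injective f hf
  have h2 : Nat.card (LinearMap.ker Pb.mulVecLin) =
      p ^ Module.finrank (ZMod p) (LinearMap.ker Pb.mulVecLin) := by
    rw [Module.natCard_eq_pow_finrank (K := ZMod p), Nat.card_zmod]
  have h3 := LinearMap.finrank_range_add_finrank_ker Pb.mulVecLin
  rw [Module.finrank_fin_fun] at h3
  have h4 : Pb.rank = Module.finrank (ZMod p) (LinearMap.range Pb.mulVecLin) := rfl
  have h5 : Module.finrank (ZMod p) (LinearMap.ker Pb.mulVecLin) ≤ 1 := by omega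
  calc _ ≤ _ := h1
    _ = _ := h2
    _ ≤ p ^ 1 := Nat.pow_le_pow_right hp.pos h5
    _ = p := pow_one p

/-- isotropy of the class of `y` -/
theorem iso_of_kernel (hP : P.transpose = P) {z y : Fin m → ℤ} {v t : ℤ} (hv : v ≠ 0)
    (h : P *ᵥ z = v • y) (h' : y ⬝ᵥ z = v * t) :
    cokPair P hP (QuotientAddGroup.mk y) (QuotientAddGroup.mk y) = 0 := by
  rw [cokPair_mk, ZMod.intCast_zmod_eq_zero_iff_dvd, Int.natAbs_dvd]
  refine ⟨t, ?_⟩
  have h1 : v * (y ⬝ᵥ P.adjugate *ᵥ y) = v * (P.det * t) := by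
    have h2 : P.adjugate *ᵥ (P *ᵥ z) = v • (P.adjugate *ᵥ y) := by rw [h, mulVec_smul]
    rw [mulVec_mulVec, adjugate_mul, smul_mulVec, one_mulVec] at h2
    have h3 : v * (y ⬝ᵥ P.adjugate *ᵥ y) = y ⬝ᵥ (v • (P.adjugate *ᵥ y)) := by
      rw [dotProduct_smul, smul_eq_mul]
    rw [h3, ← h2, dotProduct_smul, h', smul_eq_mul]; ring
  exact mul_left_cancel₀ hv h1

/-- order of the class of `y` -/
theorem order_mk (hd : P.det ≠ 0) {z y : Fin m → ℤ} {v : ℤ} (hv : v ≠ 0) (h : P *ᵥ z = v • y)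
    (hprim : ∀ p : ℕ, p.Prime → (p : ℤ) ∣ v → ∃ i, ¬ (p : ℤ) ∣ z i) :
    addOrderOf (QuotientAddGroup.mk y : Coker P) = v.natAbs := by
  apply Nat.dvd_antisymm
  · apply addOrderOf_dvd_of_nsmul_eq_zero
    have h1 : (v.natAbs • (QuotientAddGroup.mk y : Coker P)) = QuotientAddGroup.mk (v.natAbs • y) := rfl
    rw [h1, QuotientAddGroup.eq_zero_iff, mem_lat]
    rcases Int.natAbs_eq v with h2 | h2
    · refine ⟨z, ?_⟩
      rw [h, ← natCast_zsmul, ← h2]
    · refine ⟨-z, ?_⟩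
      rw [mulVec_neg, h, ← natCast_zsmul, ← neg_smul]
      congr 1
      omega
  · set k := addOrderOf (QuotientAddGroup.mk y : Coker P) with hk
    have h1 : (QuotientAddGroup.mk (k • y) : Coker P) = 0 := by
      have : k • (QuotientAddGroup.mk y : Coker P) = 0 := addOrderOf_nsmul_eq_zero _
      rw [← this]; rfl
    rw [QuotientAddGroup.eq_zero_iff, mem_lat] at h1
    obtain ⟨u, hu⟩ := h1
    have h2 : v • u = (k : ℤ) • z := by
      apply mulVec_inj P hd
      rw [mulVec_smul, mulVec_smul, hu, h, natCast_zsmul, ← natCast_zsmul y k, smul_comm]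
      try rw [natCast_zsmul]
    have h3 : ∀ i, v ∣ k * z i := by
      intro i
      have := congrFun h2 i
      simp only [Pi.smul_apply, smul_eq_mul] at this
      exact ⟨u i, this.symm⟩
    set d := (univ : Finset (Fin m)).gcd z with hdd
    have h4 : v ∣ k * d := by
      have h5 : v ∣ (univ : Finset (Fin m)).gcd (fun i => (k : ℤ) * z i) :=
        Finset.dvd_gcd fun i _ => h3 i
      rw [Finset.gcd_mul_left] at h5
      rwa [Int.normalize_coe_nat] at h5
    have h6 : IsCoprime v d := by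
      rw [Int.isCoprime_iff_gcd_eq_one]
      by_contra hne
      obtain ⟨p, hp, hpd⟩ := Nat.exists_prime_and_dvd hne
      have h7 : (p : ℤ) ∣ v := (Int.natCast_dvd_natCast.2 hpd).trans (Int.gcd_dvd_left ..)
      have h8 : (p : ℤ) ∣ d := (Int.natCast_dvd_natCast.2 hpd).trans (Int.gcd_dvd_right ..)
      obtain ⟨i, hi⟩ := hprim p hp h7
      exact hi (h8.trans (Finset.gcd_dvd (mem_univ i)))
    have h9 : v ∣ k := h6.dvd_of_dvd_mul_right h4
    exact Int.natAbs_dvd_natAbs.2 h9 |>.trans (by simp)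

open Vale.Agent.P160.Half.A in
theorem dual_eq (hd : P.det ≠ 0) {z y : Fin m → ℤ} {v : ℤ} (hv : v ≠ 0) (h : P *ᵥ z = v • y) :
    dual P y = fun i => (z i : ℚ) / v := by
  have hd' : (PQ P).det ≠ 0 := by
    unfold PQ
    have : (P.map (Int.cast : ℤ → ℚ)).det = ((P.det : ℤ) : ℚ) := (Int.cast_det P).symm
    rw [this]; exact_mod_cast hd
  have hu : IsUnit (PQ P).det := isUnit_iff_ne_zero.2 hd'
  have hv' : (v : ℚ) ≠ 0 := by exact_mod_cast hv
  have h1 : (fun i => (y i : ℚ)) = PQ P *ᵥ (fun i => (z i : ℚ) / v) := by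
    funext i
    have h2 := congrArg (Int.cast : ℤ → ℚ) (congrFun h i)
    simp only [mulVec, dotProduct, Pi.smul_apply, smul_eq_mul] at h2
    push_cast at h2
    simp only [mulVec, dotProduct, PQ, map_apply]
    rw [eq_comm]
    calc ∑ x, (P i x : ℚ) * ((z x : ℚ) / v) = (∑ x, (P i x : ℚ) * (z x : ℚ)) / v := by
          rw [Finset.sum_div]; exact sum_congr rfl fun x _ => by ring
      _ = (y i : ℚ) := by rw [h2]; field_simp
  unfold dual
  rw [h1, mulVec_mulVec, Matrix.nonsing_inv_mul _ hu, one_mulVec]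

open Vale.Agent.P160.Half.A in
/-- the lattice of a subgroup of the cokernel -/
noncomputable def latQ (H : AddSubgroup (Coker P)) : Submodule ℤ (Fin m → ℚ) where
  carrier := {v | ∃ y : Fin m → ℤ, (QuotientAddGroup.mk y : Coker P) ∈ H ∧ v = dual P y}
  zero_mem' := ⟨0, by
    have : (QuotientAddGroup.mk (0 : Fin m → ℤ) : Coker P) = 0 := rfl
    rw [this]; exact H.zero_mem, by
    unfold dual
    have : (fun i => (((0 : Fin m → ℤ) i : ℤ) : ℚ)) = 0 := by funext i; simp
    rw [this, mulVec_zero]⟩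
  add_mem' := by
    rintro _ _ ⟨y, hy, rfl⟩ ⟨y', hy', rfl⟩
    refine ⟨y + y', H.add_mem hy hy', ?_⟩
    unfold dual
    rw [← mulVec_add]
    congr 1
    funext i; simp
  smul_mem' := by
    rintro c _ ⟨y, hy, rfl⟩
    refine ⟨c • y, H.zsmul_mem hy c, ?_⟩
    unfold dual
    have : (fun i => (((c • y) i : ℤ) : ℚ)) = c • fun i => (y i : ℚ) := by
      funext i; simp
    rw [this, mulVec_smul]

open Vale.Agent.P160.Half.A in
theorem over_latQ (hP : P.transpose = P) (hd : P.det ≠ 0) (H : AddSubgroup (Coker P))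
    (hH : ∀ x ∈ H, ∀ y ∈ H, cokPair P hP x y = 0) : Over P (latQ P H) := by
  have hd' : ((P.det : ℤ) : ℚ) ≠ 0 := by exact_mod_cast hd
  have hdet : (PQ P).det = ((P.det : ℤ) : ℚ) := (Int.cast_det P).symm
  have hu : IsUnit (PQ P).det := isUnit_iff_ne_zero.2 (by rw [hdet]; exact hd')
  constructor
  · intro z
    refine ⟨P *ᵥ z, ?_, ?_⟩
    · have : (QuotientAddGroup.mk (P *ᵥ z) : Coker P) = 0 := by
        rw [QuotientAddGroup.eq_zero_iff, mem_lat]; exact ⟨z, rfl⟩
      rw [this]; exact H.zero_mem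
    · have h1 := dual_eq P hd (z := z) (y := P *ᵥ z) (v := 1) one_ne_zero (by simp)
      rw [h1]; simp
  · rintro _ ⟨y, hy, rfl⟩ _ ⟨y', hy', rfl⟩
    have h1 := hH _ hy _ hy'
    rw [cokPair_mk, ZMod.intCast_zmod_eq_zero_iff_dvd, Int.natAbs_dvd] at h1
    obtain ⟨k, hk⟩ := h1
    refine ⟨k, ?_⟩
    have h2 : PQ P *ᵥ dual P y' = fun i => (y' i : ℚ) := by
      unfold dual
      rw [mulVec_mulVec, Matrix.mul_nonsing_inv _ hu, one_mulVec]
    rw [h2]
    have h3 : dual P y = fun i => (((P.adjugate *ᵥ y) i : ℤ) : ℚ) / (P.det : ℤ) := by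
      apply dual_eq P hd hd
      rw [mulVec_mulVec, mul_adjugate, smul_mulVec, one_mulVec]
    rw [h3]
    have h4 : (P.adjugate *ᵥ y) ⬝ᵥ y' = P.det * k := by
      rw [← hk, dotProduct_mulVec, ← mulVec_transpose, adjugate_transpose, hP]
    have h5 : ∑ i, (((P.adjugate *ᵥ y) i : ℤ) : ℚ) * (y' i : ℚ) = ((P.det : ℤ) : ℚ) * (k : ℚ) := by
      have := congrArg (Int.cast : ℤ → ℚ) h4
      rw [dotProduct, Int.cast_sum, Int.cast_mul] at this
      rw [← this]; exact sum_congr rfl fun i _ => (Int.cast_mul _ _).symm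
    simp only [dotProduct]
    calc ∑ i, (((P.adjugate *ᵥ y) i : ℤ) : ℚ) / (P.det : ℤ) * (y' i : ℚ)
        = (∑ i, (((P.adjugate *ᵥ y) i : ℤ) : ℚ) * (y' i : ℚ)) / (P.det : ℤ) := by
          rw [Finset.sum_div]; exact sum_congr rfl fun x _ => by ring
      _ = (k : ℚ) := by rw [h5]; exact mul_div_cancel_left₀ _ hd'

open Vale.Agent.P160.Half.A in
/-- **Label count for a matrix.** -/
theorem class_count (hP : P.transpose = P) (hd : P.det ≠ 0) (S : Finset ℕ)
    (hS : ∀ p ∈ S, p.Prime)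
    (hcor : ∀ p : ℕ, p.Prime → (p : ℤ) ∣ P.det → p ∉ S → m ≤ (P.map (Int.cast : ℤ → ZMod p)).rank + 1)
    (a : ℕ → ℕ) : ∃ LL : Finset (Submodule ℤ (Fin m → ℚ)), (∀ L ∈ LL, Over P L) ∧
      (LL.card : ℝ) ≤ ∏ p ∈ S, tb P.det.natAbs (a p) p ∧
      ∀ (y z : Fin m → ℤ) (v t : ℤ), v ≠ 0 → P *ᵥ z = v • y → y ⬝ᵥ z = v * t →
        (∀ p : ℕ, p.Prime → (p : ℤ) ∣ v → ∃ i, ¬ (p : ℤ) ∣ z i) →
        (∀ p ∈ S, v.natAbs.factorization p = a p) → ∃ L ∈ LL, dual P y ∈ L := by
  classical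
  have hN : P.det.natAbs ≠ 0 := Int.natAbs_ne_zero.2 hd
  have : NeZero P.det.natAbs := ⟨hN⟩
  have hc := card_coker P hd
  have : Finite (Coker P) := Nat.finite_of_card_ne_zero (by rw [hc]; exact hN)
  have : Fintype (Coker P) := Fintype.ofFinite _
  have htors : ∀ p : ℕ, p.Prime → p ∉ S → Nat.card {x : Coker P // p • x = 0} ≤ p := by
    intro p hp hpS
    have : Fact p.Prime := ⟨hp⟩
    by_cases hpd : (p : ℤ) ∣ P.det
    · exact tors_card P hd p (hcor p hp hpd hpS)
    · have h1 : ∀ x : Coker P, p • x = 0 → x = 0 := by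
        intro x hx
        have h2 : addOrderOf x ∣ p := addOrderOf_dvd_of_nsmul_eq_zero hx
        have h3 : addOrderOf x ∣ P.det.natAbs := by rw [← hc]; exact addOrderOf_dvd_natCard x
        rcases (Nat.dvd_prime hp).1 h2 with h4 | h4
        · rwa [AddMonoid.addOrderOf_eq_one_iff] at h4
        · exfalso
          apply hpd
          rw [h4] at h3
          exact Int.natCast_dvd.2 h3
      have h5 : Nat.card {x : Coker P // p • x = 0} ≤ 1 := by
        rw [Finite.card_le_one_iff_subsingleton]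
        exact ⟨fun x y => Subtype.ext (by rw [h1 _ x.2, h1 _ y.2])⟩
      exact h5.trans hp.one_lt.le
  obtain ⟨LL, h1, h2, h3⟩ := labels (cokPair P hP) (cokPair_symm P hP) (cokPair_nondeg P hP hd) S hS
    htors a
  refine ⟨LL.image (latQ P), ?_, ?_, ?_⟩
  · intro L hL
    obtain ⟨H, hH, rfl⟩ := mem_image.1 hL
    exact over_latQ P hP hd H (h1 H hH)
  · rw [hc] at h2
    refine le_trans ?_ h2
    exact_mod_cast card_image_le
  · intro y z v t hv hz ht hprim ha
    obtain ⟨H, hH, hy⟩ := h3 (QuotientAddGroup.mk y) (iso_of_kernel P hP hv hz ht) (by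
      intro p hp
      rw [order_mk P hd hv hz hprim]; exact ha p hp)
    exact ⟨latQ P H, mem_image.2 ⟨H, hH, rfl⟩, y, hy, rfl⟩

end Vale.Agent.P160.Half.LabMax
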