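import Vale.Agent.P160.Half.Labels3

/-!
# At most two cyclic Lagrangian subgroups; uniqueness in the cyclic case

`G` finite abelian group with a symmetric nondegenerate pairing.
-/

namespace Vale.Agent.P160.Half.LabTwo

open Finset Vale.Agent.P160.Half.Labels

variable {G : Type*} [AddCommGroup G] [Fintype G] {N : ℕ} [NeZero N] (b : G →+ G →+ ZMod N)

theorem perp_eq (hs : ∀ x y, b x y = b y x) (hn : ∀ x, (∀ y, b x y = 0) → x = 0)
    {H : AddSubgroup G} (hiso : ∀ x ∈ H, ∀ y ∈ H, b x y = 0)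
    (hc : Nat.card G ≤ Nat.card H * Nat.card H) : perp b H = H := by
  have hle : H ≤ perp b H := fun x hx y hy => hiso x hx y hy
  symm
  apply AddSubgroup.eq_of_le_of_card_ge hle
  have h1 := card_perp b hs hn H
  have h2 : 0 < Nat.card H := Nat.card_pos
  rw [← h1] at hc
  exact Nat.le_of_mul_le_mul_right hc h2

omit [Fintype G] [NeZero N] in
theorem iso_zmultiples {h : G} (h0 : b h h = 0) :
    ∀ x ∈ AddSubgroup.zmultiples h, ∀ y ∈ AddSubgroup.zmultiples h, b x y = 0 := by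
  intro x hx y hy
  obtain ⟨k, rfl⟩ := AddSubgroup.mem_zmultiples_iff.mp hx
  obtain ⟨l, rfl⟩ := AddSubgroup.mem_zmultiples_iff.mp hy
  rw [map_zsmul, map_zsmul, AddMonoidHom.zsmul_apply, h0]
  simp

theorem perp_zmultiples (hs : ∀ x y, b x y = b y x) (hn : ∀ x, (∀ y, b x y = 0) → x = 0)
    {h : G} (h0 : b h h = 0) {q : ℕ} (ho : addOrderOf h = q) (hc : Nat.card G ≤ q * q) :
    perp b (AddSubgroup.zmultiples h) = AddSubgroup.zmultiples h := by
  apply perp_eq b hs hn (iso_zmultiples b h0)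
  rw [Nat.card_zmultiples, ho]; exact hc

theorem mem_perp_zmultiples {h x : G} : x ∈ perp b (AddSubgroup.zmultiples h) ↔ b x h = 0 := by
  rw [mem_perp]
  constructor
  · intro h1; exact h1 h (AddSubgroup.mem_zmultiples h)
  · intro h1 y hy
    obtain ⟨l, rfl⟩ := AddSubgroup.mem_zmultiples_iff.mp hy
    rw [map_zsmul, h1, smul_zero]

theorem eq_of_mem {h h' : G} {q : ℕ} (ho : addOrderOf h = q) (ho' : addOrderOf h' = q)
    (hm : h ∈ AddSubgroup.zmultiples h') :
    AddSubgroup.zmultiples h = AddSubgroup.zmultiples h' := by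
  apply AddSubgroup.eq_of_le_of_card_ge
  · rw [AddSubgroup.zmultiples_le]; exact hm
  · rw [Nat.card_zmultiples, Nat.card_zmultiples, ho, ho']

theorem key (hs : ∀ x y, b x y = b y x) (hn : ∀ x, (∀ y, b x y = 0) → x = 0)
    {p a : ℕ} (hp : p.Prime) (hp2 : p ≠ 2) (hc : Nat.card G ≤ p ^ a * p ^ a) {h0 h1 h2 : G}
    (i0 : b h0 h0 = 0) (i1 : b h1 h1 = 0) (i2 : b h2 h2 = 0) (o0 : addOrderOf h0 = p ^ a)
    (o1 : addOrderOf h1 = p ^ a) (o2 : addOrderOf h2 = p ^ a)
    (hd : addOrderOf (b h0 h2) ∣ addOrderOf (b h0 h1)) :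
    AddSubgroup.zmultiples h2 = AddSubgroup.zmultiples h0 ∨
      AddSubgroup.zmultiples h2 = AddSubgroup.zmultiples h1 := by
  have P0 := perp_zmultiples b hs hn i0 o0 hc
  have P1 := perp_zmultiples b hs hn i1 o1 hc
  have P2 := perp_zmultiples b hs hn i2 o2 hc
  set H0 := AddSubgroup.zmultiples h0 with hH0
  set H1 := AddSubgroup.zmultiples h1 with hH1
  set H2 := AddSubgroup.zmultiples h2 with hH2
  have hI : H0 ⊓ H1 ≤ H2 := by
    intro z hz
    obtain ⟨hz0, hz1⟩ := AddSubgroup.mem_inf.mp hz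
    obtain ⟨k, rfl⟩ := AddSubgroup.mem_zmultiples_iff.mp hz0
    rw [← P2, hH2, mem_perp_zmultiples]
    rw [← P1, hH1, mem_perp_zmultiples] at hz1
    rw [map_zsmul, AddMonoidHom.zsmul_apply] at hz1 ⊢
    rw [← addOrderOf_dvd_iff_zsmul_eq_zero] at hz1 ⊢
    exact (Int.natCast_dvd_natCast.mpr hd).trans hz1
  have hle : perp b (H0 ⊔ H1) ≤ H0 ⊓ H1 := by
    intro z hz
    rw [AddSubgroup.mem_inf]
    constructor
    · rw [← P0]; exact fun y hy => hz y (AddSubgroup.mem_sup_left hy)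
    · rw [← P1]; exact fun y hy => hz y (AddSubgroup.mem_sup_right hy)
  have hsup : H2 ≤ H0 ⊔ H1 := by
    rw [← perp_perp b hs hn (H0 ⊔ H1), ← P2]
    intro z hz y hy
    exact hz y (hI (hle hy))
  obtain ⟨u, hu, w, hw, huw⟩ := AddSubgroup.mem_sup.mp (hsup (AddSubgroup.mem_zmultiples h2))
  obtain ⟨x, rfl⟩ := AddSubgroup.mem_zmultiples_iff.mp hu
  obtain ⟨y, rfl⟩ := AddSubgroup.mem_zmultiples_iff.mp hw
  have e1 : (2 * (x * y)) • b h0 h1 = 0 := by
    have : b h2 h2 = (2 * (x * y)) • b h0 h1 := by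
      rw [← huw]
      simp only [map_add, map_zsmul, AddMonoidHom.add_apply, AddMonoidHom.zsmul_apply,
        i0, i1, smul_zero, zero_add, add_zero, hs h1 h0, smul_smul]
      rw [← add_smul]
      congr 1; ring
    rw [← this, i2]
  rw [← addOrderOf_dvd_iff_zsmul_eq_zero] at e1
  have hop : addOrderOf (b h0 h1) ∣ p ^ a := by
    rw [addOrderOf_dvd_iff_nsmul_eq_zero]
    have : b (p ^ a • h0) h1 = p ^ a • b h0 h1 := by rw [map_nsmul]; rfl
    rw [← this, ← o0, addOrderOf_nsmul_eq_zero]; simp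
  obtain ⟨c, -, hcc⟩ := (Nat.dvd_prime_pow hp).mp hop
  have hpi : Prime (p : ℤ) := Nat.prime_iff_prime_int.mp hp
  have e2 : ((p : ℤ) ^ c) ∣ x * y := by
    rw [hcc] at e1
    push_cast at e1
    refine IsCoprime.dvd_of_dvd_mul_left ?_ e1
    apply IsCoprime.pow_left
    rw [Int.isCoprime_iff_gcd_eq_one]
    have : Nat.Coprime p 2 := (Nat.coprime_primes hp Nat.prime_two).mpr hp2
    simpa [Int.gcd] using this
  have zero_of : ∀ k : ℤ, ((p : ℤ) ^ c) ∣ k → k • b h0 h1 = 0 := by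
    intro k hk
    rw [← addOrderOf_dvd_iff_zsmul_eq_zero, hcc]
    push_cast; exact hk
  by_cases hx : (p : ℤ) ∣ x
  · by_cases hy : (p : ℤ) ∣ y
    · -- contradiction
      obtain ⟨x', rfl⟩ := hx
      obtain ⟨y', rfl⟩ := hy
      rcases Nat.eq_zero_or_pos a with ha | ha
      · subst ha
        left
        apply eq_of_mem o2 o0
        have : h2 = 0 := by
          rw [← AddMonoid.addOrderOf_eq_one_iff]; simpa using o2
        rw [this]; exact AddSubgroup.zero_mem _
      · exfalso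
        have e3 : p ^ (a - 1) • h2 = 0 := by
          have z0 : p ^ a • h0 = 0 := by rw [← o0]; exact addOrderOf_nsmul_eq_zero h0
          have z1 : p ^ a • h1 = 0 := by rw [← o1]; exact addOrderOf_nsmul_eq_zero h1
          have hpa : p ^ (a - 1) * p = p ^ a := by rw [← pow_succ]; congr 1; omega
          have w0 : p ^ (a - 1) • (((p : ℤ) * x') • h0) = 0 := by
            have : p ^ (a - 1) • (((p : ℤ) * x') • h0) = x' • (p ^ a • h0) := by
              rw [← natCast_zsmul, ← natCast_zsmul, smul_smul, smul_smul, ← hpa]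
              congr 1; push_cast; ring
            rw [this, z0, smul_zero]
          have w1 : p ^ (a - 1) • (((p : ℤ) * y') • h1) = 0 := by
            have : p ^ (a - 1) • (((p : ℤ) * y') • h1) = y' • (p ^ a • h1) := by
              rw [← natCast_zsmul, ← natCast_zsmul, smul_smul, smul_smul, ← hpa]
              congr 1; push_cast; ring
            rw [this, z1, smul_zero]
          rw [← huw, smul_add, w0, w1, add_zero]
        have e4 := addOrderOf_dvd_of_nsmul_eq_zero e3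
        rw [o2] at e4
        have := Nat.le_of_dvd (pow_pos hp.pos _) e4
        have h3 := (Nat.pow_le_pow_iff_right hp.one_lt).mp this
        omega
    · -- p ∤ y : p^c ∣ x
      right
      have hxc : ((p : ℤ) ^ c) ∣ x := by
        refine IsCoprime.dvd_of_dvd_mul_right ?_ e2
        exact IsCoprime.pow_left ((Prime.coprime_iff_not_dvd hpi).mpr hy)
      apply eq_of_mem o2 o1
      rw [← huw]
      refine AddSubgroup.add_mem _ ?_ hw
      rw [← hH1, ← P1, hH1, mem_perp_zmultiples, map_zsmul, AddMonoidHom.zsmul_apply]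
      exact zero_of x hxc
  · left
    have hyc : ((p : ℤ) ^ c) ∣ y := by
      refine IsCoprime.dvd_of_dvd_mul_left ?_ e2
      exact IsCoprime.pow_left ((Prime.coprime_iff_not_dvd hpi).mpr hx)
    apply eq_of_mem o2 o0
    rw [← huw]
    refine AddSubgroup.add_mem _ hu ?_
    rw [← hH0, ← P0, hH0, mem_perp_zmultiples, map_zsmul, AddMonoidHom.zsmul_apply, hs h1 h0]
    exact zero_of y hyc

/-- **at most two** cyclic Lagrangian subgroups (`p` odd) -/
theorem two_lag (hs : ∀ x y, b x y = b y x) (hn : ∀ x, (∀ y, b x y = 0) → x = 0)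
    {p a : ℕ} (hp : p.Prime) (hp2 : p ≠ 2) (hc : Nat.card G ≤ p ^ a * p ^ a)
    (S : Finset (AddSubgroup G))
    (hS : ∀ Q ∈ S, ∃ h : G, addOrderOf h = p ^ a ∧ b h h = 0 ∧ Q = AddSubgroup.zmultiples h) :
    S.card ≤ 2 := by
  by_contra hcon
  push Not at hcon
  obtain ⟨Q0, m0, Q1, m1, Q2, m2, n01, n02, n12⟩ := Finset.two_lt_card.mp hcon
  obtain ⟨h0, o0, i0, rfl⟩ := hS Q0 m0
  obtain ⟨h1, o1, i1, rfl⟩ := hS Q1 m1
  obtain ⟨h2, o2, i2, rfl⟩ := hS Q2 m2
  have hop : ∀ g : G, addOrderOf (b h0 g) ∣ p ^ a := by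
    intro g
    rw [addOrderOf_dvd_iff_nsmul_eq_zero]
    have : b (p ^ a • h0) g = p ^ a • b h0 g := by rw [map_nsmul]; rfl
    rw [← this, ← o0, addOrderOf_nsmul_eq_zero]; simp
  obtain ⟨c1, -, hc1⟩ := (Nat.dvd_prime_pow hp).mp (hop h1)
  obtain ⟨c2, -, hc2⟩ := (Nat.dvd_prime_pow hp).mp (hop h2)
  rcases le_total c2 c1 with hle | hle
  · rcases key b hs hn hp hp2 hc i0 i1 i2 o0 o1 o2 (by rw [hc1, hc2]; exact pow_dvd_pow p hle)
      with h | h
    · exact n02 h.symm
    · exact n12 h.symm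
  · rcases key b hs hn hp hp2 hc i0 i2 i1 o0 o2 o1 (by rw [hc1, hc2]; exact pow_dvd_pow p hle)
      with h | h
    · exact n01 h.symm
    · exact n12 h

end Vale.Agent.P160.Half.LabTwo
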