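import Vale.Agent.P160.Half.Labels3

/-!
P160-HALF, note 11231 (2) of helper503: for `p` odd, a finite abelian `p`-group with a symmetric
nondegenerate pairing has at most two cyclic isotropic subgroups `H` with `|H|^2 = |G|`.

Proof.  Such `H` satisfy `H^⊥ = H`.  If `H₁ ∩ H₃ = H₂ ∩ H₃ = D` then
`H₂ ≤ D^⊥ = H₁ + H₃ = H₂ + H₃`, the generator of `H₂` is `x + z`, `2 b(x,z) = 0`, and `x` generates
`H₁` modulo `D`, so `z ∈ H₁^⊥ = H₁` and `H₂ = H₁`.  Among three subgroups two of the pairwise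
intersections are equal (subgroups of a cyclic `p`-group form a chain).
-/

namespace Vale.Agent.P160.Half.LabTwo276

open Finset Vale.Agent.P160.Half.Labels

set_option linter.unusedSectionVars false

variable {G : Type*} [AddCommGroup G] [Fintype G] {N : ℕ} [NeZero N]
variable (b : G →+ G →+ ZMod N)

/-- cyclic, isotropic, `|H|^2 = |G|` -/
structure Lag (H : AddSubgroup G) : Prop where
  cyc : ∃ h, H = AddSubgroup.zmultiples h
  iso : ∀ x ∈ H, ∀ y ∈ H, b x y = 0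
  card : Nat.card H ^ 2 = Nat.card G

theorem Lag.perp_eq {b : G →+ G →+ ZMod N} (hs : ∀ x y, b x y = b y x)
    (hn : ∀ x, (∀ y, b x y = 0) → x = 0) {H : AddSubgroup G} (h : Lag b H) : perp b H = H := by
  have hle : H ≤ perp b H := fun x hx y hy => h.iso x hx y hy
  symm
  apply AddSubgroup.eq_of_le_of_card_ge hle
  have h1 := card_perp b hs hn H
  have h2 := h.card
  have h3 : 0 < Nat.card H := Nat.card_pos
  rw [← h2, sq] at h1
  exact (Nat.eq_of_mul_eq_mul_right h3 h1).le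

theorem perp_sup (A B : AddSubgroup G) :
    perp b (A ⊔ B) = perp b A ⊓ perp b B := by
  ext x
  constructor
  · intro h
    exact ⟨fun y hy => h y (AddSubgroup.mem_sup_left hy), fun y hy => h y (AddSubgroup.mem_sup_right hy)⟩
  · rintro ⟨h1, h2⟩ y hy
    obtain ⟨a, ha, c, hc, rfl⟩ := AddSubgroup.mem_sup.mp hy
    rw [map_add, h1 a ha, h2 c hc, add_zero]

theorem key (hs : ∀ x y, b x y = b y x) (hn : ∀ x, (∀ y, b x y = 0) → x = 0) {p k : ℕ}
    (hp : p.Prime) (hp2 : p ≠ 2) (hG : Nat.card G = p ^ k) {H₁ H₂ H₃ : AddSubgroup G}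
    (h₁ : Lag b H₁) (h₂ : Lag b H₂) (h₃ : Lag b H₃) (hD : H₁ ⊓ H₃ = H₂ ⊓ H₃) : H₁ = H₂ := by
  have e₁ := h₁.perp_eq hs hn
  have e₂ := h₂.perp_eq hs hn
  have e₃ := h₃.perp_eq hs hn
  have f₁ : perp b (H₁ ⊓ H₃) = H₁ ⊔ H₃ := by
    have := perp_sup b H₁ H₃
    rw [e₁, e₃] at this
    rw [← this, perp_perp b hs hn]
  have f₂ : perp b (H₂ ⊓ H₃) = H₂ ⊔ H₃ := by
    have := perp_sup b H₂ H₃
    rw [e₂, e₃] at this
    rw [← this, perp_perp b hs hn]
  have hsup : H₁ ⊔ H₃ = H₂ ⊔ H₃ := by rw [← f₁, ← f₂, hD]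
  obtain ⟨h, hh⟩ := h₂.cyc
  have hmem : h ∈ H₂ := hh ▸ AddSubgroup.mem_zmultiples h
  have hmem' : h ∈ H₁ ⊔ H₃ := hsup ▸ AddSubgroup.mem_sup_left hmem
  obtain ⟨x, hx, z, hz, hxz⟩ := AddSubgroup.mem_sup.mp hmem'
  -- `b x z = 0`
  have h2 : (2 : ℕ) • b x z = 0 := by
    have h3 := h₂.iso h hmem h hmem
    rw [← hxz] at h3
    simp only [map_add, AddMonoidHom.add_apply] at h3
    rw [h₁.iso x hx x hx, h₃.iso z hz z hz, hs z x] at h3
    rw [two_nsmul]
    simpa using h3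
  have hpk : (p ^ k : ℕ) • b x z = 0 := by
    have h3 : Nat.card G • x = 0 := by
      rw [Nat.card_eq_fintype_card]
      exact card_nsmul_eq_zero
    rw [← hG, ← AddMonoidHom.nsmul_apply, ← map_nsmul, h3, map_zero, AddMonoidHom.zero_apply]
  have hb : b x z = 0 := by
    have hcop : Nat.Coprime 2 (p ^ k) := by
      refine Nat.Coprime.pow_right k ?_
      exact (Nat.coprime_primes Nat.prime_two hp).mpr (Ne.symm hp2)
    have h3 : addOrderOf (b x z) ∣ 2 := addOrderOf_dvd_of_nsmul_eq_zero h2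
    have h4 : addOrderOf (b x z) ∣ p ^ k := addOrderOf_dvd_of_nsmul_eq_zero hpk
    have h5 : addOrderOf (b x z) = 1 := Nat.eq_one_of_dvd_coprimes hcop h3 h4
    exact AddMonoid.addOrderOf_eq_one_iff.mp h5
  -- `z ⊥ H₁`
  have hz1 : z ∈ H₁ := by
    rw [← e₁]
    intro x' hx'
    have h3 : x' ∈ AddSubgroup.zmultiples x ⊔ H₃ := by
      have h4 : x' ∈ H₂ ⊔ H₃ := hsup ▸ AddSubgroup.mem_sup_left hx'
      have h5 : H₂ ⊔ H₃ ≤ AddSubgroup.zmultiples x ⊔ H₃ := by
        refine sup_le ?_ le_sup_right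
        rw [hh, AddSubgroup.zmultiples_le, ← hxz]
        exact AddSubgroup.add_mem_sup (AddSubgroup.mem_zmultiples x) hz
      exact h5 h4
    obtain ⟨y, hy, w, hw, hyw⟩ := AddSubgroup.mem_sup.mp h3
    obtain ⟨n, rfl⟩ := AddSubgroup.mem_zmultiples_iff.mp hy
    rw [← hyw, map_add, h₃.iso z hz w hw, add_zero, map_zsmul, hs z x, hb, smul_zero]
  have hle : H₂ ≤ H₁ := by
    rw [hh, AddSubgroup.zmultiples_le, ← hxz]
    exact H₁.add_mem hx hz1
  symm
  apply AddSubgroup.eq_of_le_of_card_ge hle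
  have h3 : Nat.card H₁ ^ 2 = Nat.card H₂ ^ 2 := by rw [h₁.card, h₂.card]
  exact (Nat.pow_left_injective (by norm_num : 2 ≠ 0) h3).le

theorem chain {p k : ℕ} (hp : p.Prime) (hG : Nat.card G = p ^ k) {H A B : AddSubgroup G}
    (hH : ∃ h, H = AddSubgroup.zmultiples h) (hA : A ≤ H) (hB : B ≤ H) : A ≤ B ∨ B ≤ A := by
  classical
  have hcyc : IsAddCyclic H := by
    obtain ⟨h, rfl⟩ := hH
    infer_instance
  have main : ∀ A B : AddSubgroup G, A ≤ H → B ≤ H → Nat.card A ∣ Nat.card B → A ≤ B := by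
    intro A B hA hB hd x hx
    have hx0 : Nat.card B • x = 0 := by
      have h1 : addOrderOf x ∣ Nat.card A := by
        have := addOrderOf_dvd_natCard (⟨x, hx⟩ : A)
        rwa [← AddSubgroup.addOrderOf_coe] at this
      exact addOrderOf_dvd_iff_nsmul_eq_zero.mp (h1.trans hd)
    have hle := IsAddCyclic.card_nsmul_eq_zero_le (α := H) (n := Nat.card B) Nat.card_pos
    -- the elements of `B` fill the set
    have hsub : (univ.filter fun y : H => (y : G) ∈ B) ⊆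
        (univ.filter fun y : H => Nat.card B • y = 0) := by
      intro y hy
      have h1 := (mem_filter.mp hy).2
      refine mem_filter.mpr ⟨mem_univ _, ?_⟩
      apply Subtype.ext
      have h2 : addOrderOf (y : G) ∣ Nat.card B := by
        have := addOrderOf_dvd_natCard (⟨(y : G), h1⟩ : B)
        rwa [← AddSubgroup.addOrderOf_coe] at this
      have h3 := addOrderOf_dvd_iff_nsmul_eq_zero.mp h2
      simpa using h3
    have hcardB : (univ.filter fun y : H => (y : G) ∈ B).card = Nat.card B := by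
      rw [← Fintype.card_subtype, ← Nat.card_eq_fintype_card]
      refine Nat.card_congr ⟨fun y => ⟨y.1.1, y.2⟩, fun y => ⟨⟨y.1, hB y.2⟩, y.2⟩, ?_, ?_⟩
      · intro y; rfl
      · intro y; rfl
    have heq := eq_of_subset_of_card_le hsub (by rw [hcardB]; exact hle)
    have hxm : (⟨x, hA hx⟩ : H) ∈ (univ.filter fun y : H => Nat.card B • y = 0) := by
      refine mem_filter.mpr ⟨mem_univ _, ?_⟩
      apply Subtype.ext
      simpa using hx0
    rw [← heq] at hxm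
    exact (mem_filter.mp hxm).2
  have hcA : Nat.card A ∣ p ^ k := hG ▸ AddSubgroup.card_addSubgroup_dvd_card A
  have hcB : Nat.card B ∣ p ^ k := hG ▸ AddSubgroup.card_addSubgroup_dvd_card B
  obtain ⟨a, _, ha⟩ := (Nat.dvd_prime_pow hp).mp hcA
  obtain ⟨c, _, hc⟩ := (Nat.dvd_prime_pow hp).mp hcB
  rcases le_total a c with h | h
  · left
    exact main A B hA hB (by rw [ha, hc]; exact pow_dvd_pow p h)
  · right
    exact main B A hB hA (by rw [ha, hc]; exact pow_dvd_pow p h)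

/-- **at most two Lagrangian cyclic subgroups** -/
theorem lab_two (hs : ∀ x y, b x y = b y x) (hn : ∀ x, (∀ y, b x y = 0) → x = 0) {p k : ℕ}
    (hp : p.Prime) (hp2 : p ≠ 2) (hG : Nat.card G = p ^ k) (S : Finset (AddSubgroup G))
    (hS : ∀ H ∈ S, Lag b H) : S.card ≤ 2 := by
  by_contra hcon
  push Not at hcon
  obtain ⟨H₁, m₁, H₂, m₂, H₃, m₃, d₁₂, d₁₃, d₂₃⟩ := Finset.two_lt_card.mp hcon
  have l₁ := hS _ m₁
  have l₂ := hS _ m₂
  have l₃ := hS _ m₃
  have K := fun {A B C : AddSubgroup G} (ha : Lag b A) (hb : Lag b B) (hc : Lag b C)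
    (h : A ⊓ C = B ⊓ C) => key b hs hn hp hp2 hG ha hb hc h
  rcases chain hp hG l₃.cyc (A := H₁ ⊓ H₃) (B := H₂ ⊓ H₃) inf_le_right inf_le_right with h | h
  · -- `H₁ ⊓ H₃ ≤ H₂ ⊓ H₃`, compare `H₁ ⊓ H₂` and `H₂ ⊓ H₃` in `H₂`
    rcases chain hp hG l₂.cyc (A := H₁ ⊓ H₂) (B := H₂ ⊓ H₃) inf_le_right inf_le_left with h' | h'
    · have e : H₂ ⊓ H₁ = H₃ ⊓ H₁ := by
        apply le_antisymm
        · intro x hx
          exact ⟨(h' ⟨hx.2, hx.1⟩).2, hx.2⟩
        · intro x hx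
          exact ⟨(h ⟨hx.2, hx.1⟩).1, hx.2⟩
      exact d₂₃ (K l₂ l₃ l₁ e)
    · have e : H₁ ⊓ H₃ = H₂ ⊓ H₃ := by
        apply le_antisymm h
        intro x hx
        exact ⟨(h' hx).1, hx.2⟩
      exact d₁₂ (K l₁ l₂ l₃ e)
  · -- `H₂ ⊓ H₃ ≤ H₁ ⊓ H₃`, compare in `H₁`
    rcases chain hp hG l₁.cyc (A := H₁ ⊓ H₂) (B := H₁ ⊓ H₃) inf_le_left inf_le_left with h' | h'
    · have e : H₁ ⊓ H₂ = H₃ ⊓ H₂ := by
        apply le_antisymm
        · intro x hx
          exact ⟨(h' hx).2, hx.2⟩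
        · intro x hx
          exact ⟨(h ⟨hx.2, hx.1⟩).1, hx.2⟩
      exact d₁₃ (K l₁ l₃ l₂ e)
    · have e : H₁ ⊓ H₃ = H₂ ⊓ H₃ := by
        apply le_antisymm
        · intro x hx
          exact ⟨(h' hx).2, hx.2⟩
        · exact h
      exact d₁₂ (K l₁ l₂ l₃ e)

/-- the primary part is a `p`-group -/
theorem card_prim {p : ℕ} (hp : p.Prime) : ∃ k, Nat.card (prim G p) = p ^ k := by
  have : Fact p.Prime := ⟨hp⟩
  have h1 : IsPGroup p (Multiplicative (prim G p)) := by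
    intro x
    refine ⟨(Nat.card G).factorization p, ?_⟩
    apply Multiplicative.toAdd.injective
    apply Subtype.ext
    exact mem_prim.mp x.toAdd.2
  obtain ⟨k, hk⟩ := IsPGroup.iff_card.mp h1
  exact ⟨k, by rw [← hk]; exact Nat.card_congr Multiplicative.ofAdd⟩

/-- **at most two cyclic Lagrangian subgroups of the `p`-primary part**, `p` odd -/
theorem lab_two_prim (hs : ∀ x y, b x y = b y x) (hn : ∀ x, (∀ y, b x y = 0) → x = 0) {p : ℕ}
    (hp : p.Prime) (hp2 : p ≠ 2) (S : Finset (AddSubgroup G))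
    (hS : ∀ H ∈ S, H ≤ prim G p ∧ (∃ h, H = AddSubgroup.zmultiples h) ∧
      (∀ x ∈ H, ∀ y ∈ H, b x y = 0) ∧ Nat.card H ^ 2 = Nat.card (prim G p)) : S.card ≤ 2 := by
  classical
  have : Fintype (prim G p) := Fintype.ofFinite _
  obtain ⟨k, hk⟩ := card_prim (G := G) hp
  have hinj : Set.InjOn (fun H : AddSubgroup G => H.addSubgroupOf (prim G p)) S := by
    intro A hA B hB hAB
    have h1 : A.addSubgroupOf (prim G p) = B.addSubgroupOf (prim G p) := hAB
    have hA' := (hS A hA).1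
    have hB' := (hS B hB).1
    ext x
    constructor
    · intro hx
      have h2 : (⟨x, hA' hx⟩ : prim G p) ∈ A.addSubgroupOf (prim G p) :=
        AddSubgroup.mem_addSubgroupOf.mpr hx
      rw [h1] at h2
      exact AddSubgroup.mem_addSubgroupOf.mp h2
    · intro hx
      have h2 : (⟨x, hB' hx⟩ : prim G p) ∈ B.addSubgroupOf (prim G p) :=
        AddSubgroup.mem_addSubgroupOf.mpr hx
      rw [← h1] at h2
      exact AddSubgroup.mem_addSubgroupOf.mp h2
  have hcard := card_image_of_injOn hinj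
  rw [← hcard]
  refine lab_two (resPair b (prim G p)) (fun x y => hs x.1 y.1) (prim_nondeg b hp hn) hp hp2 hk _ ?_
  intro H hH
  obtain ⟨A, hA, rfl⟩ := mem_image.mp hH
  obtain ⟨h1, ⟨h, h2⟩, h3, h4⟩ := hS A hA
  refine ⟨?_, fun x hx y hy => h3 x.1 (AddSubgroup.mem_addSubgroupOf.mp hx) y.1
    (AddSubgroup.mem_addSubgroupOf.mp hy), ?_⟩
  · have hm : h ∈ A := h2 ▸ AddSubgroup.mem_zmultiples h
    refine ⟨⟨h, h1 hm⟩, ?_⟩
    ext x
    rw [AddSubgroup.mem_addSubgroupOf, AddSubgroup.mem_zmultiples_iff, h2,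
      AddSubgroup.mem_zmultiples_iff]
    constructor
    · rintro ⟨n, hn'⟩
      exact ⟨n, Subtype.ext (by simpa using hn')⟩
    · rintro ⟨n, hn'⟩
      exact ⟨n, by rw [← hn']; simp⟩
  · have : Nat.card (A.addSubgroupOf (prim G p)) = Nat.card A :=
      Nat.card_congr (AddSubgroup.addSubgroupOfEquivOfLe h1).toEquiv
    rw [this, h4]

end Vale.Agent.P160.Half.LabTwo276
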