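import Vale.Agent.P160.Half.LabMax

/-! # P160, final assembly: count of vectors with multiplicity (helper207)

`G` finite abelian with a nondegenerate symmetric pairing, `S` a finite set of primes outside which the
primary parts are cyclic. On `S2 ⊆ S` every vector has trivial or half order; a vector with trivial
part lies in both lattices of that prime, so only the nontrivial primes are paid. -/

set_option linter.unusedSectionVars false

namespace Vale.Agent.P160.Half.LabVec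

open Finset Vale.Agent.P160.Half.Labels Vale.Agent.P160.Half.LabMax

variable {G : Type*} [AddCommGroup G] [Fintype G] {N : ℕ} [NeZero N]

/-- the `p`-component of `x` -/
noncomputable def comp (p : ℕ) (x : G) : G :=
  if hp : p.Prime then (exists_comp hp x).choose • x else 0

theorem comp_mem {p : ℕ} (hp : p.Prime) (x : G) : comp p x ∈ prim G p := by
  unfold comp; rw [dif_pos hp]; exact (exists_comp hp x).choose_spec.1

theorem comp_rem {p : ℕ} (hp : p.Prime) (x : G) :
    (Nat.card G / p ^ (Nat.card G).factorization p) • (x - comp p x) = 0 := by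
  unfold comp; rw [dif_pos hp]; exact (exists_comp hp x).choose_spec.2.1

theorem comp_order {p : ℕ} (hp : p.Prime) (x : G) :
    addOrderOf (comp p x) = p ^ (addOrderOf x).factorization p := by
  unfold comp; rw [dif_pos hp]; exact (exists_comp hp x).choose_spec.2.2

theorem comp_eq (p : ℕ) (x : G) : ∃ k : ℕ, comp p x = k • x := by
  unfold comp
  split_ifs with hp
  · exact ⟨_, rfl⟩
  · exact ⟨0, by simp⟩

variable (b : G →+ G →+ ZMod N)

/-- the lattice of a choice of local subgroups -/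
noncomputable def KK (S : Finset ℕ) (hc : IsAddCyclic (Fr G S))
    (C : (p : ℕ) → p ∈ S → AddSubgroup G) : AddSubgroup G :=
  (S.attach.sup fun p => C p.1 p.2) ⊔ Iso b S hc

theorem KK_iso (hs : ∀ x y, b x y = b y x) (S : Finset ℕ) (hS : ∀ p ∈ S, p.Prime)
    (hc : IsAddCyclic (Fr G S)) (C : (p : ℕ) → p ∈ S → AddSubgroup G)
    (hC1 : ∀ p (hp : p ∈ S), C p hp ≤ prim G p)
    (hC2 : ∀ p (hp : p ∈ S), ∀ x ∈ C p hp, ∀ y ∈ C p hp, b x y = 0) :
    ∀ x ∈ KK b S hc C, ∀ y ∈ KK b S hc C, b x y = 0 := by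
  classical
  have h1 : ∀ p (hp : p ∈ S) q (hq : q ∈ S), C p hp ≤ perp b (C q hq) := by
    intro p hp q hq x hx
    rw [mem_perp]
    intro y hy
    by_cases hpq : p = q
    · subst hpq
      exact hC2 p hp x hx y hy
    · have hx' := mem_prim.1 (hC1 p hp hx)
      have hy' := mem_prim.1 (hC1 q hq hy)
      exact orth_of_coprime b (((Nat.coprime_primes (hS p hp) (hS q hq)).2 hpq).pow _ _) hx' hy'
  have h2 : ∀ p (hp : p ∈ S), C p hp ≤ perp b (Iso b S hc) := by
    intro p hp x hx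
    rw [mem_perp]
    intro y hy
    have hx' := mem_prim.1 (hC1 p hp hx)
    have hy' := mem_Fr.1 hy.1 p hp
    exact orth_of_coprime b ((Nat.coprime_ordCompl (hS p hp) Nat.card_pos.ne').pow_left _) hx' hy'
  have h3 : Iso b S hc ≤ perp b (Iso b S hc) := by
    intro x hx
    rw [mem_perp]
    intro y hy
    exact orth_of_cyclic b S hc hx.1 hy.1 hx.2 hy.2
  have hflip : ∀ A B : AddSubgroup G, A ≤ perp b B → B ≤ perp b A := by
    intro A B hAB y hy
    rw [mem_perp]
    intro x hx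
    rw [hs]
    exact (mem_perp b).1 (hAB hx) y hy
  have h4 : ∀ q (hq : q ∈ S), KK b S hc C ≤ perp b (C q hq) := by
    intro q hq
    refine sup_le (Finset.sup_le fun p _ => h1 p.1 p.2 q hq) (hflip _ _ (h2 q hq))
  have h5 : KK b S hc C ≤ perp b (Iso b S hc) :=
    sup_le (Finset.sup_le fun p _ => h2 p.1 p.2) h3
  have h6 : KK b S hc C ≤ perp b (KK b S hc C) :=
    sup_le (Finset.sup_le fun p _ => hflip _ _ (h4 p.1 p.2)) (hflip _ _ h5)
  intro x hx y hy
  exact (mem_perp b).1 (h6 hx) y hy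

theorem mem_KK (S : Finset ℕ) (hS : ∀ p ∈ S, p.Prime)
    (hc : IsAddCyclic (Fr G S)) (C : (p : ℕ) → p ∈ S → AddSubgroup G) {x : G} (hxx : b x x = 0)
    (hx : ∀ p (hp : p ∈ S), comp p x ∈ C p hp) : x ∈ KK b S hc C := by
  classical
  set w := x - ∑ p ∈ S, comp p x with hw
  have hwF : w ∈ Fr G S := by
    rw [mem_Fr]
    intro p hp
    have h1 : w = (x - comp p x) - ∑ q ∈ S.erase p, comp q x := by
      rw [hw, ← Finset.add_sum_erase S _ hp]; abel
    rw [h1, smul_sub, comp_rem (hS p hp), zero_sub, neg_eq_zero, Finset.smul_sum]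
    refine sum_eq_zero fun q hq => ?_
    have hqS := mem_of_mem_erase hq
    have hqp := ne_of_mem_erase hq
    have h2 := mem_prim.1 (comp_mem (hS q hqS) x)
    have h3 : q ^ (Nat.card G).factorization q ∣ Nat.card G / p ^ (Nat.card G).factorization p := by
      have h4 : q ^ (Nat.card G).factorization q ∣
          p ^ (Nat.card G).factorization p * (Nat.card G / p ^ (Nat.card G).factorization p) := by
        rw [Nat.ordProj_mul_ordCompl_eq_self]; exact Nat.ordProj_dvd _ _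
      exact (((Nat.coprime_primes (hS q hqS) (hS p hp)).2 hqp).pow _ _).dvd_of_dvd_mul_left h4
    obtain ⟨c, hc'⟩ := h3
    rw [hc', mul_comm, mul_nsmul', h2, smul_zero]
  have hww : b w w = 0 := by
    choose k hk using fun p => comp_eq p x
    have h1 : w = ((1 : ℤ) - ((∑ p ∈ S, k p : ℕ) : ℤ)) • x := by
      rw [hw, sub_smul, one_smul, natCast_zsmul, Finset.sum_smul]
      congr 1
      exact sum_congr rfl fun p _ => hk p
    rw [h1, map_zsmul, map_zsmul, AddMonoidHom.zsmul_apply, hxx, smul_zero, smul_zero]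
  have hxw : x = (∑ p ∈ S.attach, comp p.1 x) + w := by
    rw [hw, Finset.sum_attach S (fun p => comp p x)]; abel
  rw [hxw]
  refine AddSubgroup.add_mem _ ?_ ?_
  · refine AddSubgroup.mem_sup_left ?_
    refine AddSubgroup.sum_mem _ fun p _ => ?_
    have : C p.1 p.2 ≤ S.attach.sup fun p => C p.1 p.2 :=
      Finset.le_sup (f := fun p : S => C p.1 p.2) (mem_attach S p)
    exact this (hx p.1 p.2)
  · exact AddSubgroup.mem_sup_right ⟨hwF, hww⟩

open Classical in
/-- number of members of the family at `p` which contain the `p`-component -/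
noncomputable def nn (F : ℕ → Finset (AddSubgroup G)) (p : ℕ) (x : G) : ℕ :=
  ((F p).filter fun Q => comp p x ∈ Q).card

open Classical in
/-- **weighted count** -/
theorem weighted (hs : ∀ x y, b x y = b y x) (S : Finset ℕ)
    (hS : ∀ p ∈ S, p.Prime) (h : ∀ p : ℕ, p.Prime → p ∉ S → Nat.card {x : G // p • x = 0} ≤ p)
    (F : ℕ → Finset (AddSubgroup G)) (hF1 : ∀ p ∈ S, ∀ Q ∈ F p, Q ≤ prim G p)
    (hF2 : ∀ p ∈ S, ∀ Q ∈ F p, ∀ x ∈ Q, ∀ y ∈ Q, b x y = 0)
    {ι : Type*} (Y : Finset ι) (x : ι → G) (hx : ∀ y ∈ Y, b (x y) (x y) = 0) (R : ℕ)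
    (hR : ∀ L : AddSubgroup G, (∀ u ∈ L, ∀ v ∈ L, b u v = 0) → (Y.filter fun y => x y ∈ L).card ≤ R) :
    ∑ y ∈ Y, ∏ p ∈ S, nn F p (x y) ≤ (∏ p ∈ S, (F p).card) * R := by
  have hc := Fr_cyclic S hS h
  have h1 : ∀ y ∈ Y, ∏ p ∈ S, nn F p (x y) ≤
      ((S.pi F).filter fun C => x y ∈ KK b S hc C).card := by
    intro y hy
    unfold nn
    rw [← card_pi S (fun p => (F p).filter fun Q => comp p (x y) ∈ Q)]
    refine card_le_card fun C hC => ?_
    rw [mem_pi] at hC
    rw [mem_filter, mem_pi]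
    exact ⟨fun p hp => (mem_filter.1 (hC p hp)).1,
      mem_KK b S hS hc C (hx y hy) fun p hp => (mem_filter.1 (hC p hp)).2⟩
  calc ∑ y ∈ Y, ∏ p ∈ S, nn F p (x y)
      ≤ ∑ y ∈ Y, ((S.pi F).filter fun C => x y ∈ KK b S hc C).card := sum_le_sum h1
    _ = ∑ C ∈ S.pi F, (Y.filter fun y => x y ∈ KK b S hc C).card := by
        simp_rw [card_filter]
        rw [sum_comm]
    _ ≤ ∑ _C ∈ S.pi F, R := by
        refine sum_le_sum fun C hC => ?_
        rw [mem_pi] at hC
        exact hR _ (KK_iso b hs S hS hc C (fun p hp => hF1 p hp _ (hC p hp))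
          fun p hp => hF2 p hp _ (hC p hp))
    _ = (∏ p ∈ S, (F p).card) * R := by
        rw [sum_const, card_pi, smul_eq_mul]

theorem comp_mem_Tp {p a : ℕ} (hp : p.Prime) {x : G} (hxx : b x x = 0)
    (ha : (addOrderOf x).factorization p = a) :
    AddSubgroup.closure {comp p x} ∈ Tp b p a := by
  obtain ⟨k, hk⟩ := comp_eq p x
  rw [mem_Tp]
  have hxk : ∀ z ∈ AddSubgroup.closure ({comp p x} : Set G), ∃ t : ℤ, z = t • x := by
    intro z hz
    rw [AddSubgroup.mem_closure_singleton] at hz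
    obtain ⟨t, rfl⟩ := hz
    exact ⟨t * k, by rw [mul_zsmul, natCast_zsmul, hk]⟩
  refine ⟨?_, ?_, comp p x, ?_, rfl⟩
  · rw [AddSubgroup.closure_le]
    intro z hz
    rw [Set.mem_singleton_iff.1 hz]
    exact comp_mem hp x
  · intro y hy z hz
    obtain ⟨s, rfl⟩ := hxk y hy
    obtain ⟨t, rfl⟩ := hxk z hz
    rw [map_zsmul, map_zsmul, AddMonoidHom.zsmul_apply, hxx, smul_zero, smul_zero]
  · rw [comp_order hp, ha]

open Classical in
/-- **Vector count.** `S2`: primes where the order of each vector is trivial or half (at most two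
subgroups); only the nontrivial ones (at most `t`) are paid, one bit each. -/
theorem vec_count207 (hs : ∀ x y, b x y = b y x) (hn : ∀ x, (∀ y, b x y = 0) → x = 0) (S S2 : Finset ℕ)
    (hS2 : S2 ⊆ S)
    (hS : ∀ p ∈ S, p.Prime) (h : ∀ p : ℕ, p.Prime → p ∉ S → Nat.card {x : G // p • x = 0} ≤ p)
    (h2 : ∀ p ∈ S2, (Tp b p ((Nat.card G).factorization p / 2)).card ≤ 2)
    (a : ℕ → ℕ) {ι : Type*} (Y : Finset ι) (x : ι → G) (hx : ∀ y ∈ Y, b (x y) (x y) = 0)
    (hxa : ∀ y ∈ Y, ∀ p ∈ S \ S2, (addOrderOf (x y)).factorization p = a p)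
    (hx2 : ∀ y ∈ Y, ∀ p ∈ S2, (addOrderOf (x y)).factorization p = 0 ∨
      (addOrderOf (x y)).factorization p = (Nat.card G).factorization p / 2)
    (t : ℕ) (ht : ∀ y ∈ Y, (S2.filter fun p => (addOrderOf (x y)).factorization p ≠ 0).card ≤ t)
    (R : ℕ)
    (hR : ∀ L : AddSubgroup G, (∀ u ∈ L, ∀ v ∈ L, b u v = 0) → (Y.filter fun y => x y ∈ L).card ≤ R) :
    (Y.card : ℝ) ≤ 2 ^ t * (∏ p ∈ S \ S2, tb (Nat.card G) (a p) p) * R := by
  set Lg : ℕ → Finset (AddSubgroup G) := fun p => Tp b p ((Nat.card G).factorization p / 2) with hLg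
  set F : ℕ → Finset (AddSubgroup G) := fun p =>
    if p ∈ S2 then (if (Lg p).Nonempty then Lg p else {⊥}) else Tp b p (a p) with hF
  have hbot : ∀ p, (⊥ : AddSubgroup G) ≤ prim G p := fun p => bot_le
  have hF1 : ∀ p ∈ S, ∀ Q ∈ F p, Q ≤ prim G p := by
    intro p _ Q hQ
    simp only [hF] at hQ
    split_ifs at hQ with h1 h3
    · exact ((mem_Tp b).1 hQ).1
    · rw [mem_singleton.1 hQ]; exact bot_le
    · exact ((mem_Tp b).1 hQ).1
  have hF2 : ∀ p ∈ S, ∀ Q ∈ F p, ∀ x ∈ Q, ∀ y ∈ Q, b x y = 0 := by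
    intro p _ Q hQ
    simp only [hF] at hQ
    split_ifs at hQ with h1 h3
    · exact ((mem_Tp b).1 hQ).2.1
    · rw [mem_singleton.1 hQ]
      intro x hx y hy
      rw [AddSubgroup.mem_bot.1 hx]; simp
    · exact ((mem_Tp b).1 hQ).2.1
  have hW := weighted b hs S hS h F hF1 hF2 Y x hx R hR
  -- sizes on `S2`
  have hc1 : ∀ p ∈ S2, 1 ≤ (F p).card := by
    intro p hp
    simp only [hF, if_pos hp]
    split_ifs with h3
    · exact card_pos.2 h3
    · simp
  have hc2 : ∀ p ∈ S2, (F p).card ≤ 2 := by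
    intro p hp
    simp only [hF, if_pos hp]
    split_ifs with h3
    · exact h2 p hp
    · simp
  -- local counts
  have hn1 : ∀ y ∈ Y, ∀ p ∈ S \ S2, 1 ≤ nn F p (x y) := by
    intro y hy p hp
    have hpS := (mem_sdiff.1 hp)
    unfold nn
    refine card_pos.2 ⟨AddSubgroup.closure {comp p (x y)}, mem_filter.2 ⟨?_, ?_⟩⟩
    · simp only [hF, if_neg hpS.2]
      exact comp_mem_Tp b (hS p hpS.1) (hx y hy) (hxa y hy p hp)
    · exact AddSubgroup.subset_closure (Set.mem_singleton _)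
  have hn2 : ∀ y ∈ Y, ∀ p ∈ S2, (addOrderOf (x y)).factorization p = 0 →
      nn F p (x y) = (F p).card := by
    intro y hy p hp h0
    have h3 : comp p (x y) = 0 := by
      have := comp_order (hS p (hS2 hp)) (x y)
      rw [h0, pow_zero, AddMonoid.addOrderOf_eq_one_iff] at this
      exact this
    unfold nn
    rw [filter_true_of_mem]
    intro Q _
    rw [h3]; exact Q.zero_mem
  have hn3 : ∀ y ∈ Y, ∀ p ∈ S2, 1 ≤ nn F p (x y) := by
    intro y hy p hp
    rcases hx2 y hy p hp with h0 | h0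
    · rw [hn2 y hy p hp h0]; exact hc1 p hp
    · have h3 := comp_mem_Tp b (hS p (hS2 hp)) (hx y hy) h0
      have h4 : (Lg p).Nonempty := ⟨_, h3⟩
      unfold nn
      refine card_pos.2 ⟨AddSubgroup.closure {comp p (x y)}, mem_filter.2 ⟨?_, ?_⟩⟩
      · simp only [hF, if_pos hp, if_pos h4]
        exact h3
      · exact AddSubgroup.subset_closure (Set.mem_singleton _)
  -- product over `S2`
  have hprod : ∀ y ∈ Y, (∏ p ∈ S2, ((F p).card : ℝ)) ≤ 2 ^ t * ∏ p ∈ S2, (nn F p (x y) : ℝ) := by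
    intro y hy
    set B := S2.filter fun p => (addOrderOf (x y)).factorization p ≠ 0 with hB
    have h5 : (∏ p ∈ S2, ((F p).card : ℝ)) ≤
        ∏ p ∈ S2, ((if (addOrderOf (x y)).factorization p ≠ 0 then (2 : ℝ) else 1) *
          (nn F p (x y) : ℝ)) := by
      refine prod_le_prod (fun p _ => Nat.cast_nonneg _) fun p hp => ?_
      split_ifs with h6
      · have h7 : ((F p).card : ℝ) ≤ 2 := by exact_mod_cast hc2 p hp
        have h8 : (1 : ℝ) ≤ nn F p (x y) := by exact_mod_cast hn3 y hy p hp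
        linarith
      · push Not at h6
        rw [hn2 y hy p hp h6, one_mul]
    rw [prod_mul_distrib] at h5
    have h9 : (∏ p ∈ S2, (if (addOrderOf (x y)).factorization p ≠ 0 then (2 : ℝ) else 1)) = 2 ^ B.card := by
      rw [← prod_filter, prod_const]
    rw [h9] at h5
    refine h5.trans ?_
    have h10 : (2 : ℝ) ^ B.card ≤ 2 ^ t := pow_le_pow_right₀ (by norm_num) (ht y hy)
    exact mul_le_mul_of_nonneg_right h10 (prod_nonneg fun p _ => Nat.cast_nonneg _)
  -- conclusion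
  have hA : (0 : ℝ) < ∏ p ∈ S2, ((F p).card : ℝ) :=
    prod_pos fun p hp => by exact_mod_cast hc1 p hp
  have hsplit : ∀ f : ℕ → ℝ, ∏ p ∈ S, f p = (∏ p ∈ S \ S2, f p) * ∏ p ∈ S2, f p := fun f =>
    (prod_sdiff hS2).symm
  have hWr : (∑ y ∈ Y, ∏ p ∈ S, (nn F p (x y) : ℝ)) ≤ (∏ p ∈ S, ((F p).card : ℝ)) * R := by
    exact_mod_cast hW
  have hlow : (Y.card : ℝ) * (∏ p ∈ S2, ((F p).card : ℝ)) ≤
      2 ^ t * ∑ y ∈ Y, ∏ p ∈ S, (nn F p (x y) : ℝ) := by
    rw [mul_sum, ← nsmul_eq_mul, ← sum_const]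
    refine sum_le_sum fun y hy => ?_
    refine (hprod y hy).trans ?_
    refine mul_le_mul_of_nonneg_left ?_ (by positivity)
    rw [hsplit]
    have h11 : (1 : ℝ) ≤ ∏ p ∈ S \ S2, (nn F p (x y) : ℝ) := by
      have : 0 < ∏ p ∈ S \ S2, nn F p (x y) := Finset.prod_pos fun p hp => hn1 y hy p hp
      exact_mod_cast Nat.succ_le_of_lt this
    exact le_mul_of_one_le_left (prod_nonneg fun p _ => Nat.cast_nonneg _) h11
  have hup : (∏ p ∈ S \ S2, ((F p).card : ℝ)) ≤ ∏ p ∈ S \ S2, tb (Nat.card G) (a p) p := by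
    refine prod_le_prod (fun p _ => Nat.cast_nonneg _) fun p hp => ?_
    have hpS := mem_sdiff.1 hp
    simp only [hF, if_neg hpS.2]
    exact card_Tp b hs hn (hS p hpS.1) (a p)
  rw [hsplit (fun p => ((F p).card : ℝ))] at hWr
  have hfin : (Y.card : ℝ) * (∏ p ∈ S2, ((F p).card : ℝ)) ≤
      (2 ^ t * (∏ p ∈ S \ S2, tb (Nat.card G) (a p) p) * R) * (∏ p ∈ S2, ((F p).card : ℝ)) := by
    calc (Y.card : ℝ) * (∏ p ∈ S2, ((F p).card : ℝ))
        ≤ 2 ^ t * ∑ y ∈ Y, ∏ p ∈ S, (nn F p (x y) : ℝ) := hlow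
      _ ≤ 2 ^ t * (((∏ p ∈ S \ S2, ((F p).card : ℝ)) * ∏ p ∈ S2, ((F p).card : ℝ)) * R) :=
          mul_le_mul_of_nonneg_left hWr (by positivity)
      _ ≤ 2 ^ t * (((∏ p ∈ S \ S2, tb (Nat.card G) (a p) p) * ∏ p ∈ S2, ((F p).card : ℝ)) * R) := by
          refine mul_le_mul_of_nonneg_left ?_ (by positivity)
          refine mul_le_mul_of_nonneg_right ?_ (Nat.cast_nonneg _)
          exact mul_le_mul_of_nonneg_right hup hA.le
      _ = _ := by ring
  exact le_of_mul_le_mul_right hfin hA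

end Vale.Agent.P160.Half.LabVec
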