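import Vale.Agent.P160.Half.LabVec207
import Vale.Agent.P160.Half.LabTwo276

/-! # P160, final assembly: the hyperbolic primes have at most two lattices (helper207) -/

set_option linter.unusedSectionVars false

namespace Vale.Agent.P160.Half.LabVec

open Finset Vale.Agent.P160.Half.Labels Vale.Agent.P160.Half.LabMax

variable {G : Type*} [AddCommGroup G] [Fintype G] {N : ℕ} [NeZero N]

theorem card_prim_eq {p : ℕ} (hp : p.Prime) :
    Nat.card (prim G p) = p ^ (Nat.card G).factorization p := by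
  classical
  set n := Nat.card G with hn
  have hn0 : n ≠ 0 := Nat.card_pos.ne'
  obtain ⟨k, hk⟩ := LabTwo276.card_prim (G := G) hp
  have hd : Nat.card (prim G p) ∣ n := AddSubgroup.card_addSubgroup_dvd_card _
  have hle : k ≤ n.factorization p := by
    rw [hk] at hd
    exact (hp.pow_dvd_iff_le_factorization hn0).1 hd
  -- the quotient has order prime to `p`
  have hq : Nat.card (G ⧸ prim G p) * Nat.card (prim G p) = n :=
    (AddSubgroup.card_eq_card_quotient_mul_card_addSubgroup _).symm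
  have hnp : ¬ p ∣ Nat.card (G ⧸ prim G p) := by
    intro hpd
    haveI : Fact p.Prime := ⟨hp⟩
    obtain ⟨x, hx⟩ := exists_prime_addOrderOf_dvd_card' p hpd
    obtain ⟨g, rfl⟩ := QuotientAddGroup.mk_surjective x
    have h1 : p • g ∈ prim G p := by
      rw [← QuotientAddGroup.eq_zero_iff]
      have := addOrderOf_nsmul_eq_zero (QuotientAddGroup.mk g : G ⧸ prim G p)
      rw [hx] at this
      exact_mod_cast this
    have h2 : g ∈ prim G p := by
      rw [mem_prim] at h1 ⊢
      -- order of `g` is a divisor of `p ^ (f+1)` and of `n`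
      have h3 : addOrderOf g ∣ p ^ ((Nat.card G).factorization p + 1) := by
        apply addOrderOf_dvd_of_nsmul_eq_zero
        rw [pow_succ, mul_nsmul', h1]
      have h4 : addOrderOf g ∣ Nat.card G := addOrderOf_dvd_natCard g
      obtain ⟨e, _, he⟩ := (Nat.dvd_prime_pow hp).1 h3
      have h5 : e ≤ (Nat.card G).factorization p := by
        rw [he] at h4
        exact (hp.pow_dvd_iff_le_factorization Nat.card_pos.ne').1 h4
      have h6 : addOrderOf g ∣ p ^ (Nat.card G).factorization p := by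
        rw [he]; exact pow_dvd_pow p h5
      exact addOrderOf_dvd_iff_nsmul_eq_zero.1 h6
    have h7 : (QuotientAddGroup.mk g : G ⧸ prim G p) = 0 := (QuotientAddGroup.eq_zero_iff g).2 h2
    rw [h7, addOrderOf_zero] at hx
    exact hp.one_lt.ne hx
  rw [hk]
  congr 1
  refine le_antisymm hle ?_
  have h8 : n.factorization p = (Nat.card (G ⧸ prim G p)).factorization p + k := by
    rw [← hq, hk, Nat.factorization_mul Nat.card_pos.ne' (pow_ne_zero _ hp.ne_zero)]
    simp [hp.factorization_self, Nat.factorization_pow]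
  rw [h8, Nat.factorization_eq_zero_of_not_dvd hnp]
  omega

variable (b : G →+ G →+ ZMod N)

theorem card_Tp_half (hs : ∀ x y, b x y = b y x) (hn : ∀ x, (∀ y, b x y = 0) → x = 0) {p : ℕ}
    (hp : p.Prime) (hp2 : p ≠ 2) (he : 2 ∣ (Nat.card G).factorization p) :
    (Tp b p ((Nat.card G).factorization p / 2)).card ≤ 2 := by
  refine LabTwo276.lab_two_prim b hs hn hp hp2 _ fun H hH => ?_
  obtain ⟨h1, h2, g, hg, hHg⟩ := (mem_Tp b).1 hH
  refine ⟨h1, ⟨g, by rw [hHg, AddSubgroup.zmultiples_eq_closure]⟩, h2, ?_⟩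
  rw [card_prim_eq hp, hHg, ← AddSubgroup.zmultiples_eq_closure, Nat.card_zmultiples, hg, ← pow_mul,
    Nat.div_mul_cancel he]

open Classical in
/-- **Vector count**, hyperbolic primes `S2`: odd primes with `v_p |G|` even. -/
theorem vec_count' (hs : ∀ x y, b x y = b y x) (hn : ∀ x, (∀ y, b x y = 0) → x = 0) (S S2 : Finset ℕ)
    (hS2 : S2 ⊆ S)
    (hS : ∀ p ∈ S, p.Prime) (h : ∀ p : ℕ, p.Prime → p ∉ S → Nat.card {x : G // p • x = 0} ≤ p)
    (h2 : ∀ p ∈ S2, p ≠ 2 ∧ 2 ∣ (Nat.card G).factorization p)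
    (a : ℕ → ℕ) {ι : Type*} (Y : Finset ι) (x : ι → G) (hx : ∀ y ∈ Y, b (x y) (x y) = 0)
    (hxa : ∀ y ∈ Y, ∀ p ∈ S \ S2, (addOrderOf (x y)).factorization p = a p)
    (hx2 : ∀ y ∈ Y, ∀ p ∈ S2, (addOrderOf (x y)).factorization p = 0 ∨
      (addOrderOf (x y)).factorization p = (Nat.card G).factorization p / 2)
    (t : ℕ) (ht : ∀ y ∈ Y, (S2.filter fun p => (addOrderOf (x y)).factorization p ≠ 0).card ≤ t)
    (R : ℕ)
    (hR : ∀ L : AddSubgroup G, (∀ u ∈ L, ∀ v ∈ L, b u v = 0) → (Y.filter fun y => x y ∈ L).card ≤ R) :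
    (Y.card : ℝ) ≤ 2 ^ t * (∏ p ∈ S \ S2, tb (Nat.card G) (a p) p) * R :=
  vec_count207 b hs hn S S2 hS2 hS h
    (fun p hp => card_Tp_half b hs hn (hS p (hS2 hp)) (h2 p hp).1 (h2 p hp).2) a Y x hx hxa hx2 t ht R hR

end Vale.Agent.P160.Half.LabVec
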