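import Mathlib

/-!
# Counting isotropic subgroups (labels)

`G` finite abelian group with a symmetric nondegenerate pairing `b : G →+ G →+ ZMod N`,
`h0` isotropic of order `v`.
-/

namespace Vale.Agent.P160.Half.Labels

open Finset

variable {G : Type*} [AddCommGroup G] [Fintype G] {N : ℕ} [NeZero N]

/-- number of elements of a given order in `ZMod N` -/
theorem card_order_le (r : ℕ) : (univ.filter (fun β : ZMod N => addOrderOf β = r)).card ≤ r := by
  classical
  rcases Nat.eq_zero_or_pos r with h | h
  · subst h
    have : (univ.filter (fun β : ZMod N => addOrderOf β = 0)) = ∅ := by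
      ext β
      simp only [mem_filter, mem_univ, true_and, notMem_empty, iff_false]
      exact (addOrderOf_pos β).ne'
    rw [this]; simp
  · by_cases hr : r ∣ Fintype.card (ZMod N)
    · have := IsAddCyclic.card_addOrderOf_eq_totient (α := ZMod N) (d := r) (by simpa using hr)
      rw [this]
      exact Nat.totient_le r
    · have : (univ.filter (fun β : ZMod N => addOrderOf β = r)) = ∅ := by
        ext β
        simp only [mem_filter, mem_univ, true_and, notMem_empty, iff_false]
        intro hβ
        exact hr (hβ ▸ addOrderOf_dvd_card)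
      simp [this]

/-- number of elements killed by `w` in `ZMod N` -/
theorem card_kill_le {w : ℕ} (hw : 0 < w) :
    (univ.filter (fun β : ZMod N => w • β = 0)).card ≤ w := by
  classical
  exact IsAddCyclic.card_nsmul_eq_zero_le hw

/-- a set of residues below `v`, all congruent modulo a divisor `r`, has at most `v / r` elements -/
theorem card_modEq_le {v r : ℕ} (hrv : r ∣ v) (T : Finset ℕ)
    (hT : ∀ t ∈ T, t < v) (hc : ∀ t ∈ T, ∀ s ∈ T, t ≡ s [MOD r]) : T.card * r ≤ v := by
  classical
  have h1 : T.card ≤ (range (v / r)).card := by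
    apply Finset.card_le_card_of_injOn (fun t => t / r)
    · intro t ht
      simp only [coe_range, Set.mem_Iio]
      exact Nat.div_lt_div_of_lt_of_dvd hrv (hT t ht)
    · intro t ht s hs hts
      have h := hc t ht s hs
      have e1 := Nat.div_add_mod t r
      have e2 := Nat.div_add_mod s r
      have hts' : t / r = s / r := hts
      rw [Nat.ModEq] at h
      rw [← e1, ← e2, hts', h]
  rw [card_range] at h1
  calc T.card * r ≤ v / r * r := Nat.mul_le_mul_right _ h1
    _ = v := Nat.div_mul_cancel hrv

variable (b : G →+ G →+ ZMod N)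

theorem card_ker_mul_le (hn : ∀ x, (∀ y, b x y = 0) → x = 0) (h0 : G) :
    Nat.card (b h0).ker * addOrderOf h0 ≤ Nat.card G := by
  classical
  have h1 : Nat.card G = Nat.card (b h0).ker * Nat.card (b h0).range := by
    have := AddSubgroup.card_eq_card_quotient_mul_card_addSubgroup (b h0).ker
    rw [this, mul_comm]
    congr 1
    exact Nat.card_congr (QuotientAddGroup.quotientKerEquivRange (b h0)).toEquiv
  rw [h1]
  apply Nat.mul_le_mul_left
  apply Nat.le_of_dvd Nat.card_pos
  rw [addOrderOf_dvd_iff_nsmul_eq_zero]
  apply hn
  intro y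
  have h2 : b (Nat.card (b h0).range • h0) y = Nat.card (b h0).range • (b h0 y) := by
    rw [map_nsmul]; rfl
  rw [h2]
  have h3 : Nat.card (b h0).range • (⟨b h0 y, ⟨y, rfl⟩⟩ : (b h0).range) = 0 :=
    card_nsmul_eq_zero'
  have h4 := congrArg (Subtype.val) h3
  simpa using h4

theorem card_fiber_le (h0 : G) (β : ZMod N) [DecidableEq (ZMod N)] :
    (univ.filter (fun g : G => b h0 g = β)).card ≤ Nat.card (b h0).ker := by
  classical
  rcases (univ.filter (fun g : G => b h0 g = β)).eq_empty_or_nonempty with h | ⟨g0, hg0⟩
  · rw [h]; simp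
  · rw [mem_filter] at hg0
    have e1 : Nat.card (b h0).ker = (univ.filter (fun g : G => g ∈ (b h0).ker)).card := by
      rw [Nat.card_eq_fintype_card, Fintype.card_subtype]
    rw [e1]
    apply Finset.card_le_card_of_injOn (fun g => g - g0)
    · intro g hg
      simp only [coe_filter, mem_univ, true_and, Set.mem_ofPred_eq] at hg ⊢
      rw [AddMonoidHom.mem_ker, map_sub, hg, hg0.2, sub_self]
    · intro g _ g' _ h
      exact sub_left_injective h

theorem coset_count [DecidableEq G] (h0 : G) (h00 : b h0 h0 = 0) (S : Finset G) (β : ZMod N)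
    (hS : ∀ s ∈ S, b h0 s = β) (M : ℕ)
    (hM : ∀ g, b h0 g = β →
      ((range (addOrderOf h0)).filter (fun t => g - t • h0 ∈ S)).card ≤ M) :
    S.card * addOrderOf h0 ≤ M * Nat.card (b h0).ker := by
  classical
  have h1 : (S ×ˢ range (addOrderOf h0)).card
      ≤ M * (univ.filter (fun g : G => b h0 g = β)).card := by
    apply Finset.card_le_mul_card_image_of_maps_to
      (f := fun p : G × ℕ => p.1 + p.2 • h0)
    · rintro ⟨s, t⟩ hp
      rw [mem_product] at hp
      simp only [mem_filter, mem_univ, true_and, map_add, map_nsmul, h00, smul_zero, add_zero]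
      exact hS s hp.1
    · intro g hg
      rw [mem_filter] at hg
      refine le_trans ?_ (hM g hg.2)
      apply Finset.card_le_card_of_injOn (fun p => p.2)
      · rintro ⟨s, t⟩ hp
        simp only [coe_filter, mem_product, Set.mem_ofPred_eq] at hp ⊢
        refine ⟨hp.1.2, ?_⟩
        rw [← hp.2, add_sub_cancel_right]
        exact hp.1.1
      · rintro ⟨s, t⟩ hp ⟨s', t'⟩ hp' h
        simp only [coe_filter, mem_product, Set.mem_ofPred_eq] at hp hp'
        have ht : t = t' := h
        subst ht
        have : s + t • h0 = s' + t • h0 := by rw [hp.2, hp'.2]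
        rw [add_right_cancel this]
  rw [card_product, card_range] at h1
  exact h1.trans (Nat.mul_le_mul_left _ (card_fiber_le b h0 β))


/-- fibre count for isotropic elements -/
theorem iso_fiber [DecidableEq G] (hs : ∀ x y, b x y = b y x) (hn : ∀ x, (∀ y, b x y = 0) → x = 0)
    (h0 : G) (h00 : b h0 h0 = 0) (β : ZMod N) :
    (univ.filter (fun h : G => b h h = 0 ∧ b h0 h = β)).card * addOrderOf β * addOrderOf h0
      ≤ 2 * Nat.card G := by
  classical
  have hv : 0 < addOrderOf h0 := addOrderOf_pos h0
  set S := univ.filter (fun h : G => b h h = 0 ∧ b h0 h = β) with hSdef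
  rcases S.eq_empty_or_nonempty with h | ⟨s0, hs0⟩
  · rw [h]; simp
  have hvβ : addOrderOf h0 • β = 0 := by
    rw [hSdef, mem_filter] at hs0
    rw [← hs0.2.2]
    have : b (addOrderOf h0 • h0) s0 = addOrderOf h0 • b h0 s0 := by rw [map_nsmul]; rfl
    rw [← this, addOrderOf_nsmul_eq_zero]; simp
  set r := addOrderOf (2 • β) with hr
  have hrpos : 0 < r := addOrderOf_pos _
  have hrv : r ∣ addOrderOf h0 := by
    rw [hr, addOrderOf_dvd_iff_nsmul_eq_zero, nsmul_left_comm, hvβ, smul_zero]
  have h2r : addOrderOf β ≤ 2 * r := by
    apply Nat.le_of_dvd (by positivity)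
    rw [addOrderOf_dvd_iff_nsmul_eq_zero, mul_comm, mul_nsmul', hr, addOrderOf_nsmul_eq_zero]
  have key : S.card * addOrderOf h0 ≤ (addOrderOf h0 / r) * Nat.card (b h0).ker := by
    apply coset_count b h0 h00 S β
    · intro s hs'
      rw [hSdef, mem_filter] at hs'
      exact hs'.2.2
    · intro g hg
      rw [Nat.le_div_iff_mul_le hrpos]
      apply card_modEq_le hrv
      · intro t ht
        rw [mem_filter, mem_range] at ht
        exact ht.1
      · intro t ht s hs'
        have hh : ∀ t : ℕ, g - t • h0 ∈ S → t • (2 • β) = b g g := by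
          intro t ht
          rw [hSdef, mem_filter] at ht
          have h1 := ht.2.1
          have hg' : b g h0 = β := by rw [hs]; exact hg
          have h2 : b (g - t • h0) (g - t • h0) = b g g - t • (2 • β) := by
            simp only [map_sub, map_nsmul, AddMonoidHom.sub_apply, AddMonoidHom.nsmul_apply, hg,
              hg', h00]
            simp only [nsmul_eq_mul, Nat.cast_ofNat, mul_zero]
            ring
          rw [h2] at h1
          exact (sub_eq_zero.mp h1).symm
        have e1 := hh t (mem_filter.mp ht).2
        have e2 := hh s (mem_filter.mp hs').2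
        exact nsmul_eq_nsmul_iff_modEq.mp (e1.trans e2.symm)
  have key2 : S.card * r * addOrderOf h0 ≤ Nat.card G := by
    calc S.card * r * addOrderOf h0 = (S.card * addOrderOf h0) * r := by ring
      _ ≤ ((addOrderOf h0 / r) * Nat.card (b h0).ker) * r := Nat.mul_le_mul_right _ key
      _ = Nat.card (b h0).ker * ((addOrderOf h0 / r) * r) := by ring
      _ = Nat.card (b h0).ker * addOrderOf h0 := by rw [Nat.div_mul_cancel hrv]
      _ ≤ Nat.card G := card_ker_mul_le b hn h0
  calc S.card * addOrderOf β * addOrderOf h0 ≤ S.card * (2 * r) * addOrderOf h0 := by gcongr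
    _ = 2 * (S.card * r * addOrderOf h0) := by ring
    _ ≤ 2 * Nat.card G := by gcongr

/-- **(A)** the number of isotropic elements -/
theorem iso_card [DecidableEq G] (hs : ∀ x y, b x y = b y x)
    (hn : ∀ x, (∀ y, b x y = 0) → x = 0) (h0 : G) (h00 : b h0 h0 = 0) :
    (univ.filter (fun h : G => b h h = 0)).card * addOrderOf h0
      ≤ 2 * (addOrderOf h0).divisors.card * Nat.card G := by
  classical
  have hv : 0 < addOrderOf h0 := addOrderOf_pos h0
  set v := addOrderOf h0 with hvdef
  set S := univ.filter (fun h : G => b h h = 0) with hSdef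
  have hmaps : ∀ h ∈ S, addOrderOf (b h0 h) ∈ v.divisors := by
    intro h _
    rw [Nat.mem_divisors]
    refine ⟨?_, hv.ne'⟩
    rw [addOrderOf_dvd_iff_nsmul_eq_zero]
    have : b (v • h0) h = v • b h0 h := by rw [map_nsmul]; rfl
    rw [← this, hvdef, addOrderOf_nsmul_eq_zero]; simp
  rw [Finset.card_eq_sum_card_fiberwise hmaps, sum_mul]
  calc ∑ r ∈ v.divisors, (S.filter (fun h => addOrderOf (b h0 h) = r)).card * v
      ≤ ∑ r ∈ v.divisors, 2 * Nat.card G := by
        apply Finset.sum_le_sum
        intro r hr
        have hrpos : 0 < r := Nat.pos_of_mem_divisors hr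
        have hB : ∀ h ∈ S.filter (fun h => addOrderOf (b h0 h) = r),
            b h0 h ∈ univ.filter (fun β : ZMod N => addOrderOf β = r) := by
          intro h hh
          rw [mem_filter] at hh
          simp [hh.2]
        rw [Finset.card_eq_sum_card_fiberwise hB, sum_mul]
        have h1 : ∀ β ∈ univ.filter (fun β : ZMod N => addOrderOf β = r),
            r * ((filter (fun h => b h0 h = β)
              (S.filter (fun h => addOrderOf (b h0 h) = r))).card * v) ≤ 2 * Nat.card G := by
          intro β hβ
          rw [mem_filter] at hβ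
          have h2 := iso_fiber b hs hn h0 h00 β
          have h3 : (filter (fun h => b h0 h = β)
              (S.filter (fun h => addOrderOf (b h0 h) = r))).card
              ≤ (univ.filter (fun h : G => b h h = 0 ∧ b h0 h = β)).card := by
            apply Finset.card_le_card
            intro h hh
            simp only [mem_filter, mem_univ, true_and, hSdef] at hh ⊢
            exact ⟨hh.1.1, hh.2⟩
          rw [hβ.2] at h2
          calc _ = (filter (fun h => b h0 h = β)
              (S.filter (fun h => addOrderOf (b h0 h) = r))).card * r * v := by ring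
            _ ≤ (univ.filter (fun h : G => b h h = 0 ∧ b h0 h = β)).card * r * v := by gcongr
            _ ≤ _ := h2
        have h4 : r * ∑ β ∈ univ.filter (fun β : ZMod N => addOrderOf β = r),
            (filter (fun h => b h0 h = β)
              (S.filter (fun h => addOrderOf (b h0 h) = r))).card * v ≤ r * (2 * Nat.card G) := by
          rw [mul_sum]
          calc _ ≤ ∑ β ∈ univ.filter (fun β : ZMod N => addOrderOf β = r), 2 * Nat.card G :=
                Finset.sum_le_sum h1
            _ = (univ.filter (fun β : ZMod N => addOrderOf β = r)).card * (2 * Nat.card G) := by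
                rw [sum_const, smul_eq_mul]
            _ ≤ r * (2 * Nat.card G) := Nat.mul_le_mul_right _ (card_order_le r)
        exact Nat.le_of_mul_le_mul_left h4 hrpos
    _ = 2 * v.divisors.card * Nat.card G := by
        rw [sum_const, smul_eq_mul]; ring

/-- **(B)** the number of elements killed by a divisor `w` of `v` -/
theorem kill_card [DecidableEq G] (hn : ∀ x, (∀ y, b x y = 0) → x = 0) (h0 : G)
    (h00 : b h0 h0 = 0) {w : ℕ} (hw : w ∣ addOrderOf h0) :
    (univ.filter (fun h : G => w • h = 0)).card * addOrderOf h0 ^ 2 ≤ w ^ 2 * Nat.card G := by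
  classical
  have hv : 0 < addOrderOf h0 := addOrderOf_pos h0
  have hwpos : 0 < w := Nat.pos_of_dvd_of_pos hw hv
  set v := addOrderOf h0 with hvdef
  set S := univ.filter (fun h : G => w • h = 0) with hSdef
  have hB : ∀ h ∈ S, b h0 h ∈ univ.filter (fun β : ZMod N => w • β = 0) := by
    intro h hh
    rw [hSdef, mem_filter] at hh
    simp only [mem_filter, mem_univ, true_and]
    rw [← map_nsmul, hh.2, map_zero]
  rw [Finset.card_eq_sum_card_fiberwise hB, sum_mul]
  have h1 : ∀ β ∈ univ.filter (fun β : ZMod N => w • β = 0),
      (S.filter (fun h => b h0 h = β)).card * v ^ 2 ≤ w * Nat.card G := by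
    intro β _
    have h2 : (S.filter (fun h => b h0 h = β)).card * v ≤ w * Nat.card (b h0).ker := by
      apply coset_count b h0 h00 _ β
      · intro s hs'
        rw [mem_filter] at hs'
        exact hs'.2
      · intro g hg
        have hvw : 0 < v / w := Nat.div_pos (Nat.le_of_dvd hv hw) hwpos
        have h3 : ((range (addOrderOf h0)).filter (fun t => g - t • h0 ∈
            (S.filter (fun h => b h0 h = β)))).card * (v / w) ≤ v := by
          apply card_modEq_le (Nat.div_dvd_of_dvd hw)
          · intro t ht
            rw [mem_filter, mem_range] at ht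
            exact ht.1
          · intro t ht s hs'
            have hh : ∀ t : ℕ, g - t • h0 ∈ S.filter (fun h => b h0 h = β) →
                (w * t) • h0 = w • g := by
              intro t ht
              rw [mem_filter, hSdef, mem_filter] at ht
              have h4 := ht.1.2
              rw [smul_sub, sub_eq_zero] at h4
              rw [h4, mul_comm, mul_nsmul]
            have e1 := hh t (mem_filter.mp ht).2
            have e2 := hh s (mem_filter.mp hs').2
            have e3 := nsmul_eq_nsmul_iff_modEq.mp (e1.trans e2.symm)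
            rw [← hvdef] at e3
            have e4 : w * t ≡ w * s [MOD w * (v / w)] := by
              rw [Nat.mul_div_cancel' hw]; exact e3
            exact Nat.ModEq.mul_left_cancel' hwpos.ne' e4
        have h5 : w * (v / w) = v := Nat.mul_div_cancel' hw
        exact Nat.le_of_mul_le_mul_right (h3.trans h5.ge) hvw
    calc (S.filter (fun h => b h0 h = β)).card * v ^ 2
        = ((S.filter (fun h => b h0 h = β)).card * v) * v := by ring
      _ ≤ (w * Nat.card (b h0).ker) * v := Nat.mul_le_mul_right _ h2
      _ = w * (Nat.card (b h0).ker * v) := by ring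
      _ ≤ w * Nat.card G := Nat.mul_le_mul_left _ (card_ker_mul_le b hn h0)
  calc _ ≤ ∑ β ∈ univ.filter (fun β : ZMod N => w • β = 0), w * Nat.card G :=
        Finset.sum_le_sum h1
    _ = (univ.filter (fun β : ZMod N => w • β = 0)).card * (w * Nat.card G) := by
        rw [sum_const, smul_eq_mul]
    _ ≤ w * (w * Nat.card G) := Nat.mul_le_mul_right _ (card_kill_le hwpos)
    _ = w ^ 2 * Nat.card G := by ring

end Vale.Agent.P160.Half.Labels
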