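import Vale.Agent.P160.Half.Labels

/-!
# Counting isotropic subgroups with few generators
-/

namespace Vale.Agent.P160.Half.Labels

open Finset

variable {G : Type*} [AddCommGroup G] [Fintype G] {N : ℕ} [NeZero N]

variable (b : G →+ G →+ ZMod N)

/-- subgroups generated by `h` and `ρ` more elements orthogonal to `h`: at most
`(|h^⊥| / ord h)^ρ` of them -/
theorem gen_count (h : G) (h0 : b h h = 0) (ρ : ℕ) (S : Finset (AddSubgroup G))
    (hS : ∀ Q ∈ S, ∃ g : Fin ρ → G, (∀ i, b h (g i) = 0) ∧
      Q = AddSubgroup.closure (insert h (Set.range g))) :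
    S.card * addOrderOf h ^ ρ ≤ (Nat.card (b h).ker) ^ ρ := by
  classical
  set H : AddSubgroup G := AddSubgroup.zmultiples h with hH
  set K : AddSubgroup (G ⧸ H) := (b h).ker.map (QuotientAddGroup.mk' H) with hK
  have hHle : H ≤ (b h).ker := by
    rw [hH, AddSubgroup.zmultiples_le]
    exact h0
  have hcard : Nat.card K * addOrderOf h = Nat.card (b h).ker := by
    have h1 : Nat.card K * Nat.card H = Nat.card (b h).ker := by
      have h2 : Nat.card ((b h).ker ⧸ H.addSubgroupOf (b h).ker) = Nat.card K := by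
        have e := QuotientAddGroup.quotientKerEquivRange ((QuotientAddGroup.mk' H).comp
          (b h).ker.subtype)
        have hker : ((QuotientAddGroup.mk' H).comp (b h).ker.subtype).ker
            = H.addSubgroupOf (b h).ker := by
          ext x
          simp [AddSubgroup.mem_addSubgroupOf, AddMonoidHom.mem_ker]
        have hran : ((QuotientAddGroup.mk' H).comp (b h).ker.subtype).range = K := by
          ext x
          simp only [hK, AddMonoidHom.mem_range, AddMonoidHom.comp_apply,
            AddSubgroup.subtype_apply, AddSubgroup.mem_map, Subtype.exists]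
          constructor
          · rintro ⟨y, hy, hx⟩
            exact ⟨y, hy, hx⟩
          · rintro ⟨y, hy, hx⟩
            exact ⟨y, hy, hx⟩
        rw [← hran, ← hker]
        exact Nat.card_congr e.toEquiv
      have h3 : Nat.card (H.addSubgroupOf (b h).ker) = Nat.card H :=
        Nat.card_congr (AddSubgroup.addSubgroupOfEquivOfLe hHle).toEquiv
      rw [← h2, ← h3]
      exact (AddSubgroup.card_eq_card_quotient_mul_card_addSubgroup _).symm
    have hHc : Nat.card H = addOrderOf h := Nat.card_zmultiples h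
    rw [← h1, hHc]
  choose! g hg0 hgQ using hS
  -- the injection
  have hinj : S.card ≤ Nat.card (Fin ρ → K) := by
    rw [← Fintype.card_coe S, ← Nat.card_eq_fintype_card]
    let f : S → (Fin ρ → K) := fun Q i => ⟨(g Q.1 i : G ⧸ H),
      ⟨g Q.1 i, hg0 Q.1 Q.2 i, rfl⟩⟩
    apply Nat.card_le_card_of_injective f
    intro Q Q' hQQ
    have hcong : ∀ i, (g Q.1 i : G ⧸ H) = (g Q'.1 i : G ⧸ H) := by
      intro i
      have := congrFun hQQ i
      exact congrArg Subtype.val this
    have hle : ∀ A B : S, (∀ i, (g A.1 i : G ⧸ H) = (g B.1 i : G ⧸ H)) → A.1 ≤ B.1 := by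
      intro A B hAB
      rw [hgQ A.1 A.2, AddSubgroup.closure_le]
      intro x hx
      have hh : h ∈ B.1 := by
        rw [hgQ B.1 B.2]
        exact AddSubgroup.subset_closure (Set.mem_insert _ _)
      rcases hx with hx | ⟨i, rfl⟩
      · rw [hx]; exact hh
      · have h4 := hAB i
        rw [eq_comm, QuotientAddGroup.eq] at h4
        have h5 : g B.1 i ∈ B.1 := by
          have : g B.1 i ∈ AddSubgroup.closure (insert h (Set.range (g B.1))) :=
            AddSubgroup.subset_closure (Set.mem_insert_of_mem _ ⟨i, rfl⟩)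
          rwa [← hgQ B.1 B.2] at this
        have h6 : -g B.1 i + g A.1 i ∈ B.1 := by
          have h7 : H ≤ B.1 := by rw [hH, AddSubgroup.zmultiples_le]; exact hh
          exact h7 h4
        have h8 : g A.1 i = g B.1 i + (-g B.1 i + g A.1 i) := by abel
        rw [h8]
        exact B.1.add_mem h5 h6
    apply Subtype.ext
    exact le_antisymm (hle Q Q' hcong) (hle Q' Q (fun i => (hcong i).symm))
  have h9 : Nat.card (Fin ρ → K) = Nat.card K ^ ρ := by
    rw [Nat.card_fun, Nat.card_fin]
  calc S.card * addOrderOf h ^ ρ ≤ Nat.card K ^ ρ * addOrderOf h ^ ρ := by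
        apply Nat.mul_le_mul_right; rw [← h9]; exact hinj
    _ = (Nat.card K * addOrderOf h) ^ ρ := by rw [mul_pow]
    _ = (Nat.card (b h).ker) ^ ρ := by rw [hcard]

/-- **(C)** number of isotropic subgroups generated by an element of order `r` and `ρ` more -/
theorem lab_count [DecidableEq G] (hs : ∀ x y, b x y = b y x)
    (hn : ∀ x, (∀ y, b x y = 0) → x = 0) (r ρ : ℕ) (S : Finset (AddSubgroup G))
    (hiso : ∀ Q ∈ S, ∀ x ∈ Q, ∀ y ∈ Q, b x y = 0)
    (hS : ∀ Q ∈ S, ∃ h : G, addOrderOf h = r ∧ ∃ g : Fin ρ → G,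
      Q = AddSubgroup.closure (insert h (Set.range g))) :
    S.card * (r.totient * r ^ (2 * ρ + 1)) ≤ 2 * r.divisors.card * (Nat.card G) ^ (ρ + 1) := by
  classical
  set I : Finset G := univ.filter (fun h : G => b h h = 0 ∧ addOrderOf h = r) with hI
  -- for h in I the set of members of S generated by h and ρ more
  set L : G → Finset (AddSubgroup G) := fun h => S.filter (fun Q => ∃ g : Fin ρ → G,
      Q = AddSubgroup.closure (insert h (Set.range g))) with hL
  have hIcard : I.card * r ≤ 2 * r.divisors.card * Nat.card G := by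
    rcases I.eq_empty_or_nonempty with h | ⟨h0, hh0⟩
    · rw [h]; simp
    rw [hI, mem_filter] at hh0
    have h1 := iso_card b hs hn h0 hh0.2.1
    rw [hh0.2.2] at h1
    refine le_trans (Nat.mul_le_mul_right _ (Finset.card_le_card ?_)) h1
    intro x hx
    rw [hI, mem_filter] at hx
    simp [hx.2.1]
  have hLcard : ∀ h ∈ I, (L h).card * r ^ (2 * ρ) ≤ (Nat.card G) ^ ρ := by
    intro h hh
    rw [hI, mem_filter] at hh
    have h1 := gen_count b h hh.2.1 ρ (L h) (by
      intro Q hQ
      rw [hL, mem_filter] at hQ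
      obtain ⟨hQS, g, hg⟩ := hQ
      refine ⟨g, ?_, hg⟩
      intro i
      apply hiso Q hQS
      · rw [hg]; exact AddSubgroup.subset_closure (Set.mem_insert _ _)
      · rw [hg]; exact AddSubgroup.subset_closure (Set.mem_insert_of_mem _ ⟨i, rfl⟩))
    rw [hh.2.2] at h1
    have h2 := card_ker_mul_le b hn h
    rw [hh.2.2] at h2
    calc (L h).card * r ^ (2 * ρ) = ((L h).card * r ^ ρ) * r ^ ρ := by ring
      _ ≤ (Nat.card (b h).ker) ^ ρ * r ^ ρ := Nat.mul_le_mul_right _ h1
      _ = (Nat.card (b h).ker * r) ^ ρ := by rw [mul_pow]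
      _ ≤ (Nat.card G) ^ ρ := Nat.pow_le_pow_left h2 ρ
  -- double counting
  have hdc : S.card * r.totient ≤ ∑ h ∈ I, (L h).card := by
    have h1 : ∑ h ∈ I, (L h).card = ∑ Q ∈ S, (I.filter (fun h => ∃ g : Fin ρ → G,
        Q = AddSubgroup.closure (insert h (Set.range g)))).card := by
      rw [hL]
      simp only [Finset.card_filter]
      exact Finset.sum_comm
    rw [h1, ← smul_eq_mul, ← Finset.sum_const]
    apply Finset.sum_le_sum
    intro Q hQ
    obtain ⟨h, hh, g, hg⟩ := hS Q hQ
    have hhQ : h ∈ Q := by rw [hg]; exact AddSubgroup.subset_closure (Set.mem_insert _ _)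
    -- the generators of zmultiples h
    rw [Nat.totient_eq_card_coprime]
    apply Finset.card_le_card_of_injOn (fun t : ℕ => t • h)
    · intro t ht
      simp only [coe_filter, Finset.mem_range, Set.mem_ofPred_eq] at ht
      simp only [coe_filter, Set.mem_ofPred_eq, hI, mem_filter, mem_univ, true_and]
      have hord : addOrderOf (t • h) = r := by
        rw [addOrderOf_nsmul]
        rw [hh, Nat.Coprime.gcd_eq_one ht.2, Nat.div_one]
      refine ⟨⟨?_, hord⟩, g, ?_⟩
      · exact hiso Q hQ _ (Q.nsmul_mem hhQ t) _ (Q.nsmul_mem hhQ t)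
      · -- h is a multiple of t • h
        have hmem : h ∈ AddSubgroup.zmultiples (t • h) := by
          have h3 : AddSubgroup.zmultiples (t • h) = AddSubgroup.zmultiples h := by
            apply AddSubgroup.eq_of_le_of_card_ge
            · rw [AddSubgroup.zmultiples_le]
              exact AddSubgroup.nsmul_mem_zmultiples h t
            · rw [Nat.card_zmultiples, Nat.card_zmultiples, hord, hh]
          rw [h3]; exact AddSubgroup.mem_zmultiples h
        rw [hg]
        apply le_antisymm
        · rw [AddSubgroup.closure_le]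
          intro x hx
          rcases hx with hx | hx
          · rw [hx]
            have h4 : AddSubgroup.zmultiples (t • h) ≤
                AddSubgroup.closure (insert (t • h) (Set.range g)) := by
              rw [AddSubgroup.zmultiples_le]
              exact AddSubgroup.subset_closure (Set.mem_insert _ _)
            exact h4 hmem
          · exact AddSubgroup.subset_closure (Set.mem_insert_of_mem _ hx)
        · rw [AddSubgroup.closure_le]
          intro x hx
          rcases hx with hx | hx
          · rw [hx]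
            exact AddSubgroup.nsmul_mem _ (AddSubgroup.subset_closure (Set.mem_insert _ _)) t
          · exact AddSubgroup.subset_closure (Set.mem_insert_of_mem _ hx)
    · intro t ht s hs' hts
      simp only [coe_filter, Finset.mem_range, Set.mem_ofPred_eq] at ht hs'
      have h5 := nsmul_eq_nsmul_iff_modEq.mp hts
      rw [hh] at h5
      have h6 : t % r = s % r := h5
      rwa [Nat.mod_eq_of_lt ht.1, Nat.mod_eq_of_lt hs'.1] at h6
  calc S.card * (r.totient * r ^ (2 * ρ + 1))
      = (S.card * r.totient) * r ^ (2 * ρ) * r := by ring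
    _ ≤ (∑ h ∈ I, (L h).card) * r ^ (2 * ρ) * r := by gcongr
    _ = (∑ h ∈ I, (L h).card * r ^ (2 * ρ)) * r := by rw [sum_mul]
    _ ≤ (∑ h ∈ I, (Nat.card G) ^ ρ) * r := by
        apply Nat.mul_le_mul_right
        exact Finset.sum_le_sum hLcard
    _ = (I.card * r) * (Nat.card G) ^ ρ := by rw [sum_const, smul_eq_mul]; ring
    _ ≤ (2 * r.divisors.card * Nat.card G) * (Nat.card G) ^ ρ := by gcongr
    _ = 2 * r.divisors.card * (Nat.card G) ^ (ρ + 1) := by ring

/-! ### The `p`-primary part -/

section Prim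

/-- the `p`-primary part of `G`: elements killed by `p ^ v`, `v = v_p |G|` -/
noncomputable def prim (G : Type*) [AddCommGroup G] (p : ℕ) : AddSubgroup G :=
  (nsmulAddMonoidHom (p ^ (Nat.card G).factorization p) : G →+ G).ker

theorem mem_prim {p : ℕ} {x : G} :
    x ∈ prim G p ↔ p ^ (Nat.card G).factorization p • x = 0 := by
  rw [prim, AddMonoidHom.mem_ker]; rfl

/-- the restricted pairing -/
def resPair (A : AddSubgroup G) : A →+ A →+ ZMod N :=
  AddMonoidHom.mk' (fun x => (b x.1).comp A.subtype) (by
    intro x y; ext z; simp)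

@[simp] theorem resPair_apply (A : AddSubgroup G) (x y : A) :
    resPair b A x y = b x.1 y.1 := rfl

theorem prim_nondeg {p : ℕ} (hp : p.Prime) (hn : ∀ x, (∀ y, b x y = 0) → x = 0)
    (x : prim G p) (hx : ∀ y : prim G p, resPair b (prim G p) x y = 0) : x = 0 := by
  classical
  set n := Nat.card G with hndef
  have hnpos : n ≠ 0 := Nat.card_pos.ne'
  set q := p ^ n.factorization p with hq
  set m := n / q with hm
  have hqm : q * m = n := Nat.ordProj_mul_ordCompl_eq_self n p
  have hcop : Nat.Coprime q m := by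
    rw [hq, hm]
    exact (Nat.coprime_ordCompl hp hnpos).pow_left _
  obtain ⟨e, he1, he2⟩ := Nat.chineseRemainder hcop 1 0
  have hxq : q • x.1 = 0 := mem_prim.mp x.2
  apply Subtype.ext
  apply hn
  intro y
  -- e • y is in the primary part
  have hey : e • y ∈ prim G p := by
    rw [mem_prim]
    have hme : m ∣ e := (Nat.modEq_zero_iff_dvd).mp he2
    obtain ⟨c, hc⟩ := hme
    have : q • (e • y) = c • (n • y) := by
      rw [← mul_smul, ← mul_smul, hc, ← hqm]
      congr 1; ring
    rw [show p ^ (Nat.card G).factorization p = q from rfl, this, hndef, card_nsmul_eq_zero',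
      smul_zero]
  have h1 := hx ⟨e • y, hey⟩
  rw [resPair_apply] at h1
  have h2 : b x.1 (e • y) = e • b x.1 y := by rw [map_nsmul]
  have h3 : q • b x.1 y = 0 := by
    have : b (q • x.1) y = q • b x.1 y := by rw [map_nsmul]; rfl
    rw [← this, hxq]; simp
  have h4 : addOrderOf (b x.1 y) ∣ q := addOrderOf_dvd_of_nsmul_eq_zero h3
  have h5 : addOrderOf (b x.1 y) ∣ e := by
    apply addOrderOf_dvd_of_nsmul_eq_zero
    rw [← h2]; exact h1
  have h6 : Nat.Coprime e q := by
    have : Nat.gcd e q = Nat.gcd 1 q := Nat.ModEq.gcd_eq he1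
    rw [Nat.Coprime, this, Nat.gcd_one_left]
  have h7 : addOrderOf (b x.1 y) = 1 := by
    have := Nat.dvd_gcd h5 h4
    rw [h6] at this
    exact Nat.dvd_one.mp this
  exact AddMonoid.addOrderOf_eq_one_iff.mp h7

theorem prim_card_le {p : ℕ} (hp : p.Prime) :
    Nat.card (prim G p) ≤ p ^ (Nat.card G).factorization p := by
  classical
  have : Fact p.Prime := ⟨hp⟩
  have hnpos : Nat.card G ≠ 0 := Nat.card_pos.ne'
  have h1 : IsPGroup p (Multiplicative (prim G p)) := by
    intro x
    refine ⟨(Nat.card G).factorization p, ?_⟩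
    apply Multiplicative.toAdd.injective
    apply Subtype.ext
    exact mem_prim.mp x.toAdd.2
  obtain ⟨k, hk⟩ := IsPGroup.iff_card.mp h1
  have hk' : Nat.card (prim G p) = p ^ k := by
    rw [← hk]; exact Nat.card_congr Multiplicative.ofAdd
  rw [hk']
  apply Nat.pow_le_pow_right hp.pos
  have h2 : p ^ k ∣ Nat.card G := by
    rw [← hk']; exact AddSubgroup.card_addSubgroup_dvd_card _
  exact (hp.pow_dvd_iff_le_factorization hnpos).mp h2

theorem pow_le_two_totient {p : ℕ} (hp : p.Prime) (a : ℕ) : p ^ a ≤ 2 * (p ^ a).totient := by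
  rcases Nat.eq_zero_or_pos a with h | h
  · subst h; simp
  · rw [Nat.totient_prime_pow hp h]
    have h2 := hp.two_le
    have : p ^ a = p ^ (a - 1) * p := by rw [← pow_succ]; congr 1; omega
    rw [this]
    calc p ^ (a - 1) * p ≤ p ^ (a - 1) * (2 * (p - 1)) := by
          apply Nat.mul_le_mul_left; omega
      _ = 2 * (p ^ (a - 1) * (p - 1)) := by ring

/-- **(C_p)** number of isotropic `p`-subgroups generated by an element of order `p ^ a` and
`ρ` more elements -/
theorem lab_count_prime (hs : ∀ x y, b x y = b y x)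
    (hn : ∀ x, (∀ y, b x y = 0) → x = 0) {p : ℕ} (hp : p.Prime) (a ρ : ℕ)
    (S : Finset (AddSubgroup G))
    (hiso : ∀ Q ∈ S, ∀ x ∈ Q, ∀ y ∈ Q, b x y = 0)
    (hle : ∀ Q ∈ S, Q ≤ prim G p)
    (hS : ∀ Q ∈ S, ∃ h : G, addOrderOf h = p ^ a ∧ ∃ g : Fin ρ → G,
      Q = AddSubgroup.closure (insert h (Set.range g))) :
    S.card * (p ^ (2 * a)) ^ (ρ + 1)
      ≤ 4 * (a + 1) * (p ^ (Nat.card G).factorization p) ^ (ρ + 1) := by
  classical
  set A := prim G p with hA
  let S' : Finset (AddSubgroup A) := S.image (fun Q => Q.addSubgroupOf A)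
  have hinj : Set.InjOn (fun Q : AddSubgroup G => Q.addSubgroupOf A) S := by
    intro Q hQ Q' hQ' hQQ
    have h1 : (Q.addSubgroupOf A).map A.subtype = (Q'.addSubgroupOf A).map A.subtype := by
      simp only at hQQ; rw [hQQ]
    rw [AddSubgroup.addSubgroupOf_map_subtype, AddSubgroup.addSubgroupOf_map_subtype,
      inf_eq_left.mpr (hle Q hQ), inf_eq_left.mpr (hle Q' hQ')] at h1
    exact h1
  have hcard : S'.card = S.card := Finset.card_image_of_injOn hinj
  have key := lab_count (G := A) (resPair b A) (fun x y => by simp [hs x.1 y.1])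
    (prim_nondeg b hp hn) (p ^ a) ρ S' (by
      intro Q' hQ' x hx y hy
      obtain ⟨Q, hQ, rfl⟩ := Finset.mem_image.mp hQ'
      rw [AddSubgroup.mem_addSubgroupOf] at hx hy
      exact hiso Q hQ _ hx _ hy) (by
      intro Q' hQ'
      obtain ⟨Q, hQ, rfl⟩ := Finset.mem_image.mp hQ'
      obtain ⟨h, hh, g, hg⟩ := hS Q hQ
      have hsub : insert h (Set.range g) ⊆ (Q : Set G) := by
        rw [hg]; exact AddSubgroup.subset_closure
      have hhA : h ∈ A := hle Q hQ (hsub (Set.mem_insert _ _))
      have hgA : ∀ i, g i ∈ A := fun i => hle Q hQ (hsub (Set.mem_insert_of_mem _ ⟨i, rfl⟩))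
      refine ⟨⟨h, hhA⟩, ?_, fun i => ⟨g i, hgA i⟩, ?_⟩
      · rw [← hh]
        exact (addOrderOf_injective A.subtype A.subtype_injective ⟨h, hhA⟩).symm
      · apply AddSubgroup.map_injective A.subtype_injective
        rw [AddSubgroup.addSubgroupOf_map_subtype, inf_eq_left.mpr (hle Q hQ),
          AddMonoidHom.map_closure, Set.image_insert_eq, ← Set.range_comp]
        exact hg)
  rw [hcard] at key
  have hφ := pow_le_two_totient hp a
  have hdiv : (p ^ a).divisors.card = a + 1 := by
    rw [Nat.divisors_prime_pow hp, card_map, card_range]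
  rw [hdiv] at key
  calc S.card * (p ^ (2 * a)) ^ (ρ + 1)
      = S.card * (p ^ a * (p ^ a) ^ (2 * ρ + 1)) := by
        congr 1
        rw [← pow_mul, ← pow_mul, ← pow_add]
        congr 1; ring
    _ ≤ S.card * ((2 * (p ^ a).totient) * (p ^ a) ^ (2 * ρ + 1)) := by gcongr
    _ = 2 * (S.card * ((p ^ a).totient * (p ^ a) ^ (2 * ρ + 1))) := by ring
    _ ≤ 2 * (2 * (a + 1) * (Nat.card A) ^ (ρ + 1)) := by gcongr
    _ ≤ 2 * (2 * (a + 1) * (p ^ (Nat.card G).factorization p) ^ (ρ + 1)) := by
        gcongr
        exact prim_card_le hp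
    _ = 4 * (a + 1) * (p ^ (Nat.card G).factorization p) ^ (ρ + 1) := by ring

end Prim

end Vale.Agent.P160.Half.Labels
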