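import Vale.Agent.P160.Half.M67Stmt

/-! # P160, half rate: change of law (`StmtLaw` of `M67Stmt`) -/

set_option linter.unusedVariables false

namespace Vale.Agent.P160.Half.Law310

open Finset Vale.Agent.P160 Vale.Agent.P160.Half

/-- sum over seeds, grouped by the values -/
lemma sum_vals {Ω ι : Type} [Fintype Ω] [Fintype ι] [DecidableEq ι] (e : Ω → ℤ) (T : Finset ℤ)
    (hT : ∀ a, e a ∈ T) (F : (ι → ℤ) → ℝ) :
    ∑ ω : ι → Ω, F (fun i => e (ω i)) =
      ∑ v ∈ Fintype.piFinset (fun _ : ι => T),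
        (∏ i, ((univ.filter fun a : Ω => e a = v i).card : ℝ)) * F v := by
  rw [← Finset.sum_fiberwise_of_maps_to (s := (univ : Finset (ι → Ω)))
    (t := Fintype.piFinset (fun _ : ι => T)) (g := fun ω => fun i => e (ω i))
    (fun ω _ => by
      rw [Fintype.mem_piFinset]
      exact fun i => hT _)]
  refine Finset.sum_congr rfl fun v _ => ?_
  have h1 : ∑ ω ∈ (univ : Finset (ι → Ω)).filter (fun ω => (fun i => e (ω i)) = v),
      F (fun i => e (ω i)) =
      ∑ ω ∈ (univ : Finset (ι → Ω)).filter (fun ω => (fun i => e (ω i)) = v), F v := by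
    refine Finset.sum_congr rfl fun ω hω => ?_
    rw [(Finset.mem_filter.1 hω).2]
  rw [h1, Finset.sum_const, nsmul_eq_mul]
  congr 1
  have h2 : (univ : Finset (ι → Ω)).filter (fun ω => (fun i => e (ω i)) = v) =
      Fintype.piFinset (fun i => univ.filter fun a : Ω => e a = v i) := by
    ext ω
    simp only [Finset.mem_filter, Finset.mem_univ, true_and, Fintype.mem_piFinset]
    constructor
    · intro h i
      exact congrFun h i
    · intro h
      funext i
      exact h i
  rw [h2, Fintype.card_piFinset]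
  push_cast
  rfl

/-- entrywise domination gives domination of the sums -/
lemma dom {Ω Ω' ι : Type} [Fintype Ω] [Fintype Ω'] [Fintype ι] [DecidableEq ι] (e : Ω → ℤ) (e' : Ω' → ℤ)
    (T : Finset ℤ) (hT : ∀ a, e a ∈ T) (hT' : ∀ a, e' a ∈ T) (c c' : ℝ) (hc : 0 ≤ c)
    (hc' : 0 ≤ c')
    (hdom : ∀ v ∈ T, ((Nat.card {a : Ω // e a = v} : ℕ) : ℝ) * c ≤
      c' * (Nat.card {a : Ω' // e' a = v} : ℕ))
    (F : (ι → ℤ) → ℝ) (hF : ∀ v, 0 ≤ F v) :
    (∑ ω : ι → Ω, F (fun i => e (ω i))) * c ^ (Fintype.card ι) ≤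
      c' ^ (Fintype.card ι) * ∑ ω : ι → Ω', F (fun i => e' (ω i)) := by
  rw [sum_vals e T hT F, sum_vals e' T hT' F, Finset.sum_mul, Finset.mul_sum]
  refine Finset.sum_le_sum fun v hv => ?_
  have h1 : (∏ i, ((univ.filter fun a : Ω => e a = v i).card : ℝ)) * c ^ (Fintype.card ι) ≤
      c' ^ (Fintype.card ι) * ∏ i, ((univ.filter fun a : Ω' => e' a = v i).card : ℝ) := by
    have e1 : c ^ (Fintype.card ι) = ∏ _i : ι, c := by
      rw [Finset.prod_const, Finset.card_univ]
    have e2 : c' ^ (Fintype.card ι) = ∏ _i : ι, c' := by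
      rw [Finset.prod_const, Finset.card_univ]
    rw [e1, e2, ← Finset.prod_mul_distrib, ← Finset.prod_mul_distrib]
    refine Finset.prod_le_prod (fun i _ => by positivity) fun i _ => ?_
    have h3 := hdom (v i) (Fintype.mem_piFinset.1 hv i)
    rw [Nat.card_eq_fintype_card, Nat.card_eq_fintype_card, Fintype.card_subtype,
      Fintype.card_subtype] at h3
    exact h3
  calc (∏ i, ((univ.filter fun a : Ω => e a = v i).card : ℝ)) * F v * c ^ (Fintype.card ι)
      = ((∏ i, ((univ.filter fun a : Ω => e a = v i).card : ℝ)) * c ^ (Fintype.card ι)) * F v := by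
        ring
    _ ≤ (c' ^ (Fintype.card ι) * ∏ i, ((univ.filter fun a : Ω' => e' a = v i).card : ℝ)) * F v :=
        mul_le_mul_of_nonneg_right h1 (hF v)
    _ = c' ^ (Fintype.card ι) *
          ((∏ i, ((univ.filter fun a : Ω' => e' a = v i).card : ℝ)) * F v) := by ring

/-- number of seeds of `stL` with a given value, at most -/
lemma card_stL (k : ℕ) (hk : 0 < k) (v : ℤ) (hv : v ∈ ({-1, 0, 1} : Finset ℤ)) :
    ((Nat.card {a : Fin (8 * k) // stL (2 * k - 1) a = v} : ℕ) : ℝ) * 4 ≤
      (8 * k + 4) * (Nat.card {b : Bool × Bool // M67.xi b = v} : ℕ) := by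
  have hx1 : Nat.card {b : Bool × Bool // M67.xi b = 1} = 1 := by
    rw [Nat.card_eq_fintype_card]; decide
  have hx0 : Nat.card {b : Bool × Bool // M67.xi b = 0} = 2 := by
    rw [Nat.card_eq_fintype_card]; decide
  have hxm : Nat.card {b : Bool × Bool // M67.xi b = -1} = 1 := by
    rw [Nat.card_eq_fintype_card]; decide
  have key : ∀ (v : ℤ) (A : Finset ℕ), (∀ a : Fin (8 * k), stL (2 * k - 1) a = v → a.val ∈ A) →
      Nat.card {a : Fin (8 * k) // stL (2 * k - 1) a = v} ≤ A.card := by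
    intro v A hA
    rw [Nat.card_eq_fintype_card, Fintype.card_subtype]
    refine Finset.card_le_card_of_injOn (fun a => a.val) (fun a ha => ?_)
      (fun a _ b _ h => Fin.ext h)
    exact hA a (by simpa using ha)
  have hk1 : (1 : ℝ) ≤ k := by exact_mod_cast hk
  rw [Finset.mem_insert, Finset.mem_insert, Finset.mem_singleton] at hv
  rcases hv with rfl | rfl | rfl
  · have h := key (-1) (Finset.Ico (2 * k - 1) (2 * (2 * k - 1))) (fun a ha => by
      unfold stL at ha
      rw [Finset.mem_Ico]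
      split_ifs at ha with h1 h2 <;> omega)
    rw [Nat.card_Ico] at h
    rw [hxm]
    have h' : ((Nat.card {a : Fin (8 * k) // stL (2 * k - 1) a = -1} : ℕ) : ℝ) ≤ 2 * k := by
      have : Nat.card {a : Fin (8 * k) // stL (2 * k - 1) a = -1} ≤ 2 * k := by omega
      exact_mod_cast this
    push_cast
    linarith
  · have h := key 0 (Finset.Ico (2 * (2 * k - 1)) (8 * k)) (fun a ha => by
      unfold stL at ha
      rw [Finset.mem_Ico]
      have := a.2
      split_ifs at ha with h1 h2 <;> omega)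
    rw [Nat.card_Ico] at h
    rw [hx0]
    have h' : ((Nat.card {a : Fin (8 * k) // stL (2 * k - 1) a = 0} : ℕ) : ℝ) ≤ 4 * k + 2 := by
      have : Nat.card {a : Fin (8 * k) // stL (2 * k - 1) a = 0} ≤ 4 * k + 2 := by omega
      exact_mod_cast this
    push_cast
    linarith
  · have h := key 1 (Finset.range (2 * k - 1)) (fun a ha => by
      unfold stL at ha
      rw [Finset.mem_range]
      split_ifs at ha with h1 h2 <;> omega)
    rw [Finset.card_range] at h
    rw [hx1]
    have h' : ((Nat.card {a : Fin (8 * k) // stL (2 * k - 1) a = 1} : ℕ) : ℝ) ≤ 2 * k := by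
      have : Nat.card {a : Fin (8 * k) // stL (2 * k - 1) a = 1} ≤ 2 * k := by omega
      exact_mod_cast this
    push_cast
    linarith

/-- `StmtLaw` of `M67Stmt` -/
theorem stmtLaw : M67.StmtLaw := by
  intro k hk F hF
  have hk0 : (0 : ℝ) < k := by exact_mod_cast hk
  have hT : ∀ a : Fin (8 * k), stL (2 * k - 1) a ∈ ({-1, 0, 1} : Finset ℤ) := by
    intro a
    unfold stL
    split_ifs <;> decide
  have hT' : ∀ b : Bool × Bool, M67.xi b ∈ ({-1, 0, 1} : Finset ℤ) := by decide
  have h := dom (ι := Fin k × Fin k) (fun a : Fin (8 * k) => stL (2 * k - 1) a) M67.xi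
    ({-1, 0, 1} : Finset ℤ) hT hT' 4 (8 * k + 4) (by norm_num) (by positivity)
    (fun v hv => card_stL k hk v hv) (fun v => F (Matrix.of fun i j => v (i, j)))
    (fun v => hF _)
  have e1 : ∑ ω : Fin k × Fin k → Fin (8 * k),
      F (Matrix.of fun i j => stL (2 * k - 1) (ω (i, j))) =
      ∑ ω : Fin k → Fin k → Fin (8 * k), F (M67.mt (stL (2 * k - 1)) ω) :=
    Fintype.sum_equiv (Equiv.curry _ _ _) _ _ (fun ω => rfl)
  have e2 : ∑ ω : Fin k × Fin k → Bool × Bool,
      F (Matrix.of fun i j => M67.xi (ω (i, j))) =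
      ∑ ω : Fin k → Fin k → Bool × Bool, F (M67.mt M67.xi ω) :=
    Fintype.sum_equiv (Equiv.curry _ _ _) _ _ (fun ω => rfl)
  have hc : Fintype.card (Fin k × Fin k) = k * k := by simp
  rw [hc] at h
  beta_reduce at h
  rw [e1, e2] at h
  refine h.trans (mul_le_mul_of_nonneg_right ?_ (Finset.sum_nonneg fun ω _ => hF _))
  have h1 : (8 * (k : ℝ) + 4) = (1 + 1 / (2 * k)) * ((8 * k : ℕ) : ℝ) := by
    push_cast
    field_simp
    ring
  rw [h1, mul_pow]
  refine mul_le_mul_of_nonneg_right ?_ (by positivity)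
  have h2 : (1 : ℝ) + 1 / (2 * k) ≤ Real.exp (1 / (2 * k)) := by
    have := Real.add_one_le_exp (1 / (2 * (k : ℝ)))
    linarith
  calc ((1 : ℝ) + 1 / (2 * k)) ^ (k * k) ≤ (Real.exp (1 / (2 * k))) ^ (k * k) :=
        pow_le_pow_left₀ (by positivity) h2 _
    _ = Real.exp (k / 2) := by
        rw [← Real.exp_nat_mul]
        congr 1
        push_cast
        field_simp

end Vale.Agent.P160.Half.Law310
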