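import Vale.Agent.P160.Half.M67Stmt

/-! # P160, half rate: change of law, `StmtLaw` of `M67Stmt.lean` (helper462) -/

namespace Vale.Agent.P160.Half.M67.Law462

open Finset

/-- entrywise domination lifts to tuples -/
theorem dom_pi {Ω Ω' α : Type} [Fintype Ω] [Fintype Ω'] (e : Ω → α) (e' : Ω' → α) {a C : ℝ}
    (ha : 0 ≤ a) (hC : 0 ≤ C)
    (h : ∀ G : α → ℝ, (∀ x, 0 ≤ G x) → (∑ x, G (e x)) * a ≤ C * ∑ x', G (e' x')) (n : ℕ) :
    ∀ G : (Fin n → α) → ℝ, (∀ x, 0 ≤ G x) →
      (∑ ω : Fin n → Ω, G (fun i => e (ω i))) * a ^ n ≤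
        C ^ n * ∑ ω' : Fin n → Ω', G (fun i => e' (ω' i)) := by
  induction n with
  | zero =>
    intro G _
    have h1 : ∀ ω : Fin 0 → Ω, G (fun i => e (ω i)) = G Fin.elim0 := fun ω => by
      congr 1; ext i; exact i.elim0
    have h2 : ∀ ω : Fin 0 → Ω', G (fun i => e' (ω i)) = G Fin.elim0 := fun ω => by
      congr 1; ext i; exact i.elim0
    simp [h1, h2]
  | succ n ih =>
    intro G hG
    have key : ∀ {Ψ : Type} [Fintype Ψ] (f : Ψ → α),
        ∑ ω : Fin (n + 1) → Ψ, G (fun i => f (ω i)) =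
          ∑ x : Ψ, ∑ ω : Fin n → Ψ, G (Fin.cons (f x) fun i => f (ω i)) := by
      intro Ψ _ f
      rw [← (Fin.consEquiv (fun _ => Ψ)).sum_comp, Fintype.sum_prod_type]
      refine sum_congr rfl fun x _ => sum_congr rfl fun ω _ => ?_
      congr 1
      ext i
      refine Fin.cases ?_ (fun j => ?_) i
      · simp
      · simp
    rw [key e, key e']
    have h1 : ∀ x : Ω, (∑ ω : Fin n → Ω, G (Fin.cons (e x) fun i => e (ω i))) * a ^ n ≤
        C ^ n * ∑ ω : Fin n → Ω', G (Fin.cons (e x) fun i => e' (ω i)) := fun x =>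
      ih (fun y => G (Fin.cons (e x) y)) fun y => hG _
    have h2 := h (fun y => ∑ ω : Fin n → Ω', G (Fin.cons y fun i => e' (ω i)))
      fun y => sum_nonneg fun ω _ => hG _
    calc (∑ x, ∑ ω : Fin n → Ω, G (Fin.cons (e x) fun i => e (ω i))) * a ^ (n + 1)
        = (∑ x, (∑ ω : Fin n → Ω, G (Fin.cons (e x) fun i => e (ω i))) * a ^ n) * a := by
          rw [pow_succ, ← mul_assoc, Finset.sum_mul]
      _ ≤ (∑ x, C ^ n * ∑ ω : Fin n → Ω', G (Fin.cons (e x) fun i => e' (ω i))) * a :=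
          mul_le_mul_of_nonneg_right (sum_le_sum fun x _ => h1 x) ha
      _ = C ^ n * ((∑ x, ∑ ω : Fin n → Ω', G (Fin.cons (e x) fun i => e' (ω i))) * a) := by
          rw [← Finset.mul_sum, mul_assoc]
      _ ≤ C ^ n * (C * ∑ x', ∑ ω : Fin n → Ω', G (Fin.cons (e' x') fun i => e' (ω i))) :=
          mul_le_mul_of_nonneg_left h2 (by positivity)
      _ = C ^ (n + 1) * ∑ x', ∑ ω : Fin n → Ω', G (Fin.cons (e' x') fun i => e' (ω i)) := by
          rw [pow_succ, mul_assoc]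

theorem sum_stL (k : ℕ) (hk : 0 < k) (G : ℤ → ℝ) :
    ∑ a : Fin (8 * k), G (stL (2 * k - 1) a) =
      (2 * k - 1 : ℕ) * G 1 + (2 * k - 1 : ℕ) * G (-1) + (4 * k + 2 : ℕ) * G 0 := by
  have h1 : ∀ a : Fin (8 * k), G (stL (2 * k - 1) a) =
      (fun i : ℕ => if i < 2 * k - 1 then G 1 else if i < 2 * (2 * k - 1) then G (-1) else G 0)
        a.val := by
    intro a
    unfold stL
    simp only
    split_ifs <;> rfl
  rw [sum_congr rfl fun a _ => h1 a, Fin.sum_univ_eq_sum_range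
    (fun i : ℕ => if i < 2 * k - 1 then G 1 else if i < 2 * (2 * k - 1) then G (-1) else G 0)
    (8 * k)]
  obtain ⟨L, hL⟩ : ∃ L, L = 2 * k - 1 := ⟨_, rfl⟩
  obtain ⟨r, hr⟩ : ∃ r, r = 4 * k + 2 := ⟨_, rfl⟩
  have h8 : 8 * k = L + L + r := by omega
  rw [← hL, ← hr, h8, sum_range_add, sum_range_add]
  have e1 : ∑ x ∈ range L, (if x < L then G 1 else if x < 2 * L then G (-1) else G 0)
      = L * G 1 := by
    rw [sum_congr rfl fun x hx => if_pos (mem_range.1 hx), sum_const, card_range, nsmul_eq_mul]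
  have e2 : ∑ x ∈ range L, (if L + x < L then G 1 else if L + x < 2 * L then G (-1) else G 0)
      = L * G (-1) := by
    have : ∀ x ∈ range L, (if L + x < L then G 1 else if L + x < 2 * L then G (-1) else G 0)
        = G (-1) := by
      intro x hx
      have := mem_range.1 hx
      rw [if_neg (by omega), if_pos (by omega)]
    rw [sum_congr rfl this, sum_const, card_range, nsmul_eq_mul]
  have e3 : ∑ x ∈ range r, (if L + L + x < L then G 1 else if L + L + x < 2 * L then G (-1)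
      else G 0) = r * G 0 := by
    have : ∀ x ∈ range r, (if L + L + x < L then G 1 else if L + L + x < 2 * L then G (-1)
        else G 0) = G 0 := by
      intro x _
      rw [if_neg (by omega), if_neg (by omega)]
    rw [sum_congr rfl this, sum_const, card_range, nsmul_eq_mul]
  rw [e1, e2, e3]

theorem sum_xi (G : ℤ → ℝ) : ∑ b : Bool × Bool, G (xi b) = 2 * G 0 + G 1 + G (-1) := by
  rw [Fintype.sum_prod_type]
  simp [xi]
  ring

theorem dom_one (k : ℕ) (hk : 0 < k) (G : ℤ → ℝ) (hG : ∀ x, 0 ≤ G x) :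
    (∑ a : Fin (8 * k), G (stL (2 * k - 1) a)) * 4 ≤
      (8 * (k : ℝ) + 4) * ∑ b : Bool × Bool, G (xi b) := by
  rw [sum_stL k hk, sum_xi]
  have h1 : ((2 * k - 1 : ℕ) : ℝ) = 2 * k - 1 := by
    rw [Nat.cast_sub (by omega)]
    push_cast
    ring
  rw [h1]
  push_cast
  nlinarith [hG 0, hG 1, hG (-1)]

/-- change of law -/
theorem law : StmtLaw := by
  intro k hk F hF
  have hk' : (0 : ℝ) < k := by exact_mod_cast hk
  have h1 := dom_pi (stL (2 * k - 1) : Fin (8 * k) → ℤ) xi (a := 4) (C := 8 * (k : ℝ) + 4)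
    (by norm_num) (by positivity) (fun G hG => dom_one k hk G hG) k
  have h2 := dom_pi (fun (ω : Fin k → Fin (8 * k)) (j : Fin k) => stL (2 * k - 1) (ω j))
    (fun (ω : Fin k → Bool × Bool) (j : Fin k) => xi (ω j)) (a := 4 ^ k)
    (C := (8 * (k : ℝ) + 4) ^ k) (by positivity) (by positivity) h1 k F hF
  have e1 : ((4 : ℝ) ^ k) ^ k = 4 ^ (k * k) := by rw [← pow_mul]
  have e2 : ((8 * (k : ℝ) + 4) ^ k) ^ k ≤ Real.exp (k / 2) * ((8 * k : ℕ) : ℝ) ^ (k * k) := by
    rw [← pow_mul]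
    have e3 : 8 * (k : ℝ) + 4 = (1 / (2 * k) + 1) * ((8 * k : ℕ) : ℝ) := by
      push_cast
      field_simp
      ring
    rw [e3, mul_pow]
    refine mul_le_mul_of_nonneg_right ?_ (by positivity)
    calc (1 / (2 * (k : ℝ)) + 1) ^ (k * k) ≤ (Real.exp (1 / (2 * (k : ℝ)))) ^ (k * k) :=
          pow_le_pow_left₀ (by positivity) (Real.add_one_le_exp _) _
      _ = Real.exp (k / 2) := by
          rw [← Real.exp_nat_mul]
          congr 1
          push_cast
          field_simp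
  rw [e1] at h2
  refine h2.trans ?_
  exact mul_le_mul_of_nonneg_right e2 (sum_nonneg fun ω _ => hF _)

end Vale.Agent.P160.Half.M67.Law462
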