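import Mathlib
import Vale.Agent.P160.Half.LOMinOne

/-!
# P160: the profile bound (excess of the ranks modulo several primes), column by column

`Ξ` is a random integer matrix with `m` independent columns `c (w j)`, `w j ∈ Ω` uniform, with
entries in `{-1, 0, 1}`.  If the law of a column satisfies the dissociated Littlewood-Offord
bound with constant `ρ` (`LOLaw`) and `ρ a ^ θ ≤ 1`, `a` the number of rows, then
`P (rank_p Ξ + e_p ≤ rank_ℚ Ξ for all p ∈ B) ≤ (1 + 1/a)^(|B| m) ∏_p a^(e_p) p^(-θ e_p (e_p-1)/2)`.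
-/

set_option linter.unusedSectionVars false

namespace Vale.Agent.P160.Half.Profile81

open Finset Matrix Vale.Agent.P160.Half.LOMin Vale.Agent.P160.Half.LOMinOne

section Diss

variable {ι : Type} {κ : Type} [Fintype ι] [Fintype κ] [DecidableEq ι] [DecidableEq κ]

/-- the homomorphism attached to the left kernels modulo the primes of `B` -/
noncomputable def gB (Y : Matrix ι κ ℤ) (B : Finset ℕ) (i : ι) :
    (p : {p // p ∈ B}) → (ι → ZMod p) → ZMod p := by
  classical
  exact fun p u => if u ᵥ* Y.map (Int.cast : ℤ → ZMod p) = 0 then u i else 0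

theorem lo_dis (Y : Matrix ι κ ℤ) (hY : ∀ i l, |Y i l| ≤ 1) (B : Finset ℕ)
    (hB : ∀ p ∈ B, p.Prime) (e : ℕ → ℕ)
    (he : ∀ p ∈ B, (Y.map (Int.cast : ℤ → ZMod p)).rank + e p ≤
      (Y.map (Int.cast : ℤ → ℚ)).rank) :
    ∃ D : Finset ι, Diss (gB Y B) D ∧ (∏ p ∈ B, p ^ e p) ≤ Fintype.card ι ^ D.card := by
  classical
  obtain ⟨D, hD, hC⟩ := exists_diss (gB Y B)
  choose C hC1 hC2 hC3 using hC
  refine ⟨D, hD, ?_⟩
  -- the compressed matrix
  let Cm : Matrix ι D ℤ := fun k i => C k i
  let f : D → ι := fun i => i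
  have hCk : ∀ p ∈ B, ∀ u : ι → ZMod p, u ᵥ* Y.map (Int.cast : ℤ → ZMod p) = 0 →
      Cm.map (Int.cast : ℤ → ZMod p) *ᵥ (u ∘ f) = u := by
    intro p hp u hu
    funext k
    have h1 := congrFun (congrFun (hC3 k) ⟨p, hp⟩) u
    rw [Finset.sum_apply, Finset.sum_apply] at h1
    have h2 : gB Y B k ⟨p, hp⟩ u = u k := if_pos hu
    rw [h2] at h1
    rw [h1, ← Finset.sum_coe_sort D (fun i => (C k i • gB Y B i) ⟨p, hp⟩ u)]
    refine Finset.sum_congr rfl fun i _ => ?_
    show ((C k i : ℤ) : ZMod p) * u i = (C k i • gB Y B i ⟨p, hp⟩ u)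
    rw [show gB Y B i ⟨p, hp⟩ u = u i from if_pos hu, zsmul_eq_mul]
  have hI : ∀ v : D → ℚ, (Cm.map (Int.cast : ℤ → ℚ) *ᵥ v) ∘ f = v := by
    intro v
    funext k
    show ∑ i : D, ((C k i : ℤ) : ℚ) * v i = v k
    rw [Finset.sum_eq_single k]
    · rw [hC2 k k k.2 k.2]; simp
    · intro i _ hik
      rw [hC2 k i i.2 k.2, if_neg (fun h => hik (Subtype.ext h))]
      simp
    · intro h; exact absurd (mem_univ _) h
  let M : Matrix D κ ℤ := Cmᵀ * Y
  have hMp : ∀ p ∈ B, (M.map (Int.cast : ℤ → ZMod p)).rank + e p ≤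
      (M.map (Int.cast : ℤ → ℚ)).rank := by
    intro p hp
    have := Fact.mk (hB p hp)
    have h1 := rank_compress_le (Cm.map (Int.cast : ℤ → ZMod p))
      (Y.map (Int.cast : ℤ → ZMod p)) f (hCk p hp)
    have h2 := le_rank_compress (Cm.map (Int.cast : ℤ → ℚ)) (Y.map (Int.cast : ℤ → ℚ)) f hI
    rw [← map_cast_mul] at h1 h2
    have h3 := he p hp
    have h4 : (M.map (Int.cast : ℤ → ZMod p)).rank =
      ((Cmᵀ * Y).map (Int.cast : ℤ → ZMod p)).rank := rfl
    have h5 : (M.map (Int.cast : ℤ → ℚ)).rank =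
      ((Cmᵀ * Y).map (Int.cast : ℤ → ℚ)).rank := rfl
    omega
  obtain ⟨r, a, b, hr, hdet⟩ := exists_minor (M.map (Int.cast : ℤ → ℚ))
  have hdet' : (M.submatrix a b).det ≠ 0 := by
    intro h0
    apply hdet
    have h1 := (Int.castRingHom ℚ).map_det (M.submatrix a b)
    rw [h0, map_zero] at h1
    exact h1.symm
  have hrD : r ≤ D.card := by
    have := Matrix.rank_le_card_height (M.map (Int.cast : ℤ → ℚ))
    rwa [Fintype.card_coe, ← hr] at this
  have hdvd : ((∏ p ∈ B, p ^ e p : ℕ) : ℤ) ∣ (M.submatrix a b).det := by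
    rw [Nat.cast_prod]
    refine Finset.prod_dvd_of_coprime ?_ ?_
    · intro p hp q hq hpq
      show IsCoprime ((p ^ e p : ℕ) : ℤ) ((q ^ e q : ℕ) : ℤ)
      rw [Nat.isCoprime_iff_coprime]
      exact Nat.Coprime.pow _ _ ((Nat.coprime_primes (hB p hp) (hB q hq)).2 hpq)
    · intro p hp
      have h1 := pow_dvd_det (hB p hp) (M.submatrix a b)
      rw [Nat.cast_pow]
      refine (pow_dvd_pow _ ?_).trans h1
      rw [Fintype.card_fin]
      have h2 : ((M.submatrix a b).map (Int.cast : ℤ → ZMod p)).rank ≤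
          (M.map (Int.cast : ℤ → ZMod p)).rank := by
        have := Fact.mk (hB p hp)
        exact rank_submatrix_le (M.map (Int.cast : ℤ → ZMod p)) a b
      have h3 := hMp p hp
      omega
  have hle : ((∏ p ∈ B, p ^ e p : ℕ) : ℤ) ≤ |(M.submatrix a b).det| :=
    Int.le_of_dvd (abs_pos.2 hdet') ((dvd_abs _ _).2 hdvd)
  have hhad := minor_le Cm Y (fun k i => hC1 k i) hY a b
  have hrι : r ≤ Fintype.card ι := hrD.trans (Finset.card_le_univ D)
  have hfin : ((Fintype.card ι : ℕ) : ℤ) ^ r ≤ ((Fintype.card ι : ℕ) : ℤ) ^ D.card := by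
    have h1 : (Fintype.card ι) ^ r ≤ (Fintype.card ι) ^ D.card := by
      rcases Nat.eq_zero_or_pos (Fintype.card ι) with h0 | hpos
      · have hr0 : r = 0 := by omega
        have hD0 : D.card = 0 := by
          have := Finset.card_le_univ D
          omega
        rw [hr0, hD0]
      · exact Nat.pow_le_pow_right hpos hrD
    exact_mod_cast h1
  have hall := (hle.trans hhad).trans hfin
  exact_mod_cast hall

end Diss

section Law

variable {Ω : Type} [Fintype Ω] {ι : Type} [Fintype ι] [DecidableEq ι]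

open scoped Classical in
/-- the dissociated Littlewood-Offord bound for the law of a column -/
def LOLaw (c : Ω → ι → ℤ) (ρ : ℝ) : Prop :=
  ∀ (G : Type) [AddCommGroup G] (g : ι → G) (D : Finset ι), Diss g D → ∀ t : G,
    (((univ : Finset Ω).filter (fun ω => ∑ i, c ω i • g i = t)).card : ℝ) ≤
      Fintype.card Ω * ρ ^ D.card

open scoped Classical in
/-- a lazy column, difference of two zero-one columns -/
theorem lolaw_pair : LOLaw (fun (x : (ι → Bool) × (ι → Bool)) i =>
    (if x.1 i then (1 : ℤ) else 0) - (if x.2 i then 1 else 0)) (1 / 2) := by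
  intro G _ g D hD t
  have h1 : ((univ : Finset ((ι → Bool) × (ι → Bool))).filter (fun x =>
      ∑ i, ((if x.1 i then (1 : ℤ) else 0) - (if x.2 i then 1 else 0)) • g i = t)).card ≤
      ∑ y : ι → Bool, ((univ : Finset (ι → Bool)).filter (fun x =>
        ∑ i, (if x i then g i else 0) = t + ∑ i, (if y i then g i else 0))).card := by
    rw [← Finset.card_sigma]
    refine Finset.card_le_card_of_injOn (fun x => ⟨x.2, x.1⟩) ?_ ?_
    · intro x hx
      have hx := (Finset.mem_filter.1 hx).2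
      simp only [Finset.coe_sigma, Set.mem_sigma_iff, Finset.coe_univ, Set.mem_univ, true_and,
        Finset.coe_filter, Set.mem_ofPred_eq, Finset.mem_univ]
      rw [← hx, ← Finset.sum_add_distrib]
      refine Finset.sum_congr rfl fun i _ => ?_
      rw [sub_smul]
      split_ifs <;> simp
    · intro x _ y _ hxy
      have := Sigma.mk.inj hxy
      exact Prod.ext (eq_of_heq this.2) this.1
  have h2 : ((univ : Finset ((ι → Bool) × (ι → Bool))).filter (fun x =>
      ∑ i, ((if x.1 i then (1 : ℤ) else 0) - (if x.2 i then 1 else 0)) • g i = t)).card *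
        2 ^ D.card ≤ 4 ^ Fintype.card ι := by
    calc _ ≤ (∑ y : ι → Bool, ((univ : Finset (ι → Bool)).filter (fun x =>
        ∑ i, (if x i then g i else 0) = t + ∑ i, (if y i then g i else 0))).card) *
          2 ^ D.card := Nat.mul_le_mul_right _ h1
      _ = ∑ y : ι → Bool, ((univ : Finset (ι → Bool)).filter (fun x =>
        ∑ i, (if x i then g i else 0) = t + ∑ i, (if y i then g i else 0))).card *
          2 ^ D.card := Finset.sum_mul _ _ _
      _ ≤ ∑ _y : ι → Bool, 2 ^ Fintype.card ι := Finset.sum_le_sum fun y _ =>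
          card_diss g hD (t + ∑ i, (if y i then g i else 0))
      _ = 4 ^ Fintype.card ι := by
          rw [Finset.sum_const, Finset.card_univ, Fintype.card_fun, Fintype.card_bool, smul_eq_mul,
            ← pow_add, ← two_mul, pow_mul]
          norm_num
  have h3 : (Fintype.card ((ι → Bool) × (ι → Bool)) : ℝ) = 4 ^ Fintype.card ι := by
    rw [Fintype.card_prod, Fintype.card_fun, Fintype.card_bool]
    push_cast
    rw [← pow_add, ← two_mul, pow_mul]
    norm_num
  rw [h3, one_div, inv_pow, ← div_eq_mul_inv, le_div_iff₀ (by positivity)]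
  exact_mod_cast h2

end Law

section SRank

variable {ι : Type} [Fintype ι] [DecidableEq ι]

/-- the rank of a set of integer vectors over a field -/
noncomputable def srk (F : Type) [Field F] (S : Set (ι → ℤ)) : ℕ :=
  Module.finrank F (Submodule.span F ((fun (v : ι → ℤ) (i : ι) => ((v i : ℤ) : F)) '' S))

theorem srk_mono (F : Type) [Field F] {S T : Set (ι → ℤ)} (h : S ⊆ T) : srk F S ≤ srk F T :=
  Submodule.finrank_mono (Submodule.span_mono (Set.image_mono h))

theorem srk_insert_le (F : Type) [Field F] (S : Set (ι → ℤ)) (y : ι → ℤ) :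
    srk F (insert y S) ≤ srk F S + 1 := by
  unfold srk
  rw [Set.image_insert_eq, Submodule.span_insert]
  refine (Submodule.finrank_add_le_finrank_add_finrank _ _).trans ?_
  rw [add_comm]
  refine Nat.add_le_add_left ?_ _
  have h1 := finrank_span_finset_le_card (R := F) ({(fun i => ((y i : ℤ) : F))} : Finset (ι → F))
  rwa [Finset.coe_singleton, Finset.card_singleton] at h1

theorem srk_empty (F : Type) [Field F] : srk F (∅ : Set (ι → ℤ)) = 0 := by
  unfold srk
  rw [Set.image_empty, Submodule.span_empty, finrank_bot]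

theorem mem_span_of_srk (F : Type) [Field F] (S : Set (ι → ℤ)) (y : ι → ℤ)
    (h : srk F (insert y S) ≤ srk F S) : (fun i => ((y i : ℤ) : F)) ∈
      Submodule.span F ((fun (v : ι → ℤ) (i : ι) => ((v i : ℤ) : F)) '' S) := by
  have h1 : Submodule.span F ((fun (v : ι → ℤ) (i : ι) => ((v i : ℤ) : F)) '' S) ≤
      Submodule.span F ((fun (v : ι → ℤ) (i : ι) => ((v i : ℤ) : F)) '' (insert y S)) :=
    Submodule.span_mono (Set.image_mono (Set.subset_insert _ _))
  have h2 := Submodule.eq_of_le_of_finrank_le h1 h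
  rw [h2]
  exact Submodule.subset_span ⟨y, Set.mem_insert _ _, rfl⟩

theorem srk_eq_rank (F : Type) [Field F] {κ : Type} [Fintype κ] [DecidableEq κ]
    (f : κ → ι → ℤ) :
    ((Matrix.of fun i j => f j i : Matrix ι κ ℤ).map (Int.cast : ℤ → F)).rank =
      srk F (Set.range f) := by
  rw [Matrix.rank_eq_finrank_span_cols]
  unfold srk
  rw [← Set.range_comp]
  rfl

end SRank

section Profile

variable {Ω : Type} [Fintype Ω] {ι : Type} [Fintype ι] [DecidableEq ι]

open scoped Classical in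
/-- one column -/
theorem one_col {c : Ω → ι → ℤ} {ρ θ : ℝ} (hρ : 0 ≤ ρ) (hθ0 : 0 ≤ θ) (hLO : LOLaw c ρ)
    (ha : 1 ≤ Fintype.card ι) (hθ : ρ * ((Fintype.card ι : ℝ)) ^ θ ≤ 1)
    (S : Set (ι → ℤ)) (hS : S.Finite) (hS1 : ∀ y ∈ S, ∀ i, |y i| ≤ 1)
    (T : Finset ℕ) (hT : ∀ p ∈ T, p.Prime) (s : ℕ → ℕ)
    (hs : ∀ p ∈ T, ∀ [Fact p.Prime], srk (ZMod p) S + s p ≤ srk ℚ S) :
    (((univ : Finset Ω).filter (fun ω => ∀ p ∈ T, ∀ [Fact p.Prime],
      srk (ZMod p) (insert (c ω) S) ≤ srk (ZMod p) S)).card : ℝ) *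
        ∏ p ∈ T, (((p : ℝ) ^ θ) ^ s p) ≤ Fintype.card Ω := by
  have := hS.to_subtype
  have := Fintype.ofFinite S
  let Y : Matrix ι S ℤ := Matrix.of fun i j => (j : ι → ℤ) i
  have hYr : ∀ (F : Type) [Field F], (Y.map (Int.cast : ℤ → F)).rank = srk F S := by
    intro F _
    have h1 := srk_eq_rank F (fun j : S => (j : ι → ℤ))
    rw [Subtype.range_coe] at h1
    exact h1
  obtain ⟨D, hD, hprod⟩ := lo_dis Y (fun i j => hS1 j.1 j.2 i) T hT s (by
    intro p hp
    have := Fact.mk (hT p hp)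
    rw [hYr, hYr]
    exact hs p hp)
  have h1 : (((univ : Finset Ω).filter (fun ω => ∑ i, c ω i • gB Y T i = 0)).card : ℝ) ≤
      Fintype.card Ω * ρ ^ D.card := by
    convert hLO _ (gB Y T) D hD 0
  have h2 : (((univ : Finset Ω).filter (fun ω => ∀ p ∈ T, ∀ [Fact p.Prime],
      srk (ZMod p) (insert (c ω) S) ≤ srk (ZMod p) S)).card : ℝ) ≤
      (((univ : Finset Ω).filter (fun ω => ∑ i, c ω i • gB Y T i = 0)).card : ℝ) := by
    refine Nat.cast_le.2 (Finset.card_le_card ?_)
    intro ω hω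
    rw [Finset.mem_filter] at hω ⊢
    refine ⟨mem_univ _, ?_⟩
    funext p u
    rw [Finset.sum_apply, Finset.sum_apply]
    show ∑ i, c ω i • gB Y T i p u = 0
    by_cases hu : u ᵥ* Y.map (Int.cast : ℤ → ZMod p) = 0
    · have := Fact.mk (hT p p.2)
      have h3 := mem_span_of_srk (ZMod p) S (c ω) (hω.2 p p.2)
      have h4 : Submodule.span (ZMod p) ((fun (v : ι → ℤ) (i : ι) => ((v i : ℤ) : ZMod p)) '' S) ≤
          LinearMap.ker (Fintype.linearCombination (ZMod p) u) := by
        rw [Submodule.span_le]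
        rintro _ ⟨y, hy, rfl⟩
        rw [SetLike.mem_coe, LinearMap.mem_ker, Fintype.linearCombination_apply]
        have h5 := congrFun hu ⟨y, hy⟩
        rw [← show (0 : S → ZMod p) ⟨y, hy⟩ = 0 from rfl, ← h5]
        show ∑ i, ((y i : ℤ) : ZMod p) • u i = ∑ i, u i * ((y i : ℤ) : ZMod p)
        refine Finset.sum_congr rfl fun i _ => ?_
        rw [smul_eq_mul, mul_comm]
      have h6 := h4 h3
      rw [LinearMap.mem_ker, Fintype.linearCombination_apply] at h6
      rw [← h6]
      refine Finset.sum_congr rfl fun i _ => ?_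
      rw [show gB Y T i p u = u i from if_pos hu, zsmul_eq_mul, smul_eq_mul]
    · refine Finset.sum_eq_zero fun i _ => ?_
      rw [show gB Y T i p u = 0 from if_neg hu, smul_zero]
  have ha' : (0 : ℝ) < Fintype.card ι := by exact_mod_cast ha
  have h7 : ∏ p ∈ T, (((p : ℝ) ^ θ) ^ s p) ≤ (((Fintype.card ι : ℝ)) ^ θ) ^ D.card := by
    have h8 : ∀ p ∈ T, ((p : ℝ) ^ θ) ^ s p = (((p ^ s p : ℕ) : ℝ)) ^ θ := by
      intro p _
      rw [Nat.cast_pow, ← Real.rpow_natCast ((p : ℝ) ^ θ), ← Real.rpow_natCast (p : ℝ),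
        ← Real.rpow_mul (Nat.cast_nonneg _), ← Real.rpow_mul (Nat.cast_nonneg _), mul_comm]
    rw [Finset.prod_congr rfl h8, Real.finsetProd_rpow _ _ (fun p _ => Nat.cast_nonneg _),
      ← Real.rpow_natCast, ← Real.rpow_mul ha'.le, mul_comm θ, Real.rpow_mul ha'.le,
      Real.rpow_natCast]
    refine Real.rpow_le_rpow (Finset.prod_nonneg fun _ _ => Nat.cast_nonneg _) ?_ hθ0
    exact_mod_cast hprod
  have h9 : (0 : ℝ) ≤ ∏ p ∈ T, (((p : ℝ) ^ θ) ^ s p) :=
    Finset.prod_nonneg fun p _ => by positivity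
  calc _ ≤ (Fintype.card Ω * ρ ^ D.card) * (((Fintype.card ι : ℝ)) ^ θ) ^ D.card :=
        mul_le_mul (h2.trans h1) h7 h9 (by positivity)
    _ = Fintype.card Ω * (ρ * ((Fintype.card ι : ℝ)) ^ θ) ^ D.card := by
        rw [mul_pow]; ring
    _ ≤ Fintype.card Ω * 1 := by
        refine mul_le_mul_of_nonneg_left (pow_le_one₀ (by positivity) hθ) (Nat.cast_nonneg _)
    _ = Fintype.card Ω := mul_one _

/-- the weight -/
noncomputable def W (a θ : ℝ) (p s : ℕ) : ℝ := ((p : ℝ) ^ θ) ^ (s.choose 2) / a ^ s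

theorem W_zero (a θ : ℝ) (p : ℕ) : W a θ p 0 = 1 := by simp [W]

theorem W_pos {a θ : ℝ} (ha : 0 < a) {p : ℕ} (hp : p.Prime) (s : ℕ) : 0 < W a θ p s := by
  unfold W
  have : (0 : ℝ) < p := by exact_mod_cast hp.pos
  positivity

theorem W_succ {a θ : ℝ} (ha : 0 < a) (p s : ℕ) :
    W a θ p (s + 1) = W a θ p s * (((p : ℝ) ^ θ) ^ s / a) := by
  unfold W
  rw [Nat.choose_succ_succ' s 1, Nat.choose_one_right, pow_add, pow_succ]
  field_simp

/-- the matrix with columns `c (w j)` -/
def mat (c : Ω → ι → ℤ) {m : ℕ} (w : Fin m → Ω) : Matrix ι (Fin m) ℤ :=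
  Matrix.of fun i j => c (w j) i

open scoped Classical in
/-- the induction over the columns -/
theorem profile_aux {c : Ω → ι → ℤ} {ρ θ : ℝ} (hρ : 0 ≤ ρ) (hθ0 : 0 ≤ θ) (hLO : LOLaw c ρ)
    (hc : ∀ ω i, |c ω i| ≤ 1)
    (ha : 1 ≤ Fintype.card ι) (hθ : ρ * ((Fintype.card ι : ℝ)) ^ θ ≤ 1)
    (B : Finset ℕ) (hB : ∀ p ∈ B, p.Prime) (e : ℕ → ℕ) (m : ℕ) :
    ∀ (S : Set (ι → ℤ)) (_ : S.Finite) (_ : ∀ y ∈ S, ∀ i, |y i| ≤ 1) (s : ℕ → ℕ)
      (_ : ∀ p ∈ B, s p ≤ e p ∧ (s p = e p ∨ ∀ [Fact p.Prime], srk ℚ S ≤ srk (ZMod p) S + s p)),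
      (((univ : Finset (Fin m → Ω)).filter (fun w => ∀ p ∈ B, ∀ [Fact p.Prime],
        srk (ZMod p) (S ∪ Set.range (fun j => c (w j))) + e p ≤
          srk ℚ (S ∪ Set.range (fun j => c (w j))))).card : ℝ) *
        ∏ p ∈ B, W (Fintype.card ι) θ p (e p) ≤
      ((Fintype.card Ω : ℝ) * (1 + 1 / (Fintype.card ι : ℝ)) ^ B.card) ^ m *
        ∏ p ∈ B, W (Fintype.card ι) θ p (s p) := by
  have ha' : (0 : ℝ) < Fintype.card ι := by exact_mod_cast ha
  induction m with
  | zero =>
    intro S _ _ s hs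
    rw [pow_zero, one_mul]
    by_cases h : ∀ p ∈ B, ∀ [Fact p.Prime], srk (ZMod p) S + e p ≤ srk ℚ S
    · have h1 : ∀ p ∈ B, s p = e p := by
        intro p hp
        have := Fact.mk (hB p hp)
        rcases (hs p hp).2 with h2 | h2
        · exact h2
        · have h3 := h2
          have h4 := h p hp
          have h5 := (hs p hp).1
          have h6 : srk ℚ S ≤ srk (ZMod p) S + s p := h3
          have h7 : srk (ZMod p) S + e p ≤ srk ℚ S := h4
          omega
      have h1' : ∏ p ∈ B, W (Fintype.card ι) θ p (e p) = ∏ p ∈ B, W (Fintype.card ι) θ p (s p) :=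
        Finset.prod_congr rfl fun p hp => by rw [h1 p hp]
      rw [h1']
      have h2 : (((univ : Finset (Fin 0 → Ω)).filter (fun w => ∀ p ∈ B, ∀ [Fact p.Prime],
        srk (ZMod p) (S ∪ Set.range (fun j => c (w j))) + e p ≤
          srk ℚ (S ∪ Set.range (fun j => c (w j))))).card : ℝ) ≤ 1 := by
        have : ((univ : Finset (Fin 0 → Ω)).filter (fun w => ∀ p ∈ B, ∀ [Fact p.Prime],
        srk (ZMod p) (S ∪ Set.range (fun j => c (w j))) + e p ≤
          srk ℚ (S ∪ Set.range (fun j => c (w j))))).card ≤ 1 := by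
          refine (Finset.card_le_univ _).trans ?_
          simp
        exact_mod_cast this
      exact mul_le_of_le_one_left (Finset.prod_nonneg fun p hp => (W_pos ha' (hB p hp) _).le) h2
    · have h2 : (univ : Finset (Fin 0 → Ω)).filter (fun w => ∀ p ∈ B, ∀ [Fact p.Prime],
        srk (ZMod p) (S ∪ Set.range (fun j => c (w j))) + e p ≤
          srk ℚ (S ∪ Set.range (fun j => c (w j)))) = ∅ := by
        rw [Finset.filter_eq_empty_iff]
        intro w _ hw
        apply h
        intro p hp _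
        have h3 := hw p hp
        rwa [Set.range_eq_empty, Set.union_empty] at h3
      rw [h2, Finset.card_empty, Nat.cast_zero, zero_mul]
      exact Finset.prod_nonneg fun p hp => (W_pos ha' (hB p hp) _).le
  | succ m ih =>
    intro S hS hS1 s hs
    -- split off the first column
    let P : Set (ι → ℤ) → Prop := fun R => ∀ p ∈ B, ∀ [Fact p.Prime],
      srk (ZMod p) R + e p ≤ srk ℚ R
    have h1 : (((univ : Finset (Fin (m + 1) → Ω)).filter (fun w => P
        (S ∪ Set.range (fun j => c (w j))))).card : ℝ) =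
        ∑ ω : Ω, (((univ : Finset (Fin m → Ω)).filter (fun w => P
          (insert (c ω) S ∪ Set.range (fun j => c (w j))))).card : ℝ) := by
      rw [← Finset.sum_boole]
      rw [← (Fin.consEquiv (fun _ => Ω)).sum_comp, Fintype.sum_prod_type]
      refine Finset.sum_congr rfl fun ω _ => ?_
      rw [← Finset.sum_boole]
      refine Finset.sum_congr rfl fun w _ => ?_
      have h2 : S ∪ Set.range (fun j => c ((Fin.consEquiv (fun _ => Ω)) (ω, w) j)) =
          insert (c ω) S ∪ Set.range (fun j => c (w j)) := by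
        have h3 : (fun j => c ((Fin.consEquiv (fun _ => Ω)) (ω, w) j)) =
            (Fin.cons (c ω) (fun j => c (w j)) : Fin (m + 1) → ι → ℤ) := by
          funext j
          refine Fin.cases ?_ (fun j => ?_) j
          · rfl
          · rfl
        rw [h3, Fin.range_cons, Set.union_insert, Set.insert_union]
      exact if_congr (by rw [h2]) rfl rfl
    show (((univ : Finset (Fin (m + 1) → Ω)).filter (fun w => P
        (S ∪ Set.range (fun j => c (w j))))).card : ℝ) * _ ≤ _
    rw [h1, Finset.sum_mul]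
    -- the primes whose excess grows
    let Bω : Ω → Finset ℕ := fun ω => B.filter (fun p => s p < e p ∧ ∃ h : p.Prime,
      haveI := Fact.mk h; srk (ZMod p) (insert (c ω) S) + s p + 1 ≤ srk ℚ (insert (c ω) S))
    have h2 : ∀ ω : Ω, (((univ : Finset (Fin m → Ω)).filter (fun w => P
          (insert (c ω) S ∪ Set.range (fun j => c (w j))))).card : ℝ) *
            ∏ p ∈ B, W (Fintype.card ι) θ p (e p) ≤
          ((Fintype.card Ω : ℝ) * (1 + 1 / (Fintype.card ι : ℝ)) ^ B.card) ^ m *
            ((∏ p ∈ B, W (Fintype.card ι) θ p (s p)) *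
              ∏ p ∈ Bω ω, (((p : ℝ) ^ θ) ^ s p / (Fintype.card ι : ℝ))) := by
      intro ω
      have h3 := ih (insert (c ω) S) (hS.insert _) (by
        intro y hy i
        rcases Set.mem_insert_iff.1 hy with h | h
        · rw [h]; exact hc ω i
        · exact hS1 y h i) (fun p => if p ∈ Bω ω then s p + 1 else s p) (by
          intro p hp
          have hpr := hB p hp
          have := Fact.mk hpr
          have hs1 := (hs p hp).1
          by_cases hpB : p ∈ Bω ω
          · have h4 := (Finset.mem_filter.1 hpB).2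
            simp only [if_pos hpB]
            refine ⟨h4.1, Or.inr ?_⟩
            intro _
            rcases (hs p hp).2 with h5 | h5
            · have := h4.1
              omega
            · have h6 : srk ℚ S ≤ srk (ZMod p) S + s p := h5
              have h7 := srk_insert_le ℚ S (c ω)
              have h8 : srk (ZMod p) S ≤ srk (ZMod p) (insert (c ω) S) :=
                srk_mono (ZMod p) (Set.subset_insert _ _)
              omega
          · simp only [if_neg hpB]
            refine ⟨hs1, ?_⟩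
            by_cases h5 : s p = e p
            · exact Or.inl h5
            · right
              intro _
              by_contra h6
              apply hpB
              rw [Finset.mem_filter]
              refine ⟨hp, by omega, hpr, ?_⟩
              omega)
      refine h3.trans (le_of_eq ?_)
      congr 1
      have h4 : ∏ p ∈ Bω ω, (((p : ℝ) ^ θ) ^ s p / (Fintype.card ι : ℝ)) =
          ∏ p ∈ B, (if p ∈ Bω ω then (((p : ℝ) ^ θ) ^ s p / (Fintype.card ι : ℝ)) else 1) := by
        rw [Finset.prod_ite_mem]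
        congr 1
        exact (Finset.inter_eq_right.2 (Finset.filter_subset _ _)).symm
      rw [h4, ← Finset.prod_mul_distrib]
      refine Finset.prod_congr rfl fun p _ => ?_
      by_cases hpB : p ∈ Bω ω
      · rw [if_pos hpB, if_pos hpB, W_succ ha']
      · rw [if_neg hpB, if_neg hpB, mul_one]
    refine (Finset.sum_le_sum fun ω _ => h2 ω).trans ?_
    rw [← Finset.mul_sum, ← Finset.mul_sum, pow_succ]
    -- the sum over the first column
    have h3 : ∑ ω : Ω, ∏ p ∈ Bω ω, (((p : ℝ) ^ θ) ^ s p / (Fintype.card ι : ℝ)) ≤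
        (Fintype.card Ω : ℝ) * (1 + 1 / (Fintype.card ι : ℝ)) ^ B.card := by
      have h4 : ∑ ω : Ω, ∏ p ∈ Bω ω, (((p : ℝ) ^ θ) ^ s p / (Fintype.card ι : ℝ)) =
          ∑ T ∈ B.powerset, ∑ ω ∈ (univ : Finset Ω).filter (fun ω => Bω ω = T),
            ∏ p ∈ Bω ω, (((p : ℝ) ^ θ) ^ s p / (Fintype.card ι : ℝ)) := by
        rw [Finset.sum_fiberwise_of_maps_to]
        intro ω _
        exact Finset.mem_powerset.2 (Finset.filter_subset _ _)
      rw [h4]
      have h5 : ∀ T ∈ B.powerset, ∑ ω ∈ (univ : Finset Ω).filter (fun ω => Bω ω = T),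
            ∏ p ∈ Bω ω, (((p : ℝ) ^ θ) ^ s p / (Fintype.card ι : ℝ)) ≤
          (Fintype.card Ω : ℝ) * (1 / (Fintype.card ι : ℝ)) ^ T.card := by
        intro T hT
        have hTB := Finset.mem_powerset.1 hT
        have h6 : ∑ ω ∈ (univ : Finset Ω).filter (fun ω => Bω ω = T),
            ∏ p ∈ Bω ω, (((p : ℝ) ^ θ) ^ s p / (Fintype.card ι : ℝ)) =
            (((univ : Finset Ω).filter (fun ω => Bω ω = T)).card : ℝ) *
              ((∏ p ∈ T, (((p : ℝ) ^ θ) ^ s p)) * (1 / (Fintype.card ι : ℝ)) ^ T.card) := by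
          rw [← nsmul_eq_mul, ← Finset.sum_const]
          refine Finset.sum_congr rfl fun ω hω => ?_
          rw [(Finset.mem_filter.1 hω).2, Finset.prod_div_distrib, Finset.prod_const, one_div,
            inv_pow, div_eq_mul_inv]
        rw [h6, ← mul_assoc]
        refine mul_le_mul_of_nonneg_right ?_ (by positivity)
        by_cases hne : ((univ : Finset Ω).filter (fun ω => Bω ω = T)).Nonempty
        · obtain ⟨ω₀, hω₀⟩ := hne
          have hω₀ := (Finset.mem_filter.1 hω₀).2
          have key : ∀ ω, Bω ω = T → ∀ p ∈ T, ∀ [Fact p.Prime],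
              srk (ZMod p) S + s p ≤ srk ℚ S ∧
                srk (ZMod p) (insert (c ω) S) ≤ srk (ZMod p) S := by
            intro ω hω p hp _
            rw [← hω] at hp
            obtain ⟨hpB, hse, hpr, h7⟩ := Finset.mem_filter.1 hp
            have h7 : srk (ZMod p) (insert (c ω) S) + s p + 1 ≤ srk ℚ (insert (c ω) S) := h7
            have h8 := srk_insert_le ℚ S (c ω)
            have h9 : srk (ZMod p) S ≤ srk (ZMod p) (insert (c ω) S) :=
              srk_mono (ZMod p) (Set.subset_insert _ _)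
            rcases (hs p hpB).2 with h10 | h10
            · omega
            · have h11 : srk ℚ S ≤ srk (ZMod p) S + s p := h10
              exact ⟨by omega, by omega⟩
          have h7 := one_col hρ hθ0 hLO ha hθ S hS hS1 T (fun p hp => hB p (hTB hp)) s
            (fun p hp _ => (key ω₀ hω₀ p hp).1)
          refine le_trans (mul_le_mul_of_nonneg_right ?_
            (Finset.prod_nonneg fun p _ => by positivity)) h7
          refine Nat.cast_le.2 (Finset.card_le_card ?_)
          intro ω hω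
          rw [Finset.mem_filter] at hω ⊢
          exact ⟨mem_univ _, fun p hp _ => (key ω hω.2 p hp).2⟩
        · rw [Finset.not_nonempty_iff_eq_empty] at hne
          rw [hne, Finset.card_empty, Nat.cast_zero, zero_mul]
          exact Nat.cast_nonneg _
      refine (Finset.sum_le_sum h5).trans (le_of_eq ?_)
      rw [← Finset.mul_sum]
      congr 1
      have h6 : ∏ i ∈ B, (1 + (fun _ : ℕ => 1 / (Fintype.card ι : ℝ)) i) = _ :=
        Finset.prod_one_add B
      rw [Finset.prod_const] at h6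
      rw [h6]
      refine Finset.sum_congr rfl fun T _ => ?_
      rw [Finset.prod_const]
    have hW : 0 ≤ ∏ p ∈ B, W (Fintype.card ι) θ p (s p) :=
      Finset.prod_nonneg fun p hp => (W_pos ha' (hB p hp) _).le
    calc _ = ((Fintype.card Ω : ℝ) * (1 + 1 / (Fintype.card ι : ℝ)) ^ B.card) ^ m *
          (∏ p ∈ B, W (Fintype.card ι) θ p (s p)) *
            ∑ ω : Ω, ∏ p ∈ Bω ω, (((p : ℝ) ^ θ) ^ s p / (Fintype.card ι : ℝ)) := by ring
      _ ≤ ((Fintype.card Ω : ℝ) * (1 + 1 / (Fintype.card ι : ℝ)) ^ B.card) ^ m *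
          (∏ p ∈ B, W (Fintype.card ι) θ p (s p)) *
            ((Fintype.card Ω : ℝ) * (1 + 1 / (Fintype.card ι : ℝ)) ^ B.card) :=
          mul_le_mul_of_nonneg_left h3 (mul_nonneg (by positivity) hW)
      _ = _ := by ring

open scoped Classical in
/-- **The profile bound.** -/
theorem profile {c : Ω → ι → ℤ} {ρ θ : ℝ} (hρ : 0 ≤ ρ) (hθ0 : 0 ≤ θ) (hLO : LOLaw c ρ)
    (hc : ∀ ω i, |c ω i| ≤ 1)
    (ha : 1 ≤ Fintype.card ι) (hθ : ρ * ((Fintype.card ι : ℝ)) ^ θ ≤ 1)
    (B : Finset ℕ) (hB : ∀ p ∈ B, p.Prime) (e : ℕ → ℕ) (m : ℕ) :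
    (((univ : Finset (Fin m → Ω)).filter (fun w => ∀ p ∈ B,
        ((mat c w).map (Int.cast : ℤ → ZMod p)).rank + e p ≤
          ((mat c w).map (Int.cast : ℤ → ℚ)).rank)).card : ℝ) *
        ∏ p ∈ B, W (Fintype.card ι) θ p (e p) ≤
      ((Fintype.card Ω : ℝ) * (1 + 1 / (Fintype.card ι : ℝ)) ^ B.card) ^ m := by
  have ha' : (0 : ℝ) < Fintype.card ι := by exact_mod_cast ha
  have h1 := profile_aux hρ hθ0 hLO hc ha hθ B hB e m ∅ Set.finite_empty
    (fun y hy => absurd hy (Set.notMem_empty y)) (fun _ => 0) (by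
      intro p hp
      refine ⟨Nat.zero_le _, Or.inr ?_⟩
      intro _
      rw [srk_empty, srk_empty])
  have h2 : ∏ p ∈ B, W (Fintype.card ι) θ p 0 = 1 :=
    Finset.prod_eq_one fun p _ => W_zero _ _ _
  rw [h2, mul_one] at h1
  refine le_trans (mul_le_mul_of_nonneg_right ?_
    (Finset.prod_nonneg fun p hp => (W_pos ha' (hB p hp) _).le)) h1
  refine Nat.cast_le.2 (Finset.card_le_card ?_)
  intro w hw
  rw [Finset.mem_filter] at hw ⊢
  refine ⟨mem_univ _, fun p hp _ => ?_⟩
  have h3 := hw.2 p hp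
  unfold mat at h3
  rw [srk_eq_rank, srk_eq_rank] at h3
  rwa [Set.empty_union]

end Profile

end Vale.Agent.P160.Half.Profile81
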