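import Mathlib
import Vale.Agent.P160.Half.Profile81
import Vale.Agent.P160.Half.HalfBal505

/-!
# P160: the dissociated Littlewood-Offord bound for a lazy law with max atom at least one half

A coordinate takes the values `1` and `-1` with probability `L / M` each, `4 L ≤ M`.
Then for `D` dissociated, `P (∑ ξ_i g_i = t) ≤ (1 - 2 L / M) ^ |D|`.
-/

set_option linter.unusedSectionVars false

namespace Vale.Agent.P160.Half.LazyLaw81

open Finset Vale.Agent.P160.Half.LOMin Vale.Agent.P160.Half.Profile81

section Lazy

variable {Θ : Type} [Fintype Θ] {G : Type} [AddCommGroup G]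

/-- no relation with coefficients `-1, 0, 1` on the marked coordinates between elements of `T` -/
def Good {n : ℕ} (g : Fin n → G) (d : Fin n → Bool) (T : Set G) : Prop :=
  ∀ c : Fin n → ℤ, (∀ i, |c i| ≤ 1) → (∀ i, d i = false → c i = 0) →
    ∀ t ∈ T, ∀ t' ∈ T, ∑ i, c i • g i = t - t' → (∀ i, c i = 0) ∧ t = t'

open scoped Classical in
/-- the number of seeds -/
noncomputable def cnt (st : Θ → ℤ) {n : ℕ} (g : Fin n → G) (T : Set G) : ℝ :=
  (((univ : Finset (Fin n → Θ)).filter (fun ω => ∑ i, st (ω i) • g i ∈ T)).card : ℝ)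

theorem cnt_nonneg (st : Θ → ℤ) {n : ℕ} (g : Fin n → G) (T : Set G) : 0 ≤ cnt st g T :=
  Nat.cast_nonneg _

theorem cnt_succ (st : Θ → ℤ) {n : ℕ} (g : Fin (n + 1) → G) (T : Set G) :
    cnt st g T = ∑ θ : Θ, cnt st (fun i => g i.succ) {x | st θ • g 0 + x ∈ T} := by
  classical
  unfold cnt
  rw [← Finset.sum_boole, ← (Fin.consEquiv (fun _ => Θ)).sum_comp, Fintype.sum_prod_type]
  refine Finset.sum_congr rfl fun θ _ => ?_
  rw [← Finset.sum_boole]
  refine Finset.sum_congr rfl fun w _ => ?_
  refine if_congr ?_ rfl rfl
  rw [Fin.sum_univ_succ]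
  exact Iff.rfl

theorem cnt_union_le (st : Θ → ℤ) {n : ℕ} (g : Fin n → G) (T T' : Set G)
    (h : ∀ x, x ∈ T → x ∉ T') : cnt st g T + cnt st g T' = cnt st g (T ∪ T') := by
  classical
  unfold cnt
  rw [← Nat.cast_add, ← Finset.card_union_of_disjoint]
  · congr 2
    ext ω
    simp only [mem_union, mem_filter, mem_univ, true_and, Set.mem_union]
  · rw [Finset.disjoint_left]
    intro ω hω hω'
    exact h _ (Finset.mem_filter.1 hω).2 (Finset.mem_filter.1 hω').2

theorem lazy_aux (st : Θ → ℤ) (L : ℕ) (hst : ∀ θ, st θ = 0 ∨ st θ = 1 ∨ st θ = -1)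
    (h1 : ((univ : Finset Θ).filter (fun θ => st θ = 1)).card = L)
    (h2 : ((univ : Finset Θ).filter (fun θ => st θ = -1)).card = L)
    (hL : 4 * L ≤ Fintype.card Θ) (n : ℕ) :
    ∀ (g : Fin n → G) (d : Fin n → Bool) (T : Set G), Good g d T →
      cnt st g T ≤ ∏ i, (if d i then ((Fintype.card Θ : ℝ) - 2 * L) else Fintype.card Θ) := by
  classical
  have hL' : (4 : ℝ) * L ≤ Fintype.card Θ := by exact_mod_cast hL
  have hL0 : (0 : ℝ) ≤ L := Nat.cast_nonneg _
  induction n with
  | zero =>
    intro g d T _
    rw [Fintype.prod_empty]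
    unfold cnt
    have : ((univ : Finset (Fin 0 → Θ)).filter (fun ω => ∑ i, st (ω i) • g i ∈ T)).card ≤ 1 := by
      refine (Finset.card_le_univ _).trans ?_
      simp
    exact_mod_cast this
  | succ n ih =>
    intro g d T hT
    rw [cnt_succ, Fin.prod_univ_succ]
    set g' : Fin n → G := fun i => g i.succ with hg'
    set P : ℝ := ∏ i : Fin n, (if d i.succ then ((Fintype.card Θ : ℝ) - 2 * L) else
      Fintype.card Θ) with hP
    by_cases hd : d 0 = true
    · rw [if_pos hd]
      -- the union of two translates is good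
      have hgood : ∀ v : ℤ, (v = 1 ∨ v = -1) →
          cnt st g' {x | (0 : ℤ) • g 0 + x ∈ T} + cnt st g' {x | v • g 0 + x ∈ T} ≤ P := by
        intro v hv
        have hv1 : |v| ≤ 1 := by rcases hv with h | h <;> rw [h] <;> norm_num
        have hv0 : v ≠ 0 := by rcases hv with h | h <;> rw [h] <;> norm_num
        rw [cnt_union_le]
        · refine ih g' (fun i => d i.succ) _ ?_
          have hmem : ∀ x, x ∈ ({x | (0 : ℤ) • g 0 + x ∈ T} ∪ {x | v • g 0 + x ∈ T} : Set G) →
              ∃ a : ℤ, (a = 0 ∨ a = v) ∧ a • g 0 + x ∈ T := by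
            intro x hx
            rcases hx with hx | hx
            · exact ⟨0, Or.inl rfl, hx⟩
            · exact ⟨v, Or.inr rfl, hx⟩
          intro c hc hcd x hx x' hx' hsum
          obtain ⟨a, ha, hxa⟩ := hmem x hx
          obtain ⟨a', ha', hxa'⟩ := hmem x' hx'
          have h3 := hT (Fin.cons (a - a') c : Fin (n + 1) → ℤ) (by
            intro i
            refine Fin.cases ?_ (fun i => ?_) i
            · rw [Fin.cons_zero]
              rcases ha with h | h <;> rcases ha' with h' | h' <;> rw [h, h']
              · norm_num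
              · rw [zero_sub, abs_neg]; exact hv1
              · rw [sub_zero]; exact hv1
              · rw [sub_self]; norm_num
            · rw [Fin.cons_succ]; exact hc i) (by
            intro i
            refine Fin.cases ?_ (fun i => ?_) i
            · intro h; rw [hd] at h; exact absurd h (by decide)
            · intro h; rw [Fin.cons_succ]; exact hcd i h) _ hxa _ hxa' (by
            rw [Fin.sum_univ_succ, Fin.cons_zero]
            simp only [Fin.cons_succ]
            rw [show ∑ i : Fin n, c i • g i.succ = x - x' from hsum, sub_smul]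
            abel)
          have h4 : ∀ i, c i = 0 := fun i => by
            have := h3.1 i.succ
            rwa [Fin.cons_succ] at this
          refine ⟨h4, ?_⟩
          have h5 : ∑ i, c i • g' i = 0 := Finset.sum_eq_zero fun i _ => by rw [h4 i, zero_smul]
          rw [h5] at hsum
          exact (sub_eq_zero.1 hsum.symm)
        · intro x hx hx'
          have h3 := hT (Fin.cons v (fun _ => 0) : Fin (n + 1) → ℤ) (by
            intro i
            refine Fin.cases ?_ (fun i => ?_) i
            · rw [Fin.cons_zero]; exact hv1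
            · rw [Fin.cons_succ]; norm_num) (by
            intro i
            refine Fin.cases ?_ (fun i => ?_) i
            · intro h; rw [hd] at h; exact absurd h (by decide)
            · intro h; rw [Fin.cons_succ]) _ hx' _ hx (by
            rw [Fin.sum_univ_succ, Fin.cons_zero]
            simp only [Fin.cons_succ, zero_smul, Finset.sum_const_zero]
            abel)
          have h4 := h3.1 0
          rw [Fin.cons_zero] at h4
          exact hv0 h4
      have hp := hgood 1 (Or.inl rfl)
      have hm := hgood (-1) (Or.inr rfl)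
      have hn0 := cnt_nonneg st g' {x | (0 : ℤ) • g 0 + x ∈ T}
      have hnp := cnt_nonneg st g' {x | (1 : ℤ) • g 0 + x ∈ T}
      -- the sum over the first seed
      have hsum : ∑ θ : Θ, cnt st g' {x | st θ • g 0 + x ∈ T} =
          L * cnt st g' {x | (1 : ℤ) • g 0 + x ∈ T} +
            L * cnt st g' {x | (-1 : ℤ) • g 0 + x ∈ T} +
              ((Fintype.card Θ : ℝ) - 2 * L) * cnt st g' {x | (0 : ℤ) • g 0 + x ∈ T} := by
        have e1 : ∀ θ : Θ, cnt st g' {x | st θ • g 0 + x ∈ T} =
            cnt st g' {x | (0 : ℤ) • g 0 + x ∈ T} +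
            ((if st θ = 1 then (cnt st g' {x | (1 : ℤ) • g 0 + x ∈ T} -
              cnt st g' {x | (0 : ℤ) • g 0 + x ∈ T}) else 0) +
            (if st θ = -1 then (cnt st g' {x | (-1 : ℤ) • g 0 + x ∈ T} -
              cnt st g' {x | (0 : ℤ) • g 0 + x ∈ T}) else 0)) := by
          intro θ
          rcases hst θ with h | h | h <;> rw [h] <;> norm_num
        rw [Finset.sum_congr rfl fun θ _ => e1 θ, Finset.sum_add_distrib, Finset.sum_add_distrib,
          ← Finset.sum_filter, ← Finset.sum_filter, Finset.sum_const, Finset.sum_const,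
          Finset.sum_const, h1, h2, Finset.card_univ, nsmul_eq_mul, nsmul_eq_mul, nsmul_eq_mul]
        ring
      rw [hsum]
      nlinarith [mul_nonneg hL0 (sub_nonneg.2 hp), mul_nonneg hL0 (sub_nonneg.2 hm),
        mul_nonneg (sub_nonneg.2 hL') (sub_nonneg.2
          (show cnt st g' {x | (0 : ℤ) • g 0 + x ∈ T} ≤ P by linarith))]
    · rw [if_neg hd]
      have hd' : d 0 = false := by simpa using hd
      have h3 : ∀ θ : Θ, cnt st g' {x | st θ • g 0 + x ∈ T} ≤ P := by
        intro θ
        refine ih g' (fun i => d i.succ) _ ?_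
        intro c hc hcd x hx x' hx' hsum
        have h3 := hT (Fin.cons 0 c : Fin (n + 1) → ℤ) (by
            intro i
            refine Fin.cases ?_ (fun i => ?_) i
            · rw [Fin.cons_zero]; norm_num
            · rw [Fin.cons_succ]; exact hc i) (by
            intro i
            refine Fin.cases ?_ (fun i => ?_) i
            · intro _; rw [Fin.cons_zero]
            · intro h; rw [Fin.cons_succ]; exact hcd i h) _ hx _ hx' (by
            rw [Fin.sum_univ_succ, Fin.cons_zero]
            simp only [Fin.cons_succ]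
            rw [show ∑ i : Fin n, c i • g i.succ = x - x' from hsum, zero_smul]
            abel)
        refine ⟨fun i => ?_, ?_⟩
        · have := h3.1 i.succ
          rwa [Fin.cons_succ] at this
        · exact add_left_cancel h3.2
      refine (Finset.sum_le_sum fun θ _ => h3 θ).trans ?_
      rw [Finset.sum_const, Finset.card_univ, nsmul_eq_mul]

end Lazy

section Law

variable {Θ : Type} [Fintype Θ] {ι : Type} [Fintype ι] [DecidableEq ι]

theorem lolaw_lazy (st : Θ → ℤ) (L : ℕ) (hst : ∀ θ, st θ = 0 ∨ st θ = 1 ∨ st θ = -1)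
    (h1 : ((univ : Finset Θ).filter (fun θ => st θ = 1)).card = L)
    (h2 : ((univ : Finset Θ).filter (fun θ => st θ = -1)).card = L)
    (hΘ : 0 < Fintype.card Θ)
    (hL : 4 * L ≤ Fintype.card Θ) :
    LOLaw (fun (ω : ι → Θ) i => st (ω i)) (1 - 2 * L / Fintype.card Θ) := by
  classical
  intro G _ g D hD t
  let e : ι ≃ Fin (Fintype.card ι) := Fintype.equivFin ι
  have hM : (0 : ℝ) < Fintype.card Θ := by exact_mod_cast hΘ
  have hgood : Good (fun i => g (e.symm i)) (fun i => decide (e.symm i ∈ D)) {t} := by
    intro c hc hcd x hx x' hx' hsum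
    rw [Set.mem_singleton_iff] at hx hx'
    rw [hx, hx', sub_self] at hsum
    refine ⟨?_, by rw [hx, hx']⟩
    have h3 := hD (fun i => c (e i)) (fun i => hc _) (by
      rw [← hsum]
      have e1 : ∑ i, c i • g (e.symm i) = ∑ i, c (e i) • g i := by
        rw [← e.sum_comp]
        exact Finset.sum_congr rfl fun i _ => by rw [e.symm_apply_apply]
      rw [e1]
      refine Finset.sum_subset (Finset.subset_univ _) fun i _ hi => ?_
      rw [hcd (e i) (by
        show decide (e.symm (e i) ∈ D) = false
        rw [e.symm_apply_apply]; simpa using hi), zero_smul])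
    intro i
    by_cases hi : e.symm i ∈ D
    · have := h3 _ hi
      rwa [e.apply_symm_apply] at this
    · exact hcd i (by simpa using hi)
  have h3 := lazy_aux st L hst h1 h2 hL _ _ _ _ hgood
  have h4 : (((univ : Finset (ι → Θ)).filter (fun ω => ∑ i, st (ω i) • g i = t)).card : ℝ) =
      cnt st (fun i => g (e.symm i)) {t} := by
    unfold cnt
    congr 1
    refine Finset.card_bij (fun ω _ => fun i => ω (e.symm i)) ?_ ?_ ?_
    · intro ω hω
      have hω := (Finset.mem_filter.1 hω).2
      rw [Finset.mem_filter]
      refine ⟨mem_univ _, ?_⟩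
      rw [Set.mem_singleton_iff, ← hω]
      exact e.symm.sum_comp (fun i => st (ω i) • g i)
    · intro ω _ ω' _ h
      funext i
      have := congrFun h (e i)
      simpa using this
    · intro w hw
      have hw := (Finset.mem_filter.1 hw).2
      rw [Set.mem_singleton_iff] at hw
      refine ⟨fun i => w (e i), ?_, by funext i; simp⟩
      rw [Finset.mem_filter]
      refine ⟨mem_univ _, ?_⟩
      rw [← hw, ← e.sum_comp]
      refine Finset.sum_congr rfl fun i _ => ?_
      show st (w (e i)) • g i = st (w (e i)) • g (e.symm (e i))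
      rw [e.symm_apply_apply]
  have h5 : ∏ i, (if (decide (e.symm i ∈ D)) = true then ((Fintype.card Θ : ℝ) - 2 * L) else
      Fintype.card Θ) = (Fintype.card (ι → Θ) : ℝ) * (1 - 2 * L / Fintype.card Θ) ^ D.card := by
    rw [e.symm.prod_comp (fun i => (if (decide (i ∈ D)) = true then
      ((Fintype.card Θ : ℝ) - 2 * L) else Fintype.card Θ))]
    have e1 : ∀ i : ι, (if (decide (i ∈ D)) = true then
      ((Fintype.card Θ : ℝ) - 2 * L) else Fintype.card Θ) =
      (Fintype.card Θ : ℝ) * (if i ∈ D then (1 - 2 * (L : ℝ) / Fintype.card Θ) else 1) := by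
      intro i
      by_cases hi : i ∈ D
      · rw [if_pos (by simpa using hi), if_pos hi, mul_sub, mul_one,
          mul_div_cancel₀ _ hM.ne']
      · rw [if_neg (by simpa using hi), if_neg hi, mul_one]
    rw [Finset.prod_congr rfl fun i _ => e1 i, Finset.prod_mul_distrib, Finset.prod_const,
      Finset.prod_ite_mem, Finset.univ_inter, Finset.prod_const, Finset.card_univ,
      Fintype.card_fun]
    push_cast
    rfl
  have h6 : (((univ : Finset (ι → Θ)).filter (fun ω => ∑ i, st (ω i) • g i = t)).card : ℝ) ≤
      (Fintype.card (ι → Θ) : ℝ) * (1 - 2 * L / Fintype.card Θ) ^ D.card := by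
    rw [h4, ← h5]
    exact h3
  convert h6

/-- the lazy law of the balanced half size reduction -/
theorem lolaw_stL (L M : ℕ) (hM : 0 < M) (hLM : 4 * L ≤ M) :
    LOLaw (fun (ω : ι → Fin M) i => stL L (ω i)) (1 - 2 * L / M) := by
  have h := lolaw_lazy (ι := ι) (Θ := Fin M) (fun a => stL L a) L (by
    intro a
    unfold stL
    split_ifs <;> simp) (by
    have e1 : (univ : Finset (Fin M)).filter (fun a => stL L a = 1) =
        (univ : Finset (Fin M)).filter (fun a => a.val < L) := by
      refine Finset.filter_congr fun a _ => ?_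
      unfold stL
      split_ifs with h1 h2 <;> simp [h1]
    rw [e1, Fin.card_filter_val_lt]
    omega) (by
    have e1 : (univ : Finset (Fin M)).filter (fun a => stL L a = -1) =
        ((univ : Finset (Fin M)).filter (fun a => a.val < 2 * L)) \
          ((univ : Finset (Fin M)).filter (fun a => a.val < L)) := by
      ext a
      rw [Finset.mem_sdiff, Finset.mem_filter, Finset.mem_filter, Finset.mem_filter]
      unfold stL
      split_ifs with h1 h2 <;> simp [h1] <;> omega
    rw [e1, Finset.card_sdiff_of_subset, Fin.card_filter_val_lt, Fin.card_filter_val_lt]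
    · omega
    · intro a ha
      rw [Finset.mem_filter] at ha ⊢
      exact ⟨mem_univ _, by omega⟩) (by rwa [Fintype.card_fin]) (by rwa [Fintype.card_fin])
  rwa [Fintype.card_fin] at h

end Law

end Vale.Agent.P160.Half.LazyLaw81
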