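import Vale.Agent.P160.Half.Good439
import Mathlib.LinearAlgebra.Matrix.GeneralLinearGroup.Card

/-! P160-HALF, block (M): LEMMA M of note 11331 (502), general exponent.
Part I: tuples of kernel vectors as vectors over slot groups. -/

namespace Vale.Agent.P160.Half.LemM203

open Finset Vale.Agent.P160 Vale.Agent.P160.Half.Flat Vale.Agent.P160.Half.Good439

section one

variable {Om : Type} (e : Om → ℤ)

/-- right kernel modulo `p`: vectors with `a` coordinates killed by the `k` rows -/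
def Ker (p : ℕ) {a k : ℕ} (Y : Fin k → Fin a → Om) : Submodule (ZMod p) (Fin a → ZMod p) where
  carrier := {u | ∀ j, ∑ c, e (Y j c) • u c = 0}
  zero_mem' := by intro j; simp
  add_mem' := by
    intro u v hu hv j
    simp only [Pi.add_apply, smul_add, sum_add_distrib, hu j, hv j, add_zero]
  smul_mem' := by
    intro t u hu j
    have h := congrArg (fun x => t * x) (hu j)
    simp only [mul_sum, mul_zero] at h
    simp only [Pi.smul_apply, smul_eq_mul]
    rw [← h]
    exact sum_congr rfl fun c _ => by rw [mul_smul_comm]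

lemma mem_Ker {p : ℕ} {a k : ℕ} {Y : Fin k → Fin a → Om} {u : Fin a → ZMod p} :
    u ∈ Ker e p Y ↔ ∀ j, ∑ c, e (Y j c) • u c = 0 := Iff.rfl

/-- number of independent tuples -/
lemma indep_count {V : Type} (p q : ℕ) [Fact p.Prime] [AddCommGroup V] [Module (ZMod p) V]
    [Finite V] :
    p ^ (q * Module.finrank (ZMod p) V) ≤ 2 ^ q * p ^ (q * q) *
      Nat.card {s : Fin (min (Module.finrank (ZMod p) V) q) → V // LinearIndependent (ZMod p) s} := by
  have hp : p.Prime := Fact.out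
  set d := Module.finrank (ZMod p) V with hd
  rw [card_linearIndependent (K := ZMod p) (V := V) (k := min d q) (min_le_left _ _)]
  rw [ZMod.card, ← hd]
  rcases le_total q d with h | h
  · rw [min_eq_right h]
    have h1 : ∀ i : Fin q, p ^ d ≤ 2 * (p ^ d - p ^ (i : ℕ)) := by
      intro i
      have h2 : (i : ℕ) + 1 ≤ d := by have := i.2; omega
      have h3 : p ^ ((i : ℕ) + 1) ≤ p ^ d := Nat.pow_le_pow_right hp.pos h2
      have h4 : 2 * p ^ (i : ℕ) ≤ p ^ ((i : ℕ) + 1) := by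
        rw [pow_succ, mul_comm]
        exact Nat.mul_le_mul_left _ hp.two_le
      omega
    calc p ^ (q * d) = ∏ _i : Fin q, p ^ d := by
          rw [prod_const, card_univ, Fintype.card_fin, ← pow_mul, mul_comm]
      _ ≤ ∏ i : Fin q, 2 * (p ^ d - p ^ (i : ℕ)) := prod_le_prod' fun i _ => h1 i
      _ = 2 ^ q * ∏ i : Fin q, (p ^ d - p ^ (i : ℕ)) := by
          rw [prod_mul_distrib, prod_const, card_univ, Fintype.card_fin]
      _ ≤ _ := by
          refine Nat.mul_le_mul_right _ ?_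
          exact Nat.le_mul_of_pos_right _ (by have := hp.pos; positivity)
  · rw [min_eq_left h]
    have h1 : 1 ≤ ∏ i : Fin d, (p ^ d - p ^ (i : ℕ)) := by
      refine Nat.one_le_iff_ne_zero.2 (prod_ne_zero_iff.2 fun i _ => ?_)
      have : p ^ (i : ℕ) < p ^ d := Nat.pow_lt_pow_right hp.one_lt i.2
      omega
    have h2 : p ^ (q * d) ≤ p ^ (q * q) := Nat.pow_le_pow_right hp.pos (Nat.mul_le_mul_left _ h)
    have h3 : 1 ≤ 2 ^ q := Nat.one_le_two_pow
    calc p ^ (q * d) ≤ p ^ (q * q) := h2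
      _ = 1 * p ^ (q * q) * 1 := by ring
      _ ≤ _ := Nat.mul_le_mul (Nat.mul_le_mul_right _ h3) h1

end one

section chars

/-- every character of `ZMod p` is a shift of the standard one -/
lemma exists_shift {p : ℕ} [Fact p.Prime] (χ : AddChar (ZMod p) ℂ) :
    ∃ t : ZMod p, ∀ x, χ x = ZMod.stdAddChar (t * x) := by
  have h1 : Function.Injective (fun t : ZMod p => AddChar.mulShift (ZMod.stdAddChar (N := p)) t) :=
    AddChar.to_mulShift_inj_of_isPrimitive (ZMod.isPrimitive_stdAddChar p)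
  have h2 : Function.Bijective (fun t : ZMod p => AddChar.mulShift (ZMod.stdAddChar (N := p)) t) := by
    rw [Fintype.bijective_iff_injective_and_card]
    exact ⟨h1, (AddChar.card_eq).symm⟩
  obtain ⟨t, ht⟩ := h2.2 χ
  refine ⟨t, fun x => ?_⟩
  rw [← ht]
  rfl

end chars

section slots

variable {Om : Type} (e : Om → ℤ) {ι : Type} [Fintype ι] [DecidableEq ι] {q : ℕ} (p : ι → ℕ)
  [hpF : ∀ i, Fact (p i).Prime]

/-- primes of the slots -/
abbrev ps (q : ℕ) (s : ι × Fin q) : ℕ := p s.1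

instance instNZ (q : ℕ) (s : ι × Fin q) : NeZero (ps p q s) := ⟨(hpF s.1).out.ne_zero⟩

/-- the vector of one slot -/
def col (i : ι) {a : ℕ} (S : Finset (ι × Fin q)) (w : Fin a → GS (ps p q) S)
    (l : {l : Fin q // (i, l) ∈ S}) : Fin a → ZMod (p i) := fun c => w c ⟨(i, l.1), l.2⟩

lemma nonsp_slots (hinj : Function.Injective p) {a k : ℕ} (Y : Fin k → Fin a → Om) (e0 : ℝ)
    (hns : ∀ i, ∀ u ∈ Ker e (p i) Y, u ≠ 0 → e0 ≤ ((univ.filter fun c => u c ≠ 0).card : ℝ))
    (S : Finset (ι × Fin q)) (w : Fin a → GS (ps p q) S)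
    (hker : ∀ j, ∑ c, e (Y j c) • w c = 0)
    (hind : ∀ i, LinearIndependent (ZMod (p i)) (col p i S w)) :
    NonSp e0 w := by
  classical
  intro ψ hψ
  -- the coefficients
  have ht : ∀ s : {x // x ∈ S}, ∃ t : ZMod (p s.1.1), ∀ y : ZMod (p s.1.1),
      ψ (Pi.single (M := fun s : {x // x ∈ S} => ZMod (ps p q s)) s y) = ZMod.stdAddChar (t * y) := by
    intro s
    obtain ⟨t, ht⟩ := exists_shift (p := p s.1.1)
      (ψ.compAddMonoidHom (AddMonoidHom.single (fun s : {x // x ∈ S} => ZMod (ps p q s)) s))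
    exact ⟨t, fun y => ht y⟩
  choose t ht using ht
  have hprod : ∀ x : GS (ps p q) S, ψ x = ∏ s : {x // x ∈ S}, ZMod.stdAddChar (t s * x s) := by
    intro x
    conv_lhs => rw [← Finset.univ_sum_single x]
    rw [addChar_sum]
    exact prod_congr rfl fun s _ => ht s _
  obtain ⟨s0, hs0⟩ : ∃ s, t s ≠ 0 := by
    by_contra hcon
    push Not at hcon
    refine hψ ?_
    ext x
    rw [hprod x]
    simp [hcon]
  set i := s0.1.1 with hi
  -- the linear form
  let emb : {l : Fin q // (i, l) ∈ S} → {x // x ∈ S} := fun l => ⟨(i, l.1), l.2⟩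
  have hemb : Function.Injective emb := by
    intro l l' h
    have := congrArg (fun x : {x // x ∈ S} => x.1.2) h
    exact Subtype.ext this
  let u : Fin a → ZMod (p i) := ∑ l : {l : Fin q // (i, l) ∈ S},
    (t (emb l) : ZMod (p i)) • col p i S w l
  have hu : ∀ c, u c = ∑ l : {l : Fin q // (i, l) ∈ S}, (t (emb l) : ZMod (p i)) * col p i S w l c := by
    intro c
    simp only [u, Finset.sum_apply, Pi.smul_apply, smul_eq_mul]
  have huK : u ∈ Ker e (p i) Y := by
    refine Submodule.sum_mem _ fun l _ => Submodule.smul_mem _ _ fun j => ?_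
    have h1 := congrFun (hker j) (emb l)
    rw [Finset.sum_apply] at h1
    exact h1
  have hu0 : u ≠ 0 := by
    intro h0
    have h1 := (Fintype.linearIndependent_iff.1 (hind i)) (fun l => (t (emb l) : ZMod (p i))) h0
    have h2 := h1 ⟨s0.1.2, by rw [hi]; exact s0.2⟩
    exact hs0 h2
  refine (hns i u huK hu0).trans ?_
  refine Nat.cast_le.2 (card_le_card fun c hc => ?_)
  simp only [mem_filter, mem_univ, true_and] at hc ⊢
  intro h1
  apply hc
  set n : ℕ := ∏ i' ∈ univ.erase i, p i' with hn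
  have h2 : ψ (n • w c) = 1 := by
    rw [AddChar.map_nsmul_eq_pow, h1, one_pow]
  rw [hprod] at h2
  have h3 : ∏ s : {x // x ∈ S}, ZMod.stdAddChar (t s * (n • w c) s) =
      ∏ l : {l : Fin q // (i, l) ∈ S}, ZMod.stdAddChar (N := p i)
        ((t (emb l) : ZMod (p i)) * ((n • w c) (emb l) : ZMod (p i))) := by
    symm
    refine Fintype.prod_of_injective emb hemb _ _ ?_ fun l => rfl
    intro s hs
    have hsi : s.1.1 ≠ i := by
      intro h
      apply hs
      obtain ⟨⟨i1, l1⟩, hs1⟩ := s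
      simp only at h
      subst h
      exact ⟨⟨l1, hs1⟩, rfl⟩
    have h4 : (n : ZMod (p s.1.1)) = 0 := by
      rw [ZMod.natCast_eq_zero_iff]
      exact dvd_prod_of_mem p (mem_erase.2 ⟨hsi, mem_univ _⟩)
    have h5 : (n • w c) s = 0 := by
      show n • (w c s) = 0
      rw [nsmul_eq_mul]
      rw [show ((n : ℕ) : ZMod (ps p q s.1)) = 0 from h4, zero_mul]
    rw [h5]
    simp
  rw [h3, ← addChar_sum] at h2
  have h6 : ∑ l : {l : Fin q // (i, l) ∈ S},
        ((t (emb l) : ZMod (p i)) * ((n • w c) (emb l) : ZMod (p i))) = (n : ZMod (p i)) * u c := by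
    rw [hu c, mul_sum]
    refine sum_congr rfl fun l _ => ?_
    show _ * (n • (col p i S w l c)) = _
    rw [nsmul_eq_mul]
    ring
  rw [h6] at h2
  have h7 : (n : ZMod (p i)) * u c = 0 := by
    apply ZMod.injective_stdAddChar
    rw [h2, AddChar.map_zero_eq_one]
  rcases mul_eq_zero.1 h7 with h8 | h8
  · exfalso
    rw [ZMod.natCast_eq_zero_iff] at h8
    obtain ⟨i', hi', hd⟩ := (Prime.dvd_finsetProd_iff (hpF i).out.prime _).1 h8
    have := (Nat.prime_dvd_prime_iff_eq (hpF i).out (hpF i').out).1 hd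
    exact (mem_erase.1 hi').1 (hinj this).symm
  · exact h8

end slots

section genM

variable {G G' : Type} [AddCommGroup G] [Fintype G] [AddCommGroup G'] [Fintype G'] {M : ℕ}

lemma gZM_eq (hM : 2 ≤ M) {m : ℕ} [DecidableEq G] (y : Fin m → G) :
    gZ M y = Fintype.card G * gpr M y 0 := by
  rw [gpr_zero_eq hM]
  rfl

lemma gZM_nonneg (hM : 2 ≤ M) {m : ℕ} (y : Fin m → G) : 0 ≤ gZ M y := by
  classical
  rw [gZM_eq hM]
  exact mul_nonneg (by positivity) (gpr_nonneg _ _)

lemma gZM_le_card (hM : 2 ≤ M) {m : ℕ} (y : Fin m → G) : gZ M y ≤ Fintype.card G := by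
  classical
  rw [gZM_eq hM]
  have h1 : gpr M y 0 ≤ 1 := by
    unfold gpr
    rw [div_le_one (by positivity)]
    have h2 := card_filter_le (univ : Finset (Fin m → Fin M)) (fun ω => gwalk ω y = 0)
    have h3 : ((univ : Finset (Fin m → Fin M)).card : ℝ) = (M : ℝ) ^ Fintype.card (Fin m) := by
      rw [card_univ, Fintype.card_fun, Fintype.card_fin]
      push_cast
      rfl
    rw [← h3]
    exact_mod_cast h2
  have h2 : (0 : ℝ) ≤ Fintype.card G := by positivity
  nlinarith

/-- passing to the image under a homomorphism -/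
lemma gZM_map (hM : 2 ≤ M) {m : ℕ} (φ : G →+ G') (y : Fin m → G) :
    (Fintype.card G' : ℝ) * gZ M y ≤ Fintype.card G * gZ M (fun c => φ (y c)) := by
  classical
  rw [gZM_eq hM, gZM_eq hM]
  have h : gpr M y 0 ≤ gpr M (fun c => φ (y c)) 0 := by
    unfold gpr
    refine div_le_div_of_nonneg_right ?_ (by positivity)
    refine Nat.cast_le.2 (card_le_card fun ω hω => ?_)
    simp only [mem_filter, mem_univ, true_and] at hω ⊢
    have := congrArg φ hω
    simpa [gwalk, map_sum, map_zsmul] using this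
  have h1 : (0 : ℝ) ≤ Fintype.card G' := by positivity
  have h2 : (0 : ℝ) ≤ Fintype.card G := by positivity
  calc (Fintype.card G' : ℝ) * (Fintype.card G * gpr M y 0)
      ≤ Fintype.card G' * (Fintype.card G * gpr M (fun c => φ (y c)) 0) := by gcongr
    _ = _ := by ring

lemma gZM_subsingleton (hM : 2 ≤ M) {m : ℕ} [Subsingleton G] (y : Fin m → G) : gZ M y = 1 := by
  classical
  rw [gZM_eq hM]
  have h1 : Fintype.card G = 1 := Fintype.card_eq_one_iff.2 ⟨0, fun x => Subsingleton.elim _ _⟩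
  have h2 : gpr M y 0 = 1 := by
    unfold gpr
    rw [filter_true_of_mem (fun ω _ => Subsingleton.elim _ _)]
    have : (M : ℝ) ≠ 0 := by
      have : M ≠ 0 := by omega
      exact_mod_cast this
    simp [this]
  rw [h1, h2]
  simp

end genM

/-- the entry law is dominated by the lazy law `cf M` -/
def DomM (M : ℕ) {Om : Type} [Fintype Om] (e : Om → ℤ) : Prop :=
  ∀ (G : Type) [AddCommGroup G] [Fintype G] [DecidableEq G] (a : ℕ) (y : Fin a → G),
    (Fintype.card G : ℝ) *
      ((univ.filter fun x : Fin a → Om => ∑ c, e (x c) • y c = 0).card : ℝ) ≤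
      (Fintype.card Om : ℝ) ^ a * gZ M y

open scoped Classical in
/-- exchange of the sums over matrices and vectors -/
lemma sumYM {M : ℕ} {Om : Type} [Fintype Om] {e : Om → ℤ} (hD : DomM M e) {G : Type}
    [AddCommGroup G] [Fintype G] {a j : ℕ} (NF : Finset (Fin a → G)) :
    (∑ Y : Fin j → Fin a → Om, ((kerF e Y NF).card : ℝ)) * (Fintype.card G : ℝ) ^ j ≤
      (Fintype.card Om : ℝ) ^ (a * j) * ∑ w ∈ NF, gZ M w ^ j := by
  have h1 : (∑ Y : Fin j → Fin a → Om, ((kerF e Y NF).card : ℝ)) =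
      ∑ w ∈ NF, ((univ.filter fun x : Fin a → Om => ∑ c, e (x c) • w c = 0).card : ℝ) ^ j := by
    have h2 : ∀ Y : Fin j → Fin a → Om, ((kerF e Y NF).card : ℝ) =
          ∑ w ∈ NF, if (∀ j', ∑ c, e (Y j' c) • w c = 0) then (1 : ℝ) else 0 := by
      intro Y
      unfold kerF
      rw [card_filter]
      push_cast
      rfl
    simp only [h2]
    rw [sum_comm]
    refine sum_congr rfl fun w _ => ?_
    have h3 : (univ.filter fun Y : Fin j → Fin a → Om => ∀ j', ∑ c, e (Y j' c) • w c = 0) =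
        Fintype.piFinset (fun _ : Fin j =>
          univ.filter fun x : Fin a → Om => ∑ c, e (x c) • w c = 0) := by
      ext Y
      simp
    have h4 : ((univ.filter fun Y : Fin j → Fin a → Om =>
        ∀ j', ∑ c, e (Y j' c) • w c = 0).card : ℝ) =
        ((univ.filter fun x : Fin a → Om => ∑ c, e (x c) • w c = 0).card : ℝ) ^ j := by
      rw [h3, Fintype.card_piFinset_const]
      push_cast
      rfl
    rw [← h4, card_filter]
    push_cast
    rfl
  rw [h1, sum_mul, mul_sum]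
  refine sum_le_sum fun w _ => ?_
  have h5 := hD G a w
  rw [pow_mul, ← mul_pow, ← mul_pow]
  refine pow_le_pow_left₀ (by positivity) ?_ j
  rw [mul_comm]
  convert h5

section core

variable {Om : Type} (e : Om → ℤ) {ι : Type} [Fintype ι] [DecidableEq ι] {q : ℕ} (p : ι → ℕ)
  [hpF : ∀ i, Fact (p i).Prime]

/-- independence modulo every prime -/
def Ind {a : ℕ} (S : Finset (ι × Fin q)) (w : Fin a → GS (ps p q) S) : Prop :=
  ∀ i, LinearIndependent (ZMod (p i)) (col p i S w)

omit [Fintype ι] in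
lemma Ind.res {a : ℕ} {S : Finset (ι × Fin q)} {w : Fin a → GS (ps p q) S} (h : Ind p S w)
    (s : ι × Fin q) : Ind p (S.erase s) (fun c => Good439.res (ps p q) S s (w c)) := by
  intro i
  have h1 := (h i).comp (fun l : {l : Fin q // (i, l) ∈ S.erase s} =>
    (⟨l.1, mem_of_mem_erase l.2⟩ : {l : Fin q // (i, l) ∈ S})) (by
      intro l l' hl
      have := congrArg (fun x : {l : Fin q // (i, l) ∈ S} => x.1) hl
      exact Subtype.ext this)
  exact h1

omit [Fintype ι] in
/-- critical slot set -/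
lemma crit {M : ℕ} (hM : 2 ≤ M) {a j : ℕ} (Y : Fin j → Fin a → Om) (T P : ℝ) (hT : 1 ≤ T)
    (hP : ∀ i, (p i : ℝ) ≤ P) (n : ℕ) : ∀ (S : Finset (ι × Fin q)), S.card = n →
    ∀ w : Fin a → GS (ps p q) S, (∀ j', ∑ c, e (Y j' c) • w c = 0) → Ind p S w → T < gZ M w →
      ∃ (S' : Finset (ι × Fin q)) (w' : Fin a → GS (ps p q) S'),
        (∀ j', ∑ c, e (Y j' c) • w' c = 0) ∧ Ind p S' w' ∧ T < gZ M w' ∧ gZ M w' ≤ P * T := by
  induction n with
  | zero =>
    intro S hS w _ _ hw
    obtain rfl := card_eq_zero.1 hS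
    have h1 := gZM_subsingleton hM (G := GS (ps p q) ∅) w
    linarith
  | succ n ih =>
    intro S hS w hk hi hw
    obtain ⟨s, hs⟩ : S.Nonempty := card_pos.1 (by omega)
    have hc : (S.erase s).card = n := by rw [card_erase_of_mem hs, hS]; rfl
    by_cases h : T < gZ M (fun c => Good439.res (ps p q) S s (w c))
    · refine ih (S.erase s) hc _ (fun j' => ?_) (hi.res p s) h
      have := congrArg (Good439.res (ps p q) S s) (hk j')
      rw [map_sum, map_zero] at this
      rw [← this]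
      exact sum_congr rfl fun c _ => (map_zsmul _ _ _).symm
    · push Not at h
      refine ⟨S, w, hk, hi, hw, ?_⟩
      have h1 := gZM_map hM (Good439.res (ps p q) S s) w
      rw [card_GS, card_GS, ← mul_prod_erase S (ps p q) hs] at h1
      have h2 : (0 : ℝ) < ((∏ i ∈ S.erase s, ps p q i : ℕ) : ℝ) := by
        have : 0 < ∏ i ∈ S.erase s, ps p q i := prod_pos fun i _ => (hpF i.1).out.pos
        exact_mod_cast this
      have h3 : gZ M w ≤ p s.1 * gZ M (fun c => Good439.res (ps p q) S s (w c)) := by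
        refine le_of_mul_le_mul_left ?_ h2
        calc _ ≤ _ := h1
          _ = _ := by push_cast; ring
      have h5 : (0 : ℝ) ≤ p s.1 := by positivity
      calc gZ M w ≤ _ := h3
        _ ≤ p s.1 * T := mul_le_mul_of_nonneg_left h h5
        _ ≤ P * T := mul_le_mul_of_nonneg_right (hP s.1) (by linarith)

/-- the number of `q`-tuples of kernel vectors modulo all primes -/
noncomputable def Wq (q : ℕ) {a k : ℕ} (Y : Fin k → Fin a → Om) : ℕ :=
  ∏ i, p i ^ (q * Module.finrank (ZMod (p i)) (Ker e (p i) Y))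

/-- slots of the profile of `Y` -/
noncomputable def SY (q : ℕ) {a k : ℕ} (Y : Fin k → Fin a → Om) : Finset (ι × Fin q) :=
  univ.filter fun s => (s.2 : ℕ) < min (Module.finrank (ZMod (p s.1)) (Ker e (p s.1) Y)) q

open scoped Classical in
lemma Wq_le (q : ℕ) {a k : ℕ} (Y : Fin k → Fin a → Om) :
    Wq e p q Y ≤ (∏ i, 2 ^ q * p i ^ (q * q)) *
      (kerF e Y (univ.filter fun w : Fin a → GS (ps p q) (SY e p q Y) => Ind p _ w)).card := by
  unfold Wq
  have h1 : ∏ i, p i ^ (q * Module.finrank (ZMod (p i)) (Ker e (p i) Y)) ≤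
      ∏ i, (2 ^ q * p i ^ (q * q)) * Nat.card {s : Fin (min (Module.finrank (ZMod (p i))
        (Ker e (p i) Y)) q) → Ker e (p i) Y // LinearIndependent (ZMod (p i)) s} :=
    prod_le_prod' fun i _ => indep_count (V := Ker e (p i) Y) (p i) q
  refine h1.trans ?_
  rw [prod_mul_distrib]
  refine Nat.mul_le_mul_left _ ?_
  rw [← Nat.card_pi]
  have h2 : (kerF e Y (univ.filter fun w : Fin a → GS (ps p q) (SY e p q Y) => Ind p _ w)).card =
      Nat.card {w // w ∈ kerF e Y
        (univ.filter fun w : Fin a → GS (ps p q) (SY e p q Y) => Ind p _ w)} := by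
    rw [Nat.card_eq_fintype_card, Fintype.card_coe]
  rw [h2]
  have hmem : ∀ s : {x // x ∈ SY e p q Y}, (s.1.2 : ℕ) <
      min (Module.finrank (ZMod (p s.1.1)) (Ker e (p s.1.1) Y)) q := by
    intro s
    have := s.2
    unfold SY at this
    simpa using this
  refine Nat.card_le_card_of_injective (fun v => ⟨fun c s => ((v s.1.1).1 ⟨s.1.2, hmem s⟩).1 c, ?_⟩)
    ?_
  · rw [mem_kerF]
    simp only [mem_filter, mem_univ, true_and]
    refine ⟨fun i => ?_, fun j => ?_⟩
    · have h3 := (v i).2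
      have h4 := h3.map' (Ker e (p i) Y).subtype (Submodule.ker_subtype _)
      exact h4.comp (fun l : {l : Fin q // (i, l) ∈ SY e p q Y} => ⟨l.1, hmem ⟨_, l.2⟩⟩) (by
        intro l l' hl
        have := congrArg (fun x => x.1) hl
        exact Subtype.ext (Fin.ext this))
    · funext s
      rw [Finset.sum_apply]
      exact ((v s.1.1).1 ⟨s.1.2, hmem s⟩).2 j
  · intro v v' hv
    have hv1 := congrArg Subtype.val hv
    funext i
    refine Subtype.ext (funext fun l => Subtype.ext (funext fun c => ?_))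
    have hl : (i, (⟨l.1, lt_of_lt_of_le l.2 (min_le_right _ _)⟩ : Fin q)) ∈ SY e p q Y := by
      unfold SY
      rw [mem_filter]
      exact ⟨mem_univ _, l.2⟩
    exact congrFun (congrFun hv1 c) ⟨_, hl⟩

end core

section core2

variable {Om : Type} [Fintype Om] (e : Om → ℤ) {ι : Type} [Fintype ι] [DecidableEq ι] {q : ℕ}
  (p : ι → ℕ) [hpF : ∀ i, Fact (p i).Prime]

omit [Fintype Om] in
lemma kerF_mono {G : Type} [AddCommGroup G] {a j : ℕ} (Y : Fin j → Fin a → Om)
    {N N' : Finset (Fin a → G)} (h : ∀ w ∈ N, (∀ j', ∑ c, e (Y j' c) • w c = 0) → w ∈ N') :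
    (kerF e Y N).card ≤ (kerF e Y N').card := by
  refine card_le_card fun w hw => ?_
  rw [mem_kerF] at hw ⊢
  exact ⟨h w hw.1 hw.2, hw.2⟩

open scoped Classical in
/-- **LEMMA M, finite form.** -/
theorem core {M : ℕ} (hM : 2 ≤ M) (hD : DomM M e) {a k : ℕ} (GG : Finset (Fin k → Fin a → Om))
    (PP : ∀ S : Finset (ι × Fin q), (Fin a → GS (ps p q) S) → Prop) (T P A B R : ℝ) (hT : 1 ≤ T)
    (hP : ∀ i, (p i : ℝ) ≤ P) (hR0 : 0 ≤ R)
    (h1 : ∀ Y ∈ GG, ∀ S, ∀ w : Fin a → GS (ps p q) S, (∀ j, ∑ c, e (Y j c) • w c = 0) →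
      Ind p S w → PP S w)
    (hlow : ∀ S : Finset (ι × Fin q),
      ∑ w ∈ univ.filter (fun w : Fin a → GS (ps p q) S => PP S w ∧ gZ M w ≤ T), gZ M w ^ k ≤
        (Fintype.card (GS (ps p q) S) : ℝ) ^ k * A)
    (hbig : ∀ S : Finset (ι × Fin q),
      ∑ w ∈ univ.filter (fun w : Fin a → GS (ps p q) S => PP S w ∧ T < gZ M w ∧ gZ M w ≤ P * T),
        gZ M w ^ k ≤ (Fintype.card (GS (ps p q) S) : ℝ) ^ k * B)
    (hR : ∀ Y ∈ GG, (Wq e p q Y : ℝ) ≤ R) :
    ∑ Y ∈ GG, (Wq e p q Y : ℝ) ≤ (Fintype.card Om : ℝ) ^ (a * k) *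
      (2 ^ (Fintype.card ι * q) * ((∏ i, 2 ^ q * p i ^ (q * q) : ℕ) * A + R * B)) := by
  set C₀ : ℕ := ∏ i, 2 ^ q * p i ^ (q * q) with hC₀
  let LO : ∀ S : Finset (ι × Fin q), Finset (Fin a → GS (ps p q) S) := fun S =>
    univ.filter (fun w => PP S w ∧ gZ M w ≤ T)
  let BI : ∀ S : Finset (ι × Fin q), Finset (Fin a → GS (ps p q) S) := fun S =>
    univ.filter (fun w => PP S w ∧ T < gZ M w ∧ gZ M w ≤ P * T)
  -- pointwise
  have hpt : ∀ Y ∈ GG, (Wq e p q Y : ℝ) ≤ C₀ * ∑ S, ((kerF e Y (LO S)).card : ℝ) +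
      R * ∑ S, ((kerF e Y (BI S)).card : ℝ) := by
    intro Y hY
    have hn1 : 0 ≤ ∑ S : Finset (ι × Fin q), ((kerF e Y (LO S)).card : ℝ) :=
      sum_nonneg fun S _ => Nat.cast_nonneg _
    have hn2 : 0 ≤ ∑ S : Finset (ι × Fin q), ((kerF e Y (BI S)).card : ℝ) :=
      sum_nonneg fun S _ => Nat.cast_nonneg _
    by_cases h : ∀ S, ∀ w : Fin a → GS (ps p q) S, (∀ j, ∑ c, e (Y j c) • w c = 0) →
        Ind p S w → gZ M w ≤ T
    · have h2 := Wq_le e p q Y
      have h3 : (kerF e Y (univ.filter fun w : Fin a → GS (ps p q) (SY e p q Y) => Ind p _ w)).card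
          ≤ (kerF e Y (LO (SY e p q Y))).card := by
        refine kerF_mono e Y fun w hw hk => ?_
        rw [mem_filter] at hw
        simp only [LO, mem_filter, mem_univ, true_and]
        exact ⟨h1 Y hY _ w hk hw.2, h _ w hk hw.2⟩
      have h4 : (Wq e p q Y : ℝ) ≤ C₀ * ((kerF e Y (LO (SY e p q Y))).card : ℝ) := by
        have := h2.trans (Nat.mul_le_mul_left _ h3)
        exact_mod_cast this
      have h5 : ((kerF e Y (LO (SY e p q Y))).card : ℝ) ≤
          ∑ S : Finset (ι × Fin q), ((kerF e Y (LO S)).card : ℝ) :=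
        single_le_sum (f := fun S : Finset (ι × Fin q) => ((kerF e Y (LO S)).card : ℝ))
          (fun S _ => Nat.cast_nonneg _) (mem_univ _)
      have h6 : (C₀ : ℝ) * ((kerF e Y (LO (SY e p q Y))).card : ℝ) ≤
          C₀ * ∑ S : Finset (ι × Fin q), ((kerF e Y (LO S)).card : ℝ) :=
        mul_le_mul_of_nonneg_left h5 (by positivity)
      have h7 := mul_nonneg hR0 hn2
      linarith
    · push Not at h
      obtain ⟨S, w, hk, hi, hw⟩ := h
      obtain ⟨S', w', hk', hi', hw1, hw2⟩ := crit e p hM Y T P hT hP S.card S rfl w hk hi hw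
      have h6 : w' ∈ kerF e Y (BI S') := by
        rw [mem_kerF]
        simp only [BI, mem_filter, mem_univ, true_and]
        exact ⟨⟨h1 Y hY _ w' hk' hi', hw1, hw2⟩, hk'⟩
      have h7 : (1 : ℝ) ≤ ((kerF e Y (BI S')).card : ℝ) := by
        exact_mod_cast card_pos.2 ⟨w', h6⟩
      have h8 : ((kerF e Y (BI S')).card : ℝ) ≤
          ∑ S : Finset (ι × Fin q), ((kerF e Y (BI S)).card : ℝ) :=
        single_le_sum (f := fun S : Finset (ι × Fin q) => ((kerF e Y (BI S)).card : ℝ))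
          (fun S _ => Nat.cast_nonneg _) (mem_univ _)
      have h9 : R * 1 ≤ R * ∑ S : Finset (ι × Fin q), ((kerF e Y (BI S)).card : ℝ) :=
        mul_le_mul_of_nonneg_left (h7.trans h8) hR0
      have h10 := mul_nonneg (Nat.cast_nonneg (α := ℝ) C₀) hn1
      have := hR Y hY
      linarith
  -- one slot set
  have hone : ∀ (S : Finset (ι × Fin q)) (N : Finset (Fin a → GS (ps p q) S)) (X : ℝ),
      ∑ w ∈ N, gZ M w ^ k ≤ (Fintype.card (GS (ps p q) S) : ℝ) ^ k * X →
      ∑ Y : Fin k → Fin a → Om, ((kerF e Y N).card : ℝ) ≤ (Fintype.card Om : ℝ) ^ (a * k) * X := by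
    intro S N X hX
    have h2 := sumYM (M := M) hD (j := k) N
    have h4 : (0 : ℝ) < (Fintype.card (GS (ps p q) S) : ℝ) ^ k := by
      have : (0 : ℝ) < Fintype.card (GS (ps p q) S) := by exact_mod_cast Fintype.card_pos
      exact pow_pos this k
    refine le_of_mul_le_mul_right ?_ h4
    refine h2.trans ?_
    refine (mul_le_mul_of_nonneg_left hX (by positivity)).trans (le_of_eq ?_)
    ring
  have hsum : ∀ (F : ∀ S : Finset (ι × Fin q), Finset (Fin a → GS (ps p q) S)) (X : ℝ),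
      (∀ S, ∑ w ∈ F S, gZ M w ^ k ≤ (Fintype.card (GS (ps p q) S) : ℝ) ^ k * X) →
      ∑ Y : Fin k → Fin a → Om, ∑ S, ((kerF e Y (F S)).card : ℝ) ≤
        2 ^ (Fintype.card ι * q) * ((Fintype.card Om : ℝ) ^ (a * k) * X) := by
    intro F X hF
    rw [sum_comm]
    calc _ ≤ ∑ _S : Finset (ι × Fin q), (Fintype.card Om : ℝ) ^ (a * k) * X :=
          sum_le_sum fun S _ => hone S (F S) X (hF S)
      _ = _ := by
          rw [sum_const, card_univ, Fintype.card_finset, nsmul_eq_mul, Fintype.card_prod,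
            Fintype.card_fin]
          push_cast
          rfl
  calc ∑ Y ∈ GG, (Wq e p q Y : ℝ)
      ≤ ∑ Y ∈ GG, (C₀ * ∑ S, ((kerF e Y (LO S)).card : ℝ) +
          R * ∑ S, ((kerF e Y (BI S)).card : ℝ)) := sum_le_sum hpt
    _ ≤ ∑ Y : Fin k → Fin a → Om, (C₀ * ∑ S, ((kerF e Y (LO S)).card : ℝ) +
          R * ∑ S, ((kerF e Y (BI S)).card : ℝ)) := by
        refine sum_le_sum_of_subset_of_nonneg (subset_univ _) fun Y _ _ => ?_
        have hn1 : 0 ≤ ∑ S : Finset (ι × Fin q), ((kerF e Y (LO S)).card : ℝ) :=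
          sum_nonneg fun S _ => Nat.cast_nonneg _
        have hn2 : 0 ≤ ∑ S : Finset (ι × Fin q), ((kerF e Y (BI S)).card : ℝ) :=
          sum_nonneg fun S _ => Nat.cast_nonneg _
        exact add_nonneg (mul_nonneg (Nat.cast_nonneg _) hn1) (mul_nonneg hR0 hn2)
    _ = C₀ * ∑ Y : Fin k → Fin a → Om, ∑ S, ((kerF e Y (LO S)).card : ℝ) +
          R * ∑ Y : Fin k → Fin a → Om, ∑ S, ((kerF e Y (BI S)).card : ℝ) := by
        rw [sum_add_distrib, ← mul_sum, ← mul_sum]
    _ ≤ C₀ * (2 ^ (Fintype.card ι * q) * ((Fintype.card Om : ℝ) ^ (a * k) * A)) +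
          R * (2 ^ (Fintype.card ι * q) * ((Fintype.card Om : ℝ) ^ (a * k) * B)) :=
        add_le_add (mul_le_mul_of_nonneg_left (hsum LO A hlow) (Nat.cast_nonneg _))
          (mul_le_mul_of_nonneg_left (hsum BI B hbig) hR0)
    _ = _ := by ring

end core2

/-- dyadic summation -/
lemma dyad {V : Type} (Z : V → ℝ) (hZ0 : ∀ y, 0 ≤ Z y) (g : ℝ) (hg : 0 < g)
    (hZg : ∀ y, Z y ≤ g) (m k : ℕ) (hmk : m ≤ k) (X U : ℝ) (hU : 0 < U) (L : ℕ)
    (As : Finset V)
    (hcount : ∀ i < L, ∀ D : Finset V, D ⊆ As → (∀ y ∈ D, U * 2 ^ i ≤ Z y) →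
      (D.card : ℝ) ≤ g ^ m * (X / (U * 2 ^ i)) ^ m)
    (hrange : ∀ y ∈ As, U ≤ Z y ∧ Z y < U * 2 ^ L) :
    ∑ y ∈ As, Z y ^ k ≤ g ^ k * (L * (2 * X) ^ m) := by
  classical
  have hsub : As ⊆ (range L).biUnion fun i =>
      As.filter fun y => U * 2 ^ i ≤ Z y ∧ Z y < U * 2 ^ (i + 1) := by
    intro y hy
    obtain ⟨h1, h2⟩ := hrange y hy
    have h3 : (1 : ℝ) ≤ Z y / U := by rw [le_div_iff₀ hU]; linarith
    obtain ⟨i, hi1, hi2⟩ := exists_nat_pow_near h3 (by norm_num : (1 : ℝ) < 2)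
    rw [le_div_iff₀ hU] at hi1
    rw [div_lt_iff₀ hU] at hi2
    simp only [mem_biUnion, Finset.mem_range, mem_filter]
    refine ⟨i, ?_, hy, by linarith, by linarith⟩
    by_contra hcon
    push Not at hcon
    have : (2 : ℝ) ^ L ≤ 2 ^ i := pow_le_pow_right₀ (by norm_num) hcon
    nlinarith
  have hnn : ∀ y, 0 ≤ Z y ^ k := fun y => pow_nonneg (hZ0 y) k
  calc ∑ y ∈ As, Z y ^ k ≤ ∑ y ∈ (range L).biUnion fun i =>
        As.filter fun y => U * 2 ^ i ≤ Z y ∧ Z y < U * 2 ^ (i + 1), Z y ^ k :=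
        sum_le_sum_of_subset_of_nonneg hsub fun y _ _ => hnn y
    _ ≤ ∑ i ∈ range L, ∑ y ∈ As.filter (fun y => U * 2 ^ i ≤ Z y ∧ Z y < U * 2 ^ (i + 1)),
          Z y ^ k := biUnion_sum_le _ _ _ hnn
    _ ≤ ∑ _i ∈ range L, g ^ k * (2 * X) ^ m := by
        refine sum_le_sum fun i hi => ?_
        have hi' := Finset.mem_range.1 hi
        have h1 := hcount i hi' (As.filter fun y => U * 2 ^ i ≤ Z y ∧ Z y < U * 2 ^ (i + 1))
          (filter_subset _ _) (fun y hy => (mem_filter.1 hy).2.1)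
        have hUi : 0 < U * 2 ^ i := by positivity
        calc ∑ y ∈ As.filter (fun y => U * 2 ^ i ≤ Z y ∧ Z y < U * 2 ^ (i + 1)), Z y ^ k
            ≤ ∑ _y ∈ As.filter (fun y => U * 2 ^ i ≤ Z y ∧ Z y < U * 2 ^ (i + 1)),
                (U * 2 ^ i * 2) ^ m * g ^ (k - m) := by
              refine sum_le_sum fun y hy => ?_
              have hy2 := (mem_filter.1 hy).2.2
              rw [← Nat.add_sub_of_le hmk, pow_add, Nat.add_sub_of_le hmk]
              refine mul_le_mul (pow_le_pow_left₀ (hZ0 y) ?_ m)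
                (pow_le_pow_left₀ (hZ0 y) (hZg y) _) (pow_nonneg (hZ0 y) _) (by positivity)
              rw [pow_succ] at hy2
              linarith
          _ = (As.filter fun y => U * 2 ^ i ≤ Z y ∧ Z y < U * 2 ^ (i + 1)).card *
                ((U * 2 ^ i * 2) ^ m * g ^ (k - m)) := by
              rw [sum_const, nsmul_eq_mul]
          _ ≤ g ^ m * (X / (U * 2 ^ i)) ^ m * ((U * 2 ^ i * 2) ^ m * g ^ (k - m)) :=
              mul_le_mul_of_nonneg_right h1 (by positivity)
          _ = (g ^ m * g ^ (k - m)) * ((X / (U * 2 ^ i)) * (U * 2 ^ i * 2)) ^ m := by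
              rw [mul_pow (X / (U * 2 ^ i))]
              ring
          _ = g ^ k * (2 * X) ^ m := by
              rw [← pow_add, Nat.add_sub_of_le hmk]
              congr 2
              field_simp
    _ = _ := by
        rw [sum_const, card_range, nsmul_eq_mul]
        ring

end Vale.Agent.P160.Half.LemM203
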