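import Vale.Agent.P160.Half.LemM203
import Vale.Agent.P160.Half.M67Stmt

/-! P160-HALF, block (M): LEMMA M, the two dyadic sums and the final statement. -/

namespace Vale.Agent.P160.Half.LemM203

open Finset Vale.Agent.P160 Vale.Agent.P160.Half.Flat Vale.Agent.P160.Half.Good439 Filter

open scoped Classical in
/-- COUNT for `gZ M` with barrier `b` -/
def CountM (M : ℕ) (b : ℝ) : Prop :=
  ∀ δ c C₀ : ℝ, 0 < δ → δ ≤ 1 → 0 < c → 0 < C₀ → ∃ k₀ : ℕ, ∀ k : ℕ, k₀ ≤ k →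
    ∀ (G : Type) [AddCommGroup G] [Fintype G] (m : ℕ), m ≤ k → (k : ℝ) ≤ 2 * m →
    (∀ p : ℕ, p.Prime → p ∣ Fintype.card G → k ≤ p) →
    (Fintype.card G : ℝ) * b ^ m ≤ Real.exp (-c * k) →
    ∀ T : ℝ, 1 / k ≤ T → T ≤ (k : ℝ) ^ C₀ →
    ((univ.filter fun y : Fin m → G =>
      NonSp ((k : ℝ) ^ (1 - δ / 4)) y ∧ 1 + T ≤ gZ M y).card : ℝ) ≤
      (Fintype.card G : ℝ) ^ m * ((k : ℝ) ^ (-(1 / 2) + δ) / max 1 T) ^ m

lemma ev_num (C₁ : ℝ) : ∀ᶠ k : ℕ in atTop,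
    (((⌈(k : ℝ) ^ C₁⌉₊ + 1 : ℕ) : ℝ)) ≤ 2 ^ k := by
  obtain ⟨n, hn⟩ := exists_nat_ge C₁
  have h3 : ∀ᶠ k : ℕ in Filter.atTop, ‖((k : ℝ) ^ n)‖ ≤ (1 / 2) * ‖((2 : ℝ) ^ k)‖ :=
    (isLittleO_pow_const_const_pow_of_one_lt n (by norm_num : (1 : ℝ) < 2)).def (by norm_num)
  filter_upwards [h3, Filter.eventually_ge_atTop 3] with k hk hk2
  have hkr : (1 : ℝ) ≤ k := by exact_mod_cast (by omega : 1 ≤ k)
  have h4 : (k : ℝ) ^ C₁ ≤ (k : ℝ) ^ n := by
    rw [← Real.rpow_natCast]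
    exact Real.rpow_le_rpow_of_exponent_le hkr hn
  rw [Real.norm_of_nonneg (by positivity), Real.norm_of_nonneg (by positivity)] at hk
  have h5 : (4 : ℝ) ≤ 2 ^ k := by
    calc (4 : ℝ) = 2 ^ 2 := by norm_num
      _ ≤ 2 ^ k := pow_le_pow_right₀ (by norm_num) (by omega)
  have h6 := Nat.ceil_lt_add_one (by positivity : 0 ≤ (k : ℝ) ^ C₁)
  push_cast
  linarith

lemma ev_X : ∀ᶠ k : ℕ in atTop, ∀ δ : ℝ, δ ≤ 1 / 4 → 4 * (k : ℝ) ^ (-(1 / 2) + δ) ≤ 1 / 4 := by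
  have h1 : ∀ᶠ k : ℕ in Filter.atTop, (16 : ℝ) ≤ (k : ℝ) ^ (1 / 4 : ℝ) :=
    ((tendsto_rpow_atTop (by norm_num : (0 : ℝ) < 1 / 4)).comp
      tendsto_natCast_atTop_atTop).eventually_ge_atTop 16
  filter_upwards [h1, Filter.eventually_ge_atTop 1] with k hk hk1 δ hδ
  have hkr : (1 : ℝ) ≤ k := by exact_mod_cast hk1
  have h2 : (k : ℝ) ^ (-(1 / 2) + δ) ≤ (k : ℝ) ^ (-(1 / 4) : ℝ) :=
    Real.rpow_le_rpow_of_exponent_le hkr (by linarith)
  have h3 : (k : ℝ) ^ (-(1 / 4) : ℝ) * (k : ℝ) ^ (1 / 4 : ℝ) = 1 := by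
    rw [← Real.rpow_add (by linarith)]
    norm_num
  have h4 : 0 < (k : ℝ) ^ (-(1 / 4) : ℝ) := by positivity
  nlinarith

open scoped Classical in
/-- the low sum -/
theorem low {M : ℕ} (hM : 2 ≤ M) {b : ℝ} (hC : CountM M b) (δ c C₁ : ℝ) (hδ : 0 < δ)
    (hδ1 : δ ≤ 1 / 4) (hc : 0 < c) (hC₁ : 0 < C₁) :
    ∃ k₀ : ℕ, ∀ k : ℕ, k₀ ≤ k → ∀ (G : Type) [AddCommGroup G] [Fintype G] (m : ℕ), m ≤ k →
      (k : ℝ) ≤ 2 * m → (∀ p : ℕ, p.Prime → p ∣ Fintype.card G → k ≤ p) →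
      (Fintype.card G : ℝ) * b ^ m ≤ Real.exp (-c * k) →
      ∑ w ∈ univ.filter (fun w : Fin m → G => NonSp ((k : ℝ) ^ (1 - δ / 4)) w ∧
        gZ M w ≤ (k : ℝ) ^ C₁), gZ M w ^ k ≤ (Fintype.card G : ℝ) ^ k * 5 := by
  obtain ⟨k₁, h₁⟩ := hC δ c C₁ hδ (by linarith) hc hC₁
  obtain ⟨k₂, h₂⟩ := eventually_atTop.1 ((ev_num C₁).and (ev_X.and (eventually_ge_atTop 1)))
  refine ⟨max k₁ k₂, fun k hk G _ _ m hmk hkm hp hG => ?_⟩
  have key := h₁ k (le_trans (le_max_left _ _) hk) G m hmk hkm hp hG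
  obtain ⟨hn1, hn2, hk1⟩ := h₂ k (le_trans (le_max_right _ _) hk)
  have hn2 := hn2 δ hδ1
  have hkr : (1 : ℝ) ≤ k := by exact_mod_cast hk1
  set X : ℝ := (k : ℝ) ^ (-(1 / 2) + δ) with hXd
  have hX : 0 ≤ X := by positivity
  set P : ℝ := (k : ℝ) ^ C₁ with hPd
  have hP1 : 1 ≤ P := Real.one_le_rpow hkr hC₁.le
  set g : ℝ := (Fintype.card G : ℝ) with hg
  have hg1 : 1 ≤ g := by
    rw [hg]
    exact_mod_cast Fintype.card_pos (α := G)
  have hgm : g ^ m ≤ g ^ k := pow_le_pow_right₀ hg1 hmk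
  set e0 : ℝ := (k : ℝ) ^ (1 - δ / 4) with he0
  let F0 : Finset (Fin m → G) := univ.filter (fun w => gZ M w ≤ 1 + 1 / k)
  let F1 : Finset (Fin m → G) := univ.filter (fun w => NonSp e0 w ∧ 1 + 1 / k ≤ gZ M w ∧ gZ M w < 2)
  let F2 : Finset (Fin m → G) := univ.filter (fun w => NonSp e0 w ∧ 2 ≤ gZ M w ∧ gZ M w ≤ P)
  have hnn : ∀ w : Fin m → G, 0 ≤ gZ M w := fun w => gZM_nonneg hM w
  have hle : ∀ w : Fin m → G, gZ M w ≤ g := fun w => gZM_le_card hM w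
  have hb0 : ∑ w ∈ F0, gZ M w ^ k ≤ g ^ k * 3 := by
    have h3 : (1 + 1 / (k : ℝ)) ^ k ≤ 3 := by
      have h4 : 1 + 1 / (k : ℝ) ≤ Real.exp (1 / k) := by
        have := Real.add_one_le_exp (1 / (k : ℝ))
        linarith
      calc (1 + 1 / (k : ℝ)) ^ k ≤ (Real.exp (1 / k)) ^ k :=
            pow_le_pow_left₀ (by positivity) h4 k
        _ = Real.exp 1 := by
            rw [← Real.exp_nat_mul]
            congr 1
            field_simp
        _ ≤ 3 := by linarith [Real.exp_one_lt_d9]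
    calc ∑ w ∈ F0, gZ M w ^ k ≤ ∑ _w ∈ F0, (3 : ℝ) := by
          refine sum_le_sum fun w hw => ?_
          have := (mem_filter.1 hw).2
          exact (pow_le_pow_left₀ (hnn w) this k).trans h3
      _ = F0.card * 3 := by rw [sum_const, nsmul_eq_mul]
      _ ≤ g ^ m * 3 := by
          refine mul_le_mul_of_nonneg_right ?_ (by norm_num)
          have h5 := card_le_card (filter_subset (fun w : Fin m → G => gZ M w ≤ 1 + 1 / k) univ)
          rw [card_univ, Fintype.card_fun, Fintype.card_fin] at h5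
          calc ((F0.card : ℕ) : ℝ) ≤ ((Fintype.card G ^ m : ℕ) : ℝ) := Nat.cast_le.2 h5
            _ = g ^ m := by rw [hg]; push_cast; rfl
      _ ≤ g ^ k * 3 := mul_le_mul_of_nonneg_right hgm (by norm_num)
  have hm0 : (k : ℝ) ≤ 2 * m := hkm
  have hkm' : k ≤ 2 * m := by exact_mod_cast hkm
  have hb1 : ∑ w ∈ F1, gZ M w ^ k ≤ g ^ k * 1 := by
    have h1 := dyad (fun w : Fin m → G => gZ M w) hnn g (by linarith) hle m k hmk X 1 one_pos 1
      F1 ?_ ?_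
    · refine h1.trans ?_
      refine mul_le_mul_of_nonneg_left ?_ (by positivity)
      have h6 : 2 * X ≤ 1 := by linarith
      have := pow_le_one₀ (n := m) (by positivity : 0 ≤ 2 * X) h6
      push_cast
      linarith
    · intro i hi D hD _
      have hi0 : i = 0 := by omega
      subst hi0
      have h7 := key (1 / k) le_rfl (by
        refine le_trans ?_ hP1
        rw [div_le_one (by linarith)]
        exact hkr)
      rw [max_eq_left (by rw [div_le_one (by linarith)]; exact hkr), div_one] at h7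
      simp only [pow_zero, mul_one, div_one]
      refine le_trans (Nat.cast_le.2 (card_le_card fun w hw => ?_)) h7
      have := (mem_filter.1 (hD hw)).2
      rw [mem_filter]
      exact ⟨mem_univ _, this.1, this.2.1⟩
    · intro w hw
      have := (mem_filter.1 hw).2
      have h8 : (0 : ℝ) < 1 / k := by positivity
      refine ⟨by linarith [this.2.1], ?_⟩
      simpa using this.2.2
  have hb2 : ∑ w ∈ F2, gZ M w ^ k ≤ g ^ k * 1 := by
    have h1 := dyad (fun w : Fin m → G => gZ M w) hnn g (by linarith) hle m k hmk (2 * X) 2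
      two_pos (⌈P⌉₊ + 1) F2 ?_ ?_
    · refine h1.trans ?_
      refine mul_le_mul_of_nonneg_left ?_ (by positivity)
      have h6 : 2 * (2 * X) ≤ 1 / 4 := by linarith
      have h7 := pow_le_pow_left₀ (by positivity : 0 ≤ 2 * (2 * X)) h6 m
      have h8 : ((1 : ℝ) / 4) ^ m * 2 ^ k ≤ 1 := by
        calc ((1 : ℝ) / 4) ^ m * 2 ^ k ≤ (1 / 4) ^ m * 2 ^ (2 * m) := by
              refine mul_le_mul_of_nonneg_left ?_ (by positivity)
              exact pow_le_pow_right₀ (by norm_num) hkm'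
          _ = 1 := by
              rw [pow_mul, ← mul_pow]
              norm_num
      calc ((⌈P⌉₊ + 1 : ℕ) : ℝ) * (2 * (2 * X)) ^ m ≤ 2 ^ k * (1 / 4) ^ m :=
            mul_le_mul hn1 h7 (by positivity) (by positivity)
        _ ≤ 1 := by linarith
    · intro i _ D hD hDi
      by_cases hiP : (2 : ℝ) ^ i ≤ P
      · have h2i : (1 : ℝ) ≤ 2 ^ i := one_le_pow₀ (by norm_num)
        have h7 := key (2 ^ i) (by
          refine le_trans ?_ h2i
          rw [div_le_one (by linarith)]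
          exact hkr) hiP
        rw [max_eq_right h2i] at h7
        have h8 : 2 * X / (2 * 2 ^ i) = X / 2 ^ i := by
          rw [mul_div_mul_left _ _ (two_ne_zero)]
        rw [h8]
        refine le_trans (Nat.cast_le.2 (card_le_card fun w hw => ?_)) h7
        have h9 := (mem_filter.1 (hD hw)).2
        have h10 := hDi w hw
        rw [mem_filter]
        exact ⟨mem_univ _, h9.1, by linarith⟩
      · have hemp : D = ∅ := by
          refine eq_empty_of_forall_notMem fun w hw => hiP ?_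
          have h9 := (mem_filter.1 (hD hw)).2
          have h10 := hDi w hw
          have h11 : (0 : ℝ) < 2 ^ i := by positivity
          linarith [h9.2.2]
        rw [hemp, card_empty]
        push_cast
        positivity
    · intro w hw
      have h9 := (mem_filter.1 hw).2
      refine ⟨h9.2.1, ?_⟩
      have h10 : (⌈P⌉₊ : ℝ) < 2 ^ (⌈P⌉₊) := by exact_mod_cast Nat.lt_two_pow_self
      have h11 := Nat.le_ceil P
      have h12 : (2 : ℝ) ^ (⌈P⌉₊) ≤ 2 ^ (⌈P⌉₊ + 1) := pow_le_pow_right₀ (by norm_num) (by omega)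
      have h13 : (0 : ℝ) < 2 ^ (⌈P⌉₊ + 1) := by positivity
      linarith [h9.2.2]
  have hsub : univ.filter (fun w : Fin m → G => NonSp e0 w ∧ gZ M w ≤ P) ⊆ F0 ∪ (F1 ∪ F2) := by
    intro w hw
    have h9 := (mem_filter.1 hw).2
    by_cases h1 : gZ M w ≤ 1 + 1 / k
    · exact mem_union_left _ (mem_filter.2 ⟨mem_univ _, h1⟩)
    · push Not at h1
      refine mem_union_right _ ?_
      by_cases h2 : gZ M w < 2
      · exact mem_union_left _ (mem_filter.2 ⟨mem_univ _, h9.1, h1.le, h2⟩)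
      · push Not at h2
        exact mem_union_right _ (mem_filter.2 ⟨mem_univ _, h9.1, h2, h9.2⟩)
  have hnk : ∀ w : Fin m → G, 0 ≤ gZ M w ^ k := fun w => pow_nonneg (hnn w) k
  have hun : ∀ s t : Finset (Fin m → G), ∑ w ∈ s ∪ t, gZ M w ^ k ≤
      ∑ w ∈ s, gZ M w ^ k + ∑ w ∈ t, gZ M w ^ k := by
    intro s t
    rw [← sum_union_inter]
    exact le_add_of_nonneg_right (sum_nonneg fun w _ => hnk w)
  have h1 := sum_le_sum_of_subset_of_nonneg (f := fun w => gZ M w ^ k) hsub fun w _ _ => hnk w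
  have h2 := hun F0 (F1 ∪ F2)
  have h3 := hun F1 F2
  linarith

/-- a predicate on vectors, depending on `k` and `δ` -/
abbrev Pred : Type 1 := ℕ → ℝ → ∀ (G : Type) [AddCommGroup G] [Fintype G] (m : ℕ), (Fin m → G) → Prop

open scoped Classical in
/-- LEMMA MC for the predicate `MN` -/
def MCM (M : ℕ) (b : ℝ) (MN : Pred) : Prop :=
  ∀ g δ c : ℝ, 0 < g → 0 < δ → δ ≤ 1 / 100 → 0 < c → ∃ C₁ : ℝ, 0 < C₁ ∧ ∀ C₀ : ℝ, C₁ ≤ C₀ →
    ∃ k₀ : ℕ, ∀ k : ℕ, k₀ ≤ k →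
    ∀ (G : Type) [AddCommGroup G] [Fintype G] (m : ℕ), m ≤ k → (k : ℝ) ≤ 2 * m →
    (∀ p : ℕ, p.Prime → p ∣ Fintype.card G → k ≤ p) →
    (Fintype.card G : ℝ) * b ^ m ≤ Real.exp (-c * k) →
    ∀ T : ℝ, (k : ℝ) ^ C₁ ≤ T → T ≤ (k : ℝ) ^ C₀ →
    ((univ.filter fun y : Fin m → G => MN k δ G m y ∧ T ≤ gZ M y).card : ℝ) ≤
      (Fintype.card G : ℝ) ^ m * ((k : ℝ) ^ (-g) / T) ^ m

open scoped Classical in
/-- the big sum -/
theorem big {M : ℕ} (hM : 2 ≤ M) {k m : ℕ} (hk : 1 ≤ k) (hmk : m ≤ k) (g C₁ B : ℝ) (G : Type) [AddCommGroup G] [Fintype G] (PP : (Fin m → G) → Prop)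
    (key : ∀ T : ℝ, (k : ℝ) ^ C₁ ≤ T → T ≤ (k : ℝ) ^ (C₁ + B) →
      ((univ.filter fun y : Fin m → G => PP y ∧ T ≤ gZ M y).card : ℝ) ≤
      (Fintype.card G : ℝ) ^ m * ((k : ℝ) ^ (-g) / T) ^ m) :
    ∑ w ∈ univ.filter (fun w : Fin m → G => PP w ∧ (k : ℝ) ^ C₁ < gZ M w ∧
      gZ M w ≤ (k : ℝ) ^ B * (k : ℝ) ^ C₁), gZ M w ^ k ≤
        (Fintype.card G : ℝ) ^ k * ((⌈(k : ℝ) ^ B⌉₊ + 1 : ℕ) * (2 * (k : ℝ) ^ (-g)) ^ m) := by
  have hkr : (1 : ℝ) ≤ k := by exact_mod_cast hk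
  have hkp : (0 : ℝ) < k := by linarith
  have hPB : (k : ℝ) ^ (C₁ + B) = (k : ℝ) ^ B * (k : ℝ) ^ C₁ := by
    rw [Real.rpow_add hkp, mul_comm]
  have hg0 : (0 : ℝ) < (Fintype.card G : ℝ) := by exact_mod_cast Fintype.card_pos (α := G)
  have hU : 0 < (k : ℝ) ^ C₁ := by positivity
  refine dyad (fun w : Fin m → G => gZ M w) (fun w => gZM_nonneg hM w) _ hg0
    (fun w => gZM_le_card hM w) m k hmk _ ((k : ℝ) ^ C₁) hU (⌈(k : ℝ) ^ B⌉₊ + 1) _ ?_ ?_
  · intro i _ D hD hDi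
    have h2i : (1 : ℝ) ≤ 2 ^ i := one_le_pow₀ (by norm_num)
    by_cases hiP : (k : ℝ) ^ C₁ * 2 ^ i ≤ (k : ℝ) ^ (C₁ + B)
    · refine le_trans (Nat.cast_le.2 (card_le_card fun w hw => ?_))
        (key ((k : ℝ) ^ C₁ * 2 ^ i) (by nlinarith) hiP)
      have h9 := (mem_filter.1 (hD hw)).2
      rw [mem_filter]
      exact ⟨mem_univ _, h9.1, hDi w hw⟩
    · have hemp : D = ∅ := by
        refine eq_empty_of_forall_notMem fun w hw => hiP ?_
        have h9 := (mem_filter.1 (hD hw)).2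
        rw [hPB]
        exact (hDi w hw).trans h9.2.2
      rw [hemp, card_empty]
      push_cast
      positivity
  · intro w hw
    have h9 := (mem_filter.1 hw).2
    refine ⟨h9.2.1.le, ?_⟩
    have h10 : (⌈(k : ℝ) ^ B⌉₊ : ℝ) < 2 ^ (⌈(k : ℝ) ^ B⌉₊) := by exact_mod_cast Nat.lt_two_pow_self
    have h11 := Nat.le_ceil ((k : ℝ) ^ B)
    have h12 : (2 : ℝ) ^ (⌈(k : ℝ) ^ B⌉₊) ≤ 2 ^ (⌈(k : ℝ) ^ B⌉₊ + 1) :=
      pow_le_pow_right₀ (by norm_num) (by omega)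
    calc gZ M w ≤ (k : ℝ) ^ B * (k : ℝ) ^ C₁ := h9.2.2
      _ < 2 ^ (⌈(k : ℝ) ^ B⌉₊ + 1) * (k : ℝ) ^ C₁ := by
          refine mul_lt_mul_of_pos_right (by linarith) hU
      _ = _ := by ring

end Vale.Agent.P160.Half.LemM203
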