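import Vale.Agent.P160.Half.MinChar708
import Vale.Agent.P160.Half.M67Stmt

/-!
# P160 (M), scheme 11331: not `SpB` and full rational rank give the minimal norm condition
(hypothesis of `Pack502.grow_k` and of LEMMA MC) at the `k` scale
-/

namespace Vale.Agent.P160.Half.MinChar

open Finset Vale.Agent.P160 Vale.Agent.P160.Half.Flat Vale.Agent.P160.Half.M67

/-- full rational rank gives a trivial real kernel -/
theorem ker_real {k m : ℕ} (M : Matrix (Fin k) (Fin m) ℤ) (h : rkQ M = m) (φ : Fin m → ℝ)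
    (hφ : ∀ i, ∑ c, (M i c : ℝ) * φ c = 0) : φ = 0 := by
  classical
  set A : Matrix (Fin m) (Fin m) ℤ := M.transpose * M with hA
  have hmap : A.map (Int.cast : ℤ → ℚ) =
      (M.map (Int.cast : ℤ → ℚ)).transpose * M.map (Int.cast : ℤ → ℚ) := by
    ext i j
    simp [hA, Matrix.mul_apply]
  have h1 : (A.map (Int.cast : ℤ → ℚ)).rank = m := by
    rw [hmap, Matrix.rank_transpose_mul_self]
    exact h
  have h2 : (A.map (Int.cast : ℤ → ℚ)).det ≠ 0 := by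
    intro h0
    obtain ⟨v, hv, hv0⟩ := Matrix.exists_mulVec_eq_zero_iff.2 h0
    have h3 := LinearMap.finrank_range_add_finrank_ker (A.map (Int.cast : ℤ → ℚ)).mulVecLin
    have h4 : Module.finrank ℚ (LinearMap.range (A.map (Int.cast : ℤ → ℚ)).mulVecLin) = m := h1
    rw [h4, Module.finrank_fin_fun] at h3
    have h5 : Module.finrank ℚ (LinearMap.ker (A.map (Int.cast : ℤ → ℚ)).mulVecLin) = 0 := by
      omega
    rw [Submodule.finrank_eq_zero] at h5
    have h6 : v ∈ LinearMap.ker (A.map (Int.cast : ℤ → ℚ)).mulVecLin := by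
      rw [LinearMap.mem_ker, Matrix.mulVecLin_apply]; exact hv0
    rw [h5, Submodule.mem_bot] at h6
    exact hv h6
  have h3 : A.det ≠ 0 := by
    intro h0
    apply h2
    have := (Int.castRingHom ℚ).map_det A
    rw [h0, map_zero] at this
    exact this.symm
  have h4 : (A.map (Int.cast : ℤ → ℝ)).det ≠ 0 := by
    have := (Int.castRingHom ℝ).map_det A
    intro h0
    apply h3
    have h5 : ((A.det : ℤ) : ℝ) = 0 := this.trans h0
    exact_mod_cast h5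
  apply Matrix.eq_zero_of_mulVec_eq_zero h4
  have hmapR : A.map (Int.cast : ℤ → ℝ) =
      (M.map (Int.cast : ℤ → ℝ)).transpose * M.map (Int.cast : ℤ → ℝ) := by
    ext i j
    simp [hA, Matrix.mul_apply]
  rw [hmapR, ← Matrix.mulVec_mulVec]
  have h5 : (M.map (Int.cast : ℤ → ℝ)).mulVec φ = 0 := by
    ext i
    simpa [Matrix.mulVec, dotProduct] using hφ i
  rw [h5, Matrix.mulVec_zero]

/-- **MIN NORM at the `k` scale.** `1 - d` is the exponent of the sparsity bound. -/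
theorem minC_of (d : ℝ) (hd : 0 < d) (hd1 : d ≤ 1) : ∃ k₀ : ℕ, ∀ k ≥ k₀, ∀ m ≤ k,
    ∀ M : Matrix (Fin k) (Fin m) ℤ, (∀ i j, |M i j| ≤ 1) → rkQ M = m →
      ¬ SpB ((k : ℝ) ^ (1 - d)) M →
    ∀ (G : Type) [AddCommGroup G] [Finite G] (y : Fin m → G), (∀ i, ∑ j, M i j • y j = 0) →
      (∀ ψ : AddChar G ℂ, ψ ≠ 1 → ∃ c, ψ (y c) ≠ 1) →
    ∀ ψ : AddChar G ℂ, ψ ≠ 1 → ∀ F : Finset (Fin m), ((Fᶜ).card : ℝ) ≤ (k : ℝ) ^ (1 - d) →
      ((k : ℝ) ^ (-(3 / 2) : ℝ)) ^ 2 < ∑ c ∈ F, ‖ψ (y c) - 1‖ ^ 2 := by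
  obtain ⟨k₀, hk₀⟩ : ∃ k₀ : ℕ, ∀ k ≥ k₀, (16 : ℝ) ≤ (k : ℝ) ^ d := by
    have h := (tendsto_rpow_atTop hd).comp tendsto_natCast_atTop_atTop
    exact Filter.eventually_atTop.1 (h.eventually_ge_atTop 16)
  refine ⟨max k₀ 1, fun k hk m hm M hM hrk hS G _ _ y hy hne ψ hψ F hF => ?_⟩
  have hk1 : 1 ≤ k := (le_max_right _ _).trans hk
  have hkpos : (0 : ℝ) < k := by exact_mod_cast hk1
  have hk1' : (1 : ℝ) ≤ k := by exact_mod_cast hk1
  have h16 := hk₀ k ((le_max_left _ _).trans hk)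
  have : Fintype G := Fintype.ofFinite G
  have hE : (1 : ℝ) ≤ (k : ℝ) ^ (1 - d) := Real.one_le_rpow hk1' (by linarith)
  have h1 := min_char M hM (ker_real M hrk) (k := (k : ℝ)) (E := (k : ℝ) ^ (1 - d))
    (by exact_mod_cast hm) hkpos hE (by
      intro χ h1 h2 h3 h4
      apply hS
      refine ⟨χ, h1, ?_, h3, h4⟩
      convert h2) y hy ψ (hne ψ hψ) F (by convert hF)
  refine lt_of_le_of_lt ?_ h1
  refine pow_le_pow_left₀ (by positivity) ?_ 2
  rw [le_div_iff₀ (by positivity), Real.sqrt_eq_rpow]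
  have h2 : (k : ℝ) ^ (-(3 / 2) : ℝ) * (16 * (k : ℝ) ^ (1 / 2 : ℝ) * (k : ℝ) ^ (1 - d)) =
      16 * (k : ℝ) ^ (-d) := by
    rw [show (-d) = -(3 / 2) + (1 / 2 + (1 - d)) by ring, Real.rpow_add hkpos, Real.rpow_add hkpos]
    ring
  rw [h2, Real.rpow_neg hkpos.le]
  have h3 : 0 < (k : ℝ) ^ d := by positivity
  rw [← div_eq_mul_inv, div_le_one h3]
  exact h16

end Vale.Agent.P160.Half.MinChar
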