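import Vale.Agent.P160.Half.LemM203b
import Vale.Agent.P160.Half.MC986
import Vale.Agent.P160.Half.MinC708

/-! P160-HALF, block (M): LEMMA M, `StmtMom q β`. -/

namespace Vale.Agent.P160.Half.LemM203

open Finset Vale.Agent.P160 Vale.Agent.P160.Half.Flat Vale.Agent.P160.Half.Good439 Filter
open Vale.Agent.P160.Half.M67

lemma two_pow_card_le (P : Finset ℕ) (hP : ∀ p ∈ P, p.Prime) :
    (2 : ℝ) ^ P.card ≤ ∏ p ∈ P, (p : ℝ) := by
  rw [← prod_const]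
  exact prod_le_prod (fun _ _ => by norm_num) fun p hp => by exact_mod_cast (hP p hp).two_le

/-- numerics of the big part -/
lemma num_big (q : ℕ) (B : ℝ) : ∀ᶠ k : ℕ in atTop, ∀ m : ℕ, m ≤ k → k ≤ 2 * m →
    ((k : ℝ) ^ k) ^ q * ((⌈(k : ℝ) ^ B⌉₊ + 1 : ℕ) * (2 * (k : ℝ) ^ (-(2 * q : ℝ))) ^ m) ≤
      4 ^ k := by
  filter_upwards [ev_num B, eventually_ge_atTop 1] with k hk hk1 m hmk hkm
  have hkr : (1 : ℝ) ≤ k := by exact_mod_cast hk1
  have hk0 : (0 : ℝ) < k := by linarith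
  have h1 : (2 * (k : ℝ) ^ (-(2 * q : ℝ))) ^ m ≤ 2 ^ k * ((k : ℝ) ^ (-(2 * q : ℝ))) ^ m := by
    rw [mul_pow]
    exact mul_le_mul_of_nonneg_right (pow_le_pow_right₀ (by norm_num) hmk) (by positivity)
  have h2 : ((k : ℝ) ^ k) ^ q * ((k : ℝ) ^ (-(2 * q : ℝ))) ^ m ≤ 1 := by
    have h3 : ((k : ℝ) ^ (-(2 * q : ℝ))) = ((k : ℝ) ^ (2 * q))⁻¹ := by
      rw [Real.rpow_neg hk0.le]
      congr 1
      rw [← Real.rpow_natCast]
      push_cast
      rfl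
    rw [h3, inv_pow, ← pow_mul, ← pow_mul]
    rw [mul_inv_le_iff₀ (by positivity), one_mul]
    refine pow_le_pow_right₀ hkr ?_
    nlinarith
  calc ((k : ℝ) ^ k) ^ q * ((⌈(k : ℝ) ^ B⌉₊ + 1 : ℕ) * (2 * (k : ℝ) ^ (-(2 * q : ℝ))) ^ m)
      ≤ ((k : ℝ) ^ k) ^ q * (2 ^ k * (2 ^ k * ((k : ℝ) ^ (-(2 * q : ℝ))) ^ m)) := by
        refine mul_le_mul_of_nonneg_left ?_ (by positivity)
        exact mul_le_mul hk h1 (by positivity) (by positivity)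
    _ = (2 ^ k * 2 ^ k) * (((k : ℝ) ^ k) ^ q * ((k : ℝ) ^ (-(2 * q : ℝ))) ^ m) := by ring
    _ ≤ (2 ^ k * 2 ^ k) * 1 := mul_le_mul_of_nonneg_left h2 (by positivity)
    _ = 4 ^ k := by
        rw [mul_one, ← mul_pow]
        norm_num

/-- the weight as the count of tuples -/
def WqStmt : Prop := ∀ (P : Finset ℕ) [∀ i : {x // x ∈ P}, Fact (i : ℕ).Prime] (q : ℕ) {k m : ℕ}
  (Y : Fin k → Fin m → Bool × Bool),
  W P (mt xi Y) ^ q = ((Wq xi (fun i : {x // x ∈ P} => (i : ℕ)) (2 * q) Y : ℕ) : ℝ)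

/-- Hadamard -/
def HadStmt : Prop := ∀ (P : Finset ℕ), (∀ p ∈ P, p.Prime) → ∀ {k m : ℕ}
  (Y : Fin k → Fin m → Bool × Bool), rkQ (mt xi Y) = m → m ≤ k → 1 ≤ k →
  W P (mt xi Y) ≤ (k : ℝ) ^ k

theorem mom_of (hWq : WqStmt) (hHad : HadStmt) {M : ℕ} (hM : 4 ≤ M) (hdom : DomM M xi)
    (hC : CountM M (1 - 2 / M)) (q : ℕ) (β c : ℝ) (hc : 0 < c)
    (hcb : ∀ k m : ℕ, 99 * k ≤ 100 * m →
      (2 : ℝ) ^ (β * k * (2 * q : ℕ)) * (1 - 2 / M) ^ m ≤ Real.exp (-c * k)) :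
    StmtMom q β := by
  classical
  intro δ b₁ B hδ hδ1 hb₁ hb₁B
  have hM2 : 2 ≤ M := by omega
  have hB0 : 0 < B := by linarith
  set g : ℝ := 2 * q with hg
  have hg0 : 0 ≤ g := by positivity
  set C₁ : ℝ := 5 * (g + 1 / 10) with hC₁
  have hC₁0 : 0 < C₁ := by positivity
  obtain ⟨k₁, hk₁⟩ := low hM2 hC δ c C₁ hδ (by linarith) hc hC₁0
  obtain ⟨k₂, hk₂⟩ := MC.mc M hM c (C₁ + B) C₁ (δ / 4) hc (by linarith) hC₁0 (by linarith)
    (by linarith)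
  obtain ⟨k₃, hk₃⟩ := MinChar.minC_of (δ / 4) (by linarith) (by linarith)
  obtain ⟨k₄, hk₄⟩ := eventually_atTop.1 ((num_big q B).and (eventually_ge_atTop 1))
  refine ⟨2 * β * q + β * (2 * q) + β * (2 * q) ^ 2 + 5, max (max k₁ k₂) (max k₃ k₄), ?_⟩
  intro k hk m hmk h99 P hAdm
  have hkk₁ : k₁ ≤ k := le_trans (le_trans (le_max_left _ _) (le_max_left _ _)) hk
  have hkk₂ : k₂ ≤ k := le_trans (le_trans (le_max_right _ _) (le_max_left _ _)) hk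
  have hkk₃ : k₃ ≤ k := le_trans (le_trans (le_max_left _ _) (le_max_right _ _)) hk
  have hkk₄ : k₄ ≤ k := le_trans (le_trans (le_max_right _ _) (le_max_right _ _)) hk
  obtain ⟨hnum, hk1⟩ := hk₄ k hkk₄
  have hkr : (1 : ℝ) ≤ k := by exact_mod_cast hk1
  have hkm : k ≤ 2 * m := by omega
  have hkmr : (k : ℝ) ≤ 2 * m := by exact_mod_cast hkm
  have hnum := hnum m hmk hkm
  have : ∀ i : {x // x ∈ P}, Fact (i : ℕ).Prime := fun i => ⟨hAdm.pr i.1 i.2⟩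
  let p : {x // x ∈ P} → ℕ := fun i => (i : ℕ)
  have hinj : Function.Injective p := Subtype.val_injective
  set e0 : ℝ := (k : ℝ) ^ (1 - δ / 4) with he0
  have he0p : 0 < e0 := by positivity
  set GG := (univ : Finset (Fin k → Fin m → Bool × Bool)).filter
      (fun ω => rkQ (mt xi ω) = m ∧ ¬ Sp P e0 (mt xi ω)) with hGG
  set σ : ℝ := (k : ℝ) ^ (-(3 / 2) : ℝ) with hσ
  let PP : ∀ S : Finset ({x // x ∈ P} × Fin (2 * q)), (Fin m → GS (ps p (2 * q)) S) → Prop :=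
    fun S w => NonSp e0 w ∧ MC.MinC e0 σ w
  set N : ℝ := ∏ i ∈ P, (i : ℝ) with hN
  have hN2 : (2 : ℝ) ^ P.card ≤ N := two_pow_card_le P hAdm.pr
  have hN1 : 1 ≤ N := le_trans (one_le_pow₀ (by norm_num)) hN2
  have hNcoe : ∏ i : {x // x ∈ P}, ((i : ℕ) : ℝ) = N := prod_coe_sort P (fun i => (i : ℝ))
  have hprimG : ∀ S : Finset ({x // x ∈ P} × Fin (2 * q)), ∀ r : ℕ, r.Prime →
      r ∣ Fintype.card (GS (ps p (2 * q)) S) → k ≤ r := by
    intro S r hr hrd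
    rw [card_GS] at hrd
    obtain ⟨s, _, hs⟩ := (Prime.dvd_finsetProd_iff hr.prime _).1 hrd
    have h1 := (Nat.prime_dvd_prime_iff_eq hr (hAdm.pr _ s.1.2)).1 hs
    rw [h1]
    have h2 := hAdm.lo _ s.1.2
    have h3 : (k : ℝ) ≤ (k : ℝ) ^ b₁ := by
      calc (k : ℝ) = (k : ℝ) ^ (1 : ℝ) := (Real.rpow_one _).symm
        _ ≤ _ := Real.rpow_le_rpow_of_exponent_le hkr hb₁
    have h4 : (k : ℝ) ≤ ((s.1.1 : ℕ) : ℝ) := h3.trans h2
    exact_mod_cast h4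
  have hcardG : ∀ S : Finset ({x // x ∈ P} × Fin (2 * q)),
      (Fintype.card (GS (ps p (2 * q)) S) : ℝ) ≤ N ^ (2 * q) := by
    intro S
    rw [card_GS]
    have h1 : ∏ s ∈ S, ps p (2 * q) s ≤ ∏ s : {x // x ∈ P} × Fin (2 * q), ps p (2 * q) s :=
      prod_le_prod_of_subset_of_one_le' (subset_univ S) fun s _ _ => (hAdm.pr _ s.1.2).pos
    have h2 : ∏ s : {x // x ∈ P} × Fin (2 * q), ps p (2 * q) s =
        (∏ i : {x // x ∈ P}, (i : ℕ)) ^ (2 * q) := by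
      rw [Fintype.prod_prod_type, ← prod_pow]
      refine prod_congr rfl fun i _ => ?_
      simp only [ps, p, prod_const, card_univ, Fintype.card_fin]
    calc ((∏ s ∈ S, ps p (2 * q) s : ℕ) : ℝ) ≤ (((∏ i : {x // x ∈ P}, (i : ℕ)) ^ (2 * q) : ℕ) : ℝ) := by
          rw [← h2]
          exact_mod_cast h1
      _ = N ^ (2 * q) := by
          rw [← hNcoe]
          push_cast
          rfl
  have hb0 : (0 : ℝ) ≤ 1 - 2 / (M : ℝ) := by
    have h4 : (4 : ℝ) ≤ M := by exact_mod_cast hM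
    have : 2 / (M : ℝ) ≤ 1 := by
      rw [div_le_one (by linarith)]
      linarith
    linarith
  have hbar : ∀ S : Finset ({x // x ∈ P} × Fin (2 * q)),
      (Fintype.card (GS (ps p (2 * q)) S) : ℝ) * (1 - 2 / (M : ℝ)) ^ m ≤ Real.exp (-c * k) := by
    intro S
    refine le_trans (mul_le_mul_of_nonneg_right ?_ (pow_nonneg hb0 m)) (hcb k m h99)
    refine (hcardG S).trans ?_
    rw [Real.rpow_mul (by norm_num), Real.rpow_natCast]
    exact pow_le_pow_left₀ (by linarith) hAdm.size (2 * q)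
  have hlow : ∀ S : Finset ({x // x ∈ P} × Fin (2 * q)),
      ∑ w ∈ univ.filter (fun w : Fin m → GS (ps p (2 * q)) S => PP S w ∧ gZ M w ≤ (k : ℝ) ^ C₁),
        gZ M w ^ k ≤ (Fintype.card (GS (ps p (2 * q)) S) : ℝ) ^ k * 5 := by
    intro S
    refine le_trans (sum_le_sum_of_subset_of_nonneg ?_
      fun w _ _ => pow_nonneg (gZM_nonneg hM2 w) k) (hk₁ k hkk₁ _ m hmk hkmr (hprimG S) (hbar S))
    intro w hw
    rw [mem_filter] at hw ⊢
    exact ⟨mem_univ _, hw.2.1.1, hw.2.2⟩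
  have hbig : ∀ S : Finset ({x // x ∈ P} × Fin (2 * q)),
      ∑ w ∈ univ.filter (fun w : Fin m → GS (ps p (2 * q)) S => PP S w ∧ (k : ℝ) ^ C₁ < gZ M w ∧
        gZ M w ≤ (k : ℝ) ^ B * (k : ℝ) ^ C₁), gZ M w ^ k ≤
        (Fintype.card (GS (ps p (2 * q)) S) : ℝ) ^ k *
          ((⌈(k : ℝ) ^ B⌉₊ + 1 : ℕ) * (2 * (k : ℝ) ^ (-g)) ^ m) := by
    intro S
    have hkey : ∀ T : ℝ, (k : ℝ) ^ C₁ ≤ T → T ≤ (k : ℝ) ^ (C₁ + B) →
        ((univ.filter fun y : Fin m → GS (ps p (2 * q)) S => PP S y ∧ T ≤ gZ M y).card : ℝ) ≤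
        (Fintype.card (GS (ps p (2 * q)) S) : ℝ) ^ m * ((k : ℝ) ^ (-g) / T) ^ m := by
      intro T hT1 hT2
      have h := hk₂ k hkk₂ _ m hmk hkmr (hprimG S) (hbar S) T hT1 hT2
      have hexp : -(C₁ / 5) + 1 / 10 = -g := by rw [hC₁]; ring
      rw [hexp] at h
      refine le_trans (Nat.cast_le.2 (card_le_card fun w hw => ?_)) h
      rw [mem_filter] at hw ⊢
      exact ⟨mem_univ _, hw.2.1.2, hw.2.2⟩
    have hb := big hM2 hk1 hmk g C₁ B (GS (ps p (2 * q)) S) (PP S)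
      (fun T h1 h2 => by convert hkey T h1 h2)
    convert hb
  have habs : ∀ x : Bool × Bool, |xi x| ≤ 1 := by decide
  have hPP : ∀ Y ∈ GG, ∀ S : Finset ({x // x ∈ P} × Fin (2 * q)),
      ∀ w : Fin m → GS (ps p (2 * q)) S, (∀ j, ∑ c, xi (Y j c) • w c = 0) → Ind p S w → PP S w := by
    intro Y hY S w hker hind
    obtain ⟨hrk, hnsp⟩ := (mem_filter.1 hY).2
    have hSp1 : ¬ Sparse P e0 (mt xi Y) := fun h => hnsp (Or.inl h)
    have hSp2 : ¬ SpB e0 (mt xi Y) := fun h => hnsp (Or.inr h)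
    have hns : ∀ i : {x // x ∈ P}, ∀ u ∈ Ker xi (p i) Y, u ≠ 0 →
        e0 ≤ ((univ.filter fun c => u c ≠ 0).card : ℝ) := by
      intro i u hu hu0
      by_contra hcon
      push Not at hcon
      refine hSp1 ⟨i.1, i.2, u, hu0, hcon, fun j => ?_⟩
      refine Eq.trans ?_ (hu j)
      exact sum_congr rfl fun c _ => (by rw [zsmul_eq_mul]; rfl)
    have hNS := nonsp_slots xi p hinj Y e0 hns S w hker hind
    refine ⟨hNS, ?_⟩
    refine hk₃ k hkk₃ m hmk (mt xi Y) (fun i j => habs _) hrk hSp2 _ w hker (fun ψ hψ => ?_)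
    by_contra hcon
    push Not at hcon
    have h1 := hNS ψ hψ
    rw [filter_false_of_mem (fun c _ => by simp [hcon c]), card_empty, Nat.cast_zero] at h1
    linarith
  have hR : ∀ Y ∈ GG, (Wq xi p (2 * q) Y : ℝ) ≤ ((k : ℝ) ^ k) ^ q := by
    intro Y hY
    obtain ⟨hrk, _⟩ := (mem_filter.1 hY).2
    have h1 := hWq P q Y
    rw [← h1]
    refine pow_le_pow_left₀ ?_ (hHad P hAdm.pr Y hrk hmk hk1) q
    exact prod_nonneg fun i _ => by positivity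
  have hcore := core xi p hM2 hdom GG PP ((k : ℝ) ^ C₁) ((k : ℝ) ^ B) 5
    ((⌈(k : ℝ) ^ B⌉₊ + 1 : ℕ) * (2 * (k : ℝ) ^ (-g)) ^ m) (((k : ℝ) ^ k) ^ q)
    (Real.one_le_rpow hkr hC₁0.le) (fun i => hAdm.hi _ i.2) (by positivity) hPP
    (fun S => by convert hlow S) (fun S => by convert hbig S) hR
  have hsumW : ∑ ω ∈ GG, W P (mt xi ω) ^ q = ∑ Y ∈ GG, (Wq xi p (2 * q) Y : ℝ) :=
    sum_congr rfl fun Y _ => hWq P q Y
  rw [hsumW]
  refine hcore.trans ?_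
  have hc4 : (Fintype.card (Bool × Bool) : ℝ) = 4 := by
    have : Fintype.card (Bool × Bool) = 4 := rfl
    rw [this]
    norm_num
  have hι : Fintype.card {x // x ∈ P} = P.card := Fintype.card_coe P
  have hprod : ((∏ i : {x // x ∈ P}, 2 ^ (2 * q) * p i ^ ((2 * q) * (2 * q)) : ℕ) : ℝ) ≤
      N ^ (2 * q) * N ^ ((2 * q) * (2 * q)) := by
    have h1 : ((∏ i : {x // x ∈ P}, 2 ^ (2 * q) * p i ^ ((2 * q) * (2 * q)) : ℕ) : ℝ) =
        ((2 : ℝ) ^ P.card) ^ (2 * q) * N ^ ((2 * q) * (2 * q)) := by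
      rw [← hNcoe]
      push_cast
      rw [prod_mul_distrib, prod_const, card_univ, hι, prod_pow, ← pow_mul, ← pow_mul,
        mul_comm P.card]
    rw [h1]
    refine mul_le_mul_of_nonneg_right ?_ (by positivity)
    exact pow_le_pow_left₀ (by positivity) hN2 _
  have h2card : (2 : ℝ) ^ (Fintype.card {x // x ∈ P} * (2 * q)) ≤ N ^ (2 * q) := by
    rw [hι, pow_mul]
    exact pow_le_pow_left₀ (by positivity) hN2 _
  set x : ℝ := N ^ (2 * q) * N ^ ((2 * q) * (2 * q)) with hx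
  have hx1 : 1 ≤ x := by
    rw [hx, ← pow_add]
    exact one_le_pow₀ hN1
  have hy1 : (1 : ℝ) ≤ 4 ^ k := one_le_pow₀ (by norm_num)
  have hin : ((∏ i : {x // x ∈ P}, 2 ^ (2 * q) * p i ^ ((2 * q) * (2 * q)) : ℕ) : ℝ) * 5 +
      ((k : ℝ) ^ k) ^ q * ((⌈(k : ℝ) ^ B⌉₊ + 1 : ℕ) * (2 * (k : ℝ) ^ (-g)) ^ m) ≤ 6 * (x * 4 ^ k) := by
    have h1 : x ≤ x * 4 ^ k := le_mul_of_one_le_right (by linarith) hy1
    have h2 : (4 : ℝ) ^ k ≤ x * 4 ^ k := le_mul_of_one_le_left (by positivity) hx1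
    linarith
  have hin0 : 0 ≤ ((∏ i : {x // x ∈ P}, 2 ^ (2 * q) * p i ^ ((2 * q) * (2 * q)) : ℕ) : ℝ) * 5 +
      ((k : ℝ) ^ k) ^ q * ((⌈(k : ℝ) ^ B⌉₊ + 1 : ℕ) * (2 * (k : ℝ) ^ (-g)) ^ m) := by positivity
  rw [hc4, mul_comm m k, mul_comm ((4 : ℝ) ^ (k * m))]
  refine mul_le_mul_of_nonneg_right ?_ (by positivity)
  refine (mul_le_mul h2card hin hin0 (by positivity)).trans ?_
  have hE : N ≤ (2 : ℝ) ^ (β * k) := hAdm.size
  have h6 : (6 : ℝ) ≤ 2 ^ (3 * k) := by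
    calc (6 : ℝ) ≤ 2 ^ 3 := by norm_num
      _ ≤ 2 ^ (3 * k) := pow_le_pow_right₀ (by norm_num) (by omega)
  calc N ^ (2 * q) * (6 * (x * 4 ^ k)) = 6 * 4 ^ k * N ^ (2 * q + (2 * q + (2 * q) * (2 * q))) := by
        rw [hx, pow_add, pow_add]
        ring
    _ ≤ 2 ^ (3 * k) * 4 ^ k * ((2 : ℝ) ^ (β * k)) ^ (2 * q + (2 * q + (2 * q) * (2 * q))) := by
        refine mul_le_mul (mul_le_mul_of_nonneg_right h6 (by positivity))
          (pow_le_pow_left₀ (by linarith) hE _) (by positivity) (by positivity)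
    _ = (2 : ℝ) ^ ((2 * β * q + β * (2 * q) + β * (2 * q) ^ 2 + 5) * k) := by
        have h7 : (2 : ℝ) ^ (3 * k) * 4 ^ k = (2 : ℝ) ^ ((5 : ℝ) * k) := by
          rw [show (4 : ℝ) = 2 ^ 2 by norm_num, ← pow_mul, ← pow_add, ← Real.rpow_natCast]
          congr 1
          push_cast
          ring
        rw [h7, ← Real.rpow_natCast, ← Real.rpow_mul (by norm_num),
          ← Real.rpow_add (by norm_num)]
        congr 1
        push_cast
        ring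

end Vale.Agent.P160.Half.LemM203
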