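import Vale.Agent.P160.Half.LemM203
import Vale.Agent.P160.Half.HadN
import Vale.Agent.P160.Half.M67Stmt

/-! P160-HALF, block (M), LEMMA M: instantiation (I1) of helper203's `LemM203` for the law
`(1/4, 1/2, 1/4)` of `M67Stmt`: weights, Hadamard bound, law. -/

namespace Vale.Agent.P160.Half.LemM203

open Finset Matrix Vale.Agent.P160 Vale.Agent.P160.Half Vale.Agent.P160.Half.Flat

lemma finrank_Ker {Om : Type} (e : Om → ℤ) (p : ℕ) [Fact p.Prime] {k m : ℕ} (Y : Fin k → Fin m → Om) :
    Module.finrank (ZMod p) (Ker e p Y) = m - M67.rkp p (M67.mt e Y) := by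
  set A : Matrix (Fin k) (Fin m) (ZMod p) := (M67.mt e Y).map (Int.cast : ℤ → ZMod p) with hA
  have h1 : Ker e p Y = LinearMap.ker A.mulVecLin := by
    ext u
    rw [mem_Ker, LinearMap.mem_ker, Matrix.mulVecLin_apply]
    constructor
    · intro h
      funext j
      have := h j
      simp only [zsmul_eq_mul] at this
      simpa [hA, Matrix.mulVec, dotProduct, M67.mt] using this
    · intro h j
      have := congrFun h j
      simp only [zsmul_eq_mul]
      simpa [hA, Matrix.mulVec, dotProduct, M67.mt] using this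
  have h2 := LinearMap.finrank_range_add_finrank_ker A.mulVecLin
  rw [Module.finrank_fin_fun] at h2
  have h3 : M67.rkp p (M67.mt e Y) = Module.finrank (ZMod p) (LinearMap.range A.mulVecLin) := rfl
  rw [h1, h3]
  omega

theorem wq_eq (P : Finset ℕ) [∀ i : {x // x ∈ P}, Fact ((i : ℕ)).Prime] (q : ℕ) {k m : ℕ}
    (Y : Fin k → Fin m → Bool × Bool) :
    M67.W P (M67.mt M67.xi Y) ^ q =
      ((Wq M67.xi (fun i : {x // x ∈ P} => (i : ℕ)) (2 * q) Y : ℕ) : ℝ) := by
  unfold M67.W Wq
  rw [← Finset.prod_pow, Nat.cast_prod, ← Finset.prod_coe_sort P]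
  refine prod_congr rfl fun i _ => ?_
  rw [finrank_Ker M67.xi (i : ℕ) Y]
  push_cast
  rw [← pow_mul]
  congr 1
  ring

lemma xi_abs_I1 (b : Bool × Bool) : |M67.xi b| ≤ 1 := by
  rcases b with ⟨b1, b2⟩
  cases b1 <;> cases b2 <;> simp [M67.xi]

theorem had (P : Finset ℕ) (hP : ∀ p ∈ P, p.Prime) {k m : ℕ} (Y : Fin k → Fin m → Bool × Bool)
    (hr : M67.rkQ (M67.mt M67.xi Y) = m) (hm : m ≤ k) (hk : 1 ≤ k) :
    M67.W P (M67.mt M67.xi Y) ≤ (k : ℝ) ^ k := by
  have h1 := HadN.prod_pow_dvd (M67.mt M67.xi Y) P hP (fun i j => xi_abs_I1 _)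
  have h2 : HadN.rQ (M67.mt M67.xi Y) = m := hr
  rw [h2] at h1
  have h3 : m ^ m ≤ k ^ k := by
    rcases Nat.eq_zero_or_pos m with h | h
    · rw [h, pow_zero]
      exact Nat.one_le_pow _ _ hk
    · exact (Nat.pow_le_pow_left hm _).trans (Nat.pow_le_pow_right hk hm)
  have h4 : M67.W P (M67.mt M67.xi Y) = (((∏ p ∈ P, p ^ (m - HadN.rP p (M67.mt M67.xi Y))) ^ 2 : ℕ) : ℝ) := by
    unfold M67.W
    rw [← Finset.prod_pow]
    push_cast
    refine prod_congr rfl fun p _ => ?_
    rw [← pow_mul, mul_comm]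
    rfl
  rw [h4]
  exact_mod_cast h1.trans h3

/-- seeds: `Fin 4` against pairs of bits -/
def sd : Fin 4 ≃ Bool × Bool where
  toFun a := if a.val = 0 then (true, false) else if a.val = 1 then (false, true) else
    if a.val = 2 then (true, true) else (false, false)
  invFun b := if b.1 then (if b.2 then 2 else 0) else (if b.2 then 1 else 3)
  left_inv a := by fin_cases a <;> rfl
  right_inv b := by rcases b with ⟨b1, b2⟩; cases b1 <;> cases b2 <;> rfl

lemma xi_sd (a : Fin 4) : M67.xi (sd a) = st a := by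
  fin_cases a <;> rfl

theorem domM4 : DomM 4 M67.xi := by
  intro G _ _ _ a y
  rw [gZM_eq (by norm_num)]
  unfold gpr
  have h1 : (univ.filter fun x : Fin a → Bool × Bool => ∑ c, M67.xi (x c) • y c = 0).card =
      (univ.filter fun ω : Fin a → Fin 4 => gwalk ω y = 0).card := by
    refine (card_bij' (fun ω _ => fun c => sd (ω c)) (fun x _ => fun c => sd.symm (x c)) ?_ ?_ ?_ ?_).symm
    · intro ω hω
      simp only [mem_filter, mem_univ, true_and] at hω ⊢
      rw [← hω]
      unfold gwalk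
      exact sum_congr rfl fun c _ => by rw [xi_sd]
    · intro x hx
      simp only [mem_filter, mem_univ, true_and] at hx ⊢
      rw [← hx]
      unfold gwalk
      refine sum_congr rfl fun c _ => ?_
      rw [← xi_sd, Equiv.apply_symm_apply]
    · intro ω _; funext c; simp
    · intro x _; funext c; simp
  rw [h1]
  simp only [Fintype.card_prod, Fintype.card_bool, Fintype.card_fin]
  push_cast
  refine le_of_eq ?_
  field_simp

end Vale.Agent.P160.Half.LemM203
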