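import Vale.Agent.P160.Half.LemM203c
import Vale.Agent.P160.Half.LemMI1
import Vale.Agent.P160.Half.FlatZ4

/-! P160-HALF, block (M): LEMMA M, unconditional: `StmtMom q β` for `2 q β < .99`. -/

namespace Vale.Agent.P160.Half.LemM203

open Finset Vale.Agent.P160 Vale.Agent.P160.Half.Flat Vale.Agent.P160.Half.Good439 Filter
open Vale.Agent.P160.Half.M67

theorem countM4 : CountM 4 (1 - 2 / ((4 : ℕ) : ℝ)) := by
  intro δ c C₀ hδ hδ1 hc hC₀
  obtain ⟨k₀, h⟩ := Flat.countG4 δ c C₀ hδ hδ1 hc hC₀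
  refine ⟨max k₀ 1, fun k hk G _ _ m hmk hkm hp hb T hT1 hT2 => ?_⟩
  have hk1 : 1 ≤ k := le_trans (le_max_right _ _) hk
  have hkr : (1 : ℝ) ≤ k := by exact_mod_cast hk1
  have hhalf : (1 - 2 / ((4 : ℕ) : ℝ)) = 1 / 2 := by norm_num
  rw [hhalf] at hb
  have hT : 1 / (k : ℝ) ^ 3 ≤ T := by
    refine le_trans ?_ hT1
    refine one_div_le_one_div_of_le (by linarith) ?_
    calc (k : ℝ) = (k : ℝ) ^ 1 := (pow_one _).symm
      _ ≤ (k : ℝ) ^ 3 := pow_le_pow_right₀ hkr (by norm_num)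
  exact h k (le_trans (le_max_left _ _) hk) G m hmk hkm hp hb T hT hT2

theorem mom_gen (q : ℕ) (β : ℝ) (h : 2 * q * β < 99 / 100) : StmtMom q β := by
  have hl := Real.log_pos (by norm_num : (1 : ℝ) < 2)
  refine mom_of (fun P _ q k m Y => wq_eq P q Y) (fun P hP k m Y hr hm hk => had P hP Y hr hm hk)
    (le_refl 4) domM4 countM4 q β ((99 / 100 - 2 * q * β) * Real.log 2)
    (mul_pos (by linarith) hl) ?_
  intro k m hkm
  have hkm' : (99 : ℝ) * k ≤ 100 * m := by exact_mod_cast hkm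
  have hhalf : (1 - 2 / ((4 : ℕ) : ℝ)) = 1 / 2 := by norm_num
  rw [hhalf]
  have h1 : ((1 : ℝ) / 2) ^ m = Real.exp (-(m * Real.log 2)) := by
    rw [Real.exp_neg, mul_comm, Real.exp_mul, Real.exp_log (by norm_num), Real.rpow_natCast]
    rw [one_div, inv_pow]
  have h2 : (2 : ℝ) ^ (β * k * ((2 * q : ℕ) : ℝ)) = Real.exp (Real.log 2 * (β * k * ((2 * q : ℕ) : ℝ))) := by
    rw [Real.rpow_def_of_pos (by norm_num)]
  rw [h1, h2, ← Real.exp_add]
  refine Real.exp_le_exp.2 ?_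
  push_cast
  nlinarith

/-- LEMMA M for the official parameters -/
theorem mom (β : ℝ) (h : β ≤ 1 / 8) : StmtMom 3 β := mom_gen 3 β (by push_cast; linarith)

end Vale.Agent.P160.Half.LemM203
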