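import Mathlib

/-! # P160-HALF (M), LEMMA M of note 11331 (abstract part)

Rows `x : Fin m → Om`, entries `e (x c)`.  `cnt e y` counts the rows orthogonal to `y : Fin m → Q`,
`Zp e y = |Q| * P(x . y = 0)`. -/

namespace Vale.Agent.P160.Half.LemM836

open Finset

section basic

variable {Om : Type*} {m : ℕ}

/-- dot product of a row of seeds with a vector in an abelian group -/
def dotp {Q : Type*} [AddCommGroup Q] (e : Om → ℤ) (x : Fin m → Om) (y : Fin m → Q) : Q :=
  ∑ c, e (x c) • y c

theorem dotp_map {Q R : Type*} [AddCommGroup Q] [AddCommGroup R] (f : Q →+ R) (e : Om → ℤ)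
    (x : Fin m → Om) (y : Fin m → Q) : dotp e x (fun c => f (y c)) = f (dotp e x y) := by
  unfold dotp
  rw [map_sum]
  exact Finset.sum_congr rfl fun c _ => (map_zsmul f _ _).symm

open Classical in
/-- number of rows orthogonal to `y` -/
noncomputable def cnt {Q : Type*} [AddCommGroup Q] [Fintype Om] (e : Om → ℤ) (y : Fin m → Q) : ℕ :=
  ((univ : Finset (Fin m → Om)).filter fun x => dotp e x y = 0).card

/-- `|Q| * P(x . y = 0)` -/
noncomputable def Zp {Q : Type*} [AddCommGroup Q] [Fintype Om] (e : Om → ℤ) (y : Fin m → Q) : ℝ :=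
  (Nat.card Q : ℝ) * cnt e y / (Fintype.card Om : ℝ) ^ m

end basic

section chain

variable {Om : Type*} [Fintype Om] {m : ℕ} {H : Type*} [AddCommGroup H] [Finite H]

open Classical in
/-- the quotient version of `Zp` -/
noncomputable def ZK (e : Om → ℤ) (y : Fin m → H) (K : AddSubgroup H) : ℝ :=
  (K.index : ℝ) * ((univ : Finset (Fin m → Om)).filter fun x => dotp e x y ∈ K).card /
    (Fintype.card Om : ℝ) ^ m

omit [Finite H] in
theorem ZK_eq (e : Om → ℤ) (y : Fin m → H) (K : AddSubgroup H) :
    Zp e (fun c => (y c : H ⧸ K)) = ZK e y K := by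
  classical
  have h : cnt e (fun c => (y c : H ⧸ K)) =
      ((univ : Finset (Fin m → Om)).filter fun x => dotp e x y ∈ K).card := by
    unfold cnt
    congr 1
    ext x
    simp only [mem_filter, mem_univ, true_and]
    have := dotp_map (QuotientAddGroup.mk' K) e x y
    simp only [QuotientAddGroup.mk'_apply] at this
    rw [this, QuotientAddGroup.eq_zero_iff]
  unfold Zp ZK
  rw [h]
  rfl

/-- **Chain lemma.**  All prime divisors of `|H|` are `≤ P`; if `Zp y > T ≥ 1` then some quotient has
`T < Zp ≤ P T`. -/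
theorem chain (e : Om → ℤ) (y : Fin m → H) (T P : ℝ) (hT : 1 ≤ T)
    (hP : ∀ p : ℕ, p.Prime → p ∣ Nat.card H → (p : ℝ) ≤ P) (hy : T < Zp e y) (hO : 0 < Fintype.card Om) :
    ∃ K : AddSubgroup H, T < Zp e (fun c => (y c : H ⧸ K)) ∧ Zp e (fun c => (y c : H ⧸ K)) ≤ P * T := by
  classical
  have hO' : (0 : ℝ) < (Fintype.card Om : ℝ) ^ m := by positivity
  have hbot : T < ZK e y ⊥ := by
    have : ZK e y ⊥ = Zp e y := by
      unfold ZK Zp cnt
      rw [AddSubgroup.index_bot]
      rfl
    rw [this]; exact hy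
  obtain ⟨K, hK, hmax⟩ : ∃ K : AddSubgroup H, T < ZK e y K ∧
      ∀ K' : AddSubgroup H, K < K' → ZK e y K' ≤ T := by
    obtain ⟨K, hK⟩ := (Set.toFinite {K : AddSubgroup H | T < ZK e y K}).exists_maximal ⟨⊥, hbot⟩
    refine ⟨K, hK.1, fun K' hlt => ?_⟩
    by_contra hcon
    exact absurd (hK.2 (not_le.1 hcon) hlt.le) (not_le_of_gt hlt)
  refine ⟨K, by rw [ZK_eq]; exact hK, ?_⟩
  rw [ZK_eq]
  have hKtop : K ≠ ⊤ := by
    rintro rfl
    unfold ZK at hK
    rw [AddSubgroup.index_top] at hK
    have : ((univ : Finset (Fin m → Om)).filter fun x => dotp e x y ∈ (⊤ : AddSubgroup H)) = univ := by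
      ext x; simp
    rw [this, Finset.card_univ, Fintype.card_fun, Fintype.card_fin] at hK
    push_cast at hK
    rw [one_mul, div_self hO'.ne'] at hK
    linarith
  have hidx : 1 < Nat.card (H ⧸ K) := by
    have h0 : K.index ≠ 1 := fun h => hKtop (AddSubgroup.index_eq_one.1 h)
    have h1 : K.index ≠ 0 := AddSubgroup.index_ne_zero_of_finite
    have : Nat.card (H ⧸ K) = K.index := rfl
    omega
  obtain ⟨p, hp, hpd⟩ := Nat.exists_prime_and_dvd hidx.ne'
  have : Fact p.Prime := ⟨hp⟩
  have : Fintype (H ⧸ K) := Fintype.ofFinite _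
  obtain ⟨g, hg⟩ := exists_prime_addOrderOf_dvd_card' (G := H ⧸ K) p hpd
  set L : AddSubgroup (H ⧸ K) := AddSubgroup.zmultiples g with hL
  set K' : AddSubgroup H := L.comap (QuotientAddGroup.mk' K) with hK'
  have hle : K ≤ K' := by
    intro x hx
    rw [hK', AddSubgroup.mem_comap]
    have : QuotientAddGroup.mk' K x = 0 := by
      rw [QuotientAddGroup.mk'_apply, QuotientAddGroup.eq_zero_iff]; exact hx
    rw [this]; exact L.zero_mem
  have hcardL : Nat.card L = p := by rw [hL, Nat.card_zmultiples, hg]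
  have hindex : K.index = p * K'.index := by
    have h1 : K'.index = L.index :=
      AddSubgroup.index_comap_of_surjective L (QuotientAddGroup.mk'_surjective K)
    have h2 : Nat.card L * L.index = Nat.card (H ⧸ K) := AddSubgroup.card_mul_index L
    rw [h1, ← hcardL, h2]; rfl
  have hlt : K < K' := by
    refine lt_of_le_of_ne hle fun h => ?_
    have h1 : K.index = K'.index := by rw [← h]
    have h2 : K'.index ≠ 0 := AddSubgroup.index_ne_zero_of_finite
    have h3 := hp.two_le
    have : 2 * K'.index ≤ p * K'.index := Nat.mul_le_mul_right _ h3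
    omega
  have h4 := hmax K' hlt
  have hpP : (p : ℝ) ≤ P := by
    apply hP p hp
    have : Nat.card (H ⧸ K) ∣ Nat.card H := AddSubgroup.card_quotient_dvd_card K
    exact hpd.trans this
  have h5 : ZK e y K ≤ p * ZK e y K' := by
    unfold ZK
    rw [hindex]
    push_cast
    have h6 : (((univ : Finset (Fin m → Om)).filter fun x => dotp e x y ∈ K).card : ℝ) ≤
        ((univ : Finset (Fin m → Om)).filter fun x => dotp e x y ∈ K').card := by
      exact_mod_cast card_le_card fun x hx => by
        rw [mem_filter] at hx ⊢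
        exact ⟨hx.1, hle hx.2⟩
    rw [← mul_div_assoc, ← mul_assoc]
    gcongr
  calc ZK e y K ≤ p * ZK e y K' := h5
    _ ≤ p * T := by gcongr
    _ ≤ P * T := by gcongr

end chain

end Vale.Agent.P160.Half.LemM836
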