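import Vale.Agent.P160.Half.LemM203
import Vale.Agent.P160.Half.M67Stmt
import Vale.Agent.P160.Half.HadN

/-!
# P160 (M), LEMMA M, leaf (I1) (hedge): dictionary between `M67.W` and `LemM203.Wq`, Hadamard, law
-/

namespace Vale.Agent.P160.Half.LemM203.H708

open Finset Vale.Agent.P160 Vale.Agent.P160.Half Vale.Agent.P160.Half.Flat
  Vale.Agent.P160.Half.LemM203

/-- the bijection between the seeds -/
def sd (b : Bool × Bool) : Fin 4 :=
  match b with
  | (true, false) => 0
  | (false, true) => 1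
  | (false, false) => 2
  | (true, true) => 3

theorem sd_bij : Function.Bijective sd := by
  constructor
  · rintro ⟨_ | _, _ | _⟩ ⟨_ | _, _ | _⟩ h <;> simp_all [sd]
  · intro i
    fin_cases i
    · exact ⟨(true, false), rfl⟩
    · exact ⟨(false, true), rfl⟩
    · exact ⟨(false, false), rfl⟩
    · exact ⟨(true, true), rfl⟩

theorem st_sd (b : Bool × Bool) : (st (sd b) : ℤ) = M67.xi b := by
  rcases b with ⟨_ | _, _ | _⟩ <;> simp [sd, st, M67.xi]

theorem domM4 : DomM 4 M67.xi := by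
  intro G _ _ _ a y
  have h1 : (univ.filter fun x : Fin a → Bool × Bool => ∑ c, M67.xi (x c) • y c = 0).card =
      (univ.filter fun ω : Fin a → Fin 4 => gwalk ω y = 0).card := by
    refine Finset.card_bij (fun x _ c => sd (x c)) ?_ ?_ ?_
    · intro x hx
      rw [mem_filter] at hx ⊢
      refine ⟨mem_univ _, ?_⟩
      unfold gwalk
      rw [← hx.2]
      exact sum_congr rfl fun c _ => by rw [st_sd]
    · intro x _ x' _ h
      funext c
      exact sd_bij.1 (congrFun h c)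
    · intro ω hω
      rw [mem_filter] at hω
      choose g hg using sd_bij.2
      refine ⟨fun c => g (ω c), ?_, ?_⟩
      · rw [mem_filter]
        refine ⟨mem_univ _, ?_⟩
        have h2 := hω.2
        unfold gwalk at h2
        rw [← h2]
        refine sum_congr rfl fun c _ => ?_
        rw [← st_sd, hg]
      · funext c
        exact hg _
  rw [h1, gZM_eq (by norm_num : 2 ≤ 4)]
  unfold gpr
  rw [Fintype.card_fin, Fintype.card_prod, Fintype.card_bool]
  have h4 : ((2 * 2 : ℕ) : ℝ) ^ a ≠ 0 := by positivity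
  have h5 : (((4 : ℕ) : ℝ)) ^ a = ((2 * 2 : ℕ) : ℝ) ^ a := by norm_num
  rw [h5]
  refine le_of_eq ?_
  field_simp

/-- dimension of the kernel modulo `p` -/
theorem finrank_Ker (p : ℕ) [Fact p.Prime] {k m : ℕ} (Y : Fin k → Fin m → Bool × Bool) :
    Module.finrank (ZMod p) (Ker M67.xi p Y) = m - M67.rkp p (M67.mt M67.xi Y) := by
  set M : Matrix (Fin k) (Fin m) (ZMod p) :=
    (M67.mt M67.xi Y).map (Int.cast : ℤ → ZMod p) with hM
  have h1 : Ker M67.xi p Y = LinearMap.ker M.mulVecLin := by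
    ext u
    rw [mem_Ker, LinearMap.mem_ker, Matrix.mulVecLin_apply, funext_iff]
    refine forall_congr' fun j => ?_
    have : (M.mulVec u) j = ∑ c, M67.xi (Y j c) • u c := by
      simp only [Matrix.mulVec, dotProduct, hM, Matrix.map_apply, M67.mt, zsmul_eq_mul]
    rw [this]
    rfl
  have h2 := LinearMap.finrank_range_add_finrank_ker M.mulVecLin
  rw [Module.finrank_fin_fun] at h2
  have h3 : Module.finrank (ZMod p) (LinearMap.range M.mulVecLin) =
      M67.rkp p (M67.mt M67.xi Y) := rfl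
  rw [h1, ← h3]
  omega

theorem wq_eq (P : Finset ℕ) [∀ i : {x // x ∈ P}, Fact ((i : ℕ)).Prime] (q : ℕ) {k m : ℕ}
    (Y : Fin k → Fin m → Bool × Bool) :
    M67.W P (M67.mt M67.xi Y) ^ q =
      ((Wq M67.xi (fun i : {x // x ∈ P} => (i : ℕ)) (2 * q) Y : ℕ) : ℝ) := by
  unfold M67.W Wq
  rw [← Finset.prod_pow]
  push_cast
  rw [← Finset.prod_coe_sort P (fun p : ℕ => ((p : ℝ) ^ (2 * (m - M67.rkp p (M67.mt M67.xi Y)))) ^ q)]
  refine prod_congr rfl fun i _ => ?_
  rw [finrank_Ker, ← pow_mul]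
  congr 1
  ring

theorem had {P : Finset ℕ} (hP : ∀ p ∈ P, p.Prime) {k m : ℕ} (Y : Fin k → Fin m → Bool × Bool)
    (hr : M67.rkQ (M67.mt M67.xi Y) = m) (hmk : m ≤ k) (hk : 1 ≤ k) :
    M67.W P (M67.mt M67.xi Y) ≤ (k : ℝ) ^ k := by
  have h1 : ∀ i j, |M67.mt M67.xi Y i j| ≤ 1 := by
    intro i j
    unfold M67.mt
    rcases Y i j with ⟨_ | _, _ | _⟩ <;> simp [M67.xi]
  have h2 := HadN.prod_pow_dvd (M67.mt M67.xi Y) P hP h1
  have hQ : HadN.rQ (M67.mt M67.xi Y) = m := hr
  rw [hQ] at h2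
  have h3 : M67.W P (M67.mt M67.xi Y) =
      (((∏ p ∈ P, p ^ (m - HadN.rP p (M67.mt M67.xi Y))) ^ 2 : ℕ) : ℝ) := by
    unfold M67.W
    push_cast
    rw [← Finset.prod_pow]
    refine prod_congr rfl fun p _ => ?_
    rw [← pow_mul, mul_comm 2]
    rfl
  rw [h3]
  have h4 : (m : ℕ) ^ m ≤ k ^ k :=
    (Nat.pow_le_pow_left hmk m).trans (Nat.pow_le_pow_right hk hmk)
  exact_mod_cast h2.trans h4

end Vale.Agent.P160.Half.LemM203.H708
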