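import Vale.Agent.P160.Half.MinC708

/-!
# P160 (M), LEMMA M, leaf (I2): MIN NORM (angle form) for the seeds `Bool × Bool`
-/

namespace Vale.Agent.P160.Half.LemM203

open Finset Vale.Agent.P160 Vale.Agent.P160.Half.Flat

theorem xi_abs708 (b : Bool × Bool) : |M67.xi b| ≤ 1 := by
  rcases b with ⟨_ | _, _ | _⟩ <;> simp [M67.xi]

theorem minN_of {k m : ℕ} (s : ℝ) (hs : 1 ≤ s) (hk : 0 < k) (Y : Fin k → Fin m → Bool × Bool)
    (hr : M67.rkQ (M67.mt M67.xi Y) = m) (hb : ¬ M67.SpB s (M67.mt M67.xi Y))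
    {G : Type} [AddCommGroup G] [Finite G] (w : Fin m → G)
    (hw : ∀ j, ∑ c, M67.xi (Y j c) • w c = 0) (ψ : AddChar G ℂ) (hψ : ∃ c, ψ (w c) ≠ 1)
    (F : Finset (Fin m)) (hF : ((Fᶜ).card : ℝ) ≤ s) :
    (1 / (64 * Real.sqrt k * s)) ^ 2 < ∑ c ∈ F, (‖NrmChar.tu (ψ (w c))‖) ^ 2 := by
  have : Fintype G := Fintype.ofFinite G
  have hmk : m ≤ k := by
    have h := Matrix.rank_le_card_height ((M67.mt M67.xi Y).map (Int.cast : ℤ → ℚ))
    rw [Fintype.card_fin] at h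
    exact hr ▸ h
  exact MinNorm708.min_norm_circle (M67.mt M67.xi Y) (fun i c => xi_abs708 _)
    (MinChar.ker_real _ hr) (k := (k : ℝ)) (E := s) (by rw [Fintype.card_fin]; exact_mod_cast hmk)
    (by exact_mod_cast hk) hs (by
      intro χ h1 h2 h3 h4
      apply hb
      refine ⟨χ, h1, ?_, h3, h4⟩
      convert h2)
    (fun c => NrmChar.hom ψ (w c)) (by
      intro h0
      obtain ⟨c, hc⟩ := hψ
      apply hc
      have h2 : NrmChar.hom ψ (w c) = 0 := congrFun h0 c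
      rw [NrmChar.hom_apply] at h2
      have h3 := NrmChar.le_two_pi (AddChar.norm_apply ψ (w c))
      rw [h2, norm_zero, mul_zero] at h3
      have h4 : ‖ψ (w c) - 1‖ = 0 := le_antisymm h3 (norm_nonneg _)
      exact sub_eq_zero.1 (norm_eq_zero.1 h4)) (by
      intro i
      have h2 : NrmChar.hom ψ (∑ c, M67.xi (Y i c) • w c) = 0 := by rw [hw i, map_zero]
      rw [map_sum] at h2
      rw [← h2]
      exact Finset.sum_congr rfl fun c _ => (map_zsmul (NrmChar.hom ψ) _ _).symm) F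
    (by rwa [← Finset.compl_eq_univ_sdiff])

/-- the same with `NrmChar.n` -/
theorem minN_of' {k m : ℕ} (s : ℝ) (hs : 1 ≤ s) (hk : 0 < k) (Y : Fin k → Fin m → Bool × Bool)
    (hr : M67.rkQ (M67.mt M67.xi Y) = m) (hb : ¬ M67.SpB s (M67.mt M67.xi Y))
    {G : Type} [AddCommGroup G] [Fintype G] (w : Fin m → G)
    (hw : ∀ j, ∑ c, M67.xi (Y j c) • w c = 0) (ψ : AddChar G ℂ) (hψ : ∃ c, ψ (w c) ≠ 1)
    (F : Finset (Fin m)) (hF : ((Fᶜ).card : ℝ) ≤ s) :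
    (1 / (64 * Real.sqrt k * s)) ^ 2 < ∑ c ∈ F, (NrmChar.n w c ψ) ^ 2 :=
  minN_of s hs hk Y hr hb w hw ψ hψ F hF

/-- chord form -/
theorem minN_chord {k m : ℕ} (s : ℝ) (hs : 1 ≤ s) (hk : 0 < k) (Y : Fin k → Fin m → Bool × Bool)
    (hr : M67.rkQ (M67.mt M67.xi Y) = m) (hb : ¬ M67.SpB s (M67.mt M67.xi Y))
    {G : Type} [AddCommGroup G] [Finite G] (w : Fin m → G)
    (hw : ∀ j, ∑ c, M67.xi (Y j c) • w c = 0) (ψ : AddChar G ℂ) (hψ : ∃ c, ψ (w c) ≠ 1)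
    (F : Finset (Fin m)) (hF : ((Fᶜ).card : ℝ) ≤ s) :
    (1 / (16 * Real.sqrt k * s)) ^ 2 < ∑ c ∈ F, ‖ψ (w c) - 1‖ ^ 2 := by
  have : Fintype G := Fintype.ofFinite G
  have h1 := minN_of s hs hk Y hr hb w hw ψ hψ F hF
  have h2 : 16 * ∑ c ∈ F, ‖NrmChar.tu (ψ (w c))‖ ^ 2 ≤ ∑ c ∈ F, ‖ψ (w c) - 1‖ ^ 2 := by
    rw [Finset.mul_sum]
    refine Finset.sum_le_sum fun c _ => ?_
    have h3 := NrmChar.four_le (AddChar.norm_apply ψ (w c))
    have h4 := norm_nonneg (NrmChar.tu (ψ (w c)))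
    nlinarith
  have h3 : (1 / (16 * Real.sqrt k * s)) ^ 2 = 16 * (1 / (64 * Real.sqrt k * s)) ^ 2 := by
    have hk' : (0 : ℝ) < k := by exact_mod_cast hk
    have : 0 < Real.sqrt k := Real.sqrt_pos.mpr hk'
    have : 0 < s := by linarith
    field_simp
    norm_num
  rw [h3]
  linarith

end Vale.Agent.P160.Half.LemM203
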