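import Vale.Agent.P160.Half.LemM203
import Vale.Agent.P160.Half.LemMI1
import Vale.Agent.P160.Half.LemMI2
import Vale.Agent.P160.Half.FlatZ4
import Vale.Agent.P160.Half.MC986

/-! P160-HALF, block (M), LEMMA M (I3): asymptotics and the final theorem (helper37, second copy). -/

set_option linter.unusedVariables false

namespace Vale.Agent.P160.Half.LemM37

open Finset Vale.Agent.P160 Vale.Agent.P160.Half.Flat Vale.Agent.P160.Half.LemM203

/-! ### numbers -/

theorem ev_pow_lt (C : ℝ) : ∀ᶠ k : ℕ in Filter.atTop, (k : ℝ) ^ C < 2 ^ k := by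
  have h1 := isLittleO_rpow_exp_pos_mul_atTop C (show (0 : ℝ) < Real.log 2 from Real.log_pos (by norm_num))
  have h2 := (h1.def (c := 1 / 2) (by norm_num))
  have h3 := (tendsto_natCast_atTop_atTop (R := ℝ)).eventually h2
  filter_upwards [h3] with k hk
  have hk0 : (0 : ℝ) ≤ k := Nat.cast_nonneg k
  rw [Real.norm_of_nonneg (Real.rpow_nonneg hk0 _), Real.norm_of_nonneg (Real.exp_pos _).le] at hk
  have h4 : Real.exp (Real.log 2 * k) = 2 ^ k := by
    rw [mul_comm, Real.exp_nat_mul, Real.exp_log (by norm_num)]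
  rw [h4] at hk
  have h5 : (0 : ℝ) < 2 ^ k := by positivity
  linarith

theorem ev_small (x a : ℝ) (hx : x < 0) : ∀ᶠ k : ℕ in Filter.atTop, a * (k : ℝ) ^ x ≤ 1 := by
  have h1 : Filter.Tendsto (fun k : ℕ => a * (k : ℝ) ^ x) Filter.atTop (nhds (a * 0)) := by
    refine Filter.Tendsto.const_mul a ?_
    have := (tendsto_rpow_neg_atTop (y := -x) (by linarith)).comp (tendsto_natCast_atTop_atTop (R := ℝ))
    simpa [Function.comp_def] using this
  rw [mul_zero] at h1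
  exact (h1.eventually (gt_mem_nhds (show (0 : ℝ) < 1 by norm_num))).mono fun k hk => hk.le

/-! ### flat and low tuples -/

open scoped Classical in
theorem low (δ c C₁ : ℝ) (hδ : 0 < δ) (hδ1 : δ ≤ 1 / 100) (hc : 0 < c) (hC₁ : 0 < C₁) :
    ∃ k₀ : ℕ, ∀ k : ℕ, k₀ ≤ k → ∀ (G : Type) [AddCommGroup G] [Fintype G] (m : ℕ), m ≤ k →
      99 * k ≤ 100 * m → (∀ p : ℕ, p.Prime → p ∣ Fintype.card G → k ≤ p) →
      (Fintype.card G : ℝ) * (1 / 2) ^ m ≤ Real.exp (-c * k) →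
      ∑ w ∈ univ.filter (fun w : Fin m → G => NonSp ((k : ℝ) ^ (1 - δ / 4)) w ∧ gZ 4 w ≤ (k : ℝ) ^ C₁),
        gZ 4 w ^ k ≤ (Fintype.card G : ℝ) ^ k * 4 := by
  obtain ⟨k₁, hcount⟩ := countG4 δ c C₁ hδ (by linarith) hc hC₁
  obtain ⟨k₂, hk₂⟩ := Filter.eventually_atTop.1 (ev_pow_lt C₁)
  obtain ⟨k₃, hk₃⟩ := Filter.eventually_atTop.1 (ev_small (-(1 / 2) + δ) 8 (by linarith))
  refine ⟨max (max k₁ k₂) (max k₃ 100), ?_⟩
  intro k hk G _ _ m hmk hkm hp hcard
  have h1 := (max_le_iff.1 hk).1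
  have h2 := (max_le_iff.1 hk).2
  have hk1' := (max_le_iff.1 h1).1
  have hk2' := (max_le_iff.1 h1).2
  have hk3' := (max_le_iff.1 h2).1
  have hk4' := (max_le_iff.1 h2).2
  have hk0 : (0 : ℝ) < k := by exact_mod_cast (by omega : 0 < k)
  have hk1 : (1 : ℝ) ≤ k := by exact_mod_cast (by omega : 1 ≤ k)
  have hkm2 : (k : ℝ) ≤ 2 * m := by exact_mod_cast (by omega : k ≤ 2 * m)
  have hg1 : (1 : ℝ) ≤ Fintype.card G := by exact_mod_cast Fintype.card_pos
  have hg0 : (0 : ℝ) < Fintype.card G := by linarith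
  set g : ℝ := ((Fintype.card G : ℕ) : ℝ) with hg
  set s : ℝ := (k : ℝ) ^ (1 - δ / 4) with hs
  set T₀ : ℝ := (k : ℝ) ^ C₁ with hT₀
  have hT₀1 : 1 ≤ T₀ := Real.one_le_rpow hk1 hC₁.le
  have hT₀2 : T₀ < 2 ^ k := hk₂ k hk2'
  set X : ℝ := 2 * (k : ℝ) ^ (-(1 / 2) + δ) with hX
  have hX0 : 0 < X := by positivity
  have hX1 : 2 * X ≤ 1 / 2 := by
    have := hk₃ k hk3'
    rw [hX]; linarith
  let As : Finset (Fin m → G) := univ.filter fun w => NonSp s w ∧ 1 + 1 / (k : ℝ) ≤ gZ 4 w ∧ gZ 4 w ≤ T₀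
  let Fl : Finset (Fin m → G) := univ.filter fun w => gZ 4 w ≤ 1 + 1 / (k : ℝ)
  have hnn : ∀ w : Fin m → G, 0 ≤ gZ 4 w := fun w => gZM_nonneg (by norm_num) w
  have hsub : univ.filter (fun w : Fin m → G => NonSp s w ∧ gZ 4 w ≤ T₀) ⊆ Fl ∪ As := by
    intro w hw
    rw [mem_filter] at hw
    rw [mem_union]
    rcases le_total (gZ 4 w) (1 + 1 / (k : ℝ)) with h | h
    · exact Or.inl (mem_filter.2 ⟨mem_univ _, h⟩)
    · exact Or.inr (mem_filter.2 ⟨mem_univ _, hw.2.1, h, hw.2.2⟩)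
  have hFl : ∑ w ∈ Fl, gZ 4 w ^ k ≤ g ^ k * 3 := by
    have h3 : ∀ w ∈ Fl, gZ 4 w ^ k ≤ 3 := by
      intro w hw
      have h4 : gZ 4 w ≤ Real.exp (1 / k) := by
        have := Real.add_one_le_exp (1 / (k : ℝ))
        have h5 := (mem_filter.1 hw).2
        linarith
      calc gZ 4 w ^ k ≤ Real.exp (1 / k) ^ k := pow_le_pow_left₀ (hnn w) h4 k
        _ = Real.exp 1 := by
            rw [← Real.exp_nat_mul]
            congr 1
            field_simp
        _ ≤ 3 := by have := Real.exp_one_lt_d9; linarith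
    calc ∑ w ∈ Fl, gZ 4 w ^ k ≤ ∑ _w ∈ Fl, (3 : ℝ) := sum_le_sum h3
      _ = Fl.card * 3 := by rw [sum_const, nsmul_eq_mul]
      _ ≤ g ^ k * 3 := by
          refine mul_le_mul_of_nonneg_right ?_ (by norm_num)
          have h6 : (Fl.card : ℝ) ≤ g ^ m := by
            have h7 := card_le_univ Fl
            rw [Fintype.card_fun, Fintype.card_fin] at h7
            rw [hg]
            exact_mod_cast h7
          exact h6.trans (pow_le_pow_right₀ hg1 hmk)
  have hAs : ∑ w ∈ As, gZ 4 w ^ k ≤ g ^ k * (k * (2 * X) ^ m) := by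
    refine dyad (fun w : Fin m → G => gZ 4 w) hnn g hg0 (fun w => gZM_le_card (by norm_num) w) m k hmk X 1
      one_pos k As ?_ ?_
    · intro i hi D hD hZ
      rw [one_mul]
      by_cases hbig : T₀ < 2 ^ i
      · have hD0 : D = ∅ := by
          rw [eq_empty_iff_forall_notMem]
          intro w hw
          have h4 := hZ w hw
          have h5 := (mem_filter.1 (hD hw)).2.2.2
          rw [one_mul] at h4
          linarith
        rw [hD0, card_empty]
        push_cast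
        positivity
      · push Not at hbig
        rcases Nat.eq_zero_or_pos i with rfl | hi0
        · have h4 := hcount k hk1' G m hmk hkm2 hp hcard (1 / k)
            (by
              rw [div_le_div_iff₀ (by positivity) hk0, one_mul, one_mul]
              calc (k : ℝ) = k ^ 1 := (pow_one _).symm
                _ ≤ k ^ 3 := pow_le_pow_right₀ hk1 (by norm_num))
            (by
              have : 1 / (k : ℝ) ≤ 1 := by rw [div_le_one hk0]; exact hk1
              linarith)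
          have h5 : D ⊆ univ.filter fun y : Fin m → G => NonSp ((k : ℝ) ^ (1 - δ / 4)) y ∧ 1 + 1 / (k : ℝ) ≤ gZ 4 y := by
            intro w hw
            have := (mem_filter.1 (hD hw)).2
            exact mem_filter.2 ⟨mem_univ _, this.1, this.2.1⟩
          refine (Nat.cast_le.2 (card_le_card h5)).trans (h4.trans ?_)
          refine mul_le_mul_of_nonneg_left (pow_le_pow_left₀ (by positivity) ?_ m) (by positivity)
          rw [pow_zero, div_one, hX, max_eq_left (by rw [div_le_one hk0]; exact hk1), div_one]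
          have : 0 ≤ (k : ℝ) ^ (-(1 / 2) + δ) := by positivity
          linarith
        · have h6 : (2 : ℝ) ≤ 2 ^ i := by
            calc (2 : ℝ) = 2 ^ 1 := (pow_one _).symm
              _ ≤ 2 ^ i := pow_le_pow_right₀ (by norm_num) hi0
          have h4 := hcount k hk1' G m hmk hkm2 hp hcard (2 ^ i / 2)
            (by
              have h7 : 1 / (k : ℝ) ^ 3 ≤ 1 := by
                rw [div_le_one (by positivity)]
                exact one_le_pow₀ hk1
              linarith)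
            (by linarith)
          have h5 : D ⊆ univ.filter fun y : Fin m → G => NonSp ((k : ℝ) ^ (1 - δ / 4)) y ∧ 1 + 2 ^ i / 2 ≤ gZ 4 y := by
            intro w hw
            have := (mem_filter.1 (hD hw)).2
            have h8 := hZ w hw
            refine mem_filter.2 ⟨mem_univ _, this.1, ?_⟩
            rw [one_mul] at h8
            linarith
          refine (Nat.cast_le.2 (card_le_card h5)).trans (h4.trans ?_)
          refine mul_le_mul_of_nonneg_left (pow_le_pow_left₀ (by positivity) ?_ m) (by positivity)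
          rw [hX, max_eq_right (by linarith)]
          refine le_of_eq ?_
          field_simp
    · intro w hw
      have h4 := (mem_filter.1 hw).2
      refine ⟨?_, ?_⟩
      · have : 0 < 1 / (k : ℝ) := by positivity
        show (1 : ℝ) ≤ gZ 4 w
        linarith [h4.2.1]
      · show gZ 4 w < 1 * 2 ^ k
        rw [one_mul]
        linarith [h4.2.2]
  have hlast : (k : ℝ) * (2 * X) ^ m ≤ 1 := by
    have h4 : (2 * X) ^ m ≤ (1 / 2) ^ m := pow_le_pow_left₀ (by positivity) hX1 m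
    have h5 : (k : ℝ) * (1 / 2) ^ m ≤ 1 := by
      have h6 : k ≤ 2 ^ m := by
        have h7 : 2 * m ≤ 2 ^ m := by
          have h8 : ∀ j : ℕ, 3 ≤ j → 2 * j ≤ 2 ^ j := by
            intro j hj
            induction j, hj using Nat.le_induction with
            | base => norm_num
            | succ j hj ih => rw [pow_succ]; omega
          exact h8 m (by omega)
        omega
      have h9 : (k : ℝ) ≤ 2 ^ m := by exact_mod_cast h6
      rw [one_div, inv_pow]
      rw [mul_inv_le_iff₀ (by positivity)]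
      linarith
    calc (k : ℝ) * (2 * X) ^ m ≤ k * (1 / 2) ^ m := mul_le_mul_of_nonneg_left h4 hk0.le
      _ ≤ 1 := h5
  calc ∑ w ∈ univ.filter (fun w : Fin m → G => NonSp s w ∧ gZ 4 w ≤ T₀), gZ 4 w ^ k
      ≤ ∑ w ∈ Fl ∪ As, gZ 4 w ^ k :=
        sum_le_sum_of_subset_of_nonneg hsub fun w _ _ => pow_nonneg (hnn w) k
    _ ≤ ∑ w ∈ Fl, gZ 4 w ^ k + ∑ w ∈ As, gZ 4 w ^ k := by
        rw [← sum_union_inter]
        have : 0 ≤ ∑ w ∈ Fl ∩ As, gZ 4 w ^ k := sum_nonneg fun w _ => pow_nonneg (hnn w) k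
        linarith
    _ ≤ g ^ k * 3 + g ^ k * (k * (2 * X) ^ m) := add_le_add hFl hAs
    _ ≤ g ^ k * 3 + g ^ k * 1 := by
        have : (0 : ℝ) ≤ g ^ k := by positivity
        gcongr
    _ = g ^ k * 4 := by ring

/-! ### big tuples -/

open scoped Classical in
theorem big (c B d : ℝ) (hc : 0 < c) (hB : 0 < B) (hd : 0 < d) (hd' : d ≤ 1 / 12) :
    ∃ k₀ : ℕ, ∀ k : ℕ, k₀ ≤ k → ∀ (G : Type) [AddCommGroup G] [Fintype G] (m : ℕ), m ≤ k →
      99 * k ≤ 100 * m → (∀ p : ℕ, p.Prime → p ∣ Fintype.card G → k ≤ p) →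
      (Fintype.card G : ℝ) * (1 / 2) ^ m ≤ Real.exp (-c * k) →
      ∑ w ∈ univ.filter (fun w : Fin m → G => MC.MinC ((k : ℝ) ^ (1 - d)) ((k : ℝ) ^ (-(3 / 2) : ℝ)) w ∧
          (k : ℝ) ^ (20 : ℝ) < gZ 4 w ∧ gZ 4 w ≤ (k : ℝ) ^ B * (k : ℝ) ^ (20 : ℝ)),
        gZ 4 w ^ k ≤ (Fintype.card G : ℝ) ^ k * (k : ℝ) ^ (-(3 : ℝ) * k) := by
  obtain ⟨k₁, hcount⟩ := MC.mc 4 le_rfl c (B + 20) 20 d hc (by linarith) (by norm_num) hd hd'
  obtain ⟨k₂, hk₂⟩ := Filter.eventually_atTop.1 (ev_pow_lt (B + 1))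
  obtain ⟨k₃, hk₃⟩ := Filter.eventually_atTop.1 (ev_small (-(0.8 : ℝ)) 4 (by norm_num))
  refine ⟨max (max k₁ k₂) (max k₃ 100), ?_⟩
  intro k hk G _ _ m hmk hkm hp hcard
  have h1 := (max_le_iff.1 hk).1
  have h2 := (max_le_iff.1 hk).2
  have hk1' := (max_le_iff.1 h1).1
  have hk2' := (max_le_iff.1 h1).2
  have hk3' := (max_le_iff.1 h2).1
  have hk4' := (max_le_iff.1 h2).2
  have hk0 : (0 : ℝ) < k := by exact_mod_cast (by omega : 0 < k)
  have hk1 : (1 : ℝ) ≤ k := by exact_mod_cast (by omega : 1 ≤ k)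
  have hkm2 : (k : ℝ) ≤ 2 * m := by exact_mod_cast (by omega : k ≤ 2 * m)
  have hg1 : (1 : ℝ) ≤ Fintype.card G := by exact_mod_cast Fintype.card_pos
  have hg0 : (0 : ℝ) < Fintype.card G := by linarith
  set g : ℝ := ((Fintype.card G : ℕ) : ℝ) with hg
  set T₀ : ℝ := (k : ℝ) ^ (20 : ℝ) with hT₀
  have hT₀1 : 0 < T₀ := by positivity
  have hB1 : (k : ℝ) ^ B < 2 ^ k := by
    refine lt_of_le_of_lt ?_ (hk₂ k hk2')
    exact Real.rpow_le_rpow_of_exponent_le hk1 (by linarith)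
  set X : ℝ := (k : ℝ) ^ (-(20 / 5 : ℝ) + 1 / 10) with hX
  have hX0 : 0 < X := by positivity
  have hnn : ∀ w : Fin m → G, 0 ≤ gZ 4 w := fun w => gZM_nonneg (by norm_num) w
  set As : Finset (Fin m → G) := univ.filter (fun w : Fin m → G =>
    MC.MinC ((k : ℝ) ^ (1 - d)) ((k : ℝ) ^ (-(3 / 2) : ℝ)) w ∧
          T₀ < gZ 4 w ∧ gZ 4 w ≤ (k : ℝ) ^ B * T₀) with hAsd
  have hAs : ∑ w ∈ As, gZ 4 w ^ k ≤ g ^ k * (k * (2 * X) ^ m) := by
    refine dyad (fun w : Fin m → G => gZ 4 w) hnn g hg0 (fun w => gZM_le_card (by norm_num) w) m k hmk X T₀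
      hT₀1 k As ?_ ?_
    · intro i hi D hD hZ
      by_cases hbig : (k : ℝ) ^ B < 2 ^ i
      · have hD0 : D = ∅ := by
          rw [eq_empty_iff_forall_notMem]
          intro w hw
          have h4 := hZ w hw
          have h5 := (mem_filter.1 (hD hw)).2.2.2
          have h6 : (k : ℝ) ^ B * T₀ < T₀ * 2 ^ i := by nlinarith
          linarith
        rw [hD0, card_empty]
        push_cast
        positivity
      · push Not at hbig
        have h6 : (1 : ℝ) ≤ 2 ^ i := one_le_pow₀ (by norm_num)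
        have h4 := hcount k hk1' G m hmk hkm2 hp (by
            refine le_trans (le_of_eq ?_) hcard
            norm_num
            exact hg.symm) (T₀ * 2 ^ i)
          (by
            show T₀ ≤ T₀ * 2 ^ i
            nlinarith)
          (by
            rw [Real.rpow_add hk0]
            show T₀ * 2 ^ i ≤ (k : ℝ) ^ B * T₀
            nlinarith)
        have h5 : D ⊆ univ.filter fun y : Fin m → G =>
            MC.MinC ((k : ℝ) ^ (1 - d)) ((k : ℝ) ^ (-(3 / 2) : ℝ)) y ∧ T₀ * 2 ^ i ≤ gZ 4 y := by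
          intro w hw
          have := (mem_filter.1 (hD hw)).2
          exact mem_filter.2 ⟨mem_univ _, this.1, hZ w hw⟩
        exact (Nat.cast_le.2 (card_le_card h5)).trans h4
    · intro w hw
      have h4 := (mem_filter.1 hw).2
      refine ⟨h4.2.1.le, ?_⟩
      show gZ 4 w < T₀ * 2 ^ k
      have h5 : (k : ℝ) ^ B * T₀ < T₀ * 2 ^ k := by nlinarith
      linarith [h4.2.2]
  have hlast : (k : ℝ) * (2 * X) ^ m ≤ (k : ℝ) ^ (-(3 : ℝ) * k) := by
    have hmR : 99 * (k : ℝ) ≤ 100 * m := by exact_mod_cast hkm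
    have h4 : X ^ m = (k : ℝ) ^ (-(3.9 : ℝ) * m) := by
      rw [hX, ← Real.rpow_natCast, ← Real.rpow_mul hk0.le]
      congr 1
      norm_num
    have h5 : (k : ℝ) ^ (-(3.9 : ℝ) * m) ≤ (k : ℝ) ^ (-(3 : ℝ) * k) * (k : ℝ) ^ (-(0.8 : ℝ) * k) := by
      rw [← Real.rpow_add hk0]
      refine Real.rpow_le_rpow_of_exponent_le hk1 ?_
      linarith
    have h6 : (k : ℝ) ^ (-(0.8 : ℝ) * k) * 4 ^ k ≤ 1 := by
      rw [Real.rpow_mul hk0.le, Real.rpow_natCast, ← mul_pow]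
      refine pow_le_one₀ (by positivity) ?_
      have := hk₃ k hk3'
      linarith
    have h7 : (k : ℝ) ≤ 2 ^ k := by exact_mod_cast (Nat.lt_two_pow_self (n := k)).le
    have h8 : (2 : ℝ) ^ m ≤ 2 ^ k := pow_le_pow_right₀ (by norm_num) hmk
    have h9 : 0 < (k : ℝ) ^ (-(3 : ℝ) * k) := by positivity
    have h10 : 0 < (k : ℝ) ^ (-(0.8 : ℝ) * k) := by positivity
    calc (k : ℝ) * (2 * X) ^ m = k * 2 ^ m * X ^ m := by rw [mul_pow]; ring
      _ ≤ 2 ^ k * 2 ^ k * ((k : ℝ) ^ (-(3 : ℝ) * k) * (k : ℝ) ^ (-(0.8 : ℝ) * k)) := by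
          rw [h4]
          refine mul_le_mul (mul_le_mul h7 h8 (by positivity) (by positivity)) h5 (by positivity) (by positivity)
      _ = (k : ℝ) ^ (-(3 : ℝ) * k) * ((k : ℝ) ^ (-(0.8 : ℝ) * k) * 4 ^ k) := by
          rw [show (4 : ℝ) = 2 * 2 by norm_num, mul_pow]; ring
      _ ≤ (k : ℝ) ^ (-(3 : ℝ) * k) * 1 := mul_le_mul_of_nonneg_left h6 h9.le
      _ = _ := mul_one _
  refine hAs.trans (mul_le_mul_of_nonneg_left hlast (by positivity))

/-! ### the theorem -/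

section main

variable (P : Finset ℕ)

theorem pow_card_le (hP : ∀ p ∈ P, p.Prime) : (2 : ℝ) ^ Fintype.card {x // x ∈ P} ≤ ∏ p ∈ P, (p : ℝ) := by
  rw [Fintype.card_coe, ← prod_const]
  exact prod_le_prod (fun _ _ => by norm_num) fun p hp => by exact_mod_cast (hP p hp).two_le

theorem card_GS_le [∀ i : {x // x ∈ P}, Fact ((i : ℕ)).Prime] (q : ℕ) (S : Finset ({x // x ∈ P} × Fin q)) :
    (Fintype.card (Good439.GS (ps (fun i : {x // x ∈ P} => (i : ℕ)) q) S) : ℝ) ≤ (∏ p ∈ P, (p : ℝ)) ^ q := by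
  rw [Good439.card_GS]
  have h1 : ∏ s ∈ S, ps (fun i : {x // x ∈ P} => (i : ℕ)) q s ≤
      ∏ s : {x // x ∈ P} × Fin q, ps (fun i : {x // x ∈ P} => (i : ℕ)) q s :=
    prod_le_univ_prod_of_one_le' fun s => (Fact.out : ((s.1 : ℕ)).Prime).one_lt.le
  have h2 : ∏ s : {x // x ∈ P} × Fin q, ps (fun i : {x // x ∈ P} => (i : ℕ)) q s = (∏ p ∈ P, p) ^ q := by
    rw [Fintype.prod_prod_type]
    simp only [ps, prod_const, card_univ, Fintype.card_fin]
    rw [prod_pow]
    congr 1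
    exact prod_coe_sort P (fun p => p)
  rw [h2] at h1
  calc ((∏ s ∈ S, ps (fun i : {x // x ∈ P} => (i : ℕ)) q s : ℕ) : ℝ) ≤ (((∏ p ∈ P, p) ^ q : ℕ) : ℝ) := by
        exact_mod_cast h1
    _ = _ := by push_cast; rfl

end main

/-- the property of the kernel words -/
def PQ (s σ : ℝ) {G : Type} [AddCommGroup G] [Fintype G] {m : ℕ} (w : Fin m → G) : Prop :=
  NonSp s w ∧ MC.MinC s σ w

open scoped Classical in
/-- **LEMMA M** from the leaves (I1), COUNT, MC, MIN NORM. -/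
theorem mom_of
    (hwq : ∀ (P : Finset ℕ) [∀ i : {x // x ∈ P}, Fact ((i : ℕ)).Prime] (k m : ℕ) (Y : Fin k → Fin m → Bool × Bool),
      M67.W P (M67.mt M67.xi Y) ^ 3 =
        ((Wq M67.xi (fun i : {x // x ∈ P} => (i : ℕ)) (2 * 3) Y : ℕ) : ℝ))
    (hhad : ∀ (P : Finset ℕ) (k m : ℕ) (Y : Fin k → Fin m → Bool × Bool), (∀ p ∈ P, p.Prime) →
      M67.rkQ (M67.mt M67.xi Y) = m → m ≤ k → 1 ≤ k → M67.W P (M67.mt M67.xi Y) ≤ (k : ℝ) ^ k)
    (hdom : DomM 4 M67.xi) : M67.StmtMom 3 (1 / 8) := by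
  intro δ b₁ B hδ hδ1 hb hbB
  obtain ⟨k₁, hlow⟩ := low δ (1 / 10) 20 hδ hδ1 (by norm_num) (by norm_num)
  obtain ⟨k₂, hbig⟩ := big (1 / 10) B (δ / 4) (by norm_num) (by linarith) (by linarith) (by linarith)
  obtain ⟨k₃, hk₃⟩ := Filter.eventually_atTop.1 (ev_small (-(δ / 4)) 16 (by linarith))
  refine ⟨9, max (max k₁ k₂) (max k₃ 100), ?_⟩
  intro k hk m hmk hkm P hA
  have h1 := (max_le_iff.1 hk).1
  have h2 := (max_le_iff.1 hk).2
  have hk1' := (max_le_iff.1 h1).1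
  have hk2' := (max_le_iff.1 h1).2
  have hk3' := (max_le_iff.1 h2).1
  have hk4' := (max_le_iff.1 h2).2
  have hk0 : (0 : ℝ) < k := by exact_mod_cast (by omega : 0 < k)
  have hk1 : (1 : ℝ) ≤ k := by exact_mod_cast (by omega : 1 ≤ k)
  have hmR : 99 * (k : ℝ) ≤ 100 * m := by exact_mod_cast hkm
  have hF : ∀ i : {x // x ∈ P}, Fact ((i : ℕ)).Prime := fun i => ⟨hA.pr i.1 i.2⟩
  have hinj : Function.Injective (fun i : {x // x ∈ P} => (i : ℕ)) := Subtype.val_injective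
  set N : ℝ := ∏ p ∈ P, (p : ℝ) with hN
  have hN1 : 1 ≤ N := (one_le_pow₀ (by norm_num)).trans (pow_card_le P hA.pr)
  have hN0 : 0 < N := by linarith
  have hNk : N ≤ (2 : ℝ) ^ (1 / 8 * (k : ℝ)) := hA.size
  set s : ℝ := (k : ℝ) ^ (1 - δ / 4) with hs
  have hs1 : 1 ≤ s := Real.one_le_rpow hk1 (by linarith)
  set T : ℝ := (k : ℝ) ^ (20 : ℝ) with hT
  have hT1 : 1 ≤ T := Real.one_le_rpow hk1 (by norm_num)
  -- group size
  have hGS : ∀ S : Finset ({x // x ∈ P} × Fin (2 * 3)),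
      (Fintype.card (Good439.GS (ps (fun i : {x // x ∈ P} => (i : ℕ)) (2 * 3)) S) : ℝ) * (1 / 2) ^ m ≤
        Real.exp (-(1 / 10) * k) := by
    intro S
    have h3 := card_GS_le P (2 * 3) S
    have h4 : N ^ (2 * 3) ≤ (2 : ℝ) ^ (3 / 4 * (k : ℝ)) := by
      calc N ^ (2 * 3) ≤ ((2 : ℝ) ^ (1 / 8 * (k : ℝ))) ^ (2 * 3) := pow_le_pow_left₀ hN0.le hNk _
        _ = _ := by
            rw [← Real.rpow_natCast, ← Real.rpow_mul (by norm_num)]
            congr 1
            push_cast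
            ring
    have h5 : ((1 : ℝ) / 2) ^ m = (2 : ℝ) ^ (-(m : ℝ)) := by
      rw [Real.rpow_neg (by norm_num), Real.rpow_natCast, one_div, inv_pow]
    rw [h5]
    calc _ ≤ (2 : ℝ) ^ (3 / 4 * (k : ℝ)) * (2 : ℝ) ^ (-(m : ℝ)) :=
          mul_le_mul_of_nonneg_right (h3.trans h4) (by positivity)
      _ = (2 : ℝ) ^ (3 / 4 * (k : ℝ) - m) := by
          rw [← Real.rpow_add (by norm_num)]; rfl
      _ ≤ (2 : ℝ) ^ (-(24 / 100 : ℝ) * k) :=
          Real.rpow_le_rpow_of_exponent_le (by norm_num) (by linarith)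
      _ = Real.exp (Real.log 2 * (-(24 / 100 : ℝ) * k)) := by
          rw [Real.rpow_def_of_pos (by norm_num)]
      _ ≤ _ := by
          apply Real.exp_le_exp.2
          have := Real.log_two_gt_d9
          nlinarith
  have hpr : ∀ S : Finset ({x // x ∈ P} × Fin (2 * 3)), ∀ p : ℕ, p.Prime →
      p ∣ Fintype.card (Good439.GS (ps (fun i : {x // x ∈ P} => (i : ℕ)) (2 * 3)) S) → k ≤ p := by
    intro S p hp hd
    rw [Good439.card_GS] at hd
    obtain ⟨i, hi, hd'⟩ := (Prime.dvd_finsetProd_iff hp.prime _).1 hd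
    have h3 : p = (i.1 : ℕ) := (Nat.prime_dvd_prime_iff_eq hp (hA.pr _ i.1.2)).1 hd'
    have h4 := hA.lo _ i.1.2
    have h5 : (k : ℝ) ≤ ((i.1 : ℕ) : ℝ) := by
      refine le_trans ?_ h4
      calc (k : ℝ) = (k : ℝ) ^ (1 : ℝ) := (Real.rpow_one _).symm
        _ ≤ (k : ℝ) ^ b₁ := Real.rpow_le_rpow_of_exponent_le hk1 hb
    rw [h3]
    exact_mod_cast h5
  have hcore := core M67.xi (q := 2 * 3) (fun i : {x // x ∈ P} => (i : ℕ)) (M := 4) (by norm_num) hdom (a := m) (k := k)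
    ((univ : Finset (Fin k → Fin m → Bool × Bool)).filter
      (fun ω => M67.rkQ (M67.mt M67.xi ω) = m ∧ ¬ M67.Sp P s (M67.mt M67.xi ω)))
    (fun S w => PQ s ((k : ℝ) ^ (-(3 / 2) : ℝ)) w) T ((k : ℝ) ^ B) 4 ((k : ℝ) ^ (-(3 : ℝ) * k))
    ((k : ℝ) ^ ((3 : ℝ) * k)) hT1 (fun i => hA.hi _ i.2) (by positivity) ?_ ?_ ?_ ?_
  · -- conclusion
    have h3 : ∀ Y ∈ (univ : Finset (Fin k → Fin m → Bool × Bool)).filter
      (fun ω => M67.rkQ (M67.mt M67.xi ω) = m ∧ ¬ M67.Sp P s (M67.mt M67.xi ω)),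
        M67.W P (M67.mt M67.xi Y) ^ 3 = ((Wq M67.xi (fun i : {x // x ∈ P} => (i : ℕ)) (2 * 3) Y : ℕ) : ℝ) :=
      fun Y _ => hwq P k m Y
    rw [sum_congr rfl h3]
    refine hcore.trans ?_
    have h4 : ((∏ i : {x // x ∈ P}, 2 ^ (2 * 3) * (i : ℕ) ^ (2 * 3 * (2 * 3)) : ℕ) : ℝ) ≤ N ^ 42 := by
      push_cast
      rw [prod_mul_distrib, prod_const, prod_pow, card_univ]
      have h5 : ∏ i : {x // x ∈ P}, ((i : ℕ) : ℝ) = N := by
        rw [hN]
        exact prod_coe_sort P (fun p => (p : ℝ))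
      rw [h5, show (64 : ℝ) = 2 ^ 6 by norm_num, ← pow_mul, mul_comm 6, pow_mul]
      calc _ ≤ N ^ 6 * N ^ 36 :=
            mul_le_mul_of_nonneg_right (pow_le_pow_left₀ (by positivity) (pow_card_le P hA.pr) _) (by positivity)
        _ = N ^ 42 := by rw [← pow_add]
    have h6 : (2 : ℝ) ^ (Fintype.card {x // x ∈ P} * (2 * 3)) ≤ N ^ 6 := by
      rw [pow_mul]
      exact pow_le_pow_left₀ (by positivity) (pow_card_le P hA.pr) _
    have h7 : (k : ℝ) ^ ((3 : ℝ) * k) * (k : ℝ) ^ (-(3 : ℝ) * k) = 1 := by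
      rw [← Real.rpow_add hk0]
      ring_nf
      simp
    have h8 : (Fintype.card (Bool × Bool) : ℝ) = 4 := by
      rw [Fintype.card_prod, Fintype.card_bool]; norm_num
    rw [h8, h7, mul_comm k m, mul_comm ((2 : ℝ) ^ (9 * (k : ℝ)))]
    refine mul_le_mul_of_nonneg_left ?_ (by positivity)
    have h9 : N ^ 48 ≤ (2 : ℝ) ^ (6 * (k : ℝ)) := by
      calc N ^ 48 ≤ ((2 : ℝ) ^ (1 / 8 * (k : ℝ))) ^ 48 := pow_le_pow_left₀ hN0.le hNk _
        _ = _ := by
            rw [← Real.rpow_natCast, ← Real.rpow_mul (by norm_num)]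
            congr 1
            push_cast
            ring
    have h10 : (8 : ℝ) ≤ (2 : ℝ) ^ (3 * (k : ℝ)) := by
      calc (8 : ℝ) = (2 : ℝ) ^ (3 : ℝ) := by norm_num
        _ ≤ _ := Real.rpow_le_rpow_of_exponent_le (by norm_num) (by linarith)
    have h11 : (1 : ℝ) ≤ N ^ 42 := one_le_pow₀ hN1
    calc _ ≤ N ^ 6 * (N ^ 42 * 4 + 1) := by
          refine mul_le_mul h6 (by linarith) ?_ (by positivity)
          positivity
      _ ≤ N ^ 6 * (N ^ 42 * 8) := by
          refine mul_le_mul_of_nonneg_left (by linarith) (by positivity)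
      _ = N ^ 48 * 8 := by ring
      _ ≤ (2 : ℝ) ^ (6 * (k : ℝ)) * (2 : ℝ) ^ (3 * (k : ℝ)) := mul_le_mul h9 h10 (by norm_num) (by positivity)
      _ = _ := by
          rw [← Real.rpow_add (by norm_num)]
          congr 1
          ring
  · -- spread and minimal norm
    intro Y hY S w hw hind
    obtain ⟨-, hr, hsp⟩ := mem_filter.1 hY
    have hsp1 : ¬ M67.Sparse P s (M67.mt M67.xi Y) := fun h => hsp (Or.inl h)
    have hsp2 : ¬ M67.SpB s (M67.mt M67.xi Y) := fun h => hsp (Or.inr h)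
    have hns : NonSp s w := by
      refine nonsp_slots M67.xi (fun i : {x // x ∈ P} => (i : ℕ)) hinj Y s ?_ S w hw hind
      intro i u hu hu0
      by_contra hcon
      push Not at hcon
      refine hsp1 ⟨i.1, i.2, u, hu0, ?_, ?_⟩
      · convert hcon
      · intro j
        have := hu j
        rw [← this]
        refine sum_congr rfl fun c _ => ?_
        rw [zsmul_eq_mul]
        rfl
    refine ⟨hns, ?_⟩
    intro ψ hψ F hF'
    have hψ2 : ∃ c, ψ (w c) ≠ 1 := by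
      have h3 := hns ψ hψ
      have h4 : (0 : ℝ) < ((univ.filter fun c => ψ (w c) ≠ 1).card : ℝ) := by linarith
      have h5 : 0 < (univ.filter fun c => ψ (w c) ≠ 1).card := by exact_mod_cast h4
      obtain ⟨c, hc⟩ := card_pos.1 h5
      exact ⟨c, (mem_filter.1 hc).2⟩
    have h3 := minN_chord s hs1 (by omega) Y hr hsp2 w hw ψ hψ2 F hF'
    refine lt_of_le_of_lt ?_ h3
    refine pow_le_pow_left₀ (by positivity) ?_ 2
    have h4 : 16 * (k : ℝ) ^ (-(δ / 4)) ≤ 1 := hk₃ k hk3'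
    have h5 : Real.sqrt k = (k : ℝ) ^ (1 / 2 : ℝ) := Real.sqrt_eq_rpow _
    rw [le_div_iff₀ (by positivity), h5, hs]
    calc (k : ℝ) ^ (-(3 / 2) : ℝ) * (16 * (k : ℝ) ^ (1 / 2 : ℝ) * (k : ℝ) ^ (1 - δ / 4))
        = 16 * ((k : ℝ) ^ (-(3 / 2) : ℝ) * (k : ℝ) ^ (1 / 2 : ℝ) * (k : ℝ) ^ (1 - δ / 4)) := by ring
      _ = 16 * (k : ℝ) ^ (-(δ / 4)) := by
          rw [← Real.rpow_add hk0, ← Real.rpow_add hk0]
          congr 2
          ring
      _ ≤ 1 := h4
  · intro S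
    refine le_trans ?_ (hlow k hk1' _ m hmk hkm (hpr S) (hGS S))
    refine sum_le_sum_of_subset_of_nonneg ?_ fun w _ _ => pow_nonneg (gZM_nonneg (by norm_num) w) k
    intro w hw
    rw [mem_filter] at hw ⊢
    exact ⟨mem_univ _, hw.2.1.1, hw.2.2⟩
  · intro S
    refine le_trans ?_ (hbig k hk2' _ m hmk hkm (hpr S) (hGS S))
    refine sum_le_sum_of_subset_of_nonneg ?_ fun w _ _ => pow_nonneg (gZM_nonneg (by norm_num) w) k
    intro w hw
    rw [mem_filter] at hw ⊢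
    exact ⟨mem_univ _, hw.2.1.2, hw.2.2.1, hw.2.2.2⟩
  · intro Y hY
    obtain ⟨-, hr, hsp⟩ := mem_filter.1 hY
    have h3 := hwq P k m Y
    rw [← h3]
    have h4 := hhad P k m Y hA.pr hr hmk (by omega)
    have h5 : 0 ≤ M67.W P (M67.mt M67.xi Y) := by
      unfold M67.W
      positivity
    calc M67.W P (M67.mt M67.xi Y) ^ 3 ≤ ((k : ℝ) ^ k) ^ 3 := pow_le_pow_left₀ h5 h4 3
      _ = _ := by
          rw [← pow_mul, ← Real.rpow_natCast]
          congr 1
          push_cast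
          ring

/-- **LEMMA M** (`StmtMom 3 (1/8)` of `M67Stmt`), unconditional. -/
theorem mom : M67.StmtMom 3 (1 / 8) :=
  mom_of (fun P _ k m Y => wq_eq P 3 Y) (fun P k m Y hP hr hm hk => had P hP Y hr hm hk) domM4

end Vale.Agent.P160.Half.LemM37
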