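import Mathlib

/-! # P160-HALF (M): first moment of pairs, (A) of helper196's note 11192 (helper753). Mathlib only.

`X : Fin k → (Fin a → Ω)` are `k` columns of length `a`, entries `e ω`.  `Flat`: every tuple of left kernel
vectors (`x_i ≠ 0`) and independent pairs of left kernel vectors is flat.  Then
`∑_{X flat} ∏_i |ker_{p_i}|² ≤ F^k ∏ (p_i + 3) |Ω|^{ak}`. -/

set_option linter.unusedSectionVars false

namespace Vale.Agent.P160.Half.Pairs

open Finset

variable {Ω ι : Type*} [Fintype Ω] [Fintype ι] [DecidableEq ι] {a k : ℕ}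

/-- pairing of a column with a vector modulo `p` -/
def pp (e : Ω → ℤ) {p : ℕ} (z : Fin a → Ω) (x : Fin a → ZMod p) : ZMod p :=
  ∑ i, (e (z i) : ZMod p) * x i

/-- `x` is orthogonal to all columns of `X` -/
def Ker (e : Ω → ℤ) {p : ℕ} (X : Fin k → Fin a → Ω) (x : Fin a → ZMod p) : Prop :=
  ∀ j, pp e (X j) x = 0

/-- types of pairs: `0` both zero, `1` first nonzero and second zero, `2` independent -/
def Typ {p : ℕ} (t : Fin 3) (w : (Fin a → ZMod p) × (Fin a → ZMod p)) : Prop :=
  if t = 0 then w = 0 else if t = 1 then w.1 ≠ 0 ∧ w.2 = 0 else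
    ∀ c d : ZMod p, c • w.1 + d • w.2 = 0 → c = 0 ∧ d = 0

theorem typ_zero {p : ℕ} (w : (Fin a → ZMod p) × (Fin a → ZMod p)) : Typ 0 w ↔ w = 0 := by simp [Typ]
theorem typ_one {p : ℕ} (w : (Fin a → ZMod p) × (Fin a → ZMod p)) :
    Typ 1 w ↔ w.1 ≠ 0 ∧ w.2 = 0 := by simp [Typ]
theorem typ_two {p : ℕ} (w : (Fin a → ZMod p) × (Fin a → ZMod p)) :
    Typ 2 w ↔ ∀ c d : ZMod p, c • w.1 + d • w.2 = 0 → c = 0 ∧ d = 0 := by simp [Typ]

/-- weight of a type -/
def wt (p : ℕ) (t : Fin 3) : ℕ := if t = 1 then p + 1 else 1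

theorem sum_wt (p : ℕ) : ∑ t : Fin 3, wt p t = p + 3 := by
  rw [Fin.sum_univ_three]
  simp [wt]
  ring

open Classical in
/-- all pairs by types -/
theorem sq_le {p : ℕ} [Fact p.Prime] (K : Finset (Fin a → ZMod p)) (h0 : (0 : Fin a → ZMod p) ∈ K) :
    K.card ^ 2 ≤ ∑ t : Fin 3, wt p t * ((K ×ˢ K).filter fun w => Typ t w).card := by
  rw [Fin.sum_univ_three]
  have e0 : wt p 0 = 1 := by simp [wt]
  have e1 : wt p 1 = p + 1 := by simp [wt]
  have e2 : wt p 2 = 1 := by simp [wt]
  rw [e0, e1, e2, one_mul, one_mul]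
  have hsub : K ×ˢ K ⊆ (((K ×ˢ K).filter fun w => Typ 0 w) ∪
      ((((K ×ˢ K).filter fun w => Typ 1 w) ×ˢ (univ : Finset (Option (ZMod p)))).image
        fun q => match q.2 with
          | some c => (q.1.1, c • q.1.1)
          | none => ((0 : Fin a → ZMod p), q.1.1))) ∪ ((K ×ˢ K).filter fun w => Typ 2 w) := by
    intro w hw
    rw [mem_union, mem_union]
    by_cases h2 : Typ 2 w
    · right; exact mem_filter.2 ⟨hw, h2⟩
    left
    by_cases hz : w = 0
    · left; exact mem_filter.2 ⟨hw, (typ_zero w).2 hz⟩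
    right
    rw [mem_product] at hw
    rw [mem_image]
    by_cases h1 : w.1 = 0
    · have h3 : w.2 ≠ 0 := by
        intro h4
        exact hz (Prod.ext h1 h4)
      refine ⟨((w.2, 0), none), ?_, ?_⟩
      · rw [mem_product]
        exact ⟨mem_filter.2 ⟨mem_product.2 ⟨hw.2, h0⟩, (typ_one _).2 ⟨h3, rfl⟩⟩, mem_univ _⟩
      · exact Prod.ext h1.symm rfl
    · rw [typ_two] at h2
      push Not at h2
      obtain ⟨c, d, hcd, hne⟩ := h2
      have hd : d ≠ 0 := by
        intro hd
        rw [hd, zero_smul, add_zero, smul_eq_zero] at hcd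
        rcases hcd with h | h
        · exact hne h hd
        · exact h1 h
      refine ⟨((w.1, 0), some (-(d⁻¹ * c))), ?_, ?_⟩
      · rw [mem_product]
        exact ⟨mem_filter.2 ⟨mem_product.2 ⟨hw.1, h0⟩, (typ_one _).2 ⟨h1, rfl⟩⟩, mem_univ _⟩
      · refine Prod.ext rfl ?_
        change -(d⁻¹ * c) • w.1 = w.2
        have h5 : d⁻¹ • (c • w.1 + d • w.2) = 0 := by rw [hcd, smul_zero]
        rw [smul_add, smul_smul, smul_smul, inv_mul_cancel₀ hd, one_smul] at h5
        rw [neg_smul]
        exact (eq_neg_of_add_eq_zero_right h5).symm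
  have h6 := card_le_card hsub
  rw [card_product] at h6
  have h7 := card_union_le (((K ×ˢ K).filter fun w => Typ 0 w) ∪
      ((((K ×ˢ K).filter fun w => Typ 1 w) ×ˢ (univ : Finset (Option (ZMod p)))).image
        fun q => match q.2 with
          | some c => (q.1.1, c • q.1.1)
          | none => ((0 : Fin a → ZMod p), q.1.1))) ((K ×ˢ K).filter fun w => Typ 2 w)
  have h8 := card_union_le ((K ×ˢ K).filter fun w => Typ 0 w)
      ((((K ×ˢ K).filter fun w => Typ 1 w) ×ˢ (univ : Finset (Option (ZMod p)))).image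
        fun q => match q.2 with
          | some c => (q.1.1, c • q.1.1)
          | none => ((0 : Fin a → ZMod p), q.1.1))
  have h9 := card_image_le (s := ((K ×ˢ K).filter fun w => Typ 1 w) ×ˢ (univ : Finset (Option (ZMod p))))
      (f := fun q => match q.2 with
          | some c => (q.1.1, c • q.1.1)
          | none => ((0 : Fin a → ZMod p), q.1.1))
  rw [card_product, card_univ, Fintype.card_option, ZMod.card] at h9
  rw [sq]
  calc K.card * K.card ≤ _ := h6
    _ ≤ _ := h7
    _ ≤ _ := Nat.add_le_add_right h8 _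
    _ ≤ _ := by
      have : (p + 1) * ((K ×ˢ K).filter fun w => Typ 1 w).card =
        ((K ×ˢ K).filter fun w => Typ 1 w).card * (p + 1) := mul_comm _ _
      rw [this]
      omega

open Classical in
/-- number of pairs of a given type -/
theorem card_typ_le {p : ℕ} [Fact p.Prime] (t : Fin 3) :
    ((univ : Finset ((Fin a → ZMod p) × (Fin a → ZMod p))).filter fun w => Typ t w).card ≤
      (p ^ (t : ℕ)) ^ a := by
  fin_cases t
  · have : ((univ : Finset ((Fin a → ZMod p) × (Fin a → ZMod p))).filter fun w => Typ 0 w) ⊆ {0} := by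
      intro w hw
      rw [mem_filter, typ_zero] at hw
      exact mem_singleton.2 hw.2
    have h := card_le_card this
    rw [card_singleton] at h
    simpa using h
  · have : ((univ : Finset ((Fin a → ZMod p) × (Fin a → ZMod p))).filter fun w => Typ 1 w) ⊆
        (univ : Finset (Fin a → ZMod p)).image fun x => (x, 0) := by
      intro w hw
      rw [mem_filter, typ_one] at hw
      exact mem_image.2 ⟨w.1, mem_univ _, Prod.ext rfl hw.2.2.symm⟩
    have h := (card_le_card this).trans card_image_le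
    rw [card_univ, Fintype.card_fun, ZMod.card, Fintype.card_fin] at h
    simpa using h
  · have h := card_le_univ ((univ : Finset ((Fin a → ZMod p) × (Fin a → ZMod p))).filter fun w => Typ 2 w)
    rw [Fintype.card_prod, Fintype.card_fun, ZMod.card, Fintype.card_fin] at h
    refine h.trans (le_of_eq ?_)
    change p ^ a * p ^ a = (p ^ 2) ^ a
    ring

open Classical in
/-- every tuple of kernel vectors / independent pairs of kernel vectors is flat -/
def Flat (e : Ω → ℤ) (p : ι → ℕ) (F : ℝ) (X : Fin k → Fin a → Ω) : Prop :=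
  ∀ (t : ι → Fin 3) (w : ∀ i, (Fin a → ZMod (p i)) × (Fin a → ZMod (p i))), (∀ i, Typ (t i) (w i)) →
    (∀ i, Ker e X (w i).1 ∧ Ker e X (w i).2) →
    (∏ i, (p i : ℝ) ^ (t i : ℕ)) *
      (((univ : Finset (Fin a → Ω)).filter fun z => ∀ i, pp e z (w i).1 = 0 ∧ pp e z (w i).2 = 0).card : ℝ) ≤
      F * (Fintype.card Ω : ℝ) ^ a

open Classical in
/-- **first moment of pairs** -/
theorem pairs_moment (e : Ω → ℤ) (p : ι → ℕ) [∀ i, Fact (p i).Prime] (F : ℝ) (hF : 0 ≤ F) (hak : a ≤ k) :
    ∑ X ∈ (univ : Finset (Fin k → Fin a → Ω)).filter (Flat e p F),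
      ∏ i, (((univ : Finset (Fin a → ZMod (p i))).filter fun x => Ker e X x).card : ℝ) ^ 2 ≤
    F ^ k * (∏ i, ((p i : ℝ) + 3)) * (Fintype.card Ω : ℝ) ^ (a * k) := by
  set T : ι → Finset (Fin 3) := fun _ => univ with hT
  -- the set of tuples of type `t`
  set V : (ι → Fin 3) → Finset (∀ i, (Fin a → ZMod (p i)) × (Fin a → ZMod (p i))) := fun t =>
    Fintype.piFinset fun i => (univ : Finset ((Fin a → ZMod (p i)) × (Fin a → ZMod (p i)))).filter
      fun w => Typ (t i) w with hV
  have hpt : ∀ X : Fin k → Fin a → Ω,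
      ∏ i, (((univ : Finset (Fin a → ZMod (p i))).filter fun x => Ker e X x).card : ℝ) ^ 2 ≤
      ∑ t : ι → Fin 3, (∏ i, (wt (p i) (t i) : ℝ)) *
        (((V t).filter fun w => ∀ i, Ker e X (w i).1 ∧ Ker e X (w i).2).card : ℝ) := by
    intro X
    set K : ∀ i, Finset (Fin a → ZMod (p i)) := fun i =>
      (univ : Finset (Fin a → ZMod (p i))).filter fun x => Ker e X x with hK
    have h1 : ∏ i, ((K i).card : ℝ) ^ 2 ≤ ∏ i, ∑ t : Fin 3, (wt (p i) t : ℝ) *
        ((((K i) ×ˢ (K i)).filter fun w => Typ t w).card : ℝ) := by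
      refine prod_le_prod (fun i _ => by positivity) fun i _ => ?_
      have h0 : (0 : Fin a → ZMod (p i)) ∈ K i := by
        rw [hK]
        refine mem_filter.2 ⟨mem_univ _, fun j => ?_⟩
        simp [pp]
      have := sq_le (K i) h0
      exact_mod_cast this
    refine h1.trans (le_of_eq ?_)
    rw [prod_univ_sum, Fintype.piFinset_univ]
    refine sum_congr rfl fun t _ => ?_
    rw [prod_mul_distrib]
    congr 1
    have h2 : ((V t).filter fun w => ∀ i, Ker e X (w i).1 ∧ Ker e X (w i).2) =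
        Fintype.piFinset fun i => ((K i) ×ˢ (K i)).filter fun w => Typ (t i) w := by
      ext w
      simp only [hV, hK, mem_filter, Fintype.mem_piFinset, mem_univ, true_and, mem_product]
      constructor
      · intro h i
        exact ⟨h.2 i, h.1 i⟩
      · intro h
        exact ⟨fun i => (h i).2, fun i => (h i).1⟩
    rw [h2, Fintype.card_piFinset]
    push_cast
    rfl
  -- number of tuples of type `t`
  have hVc : ∀ t, ((V t).card : ℝ) ≤ (∏ i, (p i : ℝ) ^ (t i : ℕ)) ^ a := by
    intro t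
    rw [hV]
    simp only
    rw [Fintype.card_piFinset, ← prod_pow]
    push_cast
    refine prod_le_prod (fun i _ => by positivity) fun i _ => ?_
    exact_mod_cast card_typ_le (a := a) (p := p i) (t i)
  have hg : ∀ t : ι → Fin 3, (1 : ℝ) ≤ ∏ i, (p i : ℝ) ^ (t i : ℕ) := by
    intro t
    have h1 : ∀ i, (1 : ℝ) ≤ (p i : ℝ) ^ (t i : ℕ) := fun i =>
      one_le_pow₀ (by exact_mod_cast (Fact.out : (p i).Prime).one_lt.le)
    calc (1 : ℝ) = ∏ _i : ι, (1 : ℝ) := by simp
      _ ≤ _ := prod_le_prod (fun _ _ => zero_le_one) fun i _ => h1 i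
  -- number of flat matrices orthogonal to a tuple
  have hX : ∀ t, ∀ w ∈ V t, ((((univ : Finset (Fin k → Fin a → Ω)).filter (Flat e p F)).filter
      fun X => ∀ i, Ker e X (w i).1 ∧ Ker e X (w i).2).card : ℝ) ≤
      (F * (Fintype.card Ω : ℝ) ^ a / ∏ i, (p i : ℝ) ^ (t i : ℕ)) ^ k := by
    intro t w hw
    have hgt := hg t
    have hpos : (0 : ℝ) < ∏ i, (p i : ℝ) ^ (t i : ℕ) := lt_of_lt_of_le one_pos hgt
    rcases (((univ : Finset (Fin k → Fin a → Ω)).filter (Flat e p F)).filter
      fun X => ∀ i, Ker e X (w i).1 ∧ Ker e X (w i).2).eq_empty_or_nonempty with h | ⟨X, hXm⟩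
    · rw [h]
      simp only [card_empty, Nat.cast_zero]
      positivity
    · rw [mem_filter, mem_filter] at hXm
      have hwt : ∀ i, Typ (t i) (w i) := by
        intro i
        rw [hV] at hw
        simp only [Fintype.mem_piFinset, mem_filter, mem_univ, true_and] at hw
        exact hw i
      have h1 := hXm.1.2 t w hwt hXm.2
      set Z := (univ : Finset (Fin a → Ω)).filter fun z => ∀ i, pp e z (w i).1 = 0 ∧ pp e z (w i).2 = 0 with hZ
      have h2 : (Z.card : ℝ) ≤ F * (Fintype.card Ω : ℝ) ^ a / ∏ i, (p i : ℝ) ^ (t i : ℕ) := by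
        rw [le_div_iff₀ hpos]
        rw [mul_comm]
        exact h1
      have h3 : (((univ : Finset (Fin k → Fin a → Ω)).filter (Flat e p F)).filter
          fun X => ∀ i, Ker e X (w i).1 ∧ Ker e X (w i).2) ⊆ Fintype.piFinset fun _ : Fin k => Z := by
        intro Y hY
        rw [mem_filter] at hY
        rw [Fintype.mem_piFinset]
        intro j
        rw [hZ, mem_filter]
        exact ⟨mem_univ _, fun i => ⟨(hY.2 i).1 j, (hY.2 i).2 j⟩⟩
      have h4 := card_le_card h3
      rw [Fintype.card_piFinset, prod_const, card_univ, Fintype.card_fin] at h4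
      calc ((((univ : Finset (Fin k → Fin a → Ω)).filter (Flat e p F)).filter
            fun X => ∀ i, Ker e X (w i).1 ∧ Ker e X (w i).2).card : ℝ) ≤ ((Z.card ^ k : ℕ) : ℝ) := by
            exact_mod_cast h4
        _ = (Z.card : ℝ) ^ k := by push_cast; rfl
        _ ≤ _ := pow_le_pow_left₀ (Nat.cast_nonneg _) h2 k
  calc ∑ X ∈ (univ : Finset (Fin k → Fin a → Ω)).filter (Flat e p F),
      ∏ i, (((univ : Finset (Fin a → ZMod (p i))).filter fun x => Ker e X x).card : ℝ) ^ 2
      ≤ ∑ X ∈ (univ : Finset (Fin k → Fin a → Ω)).filter (Flat e p F),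
        ∑ t : ι → Fin 3, (∏ i, (wt (p i) (t i) : ℝ)) *
          (((V t).filter fun w => ∀ i, Ker e X (w i).1 ∧ Ker e X (w i).2).card : ℝ) :=
        sum_le_sum fun X _ => hpt X
    _ = ∑ t : ι → Fin 3, (∏ i, (wt (p i) (t i) : ℝ)) *
        ∑ X ∈ (univ : Finset (Fin k → Fin a → Ω)).filter (Flat e p F),
          (((V t).filter fun w => ∀ i, Ker e X (w i).1 ∧ Ker e X (w i).2).card : ℝ) := by
        rw [sum_comm]
        exact sum_congr rfl fun t _ => (mul_sum _ _ _).symm
    _ = ∑ t : ι → Fin 3, (∏ i, (wt (p i) (t i) : ℝ)) *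
        ∑ w ∈ V t, ((((univ : Finset (Fin k → Fin a → Ω)).filter (Flat e p F)).filter
          fun X => ∀ i, Ker e X (w i).1 ∧ Ker e X (w i).2).card : ℝ) := by
        refine sum_congr rfl fun t _ => ?_
        congr 1
        simp only [card_filter, Nat.cast_sum, Nat.cast_ite, Nat.cast_one, Nat.cast_zero]
        rw [sum_comm]
    _ ≤ ∑ t : ι → Fin 3, (∏ i, (wt (p i) (t i) : ℝ)) * (F ^ k * (Fintype.card Ω : ℝ) ^ (a * k)) := by
        refine sum_le_sum fun t _ => mul_le_mul_of_nonneg_left ?_ (by positivity)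
        have hgt := hg t
        set g : ℝ := ∏ i, (p i : ℝ) ^ (t i : ℕ) with hgdef
        have hpos : (0 : ℝ) < g := lt_of_lt_of_le one_pos hgt
        calc ∑ w ∈ V t, ((((univ : Finset (Fin k → Fin a → Ω)).filter (Flat e p F)).filter
              fun X => ∀ i, Ker e X (w i).1 ∧ Ker e X (w i).2).card : ℝ)
            ≤ ∑ _w ∈ V t, (F * (Fintype.card Ω : ℝ) ^ a / g) ^ k := sum_le_sum fun w hw => hX t w hw
          _ = (V t).card * (F * (Fintype.card Ω : ℝ) ^ a / g) ^ k := by
              rw [sum_const, nsmul_eq_mul]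
          _ ≤ g ^ a * (F * (Fintype.card Ω : ℝ) ^ a / g) ^ k :=
              mul_le_mul_of_nonneg_right (hVc t) (by positivity)
          _ ≤ g ^ k * (F * (Fintype.card Ω : ℝ) ^ a / g) ^ k :=
              mul_le_mul_of_nonneg_right (pow_le_pow_right₀ hgt hak) (by positivity)
          _ = F ^ k * (Fintype.card Ω : ℝ) ^ (a * k) := by
              rw [← mul_pow, mul_div_cancel₀ _ hpos.ne', mul_pow, pow_mul]
    _ = F ^ k * (∏ i, ((p i : ℝ) + 3)) * (Fintype.card Ω : ℝ) ^ (a * k) := by
        rw [← sum_mul]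
        have h1 : ∑ t : ι → Fin 3, ∏ i, (wt (p i) (t i) : ℝ) = ∏ i, ((p i : ℝ) + 3) := by
          have h2 := (prod_univ_sum (fun _ : ι => (univ : Finset (Fin 3))) fun i t => (wt (p i) t : ℝ)).symm
          rw [Fintype.piFinset_univ] at h2
          rw [h2]
          refine prod_congr rfl fun i _ => ?_
          have := sum_wt (p i)
          exact_mod_cast this
        rw [h1]
        ring

end Vale.Agent.P160.Half.Pairs
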