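import Vale.Agent.P160.Half.Good439
import Vale.Agent.P160.Half.Pairs753

/-! P160-HALF, block (M): from the event form (Good439) to the flatness used by the pair count
(Pairs753). -/

namespace Vale.Agent.P160.Half.Link439

open Finset Vale.Agent.P160 Vale.Agent.P160.Half.Flat Vale.Agent.P160.Half.Good439

/-- every character of `ZMod p` is a shift of the standard one -/
lemma exists_shift {p : ℕ} [NeZero p] (ψ : AddChar (ZMod p) ℂ) :
    ∃ α : ZMod p, ∀ z, ψ z = ZMod.stdAddChar (α * z) := by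
  classical
  have hinj := AddChar.to_mulShift_inj_of_isPrimitive (ZMod.isPrimitive_stdAddChar p)
  have hb : Function.Bijective (fun α : ZMod p => (ZMod.stdAddChar (N := p)).mulShift α) := by
    rw [Fintype.bijective_iff_injective_and_card]
    exact ⟨hinj, (AddChar.card_eq).symm⟩
  obtain ⟨α, hα⟩ := hb.2 ψ
  refine ⟨α, fun z => ?_⟩
  rw [← hα]
  rfl

/-- every character of `(ZMod p)^2` -/
lemma exists_shift₂ {p : ℕ} [NeZero p] (χ : AddChar (Fin 2 → ZMod p) ℂ) :
    ∃ α : Fin 2 → ZMod p, ∀ z, χ z = ZMod.stdAddChar (α 0 * z 0 + α 1 * z 1) := by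
  classical
  have h : ∀ l : Fin 2, ∃ α : ZMod p, ∀ z, χ (Pi.single l z) = ZMod.stdAddChar (α * z) := by
    intro l
    obtain ⟨α, hα⟩ := exists_shift
      (χ.compAddMonoidHom (AddMonoidHom.single (fun _ : Fin 2 => ZMod p) l))
    exact ⟨α, fun z => hα z⟩
  choose α hα using h
  refine ⟨α, fun z => ?_⟩
  have h2 : z = Pi.single 0 (z 0) + Pi.single 1 (z 1) := by
    funext l
    fin_cases l <;> simp
  rw [AddChar.map_add_eq_mul, ← hα, ← hα, ← AddChar.map_add_eq_mul, ← h2]

lemma std_eq_one {p : ℕ} [NeZero p] (z : ZMod p) (h : ZMod.stdAddChar z = (1 : ℂ)) : z = 0 := by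
  have := ZMod.injective_stdAddChar (N := p)
  apply this
  rw [h, AddChar.map_zero_eq_one]

section main

variable {ι : Type} [Fintype ι] [DecidableEq ι] (p : ι → ℕ) [hp : ∀ i, Fact (p i).Prime]

/-- the embedding of the block `i` -/
def blk (S : Finset (ι × Fin 2)) (i : ι) :
    (Fin 2 → ZMod (p i)) →+ GS (fun s : ι × Fin 2 => p s.1) S where
  toFun z s := (Pi.single i z : ∀ i', Fin 2 → ZMod (p i')) s.1.1 s.1.2
  map_zero' := by
    funext s
    simp
  map_add' z z' := by
    funext s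
    rw [Pi.single_add]
    rfl

omit [Fintype ι] in
lemma blk_self (S : Finset (ι × Fin 2)) (i : ι) (z : Fin 2 → ZMod (p i)) (l : Fin 2)
    (h : (i, l) ∈ S) : blk p S i z ⟨(i, l), h⟩ = z l := by
  show (Pi.single i z : ∀ i', Fin 2 → ZMod (p i')) i l = z l
  rw [Pi.single_eq_same]

omit [Fintype ι] in
lemma blk_ne (S : Finset (ι × Fin 2)) (i : ι) (z : Fin 2 → ZMod (p i)) (s : {x // x ∈ S})
    (h : s.1.1 ≠ i) : blk p S i z s = 0 := by
  show (Pi.single i z : ∀ i', Fin 2 → ZMod (p i')) s.1.1 s.1.2 = 0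
  rw [Pi.single_eq_of_ne h]
  rfl

/-- product of the other primes -/
def oth (i : ι) : ℕ := ∏ i' ∈ univ.erase i, p i'

include hp in
lemma oth_unit (hinj : Function.Injective p) (i : ι) : IsUnit ((oth p i : ℕ) : ZMod (p i)) := by
  rw [ZMod.isUnit_iff_coprime]
  unfold oth
  rw [Nat.coprime_prod_left_iff]
  intro i' hi'
  rw [Nat.coprime_primes (hp i').out (hp i).out]
  intro h
  exact (mem_erase.1 hi').1 (hinj h)

/-- multiplication by the other primes keeps the block `i` only -/
lemma oth_smul (S : Finset (ι × Fin 2)) (i : ι)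
    (v : ∀ i', Fin 2 → ZMod (p i')) (g : GS (fun s : ι × Fin 2 => p s.1) S)
    (hg : ∀ s : {x // x ∈ S}, g s = v s.1.1 s.1.2) :
    (oth p i) • g = blk p S i ((oth p i) • v i) := by
  funext s
  by_cases h : s.1.1 = i
  · rcases s with ⟨⟨i', l⟩, hs⟩
    simp only at h
    subst h
    rw [blk_self, Pi.smul_apply, Pi.smul_apply, hg]
  · rw [blk_ne p S i _ s h, Pi.smul_apply, hg]
    have h1 : ((oth p i : ℕ) : ZMod (p s.1.1)) = 0 := by
      rw [ZMod.natCast_eq_zero_iff]
      exact dvd_prod_of_mem p (mem_erase.2 ⟨h, mem_univ _⟩)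
    rw [nsmul_eq_mul, h1, zero_mul]

/-- `gZ`-nonsparseness of the tuple -/
lemma nonSp (hinj : Function.Injective p) {a : ℕ} (e0 : ℝ) (t : ι → Fin 3)
    (w : ∀ i, (Fin a → ZMod (p i)) × (Fin a → ZMod (p i))) (ht : ∀ i, Pairs.Typ (t i) (w i))
    (hns : ∀ i (c d : ZMod (p i)), c • (w i).1 + d • (w i).2 ≠ 0 →
      e0 ≤ ((univ.filter fun x : Fin a => (c • (w i).1 + d • (w i).2) x ≠ 0).card : ℝ))
    (S : Finset (ι × Fin 2)) (hS : ∀ s : ι × Fin 2, s ∈ S → (s.2 : ℕ) < (t s.1 : ℕ))
    (g : Fin a → GS (fun s : ι × Fin 2 => p s.1) S)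
    (hg : ∀ x s, g x s = if s.1.2 = 0 then (w s.1.1).1 x else (w s.1.1).2 x) :
    NonSp e0 g := by
  classical
  intro ψ hψ
  -- a slot where ψ is nontrivial
  obtain ⟨s₀, z₀, hs₀⟩ : ∃ (s₀ : {x // x ∈ S}) (z₀ : ZMod (p s₀.1.1)),
      ψ (Pi.single s₀ z₀) ≠ 1 := by
    by_contra hcon
    push Not at hcon
    apply hψ
    ext v
    have : v = ∑ s, Pi.single s (v s) := (Finset.univ_sum_single v).symm
    rw [this, addChar_sum, AddChar.one_apply]
    exact prod_eq_one fun s _ => hcon s (v s)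
  obtain ⟨⟨i, l₀⟩, hm⟩ := s₀
  obtain ⟨α, hα⟩ := exists_shift₂ (ψ.compAddMonoidHom (blk p S i))
  have hα' : ∀ z, ψ (blk p S i z) = ZMod.stdAddChar (α 0 * z 0 + α 1 * z 1) := fun z => hα z
  -- nontriviality
  have hz : (Pi.single ⟨(i, l₀), hm⟩ z₀ : GS (fun s : ι × Fin 2 => p s.1) S) =
      blk p S i (Pi.single l₀ z₀) := by
    funext s
    by_cases h : s.1.1 = i
    · rcases s with ⟨⟨i', l⟩, hs⟩
      simp only at h
      subst h
      rw [blk_self]
      by_cases h2 : l = l₀
      · subst h2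
        rw [Pi.single_eq_same, Pi.single_eq_same]
      · rw [Pi.single_eq_of_ne h2, Pi.single_eq_of_ne]
        intro h3
        apply h2
        have h4 := congrArg (fun q : {x // x ∈ S} => q.1.2) h3
        exact h4
    · rw [blk_ne p S i _ s h, Pi.single_eq_of_ne]
      intro h3
      apply h
      rw [h3]
  have hne : α l₀ ≠ 0 := by
    intro h0
    apply hs₀
    rw [hz, hα']
    have : α 0 * (Pi.single l₀ z₀ : Fin 2 → ZMod (p i)) 0 +
        α 1 * (Pi.single l₀ z₀ : Fin 2 → ZMod (p i)) 1 = 0 := by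
      fin_cases l₀
      · have h0' : α 0 = 0 := h0
        simp [h0']
      · have h0' : α 1 = 0 := h0
        simp [h0']
    rw [this, AddChar.map_zero_eq_one]
  have hout : ∀ l : Fin 2, (i, l) ∉ S → α l = 0 := by
    intro l hl
    have h1 : blk p S i (Pi.single l 1) = 0 := by
      funext s
      by_cases h : s.1.1 = i
      · rcases s with ⟨⟨i', l'⟩, hs⟩
        simp only at h
        subst h
        rw [blk_self, Pi.single_eq_of_ne]
        · rfl
        · rintro rfl
          exact hl hs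
      · rw [blk_ne p S i _ s h]
        rfl
    have h2 := hα' (Pi.single l 1)
    rw [h1, AddChar.map_zero_eq_one] at h2
    have h3 := std_eq_one _ h2.symm
    fin_cases l
    · simpa using h3
    · simpa using h3
  -- the combination
  have hu : α 0 • (w i).1 + α 1 • (w i).2 ≠ 0 := by
    have hlt := hS _ hm
    simp only at hlt
    have hTyp := ht i
    have h3 : t i = 1 ∨ t i = 2 := by
      have h4 : (t i : ℕ) ≠ 0 := by omega
      have h5 := (t i).isLt
      have h6 : (t i : ℕ) = 1 ∨ (t i : ℕ) = 2 := by omega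
      rcases h6 with h | h
      · left; exact Fin.ext h
      · right; exact Fin.ext h
    rcases h3 with h3 | h3
    · rw [h3, Pairs.typ_one] at hTyp
      have h1 : α 1 = 0 := by
        refine hout 1 fun h => ?_
        have := hS _ h
        simp only [h3] at this
        exact absurd this (by decide)
      have hl : l₀ = 0 := by
        rw [h3] at hlt
        have : (l₀ : ℕ) < 1 := hlt
        exact Fin.ext (by omega)
      subst hl
      rw [h1, zero_smul, add_zero]
      exact smul_ne_zero hne hTyp.1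
    · rw [h3, Pairs.typ_two] at hTyp
      intro h0
      have := hTyp _ _ h0
      fin_cases l₀
      · exact hne this.1
      · exact hne this.2
  refine (hns i _ _ hu).trans (Nat.cast_le.2 (card_le_card fun x hx => ?_))
  simp only [mem_filter, mem_univ, true_and] at hx ⊢
  intro h1
  apply hx
  have h2 : ψ (oth p i • g x) = 1 := by rw [AddChar.map_nsmul_eq_pow, h1, one_pow]
  rw [oth_smul p S i (fun i' l => if l = 0 then (w i').1 x else (w i').2 x) (g x)
    (fun s => hg x s), hα'] at h2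
  have h3 := std_eq_one _ h2
  simp only [Pi.smul_apply, nsmul_eq_mul, if_true, one_ne_zero, if_false] at h3
  have h4 : ((oth p i : ℕ) : ZMod (p i)) * (α 0 * (w i).1 x + α 1 * (w i).2 x) = 0 := by
    rw [← h3]
    ring
  have h5 := (oth_unit p hinj i).mul_right_eq_zero.1 h4
  simpa using h5

lemma fin3 (t : Fin 3) : t = 0 ∨ t = 1 ∨ t = 2 := by
  fin_cases t
  · left; rfl
  · right; left; rfl
  · right; right; rfl

/-- the slots of a type -/
def slots (t : ι → Fin 3) : Finset (ι × Fin 2) := univ.filter fun s => (s.2 : ℕ) < (t s.1 : ℕ)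

omit [DecidableEq ι] hp in
lemma prod_slots (t : ι → Fin 3) : ∏ s ∈ slots t, p s.1 = ∏ i, p i ^ (t i : ℕ) := by
  unfold slots
  rw [prod_filter, Fintype.prod_prod_type]
  refine prod_congr rfl fun i _ => ?_
  rw [Fin.prod_univ_two]
  rcases fin3 (t i) with h | h | h
  · simp [h]
  · simp [h]
  · simp [h, pow_two]

/-- **LINK**: no sparse kernel vector and no nonflat nonsparse tuple implies `Pairs.Flat` -/
theorem flat_of {Om : Type} [Fintype Om] (e : Om → ℤ) (hD : DomL e) (hinj : Function.Injective p)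
    {a m : ℕ} (k : ℕ) (e0 : ℝ) (X : Fin m → Fin a → Om)
    (hns : ∀ i (x : Fin a → ZMod (p i)), x ≠ 0 → Pairs.Ker e X x →
      e0 ≤ ((univ.filter fun c : Fin a => x c ≠ 0).card : ℝ))
    (hB : ∀ (S : Finset (ι × Fin 2)) (w : Fin a → GS (fun s : ι × Fin 2 => p s.1) S),
      ¬ NF (fun s : ι × Fin 2 => p s.1) e k e0 X S w) :
    Pairs.Flat e p (1 + 1 / (k : ℝ)) X := by
  classical
  intro t w ht hK
  set g : Fin a → GS (fun s : ι × Fin 2 => p s.1) (slots t) := fun x s =>
    if s.1.2 = 0 then (w s.1.1).1 x else (w s.1.1).2 x with hg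
  have hker : ∀ z : Fin a → Om, (∀ i, Pairs.pp e z (w i).1 = 0 ∧ Pairs.pp e z (w i).2 = 0) →
      ∑ c, e (z c) • g c = 0 := by
    intro z hz
    funext s
    rw [Finset.sum_apply]
    have h := hz s.1.1
    simp only [Pi.smul_apply, zsmul_eq_mul, Pi.zero_apply, hg]
    by_cases h0 : s.1.2 = 0
    · simp only [h0, if_true]
      exact h.1
    · simp only [h0, if_false]
      exact h.2
  have hNS : NonSp e0 g := by
    refine nonSp p hinj e0 t w ht ?_ (slots t) (fun s hs => (mem_filter.1 hs).2) g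
      (fun x s => rfl)
    intro i c d hne
    refine hns i _ hne fun j => ?_
    have h1 := (hK i).1 j
    have h2 := (hK i).2 j
    unfold Pairs.pp at h1 h2 ⊢
    calc ∑ x, (e (X j x) : ZMod (p i)) * (c • (w i).1 + d • (w i).2) x
        = c * ∑ x, (e (X j x) : ZMod (p i)) * (w i).1 x +
          d * ∑ x, (e (X j x) : ZMod (p i)) * (w i).2 x := by
          rw [mul_sum, mul_sum, ← sum_add_distrib]
          refine sum_congr rfl fun x _ => ?_
          simp only [Pi.add_apply, Pi.smul_apply, smul_eq_mul]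
          ring
      _ = 0 := by rw [h1, h2, mul_zero, mul_zero, add_zero]
  have hlt : gZ 8 g < 1 + 1 / (k : ℝ) := by
    by_contra hcon
    push Not at hcon
    exact hB (slots t) g ⟨hNS, hcon, fun j' => hker (X j') fun i => ⟨(hK i).1 j', (hK i).2 j'⟩⟩
  have h1 := hD _ a g
  rw [card_GS] at h1
  have h2 : ((∏ s ∈ slots t, p s.1 : ℕ) : ℝ) = ∏ i, (p i : ℝ) ^ (t i : ℕ) := by
    rw [prod_slots]
    push_cast
    rfl
  rw [← h2]
  have h3 : ((univ.filter fun z : Fin a → Om =>
      ∀ i, Pairs.pp e z (w i).1 = 0 ∧ Pairs.pp e z (w i).2 = 0).card : ℝ) ≤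
      ((univ.filter fun z : Fin a → Om => ∑ c, e (z c) • g c = 0).card : ℝ) := by
    refine Nat.cast_le.2 (card_le_card fun z hz => ?_)
    rw [mem_filter] at hz ⊢
    exact ⟨hz.1, hker z hz.2⟩
  have h4 : (0 : ℝ) ≤ ((∏ s ∈ slots t, p s.1 : ℕ) : ℝ) := Nat.cast_nonneg _
  have h5 : (0 : ℝ) ≤ (Fintype.card Om : ℝ) ^ a := by positivity
  calc _ ≤ ((∏ s ∈ slots t, p s.1 : ℕ) : ℝ) *
        ((univ.filter fun z : Fin a → Om => ∑ c, e (z c) • g c = 0).card : ℝ) := by
        refine mul_le_mul_of_nonneg_left ?_ h4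
        convert h3
    _ ≤ (Fintype.card Om : ℝ) ^ a * gZ 8 g := by
        convert h1
    _ ≤ (Fintype.card Om : ℝ) ^ a * (1 + 1 / (k : ℝ)) := mul_le_mul_of_nonneg_left hlt.le h5
    _ = _ := mul_comm _ _

end main

end Vale.Agent.P160.Half.Link439
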