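import Vale.Agent.P160.Half.MinNorm628
import Vale.Agent.P160.Half.FlatI

/-! # P160/Half: links between `Pack502` (norms of characters) and `FlatI` (`gP`, `Lam`, `bohr`). -/

namespace Vale.Agent.P160.Half.Link628

open Finset Vale.Agent.P160 Vale.Agent.P160.Half Vale.Agent.P160.Half.MinNorm628
open Real

lemma norm_sub_one_eq {z : ℂ} (hz : ‖z‖ = 1) : ‖z - 1‖ = 2 * |Real.sin (π * ph z)| := by
  have h0 : (‖z - 1‖) ^ 2 = (2 * |Real.sin (π * ph z)|) ^ 2 := by
    have e := exp_ph hz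
    have h1 : z = Complex.exp (((2 * π * ph z : ℝ) : ℂ) * Complex.I) := by
      conv_lhs => rw [e]
      congr 1
      push_cast
      ring
    have hre : z.re = Real.cos (2 * π * ph z) := by
      conv_lhs => rw [h1]
      rw [Complex.exp_ofReal_mul_I_re]
    have h2 : ‖z - 1‖ ^ 2 = 2 - 2 * z.re := by
      rw [← Complex.normSq_eq_norm_sq]
      have h3 : Complex.normSq z = 1 := by rw [Complex.normSq_eq_norm_sq, hz, one_pow]
      rw [Complex.normSq_apply] at h3 ⊢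
      simp only [Complex.sub_re, Complex.sub_im, Complex.one_re, Complex.one_im, sub_zero]
      nlinarith
    rw [h2, hre, mul_pow, sq_abs]
    have h4 : Real.cos (2 * π * ph z) = 1 - 2 * Real.sin (π * ph z) ^ 2 := by
      rw [show 2 * π * ph z = 2 * (π * ph z) by ring, Real.cos_two_mul,
        Real.cos_sq']
      ring
    rw [h4]
    ring
  exact (pow_left_inj₀ (norm_nonneg _) (by positivity) (by norm_num)).1 h0

lemma norm_sub_one_le {z : ℂ} (hz : ‖z‖ = 1) : ‖z - 1‖ ≤ 2 * π * |ph z| := by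
  rw [norm_sub_one_eq hz]
  have h : |Real.sin (π * ph z)| ≤ |π * ph z| := Real.abs_sin_le_abs
  rw [abs_mul, abs_of_pos Real.pi_pos] at h
  linarith

lemma le_norm_sub_one {z : ℂ} (hz : ‖z‖ = 1) : 4 * |ph z| ≤ ‖z - 1‖ := by
  rw [norm_sub_one_eq hz]
  have hp := abs_ph_le z
  have h1 : |Real.sin (π * ph z)| = Real.sin (π * |ph z|) := by
    rcases le_total 0 (ph z) with h | h
    · rw [abs_of_nonneg h, abs_of_nonneg]
      rw [abs_of_nonneg h] at hp
      exact Real.sin_nonneg_of_nonneg_of_le_pi (by positivity) (by nlinarith [Real.pi_pos])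
    · rw [abs_of_nonpos h, mul_neg, Real.sin_neg, abs_of_nonpos]
      rw [abs_of_nonpos h] at hp
      exact Real.sin_nonpos_of_nonpos_of_neg_pi_le (by nlinarith [Real.pi_pos])
        (by nlinarith [Real.pi_pos])
  rw [h1]
  have h2 := Real.mul_le_sin (x := π * |ph z|) (by positivity) (by nlinarith [Real.pi_pos])
  have h3 : 2 / π * (π * |ph z|) = 2 * |ph z| := by field_simp
  linarith

variable {G : Type} [AddCommGroup G] [Fintype G]

/-- the Bohr-type norm -/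
lemma norm_le_nch {κ : Type*} (y : κ → G) (c : κ) (ψ : AddChar G ℂ) :
    ‖ψ (y c) - 1‖ ≤ 2 * π * nch y c (Additive.ofMul ψ) :=
  norm_sub_one_le (AddChar.norm_apply ψ (y c))

lemma nch_le_norm {κ : Type*} (y : κ → G) (c : κ) (ψ : AddChar G ℂ) :
    4 * nch y c (Additive.ofMul ψ) ≤ ‖ψ (y c) - 1‖ :=
  le_norm_sub_one (AddChar.norm_apply ψ (y c))

/-- few large coordinates -/
theorem card_big {A ι : Type*} [AddCommGroup A] [Fintype A] [DecidableEq A] [Fintype ι]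
    [DecidableEq ι] {n : ι → A → ℝ} {ρ r : ℝ} (hr : 0 < r) {e : ℕ} {s : A}
    (hs : Pack502.T n ρ e s) :
    ((univ.filter fun c => r < n c s).card : ℝ) ≤ e + ρ ^ 2 / r ^ 2 := by
  obtain ⟨B, hB, hsum⟩ := hs
  have h1 : (univ.filter fun c => r < n c s) ⊆ B ∪ (Bᶜ.filter fun c => r < n c s) := by
    intro c hc
    rw [mem_filter] at hc
    by_cases hcB : c ∈ B
    · exact mem_union_left _ hcB
    · exact mem_union_right _ (mem_filter.2 ⟨mem_compl.2 hcB, hc.2⟩)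
  have h2 : ((univ.filter fun c => r < n c s).card : ℝ) ≤
      B.card + (Bᶜ.filter fun c => r < n c s).card := by
    exact_mod_cast (card_le_card h1).trans (card_union_le _ _)
  have h3 : ((Bᶜ.filter fun c => r < n c s).card : ℝ) * r ^ 2 ≤ ρ ^ 2 := by
    calc ((Bᶜ.filter fun c => r < n c s).card : ℝ) * r ^ 2
        = ∑ _c ∈ Bᶜ.filter (fun c => r < n c s), r ^ 2 := by rw [sum_const, nsmul_eq_mul]
      _ ≤ ∑ c ∈ Bᶜ.filter (fun c => r < n c s), n c s ^ 2 := by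
          refine sum_le_sum fun c hc => ?_
          exact pow_le_pow_left₀ hr.le (mem_filter.1 hc).2.le 2
      _ ≤ ∑ c ∈ Bᶜ, n c s ^ 2 :=
          sum_le_sum_of_subset_of_nonneg (filter_subset _ _) fun _ _ _ => sq_nonneg _
      _ ≤ ρ ^ 2 := hsum
  have h4 : ((Bᶜ.filter fun c => r < n c s).card : ℝ) ≤ ρ ^ 2 / r ^ 2 := by
    rw [le_div_iff₀ (by positivity)]
    exact h3
  have h5 : (B.card : ℝ) ≤ e := by exact_mod_cast hB
  linarith

lemma norm_sub_one_sq {z : ℂ} (hz : ‖z‖ = 1) : ‖z - 1‖ ^ 2 = 2 - 2 * z.re := by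
  rw [← Complex.normSq_eq_norm_sq]
  have h3 : Complex.normSq z = 1 := by rw [Complex.normSq_eq_norm_sq, hz, one_pow]
  rw [Complex.normSq_apply] at h3 ⊢
  simp only [Complex.sub_re, Complex.sub_im, Complex.one_re, Complex.one_im, sub_zero]
  nlinarith

lemma cf_eq_sq {M : ℕ} {z : ℂ} (hz : ‖z‖ = 1) : cf M z = 1 - 1 / M * ‖z - 1‖ ^ 2 := by
  rw [cf, norm_sub_one_sq hz]
  ring

lemma cf_nonneg' {M : ℕ} (hM : 4 ≤ M) {z : ℂ} (hz : ‖z‖ = 1) : 0 ≤ cf M z := by
  rw [cf_eq_sq hz, norm_sub_one_sq hz]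
  have h1 : -1 ≤ z.re := by
    have := Complex.abs_re_le_norm z
    rw [hz, abs_le] at this
    exact this.1
  have hM' : (4 : ℝ) ≤ M := by exact_mod_cast hM
  have h2 : 1 / (M : ℝ) * (2 - 2 * z.re) ≤ 1 / (M : ℝ) * 4 := by gcongr; linarith
  have h3 : 1 / (M : ℝ) * 4 ≤ 1 := by
    rw [one_div_mul_eq_div, div_le_one (by linarith)]
    exact hM'
  linarith

lemma cf_le_exp {M : ℕ} {z : ℂ} (hz : ‖z‖ = 1) :
    cf M z ≤ Real.exp (-(16 / M * |ph z| ^ 2)) := by
  rw [cf_eq_sq hz]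
  have h1 := le_norm_sub_one hz
  have h2 : (4 * |ph z|) ^ 2 ≤ ‖z - 1‖ ^ 2 := pow_le_pow_left₀ (by positivity) h1 2
  have h3 : 1 / (M : ℝ) * (4 * |ph z|) ^ 2 ≤ 1 / (M : ℝ) * ‖z - 1‖ ^ 2 :=
    mul_le_mul_of_nonneg_left h2 (by positivity)
  have h4 := Real.add_one_le_exp (-(16 / (M : ℝ) * |ph z| ^ 2))
  have h5 : 1 / (M : ℝ) * (4 * |ph z|) ^ 2 = 16 / M * |ph z| ^ 2 := by ring
  linarith

/-- the characters with large product are short -/
theorem T_of_gP {m : ℕ} {M : ℕ} (hM : 4 ≤ M) (y : Fin m → G) (ψ : AddChar G ℂ) {t : ℝ}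
    (ht : 0 < t) (h : t ≤ Flat.gP M y ψ) :
    Pack502.T (nch y) (Real.sqrt (M / 16 * Real.log (1 / t))) 0 (Additive.ofMul ψ) := by
  have hM0 : (0 : ℝ) < M := by
    have : 0 < M := by omega
    exact_mod_cast this
  have h1 : Flat.gP M y ψ ≤ Real.exp (-(16 / M * ∑ c, nch y c (Additive.ofMul ψ) ^ 2)) := by
    rw [Finset.mul_sum, ← Finset.sum_neg_distrib, Real.exp_sum]
    refine Finset.prod_le_prod (fun c _ => cf_nonneg' hM (AddChar.norm_apply ψ _)) fun c _ => ?_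
    exact cf_le_exp (AddChar.norm_apply ψ _)
  have h2 := Real.log_le_log ht (h.trans h1)
  rw [Real.log_exp] at h2
  have h3 : ∑ c, nch y c (Additive.ofMul ψ) ^ 2 ≤ M / 16 * Real.log (1 / t) := by
    rw [one_div, Real.log_inv]
    have h4 : 16 / (M : ℝ) * ∑ c, nch y c (Additive.ofMul ψ) ^ 2 ≤ -Real.log t := by linarith
    have h5 : (M : ℝ) / 16 * (16 / (M : ℝ) * ∑ c, nch y c (Additive.ofMul ψ) ^ 2) ≤
        (M : ℝ) / 16 * (-Real.log t) := mul_le_mul_of_nonneg_left h4 (by positivity)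
    have h6 : (M : ℝ) / 16 * (16 / (M : ℝ) * ∑ c, nch y c (Additive.ofMul ψ) ^ 2) =
        ∑ c, nch y c (Additive.ofMul ψ) ^ 2 := by
      field_simp
    rwa [h6] at h5
  refine ⟨∅, by simp, ?_⟩
  rw [Finset.compl_empty, Real.sq_sqrt]
  · exact h3
  · exact (Finset.sum_nonneg fun c _ => sq_nonneg _).trans h3

end Vale.Agent.P160.Half.Link628
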