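import Mathlib

/-! # P160 / M10 (c): moments of `#ker_N` from the PROFILE bound and the RANKQ bound.

Abstract form: `Om` a finite probability space (uniform), `f` the rational corank, `e o i` the
excess of the corank modulo the prime `i` over the rational corank, `w i` = the prime (or a power
of it), `#ker_N = prod_i w i ^ (f + e i)`. -/

open Finset

namespace Vale.Agent.P160.Half.M10

lemma geo {x g : ℝ} (hx : 1 ≤ x) (hg0 : 0 ≤ g) (hg1 : g ≤ 1) {R : ℕ}
    (hR : (2 * x) ^ 2 * g ^ (R - 1) ≤ 1) (M : ℕ) :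
    ∑ E ∈ range M, x ^ E * g ^ (E * (E - 1) / 2) ≤ ((R : ℝ) + 3) * x ^ R := by
  have h1 : ∀ E ∈ range M, x ^ E * g ^ (E * (E - 1) / 2)
      ≤ (if E ∈ range (R + 1) then x ^ R else 0) + (1 / 2 : ℝ) ^ E := by
    intro E _
    by_cases hE : E ∈ range (R + 1)
    · rw [if_pos hE]
      have hE' : E ≤ R := Nat.lt_succ_iff.mp (mem_range.mp hE)
      have : x ^ E * g ^ (E * (E - 1) / 2) ≤ x ^ R * 1 := by
        apply mul_le_mul (pow_le_pow_right₀ hx hE') (pow_le_one₀ hg0 hg1)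
        · positivity
        · positivity
      have h2 : (0 : ℝ) ≤ (1 / 2 : ℝ) ^ E := by positivity
      linarith
    · rw [if_neg hE]
      have hE' : R + 1 ≤ E := by
        simpa [mem_range, not_lt] using hE
      have hev : 2 * (E * (E - 1) / 2) = E * (E - 1) :=
        Nat.mul_div_cancel' (Nat.even_mul_pred_self E).two_dvd
      have h3 : ((2 * x) ^ E * g ^ (E * (E - 1) / 2)) ^ 2 ≤ 1 := by
        have h4 : ((2 * x) ^ E * g ^ (E * (E - 1) / 2)) ^ 2
            = ((2 * x) ^ 2 * g ^ (E - 1)) ^ E := by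
          rw [mul_pow ((2 * x) ^ E), ← pow_mul (2 * x), ← pow_mul g,
            mul_comm (E * (E - 1) / 2) 2, hev, mul_pow ((2 * x) ^ 2), ← pow_mul (2 * x),
            ← pow_mul g, mul_comm E 2, mul_comm E (E - 1)]
        rw [h4]
        apply pow_le_one₀
        · positivity
        · calc (2 * x) ^ 2 * g ^ (E - 1) ≤ (2 * x) ^ 2 * g ^ (R - 1) := by
                apply mul_le_mul_of_nonneg_left _ (by positivity)
                exact pow_le_pow_of_le_one hg0 hg1 (by omega)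
            _ ≤ 1 := hR
      have h5 : (2 * x) ^ E * g ^ (E * (E - 1) / 2) ≤ 1 := by
        have h6 : 0 ≤ (2 * x) ^ E * g ^ (E * (E - 1) / 2) := by positivity
        nlinarith
      have h7 : x ^ E * g ^ (E * (E - 1) / 2)
          = (1 / 2 : ℝ) ^ E * ((2 * x) ^ E * g ^ (E * (E - 1) / 2)) := by
        rw [← mul_assoc, ← mul_pow]
        congr 2
        ring
      rw [h7, zero_add]
      calc (1 / 2 : ℝ) ^ E * ((2 * x) ^ E * g ^ (E * (E - 1) / 2)) ≤ (1 / 2 : ℝ) ^ E * 1 :=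
            mul_le_mul_of_nonneg_left h5 (by positivity)
        _ = _ := mul_one _
  have hgs : ∑ E ∈ range M, (1 / 2 : ℝ) ^ E ≤ 2 := by
    have h := Summable.sum_le_tsum (f := fun n : ℕ => (1 / 2 : ℝ) ^ n) (range M)
      (fun i _ => by positivity) summable_geometric_two
    rwa [tsum_geometric_two] at h
  have hxR : 1 ≤ x ^ R := one_le_pow₀ hx
  calc ∑ E ∈ range M, x ^ E * g ^ (E * (E - 1) / 2)
      ≤ ∑ E ∈ range M, ((if E ∈ range (R + 1) then x ^ R else 0) + (1 / 2 : ℝ) ^ E) :=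
        sum_le_sum h1
    _ = ∑ E ∈ range M, (if E ∈ range (R + 1) then x ^ R else 0)
        + ∑ E ∈ range M, (1 / 2 : ℝ) ^ E := sum_add_distrib
    _ ≤ ((R : ℝ) + 1) * x ^ R + 2 := by
        apply add_le_add _ hgs
        rw [← sum_filter, sum_const, nsmul_eq_mul]
        apply mul_le_mul_of_nonneg_right _ (by positivity)
        have : (((range M).filter fun E => E ∈ range (R + 1)).card) ≤ (range (R + 1)).card :=
          card_le_card fun a ha => (mem_filter.mp ha).2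
        rw [card_range] at this
        exact_mod_cast this
    _ ≤ ((R : ℝ) + 3) * x ^ R := by nlinarith

/-- Moments of the excess from the profile bound. -/
theorem excess_moment {Om ι : Type*} [Fintype Om] [Fintype ι] [DecidableEq ι]
    (e : Om → ι → ℕ) (w g : ι → ℝ) (K : ℝ) (hK : 1 ≤ K) (hw : ∀ i, 1 ≤ w i)
    (hg0 : ∀ i, 0 ≤ g i) (hg1 : ∀ i, g i ≤ 1) (R : ℕ)
    (hR : ∀ i, (2 * (w i * K)) ^ 2 * g i ^ (R - 1) ≤ 1)
    (prof : ∀ E : ι → ℕ, (((univ : Finset Om).filter fun o => ∀ i, E i ≤ e o i).card : ℝ)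
      ≤ (Fintype.card Om : ℝ) * ∏ i, (K ^ E i * g i ^ (E i * (E i - 1) / 2))) :
    ∑ o : Om, ∏ i, w i ^ e o i
      ≤ (Fintype.card Om : ℝ) * ∏ i, (((R : ℝ) + 3) * (w i * K) ^ R) := by
  classical
  obtain ⟨M, hM⟩ : ∃ M, ∀ o i, e o i < M := by
    refine ⟨(∑ o, ∑ i, e o i) + 1, fun o i => Nat.lt_succ_of_le ?_⟩
    calc e o i ≤ ∑ i, e o i := single_le_sum (f := fun i => e o i) (fun _ _ => Nat.zero_le _)
          (mem_univ i)
      _ ≤ ∑ o, ∑ i, e o i := single_le_sum (f := fun o => ∑ i, e o i)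
          (fun _ _ => Nat.zero_le _) (mem_univ o)
  set S : Finset (ι → ℕ) := Fintype.piFinset fun _ => range M with hS
  have h1 : ∀ o : Om, ∏ i, w i ^ e o i
      = ∑ E ∈ S, (if e o = E then ∏ i, w i ^ E i else 0) := by
    intro o
    rw [sum_ite_eq]
    have : e o ∈ S := by
      rw [hS, Fintype.mem_piFinset]
      intro i
      exact mem_range.mpr (hM o i)
    rw [if_pos this]
  have h2 : ∑ o : Om, ∏ i, w i ^ e o i
      = ∑ E ∈ S, (((univ : Finset Om).filter fun o => e o = E).card : ℝ) * ∏ i, w i ^ E i := by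
    rw [sum_congr rfl fun o _ => h1 o, sum_comm]
    refine sum_congr rfl fun E _ => ?_
    rw [← sum_filter, sum_const, nsmul_eq_mul]
  rw [h2]
  have hw0 : ∀ i, 0 ≤ w i := fun i => by linarith [hw i]
  have h3 : ∀ E ∈ S, (((univ : Finset Om).filter fun o => e o = E).card : ℝ) * ∏ i, w i ^ E i
      ≤ (Fintype.card Om : ℝ) * ∏ i, ((w i * K) ^ E i * g i ^ (E i * (E i - 1) / 2)) := by
    intro E _
    have h4 : (((univ : Finset Om).filter fun o => e o = E).card : ℝ)
        ≤ (Fintype.card Om : ℝ) * ∏ i, (K ^ E i * g i ^ (E i * (E i - 1) / 2)) := by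
      refine le_trans ?_ (prof E)
      have : ((univ : Finset Om).filter fun o => e o = E)
          ⊆ (univ : Finset Om).filter fun o => ∀ i, E i ≤ e o i := by
        intro o ho
        simp only [mem_filter, mem_univ, true_and] at ho ⊢
        intro i
        rw [← ho]
      exact_mod_cast card_le_card this
    calc (((univ : Finset Om).filter fun o => e o = E).card : ℝ) * ∏ i, w i ^ E i
        ≤ ((Fintype.card Om : ℝ) * ∏ i, (K ^ E i * g i ^ (E i * (E i - 1) / 2)))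
          * ∏ i, w i ^ E i :=
          mul_le_mul_of_nonneg_right h4 (prod_nonneg fun i _ => pow_nonneg (hw0 i) _)
      _ = _ := by
          rw [mul_assoc, ← prod_mul_distrib]
          congr 1
          refine prod_congr rfl fun i _ => ?_
          rw [mul_pow]
          ring
  refine le_trans (sum_le_sum h3) ?_
  rw [← mul_sum, hS]
  apply mul_le_mul_of_nonneg_left _ (by positivity)
  have h5 : ∑ E ∈ Fintype.piFinset (fun _ : ι => range M),
      ∏ i, ((w i * K) ^ E i * g i ^ (E i * (E i - 1) / 2))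
      = ∏ i, ∑ m ∈ range M, ((w i * K) ^ m * g i ^ (m * (m - 1) / 2)) :=
    (Finset.prod_univ_sum (fun _ : ι => range M)
      (fun i m => (w i * K) ^ m * g i ^ (m * (m - 1) / 2))).symm
  rw [h5]
  apply prod_le_prod
  · intro i _
    apply sum_nonneg
    intro m _
    have := hw0 i
    have := hg0 i
    positivity
  · intro i _
    exact geo (one_le_mul_of_one_le_of_one_le (hw i) hK) (hg0 i) (hg1 i) (hR i) M

/-- Moments of `N ^ corank_Q` from the rational rank deficiency bound. -/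
theorem rankq_moment {Om : Type*} [Fintype Om] (f : Om → ℕ) (k : ℕ) (N : ℝ) (hN : 1 ≤ N)
    (hNk : N ≤ 2 ^ ((k : ℝ) / 12)) (hk : 24 ≤ k) (hk2 : 2 * ((k : ℝ) + 1) ≤ 2 ^ ((k : ℝ) / 6))
    (rq : ∀ r, 1 ≤ r → (((univ : Finset Om).filter fun o => f o = r).card : ℝ)
      ≤ (Fintype.card Om : ℝ) * (((k : ℝ) + 1) * 2 ^ (2 * (k : ℝ) + 2 * r - r * k / 3))) :
    ∑ o : Om, N ^ f o ≤ (Fintype.card Om : ℝ) * (2 * N ^ 12) := by
  classical
  have hkr : (24 : ℝ) ≤ k := by exact_mod_cast hk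
  have hN12 : 1 ≤ N ^ 12 := one_le_pow₀ hN
  obtain ⟨M, hM⟩ : ∃ M, ∀ o, f o < M + 13 := by
    refine ⟨∑ o, f o, fun o => ?_⟩
    have := single_le_sum (f := f) (fun _ _ => Nat.zero_le _) (mem_univ o)
    omega
  have h1 : ∀ o : Om, N ^ f o ≤ (N ^ 12) + ∑ r ∈ range M,
      (if f o = r + 13 then N ^ (r + 13) else 0) := by
    intro o
    have hnn : 0 ≤ ∑ r ∈ range M, (if f o = r + 13 then N ^ (r + 13) else 0) :=
      sum_nonneg fun r _ => by split_ifs <;> positivity
    by_cases h : f o ≤ 12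
    · have := pow_le_pow_right₀ hN h
      linarith
    · have h' : f o - 13 ∈ range M := mem_range.mpr (by have := hM o; omega)
      have : N ^ f o ≤ ∑ r ∈ range M, (if f o = r + 13 then N ^ (r + 13) else 0) := by
        calc N ^ f o = (if f o = (f o - 13) + 13 then N ^ ((f o - 13) + 13) else 0) := by
              rw [if_pos (by omega)]
              congr 1
              omega
          _ ≤ _ := single_le_sum
              (f := fun r => (if f o = r + 13 then N ^ (r + 13) else 0))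
              (fun r _ => by split_ifs <;> positivity) h'
      linarith
  have h2 : ∑ o : Om, N ^ f o ≤ (Fintype.card Om : ℝ) * N ^ 12
      + ∑ r ∈ range M, (((univ : Finset Om).filter fun o => f o = r + 13).card : ℝ)
        * N ^ (r + 13) := by
    refine le_trans (sum_le_sum fun o _ => h1 o) (le_of_eq ?_)
    rw [sum_add_distrib, sum_const, card_univ, nsmul_eq_mul, sum_comm]
    congr 1
    refine sum_congr rfl fun r _ => ?_
    rw [← sum_filter, sum_const, nsmul_eq_mul]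
  have h3 : ∀ r ∈ range M, (((univ : Finset Om).filter fun o => f o = r + 13).card : ℝ)
        * N ^ (r + 13)
      ≤ (Fintype.card Om : ℝ) * (1 / 2 * (1 / 2 : ℝ) ^ r) := by
    intro r _
    have h4 := rq (r + 13) (by omega)
    have h5 : N ^ (r + 13) ≤ 2 ^ ((k : ℝ) / 12 * ((r : ℝ) + 13)) := by
      calc N ^ (r + 13) ≤ ((2 : ℝ) ^ ((k : ℝ) / 12)) ^ (r + 13) :=
            pow_le_pow_left₀ (by linarith) hNk _
        _ = _ := by
            rw [← Real.rpow_natCast, ← Real.rpow_mul (by norm_num)]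
            push_cast
            rfl
    have h6 : (((univ : Finset Om).filter fun o => f o = r + 13).card : ℝ) * N ^ (r + 13)
        ≤ ((Fintype.card Om : ℝ) * (((k : ℝ) + 1)
          * 2 ^ (2 * (k : ℝ) + 2 * ((r + 13 : ℕ) : ℝ) - ((r + 13 : ℕ) : ℝ) * k / 3)))
          * 2 ^ ((k : ℝ) / 12 * ((r : ℝ) + 13)) :=
      mul_le_mul h4 h5 (by positivity) (by positivity)
    refine le_trans h6 ?_
    rw [mul_assoc]
    apply mul_le_mul_of_nonneg_left _ (by positivity)
    rw [mul_assoc, ← Real.rpow_add (by norm_num)]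
    push_cast
    have h7 : 2 * (k : ℝ) + 2 * ((r : ℝ) + 13) - ((r : ℝ) + 13) * k / 3
        + (k : ℝ) / 12 * ((r : ℝ) + 13) ≤ -((k : ℝ) / 6) + (-(r : ℝ)) := by
      have hr : (0 : ℝ) ≤ r := Nat.cast_nonneg r
      nlinarith
    calc ((k : ℝ) + 1) * 2 ^ (2 * (k : ℝ) + 2 * ((r : ℝ) + 13) - ((r : ℝ) + 13) * k / 3
        + (k : ℝ) / 12 * ((r : ℝ) + 13))
        ≤ ((k : ℝ) + 1) * 2 ^ (-((k : ℝ) / 6) + (-(r : ℝ))) := by
          apply mul_le_mul_of_nonneg_left _ (by positivity)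
          exact Real.rpow_le_rpow_of_exponent_le (by norm_num) h7
      _ = (((k : ℝ) + 1) * (2 ^ ((k : ℝ) / 6))⁻¹) * (1 / 2 : ℝ) ^ r := by
          rw [Real.rpow_add (by norm_num), Real.rpow_neg (by norm_num),
            Real.rpow_neg (by norm_num), Real.rpow_natCast, ← inv_pow]
          norm_num
          ring
      _ ≤ 1 / 2 * (1 / 2 : ℝ) ^ r := by
          apply mul_le_mul_of_nonneg_right _ (by positivity)
          have hpos : (0 : ℝ) < 2 ^ ((k : ℝ) / 6) := by positivity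
          rw [mul_inv_le_iff₀ hpos]
          linarith
  have h8 : ∑ r ∈ range M, (1 / 2 * (1 / 2 : ℝ) ^ r) ≤ 1 := by
    rw [← mul_sum]
    have h := Summable.sum_le_tsum (f := fun n : ℕ => (1 / 2 : ℝ) ^ n) (range M)
      (fun i _ => by positivity) summable_geometric_two
    rw [tsum_geometric_two] at h
    linarith
  have hc : (0 : ℝ) ≤ Fintype.card Om := by positivity
  calc ∑ o : Om, N ^ f o ≤ (Fintype.card Om : ℝ) * N ^ 12
        + ∑ r ∈ range M, (Fintype.card Om : ℝ) * (1 / 2 * (1 / 2 : ℝ) ^ r) :=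
        le_trans h2 (add_le_add le_rfl (sum_le_sum h3))
    _ = (Fintype.card Om : ℝ) * (N ^ 12 + ∑ r ∈ range M, (1 / 2 * (1 / 2 : ℝ) ^ r)) := by
        rw [← mul_sum]
        ring
    _ ≤ (Fintype.card Om : ℝ) * (2 * N ^ 12) := by
        apply mul_le_mul_of_nonneg_left _ hc
        linarith

/-- Cauchy-Schwarz: moments of the whole kernel. `w i` = the prime, `m` the moment. -/
theorem ker_moment {Om ι : Type*} [Fintype Om] [Fintype ι] [DecidableEq ι]
    (f : Om → ℕ) (e : Om → ι → ℕ) (p : ι → ℝ) (g : ι → ℝ) (K : ℝ) (hK : 1 ≤ K) (m : ℕ)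
    (hp : ∀ i, 1 ≤ p i) (hg0 : ∀ i, 0 ≤ g i) (hg1 : ∀ i, g i ≤ 1) (R : ℕ)
    (hR : ∀ i, (2 * (p i ^ (2 * m) * K)) ^ 2 * g i ^ (R - 1) ≤ 1)
    (k : ℕ) (hk : 24 ≤ k) (hk2 : 2 * ((k : ℝ) + 1) ≤ 2 ^ ((k : ℝ) / 6))
    (hNk : (∏ i, p i) ^ (2 * m) ≤ 2 ^ ((k : ℝ) / 12))
    (prof : ∀ E : ι → ℕ, (((univ : Finset Om).filter fun o => ∀ i, E i ≤ e o i).card : ℝ)
      ≤ (Fintype.card Om : ℝ) * ∏ i, (K ^ E i * g i ^ (E i * (E i - 1) / 2)))
    (rq : ∀ r, 1 ≤ r → (((univ : Finset Om).filter fun o => f o = r).card : ℝ)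
      ≤ (Fintype.card Om : ℝ) * (((k : ℝ) + 1) * 2 ^ (2 * (k : ℝ) + 2 * r - r * k / 3))) :
    ∑ o : Om, (∏ i, p i ^ (f o + e o i)) ^ m
      ≤ (Fintype.card Om : ℝ) * (2 * (∏ i, p i) ^ (24 * m)
        * ∏ i, (((R : ℝ) + 3) * (p i ^ (2 * m) * K) ^ R)) := by
  classical
  set N : ℝ := ∏ i, p i with hNdef
  have hp0 : ∀ i, 0 ≤ p i := fun i => by linarith [hp i]
  have hN1 : 1 ≤ N := by
    rw [hNdef]
    calc (1 : ℝ) = ∏ _i : ι, (1 : ℝ) := by simp
      _ ≤ ∏ i, p i := prod_le_prod (fun _ _ => zero_le_one) fun i _ => hp i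
  have hNm : 1 ≤ N ^ (2 * m) := one_le_pow₀ hN1
  have hE := excess_moment e (fun i => p i ^ (2 * m)) g K hK (fun i => one_le_pow₀ (hp i))
    hg0 hg1 R hR prof
  have hF := rankq_moment f k (N ^ (2 * m)) hNm hNk hk hk2 rq
  set A := ∏ i, (((R : ℝ) + 3) * (p i ^ (2 * m) * K) ^ R) with hA
  have hA1 : 1 ≤ A := by
    rw [hA]
    refine le_trans (le_of_eq (by simp : (1 : ℝ) = ∏ _i : ι, (1 : ℝ)))
      (prod_le_prod (fun _ _ => zero_le_one) fun i _ => ?_)
    have h1 : 1 ≤ (p i ^ (2 * m) * K) ^ R :=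
      one_le_pow₀ (one_le_mul_of_one_le_of_one_le (one_le_pow₀ (hp i)) hK)
    have h2 : (1 : ℝ) ≤ (R : ℝ) + 3 := by
      have : (0 : ℝ) ≤ R := Nat.cast_nonneg R
      linarith
    exact one_le_mul_of_one_le_of_one_le h2 h1
  have hsplit : ∀ o : Om, (∏ i, p i ^ (f o + e o i)) ^ m
      = (N ^ (m * f o)) * (∏ i, p i ^ (m * e o i)) := by
    intro o
    have : ∏ i, p i ^ (f o + e o i) = N ^ f o * ∏ i, p i ^ e o i := by
      rw [hNdef, ← prod_pow, ← prod_mul_distrib]
      exact prod_congr rfl fun i _ => pow_add _ _ _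
    have h2 : (∏ i, p i ^ e o i) ^ m = ∏ i, p i ^ (m * e o i) := by
      rw [← Finset.prod_pow]
      refine prod_congr rfl fun i _ => ?_
      rw [← pow_mul, mul_comm]
    rw [this, mul_pow, ← pow_mul, mul_comm (f o) m, h2]
  have hCS := Finset.sum_mul_sq_le_sq_mul_sq (univ : Finset Om)
    (fun o => N ^ (m * f o)) (fun o => ∏ i, p i ^ (m * e o i))
  have h1 : ∑ o : Om, (N ^ (m * f o)) ^ 2 ≤ (Fintype.card Om : ℝ) * (2 * (N ^ (2 * m)) ^ 12) := by
    refine le_trans (le_of_eq ?_) hF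
    refine sum_congr rfl fun o _ => ?_
    rw [← pow_mul, ← pow_mul]
    congr 1
    ring
  have h2 : ∑ o : Om, (∏ i, p i ^ (m * e o i)) ^ 2 ≤ (Fintype.card Om : ℝ) * A := by
    refine le_trans (le_of_eq ?_) hE
    refine sum_congr rfl fun o _ => ?_
    rw [← prod_pow]
    refine prod_congr rfl fun i _ => ?_
    rw [← pow_mul, ← pow_mul]
    congr 1
    ring
  set X := ∑ o : Om, (∏ i, p i ^ (f o + e o i)) ^ m with hX
  have hX2 : X = ∑ o : Om, (N ^ (m * f o)) * (∏ i, p i ^ (m * e o i)) :=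
    sum_congr rfl fun o _ => hsplit o
  have hX0 : 0 ≤ X := by
    rw [hX]
    exact sum_nonneg fun o _ => pow_nonneg (prod_nonneg fun i _ => pow_nonneg (hp0 i) _) _
  have hc : (0 : ℝ) ≤ Fintype.card Om := by positivity
  have hXsq : X ^ 2 ≤ ((Fintype.card Om : ℝ) * (2 * (N ^ (2 * m)) ^ 12))
      * ((Fintype.card Om : ℝ) * A) := by
    rw [hX2]
    refine le_trans hCS ?_
    apply mul_le_mul h1 h2
    · exact sum_nonneg fun o _ => sq_nonneg _
    · positivity
  have hB : (N ^ (2 * m)) ^ 12 = N ^ (24 * m) := by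
    rw [← pow_mul]
    congr 1
    ring
  rw [hB] at hXsq
  have hN24 : 1 ≤ N ^ (24 * m) := one_le_pow₀ hN1
  have hB1 : 1 ≤ 2 * N ^ (24 * m) * A := by nlinarith
  have hfin : X ^ 2 ≤ ((Fintype.card Om : ℝ) * (2 * N ^ (24 * m) * A)) ^ 2 := by
    calc X ^ 2 ≤ (Fintype.card Om : ℝ) ^ 2 * (2 * N ^ (24 * m) * A) := by
          refine le_trans hXsq (le_of_eq ?_)
          ring
      _ ≤ (Fintype.card Om : ℝ) ^ 2 * (2 * N ^ (24 * m) * A) ^ 2 := by
          apply mul_le_mul_of_nonneg_left _ (by positivity)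
          nlinarith
      _ = _ := by ring
  exact le_of_sq_le_sq hfin (by positivity) |> fun h => h

end Vale.Agent.P160.Half.M10
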