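import Vale.Agent.P160.Half.M67Stmt

/-! # P160, half rate, (M): sharper forms of `StmtNice` and `StmtTop` (variant B, `β` up to `1/8`) -/

namespace Vale.Agent.P160.Half.M67

open Finset Vale.Agent.P160 Vale.Agent.P160.Half Vale.Agent.P160.Half.Flat

open scoped Classical in
/-- (7') NICE, law 505: `E[W; not Sparse, not Bad] ≤ 3 e^3 N` if all primes are `≥ k` and `N ≤ 2^k`.  Same proof as `StmtNice`, with
`#subgroups of (ℤ/N)² ≤ N e^3` (helper416, `SubG416.card_le_exp`). -/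
def StmtNice' : Prop := ∀ (k : ℕ), 0 < k → ∀ (P : Finset ℕ), (∀ p ∈ P, p.Prime) → (∀ p ∈ P, k ≤ p) →
  (∏ p ∈ P, (p : ℝ)) ≤ (2 : ℝ) ^ k → ∀ s : ℝ,
  ∑ ω ∈ (univ : Finset (Fin k → Fin k → Fin (8 * k))).filter
      (fun ω => ¬ Sparse P s (mt (stL (2 * k - 1)) ω) ∧ ¬ Bad P s (mt (stL (2 * k - 1)) ω)),
      W P (mt (stL (2 * k - 1)) ω) ≤
    3 * Real.exp 3 * (∏ p ∈ P, (p : ℝ)) * ((8 * k : ℕ) : ℝ) ^ (k * k)

/-- (10') TOP (`top' : StmtHold β → StmtLaw → StmtNice' → StmtSparse → StmtCRT → StmtFlat → StmtTop' β`), `c < 1 - 3β`. -/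
def StmtTop' (β : ℝ) : Prop := ∀ b₁ c B : ℝ, 1 ≤ b₁ → b₁ ≤ B → c < 1 - 3 * β → M8.StmtXi b₁ β c B

end Vale.Agent.P160.Half.M67
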