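import Mathlib

/-! P160, (M): number of subgroups of `(Z/N)^2` -/

namespace Vale.Agent.P160.Half.Sub539

open Finset

/-- every submodule of `(Z/N)^2` is `span {(a,b),(0,d)}` -/
lemma exists_span (N : ℕ) (H : Submodule (ZMod N) (ZMod N × ZMod N)) :
    ∃ a b d : ZMod N, H = Submodule.span (ZMod N) {(a, b), (0, d)} := by
  have hP : IsPrincipalIdealRing (ZMod N) :=
    IsPrincipalIdealRing.of_surjective (Int.castRingHom (ZMod N)) (ZMod.ringHom_surjective _)
  have hp1 : (H.map (LinearMap.fst (ZMod N) (ZMod N) (ZMod N))).IsPrincipal := hP.principal _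
  have hp2 : (H.comap (LinearMap.inr (ZMod N) (ZMod N) (ZMod N))).IsPrincipal := hP.principal _
  obtain ⟨a, ha⟩ := hp1.principal
  obtain ⟨d, hd⟩ := hp2.principal
  have ha' : a ∈ H.map (LinearMap.fst (ZMod N) (ZMod N) (ZMod N)) := by
    rw [ha]; exact Submodule.mem_span_singleton_self a
  obtain ⟨⟨a', b⟩, hab, rfl⟩ := Submodule.mem_map.1 ha'
  have hd' : d ∈ H.comap (LinearMap.inr (ZMod N) (ZMod N) (ZMod N)) := by
    rw [hd]; exact Submodule.mem_span_singleton_self d
  have hd'' : ((0 : ZMod N), d) ∈ H := by simpa using hd'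
  refine ⟨a', b, d, le_antisymm ?_ ?_⟩
  · rintro ⟨x, y⟩ hxy
    have hx : x ∈ H.map (LinearMap.fst (ZMod N) (ZMod N) (ZMod N)) := ⟨(x, y), hxy, rfl⟩
    rw [ha] at hx
    obtain ⟨c, hc⟩ := Submodule.mem_span_singleton.1 hx
    have hc' : c * a' = x := by simpa using hc
    have h1 : ((0 : ZMod N), y - c * b) ∈ H := by
      have := H.sub_mem hxy (H.smul_mem c hab)
      simpa [hc'] using this
    have h2 : y - c * b ∈ H.comap (LinearMap.inr (ZMod N) (ZMod N) (ZMod N)) := by simpa using h1
    rw [hd] at h2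
    obtain ⟨e, he⟩ := Submodule.mem_span_singleton.1 h2
    have he' : e * d = y - c * b := by simpa using he
    rw [Submodule.mem_span_pair]
    refine ⟨c, e, ?_⟩
    ext
    · simp [hc']
    · simp [he']
  · rw [Submodule.span_le]
    rintro z hz
    rcases hz with rfl | hz
    · exact hab
    · rw [Set.mem_singleton_iff] at hz
      rw [hz]; exact hd''

theorem card_submodule (N : ℕ) [NeZero N] :
    Nat.card (Submodule (ZMod N) (ZMod N × ZMod N)) ≤ N ^ 3 := by
  classical
  choose a b d h using exists_span N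
  have hinj : Function.Injective fun H : Submodule (ZMod N) (ZMod N × ZMod N) => (a H, b H, d H) := by
    intro H H' hH
    simp only [Prod.mk.injEq] at hH
    rw [h H, h H', hH.1, hH.2.1, hH.2.2]
  calc Nat.card (Submodule (ZMod N) (ZMod N × ZMod N)) ≤ Nat.card (ZMod N × ZMod N × ZMod N) :=
        Nat.card_le_card_of_injective _ hinj
    _ = N ^ 3 := by
        rw [Nat.card_prod, Nat.card_prod, Nat.card_zmod]; ring

theorem card_addSubgroup (N : ℕ) [NeZero N] :
    Nat.card (AddSubgroup (ZMod N × ZMod N)) ≤ N ^ 3 := by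
  have h : Nat.card (AddSubgroup (ZMod N × ZMod N)) =
      Nat.card (Submodule (ZMod N) (ZMod N × ZMod N)) :=
    Nat.card_congr (AddSubgroup.toZModSubmodule N).toEquiv
  rw [h]
  exact card_submodule N

theorem card_addSubgroup_fin (N : ℕ) [NeZero N] :
    Nat.card (AddSubgroup (Fin 2 → ZMod N)) ≤ N ^ 3 := by
  let e : (Fin 2 → ZMod N) ≃+ (ZMod N × ZMod N) :=
    { toFun := fun v => (v 0, v 1)
      invFun := fun z => ![z.1, z.2]
      left_inv := fun v => by ext i; fin_cases i <;> rfl
      right_inv := fun z => rfl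
      map_add' := fun v w => rfl }
  have h : Nat.card (AddSubgroup (Fin 2 → ZMod N)) = Nat.card (AddSubgroup (ZMod N × ZMod N)) :=
    Nat.card_congr (e.mapAddSubgroup).toEquiv
  rw [h]
  exact card_addSubgroup N

theorem card_addSubgroup_equiv {G : Type*} [AddCommGroup G] (N : ℕ) [NeZero N]
    (e : G ≃+ (ZMod N × ZMod N)) : Nat.card (AddSubgroup G) ≤ N ^ 3 := by
  rw [Nat.card_congr (e.mapAddSubgroup).toEquiv]
  exact card_addSubgroup N

end Vale.Agent.P160.Half.Sub539
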