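import Vale.Agent.P160.Half.M67Stmt
import Vale.Agent.P160.Half.Sub539

namespace Vale.Agent.P160.Half.M67Sub539

theorem subgroups : M67.StmtSubgroups := fun N _ => Sub539.card_addSubgroup N

end Vale.Agent.P160.Half.M67Sub539
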