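import Vale.Agent.P160.Half.M67Stmt

/-! # P160, half rate, (M): the assembly of `StmtXi` from the Props of `M67Stmt.lean` -/

namespace Vale.Agent.P160.Half.M67

open Finset Vale.Agent.P160 Vale.Agent.P160.Half Vale.Agent.P160.Half.Flat

lemma W_nonneg (P : Finset ℕ) {k m : ℕ} (M : Matrix (Fin k) (Fin m) ℤ) : 0 ≤ W P M :=
  prod_nonneg fun p _ => by positivity

/-- transposed array -/
lemma W_swap (P : Finset ℕ) (hP : ∀ p ∈ P, p.Prime) {Ω : Type} (e : Ω → ℤ) {k : ℕ}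
    (ω : Fin k → Fin k → Ω) : W P (mt e (fun i j => ω j i)) = W P (mt e ω) := by
  unfold W
  refine prod_congr rfl fun p hp => ?_
  have : Fact p.Prime := ⟨hP p hp⟩
  have h1 : rkp p (mt e (fun i j => ω j i)) = rkp p (mt e ω) := by
    unfold rkp
    have h2 : (mt e (fun i j => ω j i)).map (Int.cast : ℤ → ZMod p) =
        ((mt e ω).map (Int.cast : ℤ → ZMod p)).transpose := by
      ext i j; rfl
    rw [h2, Matrix.rank_transpose]
  rw [h1]

lemma card_seeds (k : ℕ) : (Fintype.card (Fin k → Fin k → Fin (8 * k)) : ℝ) =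
    ((8 * k : ℕ) : ℝ) ^ (k * k) := by
  rw [Fintype.card_fun, Fintype.card_fun, Fintype.card_fin, Fintype.card_fin, ← pow_mul]
  push_cast
  ring

/-- numbers -/
lemma top_num {β c η κ : ℝ} {k : ℕ} {N θ T EW SS BB NN : ℝ}
    (hβ0 : 0 < β) (hβ1 : β ≤ 1 / 8) (hη0 : 0 < η) (hη1 : η ≤ 1 / 8)
    (h1 : c + κ ≤ 1 - 5 * β - η) (hk : 5 ≤ κ * k) (hk2 : 2 ≤ k)
    (hN0 : 1 ≤ N) (hN : N ≤ (2 : ℝ) ^ (β * k)) (hT : 0 ≤ T)
    (hθ : θ = (2 : ℝ) ^ (-(1 - 2 * β - η) * k))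
    (hE : EW ≤ SS + BB + NN) (hSS : SS ≤ θ * EW) (hEW : 0 ≤ EW)
    (hBB : BB ≤ Real.exp (k / 2) * T * (2 : ℝ) ^ (-(2 : ℝ) * k))
    (hNN : NN ≤ 3 * N ^ 3 * T) :
    2 * (SS + BB) ≤ (2 : ℝ) ^ (-(c * k)) * T := by
  have hk0 : (2 : ℝ) ≤ k := by exact_mod_cast hk2
  have hθ0 : 0 < θ := by rw [hθ]; positivity
  have hθ1 : θ ≤ 1 / 2 := by
    rw [hθ]
    calc (2 : ℝ) ^ (-(1 - 2 * β - η) * k) ≤ (2 : ℝ) ^ (-(1 : ℝ)) := by
          apply Real.rpow_le_rpow_of_exponent_le (by norm_num)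
          nlinarith
      _ = 1 / 2 := by rw [Real.rpow_neg_one]; norm_num
  have hexp : Real.exp (k / 2) ≤ (2 : ℝ) ^ (k : ℝ) := by
    rw [Real.rpow_def_of_pos (by norm_num)]
    apply Real.exp_le_exp.2
    have := Real.log_two_gt_d9
    nlinarith
  have hb : Real.exp (k / 2) * (2 : ℝ) ^ (-(2 : ℝ) * k) ≤ (2 : ℝ) ^ (-(k : ℝ)) := by
    calc Real.exp (k / 2) * (2 : ℝ) ^ (-(2 : ℝ) * k) ≤ (2 : ℝ) ^ (k : ℝ) * (2 : ℝ) ^ (-(2 : ℝ) * k) :=
          mul_le_mul_of_nonneg_right hexp (by positivity)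
      _ = (2 : ℝ) ^ (-(k : ℝ)) := by
          rw [← Real.rpow_add (by norm_num)]; congr 1; ring
  have hb1 : (2 : ℝ) ^ (-(k : ℝ)) ≤ 1 := by
    apply Real.rpow_le_one_of_one_le_of_nonpos (by norm_num)
    linarith
  have hBB' : BB ≤ (2 : ℝ) ^ (-(k : ℝ)) * T := by
    calc BB ≤ Real.exp (k / 2) * T * (2 : ℝ) ^ (-(2 : ℝ) * k) := hBB
      _ = (Real.exp (k / 2) * (2 : ℝ) ^ (-(2 : ℝ) * k)) * T := by ring
      _ ≤ _ := mul_le_mul_of_nonneg_right hb hT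
  have hEW2 : EW ≤ 8 * N ^ 3 * T := by
    have hN3 : (1 : ℝ) ≤ N ^ 3 := one_le_pow₀ hN0
    have h3 : BB ≤ N ^ 3 * T := by
      refine hBB'.trans (mul_le_mul_of_nonneg_right (hb1.trans hN3) hT)
    have h4 : θ * EW ≤ 1 / 2 * EW := mul_le_mul_of_nonneg_right hθ1 hEW
    nlinarith
  have hN3 : N ^ 3 ≤ (2 : ℝ) ^ (3 * β * k) := by
    calc N ^ 3 ≤ ((2 : ℝ) ^ (β * k)) ^ 3 := pow_le_pow_left₀ (by linarith) hN 3
      _ = (2 : ℝ) ^ (3 * β * k) := by
          rw [← Real.rpow_natCast, ← Real.rpow_mul (by norm_num)]; congr 1; push_cast; ring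
  have hSS' : SS ≤ 8 * (2 : ℝ) ^ (-(1 - 5 * β - η) * k) * T := by
    calc SS ≤ θ * EW := hSS
      _ ≤ θ * (8 * N ^ 3 * T) := mul_le_mul_of_nonneg_left hEW2 hθ0.le
      _ ≤ θ * (8 * (2 : ℝ) ^ (3 * β * k) * T) := by
          apply mul_le_mul_of_nonneg_left _ hθ0.le
          apply mul_le_mul_of_nonneg_right _ hT
          linarith
      _ = 8 * ((2 : ℝ) ^ (-(1 - 2 * β - η) * k) * (2 : ℝ) ^ (3 * β * k)) * T := by rw [hθ]; ring
      _ = _ := by
          rw [← Real.rpow_add (by norm_num)]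
          congr 3
          ring
  have hk0' : (0 : ℝ) ≤ k := by linarith
  have h5 : (2 : ℝ) ^ (-(1 - 5 * β - η) * k) ≤ (2 : ℝ) ^ (-(c * k)) * (2 : ℝ) ^ (-(κ * k)) := by
    rw [← Real.rpow_add (by norm_num)]
    apply Real.rpow_le_rpow_of_exponent_le (by norm_num)
    nlinarith
  have h6 : (2 : ℝ) ^ (-(k : ℝ)) ≤ (2 : ℝ) ^ (-(c * k)) * (2 : ℝ) ^ (-(κ * k)) := by
    rw [← Real.rpow_add (by norm_num)]
    apply Real.rpow_le_rpow_of_exponent_le (by norm_num)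
    nlinarith
  have h7 : (2 : ℝ) ^ (-(κ * k)) ≤ 1 / 32 := by
    calc (2 : ℝ) ^ (-(κ * k)) ≤ (2 : ℝ) ^ (-(5 : ℝ)) := by
          apply Real.rpow_le_rpow_of_exponent_le (by norm_num)
          linarith
      _ = 1 / 32 := by
          rw [Real.rpow_neg (by norm_num)]
          norm_num
  have hc0 : 0 < (2 : ℝ) ^ (-(c * k)) := by positivity
  calc 2 * (SS + BB) ≤ 2 * (8 * (2 : ℝ) ^ (-(1 - 5 * β - η) * k) * T + (2 : ℝ) ^ (-(k : ℝ)) * T) := by
        linarith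
    _ = (16 * (2 : ℝ) ^ (-(1 - 5 * β - η) * k) + 2 * (2 : ℝ) ^ (-(k : ℝ))) * T := by ring
    _ ≤ (18 * ((2 : ℝ) ^ (-(c * k)) * (2 : ℝ) ^ (-(κ * k)))) * T := by
        apply mul_le_mul_of_nonneg_right _ hT
        linarith
    _ ≤ (18 * ((2 : ℝ) ^ (-(c * k)) * (1 / 32))) * T := by
        apply mul_le_mul_of_nonneg_right _ hT
        have := mul_le_mul_of_nonneg_left h7 hc0.le
        linarith
    _ ≤ (2 : ℝ) ^ (-(c * k)) * T := by
        apply mul_le_mul_of_nonneg_right _ hT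
        linarith

open scoped Classical in
/-- (10) TOP -/
theorem top {β : ℝ} (hβ0 : 0 < β) (hβ1 : β ≤ 1 / 8) (hH : StmtHold β) (hL : StmtLaw) (hNi : StmtNice)
    (hS : StmtSparse) (hC : StmtCRT) (hF : StmtFlat) : StmtTop β := by
  intro b₁ c B hb₁ hB hc
  set κ : ℝ := (1 - 5 * β - c) / 2 with hκ
  have hκ0 : 0 < κ := by rw [hκ]; linarith
  set η : ℝ := min κ (1 / 8) with hη
  have hη0 : 0 < η := lt_min hκ0 (by norm_num)
  have hη1 : η ≤ 1 / 8 := min_le_right _ _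
  have hη2 : η ≤ κ := min_le_left _ _
  obtain ⟨kS, hkS⟩ := hS (1 / 100) b₁ β B η (by norm_num) (by norm_num) hb₁ hβ0 hB hη0
  obtain ⟨kH, hkH⟩ := hH (1 / 100) b₁ B (by norm_num) le_rfl hb₁ hB
  obtain ⟨k1, hk1⟩ := exists_nat_ge (5 / κ)
  refine ⟨max (max kS kH) (max k1 2), fun k hk N hN hp hsize => ?_⟩
  have hkS' : kS ≤ k := le_trans (le_trans (le_max_left _ _) (le_max_left _ _)) hk
  have hkH' : kH ≤ k := le_trans (le_trans (le_max_right _ _) (le_max_left _ _)) hk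
  have hk1' : k1 ≤ k := le_trans (le_trans (le_max_left _ _) (le_max_right _ _)) hk
  have hk2 : 2 ≤ k := le_trans (le_trans (le_max_right _ _) (le_max_right _ _)) hk
  have hk5 : 5 ≤ κ * k := by
    have h1 : (5 / κ : ℝ) ≤ k := hk1.trans (by exact_mod_cast hk1')
    rw [div_le_iff₀ hκ0] at h1
    linarith
  obtain ⟨P, hP, rfl⟩ : ∃ P : Finset ℕ, (∀ p ∈ P, p.Prime) ∧ N = ∏ p ∈ P, p :=
    ⟨N.primeFactors, fun p hp => Nat.prime_of_mem_primeFactors hp,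
      (Nat.prod_primeFactors_of_squarefree hN).symm⟩
  have hadm : Adm b₁ β B k P := by
    refine ⟨hP, fun p hpP => ?_, fun p hpP => ?_, ?_⟩
    · exact (hp p (hP p hpP) (dvd_prod_of_mem _ hpP)).1
    · exact (hp p (hP p hpP) (dvd_prod_of_mem _ hpP)).2
    · push_cast at hsize
      exact hsize
  set s : ℝ := (k : ℝ) ^ (1 - (1 / 100 : ℝ) / 4) with hs
  have hk0 : 0 < k := by omega
  set e : Fin (8 * k) → ℤ := stL (2 * k - 1) with he
  set T : ℝ := ((8 * k : ℕ) : ℝ) ^ (k * k) with hT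
  have hT0 : 0 < T := by
    rw [hT]
    have : (0 : ℝ) < ((8 * k : ℕ) : ℝ) := by
      exact_mod_cast (by omega : 0 < 8 * k)
    positivity
  set EW : ℝ := ∑ ω : Fin k → Fin k → Fin (8 * k), W P (mt e ω) with hEW
  set SS : ℝ := ∑ ω ∈ (univ : Finset (Fin k → Fin k → Fin (8 * k))).filter
      (fun ω => Sp P s (mt e ω)), W P (mt e ω) with hSS
  set BB : ℝ := ∑ ω ∈ (univ : Finset (Fin k → Fin k → Fin (8 * k))).filter
      (fun ω => Bad P s (mt e ω) ∧ ¬ Sp P s (mt e ω)), W P (mt e ω) with hBB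
  set NN : ℝ := ∑ ω ∈ (univ : Finset (Fin k → Fin k → Fin (8 * k))).filter
      (fun ω => ¬ Sparse P s (mt e ω) ∧ ¬ Bad P s (mt e ω)), W P (mt e ω) with hNN
  have hN1 : (1 : ℝ) ≤ ∏ p ∈ P, (p : ℝ) := by
    have h1 : 0 < ∏ p ∈ P, p := prod_pos fun p hp => (hP p hp).pos
    have h2 : (1 : ℝ) ≤ ((∏ p ∈ P, p : ℕ) : ℝ) := by exact_mod_cast h1
    push_cast at h2
    exact h2
  -- the three parts
  have hE : EW ≤ SS + BB + NN := by
    rw [hEW, hSS, hBB, hNN, sum_filter, sum_filter, sum_filter, ← sum_add_distrib, ← sum_add_distrib]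
    refine sum_le_sum fun ω _ => ?_
    have hW := W_nonneg P (mt e ω)
    by_cases h1 : Sp P s (mt e ω)
    · rw [if_pos h1]
      have h2 : 0 ≤ (if Bad P s (mt e ω) ∧ ¬ Sp P s (mt e ω) then W P (mt e ω) else 0) := by
        split_ifs <;> simp [hW]
      have h3 : 0 ≤ (if ¬ Sparse P s (mt e ω) ∧ ¬ Bad P s (mt e ω) then W P (mt e ω) else 0) := by
        split_ifs <;> simp [hW]
      linarith
    · rw [if_neg h1]
      by_cases h2 : Bad P s (mt e ω)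
      · rw [if_pos ⟨h2, h1⟩]
        have h3 : 0 ≤ (if ¬ Sparse P s (mt e ω) ∧ ¬ Bad P s (mt e ω) then W P (mt e ω) else 0) := by
          split_ifs <;> simp [hW]
        linarith
      · have h4 : ¬ Sparse P s (mt e ω) := fun h => h1 (Or.inl h)
        rw [if_pos (⟨h4, h2⟩ : ¬ Sparse P s (mt e ω) ∧ ¬ Bad P s (mt e ω))]
        have h3 : 0 ≤ (if Bad P s (mt e ω) ∧ ¬ Sp P s (mt e ω) then W P (mt e ω) else 0) := by
          split_ifs <;> simp [hW]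
        linarith
  have hSSle : SS ≤ (2 : ℝ) ^ (-(1 - 2 * β - η) * k) * EW := hkS k hkS' P hadm
  have hBBle : BB ≤ Real.exp (k / 2) * T * (2 : ℝ) ^ (-(2 : ℝ) * k) := by
    have h1 := hL k hk0 (fun M => if Bad P s M ∧ ¬ Sp P s M then W P M else 0) (fun M => by
      show 0 ≤ (if Bad P s M ∧ ¬ Sp P s M then W P M else 0)
      split_ifs
      · exact W_nonneg P M
      · exact le_rfl)
    have h2 := hkH k hkH' P hadm
    simp only [← sum_filter] at h1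
    have h4 : (0 : ℝ) < (4 : ℝ) ^ (k * k) := by positivity
    have h3 : BB * (4 : ℝ) ^ (k * k) ≤
        (Real.exp (k / 2) * T * (2 : ℝ) ^ (-(2 : ℝ) * k)) * (4 : ℝ) ^ (k * k) := by
      refine h1.trans ?_
      calc _ ≤ Real.exp (k / 2) * T * ((2 : ℝ) ^ (-(2 : ℝ) * k) * (4 : ℝ) ^ (k * k)) :=
            mul_le_mul_of_nonneg_left h2 (by positivity)
        _ = _ := by ring
    exact le_of_mul_le_mul_right h3 h4
  have hNNle : NN ≤ 3 * (∏ p ∈ P, (p : ℝ)) ^ 3 * T := hNi k hk0 P hP s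
  have hEW0 : 0 ≤ EW := sum_nonneg fun ω _ => W_nonneg P _
  have hck : c + κ ≤ 1 - 5 * β - η := by
    have : κ + κ = 1 - 5 * β - c := by rw [hκ]; ring
    linarith
  have hfin := top_num hβ0 hβ1 hη0 hη1 hck hk5 hk2
    hN1 hadm.size hT0.le rfl hE hSSle hEW0 hBBle hNNle
  refine le_trans ?_ hfin
  -- the nonflat sum
  have hker : ∀ ω : Fin k → Fin k → Fin (8 * k),
      (M8.kerN (∏ p ∈ P, p) (2 * k - 1) ω : ℝ) ^ 2 = W P (mt e ω) := by
    intro ω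
    rw [(hC k P hP (mt e ω)).1]
    rfl
  have hnf : ∀ ω : Fin k → Fin k → Fin (8 * k), ¬ M8.FlatX (∏ p ∈ P, p) (2 * k - 1) ω →
      Sp P s (mt e ω) ∨ (Bad P s (mt e ω) ∧ ¬ Sp P s (mt e ω)) := by
    intro ω h
    by_contra hcon
    push_neg at hcon
    obtain ⟨h1, h2⟩ := hcon
    have h3 : ¬ Bad P s (mt e ω) := fun hb => h1 (h2 hb)
    exact h (hF k hk0 P hP s ω (fun h => h1 (Or.inl h)) h3)
  have hone : ∑ ω ∈ (univ : Finset (Fin k → Fin k → Fin (8 * k))).filter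
      (fun ω => ¬ M8.FlatX (∏ p ∈ P, p) (2 * k - 1) ω), W P (mt e ω) ≤ SS + BB := by
    rw [hSS, hBB, sum_filter, sum_filter, sum_filter, ← sum_add_distrib]
    refine sum_le_sum fun ω _ => ?_
    have hW := W_nonneg P (mt e ω)
    by_cases h : ¬ M8.FlatX (∏ p ∈ P, p) (2 * k - 1) ω
    · rw [if_pos h]
      rcases hnf ω h with h1 | h1
      · rw [if_pos h1]
        have h2 : 0 ≤ (if Bad P s (mt e ω) ∧ ¬ Sp P s (mt e ω) then W P (mt e ω) else 0) := by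
          split_ifs <;> simp [hW]
        linarith
      · rw [if_pos h1]
        have h2 : 0 ≤ (if Sp P s (mt e ω) then W P (mt e ω) else 0) := by
          split_ifs <;> simp [hW]
        linarith
    · rw [if_neg h]
      have h2 : 0 ≤ (if Bad P s (mt e ω) ∧ ¬ Sp P s (mt e ω) then W P (mt e ω) else 0) := by
        split_ifs <;> simp [hW]
      have h3 : 0 ≤ (if Sp P s (mt e ω) then W P (mt e ω) else 0) := by
        split_ifs <;> simp [hW]
      linarith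
  have htwo : ∑ ω ∈ (univ : Finset (Fin k → Fin k → Fin (8 * k))).filter
      (fun ω => ¬ M8.FlatX (∏ p ∈ P, p) (2 * k - 1) (fun i j => ω j i)), W P (mt e ω) =
      ∑ ω ∈ (univ : Finset (Fin k → Fin k → Fin (8 * k))).filter
      (fun ω => ¬ M8.FlatX (∏ p ∈ P, p) (2 * k - 1) ω), W P (mt e ω) := by
    rw [sum_filter, sum_filter]
    let σ : (Fin k → Fin k → Fin (8 * k)) ≃ (Fin k → Fin k → Fin (8 * k)) :=
      ⟨fun ω i j => ω j i, fun ω i j => ω j i, fun _ => rfl, fun _ => rfl⟩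
    rw [← Equiv.sum_comp σ]
    refine sum_congr rfl fun ω _ => ?_
    have h1 : W P (mt e (σ ω)) = W P (mt e ω) := W_swap P hP e ω
    have h2 : (fun i j => σ ω j i) = ω := rfl
    rw [h1, h2]
  calc (∑ ω ∈ (univ : Finset (Fin k → Fin k → Fin (8 * k))).filter (fun ω =>
      ¬ (M8.FlatX (∏ p ∈ P, p) (2 * k - 1) ω ∧ M8.FlatX (∏ p ∈ P, p) (2 * k - 1) (fun i j => ω j i))),
        (M8.kerN (∏ p ∈ P, p) (2 * k - 1) ω : ℝ) ^ 2)
      ≤ (∑ ω ∈ (univ : Finset (Fin k → Fin k → Fin (8 * k))).filter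
      (fun ω => ¬ M8.FlatX (∏ p ∈ P, p) (2 * k - 1) ω), W P (mt e ω)) +
        (∑ ω ∈ (univ : Finset (Fin k → Fin k → Fin (8 * k))).filter
      (fun ω => ¬ M8.FlatX (∏ p ∈ P, p) (2 * k - 1) (fun i j => ω j i)), W P (mt e ω)) := by
        rw [sum_filter, sum_filter, sum_filter, ← sum_add_distrib]
        refine sum_le_sum fun ω _ => ?_
        have hW := W_nonneg P (mt e ω)
        rw [hker ω]
        by_cases h1 : M8.FlatX (∏ p ∈ P, p) (2 * k - 1) ω <;>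
          by_cases h2 : M8.FlatX (∏ p ∈ P, p) (2 * k - 1) (fun i j => ω j i) <;>
          simp [h1, h2, hW]
    _ ≤ 2 * (SS + BB) := by
        rw [htwo]
        linarith

end Vale.Agent.P160.Half.M67
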