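import Vale.Agent.P160.Half.M67Stmt

/-! # P160, half rate, block (M): leaf (10) TOP of `M67Stmt.lean` (hedge, helper790) -/

set_option linter.unusedVariables false

namespace Vale.Agent.P160.Half.M67.T790

open Finset Vale.Agent.P160 Vale.Agent.P160.Half Vale.Agent.P160.Half.Flat Vale.Agent.P160.Half.M67

theorem W_transpose (P : Finset ℕ) (hP : ∀ p ∈ P, p.Prime) {k : ℕ} (M : Matrix (Fin k) (Fin k) ℤ) :
    W P M.transpose = W P M := by
  unfold W
  refine prod_congr rfl fun p hp => ?_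
  have := Fact.mk (hP p hp)
  have : rkp p M.transpose = rkp p M := by
    unfold rkp
    rw [Matrix.transpose_map, Matrix.rank_transpose]
  rw [this]

theorem W_nonneg (P : Finset ℕ) {k m : ℕ} (M : Matrix (Fin k) (Fin m) ℤ) : 0 ≤ W P M := by
  unfold W
  exact prod_nonneg fun p _ => by positivity

theorem flat_one {k M : ℕ} (L : ℕ) (ω : Fin k → Fin k → Fin M) : M8.FlatX 1 L ω := by
  intro q hq w _ _ a
  obtain rfl : q = 1 := Nat.dvd_one.1 hq
  have h1 : Nat.card {x : Fin k → Bool // G.bdot x w = a} ≤ 2 ^ Fintype.card (Fin k) := by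
    classical
    rw [Nat.card_eq_fintype_card]
    refine (Fintype.card_subtype_le _).trans ?_
    simp
  have h2 : (Nat.card {x : Fin k → Bool // G.bdot x w = a} : ℝ) ≤ 2 ^ Fintype.card (Fin k) := by
    exact_mod_cast h1
  have h3 : (0 : ℝ) < 2 ^ Fintype.card (Fin k) := by positivity
  push_cast
  linarith

/-- numerical core -/
theorem num {T A D Q N ρ : ℝ} (hQ : 0 ≤ Q) (hN : 1 ≤ N) (hA : A ≤ ρ * T) (hρ : ρ ≤ 1 / 2) (hρ0 : 0 ≤ ρ)
    (hT0 : 0 ≤ T) (hD : D ≤ Q) (hT : T ≤ 3 * N ^ 3 * Q + D + A) : A ≤ 8 * ρ * N ^ 3 * Q := by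
  have h1 : A ≤ T / 2 := hA.trans (by nlinarith)
  have h2 : T ≤ 6 * N ^ 3 * Q + 2 * Q := by linarith
  have h3 : (1 : ℝ) ≤ N ^ 3 := one_le_pow₀ hN
  have h4 : T ≤ 8 * N ^ 3 * Q := by nlinarith
  calc A ≤ ρ * T := hA
    _ ≤ ρ * (8 * N ^ 3 * Q) := mul_le_mul_of_nonneg_left h4 hρ0
    _ = _ := by ring

open scoped Classical in
/-- the bad part in the law of `HalfBal505` -/
theorem bad_part (hL : StmtLaw) {k : ℕ} (hk : 0 < k) (P : Finset ℕ) (s : ℝ)
    (h : ∑ ω ∈ (univ : Finset (Fin k → Fin k → Bool × Bool)).filter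
      (fun ω => Bad P s (mt xi ω) ∧ ¬ Sp P s (mt xi ω)), W P (mt xi ω) ≤ (2 : ℝ) ^ (-(2 : ℝ) * k) * (4 : ℝ) ^ (k * k)) :
    ∑ ω ∈ (univ : Finset (Fin k → Fin k → Fin (8 * k))).filter
      (fun ω => Bad P s (mt (stL (2 * k - 1)) ω) ∧ ¬ Sp P s (mt (stL (2 * k - 1)) ω)), W P (mt (stL (2 * k - 1)) ω) ≤
      (2 : ℝ) ^ (-(k : ℝ)) * ((8 * k : ℕ) : ℝ) ^ (k * k) := by
  have h1 := hL k hk (fun M => if Bad P s M ∧ ¬ Sp P s M then W P M else 0) fun M => by
    split_ifs
    · exact W_nonneg P M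
    · exact le_rfl
  rw [← sum_filter, ← sum_filter] at h1
  have h4 : (0 : ℝ) < (4 : ℝ) ^ (k * k) := by positivity
  have hQ : (0 : ℝ) ≤ ((8 * k : ℕ) : ℝ) ^ (k * k) := by positivity
  have h2 := h1.trans (mul_le_mul_of_nonneg_left h (by positivity))
  have h3 : Real.exp (k / 2) ≤ (2 : ℝ) ^ (k : ℝ) := by
    rw [Real.rpow_def_of_pos (by norm_num), Real.exp_le_exp]
    have := Real.log_two_gt_d9
    have hk0 : (0 : ℝ) ≤ k := by positivity
    nlinarith
  have h5 : Real.exp (k / 2) * (2 : ℝ) ^ (-(2 : ℝ) * k) ≤ (2 : ℝ) ^ (-(k : ℝ)) := by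
    calc Real.exp (k / 2) * (2 : ℝ) ^ (-(2 : ℝ) * k) ≤ (2 : ℝ) ^ (k : ℝ) * (2 : ℝ) ^ (-(2 : ℝ) * k) := by gcongr
      _ = _ := by
        rw [← Real.rpow_add (by norm_num)]
        congr 1
        ring
  refine le_of_mul_le_mul_right (h2.trans ?_) h4
  calc Real.exp (k / 2) * ((8 * k : ℕ) : ℝ) ^ (k * k) * ((2 : ℝ) ^ (-(2 : ℝ) * k) * (4 : ℝ) ^ (k * k)) =
      (Real.exp (k / 2) * (2 : ℝ) ^ (-(2 : ℝ) * k)) * (((8 * k : ℕ) : ℝ) ^ (k * k) * (4 : ℝ) ^ (k * k)) := by ring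
    _ ≤ (2 : ℝ) ^ (-(k : ℝ)) * (((8 * k : ℕ) : ℝ) ^ (k * k) * (4 : ℝ) ^ (k * k)) :=
        mul_le_mul_of_nonneg_right h5 (by positivity)
    _ = _ := by ring

open scoped Classical in
/-- (10) TOP -/
theorem top {β : ℝ} (hH : StmtHold β) (hL : StmtLaw) (hN : StmtNice) (hS : StmtSparse) (hC : StmtCRT)
    (hF : StmtFlat) (hβ5 : β < 1 / 5) : StmtTop β := by
  intro b₁ c B hb hbB hc
  rcases le_or_gt β 0 with hβ | hβ
  · refine ⟨0, fun k _ N hNsq hNp hNle => ?_⟩
    have h1 : (N : ℝ) ≤ 1 := by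
      refine hNle.trans (Real.rpow_le_one_of_one_le_of_nonpos (by norm_num) ?_)
      exact mul_nonpos_of_nonpos_of_nonneg hβ (by positivity)
    have h2 : N ≤ 1 := by exact_mod_cast h1
    have h3 : N ≠ 0 := hNsq.ne_zero
    obtain rfl : N = 1 := by omega
    rw [filter_false_of_mem, sum_empty]
    · positivity
    · intro ω _
      rw [not_not]
      exact ⟨flat_one _ _, flat_one _ _⟩
  · set η : ℝ := min ((1 - 5 * β - c) / 2) (1 / 10) with hη
    have hη0 : 0 < η := lt_min (by linarith) (by norm_num)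
    have hη1 : η ≤ 1 / 10 := min_le_right _ _
    have hη2 : η ≤ (1 - 5 * β - c) / 2 := min_le_left _ _
    obtain ⟨k₁, hk₁⟩ := hH (1 / 100) b₁ B (by norm_num) le_rfl hb hbB
    obtain ⟨k₂, hk₂⟩ := hS (1 / 100) b₁ β B η (by norm_num) (by norm_num) hb hβ hbB hη0
    obtain ⟨k₃, hk₃⟩ := exists_nat_gt (5 / η)
    refine ⟨max (max k₁ k₂) (max k₃ 2), fun k hk N hNsq hNp hNle => ?_⟩
    have hk1 : k₁ ≤ k := (le_max_left _ _).trans ((le_max_left _ _).trans hk)
    have hk2 : k₂ ≤ k := (le_max_right _ _).trans ((le_max_left _ _).trans hk)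
    have hk3 : k₃ ≤ k := (le_max_left _ _).trans ((le_max_right _ _).trans hk)
    have hk4 : 2 ≤ k := (le_max_right _ _).trans ((le_max_right _ _).trans hk)
    have hk0 : 0 < k := by omega
    have hkr : (2 : ℝ) ≤ k := by exact_mod_cast hk4
    have hηk : 5 ≤ η * k := by
      have h1 : (5 / η : ℝ) < k := hk₃.trans_le (by exact_mod_cast hk3)
      rw [div_lt_iff₀ hη0] at h1
      linarith
    obtain ⟨P, hPp, hPN⟩ : ∃ P : Finset ℕ, (∀ p ∈ P, p.Prime ∧ p ∣ N) ∧ ∏ p ∈ P, p = N :=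
      ⟨N.primeFactors, fun p hp => ⟨Nat.prime_of_mem_primeFactors hp, Nat.dvd_of_mem_primeFactors hp⟩,
        Nat.prod_primeFactors_of_squarefree hNsq⟩
    subst hPN
    have hpr : ∀ p ∈ P, p.Prime := fun p hp => (hPp p hp).1
    have hadm : Adm b₁ β B k P := ⟨hpr, fun p hp => (hNp p (hpr p hp) (hPp p hp).2).1,
      fun p hp => (hNp p (hpr p hp) (hPp p hp).2).2, by rw [← Nat.cast_prod]; exact hNle⟩
    have hNr : (1 : ℝ) ≤ ((∏ p ∈ P, p : ℕ) : ℝ) := by
      exact_mod_cast Nat.one_le_iff_ne_zero.2 hNsq.ne_zero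
    set s : ℝ := (k : ℝ) ^ (1 - (1 / 100 : ℝ) / 4) with hs
    set e : Fin (8 * k) → ℤ := stL (2 * k - 1) with he
    have hA := hk₂ k hk2 P hadm
    have hD := bad_part hL hk0 P s (hk₁ k hk1 P hadm)
    have hNi := hN k hk0 P hpr s
    rw [← hs, ← he] at hA
    rw [← he] at hD hNi
    set A : ℝ := ∑ ω ∈ (univ : Finset (Fin k → Fin k → Fin (8 * k))).filter (fun ω => Sp P s (mt e ω)), W P (mt e ω) with hAdef
    set D : ℝ := ∑ ω ∈ (univ : Finset (Fin k → Fin k → Fin (8 * k))).filter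
      (fun ω => Bad P s (mt e ω) ∧ ¬ Sp P s (mt e ω)), W P (mt e ω) with hDdef
    set Q : ℝ := ((8 * k : ℕ) : ℝ) ^ (k * k) with hQdef
    have hQ0 : 0 ≤ Q := by positivity
    set T : ℝ := ∑ ω : Fin k → Fin k → Fin (8 * k), W P (mt e ω) with hTdef
    have hT0 : 0 ≤ T := sum_nonneg fun ω _ => W_nonneg P _
    -- total
    have hT : T ≤ 3 * ((∏ p ∈ P, p : ℕ) : ℝ) ^ 3 * Q + D + A := by
      have h1 : T ≤ ∑ ω ∈ (univ : Finset (Fin k → Fin k → Fin (8 * k))).filter
          (fun ω => ¬ Sparse P s (mt e ω) ∧ ¬ Bad P s (mt e ω)), W P (mt e ω) + D + A := by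
        rw [hTdef, hDdef, hAdef, sum_filter, sum_filter, sum_filter, ← sum_add_distrib, ← sum_add_distrib]
        refine sum_le_sum fun ω _ => ?_
        have h0 := W_nonneg P (mt e ω)
        by_cases h1 : Sp P s (mt e ω)
        · rw [if_pos h1]
          split_ifs <;> linarith
        · by_cases h2 : Bad P s (mt e ω)
          · have h3 : Bad P s (mt e ω) ∧ ¬ Sp P s (mt e ω) := ⟨h2, h1⟩
            rw [if_pos h3]
            split_ifs <;> linarith
          · have h3 : ¬ Sparse P s (mt e ω) ∧ ¬ Bad P s (mt e ω) := ⟨fun h => h1 (Or.inl h), h2⟩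
            rw [if_pos h3]
            split_ifs <;> linarith
      rw [Nat.cast_prod]
      linarith
    have hρ : (2 : ℝ) ^ (-(1 - 2 * β - η) * k) ≤ 1 / 2 := by
      have h1 : (2 : ℝ) ^ (-(1 - 2 * β - η) * k) ≤ (2 : ℝ) ^ (-1 : ℝ) := by
        refine Real.rpow_le_rpow_of_exponent_le (by norm_num) ?_
        nlinarith
      refine h1.trans ?_
      rw [Real.rpow_neg_one]
      norm_num
    have hDQ : D ≤ Q := by
      refine hD.trans ?_
      have h1 : (2 : ℝ) ^ (-(k : ℝ)) ≤ 1 :=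
        Real.rpow_le_one_of_one_le_of_nonpos (by norm_num) (by linarith)
      nlinarith
    have hA2 := num hQ0 hNr hA hρ (by positivity) hT0 hDQ hT
    -- the weight is the square of kerN
    have hW : ∀ ω : Fin k → Fin k → Fin (8 * k),
        (M8.kerN (∏ p ∈ P, p) (2 * k - 1) ω : ℝ) ^ 2 = W P (mt e ω) := fun ω => ((hC k P hpr (mt e ω)).1).symm
    have hWt : ∀ ω : Fin k → Fin k → Fin (8 * k), W P (mt e fun i j => ω j i) = W P (mt e ω) := fun ω =>
      W_transpose P hpr (mt e ω)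
    have hnf : ∀ ω : Fin k → Fin k → Fin (8 * k), ¬ M8.FlatX (∏ p ∈ P, p) (2 * k - 1) ω →
        Sp P s (mt e ω) ∨ (Bad P s (mt e ω) ∧ ¬ Sp P s (mt e ω)) := by
      intro ω h
      by_contra hcon
      rw [not_or] at hcon
      obtain ⟨h1, h2⟩ := hcon
      have h3 : ¬ Bad P s (mt e ω) := fun h3 => h2 ⟨h3, h1⟩
      exact h (hF k hk0 P hpr s ω (fun h4 => h1 (Or.inl h4)) h3)
    have hsum : ∑ ω ∈ (univ : Finset (Fin k → Fin k → Fin (8 * k))).filter (fun ω =>
        ¬ (M8.FlatX (∏ p ∈ P, p) (2 * k - 1) ω ∧ M8.FlatX (∏ p ∈ P, p) (2 * k - 1) (fun i j => ω j i))),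
        (M8.kerN (∏ p ∈ P, p) (2 * k - 1) ω : ℝ) ^ 2 ≤ 2 * (A + D) := by
      set Z : (Fin k → Fin k → Fin (8 * k)) → ℝ := fun ω =>
        (if Sp P s (mt e ω) then W P (mt e ω) else 0) +
          (if Bad P s (mt e ω) ∧ ¬ Sp P s (mt e ω) then W P (mt e ω) else 0) with hZ
      have hZ0 : ∀ ω, 0 ≤ Z ω := fun ω => by
        have h0 := W_nonneg P (mt e ω)
        rw [hZ]
        dsimp only
        split_ifs <;> linarith
      have hZW : ∀ ω, ¬ M8.FlatX (∏ p ∈ P, p) (2 * k - 1) ω → W P (mt e ω) ≤ Z ω := by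
        intro ω h
        have h0 := W_nonneg P (mt e ω)
        rw [hZ]
        dsimp only
        rcases hnf ω h with h1 | h1
        · rw [if_pos h1]
          split_ifs <;> linarith
        · rw [if_pos h1]
          split_ifs <;> linarith
      have hZs : ∑ ω, Z ω = A + D := by
        rw [hAdef, hDdef, sum_filter, sum_filter, ← sum_add_distrib]
      have hZt : ∑ ω : Fin k → Fin k → Fin (8 * k), Z (fun i j => ω j i) = A + D := by
        rw [← hZs]
        exact Fintype.sum_equiv (Equiv.piComm fun _ _ => Fin (8 * k)) _ _ fun ω => rfl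
      calc ∑ ω ∈ (univ : Finset (Fin k → Fin k → Fin (8 * k))).filter (fun ω =>
          ¬ (M8.FlatX (∏ p ∈ P, p) (2 * k - 1) ω ∧ M8.FlatX (∏ p ∈ P, p) (2 * k - 1) (fun i j => ω j i))),
          (M8.kerN (∏ p ∈ P, p) (2 * k - 1) ω : ℝ) ^ 2
          ≤ ∑ ω ∈ (univ : Finset (Fin k → Fin k → Fin (8 * k))).filter (fun ω =>
            ¬ (M8.FlatX (∏ p ∈ P, p) (2 * k - 1) ω ∧ M8.FlatX (∏ p ∈ P, p) (2 * k - 1) (fun i j => ω j i))),
            (Z ω + Z fun i j => ω j i) := by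
            refine sum_le_sum fun ω hω => ?_
            rw [mem_filter] at hω
            rw [hW]
            by_cases h1 : M8.FlatX (∏ p ∈ P, p) (2 * k - 1) ω
            · have h2 : ¬ M8.FlatX (∏ p ∈ P, p) (2 * k - 1) (fun i j => ω j i) := fun h2 => hω.2 ⟨h1, h2⟩
              have h3 := hZW _ h2
              rw [hWt] at h3
              have := hZ0 ω
              linarith
            · have h3 := hZW _ h1
              have := hZ0 fun i j => ω j i
              linarith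
        _ ≤ ∑ ω : Fin k → Fin k → Fin (8 * k), (Z ω + Z fun i j => ω j i) :=
            sum_le_sum_of_subset_of_nonneg (filter_subset _ _) fun ω _ _ => add_nonneg (hZ0 _) (hZ0 _)
        _ = _ := by
            rw [sum_add_distrib, hZs, hZt]
            ring
    refine hsum.trans ?_
    -- final numbers
    have hN3 : ((∏ p ∈ P, p : ℕ) : ℝ) ^ 3 ≤ (2 : ℝ) ^ (3 * β * k) := by
      calc ((∏ p ∈ P, p : ℕ) : ℝ) ^ 3 ≤ ((2 : ℝ) ^ (β * k)) ^ 3 := pow_le_pow_left₀ (by linarith) hNle 3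
        _ = _ := by
          rw [← Real.rpow_natCast, ← Real.rpow_mul (by norm_num)]
          congr 1
          push_cast
          ring
    have hA3 : A ≤ (2 : ℝ) ^ (-(c * k)) / 4 * Q := by
      refine hA2.trans (mul_le_mul_of_nonneg_right ?_ hQ0)
      calc 8 * (2 : ℝ) ^ (-(1 - 2 * β - η) * k) * ((∏ p ∈ P, p : ℕ) : ℝ) ^ 3
          ≤ 8 * (2 : ℝ) ^ (-(1 - 2 * β - η) * k) * (2 : ℝ) ^ (3 * β * k) :=
            mul_le_mul_of_nonneg_left hN3 (by positivity)
        _ = 8 * (2 : ℝ) ^ (-(1 - 5 * β - η) * k) := by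
            rw [mul_assoc, ← Real.rpow_add (by norm_num)]
            congr 2
            ring
        _ ≤ 8 * (2 : ℝ) ^ (-(c * k) - 5) := by
            refine mul_le_mul_of_nonneg_left (Real.rpow_le_rpow_of_exponent_le (by norm_num) ?_) (by norm_num)
            nlinarith
        _ = (2 : ℝ) ^ (-(c * k)) / 4 := by
            rw [Real.rpow_sub (by norm_num)]
            norm_num
            ring
    have hD3 : D ≤ (2 : ℝ) ^ (-(c * k)) / 4 * Q := by
      refine hD.trans (mul_le_mul_of_nonneg_right ?_ hQ0)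
      calc (2 : ℝ) ^ (-(k : ℝ)) ≤ (2 : ℝ) ^ (-(c * k) - 2) := by
            refine Real.rpow_le_rpow_of_exponent_le (by norm_num) ?_
            nlinarith
        _ = (2 : ℝ) ^ (-(c * k)) / 4 := by
            rw [Real.rpow_sub (by norm_num)]
            norm_num
    linarith

end Vale.Agent.P160.Half.M67.T790
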