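import Vale.Agent.P160.Half.Corank
import Vale.Agent.P160.Half.LOMin
import Vale.Agent.P160.Model

/-!
# P160-HALF, block M8: choice of the last row when many primes have corank at least two

`M` symmetric over a field, `K M T` the kernel of the principal submatrix on `T` (vectors supported on
`T`).  Deleting `i` from `insert i T`: either the row of `i` kills `K M T`, or the corank increases by
one.  So for a prime of corank at least two either one of the first `τ` deletions has a row killing the
(nonzero) kernel, or the corank after `τ` deletions is at least `τ + 2`; Hadamard's inequality bounds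
the number of primes of the second kind.
-/

set_option linter.unusedSectionVars false

namespace Vale.Agent.P160.Half.M8Del

open Finset Matrix

section field

variable {F : Type*} [Field F] {α : Type*} [Fintype α] [DecidableEq α]

/-- kernel of the principal submatrix on `T`, as vectors on `α` supported on `T` -/
def K (M : Matrix α α F) (T : Finset α) : Submodule F (α → F) where
  carrier := {w | (∀ a, a ∉ T → w a = 0) ∧ ∀ a ∈ T, ∑ b, M a b * w b = 0}
  add_mem' := by
    rintro w w' ⟨h1, h2⟩ ⟨h3, h4⟩
    refine ⟨fun a ha => by rw [Pi.add_apply, h1 a ha, h3 a ha, add_zero], fun a ha => ?_⟩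
    have : ∀ b, M a b * (w + w') b = M a b * w b + M a b * w' b := fun b => by
      rw [Pi.add_apply, mul_add]
    rw [sum_congr rfl fun b _ => this b, sum_add_distrib, h2 a ha, h4 a ha, add_zero]
  zero_mem' := ⟨fun _ _ => rfl, fun a _ => by simp⟩
  smul_mem' := by
    rintro c w ⟨h1, h2⟩
    refine ⟨fun a ha => by rw [Pi.smul_apply, h1 a ha, smul_zero], fun a ha => ?_⟩
    have : ∀ b, M a b * (c • w) b = c * (M a b * w b) := fun b => by
      rw [Pi.smul_apply, smul_eq_mul]; ring
    rw [sum_congr rfl fun b _ => this b, ← mul_sum, h2 a ha, mul_zero]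

theorem mem_K {M : Matrix α α F} {T : Finset α} {w : α → F} :
    w ∈ K M T ↔ (∀ a, a ∉ T → w a = 0) ∧ ∀ a ∈ T, ∑ b, M a b * w b = 0 := Iff.rfl

/-- the row of `i` kills the kernel on `T` -/
def Kills (M : Matrix α α F) (T : Finset α) (i : α) : Prop :=
  ∀ w ∈ K M T, ∑ b, M i b * w b = 0

/-- the part of `K M (insert i T)` vanishing at `i` lies in `K M T` and is killed by the row of `i` -/
theorem mem_of_zero {M : Matrix α α F} {T : Finset α} {i : α} {w : α → F}
    (hw : w ∈ K M (insert i T)) (h0 : w i = 0) : w ∈ K M T ∧ ∑ b, M i b * w b = 0 := by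
  obtain ⟨h1, h2⟩ := hw
  refine ⟨⟨fun a ha => ?_, fun a ha => h2 a (mem_insert_of_mem ha)⟩, h2 i (mem_insert_self _ _)⟩
  by_cases h : a = i
  · rw [h, h0]
  · exact h1 a (by rw [mem_insert]; tauto)

theorem finrank_insert_le (M : Matrix α α F) (T : Finset α) (i : α) :
    Module.finrank F (K M (insert i T)) ≤ Module.finrank F (K M T) + 1 := by
  classical
  let φ : K M (insert i T) →ₗ[F] F := (LinearMap.proj i).comp (K M (insert i T)).subtype
  have h1 := LinearMap.finrank_range_add_finrank_ker φ
  have h2 : Module.finrank F (LinearMap.range φ) ≤ 1 := by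
    calc Module.finrank F (LinearMap.range φ) ≤ Module.finrank F F := Submodule.finrank_le _
      _ = 1 := Module.finrank_self F
  have h3 : Module.finrank F (LinearMap.ker φ) ≤ Module.finrank F (K M T) := by
    let ψ : LinearMap.ker φ →ₗ[F] K M T :=
      { toFun := fun w => ⟨w.1.1, (mem_of_zero w.1.2 w.2).1⟩
        map_add' := fun _ _ => rfl
        map_smul' := fun _ _ => rfl }
    refine LinearMap.finrank_le_finrank_of_injective (f := ψ) ?_
    intro w w' h
    apply Subtype.ext
    apply Subtype.ext
    exact congrArg (fun z : K M T => (z : α → F)) h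
  omega

theorem finrank_insert_lt {M : Matrix α α F} (hM : ∀ i j, M i j = M j i) {T : Finset α} {i : α}
    (hi : i ∉ T) (h : ¬ Kills M T i) :
    Module.finrank F (K M (insert i T)) + 1 ≤ Module.finrank F (K M T) := by
  classical
  unfold Kills at h
  push Not at h
  obtain ⟨w0, hw0, hne⟩ := h
  -- every kernel vector on `insert i T` vanishes at `i`
  have hz : ∀ w ∈ K M (insert i T), w i = 0 := by
    intro w hw
    have h1 : ∑ a, w0 a * ∑ b, M a b * w b = 0 := by
      refine sum_eq_zero fun a _ => ?_
      by_cases ha : a ∈ T
      · rw [hw.2 a (mem_insert_of_mem ha), mul_zero]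
      · rw [hw0.1 a ha, zero_mul]
    have h2 : ∑ a, w0 a * ∑ b, M a b * w b = ∑ b, w b * ∑ a, M b a * w0 a := by
      have e1 : ∀ a, w0 a * ∑ b, M a b * w b = ∑ b, w0 a * (M a b * w b) := fun a => mul_sum _ _ _
      have e2 : ∀ b, w b * ∑ a, M b a * w0 a = ∑ a, w b * (M b a * w0 a) := fun b => mul_sum _ _ _
      rw [sum_congr rfl fun a _ => e1 a, sum_congr rfl fun b _ => e2 b, sum_comm]
      refine sum_congr rfl fun b _ => sum_congr rfl fun a _ => ?_
      rw [hM a b]; ring
    rw [h2] at h1
    rw [sum_eq_single i] at h1
    · rcases mul_eq_zero.1 h1 with h3 | h3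
      · exact h3
      · exact absurd h3 hne
    · intro b _ hb
      by_cases hbT : b ∈ T
      · rw [hw0.2 b hbT, mul_zero]
      · rw [hw.1 b (by rw [mem_insert]; tauto), zero_mul]
    · intro h; exact absurd (mem_univ i) h
  have hlt : K M (insert i T) < K M T := by
    refine lt_of_le_of_ne (fun w hw => (mem_of_zero hw (hz w hw)).1) ?_
    intro heq
    have : w0 ∈ K M (insert i T) := heq ▸ hw0
    exact hne ((mem_of_zero this (hz w0 this)).2)
  exact Submodule.finrank_lt_finrank_of_lt hlt

/-- `dim K M T = |T| - rank` -/
theorem finrank_K (M : Matrix α α F) (T : Finset α) :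
    Module.finrank F (K M T) + (prin M T).rank = T.card := by
  classical
  have h1 := LinearMap.finrank_range_add_finrank_ker (prin M T).mulVecLin
  have h2 : Module.finrank F (T → F) = T.card := by
    rw [Module.finrank_fintype_fun_eq_card, Fintype.card_coe]
  have h3 : Module.finrank F (K M T) = Module.finrank F (LinearMap.ker (prin M T).mulVecLin) := by
    have hsum : ∀ (w : α → F), (∀ a, a ∉ T → w a = 0) → ∀ a : T,
        ∑ b : T, M a b * w b = ∑ b, M a b * w b := by
      intro w hw a
      refine (Finset.sum_coe_sort T (fun b => M (a : α) b * w b)).trans ?_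
      refine (sum_subset (subset_univ T) fun b _ hb => ?_)
      rw [hw b hb, mul_zero]
    let e : K M T ≃ₗ[F] LinearMap.ker (prin M T).mulVecLin :=
      { toFun := fun w => ⟨fun a : T => w.1 a, by
          rw [LinearMap.mem_ker, Matrix.mulVecLin_apply]
          funext a
          exact (hsum w.1 w.2.1 a).trans (w.2.2 a a.2)⟩
        map_add' := fun _ _ => rfl
        map_smul' := fun _ _ => rfl
        invFun := fun v => ⟨fun a => if h : a ∈ T then v.1 ⟨a, h⟩ else 0, by
          refine ⟨fun a ha => dif_neg ha, fun a ha => ?_⟩
          have hv := v.2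
          rw [LinearMap.mem_ker, Matrix.mulVecLin_apply] at hv
          have h := congrFun hv ⟨a, ha⟩
          rw [← hsum _ (fun a ha => dif_neg ha) ⟨a, ha⟩]
          refine Eq.trans ?_ h
          unfold Matrix.mulVec dotProduct prin
          refine sum_congr rfl fun b _ => ?_
          rw [dif_pos b.2]
          rfl⟩
        left_inv := fun w => by
          apply Subtype.ext
          funext a
          dsimp only
          split_ifs with h
          · rfl
          · exact (w.2.1 a h).symm
        right_inv := fun v => by
          apply Subtype.ext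
          funext a
          dsimp only
          rw [dif_pos a.2] }
    exact e.finrank_eq
  rw [h3]
  unfold Matrix.rank
  omega

/-- **Deletion chain.** `T r = insert (i r) (T (r + 1))`: either some row `i r`, `r < τ`, kills the
nonzero kernel on `T (r + 1)`, or the corank has increased by `τ`. -/
theorem chain {M : Matrix α α F} (hM : ∀ i j, M i j = M j i) (T : ℕ → Finset α) (i : ℕ → α)
    (τ : ℕ) (hT : ∀ r < τ, T r = insert (i r) (T (r + 1))) (hi : ∀ r < τ, i r ∉ T (r + 1))
    (h0 : 2 ≤ Module.finrank F (K M (T 0))) :
    (∃ r < τ, Kills M (T (r + 1)) (i r) ∧ K M (T (r + 1)) ≠ ⊥) ∨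
      τ + 2 ≤ Module.finrank F (K M (T τ)) := by
  classical
  induction τ with
  | zero => right; simpa using h0
  | succ τ ih =>
    rcases ih (fun r hr => hT r (by omega)) (fun r hr => hi r (by omega)) with ⟨r, hr, h⟩ | h
    · exact Or.inl ⟨r, by omega, h⟩
    · by_cases hk : Kills M (T (τ + 1)) (i τ)
      · left
        refine ⟨τ, by omega, hk, ?_⟩
        intro hbot
        have h1 := finrank_insert_le M (T (τ + 1)) (i τ)
        rw [← hT τ (by omega), hbot, finrank_bot] at h1
        omega
      · right
        have h1 := finrank_insert_lt hM (hi τ (by omega)) hk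
        rw [← hT τ (by omega)] at h1
        omega

end field

end Vale.Agent.P160.Half.M8Del
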