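import Vale.Agent.P160.Half.M8Asy
import Vale.Agent.P160.Half.M8NG

/-! # P160, half rate, block M8: the last row bound `MRow` from the not-good statement -/

set_option linter.unusedSectionVars false
set_option linter.unusedVariables false

open Finset Matrix

namespace Vale.Agent.P160.Half.M8Top

open Vale.Agent.P160 Vale.Agent.P160.Half Vale.Agent.P160.Half.MTop Vale.Agent.P160.Half.M8
open Vale.Agent.P160.Half.M8Incl (KP KS bT rw_)
open Vale.Agent.P160.Half.M8Asy (kill_relab relab dens_le dens_eq kden_le card_KP_le exists_t)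

/-- not good for some modulus in the window, at size `card ι` -/
def NGb (g b₁ B : ℝ) (n : ℕ) {ι : Type*} [Fintype ι] (b : Sym2 ι → Bool) : Prop :=
  ∃ N : ℕ, Squarefree N ∧ (∀ p, p.Prime → p ∣ N → (n : ℝ) ^ b₁ ≤ p ∧ (p : ℝ) ≤ (n : ℝ) ^ B) ∧
      (2 : ℝ) ^ (g * n) ≤ N ∧ (N : ℝ) ≤ (2 : ℝ) ^ (g * n) * (n : ℝ) ^ B ∧ ¬ GoodSym N b

/-- not good for some modulus in the window, with rate `c'` -/
def NG (b₁ g c' B : ℝ) : Prop := ∃ n₀ : ℕ, ∀ n ≥ n₀, ∀ (ι : Type) [Fintype ι] [DecidableEq ι], Fintype.card ι = n →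
    (Nat.card {b : Sym2 ι → Bool // NGb g b₁ B n b} : ℝ) ≤ (2 : ℝ) ^ (-(c' * n)) * 2 ^ Fintype.card (Sym2 ι)

theorem ng_of_xi (h : NotGoodStmt) (b₁ g c B δ : ℝ) (hb : 1 < b₁) (hg : 0 < g) (hc : 0 < c) (hB : 1 ≤ B) (hδ : 0 < δ)
    (hX : StmtXi b₁ (2 * g + δ) c (B + 1)) : NG b₁ g (c / 2 - g - δ) B := h b₁ g c B δ hb hg hc hB hδ hX

/-- singular symmetric 0/1 matrices have density at most `2 ^ (- r n)` -/
def Sing (r : ℝ) : Prop := ∃ n₀ : ℕ, ∀ n ≥ n₀, (Nat.card {b : Sym2 (Fin n) → Bool // (matZ b).det = 0} : ℝ) ≤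
  (2 : ℝ) ^ (-(r * n)) * 2 ^ Fintype.card (Sym2 (Fin n))

theorem card_sing {r : ℝ} (hS : Sing r) : ∃ n₀ : ℕ, ∀ (ι : Type) [Fintype ι] [DecidableEq ι], n₀ ≤ Fintype.card ι →
    (Nat.card {b : Sym2 ι → Bool // (matZ b).det = 0} : ℝ) ≤
      (2 : ℝ) ^ (-(r * Fintype.card ι)) * 2 ^ Fintype.card (Sym2 ι) := by
  obtain ⟨n₀, h⟩ := hS
  refine ⟨n₀, fun ι _ _ hn => ?_⟩
  have e := Fintype.equivFin ι
  have h1 : Fintype.card (Sym2 ι) = Fintype.card (Sym2 (Fin (Fintype.card ι))) := by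
    rw [Sym2.card, Sym2.card, Fintype.card_fin]
  rw [h1]
  refine le_trans ?_ (h _ hn)
  rw [Nat.cast_le]
  refine Nat.card_le_card_of_injective (fun b : {b : Sym2 ι → Bool // (matZ b).det = 0} =>
    (⟨fun x => b.1 (x.map e.symm), ?_⟩ : {b : Sym2 (Fin (Fintype.card ι)) → Bool // (matZ b).det = 0})) ?_
  · have h2 : matZ (fun x : Sym2 (Fin (Fintype.card ι)) => b.1 (x.map e.symm)) = (matZ b.1).submatrix e.symm e.symm := by
      ext i j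
      rfl
    rw [h2, Matrix.det_submatrix_equiv_self]
    exact b.2
  · intro b b' hbb
    apply Subtype.ext
    funext x
    have h3 := congrFun (congrArg Subtype.val hbb) (x.map e)
    simpa [Sym2.map_map] using h3

/-- **Flat branch**: if no modulus of the window is bad, few rows kill the kernels of `t₀` primes. -/
theorem hrow {ι : Type} [Fintype ι] [DecidableEq ι] (b : Sym2 ι → Bool) (t₀ : ℕ) (lo y Y : ℝ)
    (hm : 2 ≤ Fintype.card ι) (hlo : 1 < lo) (hy1 : (Fintype.card ι : ℝ) ≤ y) (ht : lo ≤ y ^ t₀)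
    (hdet : (matZ b).det ≠ 0)
    (hng : ∀ N : ℕ, Squarefree N → (∀ p, p.Prime → p ∣ N → y ≤ p ∧ (p : ℝ) ≤ Y) →
      lo ≤ N → (N : ℝ) ≤ lo * Y → GoodSym N b) :
    (Nat.card {x : ι → Bool // t₀ ≤ (KS b x y Y).card} : ℝ) ≤
      ((∑ j ∈ range (t₀ + 1), (Fintype.card ι).choose j : ℕ) : ℝ) * (4 / lo * 2 ^ Fintype.card ι) := by
  classical
  have hlo0 : 0 < lo := by linarith
  have hcard2 : (2 : ℝ) ≤ Fintype.card ι := by exact_mod_cast hm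
  have hP : ∀ p ∈ KP b y Y, p.Prime ∧ (y ≤ p ∧ (p : ℝ) ≤ Y) ∧ ∃ w : ι → ZMod p, w ≠ 0 ∧ smul2 b w = 0 := by
    intro p hp
    unfold KP at hp
    obtain ⟨hr, hpp, hyp, hw⟩ := mem_filter.1 hp
    refine ⟨hpp, ⟨hyp, ?_⟩, hw⟩
    have h1 : p ≤ ⌊Y⌋₊ := by
      have := mem_range.1 hr
      omega
    have hY0 : 0 ≤ Y := by
      by_contra hcon
      rw [Nat.floor_of_nonpos (le_of_not_ge hcon)] at h1
      have := hpp.pos
      omega
    exact (Nat.le_floor_iff hY0).1 h1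
  have h := M8Row.row_count b (KP b y Y) (fun p hp => (hP p hp).1) (fun p hp => (hP p hp).2.2) lo y Y t₀ hlo
    (by linarith) (fun p hp => (hP p hp).2.1) ht
    (fun N hN hNP h1 h2 => hng N hN (fun p hp hpN => (hP p (hNP p hp hpN)).2.1) h1 h2)
  have h' : (Nat.card {x : ι → Bool // t₀ ≤ (KS b x y Y).card} : ℝ) =
      (Nat.card {x : ι → Bool // t₀ ≤ ((KP b y Y).filter (fun p => ∀ w : ι → ZMod p, smul2 b w = 0 →
        G.bdot x w = 0)).card} : ℝ) := rfl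
  rw [h']
  refine h.trans (mul_le_mul_of_nonneg_right ?_ (by positivity))
  rw [Nat.cast_le]
  exact sum_le_sum fun j _ => Nat.choose_le_choose j (card_KP_le b hdet y Y hy1 hm)

/-- number of sets with small complement -/
theorem card_big (n τ : ℕ) : ((univ.filter fun T : Finset (Fin n) => n ≤ T.card + τ).card) ≤ (n + 1) ^ τ := by
  classical
  have h1 : (univ.filter fun T : Finset (Fin n) => n ≤ T.card + τ).card ≤
      ((range (τ + 1)).biUnion fun j => powersetCard j (univ : Finset (Fin n))).card := by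
    refine card_le_card_of_injOn (fun T => Tᶜ) ?_ fun T _ T' _ h => compl_injective h
    intro T hT
    have hT' := (mem_filter.1 hT).2
    simp only [coe_biUnion, Set.mem_iUnion, mem_coe, mem_range, mem_powersetCard]
    refine ⟨Tᶜ.card, ?_, subset_univ _, rfl⟩
    rw [card_compl, Fintype.card_fin]
    omega
  refine h1.trans (card_biUnion_le.trans ?_)
  rw [add_pow]
  refine sum_le_sum fun j hj => ?_
  rw [card_powersetCard, card_univ, Fintype.card_fin, one_pow, mul_one]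
  have h2 : n.choose j ≤ n ^ j := Nat.choose_le_pow n j
  have h3 : 1 ≤ τ.choose j := Nat.choose_pos (Nat.lt_succ_iff.1 (mem_range.1 hj))
  calc n.choose j ≤ n ^ j * 1 := by rw [mul_one]; exact h2
    _ ≤ n ^ j * τ.choose j := Nat.mul_le_mul_left _ h3

theorem union_le {X I : Type*} [Fintype X] (E : X → Prop) (J : Finset I) (F : I → X → Prop) (K : ℝ)
    (hE : ∀ x, E x → ∃ j ∈ J, F j x) (hF : ∀ j ∈ J, (Nat.card {x // F j x} : ℝ) ≤ K) :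
    (Nat.card {x // E x} : ℝ) ≤ J.card * K := by
  classical
  have h0 : ∀ A : X → Prop, Nat.card {x // A x} = (univ.filter A).card := fun A => by
    rw [Nat.card_eq_fintype_card, Fintype.card_subtype]
  have h1 : (univ.filter E).card ≤ ∑ j ∈ J, (univ.filter (F j)).card := by
    refine (card_le_card ?_).trans (card_biUnion_le (s := J) (t := fun j => univ.filter (F j)))
    intro x hx
    obtain ⟨j, hj, hjx⟩ := hE x (mem_filter.1 hx).2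
    exact mem_biUnion.2 ⟨j, hj, mem_filter.2 ⟨mem_univ _, hjx⟩⟩
  rw [h0]
  calc ((univ.filter E).card : ℝ) ≤ ((∑ j ∈ J, (univ.filter (F j)).card : ℕ) : ℝ) := by exact_mod_cast h1
    _ = ∑ j ∈ J, ((univ.filter (F j)).card : ℝ) := by push_cast; rfl
    _ ≤ ∑ j ∈ J, K := sum_le_sum fun j hj => by
        have := hF j hj
        rwa [h0] at this
    _ = J.card * K := by rw [sum_const, nsmul_eq_mul]

theorem or_le {X : Type*} [Fintype X] (E E₁ E₂ : X → Prop) (h : ∀ x, E x → E₁ x ∨ E₂ x) :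
    (Nat.card {x // E x} : ℝ) ≤ Nat.card {x // E₁ x} + Nat.card {x // E₂ x} := by
  classical
  have h0 : ∀ A : X → Prop, Nat.card {x // A x} = (univ.filter A).card := fun A => by
    rw [Nat.card_eq_fintype_card, Fintype.card_subtype]
  rw [h0, h0, h0]
  have h1 : (univ.filter E).card ≤ (univ.filter E₁).card + (univ.filter E₂).card := by
    refine (card_le_card ?_).trans (card_union_le _ _)
    intro x hx
    rcases h x (mem_filter.1 hx).2 with h | h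
    · exact mem_union_left _ (mem_filter.2 ⟨mem_univ _, h⟩)
    · exact mem_union_right _ (mem_filter.2 ⟨mem_univ _, h⟩)
  exact_mod_cast h1

theorem kden_nonneg (m : ℕ) (Qs : ℕ → Prop) (t z : ℕ) : 0 ≤ kden m Qs t z := by
  unfold kden; positivity

/-- one pair `(T, i)` -/
theorem pair_le {n τ : ℕ} (T : Finset (Fin n)) (i : Fin n) (hi : i ∉ T) (Qs : ℕ → Prop) (t z t₀ : ℕ) (g b₁ B c' S : ℝ)
    (hm : 2 ≤ T.card) (hg : 0 < g) (hb : 1 < b₁) (hTn : T.card ≤ n) (hB : 0 ≤ B)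
    (ht : (2 : ℝ) ^ (g * n) ≤ ((n : ℝ) ^ b₁) ^ t₀) (hBn : (n : ℝ) ^ B ≤ (T.card : ℝ) ^ (B + 1))
    (hS : ((∑ j ∈ range (t₀ + 1), n.choose j : ℕ) : ℝ) ≤ S)
    (hNG : (Nat.card {b : Sym2 T → Bool // NGb g b₁ (B + 1) T.card b} : ℝ) ≤
      (2 : ℝ) ^ (-(c' * T.card)) * 2 ^ Fintype.card (Sym2 T)) :
    (Nat.card {b : Sym2 (Fin n) → Bool // (matZ (bT b T)).det ≠ 0 ∧ Kill Qs t z (matZ (bT b T)) ∧
      t₀ ≤ (KS (bT b T) (rw_ b T i) ((n : ℝ) ^ b₁) ((n : ℝ) ^ B)).card} : ℝ) ≤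
      (kden T.card Qs t z * (S * (4 / 2 ^ (g * T.card))) + (2 : ℝ) ^ (-(c' * T.card))) * 2 ^ Fintype.card (Sym2 (Fin n)) := by
  classical
  have hT2 : (2 : ℝ) ≤ T.card := by exact_mod_cast hm
  have hn2 : (2 : ℝ) ≤ n := hT2.trans (by exact_mod_cast hTn)
  have hTn' : (T.card : ℝ) ≤ n := by exact_mod_cast hTn
  have hlo : (1 : ℝ) < 2 ^ (g * T.card) := Real.one_lt_rpow (by norm_num) (by positivity)
  have hlo0 : (0 : ℝ) < 2 ^ (g * T.card) := by linarith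
  have hy1 : (Fintype.card T : ℝ) ≤ (n : ℝ) ^ b₁ := by
    rw [Fintype.card_coe]
    calc (T.card : ℝ) ≤ n := hTn'
      _ = (n : ℝ) ^ (1 : ℝ) := (Real.rpow_one _).symm
      _ ≤ (n : ℝ) ^ b₁ := Real.rpow_le_rpow_of_exponent_le (by linarith) hb.le
  have hS0 : 0 ≤ S := (Nat.cast_nonneg _).trans hS
  refine (or_le _ (fun b => NGb g b₁ (B + 1) T.card (bT b T)) (fun b => (¬ NGb g b₁ (B + 1) T.card (bT b T) ∧
    (matZ (bT b T)).det ≠ 0 ∧ Kill Qs t z (matZ (bT b T)) ∧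
      t₀ ≤ (KS (bT b T) (rw_ b T i) ((n : ℝ) ^ b₁) ((n : ℝ) ^ B)).card)) (fun b hb => by tauto)).trans ?_
  rw [add_mul, add_comm]
  refine add_le_add ?_ ?_
  · have h := dens_le T i hi (fun b' => Kill Qs t z (matZ b')) (fun b' x => ¬ NGb g b₁ (B + 1) T.card b' ∧
      (matZ b').det ≠ 0 ∧ Kill Qs t z (matZ b') ∧ t₀ ≤ (KS b' x ((n : ℝ) ^ b₁) ((n : ℝ) ^ B)).card)
      (fun b' x h => h.2.2.1) (S * (4 / 2 ^ (g * T.card))) (by positivity) ?_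
    · refine h.trans ?_
      refine mul_le_mul_of_nonneg_right (mul_le_mul_of_nonneg_right ?_ (by positivity)) (by positivity)
      have hk := kden_le (α := T) Qs t z
      rwa [Fintype.card_coe] at hk
    · intro b' hb'
      by_cases h1 : ¬ NGb g b₁ (B + 1) T.card b' ∧ (matZ b').det ≠ 0
      · have h2 := hrow b' t₀ (2 ^ (g * T.card)) ((n : ℝ) ^ b₁) ((n : ℝ) ^ B) (by rw [Fintype.card_coe]; exact hm) hlo hy1
          ((Real.rpow_le_rpow_of_exponent_le (by norm_num) (mul_le_mul_of_nonneg_left hTn' hg.le)).trans ht) h1.2 (by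
            intro N hN hp hN1 hN2
            by_contra hgood
            refine h1.1 ⟨N, hN, fun p hpp hpN => ⟨?_, (hp p hpp hpN).2.trans hBn⟩, hN1, ?_, hgood⟩
            · refine le_trans ?_ (hp p hpp hpN).1
              exact Real.rpow_le_rpow (Nat.cast_nonneg _) hTn' (by linarith)
            · exact hN2.trans (mul_le_mul_of_nonneg_left hBn hlo0.le))
        have h3 : (Nat.card {x : T → Bool // ¬ NGb g b₁ (B + 1) T.card b' ∧
            (matZ b').det ≠ 0 ∧ Kill Qs t z (matZ b') ∧ t₀ ≤ (KS b' x ((n : ℝ) ^ b₁) ((n : ℝ) ^ B)).card} : ℝ) ≤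
            (Nat.card {x : T → Bool // t₀ ≤ (KS b' x ((n : ℝ) ^ b₁) ((n : ℝ) ^ B)).card} : ℝ) := by
          rw [Nat.cast_le]
          exact Nat.card_le_card_of_injective (fun x => ⟨x.1, x.2.2.2.2⟩) fun x x' h => Subtype.ext
            (congrArg (fun w : {x : T → Bool // t₀ ≤ (KS b' x ((n : ℝ) ^ b₁) ((n : ℝ) ^ B)).card} => w.1) h)
        refine h3.trans (h2.trans ?_)
        rw [Fintype.card_coe, ← mul_assoc]
        refine mul_le_mul_of_nonneg_right (mul_le_mul_of_nonneg_right (le_trans ?_ hS) (by positivity)) (by positivity)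
        rw [Nat.cast_le]
        exact sum_le_sum fun j _ => Nat.choose_le_choose j hTn
      · have h2 : IsEmpty {x : T → Bool // ¬ NGb g b₁ (B + 1) T.card b' ∧
            (matZ b').det ≠ 0 ∧ Kill Qs t z (matZ b') ∧ t₀ ≤ (KS b' x ((n : ℝ) ^ b₁) ((n : ℝ) ^ B)).card} := by
          rw [isEmpty_subtype]
          intro x hx
          exact h1 ⟨hx.1, hx.2.1⟩
        rw [Nat.card_of_isEmpty]
        push_cast
        positivity
  · rw [dens_eq T (fun b' => NGb g b₁ (B + 1) T.card b')]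
    refine mul_le_mul_of_nonneg_right ?_ (by positivity)
    rw [div_le_iff₀ (by positivity)]
    exact hNG

/-! ## asymptotics -/

open Filter in
theorem poly_le (τ : ℕ) (C δ : ℝ) (hC : 0 ≤ C) (hδ : 0 < δ) : ∀ᶠ n : ℕ in atTop, C * ((n : ℝ) + 1) ^ τ * n ≤ (2 : ℝ) ^ (δ * n) := by
  have h1 := M8.pow_le_two ((τ : ℝ) + 2) δ hδ
  filter_upwards [h1, eventually_ge_atTop (max 1 ⌈C * 2 ^ τ⌉₊)] with n hn hn2
  have hn1 : (1 : ℝ) ≤ n := by exact_mod_cast (le_max_left _ _).trans hn2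
  have hn3 : C * 2 ^ τ ≤ n := (Nat.le_ceil _).trans (by exact_mod_cast (le_max_right _ _).trans hn2)
  refine le_trans ?_ hn
  have e1 : (n : ℝ) ^ ((τ : ℝ) + 2) = (n : ℝ) ^ τ * n * n := by
    rw [show (τ : ℝ) + 2 = ((τ + 2 : ℕ) : ℝ) by push_cast; ring, Real.rpow_natCast, pow_add]
    ring
  rw [e1]
  have h2 : ((n : ℝ) + 1) ^ τ ≤ 2 ^ τ * (n : ℝ) ^ τ := by
    rw [← mul_pow]
    exact pow_le_pow_left₀ (by positivity) (by linarith) _
  have h3 : 0 ≤ (n : ℝ) ^ τ * n := by positivity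
  calc C * ((n : ℝ) + 1) ^ τ * n ≤ C * (2 ^ τ * (n : ℝ) ^ τ) * n := by gcongr
    _ = (C * 2 ^ τ) * ((n : ℝ) ^ τ * n) := by ring
    _ ≤ n * ((n : ℝ) ^ τ * n) := mul_le_mul_of_nonneg_right hn3 h3
    _ ≤ 4 * ((n : ℝ) ^ τ * n * n) := by nlinarith [mul_nonneg h3 (by linarith : (0 : ℝ) ≤ n)]

/-- sets with small complement -/
def Big (n τ : ℕ) : Finset (Finset (Fin n)) := univ.filter fun T : Finset (Fin n) => n ≤ T.card + τ

/-- the pairs -/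
def Prs (n τ : ℕ) : Finset (Finset (Fin n) × Fin n) :=
  (Big n τ ×ˢ (univ : Finset (Fin n))).filter fun p => p.2 ∉ p.1 ∧ p.1.card < n

/-- some large minor is singular -/
def E1 (n τ : ℕ) (b : Sym2 (Fin n) → Bool) : Prop := ∃ T ∈ Big n τ, (matZ (bT b T)).det = 0

/-- the event for one pair -/
def F2 (n : ℕ) (Qs : ℕ → Prop) (t z t₀ : ℕ) (y Y : ℝ) (p : Finset (Fin n) × Fin n) (b : Sym2 (Fin n) → Bool) : Prop :=
  (matZ (bT b p.1)).det ≠ 0 ∧ Kill Qs t z (matZ (bT b p.1)) ∧ t₀ ≤ (KS (bT b p.1) (rw_ b p.1 p.2) y Y).card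

/-- some pair -/
def E2 (n τ : ℕ) (Qs : ℕ → Prop) (t z t₀ : ℕ) (y Y : ℝ) (b : Sym2 (Fin n) → Bool) : Prop :=
  ∃ p ∈ Prs n τ, F2 n Qs t z t₀ y Y p b

theorem incl2 {n τ : ℕ} (ε b₁ B B₀ : ℝ) (hε : 0 < ε) (hb : 1 < b₁) (hB : B ≤ B₀) (hτ1 : 1 ≤ τ) (hτn : τ < n)
    (hτε : 1 ≤ ((τ : ℝ) + 2) * ε) (hn2 : 2 ≤ n) (Qs : ℕ → Prop) (hQ : ∀ q, Qs q → 2 ≤ q) (t z t₀ : ℕ)
    (ht2 : (t₀ : ℝ) ≤ ε / (4 * τ) * n) (b : Sym2 (Fin n) → Bool)
    (h : (matZ b).det ≠ 0 ∧ Kill Qs t z (matZ b) ∧ ε * n ≤ N2 (matZ b) ((n : ℝ) ^ b₁) ((n : ℝ) ^ B)) :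
    E1 n τ b ∨ E2 n τ Qs t (z - τ) t₀ ((n : ℝ) ^ b₁) ((n : ℝ) ^ B₀) b := by
  classical
  obtain ⟨hdet, hk, hN⟩ := h
  have hτ0 : (0 : ℝ) < τ := by exact_mod_cast hτ1
  have hn1 : (1 : ℝ) ≤ n := by exact_mod_cast (by omega : 1 ≤ n)
  have hnR : (0 : ℝ) < n := by linarith
  set K : ℕ := ⌊ε * n / 2⌋₊ with hK
  have hK1 : (K : ℝ) ≤ ε * n / 2 := Nat.floor_le (by positivity)
  have hK2 : ε * n / 2 < K + 1 := Nat.lt_floor_add_one _
  by_cases hE : E1 n τ b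
  · exact Or.inl hE
  · right
    have hE' : ∀ T : Finset (Fin n), n ≤ T.card + τ → (matZ (bT b T)).det ≠ 0 := by
      intro T hT h0
      exact hE ⟨T, mem_filter.2 ⟨mem_univ _, hT⟩, h0⟩
    obtain ⟨T, i, hiT, hTn, hTτ, hkT, hNT⟩ := M8Incl.incl (Y := (n : ℝ) ^ B₀) b ((n : ℝ) ^ b₁) Qs hQ t z K hτ1 hτn
      (Real.one_le_rpow hn1 (by linarith)) hk
      (fun T hT => by
        rw [M8Incl.prin_matZ]
        exact hE' T (by omega))
      (by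
        rw [← Real.rpow_natCast, ← Real.rpow_natCast, ← Real.rpow_mul hnR.le]
        refine Real.rpow_lt_rpow_of_exponent_lt (by exact_mod_cast (by omega : 1 < n)) ?_
        push_cast
        have h5 : (n : ℝ) ≤ 2 * ((τ : ℝ) + 2) * (ε * n / 2) := by nlinarith
        have h6 : 2 * ((τ : ℝ) + 2) * (ε * n / 2) ≤ 2 * ((τ : ℝ) + 2) * (K + 1) := by
          have : (0 : ℝ) ≤ 2 * ((τ : ℝ) + 2) := by positivity
          exact mul_le_mul_of_nonneg_left hK2.le this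
        have h7 : (0 : ℝ) < 2 * ((τ : ℝ) + 2) * (K + 1) := by positivity
        nlinarith)
    refine ⟨(T, i), mem_filter.2 ⟨mem_product.2 ⟨mem_filter.2 ⟨mem_univ _, hTτ⟩, mem_univ _⟩, hiT, hTn⟩,
      hE' T hTτ, hkT, ?_⟩
    have h5 : (N2 (matZ b) ((n : ℝ) ^ b₁) ((n : ℝ) ^ B) : ℝ) ≤ N2 (matZ b) ((n : ℝ) ^ b₁) ((n : ℝ) ^ B₀) := by
      rw [Nat.cast_le]
      unfold N2
      refine card_le_card fun p hp => ?_
      unfold S2 at hp ⊢
      obtain ⟨hp1, hp2⟩ := mem_filter.1 hp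
      refine mem_filter.2 ⟨mem_range.2 (lt_of_lt_of_le (mem_range.1 hp1) ?_), hp2⟩
      have : ⌊(n : ℝ) ^ B⌋₊ ≤ ⌊(n : ℝ) ^ B₀⌋₊ :=
        Nat.floor_le_floor (Real.rpow_le_rpow_of_exponent_le hn1 hB)
      omega
    have h6 : (N2 (matZ b) ((n : ℝ) ^ b₁) ((n : ℝ) ^ B₀) : ℝ) ≤
        K + τ * (KS (bT b T) (rw_ b T i) ((n : ℝ) ^ b₁) ((n : ℝ) ^ B₀)).card := by exact_mod_cast hNT
    have h7 : (t₀ : ℝ) ≤ (KS (bT b T) (rw_ b T i) ((n : ℝ) ^ b₁) ((n : ℝ) ^ B₀)).card := by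
      refine ht2.trans ?_
      have h8 : ε * n / 2 ≤ τ * ((KS (bT b T) (rw_ b T i) ((n : ℝ) ^ b₁) ((n : ℝ) ^ B₀)).card : ℝ) := by linarith
      have h9 : ε / (4 * τ) * n = (ε * n / 2) / (2 * τ) := by field_simp; ring
      rw [h9, div_le_iff₀ (by positivity)]
      have h10 : (0 : ℝ) ≤ (KS (bT b T) (rw_ b T i) ((n : ℝ) ^ b₁) ((n : ℝ) ^ B₀)).card := Nat.cast_nonneg _
      nlinarith
    exact_mod_cast h7

theorem cast_big {n τ : ℕ} {T : Finset (Fin n)} (hT : n ≤ T.card + τ) : (n : ℝ) - τ ≤ T.card := by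
  have : (n : ℝ) ≤ T.card + τ := by exact_mod_cast hT
  linarith

theorem card_E1 {n τ n₂ : ℕ} {r : ℝ} (hr : 0 ≤ r) (hn : n₂ + τ ≤ n)
    (h2 : ∀ (ι : Type) [Fintype ι] [DecidableEq ι], n₂ ≤ Fintype.card ι →
      (Nat.card {b : Sym2 ι → Bool // (matZ b).det = 0} : ℝ) ≤
        (2 : ℝ) ^ (-(r * Fintype.card ι)) * 2 ^ Fintype.card (Sym2 ι)) :
    (Nat.card {b // E1 n τ b} : ℝ) ≤
      ((n : ℝ) + 1) ^ τ * ((2 : ℝ) ^ (-(r * (n - τ))) * 2 ^ Fintype.card (Sym2 (Fin n))) := by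
  classical
  have hbig : ((Big n τ).card : ℝ) ≤ ((n : ℝ) + 1) ^ τ := by exact_mod_cast card_big n τ
  refine (union_le (E1 n τ) (Big n τ) (fun T b => (matZ (bT b T)).det = 0)
    ((2 : ℝ) ^ (-(r * (n - τ))) * 2 ^ Fintype.card (Sym2 (Fin n)))
    (fun b hb => hb) ?_).trans (mul_le_mul_of_nonneg_right hbig (by positivity))
  intro T hT
  have hT' := (mem_filter.1 hT).2
  rw [dens_eq T (fun b' => (matZ b').det = 0)]
  refine mul_le_mul_of_nonneg_right ?_ (by positivity)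
  rw [div_le_iff₀ (by positivity)]
  refine (h2 T (by rw [Fintype.card_coe]; omega)).trans (mul_le_mul_of_nonneg_right ?_ (by positivity))
  rw [Fintype.card_coe]
  refine Real.rpow_le_rpow_of_exponent_le (by norm_num) ?_
  have := cast_big hT'
  nlinarith

theorem card_E2 {n τ n₁ t₀ : ℕ} (b₁ g c' ε B₀ : ℝ) (hb : 1 < b₁) (hg : 0 < g) (hc' : 0 ≤ c') (hε : 0 < ε) (hB0 : 0 ≤ B₀)
    (hn : n₁ + 2 * τ + ⌈(2 : ℝ) ^ B₀⌉₊ + 4 ≤ n) (Qs : ℕ → Prop) (t z : ℕ)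
    (h1 : ∀ n ≥ n₁, ∀ (ι : Type) [Fintype ι] [DecidableEq ι], Fintype.card ι = n →
      (Nat.card {b : Sym2 ι → Bool // NGb g b₁ (B₀ + 1) n b} : ℝ) ≤ (2 : ℝ) ^ (-(c' * n)) * 2 ^ Fintype.card (Sym2 ι))
    (ht1 : (2 : ℝ) ^ (g * n) ≤ ((n : ℝ) ^ b₁) ^ t₀)
    (ht3 : ((∑ j ∈ range (t₀ + 1), n.choose j : ℕ) : ℝ) ≤ (2 : ℝ) ^ (ε / 4 * n)) :
    (Nat.card {b // E2 n τ Qs t z t₀ ((n : ℝ) ^ b₁) ((n : ℝ) ^ B₀) b} : ℝ) ≤ (((n : ℝ) + 1) ^ τ * n) *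
      (((∑ m ∈ Icc (n - τ) n, kden m Qs t z) * (2 ^ (ε / 4 * n) * (4 / 2 ^ (g * (n - τ)))) +
        (2 : ℝ) ^ (-(c' * (n - τ)))) * 2 ^ Fintype.card (Sym2 (Fin n))) := by
  classical
  have hbig : ((Big n τ).card : ℝ) ≤ ((n : ℝ) + 1) ^ τ := by exact_mod_cast card_big n τ
  have hnR : (0 : ℝ) < n := by exact_mod_cast (by omega : 0 < n)
  have hKD0 : 0 ≤ ∑ m ∈ Icc (n - τ) n, kden m Qs t z := sum_nonneg fun m _ => kden_nonneg m Qs t _
  refine (union_le (E2 n τ Qs t z t₀ ((n : ℝ) ^ b₁) ((n : ℝ) ^ B₀)) (Prs n τ)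
    (fun p b => F2 n Qs t z t₀ ((n : ℝ) ^ b₁) ((n : ℝ) ^ B₀) p b) _ (fun b hb => hb) ?_).trans
    (mul_le_mul_of_nonneg_right ?_ (by positivity))
  · rintro ⟨T, i⟩ hp
    obtain ⟨hp1, hiT, hTn⟩ := mem_filter.1 hp
    have hTτ : n ≤ T.card + τ := (mem_filter.1 (mem_product.1 hp1).1).2
    have hTR := cast_big hTτ
    have hTn' : T.card ≤ n := le_of_lt hTn
    have hceil : (2 : ℝ) ^ B₀ ≤ T.card := by
      refine (Nat.le_ceil _).trans ?_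
      exact_mod_cast (by omega : ⌈(2 : ℝ) ^ B₀⌉₊ ≤ T.card)
    have h2T : (n : ℝ) ≤ 2 * T.card := by exact_mod_cast (by omega : n ≤ 2 * T.card)
    have hTpos : (0 : ℝ) < T.card := by exact_mod_cast (by omega : 0 < T.card)
    have hBn : (n : ℝ) ^ B₀ ≤ (T.card : ℝ) ^ (B₀ + 1) := by
      calc (n : ℝ) ^ B₀ ≤ (2 * T.card) ^ B₀ := Real.rpow_le_rpow hnR.le h2T hB0
        _ = 2 ^ B₀ * (T.card : ℝ) ^ B₀ := Real.mul_rpow (by norm_num) hTpos.le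
        _ ≤ T.card * (T.card : ℝ) ^ B₀ := mul_le_mul_of_nonneg_right hceil (by positivity)
        _ = (T.card : ℝ) ^ (B₀ + 1) := by rw [Real.rpow_add hTpos, Real.rpow_one]; ring
    have h5 := pair_le (τ := τ) T i hiT Qs t z t₀ g b₁ B₀ c' ((2 : ℝ) ^ (ε / 4 * n)) (by omega) hg hb hTn' hB0 ht1
      hBn ht3 (h1 T.card (by omega) T (Fintype.card_coe T))
    refine h5.trans (mul_le_mul_of_nonneg_right (add_le_add ?_ ?_) (by positivity))
    · refine mul_le_mul ?_ ?_ (by positivity) hKD0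
      · exact single_le_sum (f := fun m => kden m Qs t z) (fun m _ => kden_nonneg m Qs t _)
          (mem_Icc.2 ⟨by omega, hTn'⟩)
      · refine mul_le_mul_of_nonneg_left ?_ (by positivity)
        refine div_le_div_of_nonneg_left (by norm_num) (by positivity) ?_
        exact Real.rpow_le_rpow_of_exponent_le (by norm_num) (mul_le_mul_of_nonneg_left hTR hg.le)
    · refine Real.rpow_le_rpow_of_exponent_le (by norm_num) ?_
      nlinarith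
  · have h6 : ((Prs n τ).card : ℝ) ≤ ((Big n τ ×ˢ (univ : Finset (Fin n))).card : ℝ) := by
      exact_mod_cast card_filter_le _ _
    refine h6.trans ?_
    rw [card_product, card_univ, Fintype.card_fin]
    push_cast
    exact mul_le_mul_of_nonneg_right hbig hnR.le

/-- final arithmetic, first term -/
theorem ar1 (n τ : ℕ) (g ε : ℝ) (e1 : 4 * 2 ^ (g * τ) * ((n : ℝ) + 1) ^ τ * n ≤ (2 : ℝ) ^ (3 * ε / 4 * n)) :
    ((n : ℝ) + 1) ^ τ * n * ((2 : ℝ) ^ (ε / 4 * n) * (4 / 2 ^ (g * (n - τ)))) ≤ 2 ^ (-(g * n) + ε * n) := by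
  have q1 : (4 : ℝ) / 2 ^ (g * (n - τ)) = 4 * 2 ^ (g * τ) * 2 ^ (-(g * n)) := by
    rw [div_eq_mul_inv, ← Real.rpow_neg (by norm_num), mul_assoc, ← Real.rpow_add (by norm_num)]
    congr 2
    ring
  rw [q1]
  calc ((n : ℝ) + 1) ^ τ * n * ((2 : ℝ) ^ (ε / 4 * n) * (4 * 2 ^ (g * τ) * 2 ^ (-(g * n))))
      = (4 * 2 ^ (g * τ) * ((n : ℝ) + 1) ^ τ * n) * (2 ^ (ε / 4 * n) * 2 ^ (-(g * n))) := by ring
    _ ≤ 2 ^ (3 * ε / 4 * n) * (2 ^ (ε / 4 * n) * 2 ^ (-(g * n))) :=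
        mul_le_mul_of_nonneg_right e1 (by positivity)
    _ = 2 ^ (-(g * n) + ε * n) := by
        rw [← Real.rpow_add (by norm_num), ← Real.rpow_add (by norm_num)]
        congr 1
        ring

/-- final arithmetic, error terms -/
theorem ar2 (n τ : ℕ) (c' : ℝ) (e3 : 2 * 2 ^ (c' * τ) * ((n : ℝ) + 1) ^ τ * n ≤ (2 : ℝ) ^ ((c' - 1 / 8) * n)) :
    ((n : ℝ) + 1) ^ τ * n * (2 : ℝ) ^ (-(c' * (n - τ))) ≤ 1 / 2 * 2 ^ (-(n / 8 : ℝ)) := by
  have q1 : (2 : ℝ) ^ (-(c' * (n - τ))) = 2 ^ (c' * τ) * 2 ^ (-(c' * n)) := by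
    rw [← Real.rpow_add (by norm_num)]
    congr 1
    ring
  have q2 : (2 : ℝ) ^ (-(n / 8 : ℝ)) = 2 ^ ((c' - 1 / 8) * n) * 2 ^ (-(c' * n)) := by
    rw [← Real.rpow_add (by norm_num)]
    congr 1
    ring
  have q3 : (0 : ℝ) < 2 ^ (-(c' * n)) := by positivity
  have q4 : ((n : ℝ) + 1) ^ τ * n * 2 ^ (c' * τ) ≤ 1 / 2 * 2 ^ ((c' - 1 / 8) * n) := by
    have q7 : 2 * 2 ^ (c' * τ) * ((n : ℝ) + 1) ^ τ * n = 2 * (((n : ℝ) + 1) ^ τ * n * 2 ^ (c' * τ)) := by ring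
    linarith
  rw [q1, q2]
  nlinarith [mul_le_mul_of_nonneg_right q4 q3.le]

open Filter in
/-- **Last row bound**, every rate `g` for which few matrices are not good. -/
theorem mrow (b₁ g c' r : ℝ) (hb : 1 < b₁) (hg : 0 < g) (hc' : 1 / 8 < c') (hr : 1 / 8 < r)
    (hNG : ∀ B : ℝ, 1 ≤ B → NG b₁ g c' B) (hS : Sing r) : MRow b₁ g := by
  classical
  intro ε B hε
  set B₀ : ℝ := max B 0 with hB₀
  have hB0 : 0 ≤ B₀ := le_max_right _ _
  obtain ⟨τ, hτ⟩ : ∃ τ, τ = ⌈1 / ε⌉₊ + 1 := ⟨_, rfl⟩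
  have hτ1 : 1 ≤ τ := by omega
  have hτε : 1 ≤ ((τ : ℝ) + 2) * ε := by
    have h1 : 1 / ε ≤ ⌈1 / ε⌉₊ := Nat.le_ceil _
    have h2 : ((⌈1 / ε⌉₊ : ℕ) : ℝ) ≤ τ := by rw [hτ]; push_cast; linarith
    rw [div_le_iff₀ hε] at h1
    nlinarith
  have hτ0 : (0 : ℝ) < τ := by exact_mod_cast hτ1
  obtain ⟨n₁, h1⟩ := hNG (B₀ + 1) (by linarith)
  obtain ⟨n₂, h2⟩ := card_sing hS
  obtain ⟨n₃, h3⟩ := exists_t b₁ g (ε / 4) (ε / (4 * τ)) (by linarith) hg.le (by positivity) (by positivity)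
  have e1 := poly_le τ (4 * 2 ^ (g * τ)) (3 * ε / 4) (by positivity) (by positivity)
  have e2 := poly_le τ (2 * 2 ^ (r * τ)) (r - 1 / 8) (by positivity) (by linarith)
  have e3 := poly_le τ (2 * 2 ^ (c' * τ)) (c' - 1 / 8) (by positivity) (by linarith)
  obtain ⟨n₄, h4⟩ := eventually_atTop.1 (e1.and (e2.and e3))
  refine ⟨τ, n₁ + n₂ + n₃ + n₄ + 2 * τ + ⌈(2 : ℝ) ^ B₀⌉₊ + 4, fun n hn Qs hQ t z => ?_⟩
  obtain ⟨e1, e2, e3⟩ := h4 n (by omega)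
  obtain ⟨t₀, ht1, ht2, ht3⟩ := h3 n (by omega)
  have hn1 : (1 : ℝ) ≤ n := by exact_mod_cast (by omega : 1 ≤ n)
  have hb1 := card_E1 (n := n) (τ := τ) (by linarith : (0 : ℝ) ≤ r) (by omega) h2
  have hb2 := card_E2 (n := n) (τ := τ) b₁ g c' ε B₀ hb hg (by linarith) hε hB0 (by omega) Qs t (z - τ) h1 ht1 ht3
  have htot := (or_le _ (E1 n τ) (E2 n τ Qs t (z - τ) t₀ ((n : ℝ) ^ b₁) ((n : ℝ) ^ B₀))
    (fun b hb' => incl2 ε b₁ B B₀ hε hb (le_max_left _ _) hτ1 (by omega) hτε (by omega) Qs hQ t z t₀ ht2 b hb')).trans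
    (add_le_add hb1 hb2)
  refine htot.trans ?_
  set D : ℝ := 2 ^ Fintype.card (Sym2 (Fin n)) with hD
  have hD0 : 0 < D := by positivity
  set KD : ℝ := ∑ m ∈ Icc (n - τ) n, kden m Qs t (z - τ) with hKD
  have hKD0 : 0 ≤ KD := sum_nonneg fun m _ => kden_nonneg m Qs t _
  have p1 := mul_le_mul_of_nonneg_left (ar1 n τ g ε e1) hKD0
  have p2 := ar2 n τ r e2
  have p2' : ((n : ℝ) + 1) ^ τ * (2 : ℝ) ^ (-(r * (n - τ))) ≤ ((n : ℝ) + 1) ^ τ * n * (2 : ℝ) ^ (-(r * (n - τ))) := by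
    refine mul_le_mul_of_nonneg_right ?_ (by positivity)
    exact le_mul_of_one_le_right (by positivity) hn1
  have p3 := ar2 n τ c' e3
  have e : ((n : ℝ) + 1) ^ τ * ((2 : ℝ) ^ (-(r * (n - τ))) * D) + (((n : ℝ) + 1) ^ τ * n) *
      ((KD * (2 ^ (ε / 4 * n) * (4 / 2 ^ (g * (n - τ)))) + (2 : ℝ) ^ (-(c' * (n - τ)))) * D) =
      (KD * (((n : ℝ) + 1) ^ τ * n * (2 ^ (ε / 4 * n) * (4 / 2 ^ (g * (n - τ))))) +
        (((n : ℝ) + 1) ^ τ * (2 : ℝ) ^ (-(r * (n - τ))) + ((n : ℝ) + 1) ^ τ * n * (2 : ℝ) ^ (-(c' * (n - τ))))) * D := by ring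
  rw [e]
  refine mul_le_mul_of_nonneg_right ?_ hD0.le
  linarith

/-- the last row bound from the statement on the i.i.d. half size matrices -/
theorem mrow_of_xi (hN : NotGoodStmt) (b₁ g c δ r : ℝ) (hb : 1 < b₁) (hg : 0 < g) (hc : 1 / 8 < c / 2 - g - δ) (hδ : 0 < δ)
    (hr : 1 / 8 < r) (hX : ∀ B : ℝ, 1 ≤ B → StmtXi b₁ (2 * g + δ) c (B + 1)) (hS : Sing r) : MRow b₁ g :=
  mrow b₁ g (c / 2 - g - δ) r hb hg hc hr (fun B hB => ng_of_xi hN b₁ g c B δ hb hg (by linarith) hB hδ (hX B hB)) hS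

end Vale.Agent.P160.Half.M8Top
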