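import Vale.Agent.P160.Half.FlatL
import Vale.Agent.P160.Half.FlatC

/-! P160-HALF, (M): tail of LEMMA MC for every laziness `M ≥ 4` (986 (A), dissociated tuples). -/

namespace Vale.Agent.P160.Half.Flat.Tail

open Finset Vale.Agent.P160 Vale.Agent.P160.Half.Flat Vale.Agent.P160.Half.Flat.L398

section

variable {G : Type} [AddCommGroup G] [Fintype G]

/-- characters with product at least `t` (law `M`) -/
noncomputable def LM {m : ℕ} (M : ℕ) (y : Fin m → G) (t : ℝ) : Finset (AddChar G ℂ) := by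
  classical exact univ.filter fun ψ => t ≤ gP M y ψ

lemma mem_LM {m M : ℕ} {y : Fin m → G} {t : ℝ} {ψ : AddChar G ℂ} :
    ψ ∈ LM M y t ↔ t ≤ gP M y ψ := by
  classical
  unfold LM
  simp

lemma st8 (ε : ℤ) (h : ε = 0 ∨ ε = 1 ∨ ε = -1) : ∃ b : Fin 8, st b = ε := by
  rcases h with rfl | rfl | rfl
  · exact ⟨2, by decide⟩
  · exact ⟨0, by decide⟩
  · exact ⟨1, by decide⟩

lemma diss_int {H : Type} [CommGroup H] {l : ℕ} {s : Fin l → H} (hs : Diss s) (ε : Fin l → ℤ)
    (hε : ∀ a, ε a = 0 ∨ ε a = 1 ∨ ε a = -1) (h : ∏ a, s a ^ ε a = 1) : ∀ a, ε a = 0 := by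
  choose b hb using fun a => st8 (ε a) (hε a)
  have h2 := hs b (by
    rw [← h]
    exact prod_congr rfl fun a _ => by rw [hb])
  intro a
  rw [← hb]
  exact h2 a

lemma st_casesM {M : ℕ} (a : Fin M) : st a = 0 ∨ st a = 1 ∨ st a = -1 := by
  unfold st
  split_ifs
  · exact Or.inr (Or.inl rfl)
  · exact Or.inr (Or.inr rfl)
  · exact Or.inl rfl

lemma card_st_zeroM {M : ℕ} (hM : 2 ≤ M) : (univ.filter fun a : Fin M => st a = 0).card = M - 2 := by
  have h : (univ.filter fun a : Fin M => ¬ st a = 0).card = 2 := by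
    have h1 : (univ.filter fun a : Fin M => ¬ st a = 0) = {⟨0, by omega⟩, ⟨1, by omega⟩} := by
      ext a
      rw [mem_filter, mem_insert, mem_singleton]
      unfold st
      constructor
      · rintro ⟨_, h⟩
        split_ifs at h with h1 h2
        · exact Or.inl (Fin.ext h1)
        · exact Or.inr (Fin.ext h2)
        · exact absurd rfl h
      · rintro (rfl | rfl)
        · simp
        · simp
    rw [h1, card_pair]
    intro h
    rw [Fin.mk.injEq] at h
    exact absurd h (by norm_num)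
  have h2 := card_filter_add_card_filter_not (s := (univ : Finset (Fin M))) (fun a => st a = 0)
  rw [h, card_univ, Fintype.card_fin] at h2
  omega

lemma sum_cf_dissM {M l : ℕ} (hM : 2 ≤ M) {s : Fin l → AddChar G ℂ} (hs : Diss s) :
    ∑ v : G, ∏ a, cf M (s a v) = Fintype.card G * (1 - 2 / M : ℝ) ^ l := by
  classical
  have hM0 : (0 : ℝ) < M := by
    have : 0 < M := by omega
    exact_mod_cast this
  have h1 : ∀ v : G, (((M : ℝ) ^ l * ∏ a, cf M (s a v) : ℝ) : ℂ) =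
      ∑ ω : Fin l → Fin M, (∏ a, s a ^ (st (ω a))) v := by
    intro v
    have := sum_prod_zpow_st (M := M) hM (fun a : Fin l => s a v)
      (fun a => AddChar.norm_apply _ _)
    rw [Fintype.card_fin] at this
    rw [← this]
    refine sum_congr rfl fun ω _ => ?_
    rw [AddChar.prod_apply]
    exact (prod_congr rfl fun a _ => AddChar.zpow_apply _ _ _).symm
  have h2 : (((M : ℝ) ^ l * ∑ v : G, ∏ a, cf M (s a v) : ℝ) : ℂ) =
      ((Fintype.card G * ((M - 2 : ℕ) : ℝ) ^ l : ℝ) : ℂ) := by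
    rw [mul_sum]
    rw [Complex.ofReal_sum]
    simp only [h1]
    rw [sum_comm]
    have h3 : ∀ ω : Fin l → Fin M, ∑ v : G, (∏ a, s a ^ (st (ω a))) v =
        if (∀ a, st (ω a) = 0) then (Fintype.card G : ℂ) else 0 := by
      intro ω
      rw [AddChar.sum_eq_ite]
      have : (∏ a, s a ^ (st (ω a)) = 0) ↔ (∀ a, st (ω a) = 0) := by
        constructor
        · intro h
          exact diss_int hs _ (fun a => st_casesM _) h
        · intro h
          have : ∏ a, s a ^ (st (ω a)) = 1 := by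
            simp [h]
          exact this
      simp only [this]
    simp only [h3]
    rw [← sum_filter, sum_const, nsmul_eq_mul]
    have h4 : (univ.filter fun ω : Fin l → Fin M => ∀ a, st (ω a) = 0) =
        Fintype.piFinset (fun _ : Fin l => univ.filter fun a : Fin M => st a = 0) := by
      ext ω
      simp
    rw [h4, Fintype.card_piFinset]
    simp only [card_st_zeroM hM, prod_const, card_univ, Fintype.card_fin]
    push_cast
    ring
  have h5 : (M : ℝ) ^ l * ∑ v : G, ∏ a, cf M (s a v) = Fintype.card G * ((M - 2 : ℕ) : ℝ) ^ l := by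
    exact_mod_cast h2
  have h6 : (0 : ℝ) < M ^ l := by positivity
  have h7 : (((M - 2 : ℕ) : ℝ)) ^ l = M ^ l * (1 - 2 / M) ^ l := by
    rw [← mul_pow]
    congr 1
    push_cast [Nat.cast_sub hM]
    field_simp
  rw [h7] at h5
  have h8 : (M : ℝ) ^ l * ∑ v : G, ∏ a, cf M (s a v) =
      M ^ l * (Fintype.card G * (1 - 2 / M : ℝ) ^ l) := by rw [h5]; ring
  exact mul_left_cancel₀ h6.ne' h8

lemma gP_nonnegM {m M : ℕ} (hM : 4 ≤ M) (y : Fin m → G) (ψ : AddChar G ℂ) : 0 ≤ gP M y ψ :=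
  prod_nonneg fun _ _ => cf_nonneg hM (AddChar.norm_apply _ _)

lemma gP_le_oneM {m M : ℕ} (hM : 4 ≤ M) (y : Fin m → G) (ψ : AddChar G ℂ) : gP M y ψ ≤ 1 :=
  prod_le_one (fun _ _ => cf_nonneg hM (AddChar.norm_apply _ _))
    fun _ _ => cf_le_one (AddChar.norm_apply _ _)

lemma sum_gPM {l m M : ℕ} (hM : 2 ≤ M) {s : Fin l → AddChar G ℂ} (hs : Diss s) :
    ∑ y : Fin m → G, ∏ a, gP M y (s a) = (Fintype.card G * (1 - 2 / M : ℝ) ^ l) ^ m := by
  classical
  have h := Finset.prod_univ_sum (fun _ : Fin m => (univ : Finset G))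
    (fun _ v => ∏ a, cf M (s a v))
  rw [Fintype.piFinset_univ] at h
  simp only [sum_cf_dissM hM hs, prod_const, card_univ, Fintype.card_fin] at h
  rw [h]
  refine sum_congr rfl fun y _ => ?_
  unfold gP
  rw [prod_comm]

open scoped Classical in
/-- (A) for the law `M` -/
theorem largeM {M : ℕ} (hM : 4 ≤ M) (m l : ℕ) (K t : ℝ) (ht : 0 < t) (hl : (8 : ℝ) ^ l ≤ K) :
    ((univ.filter fun y : Fin m → G => K ≤ (LM M y t).card).card : ℝ) * ((K / 2) ^ l * t ^ l) ≤
      (Fintype.card G : ℝ) ^ l * (Fintype.card G * (1 - 2 / M : ℝ) ^ l) ^ m := by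
  have hM2 : 2 ≤ M := by omega
  have hMr : (4 : ℝ) ≤ M := by exact_mod_cast hM
  have h12 : (0 : ℝ) ≤ 1 - 2 / M := by
    have : (2 : ℝ) / M ≤ 1 := by
      rw [div_le_one (by linarith)]
      linarith
    linarith
  have h1 : ∀ y ∈ (univ.filter fun y : Fin m → G => K ≤ (LM M y t).card),
      (K / 2) ^ l * t ^ l ≤ ∑ s ∈ dtup (LM M y t) l, ∏ a, gP M y (s a) := by
    intro y hy
    rw [mem_filter] at hy
    have h2 := card_dtup (LM M y t) l K hy.2 hl
    calc (K / 2) ^ l * t ^ l ≤ ((dtup (LM M y t) l).card : ℝ) * t ^ l :=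
          mul_le_mul_of_nonneg_right h2 (by positivity)
      _ = ∑ s ∈ dtup (LM M y t) l, t ^ l := by rw [sum_const, nsmul_eq_mul]
      _ ≤ _ := by
          refine sum_le_sum fun s hs => ?_
          have h3 := ((mem_dtup _ _ _).1 hs).1
          calc t ^ l = ∏ _a : Fin l, t := by rw [prod_const, card_univ, Fintype.card_fin]
            _ ≤ ∏ a, gP M y (s a) :=
                prod_le_prod (fun _ _ => ht.le) fun a _ => mem_LM.1 (h3 a)
  rw [← nsmul_eq_mul, ← sum_const]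
  refine (sum_le_sum h1).trans ?_
  have h2 : ∀ y ∈ (univ.filter fun y : Fin m → G => K ≤ (LM M y t).card),
      ∑ s ∈ dtup (LM M y t) l, ∏ a, gP M y (s a) ≤
        ∑ s ∈ (univ.filter fun s : Fin l → AddChar G ℂ => Diss s), ∏ a, gP M y (s a) := by
    intro y _
    refine sum_le_sum_of_subset_of_nonneg ?_ fun s _ _ =>
      prod_nonneg fun a _ => gP_nonnegM hM _ _
    intro s hs
    rw [mem_filter]
    exact ⟨mem_univ _, ((mem_dtup _ _ _).1 hs).2⟩
  refine (sum_le_sum h2).trans ?_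
  refine (sum_le_sum_of_subset_of_nonneg (filter_subset _ _) fun y _ _ =>
    sum_nonneg fun s _ => prod_nonneg fun a _ => gP_nonnegM hM _ _).trans ?_
  rw [sum_comm]
  have h3 : ∀ s ∈ (univ.filter fun s : Fin l → AddChar G ℂ => Diss s),
      ∑ y : Fin m → G, ∏ a, gP M y (s a) = (Fintype.card G * (1 - 2 / M : ℝ) ^ l) ^ m := by
    intro s hs
    rw [mem_filter] at hs
    exact sum_gPM hM2 hs.2
  rw [sum_congr rfl h3, sum_const, nsmul_eq_mul]
  refine mul_le_mul_of_nonneg_right ?_ (by positivity)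
  have h4 : (univ.filter fun s : Fin l → AddChar G ℂ => Diss s).card ≤ Fintype.card G ^ l := by
    refine (card_le_card (filter_subset _ _)).trans ?_
    rw [card_univ, Fintype.card_fun, Fintype.card_fin, AddChar.card_eq]
  exact_mod_cast h4

open scoped Classical in
/-- levels for the law `M` -/
lemma level {m k M : ℕ} (hM : 4 ≤ M) (y : Fin m → G) {T t₀ : ℝ} (hT : 1 ≤ T)
    (hG : (Fintype.card G : ℝ) ≤ 2 ^ k) (h2 : 2 * T ≤ gZ M y)
    (hs : ((LM M y t₀).card : ℝ) < T / 4) :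
    ∃ i ∈ range (k + 1), (1 / 2 : ℝ) ^ (i + 1) < t₀ ∧
      (2 : ℝ) ^ i * T / (2 * ((i + 1) * (i + 2))) ≤ (LM M y ((1 / 2) ^ (i + 1))).card := by
  by_contra hcon
  push Not at hcon
  have hpt : ∀ ψ : AddChar G ℂ, gP M y ψ ≤ (if t₀ ≤ gP M y ψ then (1 : ℝ) else 0) +
      ∑ i ∈ (range (k + 1)).filter (fun i => (1 / 2 : ℝ) ^ (i + 1) < t₀),
        (if (1 / 2 : ℝ) ^ (i + 1) ≤ gP M y ψ then (1 / 2 : ℝ) ^ i else 0) +
      (1 / 2 : ℝ) ^ (k + 1) := by
    intro ψ
    have h0 := gP_nonnegM hM y ψ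
    have h1 := gP_le_oneM hM y ψ
    have hn : 0 ≤ ∑ i ∈ (range (k + 1)).filter (fun i => (1 / 2 : ℝ) ^ (i + 1) < t₀),
        (if (1 / 2 : ℝ) ^ (i + 1) ≤ gP M y ψ then (1 / 2 : ℝ) ^ i else 0) :=
      sum_nonneg fun i _ => by split_ifs <;> positivity
    have hk0 : (0 : ℝ) < (1 / 2) ^ (k + 1) := by positivity
    by_cases ha : t₀ ≤ gP M y ψ
    · rw [if_pos ha]; linarith
    · rw [if_neg ha, zero_add]
      by_cases hb : gP M y ψ < (1 / 2 : ℝ) ^ (k + 1)
      · linarith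
      · push Not at ha hb
        have hex : ∃ i, (1 / 2 : ℝ) ^ (i + 1) ≤ gP M y ψ := ⟨k, hb⟩
        classical
        set i := Nat.find hex with hi
        have hi1 : (1 / 2 : ℝ) ^ (i + 1) ≤ gP M y ψ := Nat.find_spec hex
        have hik : i ≤ k := Nat.find_min' hex hb
        have hi2 : gP M y ψ ≤ (1 / 2 : ℝ) ^ i := by
          rcases Nat.eq_zero_or_pos i with h | h
          · rw [h, pow_zero]; exact h1
          · have h3 := Nat.find_min hex (m := i - 1) (by omega)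
            push Not at h3
            have h4 : i - 1 + 1 = i := by omega
            rw [h4] at h3
            exact h3.le
        have hmem : i ∈ (range (k + 1)).filter (fun i => (1 / 2 : ℝ) ^ (i + 1) < t₀) := by
          rw [mem_filter, mem_range]
          exact ⟨by omega, lt_of_le_of_lt hi1 ha⟩
        have h5 := single_le_sum (f := fun i : ℕ =>
          (if (1 / 2 : ℝ) ^ (i + 1) ≤ gP M y ψ then (1 / 2 : ℝ) ^ i else 0))
          (fun i _ => by split_ifs <;> positivity) hmem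
        simp only [if_pos hi1] at h5
        linarith
  have hsum := sum_le_sum fun ψ (_ : ψ ∈ (univ : Finset (AddChar G ℂ))) => hpt ψ
  rw [sum_add_distrib, sum_add_distrib, sum_const, nsmul_eq_mul, card_univ, AddChar.card_eq,
    sum_comm] at hsum
  have e1 : ∑ ψ : AddChar G ℂ, (if t₀ ≤ gP M y ψ then (1 : ℝ) else 0) = (LM M y t₀).card := by
    rw [← sum_filter, sum_const, nsmul_eq_mul, mul_one]
    unfold LM
    congr
  have e2 : ∀ i, ∑ ψ : AddChar G ℂ, (if (1 / 2 : ℝ) ^ (i + 1) ≤ gP M y ψ then (1 / 2 : ℝ) ^ i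
      else 0) = (LM M y ((1 / 2) ^ (i + 1))).card * (1 / 2) ^ i := by
    intro i
    rw [← sum_filter, sum_const, nsmul_eq_mul]
    unfold LM
    congr
  rw [e1] at hsum
  simp only [e2] at hsum
  have e3 : ∑ i ∈ (range (k + 1)).filter (fun i => (1 / 2 : ℝ) ^ (i + 1) < t₀),
      ((LM M y ((1 / 2) ^ (i + 1))).card : ℝ) * (1 / 2) ^ i ≤
      ∑ i ∈ range (k + 1), T / 2 * (1 / ((i : ℝ) + 1) - 1 / ((i : ℝ) + 2)) := by
    refine (sum_le_sum (g := fun i : ℕ => T / 2 * (1 / ((i : ℝ) + 1) - 1 / ((i : ℝ) + 2)))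
      fun i hi => ?_).trans (sum_le_sum_of_subset_of_nonneg (filter_subset _ _) fun i _ _ => ?_)
    · rw [mem_filter] at hi
      have h6 := hcon i hi.1 hi.2
      have h7 : ((LM M y ((1 / 2) ^ (i + 1))).card : ℝ) * (1 / 2) ^ i ≤
          (2 : ℝ) ^ i * T / (2 * ((i + 1) * (i + 2))) * (1 / 2) ^ i :=
        mul_le_mul_of_nonneg_right h6.le (by positivity)
      refine h7.trans (le_of_eq ?_)
      have h8 : (2 : ℝ) ^ i * (1 / 2) ^ i = 1 := by
        rw [← mul_pow]; norm_num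
      have h9 : ((i : ℝ) + 1) ≠ 0 := by positivity
      have h10 : ((i : ℝ) + 2) ≠ 0 := by positivity
      calc (2 : ℝ) ^ i * T / (2 * ((i + 1) * (i + 2))) * (1 / 2) ^ i
          = ((2 : ℝ) ^ i * (1 / 2) ^ i) * T / (2 * ((i + 1) * (i + 2))) := by ring
        _ = T / 2 * (1 / ((i : ℝ) + 1) - 1 / ((i : ℝ) + 2)) := by
            rw [h8]
            field_simp
            ring
    · have h9 : (0 : ℝ) < (i : ℝ) + 1 := by positivity
      have : 1 / ((i : ℝ) + 2) ≤ 1 / ((i : ℝ) + 1) :=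
        one_div_le_one_div_of_le h9 (by linarith)
      have : 0 ≤ 1 / ((i : ℝ) + 1) - 1 / ((i : ℝ) + 2) := by linarith
      positivity
  have e4 : ∀ n : ℕ, ∑ i ∈ range n, T / 2 * (1 / ((i : ℝ) + 1) - 1 / ((i : ℝ) + 2)) =
      T / 2 * (1 - 1 / ((n : ℝ) + 1)) := by
    intro n
    induction n with
    | zero => simp
    | succ n ih =>
      rw [sum_range_succ, ih]
      push_cast
      ring_nf
  rw [e4] at e3
  have e5 : T / 2 * (1 - 1 / (((k + 1 : ℕ) : ℝ) + 1)) ≤ T / 2 := by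
    have h9 : (0 : ℝ) ≤ 1 / (((k + 1 : ℕ) : ℝ) + 1) := by positivity
    have : 0 ≤ T / 2 := by linarith
    nlinarith
  have e6 : (Fintype.card G : ℝ) * (1 / 2) ^ (k + 1) ≤ 1 / 2 := by
    calc (Fintype.card G : ℝ) * (1 / 2) ^ (k + 1) ≤ 2 ^ k * (1 / 2) ^ (k + 1) :=
          mul_le_mul_of_nonneg_right hG (by positivity)
      _ = 1 / 2 := by
          rw [pow_succ, ← mul_assoc, ← mul_pow]; norm_num
  unfold gZ at h2
  linarith

open scoped Classical in
/-- high levels, law `M` -/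
lemma highM {M m k l : ℕ} {c K t V : ℝ} (hM : 4 ≤ M) (ht : 0 < t)
    (hGc : (Fintype.card G : ℝ) * (1 - 2 / M) ^ m ≤ Real.exp (-c * k)) (hl : (8 : ℝ) ^ l ≤ K)
    (hKt : Real.exp (-(7 * Real.log k)) ≤ K / 2 * t) (hc : 7 * Real.log k ≤ c / 2 * k)
    (hV : Real.exp (-(c / 2 * k * l)) ≤ V) :
    ((univ.filter fun y : Fin m → G => K ≤ (LM M y t).card).card : ℝ) ≤
      (Fintype.card G : ℝ) ^ m * V := by
  have hG0 : (0 : ℝ) ≤ Fintype.card G := by positivity
  have hMr : (4 : ℝ) ≤ M := by exact_mod_cast hM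
  have h12 : (0 : ℝ) ≤ 1 - 2 / M := by
    have : (2 : ℝ) / M ≤ 1 := by
      rw [div_le_one (by linarith)]
      linarith
    linarith
  have h := largeM (G := G) hM m l K t ht hl
  have e1 : (Fintype.card G : ℝ) ^ l * (Fintype.card G * (1 - 2 / M : ℝ) ^ l) ^ m =
      (Fintype.card G : ℝ) ^ m * ((Fintype.card G : ℝ) * (1 - 2 / M) ^ m) ^ l := by
    rw [mul_pow, mul_pow, ← pow_mul, ← pow_mul, mul_comm l m]
    ring
  rw [e1, ← mul_pow] at h
  have h2 : ((Fintype.card G : ℝ) * (1 - 2 / M) ^ m) ^ l ≤ (Real.exp (-c * k)) ^ l :=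
    pow_le_pow_left₀ (by positivity) hGc l
  have h3 : (Real.exp (-(7 * Real.log k))) ^ l ≤ (K / 2 * t) ^ l :=
    pow_le_pow_left₀ (Real.exp_pos _).le hKt l
  set N : ℝ := ((univ.filter fun y : Fin m → G => K ≤ (LM M y t).card).card : ℝ) with hN
  have hN0 : 0 ≤ N := by positivity
  have h4 : N * (Real.exp (-(7 * Real.log k))) ^ l ≤
      (Fintype.card G : ℝ) ^ m * (Real.exp (-c * k)) ^ l :=
    (mul_le_mul_of_nonneg_left h3 hN0).trans
      (h.trans (mul_le_mul_of_nonneg_left h2 (by positivity)))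
  have h5 : N ≤ (Fintype.card G : ℝ) ^ m *
      ((Real.exp (-c * k)) ^ l / (Real.exp (-(7 * Real.log k))) ^ l) := by
    rw [← mul_div_assoc, le_div_iff₀ (by positivity)]
    exact h4
  refine h5.trans (mul_le_mul_of_nonneg_left (le_trans ?_ hV) (by positivity))
  rw [← div_pow, ← Real.exp_sub, ← Real.exp_nat_mul]
  rw [Real.exp_le_exp]
  have hl0 : (0 : ℝ) ≤ l := by positivity
  nlinarith

end

open scoped Classical in
/-- TAIL: off a very small set, most of the mass sits on characters with product `≥ k^{-A}`. -/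
def StmtTail (M : ℕ) : Prop :=
  ∀ c C : ℝ, 0 < c → 0 < C → ∃ A : ℝ, 0 < A ∧ ∃ k₀ : ℕ, ∀ k : ℕ, k₀ ≤ k →
    ∀ (G : Type) [AddCommGroup G] [Fintype G] (m : ℕ), m ≤ k →
    (Fintype.card G : ℝ) * (1 - 2 / M) ^ m ≤ Real.exp (-c * k) →
    ∀ T : ℝ, 1 ≤ T →
    ((univ.filter fun y : Fin m → G =>
      2 * T ≤ gZ M y ∧ ((LM M y ((k : ℝ) ^ (-A))).card : ℝ) < T / 4).card : ℝ) ≤
      (Fintype.card G : ℝ) ^ m * Real.exp (-(C * (k * Real.log k)))

theorem stmtTail {M : ℕ} (hM : 4 ≤ M) : StmtTail M := by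
  classical
  intro c C hc hC
  set A : ℝ := 4 + 3 * (1 + 2 * (C + 1) / c) with hA
  have hA4 : 0 ≤ A - 4 := by
    have : 0 ≤ 3 * (1 + 2 * (C + 1) / c) := by positivity
    linarith
  have hev : ∀ᶠ x : ℝ in Filter.atTop, 1 ≤ Real.log x ∧ 7 * Real.log x ≤ c / 2 * x := by
    have h2 := Real.tendsto_log_atTop.eventually_ge_atTop 1
    have h3 : ∀ᶠ x : ℝ in Filter.atTop, ‖Real.log x‖ ≤ c / 14 * ‖x‖ :=
      Real.isLittleO_log_id_atTop.bound (by positivity)
    filter_upwards [h2, h3, Filter.eventually_ge_atTop 1] with x hx2 hx3 hx4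
    refine ⟨hx2, ?_⟩
    rw [Real.norm_of_nonneg (Real.log_nonneg hx4), Real.norm_of_nonneg (by linarith)] at hx3
    linarith
  obtain ⟨x₀, hx₀⟩ := Filter.eventually_atTop.1 hev
  refine ⟨A, by linarith, max ⌈x₀⌉₊ 4, fun k hk G _ _ m hm hGc T hT => ?_⟩
  have hk4 : 4 ≤ k := (le_max_right _ _).trans hk
  have hkx : x₀ ≤ (k : ℝ) := (Nat.le_ceil _).trans (by exact_mod_cast (le_max_left _ _).trans hk)
  obtain ⟨hE2, hE3⟩ := hx₀ k hkx
  have hk0 : (0 : ℝ) < k := by
    have : 0 < k := by omega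
    exact_mod_cast this
  have hk4' : (4 : ℝ) ≤ k := by exact_mod_cast hk4
  obtain ⟨ℓ, hℓ⟩ : ∃ ℓ : ℝ, ℓ = Real.log k := ⟨_, rfl⟩
  have hkl : Real.exp ℓ = k := by rw [hℓ]; exact Real.exp_log hk0
  rw [← hℓ] at hE2 ⊢
  have hrp : ∀ x : ℝ, (k : ℝ) ^ x = Real.exp (x * ℓ) := fun x => by
    rw [Real.rpow_def_of_pos hk0, ← hℓ, mul_comm]
  have hMr : (4 : ℝ) ≤ M := by exact_mod_cast hM
  have h12 : (1 / 2 : ℝ) ≤ 1 - 2 / M := by
    have : (2 : ℝ) / M ≤ 1 / 2 := by
      rw [div_le_iff₀ (by linarith)]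
      linarith
    linarith
  have hG0 : (0 : ℝ) ≤ Fintype.card G := by positivity
  have hGk : (Fintype.card G : ℝ) ≤ 2 ^ k := by
    have h1 : (Fintype.card G : ℝ) * (1 / 2) ^ m ≤ 1 := by
      have h2 : (1 / 2 : ℝ) ^ m ≤ (1 - 2 / M) ^ m := pow_le_pow_left₀ (by norm_num) h12 m
      have h3 := mul_le_mul_of_nonneg_left h2 hG0
      have h4 : Real.exp (-c * k) ≤ 1 := by
        rw [Real.exp_le_one_iff]
        have : 0 ≤ c * k := by positivity
        linarith
      linarith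
    have h2 : (1 / 2 : ℝ) ^ m * 2 ^ m = 1 := by
      rw [← mul_pow]; norm_num
    calc (Fintype.card G : ℝ) = Fintype.card G * (1 / 2) ^ m * 2 ^ m := by
          rw [mul_assoc, h2, mul_one]
      _ ≤ 1 * 2 ^ m := mul_le_mul_of_nonneg_right h1 (by positivity)
      _ = 2 ^ m := one_mul _
      _ ≤ 2 ^ k := pow_le_pow_right₀ (by norm_num) hm
  have hsub : (univ.filter fun y : Fin m → G =>
      2 * T ≤ gZ M y ∧ ((LM M y ((k : ℝ) ^ (-A))).card : ℝ) < T / 4) ⊆
      ((range (k + 1)).filter fun i => (1 / 2 : ℝ) ^ (i + 1) < (k : ℝ) ^ (-A)).biUnion fun i =>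
        univ.filter fun y : Fin m → G =>
          (2 : ℝ) ^ i * T / (2 * ((i + 1) * (i + 2))) ≤ (LM M y ((1 / 2) ^ (i + 1))).card := by
    intro y hy
    rw [mem_filter] at hy
    obtain ⟨i, hi, h1, h2⟩ := level hM y hT hGk hy.2.1 hy.2.2
    rw [mem_biUnion]
    exact ⟨i, by rw [mem_filter]; exact ⟨hi, h1⟩, by rw [mem_filter]; exact ⟨mem_univ _, h2⟩⟩
  have key : ∀ i ∈ (range (k + 1)).filter fun i => (1 / 2 : ℝ) ^ (i + 1) < (k : ℝ) ^ (-A),
      ((univ.filter fun y : Fin m → G =>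
        (2 : ℝ) ^ i * T / (2 * ((i + 1) * (i + 2))) ≤
          (LM M y ((1 / 2) ^ (i + 1))).card).card : ℝ) ≤
        (Fintype.card G : ℝ) ^ m * Real.exp (-((C + 1) * (k * ℓ))) := by
    intro i hi
    rw [mem_filter, mem_range, hrp] at hi
    obtain ⟨hi1, hi2⟩ := hi
    have hik : (i : ℝ) ≤ k := by
      have : i ≤ k := by omega
      exact_mod_cast this
    have hi0 : (0 : ℝ) ≤ i := by positivity
    have hquad : 8 * (((i : ℝ) + 1) * (i + 2)) ≤ Real.exp (4 * ℓ) := by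
      rw [show 4 * ℓ = ℓ + ℓ + (ℓ + ℓ) by ring, Real.exp_add, Real.exp_add, hkl]
      have h1 : ((i : ℝ) + 1) * (i + 2) ≤ (k + 1) * (k + 2) := by gcongr
      have h2 : 8 * (((k : ℝ) + 1) * (k + 2)) ≤ k * k * (k * k) := by
        have h3 : ((k : ℝ) + 1) * (k + 2) ≤ 2 * (k * k) := by nlinarith
        have h4 : 16 ≤ (k : ℝ) * k := by nlinarith
        have h5 : 16 * ((k : ℝ) * k) ≤ (k * k) * (k * k) :=
          mul_le_mul_of_nonneg_right h4 (by positivity)
        linarith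
      linarith
    have hbig : Real.exp (A * ℓ) < 2 * (2 : ℝ) ^ i := by
      have h1 : (1 / 2 : ℝ) ^ (i + 1) * (2 * 2 ^ i) = 1 := by
        rw [pow_succ]
        have : (1 / 2 : ℝ) ^ i * 2 ^ i = 1 := by rw [← mul_pow]; norm_num
        linarith
      have h2 : Real.exp (-A * ℓ) * Real.exp (A * ℓ) = 1 := by
        rw [← Real.exp_add]; simp
      have h3 : (0 : ℝ) < 2 * 2 ^ i := by positivity
      by_contra hcon
      push Not at hcon
      have h4 : (1 / 2 : ℝ) ^ (i + 1) * (2 * 2 ^ i) < Real.exp (-A * ℓ) * (2 * 2 ^ i) :=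
        mul_lt_mul_of_pos_right hi2 h3
      have h5 : Real.exp (-A * ℓ) * (2 * 2 ^ i) ≤ Real.exp (-A * ℓ) * Real.exp (A * ℓ) :=
        mul_le_mul_of_nonneg_left hcon (Real.exp_pos _).le
      linarith
    have hKbig : Real.exp ((A - 4) * ℓ) ≤ (2 : ℝ) ^ i * T / (2 * ((i + 1) * (i + 2))) := by
      rw [le_div_iff₀ (by positivity)]
      have h1 : Real.exp ((A - 4) * ℓ) * (8 * (((i : ℝ) + 1) * (i + 2))) ≤
          Real.exp ((A - 4) * ℓ) * Real.exp (4 * ℓ) :=
        mul_le_mul_of_nonneg_left hquad (Real.exp_pos _).le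
      have h2 : Real.exp ((A - 4) * ℓ) * Real.exp (4 * ℓ) = Real.exp (A * ℓ) := by
        rw [← Real.exp_add]; congr 1; ring
      have h3 : (2 : ℝ) ^ i ≤ 2 ^ i * T := le_mul_of_one_le_right (by positivity) hT
      have h4 : 0 < Real.exp (A * ℓ) := Real.exp_pos _
      nlinarith
    have hf1 : (A - 4) / 3 * ℓ - 1 ≤ (⌊(A - 4) / 3 * ℓ⌋₊ : ℝ) := by
      have := Nat.lt_floor_add_one ((A - 4) / 3 * ℓ)
      linarith
    refine highM hM (l := ⌊(A - 4) / 3 * ℓ⌋₊) (c := c) (t := (1 / 2) ^ (i + 1)) (by positivity) hGc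
      ?_ ?_ hE3 ?_
    · refine le_trans ?_ hKbig
      have h8 : (8 : ℝ) ≤ Real.exp 3 := by
        have h1 := _root_.Vale.Agent.P160.Half.Flat.C.two_le_exp
        have h2 : Real.exp 3 = (Real.exp 1) ^ 3 := by
          rw [← Real.exp_nat_mul]; norm_num
        rw [h2]
        refine le_trans ?_ (pow_le_pow_left₀ (by norm_num) h1 3)
        norm_num
      refine (pow_le_pow_left₀ (by norm_num) h8 _).trans ?_
      rw [← Real.exp_nat_mul, Real.exp_le_exp]
      have h1 : 0 ≤ (A - 4) / 3 * ℓ := by positivity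
      have := Nat.floor_le h1
      linarith
    · have h1 : (2 : ℝ) ^ i * T / (2 * ((i + 1) * (i + 2))) / 2 * (1 / 2) ^ (i + 1) =
          T / (8 * ((i + 1) * (i + 2))) := by
        have h3 : (2 : ℝ) ^ i * (1 / 2) ^ (i + 1) = 1 / 2 := by
          rw [pow_succ, ← mul_assoc, ← mul_pow]
          norm_num
        have h2 : ((i : ℝ) + 1) * (i + 2) ≠ 0 := by positivity
        calc (2 : ℝ) ^ i * T / (2 * ((i + 1) * (i + 2))) / 2 * (1 / 2) ^ (i + 1)
            = ((2 : ℝ) ^ i * (1 / 2) ^ (i + 1)) * T / (2 * ((i + 1) * (i + 2))) / 2 := by ring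
          _ = T / (8 * ((i + 1) * (i + 2))) := by
              rw [h3]
              field_simp
              ring
      rw [h1, le_div_iff₀ (by positivity), ← hℓ]
      calc Real.exp (-(7 * ℓ)) * (8 * ((i + 1) * (i + 2)))
          ≤ Real.exp (-(7 * ℓ)) * Real.exp (4 * ℓ) :=
            mul_le_mul_of_nonneg_left hquad (Real.exp_pos _).le
        _ = Real.exp (-(3 * ℓ)) := by
            rw [← Real.exp_add]; congr 1; ring
        _ ≤ 1 := by
            rw [Real.exp_le_one_iff]; linarith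
        _ ≤ T := hT
    · rw [Real.exp_le_exp, neg_le_neg_iff]
      have h2 : (A - 4) / 3 = 1 + 2 * (C + 1) / c := by rw [hA]; ring
      have h3 : 2 * (C + 1) / c * ℓ ≤ (⌊(A - 4) / 3 * ℓ⌋₊ : ℝ) := by
        refine le_trans ?_ hf1
        rw [h2]
        linarith
      have h4 : (C + 1) * ℓ ≤ c / 2 * (⌊(A - 4) / 3 * ℓ⌋₊ : ℝ) := by
        have h5 : (C + 1) * ℓ = c / 2 * (2 * (C + 1) / c * ℓ) := by field_simp
        rw [h5]
        exact mul_le_mul_of_nonneg_left h3 (by positivity)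
      calc (C + 1) * (k * ℓ) = k * ((C + 1) * ℓ) := by ring
        _ ≤ k * (c / 2 * (⌊(A - 4) / 3 * ℓ⌋₊ : ℝ)) := mul_le_mul_of_nonneg_left h4 (by linarith)
        _ = c / 2 * k * (⌊(A - 4) / 3 * ℓ⌋₊ : ℝ) := by ring
  have h1 : ((univ.filter fun y : Fin m → G =>
      2 * T ≤ gZ M y ∧ ((LM M y ((k : ℝ) ^ (-A))).card : ℝ) < T / 4).card : ℝ) ≤
      ∑ i ∈ (range (k + 1)).filter fun i => (1 / 2 : ℝ) ^ (i + 1) < (k : ℝ) ^ (-A),
        ((univ.filter fun y : Fin m → G =>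
        (2 : ℝ) ^ i * T / (2 * ((i + 1) * (i + 2))) ≤
          (LM M y ((1 / 2) ^ (i + 1))).card).card : ℝ) := by
    exact_mod_cast (card_le_card hsub).trans card_biUnion_le
  have h2 := h1.trans (sum_le_sum key)
  rw [sum_const, nsmul_eq_mul] at h2
  refine (le_of_eq ?_).trans (h2.trans ?_)
  · congr
  · have h3 : ((((range (k + 1)).filter fun i => (1 / 2 : ℝ) ^ (i + 1) <
        (k : ℝ) ^ (-A)).card : ℕ) : ℝ) ≤ k + 1 := by
      have := card_le_card (filter_subset (fun i => (1 / 2 : ℝ) ^ (i + 1) < (k : ℝ) ^ (-A))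
        (range (k + 1)))
      rw [card_range] at this
      exact_mod_cast this
    have h4 : (k : ℝ) + 1 ≤ Real.exp (k * ℓ) := by
      refine (Real.add_one_le_exp (k : ℝ)).trans (Real.exp_le_exp.2 ?_)
      exact le_mul_of_one_le_right hk0.le hE2
    calc ((((range (k + 1)).filter fun i => (1 / 2 : ℝ) ^ (i + 1) <
        (k : ℝ) ^ (-A)).card : ℕ) : ℝ) *
          ((Fintype.card G : ℝ) ^ m * Real.exp (-((C + 1) * (k * ℓ))))
        ≤ Real.exp (k * ℓ) * ((Fintype.card G : ℝ) ^ m * Real.exp (-((C + 1) * (k * ℓ)))) :=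
          mul_le_mul_of_nonneg_right (h3.trans h4) (by positivity)
      _ = (Fintype.card G : ℝ) ^ m * (Real.exp (k * ℓ) * Real.exp (-((C + 1) * (k * ℓ)))) := by
          ring
      _ = (Fintype.card G : ℝ) ^ m * Real.exp (-(C * (k * ℓ))) := by
          rw [← Real.exp_add]; congr 2; ring

end Vale.Agent.P160.Half.Flat.Tail
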