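import Vale.Agent.P160.Half.Pack502b
import Vale.Agent.P160.Half.CntGen831
import Vale.Agent.P160.Half.MCTail373
import Vale.Agent.P160.Half.MC986

/-! P160-HALF (M), LEMMA MC of note 11331, the middle: from the tail (373's `StmtTail`), packing growth
(`Pack502.growthC`) and the count (`CntGen.count`). -/

namespace Vale.Agent.P160.Half.MC68

open Finset Vale.Agent.P160 Vale.Agent.P160.Half.Flat Vale.Agent.P160.Half.Pack502
open scoped Real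

section abs

variable {G : Type} [AddCommGroup G] [Fintype G]

theorem cf_eq {M : ℕ} {z : ℂ} (hz : ‖z‖ = 1) : cf M z = 1 - ‖z - 1‖ ^ 2 / M := by
  have h1 : z.re ^ 2 + z.im ^ 2 = 1 := by
    have := Complex.sq_norm z
    rw [hz, Complex.normSq_apply] at this
    nlinarith
  have h2 : ‖z - 1‖ ^ 2 = (z.re - 1) ^ 2 + z.im ^ 2 := by
    rw [Complex.sq_norm, Complex.normSq_apply]
    simp
    ring
  rw [h2]
  unfold cf
  have h3 : (z.re - 1) ^ 2 + z.im ^ 2 = 2 - 2 * z.re := by nlinarith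
  rw [h3]
  ring

/-- a large product gives a small norm -/
theorem energy {M m : ℕ} (hM : 4 ≤ M) (y : Fin m → G) (ψ : AddChar G ℂ) {t : ℝ} (ht : 0 < t)
    (h : t ≤ gP M y ψ) : ∑ c, ‖ψ (y c) - 1‖ ^ 2 ≤ M * (-Real.log t) := by
  have hM0 : (0 : ℝ) < M := by
    have : 0 < M := by omega
    exact_mod_cast this
  have h1 : gP M y ψ ≤ Real.exp (-(∑ c, ‖ψ (y c) - 1‖ ^ 2) / M) := by
    unfold gP
    have h2 : -(∑ c, ‖ψ (y c) - 1‖ ^ 2) / M = ∑ c, (-(‖ψ (y c) - 1‖ ^ 2 / M)) := by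
      rw [sum_neg_distrib, ← sum_div, neg_div]
    rw [h2, Real.exp_sum]
    refine prod_le_prod (fun c _ => cf_nonneg hM (AddChar.norm_apply ψ _)) fun c _ => ?_
    rw [cf_eq (AddChar.norm_apply ψ _)]
    have := Real.add_one_le_exp (-(‖ψ (y c) - 1‖ ^ 2 / M))
    linarith
  have h2 : Real.log t ≤ -(∑ c, ‖ψ (y c) - 1‖ ^ 2) / M := by
    rw [← Real.log_exp (-(∑ c, ‖ψ (y c) - 1‖ ^ 2) / M)]
    exact Real.log_le_log ht (h.trans h1)
  rw [le_div_iff₀ hM0] at h2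
  linarith

theorem tc_zero {m : ℕ} (y : Fin m → G) (ψ : AddChar G ℂ) {R : ℝ}
    (h : ∑ c, ‖ψ (y c) - 1‖ ^ 2 ≤ R ^ 2) : TC y R 0 ψ :=
  ⟨univ, by simp, h⟩

/-- few coordinates far from `1` -/
theorem few {m : ℕ} (y : Fin m → G) (ψ : AddChar G ℂ) {ρ r : ℝ} {E : ℕ} (hr : 0 < r)
    (h : TC y ρ E ψ) : (Nat.card {c // ¬ ‖ψ (y c) - 1‖ ≤ r} : ℝ) ≤ E + ρ ^ 2 / r ^ 2 := by
  classical
  obtain ⟨F, hF, h⟩ := h
  rw [Nat.card_eq_fintype_card, Fintype.card_subtype]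
  have h1 : (univ.filter fun c => ¬ ‖ψ (y c) - 1‖ ≤ r) ⊆ Fᶜ ∪ F.filter fun c => ¬ ‖ψ (y c) - 1‖ ≤ r := by
    intro c hc
    rw [mem_filter] at hc
    rw [mem_union, mem_filter, mem_compl]
    tauto
  have h2 : ((F.filter fun c => ¬ ‖ψ (y c) - 1‖ ≤ r).card : ℝ) * r ^ 2 ≤ ρ ^ 2 := by
    rw [← nsmul_eq_mul, ← sum_const]
    refine le_trans ?_ h
    refine (sum_le_sum fun c hc => ?_).trans
      (sum_le_sum_of_subset_of_nonneg (filter_subset (fun c => ¬ ‖ψ (y c) - 1‖ ≤ r) F)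
        fun _ _ _ => by positivity)
    rw [mem_filter] at hc
    have := hc.2
    push Not at this
    exact pow_le_pow_left₀ hr.le this.le 2
  have h3 : ((F.filter fun c => ¬ ‖ψ (y c) - 1‖ ≤ r).card : ℝ) ≤ ρ ^ 2 / r ^ 2 := by
    rw [le_div_iff₀ (by positivity)]
    exact h2
  have h4 : ((univ.filter fun c => ¬ ‖ψ (y c) - 1‖ ≤ r).card : ℝ) ≤
      (Fᶜ.card : ℝ) + ((F.filter fun c => ¬ ‖ψ (y c) - 1‖ ≤ r).card : ℝ) := by
    exact_mod_cast (card_le_card h1).trans (card_union_le _ _)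
  have h5 : (Fᶜ.card : ℝ) ≤ E := by exact_mod_cast hF
  linarith

theorem ee_le {a q : ℕ} (ha : 1 ≤ a) : ∀ i ≤ 5, Pack502.ee a q i ≤ (15 * a) ^ i * q := by
  intro i
  induction i with
  | zero => intro _; simp [Pack502.ee]
  | succ i ih =>
    intro hi
    have h1 := ih (by omega)
    have h2 : 1 ≤ (15 * a) ^ i := Nat.one_le_pow _ _ (by omega)
    have h3 : i + 1 ≤ 5 := hi
    have h4 : q ≤ (15 * a) ^ i * q := Nat.le_mul_of_pos_left _ h2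
    calc Pack502.ee a q (i + 1) = a * (i + 1) * (Pack502.ee a q i + Pack502.ee a q i + q) := rfl
      _ ≤ a * 5 * ((15 * a) ^ i * q + (15 * a) ^ i * q + (15 * a) ^ i * q) := by gcongr
      _ = (15 * a) ^ (i + 1) * q := by ring

end abs

/-- no nontrivial character of small norm -/
def MinN {G : Type} [AddCommGroup G] [Fintype G] (k : ℕ) {m : ℕ} (y : Fin m → G) : Prop :=
  ∀ ψ : AddChar G ℂ, ψ ≠ 1 → ∀ F : Finset (Fin m), (Fᶜ.card : ℝ) ≤ (k : ℝ) ^ (9 / 10 : ℝ) →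
    ((k : ℝ) ^ (-(3 / 2) : ℝ)) ^ 2 < ∑ c ∈ F, ‖ψ (y c) - 1‖ ^ 2

theorem minN_of_minC {G : Type} [AddCommGroup G] [Fintype G] {k m : ℕ} (hk : 1 ≤ k) {d : ℝ}
    (hd : d ≤ 1 / 10) {y : Fin m → G}
    (h : Half.MC.MinC ((k : ℝ) ^ (1 - d)) ((k : ℝ) ^ (-(3 / 2) : ℝ)) y) : MinN k y := by
  intro ψ hψ F hF
  refine h ψ hψ F (hF.trans ?_)
  exact Real.rpow_le_rpow_of_exponent_le (by exact_mod_cast hk) (by linarith)

open scoped Classical in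
/-- LEMMA MC, bound depending on `T` -/
def StmtMC (M : ℕ) : Prop := ∀ c C₀ C₁ : ℝ, 0 < c → 0 < C₀ → 1 ≤ C₁ → ∃ k₀ : ℕ, ∀ k : ℕ, k₀ ≤ k →
  ∀ (G : Type) [AddCommGroup G] [Fintype G] (m : ℕ), m ≤ k → (k : ℝ) ≤ 2 * m →
  (∀ p : ℕ, p.Prime → p ∣ Fintype.card G → k ≤ p) →
  (Fintype.card G : ℝ) * (1 - 2 / M) ^ m ≤ Real.exp (-c * k) →
  ∀ T : ℝ, (k : ℝ) ^ C₁ ≤ T → T ≤ (k : ℝ) ^ C₀ →
  ((univ.filter fun y : Fin m → G => MinN k y ∧ T ≤ gZ M y).card : ℝ) ≤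
    (Fintype.card G : ℝ) ^ m * ((k : ℝ) ^ (1 / 10 : ℝ) * T ^ (-(6 / 5) : ℝ)) ^ m

section one

variable {G : Type} [AddCommGroup G] [Fintype G]

open scoped Classical in
/-- one vector: many characters in a big level set -/
theorem big_level {M m k a q E : ℕ} (hM : 4 ≤ M) (y : Fin m → G) {A R K : ℝ} (hk : 1 ≤ k)
    (hR : 0 ≤ R) (hRA : M * (A * Real.log k) ≤ R ^ 2) (hK : 0 ≤ K)
    (hcard : K ≤ ((univ.filter fun s : AddChar G ℂ => (k : ℝ) ^ (-A) ≤ gP M y s).card : ℝ))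
    (hq : 16 * (2 ^ a * R) ^ 2 ≤ (q : ℝ)) (hE : ∀ i < 5, Pack502.ee a q i ≤ E)
    (hmin : ∀ ψ : AddChar G ℂ, ψ ≠ 1 → ∀ F : Finset (Fin m), Fᶜ.card ≤ Pack502.ee a q 5 →
      (π * R / 2 ^ (a * 5)) ^ 2 < ∑ c ∈ F, ‖ψ (y c) - 1‖ ^ 2) :
    K ^ (6 / 5 : ℝ) ≤ NC y (π * (2 ^ a + 1 / 2) * R) E := by
  have hk0 : (0 : ℝ) < k := by
    have : 0 < k := by omega
    exact_mod_cast this
  have h1 := growthC y hR hq hE hmin
  have h2 : K ≤ NC y R 0 := by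
    refine hcard.trans ?_
    unfold NC
    norm_cast
    refine card_le_card fun ψ hψ => ?_
    rw [mem_filter] at hψ ⊢
    refine ⟨mem_univ _, tc_zero y ψ ?_⟩
    have h3 := energy hM y ψ (Real.rpow_pos_of_pos hk0 _) hψ.2
    rw [Real.log_rpow hk0] at h3
    refine h3.trans (le_trans (le_of_eq ?_) hRA)
    ring
  have h3 : K ^ 6 ≤ (NC y (π * (2 ^ a + 1 / 2) * R) E : ℝ) ^ 5 := by
    calc K ^ 6 ≤ (NC y R 0 : ℝ) ^ 6 := pow_le_pow_left₀ hK h2 6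
      _ ≤ _ := by exact_mod_cast h1
  have h4 : K ^ (6 / 5 : ℝ) = (K ^ 6) ^ (1 / 5 : ℝ) := by
    rw [← Real.rpow_natCast K 6, ← Real.rpow_mul hK]
    norm_num
  rw [h4]
  calc (K ^ 6) ^ (1 / 5 : ℝ) ≤ ((NC y (π * (2 ^ a + 1 / 2) * R) E : ℝ) ^ 5) ^ (1 / 5 : ℝ) :=
        Real.rpow_le_rpow (by positivity) h3 (by norm_num)
    _ = NC y (π * (2 ^ a + 1 / 2) * R) E := by
        rw [← Real.rpow_natCast, ← Real.rpow_mul (by positivity)]
        norm_num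

end one

section asym

theorem rpow_u {k : ℕ} {u : ℝ} (hu : 0 < u) (h : u ^ 200 = k) (n : ℕ) (s : ℝ) (hs : 200 * s = n) :
    (k : ℝ) ^ s = u ^ n := by
  rw [← h, ← Real.rpow_natCast u 200, ← Real.rpow_mul hu.le, ← Real.rpow_natCast u n, ← hs]
  norm_num

/-- packing parameters -/
theorem par1 {M k : ℕ} {A u R : ℝ} (hMA : 0 < M * A) (hu200 : u ^ 200 = k) (hlog : Real.log k ≤ u)
    (hu : 2 ^ 20 ≤ u) (hu1 : 15 ^ 5 * (16 * (M * A) + 1) ≤ u) (hR0 : 0 ≤ R)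
    (hR2 : R ^ 2 = M * A * u) :
    ∃ a q E : ℕ, 16 * (2 ^ a * R) ^ 2 ≤ (q : ℝ) ∧ (∀ i ≤ 5, Pack502.ee a q i ≤ E) ∧
      (E : ℝ) ≤ u ^ 167 ∧ (π * (2 ^ a + 1 / 2) * R) ^ 2 ≤ u ^ 162 ∧
      (E : ℝ) ≤ (k : ℝ) ^ (9 / 10 : ℝ) ∧
      (π * R / 2 ^ (a * 5)) ^ 2 ≤ ((k : ℝ) ^ (-(3 / 2) : ℝ)) ^ 2 := by
  have hu0 : 0 < u := by linarith
  have hu1' : 1 ≤ u := by linarith
  have hMAu : M * A ≤ u := by linarith
  have hk1 : (1 : ℝ) ≤ k := by
    rw [← hu200]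
    exact one_le_pow₀ hu1'
  have hk0 : (0 : ℝ) < k := by linarith
  have h910 : (k : ℝ) ^ (9 / 10 : ℝ) = u ^ 180 := rpow_u hu0 hu200 180 _ (by norm_num)
  have h32 : ((k : ℝ) ^ (-(3 / 2) : ℝ)) ^ 2 = 1 / u ^ 600 := by
    have h1 : (k : ℝ) ^ (-(3 / 2) : ℝ) = (u ^ 300)⁻¹ := by
      rw [Real.rpow_neg hk0.le, rpow_u hu0 hu200 300 _ (by norm_num)]
    rw [h1, inv_pow, ← pow_mul, one_div]
  have hup : ∀ i j : ℕ, i ≤ j → u ^ i ≤ u ^ j := fun i j hij => pow_le_pow_right₀ hu1' hij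
  obtain ⟨a, ha1, ha2⟩ := exists_nat_pow_near (one_le_pow₀ hu1' : 1 ≤ u ^ 80) (one_lt_two : (1 : ℝ) < 2)
  have hlogk : Real.log k = 200 * Real.log u := by
    rw [← hu200, Real.log_pow]
    push_cast
    ring
  have hau : (a : ℝ) ≤ u := by
    have h1 : (a : ℝ) * Real.log 2 ≤ 80 * Real.log u := by
      have := Real.log_le_log (by positivity) ha1
      rw [Real.log_pow, Real.log_pow] at this
      exact_mod_cast this
    have h2 : (0.69 : ℝ) < Real.log 2 := by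
      have := Real.log_two_gt_d9
      linarith
    have h3 : (0 : ℝ) ≤ a := by positivity
    have h4 : (a : ℝ) * 0.69 ≤ a * Real.log 2 := by gcongr
    linarith
  have ha0 : 1 ≤ a := by
    by_contra h
    have h0 : a = 0 := by omega
    rw [h0] at ha2
    norm_num at ha2
    have := hup 1 80 (by norm_num)
    rw [pow_one] at this
    linarith
  have hR2u : R ^ 2 ≤ u ^ 2 := by rw [hR2, sq]; gcongr
  have h2a2 : ((2 : ℝ) ^ a) ^ 2 ≤ u ^ 160 := by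
    calc ((2 : ℝ) ^ a) ^ 2 ≤ (u ^ 80) ^ 2 := pow_le_pow_left₀ (by positivity) ha1 2
      _ = u ^ 160 := by rw [← pow_mul]
  have hEu : (((15 * a) ^ 5 * ⌈16 * (2 ^ a * R) ^ 2⌉₊ : ℕ) : ℝ) ≤ u ^ 167 := by
    have hq2 : (⌈16 * (2 ^ a * R) ^ 2⌉₊ : ℝ) ≤ (16 * (M * A) + 1) * u ^ 161 := by
      have h1 : (⌈16 * (2 ^ a * R) ^ 2⌉₊ : ℝ) < 16 * (2 ^ a * R) ^ 2 + 1 :=
        Nat.ceil_lt_add_one (by positivity)
      have h2 : (2 ^ a * R) ^ 2 ≤ u ^ 160 * (M * A * u) := by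
        rw [mul_pow, hR2]
        gcongr
      have h3 : (1 : ℝ) ≤ u ^ 161 := one_le_pow₀ hu1'
      calc (⌈16 * (2 ^ a * R) ^ 2⌉₊ : ℝ) ≤ 16 * (u ^ 160 * (M * A * u)) + 1 := by linarith
        _ = 16 * (M * A) * u ^ 161 + 1 := by ring
        _ ≤ 16 * (M * A) * u ^ 161 + u ^ 161 := by linarith
        _ = _ := by ring
    push_cast
    calc (15 * (a : ℝ)) ^ 5 * (⌈16 * (2 ^ a * R) ^ 2⌉₊ : ℝ) ≤
          (15 * u) ^ 5 * ((16 * (M * A) + 1) * u ^ 161) := by gcongr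
      _ = (15 ^ 5 * (16 * (M * A) + 1)) * u ^ 166 := by ring
      _ ≤ u * u ^ 166 := by gcongr
      _ = u ^ 167 := by ring
  refine ⟨a, ⌈16 * (2 ^ a * R) ^ 2⌉₊, (15 * a) ^ 5 * ⌈16 * (2 ^ a * R) ^ 2⌉₊, Nat.le_ceil _, ?_,
    hEu, ?_, ?_, ?_⟩
  · intro i hi
    refine (ee_le ha0 i hi).trans ?_
    refine Nat.mul_le_mul_right _ (Nat.pow_le_pow_right (by omega) hi)
  · have hpi : π ≤ 4 := Real.pi_le_four
    have h1 : (1 : ℝ) ≤ 2 ^ a := one_le_pow₀ (by norm_num)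
    have h2 : π * (2 ^ a + 1 / 2) ≤ 6 * 2 ^ a := by
      have : (2 : ℝ) ^ a + 1 / 2 ≤ 3 / 2 * 2 ^ a := by linarith
      calc π * (2 ^ a + 1 / 2) ≤ 4 * (3 / 2 * 2 ^ a) := by gcongr
        _ = 6 * 2 ^ a := by ring
    calc (π * (2 ^ a + 1 / 2) * R) ^ 2 ≤ (6 * 2 ^ a * R) ^ 2 := by
          have : 0 ≤ π := Real.pi_pos.le
          gcongr
      _ = 36 * (2 ^ a) ^ 2 * R ^ 2 := by ring
      _ ≤ 36 * u ^ 160 * (M * A * u) := by rw [hR2]; gcongr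
      _ = (36 * (M * A)) * u ^ 161 := by ring
      _ ≤ u * u ^ 161 := by
          gcongr
          linarith
      _ = u ^ 162 := by ring
  · rw [h910]
    exact hEu.trans (hup _ _ (by norm_num))
  · rw [h32]
    have h5 : u ^ 800 ≤ 2 ^ 10 * ((2 : ℝ) ^ (a * 5)) ^ 2 := by
      calc u ^ 800 = (u ^ 80) ^ 10 := by rw [← pow_mul]
        _ ≤ ((2 : ℝ) ^ (a + 1)) ^ 10 := pow_le_pow_left₀ (by positivity) ha2.le 10
        _ = 2 ^ 10 * ((2 : ℝ) ^ (a * 5)) ^ 2 := by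
            rw [← pow_mul, ← pow_mul, ← pow_add]
            congr 1
            ring
    have h6 : π ^ 2 ≤ 16 := by
      have := Real.pi_le_four
      have := Real.pi_pos
      nlinarith
    have h7 : (0 : ℝ) < ((2 : ℝ) ^ (a * 5)) ^ 2 := by positivity
    rw [div_pow, mul_pow, div_le_iff₀ h7]
    have h8 : π ^ 2 * R ^ 2 ≤ 16 * u ^ 2 := by gcongr
    refine h8.trans ?_
    have h9 : 16 * u ^ 2 * u ^ 600 ≤ ((2 : ℝ) ^ (a * 5)) ^ 2 := by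
      have h10 : 2 ^ 10 * (16 * u ^ 2 * u ^ 600) ≤ u ^ 800 := by
        calc 2 ^ 10 * (16 * u ^ 2 * u ^ 600) = (2 ^ 10 * 16) * (u ^ 2 * u ^ 600) := by ring
          _ ≤ u * (u ^ 2 * u ^ 600) := by gcongr; linarith
          _ = u ^ 603 := by ring
          _ ≤ u ^ 800 := hup _ _ (by norm_num)
      linarith
    rw [one_div, ← div_eq_inv_mul, le_div_iff₀ (by positivity)]
    exact h9

/-- counting parameters -/
theorem par2 {k l : ℕ} {C₀ C₁ u T : ℝ} (hC₀ : 0 < C₀)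
    (hC₁ : 1 ≤ C₁) (hl : 80 * C₀ ≤ l) (hu200 : u ^ 200 = k) (hlog : Real.log k ≤ u)
    (hu : 2 ^ 20 ≤ u) (hT1 : (k : ℝ) ^ C₁ ≤ T) (hT0 : T ≤ (k : ℝ) ^ C₀) :
    ∃ J : ℕ, 0 < J ∧ (J : ℝ) ≤ u ^ 4 ∧ ∃ K v : ℝ, K = (T / 8) ^ (6 / 5 : ℝ) ∧ 0 < K ∧ 0 ≤ T / 8 ∧
      0 < v ∧ v ≤ 1 ∧ v * K = 4 * (J : ℝ) ^ 2 ∧
      (8 / (J : ℝ)) ^ l ≤ v ∧ v ≤ 64 * u ^ 8 * T ^ (-(6 / 5) : ℝ) ∧
      -(2 * C₀ * u) ≤ Real.log v := by
  have hu0 : 0 < u := by linarith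
  have hu1' : 1 ≤ u := by linarith
  have hup : ∀ i j : ℕ, i ≤ j → u ^ i ≤ u ^ j := fun i j hij => pow_le_pow_right₀ hu1' hij
  have hk1 : (1 : ℝ) ≤ k := by
    rw [← hu200]
    exact one_le_pow₀ hu1'
  have hk0 : (0 : ℝ) < k := by linarith
  have hJ1 : ((⌊u ^ 4⌋₊ : ℕ) : ℝ) ≤ u ^ 4 := Nat.floor_le (by positivity)
  have hJ2' : u ^ 4 < ((⌊u ^ 4⌋₊ : ℕ) : ℝ) + 1 := Nat.lt_floor_add_one _
  generalize ⌊u ^ 4⌋₊ = J at hJ1 hJ2'
  have hu4 : u ≤ u ^ 4 := by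
    have := hup 1 4 (by norm_num)
    rwa [pow_one] at this
  have hJ2 : u ^ 4 / 2 ≤ (J : ℝ) := by linarith
  have hJ0 : (0 : ℝ) < J := by linarith
  have hJ0n : 0 < J := by exact_mod_cast hJ0
  have hTk : (k : ℝ) ≤ T := by
    refine le_trans ?_ hT1
    calc (k : ℝ) = (k : ℝ) ^ (1 : ℝ) := (Real.rpow_one _).symm
      _ ≤ (k : ℝ) ^ C₁ := Real.rpow_le_rpow_of_exponent_le hk1 hC₁
  have hT0' : 0 < T := by linarith
  have hT8 : u ^ 199 ≤ T / 8 := by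
    rw [le_div_iff₀ (by norm_num)]
    have h8 : (8 : ℝ) ≤ u := by linarith
    calc u ^ 199 * 8 ≤ u ^ 199 * u := by gcongr
      _ = (k : ℝ) := by rw [← hu200]; ring
      _ ≤ T := hTk
  have h199 : (1 : ℝ) ≤ u ^ 199 := one_le_pow₀ hu1'
  have hT81 : 1 ≤ T / 8 := h199.trans hT8
  obtain ⟨K, hK⟩ : ∃ K : ℝ, K = (T / 8) ^ (6 / 5 : ℝ) := ⟨_, rfl⟩
  have hKT : T / 8 ≤ K := by
    rw [hK]
    calc T / 8 = (T / 8) ^ (1 : ℝ) := (Real.rpow_one _).symm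
      _ ≤ _ := Real.rpow_le_rpow_of_exponent_le hT81 (by norm_num)
  have hK0 : 0 < K := by linarith
  have hJ2u : (J : ℝ) ^ 2 ≤ u ^ 8 := by
    calc (J : ℝ) ^ 2 ≤ (u ^ 4) ^ 2 := pow_le_pow_left₀ hJ0.le hJ1 2
      _ = u ^ 8 := by rw [← pow_mul]
  have hJge1 : (1 : ℝ) ≤ J := by exact_mod_cast hJ0n
  have hKup : K ≤ (k : ℝ) ^ (6 / 5 * C₀) := by
    rw [hK]
    calc (T / 8) ^ (6 / 5 : ℝ) ≤ ((k : ℝ) ^ C₀) ^ (6 / 5 : ℝ) :=
          Real.rpow_le_rpow (by positivity) (by linarith) (by norm_num)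
      _ = (k : ℝ) ^ (6 / 5 * C₀) := by rw [← Real.rpow_mul hk0.le, mul_comm]
  have hJ4 : 1 ≤ 4 * (J : ℝ) ^ 2 := by nlinarith
  refine ⟨J, hJ0n, hJ1, K, 4 * (J : ℝ) ^ 2 / K, hK, hK0, by positivity, by positivity, ?_,
    div_mul_cancel₀ _ hK0.ne', ?_, ?_, ?_⟩
  · rw [div_le_one hK0]
    calc 4 * (J : ℝ) ^ 2 ≤ u * u ^ 8 := by
          gcongr
          linarith
      _ = u ^ 9 := by ring
      _ ≤ u ^ 199 := hup _ _ (by norm_num)
      _ ≤ K := hT8.trans hKT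
  · have h1 : K ≤ ((J : ℝ) / 8) ^ l := by
      have h2 : u ^ 3 ≤ (J : ℝ) / 8 := by
        rw [le_div_iff₀ (by norm_num)]
        have h3 : u ^ 3 * 16 ≤ u ^ 3 * u := by gcongr; linarith
        have h4 : u ^ 3 * u = u ^ 4 := by ring
        linarith
      calc K ≤ (k : ℝ) ^ (6 / 5 * C₀) := hKup
        _ = u ^ (240 * C₀) := by
            rw [← hu200, ← Real.rpow_natCast u 200, ← Real.rpow_mul hu0.le]
            congr 1
            push_cast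
            ring
        _ ≤ u ^ (((3 * l : ℕ)) : ℝ) := by
            refine Real.rpow_le_rpow_of_exponent_le hu1' ?_
            push_cast
            linarith
        _ = (u ^ 3) ^ l := by rw [Real.rpow_natCast, pow_mul]
        _ ≤ ((J : ℝ) / 8) ^ l := pow_le_pow_left₀ (by positivity) h2 l
    have h2 : (8 / (J : ℝ)) ^ l = 1 / ((J : ℝ) / 8) ^ l := by
      rw [← one_div_div, one_div_pow]
    rw [h2]
    calc 1 / ((J : ℝ) / 8) ^ l ≤ 1 / K := one_div_le_one_div_of_le hK0 h1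
      _ ≤ 4 * (J : ℝ) ^ 2 / K := by
          gcongr
  · have h1 : T ^ (6 / 5 : ℝ) / 16 ≤ K := by
      have h2 : (8 : ℝ) ^ (6 / 5 : ℝ) ≤ 16 := by
        calc (8 : ℝ) ^ (6 / 5 : ℝ) ≤ (8 : ℝ) ^ (4 / 3 : ℝ) :=
              Real.rpow_le_rpow_of_exponent_le (by norm_num) (by norm_num)
          _ = 16 := by
              rw [show (8 : ℝ) = 2 ^ (3 : ℝ) by norm_num, ← Real.rpow_mul (by norm_num)]
              norm_num
      have h3 : K = T ^ (6 / 5 : ℝ) / 8 ^ (6 / 5 : ℝ) := by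
        rw [hK]
        exact Real.div_rpow hT0'.le (by norm_num) _
      rw [h3]
      gcongr
    have hTp : 0 < T ^ (6 / 5 : ℝ) := by positivity
    calc 4 * (J : ℝ) ^ 2 / K ≤ 4 * u ^ 8 / K := by gcongr
      _ ≤ 4 * u ^ 8 / (T ^ (6 / 5 : ℝ) / 16) := by gcongr
      _ = 64 * u ^ 8 * T ^ (-(6 / 5) : ℝ) := by
          rw [Real.rpow_neg hT0'.le]
          field_simp
          ring
  · have h1 : 1 / K ≤ 4 * (J : ℝ) ^ 2 / K := by
      gcongr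
    have h2 : Real.log (1 / K) ≤ Real.log (4 * (J : ℝ) ^ 2 / K) := Real.log_le_log (by positivity) h1
    have h3 : Real.log K ≤ 6 / 5 * C₀ * Real.log k := by
      rw [← Real.log_rpow hk0]
      exact Real.log_le_log hK0 hKup
    rw [one_div, Real.log_inv] at h2
    have h4 : 6 / 5 * C₀ * Real.log k ≤ 2 * C₀ * u := by
      have h5 : 0 ≤ Real.log k := Real.log_nonneg hk1
      have h6 : 6 / 5 * C₀ * Real.log k ≤ 6 / 5 * C₀ * u := by gcongr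
      nlinarith
    linarith

/-- few exceptional coordinates -/
theorem par3 {k m l E' : ℕ} {C₀ u v : ℝ} (hC₀ : 0 < C₀) (hu200 : u ^ 200 = k)
    (hu : 2 ^ 20 ≤ u) (hu3 : 4 * (C₀ + 1) * (l + 1) ≤ u) (hkm : (k : ℝ) ≤ 2 * m) (hv0 : 0 < v)
    (hE'u : (E' : ℝ) ≤ u ^ 171) (hlogv : -(2 * C₀ * u) ≤ Real.log v) :
    l * E' ≤ m ∧ (1 / 2 : ℝ) ^ m ≤ v ^ (l * E') := by
  have hu0 : 0 < u := by linarith
  have hu1' : 1 ≤ u := by linarith
  have hup : ∀ i j : ℕ, i ≤ j → u ^ i ≤ u ^ j := fun i j hij => pow_le_pow_right₀ hu1' hij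
  have hm : u ^ 200 / 2 ≤ (m : ℝ) := by rw [hu200]; linarith
  have hl0 : (0 : ℝ) ≤ l := by positivity
  have hlu : (l : ℝ) ≤ u := by nlinarith
  constructor
  · have h1 : ((l * E' : ℕ) : ℝ) ≤ m := by
      push_cast
      calc (l : ℝ) * E' ≤ u * u ^ 171 := by gcongr
        _ = u ^ 172 := by ring
        _ ≤ u ^ 199 := hup _ _ (by norm_num)
        _ ≤ u ^ 200 / 2 := by
            rw [le_div_iff₀ (by norm_num)]
            calc u ^ 199 * 2 ≤ u ^ 199 * u := by gcongr; linarith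
              _ = u ^ 200 := by ring
        _ ≤ m := hm
    exact_mod_cast h1
  · rw [← Real.exp_log (show (0 : ℝ) < (1 / 2) ^ m by positivity),
      ← Real.exp_log (show (0 : ℝ) < v ^ (l * E') by positivity), Real.exp_le_exp,
      Real.log_pow, Real.log_pow]
    have h1 : Real.log (1 / 2) ≤ -(1 / 2) := by
      rw [one_div, Real.log_inv]
      have := Real.log_two_gt_d9
      linarith
    have h2 : (m : ℝ) * Real.log (1 / 2) ≤ -(u ^ 200 / 4) := by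
      calc (m : ℝ) * Real.log (1 / 2) ≤ m * (-(1 / 2)) := by gcongr
        _ ≤ -(u ^ 200 / 4) := by linarith
    have h3 : -(u ^ 173) ≤ ((l * E' : ℕ) : ℝ) * Real.log v := by
      have h4 : ((l * E' : ℕ) : ℝ) ≤ l * u ^ 171 := by
        push_cast
        gcongr
      have h5 : ((l * E' : ℕ) : ℝ) * (2 * C₀ * u) ≤ u ^ 173 := by
        calc ((l * E' : ℕ) : ℝ) * (2 * C₀ * u) ≤ (l * u ^ 171) * (2 * C₀ * u) := by gcongr
          _ = (2 * C₀ * l) * u ^ 172 := by ring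
          _ ≤ u * u ^ 172 := by
              gcongr
              nlinarith
          _ = u ^ 173 := by ring
      have h6 : ((l * E' : ℕ) : ℝ) * (-(2 * C₀ * u)) ≤ ((l * E' : ℕ) : ℝ) * Real.log v := by
        gcongr
      linarith
    have h4 : u ^ 173 ≤ u ^ 200 / 4 := by
      rw [le_div_iff₀ (by norm_num)]
      calc u ^ 173 * 4 ≤ u ^ 173 * u := by gcongr; linarith
        _ = u ^ 174 := by ring
        _ ≤ u ^ 200 := hup _ _ (by norm_num)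
    linarith

/-- final algebra -/
theorem par4 {m l e : ℕ} {g v w : ℝ} (hg : 0 ≤ g) (hg2 : g ≤ 2 ^ m) (hm1 : 1 ≤ m) (he : e ≤ m)
    (hv0 : 0 < v) (hvw : v ≤ w) (hvE : (1 / 2 : ℝ) ^ m ≤ v ^ e) :
    (g + 1) ^ l * 2 ^ m * (g ^ e * (v * g) ^ (m - e)) ≤ g ^ m * (4 * 4 ^ l * w) ^ m := by
  have hw0 : 0 ≤ w := hv0.le.trans hvw
  have e1 : g ^ e * (v * g) ^ (m - e) = g ^ m * v ^ (m - e) := by
    have h1 : g ^ m = g ^ e * g ^ (m - e) := by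
      rw [← pow_add]; congr 1; omega
    rw [h1, mul_pow]
    ring
  have e2 : v ^ (m - e) ≤ w ^ m * 2 ^ m := by
    have h1 : v ^ m = v ^ (m - e) * v ^ e := by
      rw [← pow_add]; congr 1; omega
    have h2 : v ^ m ≤ w ^ m := pow_le_pow_left₀ hv0.le hvw m
    have h3 : v ^ (m - e) * (1 / 2) ^ m ≤ w ^ m := by
      calc v ^ (m - e) * (1 / 2) ^ m ≤ v ^ (m - e) * v ^ e := by gcongr
        _ = v ^ m := h1.symm
        _ ≤ w ^ m := h2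
    calc v ^ (m - e) = v ^ (m - e) * (1 / 2) ^ m * 2 ^ m := by
          rw [mul_assoc, ← mul_pow]; norm_num
      _ ≤ w ^ m * 2 ^ m := by gcongr
  have e3 : (g + 1) ^ l ≤ (4 ^ l) ^ m := by
    have h1 : (1 : ℝ) ≤ 2 ^ m := one_le_pow₀ (by norm_num)
    have h2 : g + 1 ≤ 4 ^ m := by
      have h3 : (2 : ℝ) ^ m * 2 ≤ 2 ^ m * 2 ^ m := by
        gcongr
        calc (2 : ℝ) = 2 ^ 1 := by norm_num
          _ ≤ 2 ^ m := pow_le_pow_right₀ (by norm_num) hm1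
      have h4 : (4 : ℝ) ^ m = 2 ^ m * 2 ^ m := by rw [← mul_pow]; norm_num
      linarith
    calc (g + 1) ^ l ≤ (4 ^ m) ^ l := pow_le_pow_left₀ (by positivity) h2 l
      _ = (4 ^ l) ^ m := by rw [← pow_mul, ← pow_mul, mul_comm]
  rw [e1]
  calc (g + 1) ^ l * 2 ^ m * (g ^ m * v ^ (m - e))
      ≤ (4 ^ l) ^ m * 2 ^ m * (g ^ m * (w ^ m * 2 ^ m)) := by gcongr
    _ = g ^ m * (4 ^ l * 2 * w * 2) ^ m := by
        rw [mul_pow, mul_pow, mul_pow]; ring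
    _ = g ^ m * (4 * 4 ^ l * w) ^ m := by
        congr 2
        ring

variable {G : Type} [AddCommGroup G] [Fintype G]

open scoped Classical in
/-- many characters in the big level set -/
theorem big68 {M k m : ℕ} (hM : 4 ≤ M) {A u T R K : ℝ} {a q E : ℕ} (hk1n : 1 ≤ k)
    (hR0 : 0 ≤ R) (hRA : M * (A * Real.log k) ≤ R ^ 2) (hT8 : 0 ≤ T / 8)
    (hK : K = (T / 8) ^ (6 / 5 : ℝ))
    (hq1 : 16 * (2 ^ a * R) ^ 2 ≤ (q : ℝ)) (hEe : ∀ i ≤ 5, Pack502.ee a q i ≤ E)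
    (hE9 : (E : ℝ) ≤ (k : ℝ) ^ (9 / 10 : ℝ))
    (hmin : (π * R / 2 ^ (a * 5)) ^ 2 ≤ ((k : ℝ) ^ (-(3 / 2) : ℝ)) ^ 2)
    (y : Fin m → G) (hy : MinN k y)
    (hc : T / 8 ≤ ((univ.filter fun s : AddChar G ℂ => (k : ℝ) ^ (-A) ≤ gP M y s).card : ℝ)) :
    K ≤ ((univ.filter fun ψ : AddChar G ℂ => TC y (π * (2 ^ a + 1 / 2) * R) E ψ).card : ℝ) := by
  have h0 := big_level hM y hk1n hR0 hRA hT8 hc hq1 (fun i hi => hEe i (by omega)) (by
    intro ψ hψ F hF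
    have h1 : (Fᶜ.card : ℝ) ≤ (k : ℝ) ^ (9 / 10 : ℝ) := by
      have h2 : (Fᶜ.card : ℝ) ≤ E := by exact_mod_cast hF.trans (hEe 5 le_rfl)
      exact h2.trans hE9
    exact hmin.trans_lt (hy ψ hψ F h1))
  rw [← hK] at h0
  exact h0

open scoped Classical in
/-- the count, parameters given -/
theorem cnt68 {k m l J E E' : ℕ} {ρ r K v : ℝ} (hJ0n : 0 < J)
    (hr : r = 1 / (J : ℝ))
    (hJk : J ≤ k) (hK0 : 0 < K) (hv0 : 0 < v) (hv1 : v ≤ 1) (hvK : v * K = 4 * (J : ℝ) ^ 2)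
    (hθl : (8 / (J : ℝ)) ^ l ≤ v)
    (hp : ∀ p : ℕ, p.Prime → p ∣ Fintype.card G → k ≤ p) (hlE : l * E' ≤ m)
    (hE' : (E : ℝ) + ρ ^ 2 * (J : ℝ) ^ 2 ≤ E')
    (Y : Finset (Fin m → G))
    (hY : ∀ y ∈ Y, K ≤ ((univ.filter fun ψ : AddChar G ℂ => TC y ρ E ψ).card : ℝ)) :
    (Y.card : ℝ) ≤ ((Fintype.card G : ℝ) + 1) ^ l * 2 ^ m *
      ((Fintype.card G : ℝ) ^ (l * E') * (v * Fintype.card G) ^ (m - l * E')) := by
  have hJ0 : (0 : ℝ) < J := by exact_mod_cast hJ0n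
  refine CntGen.count Y (fun y => univ.filter fun ψ : AddChar G ℂ => TC y ρ E ψ) J (8 / J)
      (by positivity) (by rw [div_mul_cancel₀ _ hJ0.ne'])
      (fun p hpp hpd => hJk.trans (hp p hpp hpd)) l E' (v * Fintype.card G) (by positivity)
      (mul_le_of_le_one_left (by positivity) hv1)
      (mul_le_mul_of_nonneg_right hθl (by positivity)) ?_ ?_ ?_ hlE
  · intro y hy
    have h1 := hY y hy
    rw [← card_pos]
    have h2 : (0 : ℝ) < ((univ.filter fun ψ : AddChar G ℂ => TC y ρ E ψ).card : ℝ) := by linarith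
    exact_mod_cast h2
  · intro y hy
    have h1 := hY y hy
    have h2 : (0 : ℝ) < ((univ.filter fun ψ : AddChar G ℂ => TC y ρ E ψ).card : ℝ) := by linarith
    generalize ((univ.filter fun ψ : AddChar G ℂ => TC y ρ E ψ).card : ℝ) = X at h1 h2
    rw [div_le_iff₀ (by positivity)]
    have h3 : v * Fintype.card G * ((8 / (J : ℝ)) ^ 2 * X) =
      64 * (v * X) / (J : ℝ) ^ 2 * Fintype.card G := by
      ring
    rw [h3]
    have h4 : 4 * (J : ℝ) ^ 2 ≤ v * X := by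
      rw [← hvK]
      gcongr
    have h5 : 256 ≤ 64 * (v * X) / (J : ℝ) ^ 2 := by
      rw [le_div_iff₀ (by positivity)]
      linarith
    gcongr
  · intro y hy ψ hψ
    rw [mem_filter] at hψ
    have h0 := few y ψ (r := 1 / J) (by positivity) hψ.2
    have h1 : ρ ^ 2 / (1 / (J : ℝ)) ^ 2 = ρ ^ 2 * (J : ℝ) ^ 2 := by
      field_simp
    rw [h1] at h0
    exact_mod_cast h0.trans hE'

open scoped Classical in
/-- the count with all parameters explicit -/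
theorem core {M k m l : ℕ} (hM : 4 ≤ M) {A C₀ C₁ u T : ℝ} (hA : 0 < A) (hC₀ : 0 < C₀)
    (hC₁ : 1 ≤ C₁) (hl : 80 * C₀ ≤ l) (hu200 : u ^ 200 = k) (hlog : Real.log k ≤ u)
    (hu : 2 ^ 20 ≤ u) (hu1 : 15 ^ 5 * (16 * (M * A) + 1) ≤ u) (hu3 : 4 * (C₀ + 1) * (l + 1) ≤ u)
    (hkm : (k : ℝ) ≤ 2 * m)
    (hp : ∀ p : ℕ, p.Prime → p ∣ Fintype.card G → k ≤ p) (hG : (Fintype.card G : ℝ) ≤ 2 ^ m)
    (hT1 : (k : ℝ) ^ C₁ ≤ T) (hT0 : T ≤ (k : ℝ) ^ C₀) :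
    ((univ.filter fun y : Fin m → G => MinN k y ∧
      T / 8 ≤ ((univ.filter fun s : AddChar G ℂ => (k : ℝ) ^ (-A) ≤ gP M y s).card : ℝ)).card : ℝ) ≤
    (Fintype.card G : ℝ) ^ m *
      (4 * 4 ^ l * (64 * u ^ 8 * T ^ (-(6 / 5) : ℝ))) ^ m := by
  have hu0 : 0 < u := by linarith
  have hu1' : 1 ≤ u := by linarith
  have hM0 : (0 : ℝ) < M := by
    have : 0 < M := by omega
    exact_mod_cast this
  have hMA : 0 < M * A := by positivity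
  have hup : ∀ i j : ℕ, i ≤ j → u ^ i ≤ u ^ j := fun i j hij => pow_le_pow_right₀ hu1' hij
  have hk1 : (1 : ℝ) ≤ k := by
    rw [← hu200]
    exact one_le_pow₀ hu1'
  have hk1n : 1 ≤ k := by exact_mod_cast hk1
  have hm1 : 1 ≤ m := by
    have : (0 : ℝ) < m := by linarith
    exact_mod_cast this
  obtain ⟨R, hR0, hR2⟩ : ∃ R : ℝ, 0 ≤ R ∧ R ^ 2 = M * A * u :=
    ⟨Real.sqrt (M * A * u), Real.sqrt_nonneg _, Real.sq_sqrt (by positivity)⟩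
  have hRA : M * (A * Real.log k) ≤ R ^ 2 := by
    rw [hR2, ← mul_assoc]
    gcongr
  obtain ⟨a, q, E, hq1, hEe, hEu, hρ2, hE9, hmin⟩ := par1 hMA hu200 hlog hu hu1 hR0 hR2
  obtain ⟨J, hJ0n, hJ1, K, v, hK, hK0, hT8, hv0, hv1, hvK, hθl, hvw, hlogv⟩ :=
    par2 hC₀ hC₁ hl hu200 hlog hu hT1 hT0
  have hJk : J ≤ k := by
    have h1 : (J : ℝ) ≤ k := by
      rw [← hu200]
      exact hJ1.trans (hup _ _ (by norm_num))
    exact_mod_cast h1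
  obtain ⟨E', hE'u, hE'⟩ : ∃ E' : ℕ, (E' : ℝ) ≤ u ^ 171 ∧
      (E : ℝ) + (π * (2 ^ a + 1 / 2) * R) ^ 2 * (J : ℝ) ^ 2 ≤ E' := by
    have h2 : (J : ℝ) ^ 2 ≤ u ^ 8 := by
      calc (J : ℝ) ^ 2 ≤ (u ^ 4) ^ 2 := pow_le_pow_left₀ (by positivity) hJ1 2
        _ = u ^ 8 := by rw [← pow_mul]
    have h3 : (E : ℝ) + (π * (2 ^ a + 1 / 2) * R) ^ 2 * (J : ℝ) ^ 2 ≤ 2 * u ^ 170 := by
      calc (E : ℝ) + (π * (2 ^ a + 1 / 2) * R) ^ 2 * (J : ℝ) ^ 2 ≤ u ^ 167 + u ^ 162 * u ^ 8 := by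
            gcongr
        _ ≤ 2 * u ^ 170 := by
            have := hup 167 170 (by norm_num)
            have h2 : u ^ 162 * u ^ 8 = u ^ 170 := by ring
            linarith
    refine ⟨⌈2 * u ^ 170⌉₊, ?_, h3.trans (Nat.le_ceil _)⟩
    have h4 : (⌈2 * u ^ 170⌉₊ : ℝ) < 2 * u ^ 170 + 1 := Nat.ceil_lt_add_one (by positivity)
    have h5 : (1 : ℝ) ≤ u ^ 170 := one_le_pow₀ hu1'
    calc (⌈2 * u ^ 170⌉₊ : ℝ) ≤ 3 * u ^ 170 := by linarith
      _ ≤ u * u ^ 170 := by gcongr; linarith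
      _ = u ^ 171 := by ring
  obtain ⟨hlE, hvE⟩ := par3 hC₀ hu200 hu hu3 hkm hv0 hE'u hlogv
  have hcnt := cnt68 (G := G) (m := m) (K := K) (v := v) hJ0n rfl hJk hK0 hv0 hv1 hvK hθl hp hlE hE'
    (univ.filter fun y : Fin m → G => MinN k y ∧
      T / 8 ≤ ((univ.filter fun s : AddChar G ℂ => (k : ℝ) ^ (-A) ≤ gP M y s).card : ℝ))
    (fun y hy => by
      rw [mem_filter] at hy
      exact big68 (u := u) hM hk1n hR0 hRA hT8 hK hq1 hEe hE9 hmin y hy.2.1 hy.2.2)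
  exact hcnt.trans (par4 (by positivity) hG hm1 hlE hv0 hvw hvE)

end asym

section final

theorem ev_u (D : ℝ) : ∀ᶠ k : ℕ in Filter.atTop, D ≤ (k : ℝ) ^ (1 / 200 : ℝ) := by
  have h := (tendsto_rpow_atTop (show (0 : ℝ) < 1 / 200 by norm_num)).comp
    (tendsto_natCast_atTop_atTop (R := ℝ))
  exact h.eventually_ge_atTop D

theorem ev_log : ∀ᶠ k : ℕ in Filter.atTop, Real.log k ≤ (k : ℝ) ^ (1 / 200 : ℝ) := by
  have h := (isLittleO_log_rpow_atTop (show (0 : ℝ) < 1 / 200 by norm_num)).bound (one_pos)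
  have h2 : ∀ᶠ x : ℝ in Filter.atTop, Real.log x ≤ x ^ (1 / 200 : ℝ) := by
    filter_upwards [h, Filter.eventually_ge_atTop 1] with x hx h1
    rw [one_mul, Real.norm_of_nonneg (Real.log_nonneg h1),
      Real.norm_of_nonneg (by positivity)] at hx
    exact hx
  exact tendsto_natCast_atTop_atTop.eventually h2

theorem par5 {M k m l : ℕ} {c C₀ u T g : ℝ} (hM : 4 ≤ M) (hC₀ : 0 < C₀) (hu200 : u ^ 200 = k)
    (hu : 2 ^ 20 ≤ u) (hu4 : 1024 * 4 ^ l ≤ u) (hm1 : 1 ≤ m) (hmk : m ≤ k) (hg : 0 ≤ g)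
    (hT1 : 1 ≤ T) (hT0 : T ≤ (k : ℝ) ^ C₀) :
    g ^ m * (4 * 4 ^ l * (64 * u ^ 8 * T ^ (-(6 / 5) : ℝ))) ^ m +
      g ^ m * Real.exp (-((2 * C₀) * (k * Real.log k))) ≤
    g ^ m * ((k : ℝ) ^ (1 / 10 : ℝ) * T ^ (-(6 / 5) : ℝ)) ^ m := by
  have hu0 : 0 < u := by linarith
  have hu1' : 1 ≤ u := by linarith
  have hk1 : (1 : ℝ) ≤ k := by
    rw [← hu200]
    exact one_le_pow₀ hu1'
  have hk0 : (0 : ℝ) < k := by linarith
  have h110 : (k : ℝ) ^ (1 / 10 : ℝ) = u ^ 20 := rpow_u hu0 hu200 20 _ (by norm_num)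
  rw [h110, ← mul_add]
  refine mul_le_mul_of_nonneg_left ?_ (by positivity)
  have hT0' : 0 < T := by linarith
  have hX0 : 0 < T ^ (-(6 / 5) : ℝ) := by positivity
  have hlog0 : 0 ≤ Real.log k := Real.log_nonneg hk1
  have h1 : Real.exp (-((2 * C₀) * (k * Real.log k))) ≤ (T ^ (-(6 / 5) : ℝ)) ^ m := by
    have h2 : Real.exp (-(2 * C₀ * Real.log k)) ≤ T ^ (-(6 / 5) : ℝ) := by
      rw [Real.rpow_def_of_pos hT0', Real.exp_le_exp]
      have h3 : Real.log T ≤ C₀ * Real.log k := by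
        rw [← Real.log_rpow hk0]
        exact Real.log_le_log hT0' hT0
      have h4 : 0 ≤ Real.log T := Real.log_nonneg hT1
      nlinarith
    calc Real.exp (-((2 * C₀) * (k * Real.log k))) ≤ Real.exp (m * (-(2 * C₀ * Real.log k))) := by
          rw [Real.exp_le_exp]
          have h5 : (m : ℝ) ≤ k := by exact_mod_cast hmk
          have h6 : 0 ≤ 2 * C₀ * Real.log k := by positivity
          nlinarith
      _ = Real.exp (-(2 * C₀ * Real.log k)) ^ m := by rw [← Real.exp_nat_mul]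
      _ ≤ (T ^ (-(6 / 5) : ℝ)) ^ m := pow_le_pow_left₀ (Real.exp_pos _).le h2 m
  generalize T ^ (-(6 / 5) : ℝ) = X at h1 hX0
  have h2 : 4 * 4 ^ l * (64 * u ^ 8 * X) ≤ u ^ 20 / 4 * X := by
    have h3 : 4 * 4 ^ l * (64 * u ^ 8) ≤ u ^ 20 / 4 := by
      rw [le_div_iff₀ (by norm_num)]
      calc 4 * 4 ^ l * (64 * u ^ 8) * 4 = (1024 * 4 ^ l) * u ^ 8 := by ring
        _ ≤ u * u ^ 8 := by gcongr
        _ = u ^ 9 := by ring
        _ ≤ u ^ 20 := pow_le_pow_right₀ hu1' (by norm_num)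
    calc 4 * 4 ^ l * (64 * u ^ 8 * X) = 4 * 4 ^ l * (64 * u ^ 8) * X := by ring
      _ ≤ u ^ 20 / 4 * X := by gcongr
  have h3 : (4 * 4 ^ l * (64 * u ^ 8 * X)) ^ m ≤ 1 / 4 * (u ^ 20 * X) ^ m := by
    calc (4 * 4 ^ l * (64 * u ^ 8 * X)) ^ m ≤ (u ^ 20 / 4 * X) ^ m :=
          pow_le_pow_left₀ (by positivity) h2 m
      _ = (1 / 4) ^ m * (u ^ 20 * X) ^ m := by rw [← mul_pow]; congr 1; ring
      _ ≤ (1 / 4) ^ 1 * (u ^ 20 * X) ^ m := by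
          refine mul_le_mul_of_nonneg_right ?_ (by positivity)
          exact pow_le_pow_of_le_one (by norm_num) (by norm_num) hm1
      _ = 1 / 4 * (u ^ 20 * X) ^ m := by rw [pow_one]
  have h4 : X ^ m ≤ 1 / 4 * (u ^ 20 * X) ^ m := by
    have h5 : 4 * X ≤ u ^ 20 * X := by
      gcongr
      calc (4 : ℝ) ≤ u := by linarith
        _ = u ^ 1 := (pow_one u).symm
        _ ≤ u ^ 20 := pow_le_pow_right₀ hu1' (by norm_num)
    have h6 : (4 * X) ^ m ≤ (u ^ 20 * X) ^ m := pow_le_pow_left₀ (by positivity) h5 m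
    have h7 : 4 * X ^ m ≤ (4 * X) ^ m := by
      rw [mul_pow]
      gcongr
      calc (4 : ℝ) = 4 ^ 1 := by norm_num
        _ ≤ 4 ^ m := pow_le_pow_right₀ (by norm_num) hm1
    linarith
  have h5 : 0 ≤ (u ^ 20 * X) ^ m := by positivity
  linarith

/-- **LEMMA MC** for every law `M ≥ 4`, bound `(k^{1/10} T^{-6/5})^m`. -/
theorem mc {M : ℕ} (hM : 4 ≤ M) : StmtMC M := by
  classical
  intro c C₀ C₁ hc hC₀ hC₁
  obtain ⟨A, hA, k₁, hk₁⟩ := Flat.Tail.stmtTail hM c (2 * C₀) hc (by positivity)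
  set l : ℕ := ⌈80 * C₀⌉₊ with hl
  have hl' : 80 * C₀ ≤ l := Nat.le_ceil _
  have hev := ((ev_u (2 ^ 20)).and ((ev_u (15 ^ 5 * (16 * (M * A) + 1))).and
    ((ev_u (4 * (C₀ + 1) * (l + 1))).and ((ev_u (1024 * 4 ^ l)).and ev_log))))
  obtain ⟨k₂, hk₂⟩ := Filter.eventually_atTop.1 hev
  refine ⟨max k₁ k₂, ?_⟩
  intro k hk G _ _ m hmk hkm hp hGc T hT1 hT0
  obtain ⟨hu, hu1, hu3, hu4, hlog⟩ := hk₂ k ((le_max_right _ _).trans hk)
  have hu200 : ((k : ℝ) ^ (1 / 200 : ℝ)) ^ 200 = k := by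
    rw [← Real.rpow_natCast, ← Real.rpow_mul (by positivity)]
    norm_num
  generalize (k : ℝ) ^ (1 / 200 : ℝ) = u at hu hu1 hu3 hu4 hlog hu200
  have hu1' : 1 ≤ u := by linarith
  have hk1 : (1 : ℝ) ≤ k := by
    rw [← hu200]
    exact one_le_pow₀ hu1'
  have hkbig : (8 : ℝ) ≤ k := by
    rw [← hu200]
    calc (8 : ℝ) ≤ u := by linarith
      _ = u ^ 1 := (pow_one u).symm
      _ ≤ u ^ 200 := pow_le_pow_right₀ hu1' (by norm_num)
  have hm1 : 1 ≤ m := by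
    have : (0 : ℝ) < m := by linarith
    exact_mod_cast this
  have hTk : (k : ℝ) ≤ T := by
    refine le_trans ?_ hT1
    calc (k : ℝ) = (k : ℝ) ^ (1 : ℝ) := (Real.rpow_one _).symm
      _ ≤ (k : ℝ) ^ C₁ := Real.rpow_le_rpow_of_exponent_le hk1 hC₁
  have hM4 : (4 : ℝ) ≤ M := by exact_mod_cast hM
  have hG2 : (Fintype.card G : ℝ) ≤ 2 ^ m := by
    have h1 : (1 / 2 : ℝ) ≤ 1 - 2 / M := by
      have : (2 : ℝ) / M ≤ 1 / 2 := by
        rw [div_le_div_iff₀ (by linarith) (by norm_num)]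
        linarith
      linarith
    have h2 : (1 / 2 : ℝ) ^ m ≤ (1 - 2 / M) ^ m := pow_le_pow_left₀ (by norm_num) h1 m
    have h3 : (Fintype.card G : ℝ) * (1 / 2) ^ m ≤ 1 := by
      calc (Fintype.card G : ℝ) * (1 / 2) ^ m ≤ Fintype.card G * (1 - 2 / M) ^ m := by gcongr
        _ ≤ Real.exp (-c * k) := hGc
        _ ≤ 1 := by
            rw [Real.exp_le_one_iff]
            have : 0 ≤ c * k := by positivity
            linarith
    calc (Fintype.card G : ℝ) = Fintype.card G * (1 / 2) ^ m * 2 ^ m := by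
          rw [mul_assoc, ← mul_pow]; norm_num
      _ ≤ 1 * 2 ^ m := by gcongr
      _ = 2 ^ m := one_mul _
  have h1 := hk₁ k ((le_max_left _ _).trans hk) G m hmk hGc (T / 2) (by linarith)
  have h2 := core (G := G) (M := M) (m := m) (A := A) hM hA hC₀ hC₁ hl' hu200 hlog hu hu1 hu3 hkm hp
    hG2 hT1 hT0
  have hsub : (univ.filter fun y : Fin m → G => MinN k y ∧ T ≤ gZ M y) ⊆
      (univ.filter fun y : Fin m → G => MinN k y ∧
        T / 8 ≤ ((univ.filter fun s : AddChar G ℂ => (k : ℝ) ^ (-A) ≤ gP M y s).card : ℝ)) ∪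
      (univ.filter fun y : Fin m → G => 2 * (T / 2) ≤ gZ M y ∧
        ((Flat.Tail.LM M y ((k : ℝ) ^ (-A))).card : ℝ) < T / 2 / 4) := by
    intro y hy
    rw [mem_filter] at hy
    rw [mem_union, mem_filter, mem_filter]
    by_cases h3 : ((Flat.Tail.LM M y ((k : ℝ) ^ (-A))).card : ℝ) < T / 2 / 4
    · right
      exact ⟨mem_univ _, by linarith [hy.2.2], h3⟩
    · left
      refine ⟨mem_univ _, hy.2.1, ?_⟩
      push Not at h3
      have h4 : Flat.Tail.LM M y ((k : ℝ) ^ (-A)) =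
          univ.filter fun s : AddChar G ℂ => (k : ℝ) ^ (-A) ≤ gP M y s := by
        ext s
        rw [Flat.Tail.mem_LM, mem_filter]
        simp
      rw [h4] at h3
      linarith
  have h3 := card_le_card hsub
  have h4 : ((univ.filter fun y : Fin m → G => MinN k y ∧ T ≤ gZ M y).card : ℝ) ≤
      ((univ.filter fun y : Fin m → G => MinN k y ∧
        T / 8 ≤ ((univ.filter fun s : AddChar G ℂ => (k : ℝ) ^ (-A) ≤ gP M y s).card : ℝ)).card : ℝ) +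
      ((univ.filter fun y : Fin m → G => 2 * (T / 2) ≤ gZ M y ∧
        ((Flat.Tail.LM M y ((k : ℝ) ^ (-A))).card : ℝ) < T / 2 / 4).card : ℝ) := by
    exact_mod_cast h3.trans (card_union_le _ _)
  refine h4.trans ((add_le_add h2 h1).trans ?_)
  exact par5 (c := c) hM hC₀ hu200 hu hu4 hm1 hmk (by positivity) (by linarith) hT0

open scoped Classical in
/-- **LEMMA MC**, hypotheses exactly as in `MC.mc` (986), conclusion with the `T`-dependent bound. -/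
theorem mcT (M : ℕ) (hM : 4 ≤ M) (c C₀ C₁ : ℝ) (hc : 0 < c) (hC₀ : 0 < C₀) (hC₁ : 1 ≤ C₁)
    (d : ℝ) (hd : d ≤ 1 / 10) : ∃ k₀ : ℕ, ∀ k : ℕ, k₀ ≤ k →
    ∀ (G : Type) [AddCommGroup G] [Fintype G] (m : ℕ), m ≤ k → (k : ℝ) ≤ 2 * m →
    (∀ p : ℕ, p.Prime → p ∣ Fintype.card G → k ≤ p) →
    (Fintype.card G : ℝ) * (1 - 2 / M) ^ m ≤ Real.exp (-c * k) →
    ∀ T : ℝ, (k : ℝ) ^ C₁ ≤ T → T ≤ (k : ℝ) ^ C₀ →
    ((univ.filter fun y : Fin m → G =>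
      Half.MC.MinC ((k : ℝ) ^ (1 - d)) ((k : ℝ) ^ (-(3 / 2) : ℝ)) y ∧ T ≤ gZ M y).card : ℝ) ≤
      (Fintype.card G : ℝ) ^ m * ((k : ℝ) ^ (1 / 10 : ℝ) * T ^ (-(6 / 5) : ℝ)) ^ m := by
  obtain ⟨k₀, h⟩ := mc hM c C₀ C₁ hc hC₀ hC₁
  refine ⟨max k₀ 1, ?_⟩
  intro k hk G _ _ m hmk hkm hp hGc T hT1 hT0
  refine le_trans ?_ (h k ((le_max_left _ _).trans hk) G m hmk hkm hp hGc T hT1 hT0)
  have h1 : (univ.filter fun y : Fin m → G =>
      Half.MC.MinC ((k : ℝ) ^ (1 - d)) ((k : ℝ) ^ (-(3 / 2) : ℝ)) y ∧ T ≤ gZ M y) ⊆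
      (univ.filter fun y : Fin m → G => MinN k y ∧ T ≤ gZ M y) := by
    intro y hy
    rw [mem_filter] at hy ⊢
    exact ⟨mem_univ _, minN_of_minC ((le_max_right _ _).trans hk) hd hy.2.1, hy.2.2⟩
  exact_mod_cast card_le_card h1

end final

end Vale.Agent.P160.Half.MC68
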