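import Mathlib

/-!
# Packing growth in the dual group (P160 (M), note 11331, leaf P1)

`A` is a finite abelian group (the dual of `Γ`), `n c s = ‖s (y_c)‖` for `c : ι`.
`T ρ e` = characters whose vector is of `ℓ²` norm `≤ ρ` outside at most `e` coordinates.
-/

namespace Vale.Agent.P160.Half.Pack502

open Finset

set_option linter.unusedSectionVars false
set_option linter.unusedVariables false

variable {A ι : Type*} [AddCommGroup A] [Fintype A] [DecidableEq A] [Fintype ι] [DecidableEq ι]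

/-- norms of a family of homomorphisms into `ℝ/ℤ` -/
structure Nrm (n : ι → A → ℝ) : Prop where
  nonneg : ∀ c s, 0 ≤ n c s
  zero : ∀ c, n c 0 = 0
  neg : ∀ c s, n c (-s) = n c s
  add : ∀ c s t, n c (s + t) ≤ n c s + n c t
  dbl : ∀ c s, n c s ≤ 1 / 4 → n c (s + s) = 2 * n c s

/-- `T ρ e` -/
def T (n : ι → A → ℝ) (ρ : ℝ) (e : ℕ) (s : A) : Prop :=
  ∃ B : Finset ι, B.card ≤ e ∧ ∑ c ∈ Bᶜ, n c s ^ 2 ≤ ρ ^ 2

variable {n : ι → A → ℝ}

theorem T_mono {ρ ρ' : ℝ} {e e' : ℕ} (h0 : 0 ≤ ρ) (h : ρ ≤ ρ') (he : e ≤ e') {s : A}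
    (hs : T n ρ e s) : T n ρ' e' s := by
  obtain ⟨B, hB, hs⟩ := hs
  exact ⟨B, hB.trans he, hs.trans (pow_le_pow_left₀ h0 h 2)⟩

/-- Minkowski -/
theorem sqrt_sum_add_le (S : Finset ι) (a b : ι → ℝ) (ha : ∀ c, 0 ≤ a c) (hb : ∀ c, 0 ≤ b c)
    {x y : ℝ} (hx : 0 ≤ x) (hy : 0 ≤ y) (h1 : ∑ c ∈ S, a c ^ 2 ≤ x ^ 2)
    (h2 : ∑ c ∈ S, b c ^ 2 ≤ y ^ 2) : ∑ c ∈ S, (a c + b c) ^ 2 ≤ (x + y) ^ 2 := by
  have h3 : (∑ c ∈ S, a c * b c) ^ 2 ≤ (∑ c ∈ S, a c ^ 2) * ∑ c ∈ S, b c ^ 2 :=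
    Finset.sum_mul_sq_le_sq_mul_sq S a b
  have h4 : (∑ c ∈ S, a c * b c) ^ 2 ≤ (x * y) ^ 2 := by
    refine h3.trans ?_
    rw [mul_pow]
    exact mul_le_mul h1 h2 (Finset.sum_nonneg fun c _ => sq_nonneg _) (sq_nonneg _)
  have h5 : ∑ c ∈ S, a c * b c ≤ x * y := abs_le_of_sq_le_sq' h4 (mul_nonneg hx hy) |>.2
  have h6 : ∑ c ∈ S, (a c + b c) ^ 2
      = ∑ c ∈ S, a c ^ 2 + 2 * ∑ c ∈ S, a c * b c + ∑ c ∈ S, b c ^ 2 := by
    rw [Finset.mul_sum, ← Finset.sum_add_distrib, ← Finset.sum_add_distrib]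
    exact Finset.sum_congr rfl fun c _ => by ring
  rw [h6]
  nlinarith

theorem T_add (hn : Nrm n) {ρ ρ' : ℝ} {e e' : ℕ} (h0 : 0 ≤ ρ) (h0' : 0 ≤ ρ') {s t : A}
    (hs : T n ρ e s) (ht : T n ρ' e' t) : T n (ρ + ρ') (e + e') (s + t) := by
  obtain ⟨B, hB, hs⟩ := hs
  obtain ⟨C, hC, ht⟩ := ht
  refine ⟨B ∪ C, (Finset.card_union_le _ _).trans (add_le_add hB hC), ?_⟩
  have hsub1 : (B ∪ C)ᶜ ⊆ Bᶜ := Finset.compl_subset_compl.2 Finset.subset_union_left
  have hsub2 : (B ∪ C)ᶜ ⊆ Cᶜ := Finset.compl_subset_compl.2 Finset.subset_union_right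
  have h1 : ∑ c ∈ (B ∪ C)ᶜ, n c s ^ 2 ≤ ρ ^ 2 :=
    (Finset.sum_le_sum_of_subset_of_nonneg hsub1 fun c _ _ => sq_nonneg _).trans hs
  have h2 : ∑ c ∈ (B ∪ C)ᶜ, n c t ^ 2 ≤ ρ' ^ 2 :=
    (Finset.sum_le_sum_of_subset_of_nonneg hsub2 fun c _ _ => sq_nonneg _).trans ht
  refine le_trans (Finset.sum_le_sum fun c _ => ?_)
    (sqrt_sum_add_le _ (fun c => n c s) (fun c => n c t) (fun c => hn.nonneg c s)
      (fun c => hn.nonneg c t) h0 h0' h1 h2)
  exact pow_le_pow_left₀ (hn.nonneg _ _) (hn.add c s t) 2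

theorem T_neg (hn : Nrm n) {ρ : ℝ} {e : ℕ} {s : A} (hs : T n ρ e s) : T n ρ e (-s) := by
  obtain ⟨B, hB, hs⟩ := hs
  refine ⟨B, hB, ?_⟩
  simpa [hn.neg] using hs

theorem T_sub (hn : Nrm n) {ρ ρ' : ℝ} {e e' : ℕ} (h0 : 0 ≤ ρ) (h0' : 0 ≤ ρ') {s t : A}
    (hs : T n ρ e s) (ht : T n ρ' e' t) : T n (ρ + ρ') (e + e') (s - t) := by
  rw [sub_eq_add_neg]
  exact T_add hn h0 h0' hs (T_neg hn ht)

theorem T_dbl (hn : Nrm n) {ρ : ℝ} {e : ℕ} (h0 : 0 ≤ ρ) {s : A}
    (hs : T n ρ e s) : T n (2 * ρ) e (s + s) := by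
  obtain ⟨B, hB, hs⟩ := hs
  refine ⟨B, hB, ?_⟩
  calc ∑ c ∈ Bᶜ, n c (s + s) ^ 2 ≤ ∑ c ∈ Bᶜ, 4 * n c s ^ 2 := by
        refine Finset.sum_le_sum fun c _ => ?_
        have h1 := hn.add c s s
        have h2 := hn.nonneg c (s + s)
        nlinarith [hn.nonneg c s]
    _ = 4 * ∑ c ∈ Bᶜ, n c s ^ 2 := by rw [Finset.mul_sum]
    _ ≤ (2 * ρ) ^ 2 := by nlinarith

/-- doubling step backwards -/
theorem T_half (hn : Nrm n) {ρ σ : ℝ} {e e' q : ℕ} {s : A} (hs : T n ρ e s)
    (hq : 16 * ρ ^ 2 ≤ q) (h2 : T n (2 * σ) e' (s + s)) : T n σ (e + e' + q) s := by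
  obtain ⟨B, hB, hs⟩ := hs
  obtain ⟨C, hC, h2⟩ := h2
  -- large coordinates outside `B`
  set D : Finset ι := Bᶜ.filter fun c => 1 / 4 < n c s with hD
  have hDc : D.card ≤ q := by
    have h3 : (D.card : ℝ) * (1 / 4) ^ 2 ≤ ρ ^ 2 := by
      calc (D.card : ℝ) * (1 / 4) ^ 2 = ∑ _c ∈ D, (1 / 4 : ℝ) ^ 2 := by
            rw [Finset.sum_const, nsmul_eq_mul]
        _ ≤ ∑ c ∈ D, n c s ^ 2 := by
            refine Finset.sum_le_sum fun c hc => ?_
            have := (Finset.mem_filter.1 hc).2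
            exact pow_le_pow_left₀ (by norm_num) this.le 2
        _ ≤ ∑ c ∈ Bᶜ, n c s ^ 2 :=
            Finset.sum_le_sum_of_subset_of_nonneg (Finset.filter_subset _ _)
              fun c _ _ => sq_nonneg _
        _ ≤ ρ ^ 2 := hs
    have h4 : (D.card : ℝ) ≤ q := by nlinarith
    exact_mod_cast h4
  refine ⟨B ∪ C ∪ D, ?_, ?_⟩
  · calc (B ∪ C ∪ D).card ≤ (B ∪ C).card + D.card := Finset.card_union_le _ _
      _ ≤ (B.card + C.card) + D.card := Nat.add_le_add_right (Finset.card_union_le _ _) _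
      _ ≤ e + e' + q := by omega
  · have h5 : ∑ c ∈ (B ∪ C ∪ D)ᶜ, 4 * n c s ^ 2 ≤ (2 * σ) ^ 2 := by
      calc ∑ c ∈ (B ∪ C ∪ D)ᶜ, 4 * n c s ^ 2 = ∑ c ∈ (B ∪ C ∪ D)ᶜ, n c (s + s) ^ 2 := by
            refine Finset.sum_congr rfl fun c hc => ?_
            have hc1 : c ∉ B ∪ C ∪ D := Finset.mem_compl.1 hc
            have hcB : c ∉ B := fun h => hc1 (by simp [h])
            have hcD : c ∉ D := fun h => hc1 (by simp [h])
            have h6 : n c s ≤ 1 / 4 := by
              by_contra h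
              exact hcD (Finset.mem_filter.2 ⟨Finset.mem_compl.2 hcB, not_le.1 h⟩)
            rw [hn.dbl c s h6]
            ring
        _ ≤ ∑ c ∈ Cᶜ, n c (s + s) ^ 2 := by
            refine Finset.sum_le_sum_of_subset_of_nonneg ?_ fun c _ _ => sq_nonneg _
            intro c hc
            rw [Finset.mem_compl] at hc ⊢
            exact fun h => hc (by simp [h])
        _ ≤ (2 * σ) ^ 2 := h2
    rw [← Finset.mul_sum] at h5
    nlinarith

theorem T_pow_smul (hn : Nrm n) {ρ : ℝ} {e : ℕ} (h0 : 0 ≤ ρ) {s : A} (hs : T n ρ e s) :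
    ∀ J : ℕ, T n (2 ^ J * ρ) e (2 ^ J • s) := by
  intro J
  induction J with
  | zero => simpa using hs
  | succ J ih =>
    have h1 := T_dbl hn (by positivity) ih
    have h3 : (2 ^ (J + 1) : ℕ) • s = 2 ^ J • s + 2 ^ J • s := by
      rw [pow_succ, mul_comm, mul_smul, two_smul]
    rw [h3]
    have h4 : (2 : ℝ) ^ (J + 1) * ρ = 2 * (2 ^ J * ρ) := by ring
    rw [h4]
    exact h1

/-- iterated doubling backwards: if `s ∈ T ρ e` and `2 ^ J s ∈ T (2 ^ J σ) e'` then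
`s ∈ T σ (e' + J (e + q))`, where `16 (2 ^ J ρ)² ≤ q`. -/
theorem T_halves (hn : Nrm n) {σ ρ : ℝ} {e q : ℕ} (h0 : 0 ≤ ρ) {s : A} (hs : T n ρ e s) :
    ∀ (J : ℕ) (_ : 16 * (2 ^ J * ρ) ^ 2 ≤ q) (e' : ℕ)
      (_ : T n (2 ^ J * σ) e' (2 ^ J • s)), T n σ (e' + J * (e + q)) s := by
  intro J
  induction J with
  | zero =>
    intro hq e' h2
    simpa using h2
  | succ J ih =>
    intro hq e' h2
    have hz : T n (2 ^ J * ρ) e (2 ^ J • s) := T_pow_smul hn h0 hs J
    have h5 : 16 * (2 ^ J * ρ) ^ 2 ≤ q := by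
      refine le_trans ?_ hq
      have : (2 : ℝ) ^ J * ρ ≤ 2 ^ (J + 1) * ρ := by
        refine mul_le_mul_of_nonneg_right ?_ h0
        exact pow_le_pow_right₀ (by norm_num) (Nat.le_succ J)
      have h6 : (0 : ℝ) ≤ 2 ^ J * ρ := by positivity
      nlinarith
    have h6 : (2 ^ (J + 1) : ℕ) • s = 2 ^ J • s + 2 ^ J • s := by
      rw [pow_succ, mul_comm, mul_smul, two_smul]
    have h7 : T n (2 * (2 ^ J * σ)) e' (2 ^ J • s + 2 ^ J • s) := by
      rw [← h6]
      have h8 : 2 * ((2 : ℝ) ^ J * σ) = 2 ^ (J + 1) * σ := by ring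
      rw [h8]
      exact h2
    have h9 := T_half hn hz h5 h7
    have h10 := ih h5 _ h9
    have h11 : e + e' + q + J * (e + q) = e' + (J + 1) * (e + q) := by ring
    rwa [h11] at h10

open Classical in
/-- the number of characters in `T ρ e` -/
noncomputable def N (n : ι → A → ℝ) (ρ : ℝ) (e : ℕ) : ℕ :=
  (Finset.univ.filter fun s => T n ρ e s).card

/-- `g` bounds every `(2 R, 0)`-separated subset of `T (2 ^ (a + 1) R) E` -/
def Sep (n : ι → A → ℝ) (a : ℕ) (R : ℝ) (E : ℕ) (X : Finset A) : Prop :=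
  (∀ x ∈ X, T n (2 ^ (a + 1) * R) E x) ∧ ∀ x ∈ X, ∀ y ∈ X, x ≠ y → ¬ T n (2 * R) 0 (x - y)

/-- one step -/
theorem step (hn : Nrm n) {a J q e E g : ℕ} {R ρ : ℝ} (hρ : 0 ≤ ρ)
    (hg : ∀ X : Finset A, Sep n a R E X → X.card ≤ g) (he : e ≤ E)
    (hJ : 2 ^ J * ρ = 2 ^ (a + 1) * R) (hq : 16 * (2 ^ J * (ρ + ρ)) ^ 2 ≤ (q : ℝ)) :
    N n ρ e ≤ g * N n (ρ / 2 ^ a) (J * (e + e + q)) := by
  classical
  set e2 := J * (e + e + q) with he2
  set σ := ρ / 2 ^ a with hσ
  have hσ0 : 0 ≤ σ := by positivity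
  -- separated subsets of `T ρ e`
  set F : Finset (Finset A) := Finset.univ.filter fun X : Finset A =>
    (∀ x ∈ X, T n ρ e x) ∧ ∀ x ∈ X, ∀ y ∈ X, x ≠ y → ¬ T n σ e2 (x - y) with hF
  have hFne : F.Nonempty := ⟨∅, by simp [hF]⟩
  obtain ⟨X, hXF, hmax⟩ := Finset.exists_max_image F Finset.card hFne
  have hX := (Finset.mem_filter.1 hXF).2
  -- covering
  have hcov : ∀ s, T n ρ e s → ∃ x ∈ X, T n σ e2 (s - x) := by
    intro s hs
    by_contra hcon
    push Not at hcon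
    have hsX : s ∉ X := by
      intro h
      apply hcon s h
      rw [sub_self]
      refine ⟨∅, by simp, ?_⟩
      simp [hn.zero]
      positivity
    have h1 : insert s X ∈ F := by
      refine Finset.mem_filter.2 ⟨Finset.mem_univ _, ?_, ?_⟩
      · intro x hx
        rcases Finset.mem_insert.1 hx with rfl | hx
        · exact hs
        · exact hX.1 x hx
      · intro x hx y hy hxy
        rcases Finset.mem_insert.1 hx with h1 | hx1
        · rcases Finset.mem_insert.1 hy with h2 | hy1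
          · exact absurd (h1.trans h2.symm) hxy
          · rw [h1]; exact hcon y hy1
        · rcases Finset.mem_insert.1 hy with h2 | hy1
          · intro h
            apply hcon x hx1
            have := T_neg hn h
            rwa [neg_sub, h2] at this
          · exact hX.2 x hx1 y hy1 hxy
    have h2 := hmax _ h1
    rw [Finset.card_insert_of_notMem hsX] at h2
    omega
  -- size of `X`
  have hkey : ∀ x ∈ X, ∀ y ∈ X, x ≠ y → ¬ T n (2 * R) 0 (2 ^ J • x - 2 ^ J • y) := by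
    intro x hx y hy hxy h
    apply hX.2 x hx y hy hxy
    have h1 : T n (ρ + ρ) (e + e) (x - y) := T_sub hn hρ hρ (hX.1 x hx) (hX.1 y hy)
    have h2 : 2 * R = 2 ^ J * σ := by
      rw [hσ, mul_div_assoc', hJ]
      field_simp
      ring
    rw [← smul_sub, h2] at h
    have h3 := T_halves hn (by positivity) h1 J hq 0 h
    rw [Nat.zero_add] at h3
    exact h3
  have hcard : X.card ≤ g := by
    have hinj : Set.InjOn (fun x : A => 2 ^ J • x) (X : Set A) := by
      intro x hx y hy hxy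
      by_contra hne
      apply hkey x hx y hy hne
      have hxy' : 2 ^ J • x = 2 ^ J • y := hxy
      rw [hxy', sub_self]
      refine ⟨∅, by simp, ?_⟩
      simp [hn.zero]
      positivity
    rw [← Finset.card_image_of_injOn hinj]
    apply hg
    refine ⟨?_, ?_⟩
    · intro z hz
      obtain ⟨x, hx, rfl⟩ := Finset.mem_image.1 hz
      have h1 := T_pow_smul hn hρ (hX.1 x hx) J
      rw [hJ] at h1
      obtain ⟨B, hB, h1⟩ := h1
      exact ⟨B, hB.trans he, h1⟩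
    · intro z hz w hw hzw
      obtain ⟨x, hx, rfl⟩ := Finset.mem_image.1 hz
      obtain ⟨y, hy, rfl⟩ := Finset.mem_image.1 hw
      exact hkey x hx y hy (fun h => hzw (by rw [h]))
  -- count
  have h1 : (Finset.univ.filter fun s => T n ρ e s)
      ⊆ X.biUnion fun x => (Finset.univ.filter fun s => T n σ e2 s).image fun t => t + x := by
    intro s hs
    obtain ⟨x, hx, h⟩ := hcov s (Finset.mem_filter.1 hs).2
    refine Finset.mem_biUnion.2 ⟨x, hx, Finset.mem_image.2 ⟨s - x, ?_, by simp⟩⟩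
    exact Finset.mem_filter.2 ⟨Finset.mem_univ _, h⟩
  calc N n ρ e ≤ (X.biUnion fun x =>
        (Finset.univ.filter fun s => T n σ e2 s).image fun t => t + x).card := by
        unfold N
        convert Finset.card_le_card h1
    _ ≤ ∑ x ∈ X, ((Finset.univ.filter fun s => T n σ e2 s).image fun t => t + x).card :=
        Finset.card_biUnion_le
    _ ≤ ∑ _x ∈ X, N n σ e2 := by
        refine Finset.sum_le_sum fun x _ => ?_
        refine Finset.card_image_le.trans (le_of_eq ?_)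
        unfold N
        congr
    _ = X.card * N n σ e2 := by rw [Finset.sum_const, smul_eq_mul]
    _ ≤ g * N n σ e2 := Nat.mul_le_mul_right _ hcard

/-- the trimming parameters -/
def ee (a q : ℕ) : ℕ → ℕ
  | 0 => 0
  | i + 1 => a * (i + 1) * (ee a q i + ee a q i + q)

theorem iterate (hn : Nrm n) {a q E g : ℕ} {R : ℝ} (hR : 0 ≤ R)
    (hg : ∀ X : Finset A, Sep n a R E X → X.card ≤ g)
    (hq : 256 * (2 ^ a * R) ^ 2 ≤ (q : ℝ)) :
    ∀ r : ℕ, (∀ i < r, ee a q i ≤ E) →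
      N n (2 * R) 0 ≤ g ^ r * N n (2 * R / 2 ^ (a * r)) (ee a q r) := by
  intro r
  induction r with
  | zero => intro _; simp [ee]
  | succ r ih =>
    intro hE
    have h1 := ih fun i hi => hE i (by omega)
    have h2 := step (J := a * (r + 1)) (q := q) (e := ee a q r) (ρ := 2 * R / 2 ^ (a * r)) hn
      (by positivity) hg (hE r (by omega)) (by
        rw [show a * (r + 1) = a * r + a by ring, pow_add, pow_succ]
        field_simp) (by
        refine le_trans (le_of_eq ?_) hq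
        rw [show a * (r + 1) = a * r + a by ring, pow_add]
        field_simp
        ring)
    have h3 : 2 * R / 2 ^ (a * r) / 2 ^ a = 2 * R / 2 ^ (a * (r + 1)) := by
      rw [show a * (r + 1) = a * r + a by ring, pow_add, div_div]
    rw [h3] at h2
    calc N n (2 * R) 0 ≤ g ^ r * N n (2 * R / 2 ^ (a * r)) (ee a q r) := h1
      _ ≤ g ^ r * (g * N n (2 * R / 2 ^ (a * (r + 1))) (ee a q (r + 1))) :=
          Nat.mul_le_mul_left _ h2
      _ = g ^ (r + 1) * N n (2 * R / 2 ^ (a * (r + 1))) (ee a q (r + 1)) := by ring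

/-- **Packing growth.** -/
theorem growth (hn : Nrm n) {a q E r : ℕ} {R : ℝ} (hR : 0 ≤ R)
    (hq : 256 * (2 ^ a * R) ^ 2 ≤ (q : ℝ)) (hE : ∀ i < r, ee a q i ≤ E)
    (hmin : ∀ s, T n (2 * R / 2 ^ (a * r)) (ee a q r) s → s = 0) :
    N n R 0 ^ (r + 1) ≤ N n (2 ^ (a + 1) * R + R) E ^ r := by
  classical
  -- a maximal separated set
  set F : Finset (Finset A) := Finset.univ.filter fun X : Finset A => Sep n a R E X with hF
  have hFne : F.Nonempty := ⟨∅, Finset.mem_filter.2 ⟨Finset.mem_univ _, by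
    constructor
    · intro x hx; exact absurd hx (Finset.notMem_empty x)
    · intro x hx; exact absurd hx (Finset.notMem_empty x)⟩⟩
  obtain ⟨X, hXF, hmax⟩ := Finset.exists_max_image F Finset.card hFne
  have hX : Sep n a R E X := (Finset.mem_filter.1 hXF).2
  have hg : ∀ Y : Finset A, Sep n a R E Y → Y.card ≤ X.card := fun Y hY =>
    hmax Y (Finset.mem_filter.2 ⟨Finset.mem_univ _, hY⟩)
  have h1 := iterate hn hR hg hq r hE
  have h2 : N n (2 * R / 2 ^ (a * r)) (ee a q r) ≤ 1 := by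
    unfold N
    rw [Finset.card_le_one]
    intro x hx y hy
    rw [hmin x (Finset.mem_filter.1 hx).2, hmin y (Finset.mem_filter.1 hy).2]
  have h3 : N n R 0 ≤ X.card ^ r := by
    calc N n R 0 ≤ N n (2 * R) 0 := by
          unfold N
          refine Finset.card_le_card fun s hs => ?_
          refine Finset.mem_filter.2 ⟨Finset.mem_univ _, ?_⟩
          exact T_mono hR (by linarith) le_rfl (Finset.mem_filter.1 hs).2
      _ ≤ X.card ^ r * N n (2 * R / 2 ^ (a * r)) (ee a q r) := h1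
      _ ≤ X.card ^ r * 1 := Nat.mul_le_mul_left _ h2
      _ = X.card ^ r := mul_one _
  -- translates
  have h4 : X.card * N n R 0 ≤ N n (2 ^ (a + 1) * R + R) E := by
    have hinj : Set.InjOn (fun z : A × A => z.1 + z.2)
        ((X ×ˢ (Finset.univ.filter fun s => T n R 0 s) : Finset (A × A)) : Set (A × A)) := by
      rintro ⟨x, t⟩ hz ⟨x', t'⟩ hz' hzz
      simp only [Finset.coe_product, Set.mem_prod, Finset.mem_coe, Finset.mem_filter,
        Finset.mem_univ, true_and] at hz hz'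
      have h5 : x + t = x' + t' := hzz
      by_cases hxx : x = x'
      · subst hxx
        have : t = t' := add_left_cancel h5
        rw [this]
      · exfalso
        apply hX.2 x hz.1 x' hz'.1 hxx
        have h6 : x - x' = t' - t := by
          rw [sub_eq_sub_iff_add_eq_add, h5, add_comm]
        rw [h6]
        have h7 := T_sub hn hR hR hz'.2 hz.2
        rw [two_mul]
        exact h7
    have h5 : (X ×ˢ (Finset.univ.filter fun s => T n R 0 s)).card = X.card * N n R 0 := by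
      rw [Finset.card_product]
      rfl
    rw [← h5, ← Finset.card_image_of_injOn hinj]
    unfold N
    refine Finset.card_le_card fun s hs => ?_
    obtain ⟨⟨x, t⟩, hz, rfl⟩ := Finset.mem_image.1 hs
    rw [Finset.mem_product] at hz
    refine Finset.mem_filter.2 ⟨Finset.mem_univ _, ?_⟩
    have h6 := T_add hn (by positivity) hR (hX.1 x hz.1) (Finset.mem_filter.1 hz.2).2
    simpa using h6
  calc N n R 0 ^ (r + 1) = N n R 0 ^ r * N n R 0 := pow_succ _ _
    _ ≤ N n R 0 ^ r * X.card ^ r := Nat.mul_le_mul_left _ h3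
    _ = (X.card * N n R 0) ^ r := by rw [mul_pow, mul_comm]
    _ ≤ N n (2 ^ (a + 1) * R + R) E ^ r := Nat.pow_le_pow_left h4 r

end Vale.Agent.P160.Half.Pack502
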