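import Vale.Agent.P160.Half.FlatC743c
import Vale.Agent.P160.Half.Pack502

/-! P160 (M), LEMMA MC of note 11331 (helper743): phases and the growth of the spectrum. -/

namespace Vale.Agent.P160.Half.Flat.MC743

open Finset Vale.Agent.P160 Vale.Agent.P160.Half.Flat Vale.Agent.P160.Half.Flat.C743

/-- phase of a complex number in `ℝ / ℤ` -/
noncomputable def ph (z : ℂ) : UnitAddCircle :=
  ((Complex.arg z / (2 * Real.pi) : ℝ) : UnitAddCircle)

lemma ph_mul {z w : ℂ} (hz : z ≠ 0) (hw : w ≠ 0) : ph (z * w) = ph z + ph w := by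
  have h := Complex.arg_mul_coe_angle hz hw
  rw [← Real.Angle.coe_add, Real.Angle.angle_eq_iff_two_pi_dvd_sub] at h
  obtain ⟨k, hk⟩ := h
  unfold ph
  rw [← AddCircle.coe_add, ← sub_eq_zero, ← AddCircle.coe_sub, AddCircle.coe_eq_zero_iff]
  refine ⟨k, ?_⟩
  have hpi := Real.pi_pos
  rw [zsmul_eq_mul, mul_one]
  field_simp
  linarith

lemma ph_one : ph 1 = 0 := by
  unfold ph
  simp

lemma norm_ph (z : ℂ) : ‖ph z‖ = |Complex.arg z| / (2 * Real.pi) := by
  have hpi := Real.pi_pos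
  unfold ph
  rw [(AddCircle.norm_coe_eq_abs_iff (1 : ℝ) one_ne_zero).2]
  · rw [abs_div, abs_of_pos (show (0 : ℝ) < 2 * Real.pi by positivity)]
  · rw [abs_div, abs_of_pos (show (0 : ℝ) < 2 * Real.pi by positivity), abs_one,
      div_le_div_iff₀ (by positivity) (by norm_num)]
    have := Complex.abs_arg_le_pi z
    linarith

lemma norm_ph_dbl {z : ℂ} (hz : z ≠ 0) (h : ‖ph z‖ ≤ 1 / 4) :
    ‖ph (z * z)‖ = 2 * ‖ph z‖ := by
  have hpi := Real.pi_pos
  rw [ph_mul hz hz]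
  have h1 : ph z + ph z
      = ((2 * (Complex.arg z / (2 * Real.pi)) : ℝ) : UnitAddCircle) := by
    unfold ph
    rw [← AddCircle.coe_add]
    congr 1
    ring
  have h2 : |2 * (Complex.arg z / (2 * Real.pi))| = 2 * ‖ph z‖ := by
    rw [norm_ph, abs_mul, abs_div, abs_of_pos (show (0 : ℝ) < 2 * Real.pi by positivity),
      abs_of_pos (show (0 : ℝ) < 2 by norm_num)]
  rw [h1, (AddCircle.norm_coe_eq_abs_iff (1 : ℝ) one_ne_zero).2]
  · exact h2
  · rw [h2, abs_one]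
    linarith

lemma re_eq_cos {z : ℂ} (hz : ‖z‖ = 1) : z.re = Real.cos (Complex.arg z) := by
  have h0 : z ≠ 0 := by
    intro h
    rw [h, norm_zero] at hz
    exact zero_ne_one hz
  rw [Complex.cos_arg h0, hz, div_one]

/-- chord at most angle -/
lemma chord_le {z : ℂ} (hz : ‖z‖ = 1) : ‖z - 1‖ ≤ 2 * Real.pi * ‖ph z‖ := by
  have hpi := Real.pi_pos
  have h1 := norm_sub_one_sq hz
  rw [re_eq_cos hz] at h1
  have h2 := Real.one_sub_sq_div_two_le_cos (x := Complex.arg z)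
  have h3 : 2 * Real.pi * ‖ph z‖ = |Complex.arg z| := by
    rw [norm_ph]
    field_simp
  rw [h3]
  refine abs_le_of_sq_le_sq' ?_ (abs_nonneg _) |>.2
  rw [sq_abs, h1]
  linarith

/-- angle at most chord -/
lemma ph_sq_le {z : ℂ} (hz : ‖z‖ = 1) : 16 * ‖ph z‖ ^ 2 ≤ ‖z - 1‖ ^ 2 := by
  have hpi := Real.pi_pos
  have h1 := norm_sub_one_sq hz
  rw [re_eq_cos hz] at h1
  have h2 := Real.cos_le_one_sub_mul_cos_sq (Complex.abs_arg_le_pi z)
  have h3 : 16 * ‖ph z‖ ^ 2 = 2 * (2 / Real.pi ^ 2 * Complex.arg z ^ 2) := by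
    rw [norm_ph, div_pow, sq_abs]
    field_simp
    ring
  rw [h3, h1]
  linarith

section
variable {G : Type} [AddCommGroup G] [Fintype G]

lemma apply_ne_zero (s : AddChar G ℂ) (v : G) : s v ≠ 0 := by
  intro h
  have := AddChar.norm_apply s v
  rw [h, norm_zero] at this
  exact zero_ne_one this

/-- norms of the phases -/
noncomputable def nn {m : ℕ} (y : Fin m → G) (c : Fin m) (s : Additive (AddChar G ℂ)) : ℝ :=
  ‖ph (Additive.toMul s (y c))‖

lemma ph_inv (s : AddChar G ℂ) (v : G) : ph (s⁻¹ v) = -ph (s v) := by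
  have h1 : s⁻¹ v * s v = 1 := by
    rw [← AddChar.mul_apply, inv_mul_cancel, AddChar.one_apply]
  have h2 := ph_mul (apply_ne_zero s⁻¹ v) (apply_ne_zero s v)
  rw [h1, ph_one] at h2
  exact eq_neg_of_add_eq_zero_left h2.symm

lemma nrm_nn {m : ℕ} (y : Fin m → G) : Pack502.Nrm (nn y) where
  nonneg := fun c s => norm_nonneg _
  zero := by
    intro c
    unfold nn
    rw [toMul_zero, AddChar.one_apply, ph_one, norm_zero]
  neg := by
    intro c s
    unfold nn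
    rw [toMul_neg, ph_inv, norm_neg]
  add := by
    intro c s t
    unfold nn
    rw [toMul_add, AddChar.mul_apply, ph_mul (apply_ne_zero _ _) (apply_ne_zero _ _)]
    exact norm_add_le _ _
  dbl := by
    intro c s h
    unfold nn at h ⊢
    rw [toMul_add, AddChar.mul_apply]
    exact norm_ph_dbl (apply_ne_zero _ _) h

/-- MIN NORM: off any small set the phase vector of a nontrivial character is not short -/
def MinN {m : ℕ} (σ E : ℝ) (y : Fin m → G) : Prop :=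
  ∀ s : AddChar G ℂ, s ≠ 1 → ∀ D : Finset (Fin m), (D.card : ℝ) ≤ E →
    σ ^ 2 < ∑ c ∈ Dᶜ, ‖ph (s (y c))‖ ^ 2

/-- the enlarged spectrum -/
noncomputable def Sp {m : ℕ} (y : Fin m → G) (ρ : ℝ) (e : ℕ) : Finset (AddChar G ℂ) := by
  classical exact univ.filter fun s => Pack502.T (nn y) ρ e (Additive.ofMul s)

lemma mem_Sp {m : ℕ} {y : Fin m → G} {ρ : ℝ} {e : ℕ} {s : AddChar G ℂ} :
    s ∈ Sp y ρ e ↔ ∃ B : Finset (Fin m), B.card ≤ e ∧
      ∑ c ∈ Bᶜ, ‖ph (s (y c))‖ ^ 2 ≤ ρ ^ 2 := by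
  classical
  unfold Sp Pack502.T nn
  simp

lemma card_Sp {m : ℕ} (y : Fin m → G) (ρ : ℝ) (e : ℕ) [DecidableEq (Additive (AddChar G ℂ))] :
    (Sp y ρ e).card = Pack502.N (nn y) ρ e := by
  classical
  unfold Sp Pack502.N
  refine card_bij (fun s _ => Additive.ofMul s) ?_ ?_ ?_
  · intro s hs
    rw [mem_filter] at hs ⊢
    exact ⟨mem_univ _, hs.2⟩
  · intro s _ t _ h
    exact Additive.ofMul.injective h
  · intro b hb
    rw [mem_filter] at hb
    refine ⟨Additive.toMul b, ?_, rfl⟩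
    rw [mem_filter]
    exact ⟨mem_univ _, hb.2⟩

/-- packing growth for the spectrum -/
lemma grow {m : ℕ} {y : Fin m → G} {t R σ E : ℝ} {a q E' : ℕ} (ht : 0 < t) (hR : 0 ≤ R)
    (hRt : -Real.log t / 2 ≤ R ^ 2) (hq : 256 * (2 ^ a * R) ^ 2 ≤ (q : ℝ))
    (hE : ∀ i < 4, Pack502.ee a q i ≤ E') (hE4 : (Pack502.ee a q 4 : ℝ) ≤ E)
    (hσ : (2 * R / 2 ^ (a * 4)) ^ 2 ≤ σ ^ 2) (hM : MinN σ E y) :
    (Lam y t).card ^ 5 ≤ (Sp y (2 ^ (a + 1) * R + R) E').card ^ 4 := by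
  classical
  have h := Pack502.growth (nrm_nn y) (a := a) (q := q) (E := E') (r := 4) hR hq hE (by
    intro s hs
    by_contra hne
    obtain ⟨B, hB, hsum⟩ := hs
    have h1 : Additive.toMul s ≠ 1 := by
      intro h
      apply hne
      rw [← ofMul_toMul s, h, ofMul_one]
    have h2 := hM (Additive.toMul s) h1 B (le_trans (by exact_mod_cast hB) hE4)
    have h3 : ∑ c ∈ Bᶜ, ‖ph (Additive.toMul s (y c))‖ ^ 2 ≤ (2 * R / 2 ^ (a * 4)) ^ 2 := hsum
    linarith)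
  have h0 : (Lam y t).card ≤ (Sp y R 0).card := by
    refine card_le_card ?_
    intro ψ hψ
    rw [mem_Lam'] at hψ
    rw [mem_Sp]
    refine ⟨∅, by simp, ?_⟩
    have he := energy ht hψ.2
    have hle : ∑ c, 16 * ‖ph (ψ (y c))‖ ^ 2 ≤ ∑ c, ‖ψ (y c) - 1‖ ^ 2 :=
      sum_le_sum fun c _ => ph_sq_le (AddChar.norm_apply ψ _)
    rw [← mul_sum] at hle
    rw [compl_empty]
    linarith
  rw [card_Sp] at h0
  rw [card_Sp]
  exact (Nat.pow_le_pow_left h0 5).trans h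

/-- coordinates far from `1` for a member of the enlarged spectrum -/
lemma few_Sp {m : ℕ} {y : Fin m → G} {ρ r : ℝ} {e : ℕ} {s : AddChar G ℂ} (hr : 0 < r)
    (hs : s ∈ Sp y ρ e) :
    ((univ.filter fun c => r < ‖s (y c) - 1‖).card : ℝ) ≤ e + 40 * ρ ^ 2 / r ^ 2 := by
  classical
  rw [mem_Sp] at hs
  obtain ⟨B, hB, hsum⟩ := hs
  set F : Finset (Fin m) := univ.filter fun c => r < ‖s (y c) - 1‖ with hF
  have h1 : F ⊆ B ∪ (F \ B) := by
    intro c hc
    rw [mem_union, mem_sdiff]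
    by_cases h : c ∈ B
    · exact Or.inl h
    · exact Or.inr ⟨hc, h⟩
  have h2 : ((F \ B).card : ℝ) * r ^ 2 ≤ 40 * ρ ^ 2 := by
    calc ((F \ B).card : ℝ) * r ^ 2 = ∑ _c ∈ F \ B, r ^ 2 := by rw [sum_const, nsmul_eq_mul]
      _ ≤ ∑ c ∈ F \ B, 40 * ‖ph (s (y c))‖ ^ 2 := by
          refine sum_le_sum fun c hc => ?_
          rw [mem_sdiff, hF, mem_filter] at hc
          have h3 := chord_le (AddChar.norm_apply s (y c))
          have h4 := hc.1.2.le.trans h3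
          have h5 := pow_le_pow_left₀ hr.le h4 2
          have h6 : (2 * Real.pi * ‖ph (s (y c))‖) ^ 2
              = 4 * Real.pi ^ 2 * ‖ph (s (y c))‖ ^ 2 := by ring
          rw [h6] at h5
          have h7 : Real.pi ^ 2 ≤ 10 := by
            have := Real.pi_lt_d2
            have := Real.pi_pos
            nlinarith
          have h8 := sq_nonneg ‖ph (s (y c))‖
          nlinarith
      _ = 40 * ∑ c ∈ F \ B, ‖ph (s (y c))‖ ^ 2 := by rw [mul_sum]
      _ ≤ 40 * ∑ c ∈ Bᶜ, ‖ph (s (y c))‖ ^ 2 := by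
          refine mul_le_mul_of_nonneg_left ?_ (by norm_num)
          refine sum_le_sum_of_subset_of_nonneg ?_ fun c _ _ => sq_nonneg _
          intro c hc
          rw [mem_sdiff] at hc
          exact mem_compl.2 hc.2
      _ ≤ 40 * ρ ^ 2 := mul_le_mul_of_nonneg_left hsum (by norm_num)
  have h3 : ((F \ B).card : ℝ) ≤ 40 * ρ ^ 2 / r ^ 2 := by
    rw [le_div_iff₀ (by positivity)]
    exact h2
  have h4 : (F.card : ℝ) ≤ B.card + (F \ B).card := by
    exact_mod_cast (card_le_card h1).trans (card_union_le _ _)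
  have h5 : (B.card : ℝ) ≤ e := by exact_mod_cast hB
  linarith

/-- coordinates outside the Bohr set -/
lemma out_Sp {m n : ℕ} {y : Fin m → G} {s : Fin n → AddChar G ℂ} {ρ r : ℝ} {e : ℕ}
    (hr : 0 < r) (h : ∀ i, s i ∈ Sp y ρ e) :
    ((univ.filter fun c => ¬ ∀ i, ‖s i (y c) - 1‖ ≤ r).card : ℝ)
      ≤ n * (e + 40 * ρ ^ 2 / r ^ 2) := by
  classical
  have h1 : (univ.filter fun c => ¬ ∀ i, ‖s i (y c) - 1‖ ≤ r)
      ⊆ univ.biUnion fun i => univ.filter fun c => r < ‖s i (y c) - 1‖ := by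
    intro c hc
    rw [mem_filter] at hc
    have hc2 := hc.2
    push Not at hc2
    obtain ⟨i, hi⟩ := hc2
    rw [mem_biUnion]
    exact ⟨i, mem_univ _, by rw [mem_filter]; exact ⟨mem_univ _, hi⟩⟩
  have h2 : ((univ.filter fun c => ¬ ∀ i, ‖s i (y c) - 1‖ ≤ r).card : ℝ)
      ≤ ∑ i, ((univ.filter fun c => r < ‖s i (y c) - 1‖).card : ℝ) := by
    exact_mod_cast (card_le_card h1).trans card_biUnion_le
  refine h2.trans ?_
  calc ∑ i, ((univ.filter fun c => r < ‖s i (y c) - 1‖).card : ℝ)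
      ≤ ∑ _i : Fin n, (e + 40 * ρ ^ 2 / r ^ 2) := sum_le_sum fun i _ => few_Sp hr (h i)
    _ = _ := by rw [sum_const, card_univ, Fintype.card_fin, nsmul_eq_mul]

end

end Vale.Agent.P160.Half.Flat.MC743
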