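import Vale.Agent.P160.Half.MC743a

/-! P160 (M), LEMMA MC of note 11331 (helper743): the two cases. -/

namespace Vale.Agent.P160.Half.Flat.MC743

open Finset Vale.Agent.P160 Vale.Agent.P160.Half.Flat Vale.Agent.P160.Half.Flat.C743

section
variable {G : Type} [AddCommGroup G] [Fintype G]

open scoped Classical in
/-- the large case, general exponent -/
lemma large_gen (hL : StmtLarge) {m : ℕ} {T c C₀ x A : ℝ} (hc : 0 < c) (hC₀ : 0 < C₀)
    (hA : A = (4 + 2 * C₀) / c) (hT : 1 / x ≤ T) (hx : 96 ≤ x)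
    (hmk : (m : ℝ) ≤ x) (hm1 : x ≤ 2 * m)
    (hg : (Fintype.card G : ℝ) * (3 / 4) ^ m ≤ Real.exp (-c * x))
    (hexp : 24 * x ^ 3 ≤ Real.exp (c / 2 * x)) :
    ((univ.filter fun y : Fin m → G => ∃ i : ℕ, i ≤ m ∧ (1 / 2 : ℝ) ^ (i + 1) < x ^ (-(3 * A + 4))
      ∧ 2 ^ i * T / ((i + 1) * (i + 2)) ≤ (Lam y ((1 / 2) ^ (i + 1))).card).card : ℝ)
      ≤ (Fintype.card G : ℝ) ^ m * x ^ (-(C₀ * x)) / 2 := by
  have hx0 : 0 < x := by linarith
  have hx1 : 1 ≤ x := by linarith
  have hT0 : 0 < T := lt_of_lt_of_le (by positivity) hT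
  have hA0 : 0 < A := by rw [hA]; positivity
  have hlog : 0 ≤ Real.log x := Real.log_nonneg hx1
  set l : ℕ := ⌈A * Real.log x⌉₊ with hl
  have hl1 : A * Real.log x ≤ l := Nat.le_ceil _
  have hl2 : (l : ℝ) ≤ A * Real.log x + 1 := (Nat.ceil_lt_add_one (by positivity)).le
  have h8 : (8 : ℝ) ^ l ≤ 8 * x ^ (3 * A) := by
    have hlog8 : Real.log 8 ≤ 3 := by
      have e : (8 : ℝ) = 2 ^ 3 := by norm_num
      rw [e, Real.log_pow]
      have := Real.log_two_lt_d9
      push_cast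
      linarith
    calc (8 : ℝ) ^ l = (8 : ℝ) ^ (l : ℝ) := (Real.rpow_natCast _ _).symm
      _ ≤ (8 : ℝ) ^ (A * Real.log x + 1) := Real.rpow_le_rpow_of_exponent_le (by norm_num) hl2
      _ = 8 ^ (A * Real.log x) * 8 := by
          rw [Real.rpow_add (by norm_num), Real.rpow_one]
      _ ≤ x ^ (3 * A) * 8 := by
          refine mul_le_mul_of_nonneg_right ?_ (by norm_num)
          rw [Real.rpow_def_of_pos (by norm_num), Real.rpow_def_of_pos hx0]
          refine Real.exp_le_exp.2 ?_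
          have : 0 ≤ A * Real.log x := by positivity
          nlinarith
      _ = _ := by ring
  have hone : ∀ i ∈ range (m + 1), ((univ.filter fun y : Fin m → G =>
      (1 / 2 : ℝ) ^ (i + 1) < x ^ (-(3 * A + 4))
      ∧ 2 ^ i * T / ((i + 1) * (i + 2)) ≤ (Lam y ((1 / 2) ^ (i + 1))).card).card : ℝ)
      ≤ (Fintype.card G : ℝ) ^ m * x ^ (-((2 + C₀) * x)) := by
    intro i hi
    rw [mem_range] at hi
    have him : i ≤ m := by omega
    by_cases hlt : (1 / 2 : ℝ) ^ (i + 1) < x ^ (-(3 * A + 4))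
    · have hK : (8 : ℝ) ^ l ≤ 2 ^ i * T / ((i + 1) * (i + 2)) := by
        have hix : (i : ℝ) ≤ x := le_trans (by exact_mod_cast him) hmk
        have hi0 := Nat.cast_nonneg (α := ℝ) i
        have h2i : x ^ (3 * A + 4) ≤ 2 * 2 ^ i := by
          have h1 : (2 : ℝ) * 2 ^ i = ((1 / 2 : ℝ) ^ (i + 1))⁻¹ := by
            rw [one_div, inv_pow, inv_inv, pow_succ]; ring
          have h2 : x ^ (3 * A + 4) = (x ^ (-(3 * A + 4)))⁻¹ := by
            rw [Real.rpow_neg hx0.le, inv_inv]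
          rw [h1, h2]
          exact inv_anti₀ (by positivity) hlt.le
        have h3 : x ^ (3 * A + 4) = x ^ (3 * A) * x ^ 4 := by
          rw [Real.rpow_add hx0]
          norm_cast
        rw [le_div_iff₀ (by positivity)]
        have hq : ((i : ℝ) + 1) * (i + 2) ≤ 6 * x ^ 2 := by nlinarith
        have hp : 0 < x ^ (3 * A) := Real.rpow_pos_of_pos hx0 _
        have hTx : 1 ≤ T * x := by rwa [div_le_iff₀ hx0] at hT
        calc (8 : ℝ) ^ l * ((i + 1) * (i + 2)) ≤ (8 * x ^ (3 * A)) * (6 * x ^ 2) :=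
              mul_le_mul h8 hq (by positivity) (by positivity)
          _ = 48 * x ^ (3 * A) * x ^ 2 := by ring
          _ ≤ x ^ (3 * A) * x ^ 3 / 2 := by nlinarith [mul_pos hp (pow_pos hx0 2)]
          _ = (x ^ (3 * A) * x ^ 3 / 2) * 1 := by ring
          _ ≤ (x ^ (3 * A) * x ^ 3 / 2) * (T * x) :=
              mul_le_mul_of_nonneg_left hTx (by positivity)
          _ = (x ^ (3 * A) * x ^ 4) / 2 * T := by ring
          _ ≤ 2 ^ i * T := by
              rw [← h3]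
              refine mul_le_mul_of_nonneg_right ?_ hT0.le
              linarith
      have h := large_count hL hT hx1 hmk him rfl hg hK
      refine le_trans ?_ (h.trans ?_)
      · refine Nat.cast_le.2 (card_le_card ?_)
        intro y hy
        rw [mem_filter] at hy ⊢
        exact ⟨hy.1, hy.2.2⟩
      · refine mul_le_mul_of_nonneg_left ?_ (by positivity)
        have h4 : 24 * x ^ 3 * Real.exp (-c * x) ≤ Real.exp (-(c / 2 * x)) := by
          calc 24 * x ^ 3 * Real.exp (-c * x) ≤ Real.exp (c / 2 * x) * Real.exp (-c * x) :=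
                mul_le_mul_of_nonneg_right hexp (Real.exp_pos _).le
            _ = _ := by rw [← Real.exp_add]; congr 1; ring
        calc (24 * x ^ 3 * Real.exp (-c * x)) ^ l ≤ (Real.exp (-(c / 2 * x))) ^ l :=
              pow_le_pow_left₀ (by positivity) h4 _
          _ = Real.exp (-(c / 2 * x * l)) := by
              rw [← Real.exp_nat_mul]; congr 1; ring
          _ ≤ Real.exp (-(c / 2 * x * (A * Real.log x))) := by
              refine Real.exp_le_exp.2 (neg_le_neg ?_)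
              exact mul_le_mul_of_nonneg_left hl1 (by positivity)
          _ = _ := by
              rw [Real.rpow_def_of_pos hx0]
              congr 1
              rw [hA]
              field_simp
              ring
    · have : (univ.filter fun y : Fin m → G =>
          (1 / 2 : ℝ) ^ (i + 1) < x ^ (-(3 * A + 4))
          ∧ 2 ^ i * T / ((i + 1) * (i + 2)) ≤ (Lam y ((1 / 2) ^ (i + 1))).card) = ∅ := by
        rw [filter_eq_empty_iff]
        rintro y - ⟨h, -⟩
        exact hlt h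
      rw [this, card_empty, Nat.cast_zero]
      positivity
  have hsum : ((univ.filter fun y : Fin m → G => ∃ i : ℕ, i ≤ m ∧
      (1 / 2 : ℝ) ^ (i + 1) < x ^ (-(3 * A + 4))
      ∧ 2 ^ i * T / ((i + 1) * (i + 2)) ≤ (Lam y ((1 / 2) ^ (i + 1))).card).card : ℝ)
      ≤ ∑ i ∈ range (m + 1), ((univ.filter fun y : Fin m → G =>
      (1 / 2 : ℝ) ^ (i + 1) < x ^ (-(3 * A + 4))
      ∧ 2 ^ i * T / ((i + 1) * (i + 2)) ≤ (Lam y ((1 / 2) ^ (i + 1))).card).card : ℝ) := by
    rw [← Nat.cast_sum]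
    refine Nat.cast_le.2 (le_trans (card_le_card ?_) card_biUnion_le)
    intro y hy
    rw [mem_filter] at hy
    obtain ⟨-, i, hi, h1, h2⟩ := hy
    rw [mem_biUnion]
    refine ⟨i, by rw [mem_range]; omega, ?_⟩
    rw [mem_filter]
    exact ⟨mem_univ _, h1, h2⟩
  refine hsum.trans ((sum_le_sum hone).trans ?_)
  rw [sum_const, card_range, nsmul_eq_mul]
  push_cast
  have h6 : ((m : ℝ) + 1) * x ^ (-((2 + C₀) * x)) ≤ x ^ (-(C₀ * x)) / 2 := by
    have e : x ^ (-((2 + C₀) * x)) = x ^ (-(C₀ * x)) * x ^ (-(2 * x)) := by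
      rw [← Real.rpow_add hx0]
      congr 1
      ring
    rw [e]
    have h7 : ((m : ℝ) + 1) * x ^ (-(2 * x)) ≤ 1 / 2 := by
      have h8 : x ^ (-(2 * x)) ≤ x ^ (-(2 : ℝ)) := by
        refine Real.rpow_le_rpow_of_exponent_le hx1 ?_
        linarith
      have h9 : x ^ (-(2 : ℝ)) = 1 / x ^ 2 := by
        rw [Real.rpow_neg hx0.le, one_div]
        norm_cast
      rw [h9] at h8
      calc ((m : ℝ) + 1) * x ^ (-(2 * x)) ≤ (x + 1) * (1 / x ^ 2) :=
            mul_le_mul (by linarith) h8 (Real.rpow_nonneg hx0.le _) (by linarith)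
        _ ≤ 1 / 2 := by
            rw [mul_one_div, div_le_div_iff₀ (by positivity) (by norm_num)]
            nlinarith
    have hp : 0 ≤ x ^ (-(C₀ * x)) := Real.rpow_nonneg hx0.le _
    nlinarith
  calc ((m : ℝ) + 1) * ((Fintype.card G : ℝ) ^ m * x ^ (-((2 + C₀) * x)))
      = (Fintype.card G : ℝ) ^ m * (((m : ℝ) + 1) * x ^ (-((2 + C₀) * x))) := by ring
    _ ≤ (Fintype.card G : ℝ) ^ m * (x ^ (-(C₀ * x)) / 2) :=
        mul_le_mul_of_nonneg_left h6 (by positivity)
    _ = _ := by ring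

end

lemma ee_le (a q : ℕ) : ∀ i ≤ 4, Pack502.ee a q i ≤ (12 * (a + 1)) ^ i * q := by
  intro i
  induction i with
  | zero => intro _; simp [Pack502.ee]
  | succ i ih =>
    intro hi
    have h1 := ih (by omega)
    have h2 : q ≤ (12 * (a + 1)) ^ i * q :=
      Nat.le_mul_of_pos_left q (by positivity)
    have h3 : a * (i + 1) ≤ (a + 1) * 4 := Nat.mul_le_mul (by omega) (by omega)
    calc Pack502.ee a q (i + 1)
        = a * (i + 1) * (Pack502.ee a q i + Pack502.ee a q i + q) := rfl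
      _ ≤ ((a + 1) * 4) * ((12 * (a + 1)) ^ i * q + (12 * (a + 1)) ^ i * q
            + (12 * (a + 1)) ^ i * q) :=
          Nat.mul_le_mul h3 (by omega)
      _ = (12 * (a + 1)) ^ (i + 1) * q := by ring

lemma ee_le4 (a q : ℕ) (i : ℕ) (hi : i ≤ 4) :
    Pack502.ee a q i ≤ (12 * (a + 1)) ^ 4 * q :=
  (ee_le a q i hi).trans (Nat.mul_le_mul_right _
    (Nat.pow_le_pow_right (by omega) hi))

/-- the parameters of the growth step -/
lemma params {x d C₂ : ℝ} (hd : 0 < d) (hd8 : d ≤ 1 / 8) (hC₂ : 4 ≤ C₂) (hx : 96 ≤ x)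
    (h1 : Real.log x ≤ x ^ (d / 10)) (h2 : 216670464 * C₂ ≤ x ^ (d / 2))
    (h3 : 2097152 * C₂ * Real.log x ≤ x ^ (1 / 4 : ℝ)) :
    ∃ a q : ℕ, (2 : ℝ) ^ a ≤ x ^ (1 / 2 - d) ∧
      256 * (2 ^ a * Real.sqrt (C₂ * Real.log x / 2)) ^ 2 ≤ (q : ℝ) ∧
      (((12 * (a + 1)) ^ 4 * q : ℕ) : ℝ) ≤ x ^ (1 - d) ∧
      (2 * Real.sqrt (C₂ * Real.log x / 2) / 2 ^ (a * 4)) ^ 2
        ≤ (1 / (64 * Real.sqrt x * x ^ (1 - d))) ^ 2 := by
  have hx0 : 0 < x := by linarith
  have hx1 : 1 ≤ x := by linarith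
  have hlog1 : 1 ≤ Real.log x := by
    rw [Real.le_log_iff_exp_le hx0]
    have := Real.exp_one_lt_d9
    linarith
  have hlog0 : 0 < Real.log x := by linarith
  obtain ⟨a, ha1, ha2⟩ := exists_nat_pow_near (x := x ^ (1 / 2 - d)) (y := (2 : ℝ))
    (Real.one_le_rpow hx1 (by linarith)) (by norm_num)
  have hR2 : Real.sqrt (C₂ * Real.log x / 2) ^ 2 = C₂ * Real.log x / 2 :=
    Real.sq_sqrt (by positivity)
  have h4a : ((2 : ℝ) ^ a) ^ 2 ≤ x ^ (1 - 2 * d) := by
    calc ((2 : ℝ) ^ a) ^ 2 ≤ (x ^ (1 / 2 - d)) ^ 2 := pow_le_pow_left₀ (by positivity) ha1 2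
      _ = x ^ (1 - 2 * d) := by
          rw [← Real.rpow_natCast, ← Real.rpow_mul hx0.le]
          congr 1
          push_cast
          ring
  have hxd : 1 ≤ x ^ (1 - 2 * d) := Real.one_le_rpow hx1 (by linarith)
  have hal : (a : ℝ) + 1 ≤ 3 * Real.log x := by
    have e1 : (2 : ℝ) ^ a ≤ x := by
      calc (2 : ℝ) ^ a ≤ x ^ (1 / 2 - d) := ha1
        _ ≤ x ^ (1 : ℝ) := Real.rpow_le_rpow_of_exponent_le hx1 (by linarith)
        _ = x := Real.rpow_one x
    have e2 := Real.log_le_log (by positivity) e1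
    rw [Real.log_pow] at e2
    have e3 := Real.log_two_gt_d9
    have e4 : (a : ℝ) * (1 / 2) ≤ a * Real.log 2 :=
      mul_le_mul_of_nonneg_left (by linarith) (Nat.cast_nonneg a)
    linarith
  refine ⟨a, ⌈256 * (2 ^ a * Real.sqrt (C₂ * Real.log x / 2)) ^ 2⌉₊, ha1, Nat.le_ceil _, ?_, ?_⟩
  · have hq : ((⌈256 * (2 ^ a * Real.sqrt (C₂ * Real.log x / 2)) ^ 2⌉₊ : ℕ) : ℝ)
        ≤ 129 * C₂ * Real.log x * x ^ (1 - 2 * d) := by
      have e1 := (Nat.ceil_lt_add_one (show
        0 ≤ 256 * (2 ^ a * Real.sqrt (C₂ * Real.log x / 2)) ^ 2 by positivity)).le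
      have e2 : 256 * (2 ^ a * Real.sqrt (C₂ * Real.log x / 2)) ^ 2
          = 128 * C₂ * Real.log x * ((2 : ℝ) ^ a) ^ 2 := by
        rw [mul_pow, hR2]; ring
      have e3 : 128 * C₂ * Real.log x * ((2 : ℝ) ^ a) ^ 2
          ≤ 128 * C₂ * Real.log x * x ^ (1 - 2 * d) :=
        mul_le_mul_of_nonneg_left h4a (by positivity)
      have e4 : 1 ≤ C₂ * Real.log x * x ^ (1 - 2 * d) := by
        have : 1 ≤ C₂ * Real.log x := by nlinarith
        nlinarith
      linarith
    push_cast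
    have hpow5 : Real.log x ^ 5 ≤ x ^ (d / 2) := by
      calc Real.log x ^ 5 ≤ (x ^ (d / 10)) ^ 5 := pow_le_pow_left₀ hlog0.le h1 5
        _ = x ^ (d / 2) := by
            rw [← Real.rpow_natCast, ← Real.rpow_mul hx0.le]
            congr 1
            push_cast
            ring
    calc (12 * ((a : ℝ) + 1)) ^ 4
          * ((⌈256 * (2 ^ a * Real.sqrt (C₂ * Real.log x / 2)) ^ 2⌉₊ : ℕ) : ℝ)
        ≤ (12 * (3 * Real.log x)) ^ 4 * (129 * C₂ * Real.log x * x ^ (1 - 2 * d)) := by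
          refine mul_le_mul (pow_le_pow_left₀ (by positivity) (by linarith) 4) hq
            (Nat.cast_nonneg _) (by positivity)
      _ = (216670464 * C₂) * Real.log x ^ 5 * x ^ (1 - 2 * d) := by ring
      _ ≤ x ^ (d / 2) * x ^ (d / 2) * x ^ (1 - 2 * d) := by
          refine mul_le_mul_of_nonneg_right ?_ (by positivity)
          exact mul_le_mul h2 hpow5 (by positivity) (by positivity)
      _ = x ^ (1 - d) := by
          rw [← Real.rpow_add hx0, ← Real.rpow_add hx0]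
          congr 1
          ring
  · have e1 : (2 * Real.sqrt (C₂ * Real.log x / 2) / 2 ^ (a * 4)) ^ 2
        = 2 * C₂ * Real.log x / ((2 : ℝ) ^ a) ^ 8 := by
      rw [div_pow, mul_pow, hR2, ← pow_mul, ← pow_mul]
      have : a * 4 * 2 = a * 8 := by ring
      rw [this]
      ring
    have e2 : x ^ (4 - 8 * d) ≤ 256 * ((2 : ℝ) ^ a) ^ 8 := by
      have e3 : (x ^ (1 / 2 - d)) ^ 8 ≤ ((2 : ℝ) ^ (a + 1)) ^ 8 :=
        pow_le_pow_left₀ (by positivity) ha2.le 8
      have e4 : (x ^ (1 / 2 - d)) ^ 8 = x ^ (4 - 8 * d) := by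
        rw [← Real.rpow_natCast, ← Real.rpow_mul hx0.le]
        congr 1
        push_cast
        ring
      have e5 : ((2 : ℝ) ^ (a + 1)) ^ 8 = 256 * ((2 : ℝ) ^ a) ^ 8 := by
        rw [pow_succ (2 : ℝ) a, mul_pow]
        norm_num
        ring
      rw [← e4, ← e5]
      exact e3
    have e6 : (1 / (64 * Real.sqrt x * x ^ (1 - d))) ^ 2 = 1 / (4096 * x ^ (3 - 2 * d)) := by
      rw [div_pow, mul_pow, mul_pow, Real.sq_sqrt hx0.le, ← Real.rpow_natCast (x ^ (1 - d)) 2,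
        ← Real.rpow_mul hx0.le]
      have : x ^ (3 - 2 * d) = x * x ^ ((1 - d) * ((2 : ℕ) : ℝ)) := by
        have e : x ^ (3 - 2 * d) = x ^ (1 : ℝ) * x ^ ((1 - d) * ((2 : ℕ) : ℝ)) := by
          rw [← Real.rpow_add hx0]
          congr 1
          push_cast
          ring
        rw [e, Real.rpow_one]
      rw [this]
      norm_num
      ring
    rw [e1, e6, div_le_div_iff₀ (by positivity) (by positivity), one_mul]
    have e7 : 2 * C₂ * Real.log x * (4096 * x ^ (3 - 2 * d)) * 256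
        = (2097152 * C₂ * Real.log x) * x ^ (3 - 2 * d) := by ring
    have e8 : (2097152 * C₂ * Real.log x) * x ^ (3 - 2 * d) ≤ x ^ (4 - 8 * d) := by
      calc (2097152 * C₂ * Real.log x) * x ^ (3 - 2 * d)
          ≤ x ^ (1 / 4 : ℝ) * x ^ (3 - 2 * d) :=
            mul_le_mul_of_nonneg_right h3 (by positivity)
        _ = x ^ (1 / 4 + (3 - 2 * d)) := (Real.rpow_add hx0 _ _).symm
        _ ≤ x ^ (4 - 8 * d) := Real.rpow_le_rpow_of_exponent_le hx1 (by linarith)
    have e9 : 0 < ((2 : ℝ) ^ a) ^ 8 := by positivity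
    nlinarith

end Vale.Agent.P160.Half.Flat.MC743
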