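import Vale.Agent.P160.Half.MC743b

/-! P160 (M), LEMMA MC of note 11331 (helper743): the theorem. -/

namespace Vale.Agent.P160.Half.Flat.MC743

open Finset Vale.Agent.P160 Vale.Agent.P160.Half.Flat Vale.Agent.P160.Half.Flat.C743

section
variable {G : Type} [AddCommGroup G] [Fintype G]

/-- structure of one `y` in the small case -/
lemma small_one (hSp : StmtSplit) {m L k : ℕ} {y : Fin m → G}
    {T g₀ d η C₀ C₂ x : ℝ} (hxk : x = k) (hd : 0 < d) (hd8 : d ≤ 1 / 8) (hη : η = d / 8)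
    (hg₀ : 0 < g₀) (hC₂ : 4 ≤ C₂) (hx : 96 ≤ x) (hT : x ^ (5 * g₀ + 1) ≤ T)
    (hT' : T ≤ x ^ C₀) (hLn : (C₀ + g₀ + 1) / η ≤ L)
    (hp : ∀ p : ℕ, p.Prime → p ∣ Fintype.card G → k ≤ p)
    (h8 : 8 ≤ x ^ η) (h1 : Real.log x ≤ x ^ (d / 10)) (h2 : 216670464 * C₂ ≤ x ^ (d / 2))
    (h3 : 2097152 * C₂ * Real.log x ≤ x ^ (1 / 4 : ℝ))
    (h4 : 720 * C₂ * Real.log x ≤ x ^ (d / 2))
    (hM : MinN (1 / (64 * Real.sqrt x * x ^ (1 - d))) (x ^ (1 - d)) y)
    (hΛ : T / 6 ≤ (Lam y (x ^ (-C₂))).card) :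
    ∃ s : Fin (L + 1) → AddChar G ℂ,
      ((tb s (1 / (⌈x ^ (2 * η)⌉₊ : ℝ))).card : ℝ)
        ≤ 1536 * Fintype.card G * x ^ (-(g₀ + 1 / 16)) / T ∧
      ((univ.filter fun c => ¬ ∀ i, ‖s i (y c) - 1‖ ≤ 1 / (⌈x ^ (2 * η)⌉₊ : ℝ)).card : ℝ)
        ≤ 2 * ((L : ℝ) + 1) * x ^ (1 - d) := by
  classical
  have hx0 : 0 < x := by linarith
  have hx1 : 1 ≤ x := by linarith
  have hη0 : 0 < η := by rw [hη]; positivity
  have hg0 : (0 : ℝ) < Fintype.card G := by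
    exact_mod_cast Fintype.card_pos
  have hT0 : 0 < T := lt_of_lt_of_le (Real.rpow_pos_of_pos hx0 _) hT
  have hlog : 0 < Real.log x := Real.log_pos (by linarith)
  set J : ℕ := ⌈x ^ (2 * η)⌉₊ with hJ
  have hJ1 : x ^ (2 * η) ≤ J := Nat.le_ceil _
  have hx2 : 1 ≤ x ^ (2 * η) := Real.one_le_rpow hx1 (by positivity)
  have hJ2 : (J : ℝ) ≤ 2 * x ^ (2 * η) := by
    have := (Nat.ceil_lt_add_one (show 0 ≤ x ^ (2 * η) by positivity)).le
    rw [← hJ] at this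
    linarith
  have hJ0 : (0 : ℝ) < J := by linarith
  have hJk : J ≤ k := by
    rw [hJ]
    refine Nat.ceil_le.2 ?_
    rw [← hxk]
    calc x ^ (2 * η) ≤ x ^ (1 : ℝ) := Real.rpow_le_rpow_of_exponent_le hx1 (by linarith)
      _ = x := Real.rpow_one x
  set θ : ℝ := x ^ (-η) with hθdef
  have hθ0 : 0 < θ := Real.rpow_pos_of_pos hx0 _
  have hθJ : 8 ≤ θ * J := by
    calc (8 : ℝ) ≤ x ^ η := h8
      _ = x ^ (-η) * x ^ (2 * η) := by
          rw [← Real.rpow_add hx0]; congr 1; ring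
      _ ≤ θ * J := mul_le_mul_of_nonneg_left hJ1 hθ0.le
  obtain ⟨a, q, ha, hq, hE, hσ⟩ := params hd hd8 hC₂ hx h1 h2 h3
  set R : ℝ := Real.sqrt (C₂ * Real.log x / 2) with hRdef
  have hR0 : 0 ≤ R := Real.sqrt_nonneg _
  have hR2 : R ^ 2 = C₂ * Real.log x / 2 := Real.sq_sqrt (by positivity)
  set E' : ℕ := (12 * (a + 1)) ^ 4 * q with hE'
  have hgrow := grow (y := y) (t := x ^ (-C₂)) (R := R) (a := a) (q := q) (E' := E')
    (σ := 1 / (64 * Real.sqrt x * x ^ (1 - d))) (E := x ^ (1 - d))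
    (Real.rpow_pos_of_pos hx0 _) hR0 (by
      rw [Real.log_rpow hx0, hR2]
      linarith) hq (fun i hi => ee_le4 a q i (by omega))
    (le_trans (Nat.cast_le.2 (ee_le4 a q 4 le_rfl)) hE) hσ hM
  set Λ := Sp y (2 ^ (a + 1) * R + R) E' with hΛdef
  have hgrow' : ((Lam y (x ^ (-C₂))).card : ℝ) ^ 5 ≤ (Λ.card : ℝ) ^ 4 := by
    exact_mod_cast hgrow
  set K₁ : ℝ := T / 6 * x ^ (g₀ + 1 / 8) with hK₁
  have hK₁0 : 0 < K₁ := by rw [hK₁]; positivity
  have hK : K₁ ≤ Λ.card := by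
    have e1 : K₁ ^ 4 ≤ (Λ.card : ℝ) ^ 4 := by
      refine le_trans ?_ ((pow_le_pow_left₀ (by positivity) hΛ 5).trans hgrow')
      have e2 : (x ^ (g₀ + 1 / 8)) ^ 4 ≤ T / 6 := by
        have e3 : (x ^ (g₀ + 1 / 8)) ^ 4 = x ^ (4 * g₀ + 1 / 2) := by
          rw [← Real.rpow_natCast, ← Real.rpow_mul hx0.le]
          congr 1
          push_cast
          ring
        have e4 : (6 : ℝ) ≤ x ^ (g₀ + 1 / 2) := by
          calc (6 : ℝ) ≤ Real.sqrt x := by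
                refine Real.le_sqrt_of_sq_le ?_
                linarith
            _ = x ^ (1 / 2 : ℝ) := Real.sqrt_eq_rpow x
            _ ≤ x ^ (g₀ + 1 / 2) := Real.rpow_le_rpow_of_exponent_le hx1 (by linarith)
        rw [e3, le_div_iff₀ (by norm_num)]
        calc x ^ (4 * g₀ + 1 / 2) * 6 ≤ x ^ (4 * g₀ + 1 / 2) * x ^ (g₀ + 1 / 2) :=
              mul_le_mul_of_nonneg_left e4 (by positivity)
          _ = x ^ (5 * g₀ + 1) := by
              rw [← Real.rpow_add hx0]; congr 1; ring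
          _ ≤ T := hT
      calc K₁ ^ 4 = (T / 6) ^ 4 * (x ^ (g₀ + 1 / 8)) ^ 4 := by rw [hK₁, mul_pow]
        _ ≤ (T / 6) ^ 4 * (T / 6) := mul_le_mul_of_nonneg_left e2 (by positivity)
        _ = (T / 6) ^ 5 := by ring
    exact (pow_le_pow_iff_left₀ hK₁0.le (by positivity) (by norm_num)).1 e1
  have hne : Λ.Nonempty := by
    rw [← card_pos]
    have : (0 : ℝ) < Λ.card := lt_of_lt_of_le hK₁0 hK
    exact_mod_cast this
  obtain ⟨s, hs, hcard⟩ := chain hSp hne hθ0 hθJ (fun p hpp hpd => hJk.trans (hp p hpp hpd))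
    hK₁0 hK (L + 1)
  refine ⟨s, hcard.trans (max_le ?_ ?_), ?_⟩
  · have e1 : θ ^ (L + 1) ≤ x ^ (-(g₀ + 1 / 16)) / T := by
      calc θ ^ (L + 1) = x ^ (-η * ((L : ℝ) + 1)) := by
            rw [hθdef, ← Real.rpow_natCast, ← Real.rpow_mul hx0.le]
            push_cast
            rfl
        _ ≤ x ^ (-(g₀ + 1 / 16) - C₀) := by
            refine Real.rpow_le_rpow_of_exponent_le hx1 ?_
            have f1 := (div_le_iff₀ hη0).1 hLn
            have f2 : -η * ((L : ℝ) + 1) = -((L : ℝ) * η) - η := by ring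
            rw [f2]
            linarith only [f1, hη0]
        _ = x ^ (-(g₀ + 1 / 16)) / x ^ C₀ := Real.rpow_sub hx0 _ _
        _ ≤ x ^ (-(g₀ + 1 / 16)) / T :=
            div_le_div_of_nonneg_left (by positivity) hT0 hT'
    calc θ ^ (L + 1) * (Fintype.card G : ℝ) ≤ (x ^ (-(g₀ + 1 / 16)) / T) * Fintype.card G :=
          mul_le_mul_of_nonneg_right e1 hg0.le
      _ = 1 * (Fintype.card G * x ^ (-(g₀ + 1 / 16)) / T) := by ring
      _ ≤ 1536 * (Fintype.card G * x ^ (-(g₀ + 1 / 16)) / T) :=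
          mul_le_mul_of_nonneg_right (by norm_num) (by positivity)
      _ = _ := by ring
  · have e : θ ^ 2 = (x ^ (2 * η))⁻¹ := by
      rw [hθdef, ← Real.rpow_natCast, ← Real.rpow_mul hx0.le, ← Real.rpow_neg hx0.le]
      congr 1
      push_cast
      ring
    have e2 : x ^ (2 * η) ≤ x ^ (1 / 16 : ℝ) :=
      Real.rpow_le_rpow_of_exponent_le hx1 (by linarith)
    have e3 : x ^ (2 * η) / x ^ (g₀ + 1 / 8) ≤ x ^ (-(g₀ + 1 / 16)) := by
      rw [div_le_iff₀ (by positivity), ← Real.rpow_add hx0]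
      exact Real.rpow_le_rpow_of_exponent_le hx1 (by linarith)
    calc 256 * (Fintype.card G : ℝ) / (θ ^ 2 * K₁)
        = 1536 * (Fintype.card G : ℝ) * (x ^ (2 * η) / x ^ (g₀ + 1 / 8)) / T := by
          rw [e, hK₁]
          field_simp
          ring
      _ ≤ _ := by
          refine div_le_div_of_nonneg_right ?_ hT0.le
          exact mul_le_mul_of_nonneg_left e3 (by positivity)
  · have hr : (0 : ℝ) < 1 / (J : ℝ) := by positivity
    refine (out_Sp hr hs).trans ?_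
    have e1 : 40 * (2 ^ (a + 1) * R + R) ^ 2 / (1 / (J : ℝ)) ^ 2 ≤ x ^ (1 - d) := by
      have e2 : 2 ^ (a + 1) * R + R ≤ 3 * (2 ^ a * R) := by
        have : R ≤ 2 ^ a * R := by
          exact le_mul_of_one_le_left hR0 (one_le_pow₀ (show (1 : ℝ) ≤ 2 by norm_num))
        rw [pow_succ]
        linarith only [this]
      have e3 : ((2 : ℝ) ^ a) ^ 2 ≤ x ^ (1 - 2 * d) := by
        calc ((2 : ℝ) ^ a) ^ 2 ≤ (x ^ (1 / 2 - d)) ^ 2 := pow_le_pow_left₀ (by positivity) ha 2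
          _ = x ^ (1 - 2 * d) := by
              rw [← Real.rpow_natCast, ← Real.rpow_mul hx0.le]
              congr 1
              push_cast
              ring
      have e4 : (2 ^ (a + 1) * R + R) ^ 2 ≤ 9 * (x ^ (1 - 2 * d) * (C₂ * Real.log x / 2)) := by
        calc (2 ^ (a + 1) * R + R) ^ 2 ≤ (3 * (2 ^ a * R)) ^ 2 :=
              pow_le_pow_left₀ (by positivity) e2 2
          _ = 9 * (((2 : ℝ) ^ a) ^ 2 * R ^ 2) := by ring
          _ ≤ 9 * (x ^ (1 - 2 * d) * (C₂ * Real.log x / 2)) := by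
              rw [hR2]
              refine mul_le_mul_of_nonneg_left ?_ (by norm_num)
              exact mul_le_mul_of_nonneg_right e3 (by positivity)
      have e5 : (J : ℝ) ^ 2 ≤ 4 * x ^ (d / 2) := by
        calc (J : ℝ) ^ 2 ≤ (2 * x ^ (2 * η)) ^ 2 := pow_le_pow_left₀ hJ0.le hJ2 2
          _ = 4 * (x ^ (2 * η)) ^ 2 := by ring
          _ = 4 * x ^ (d / 2) := by
              rw [← Real.rpow_natCast, ← Real.rpow_mul hx0.le]
              congr 2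
              rw [hη]
              push_cast
              ring
      calc 40 * (2 ^ (a + 1) * R + R) ^ 2 / (1 / (J : ℝ)) ^ 2
          = 40 * (2 ^ (a + 1) * R + R) ^ 2 * (J : ℝ) ^ 2 := by
            rw [one_div, inv_pow, div_inv_eq_mul]
        _ ≤ 40 * (9 * (x ^ (1 - 2 * d) * (C₂ * Real.log x / 2))) * (4 * x ^ (d / 2)) := by
            refine mul_le_mul (mul_le_mul_of_nonneg_left e4 (by norm_num)) e5
              (by positivity) (by positivity)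
        _ = (720 * C₂ * Real.log x) * (x ^ (1 - 2 * d) * x ^ (d / 2)) := by ring
        _ ≤ x ^ (d / 2) * (x ^ (1 - 2 * d) * x ^ (d / 2)) :=
            mul_le_mul_of_nonneg_right h4 (by positivity)
        _ = x ^ (1 - d) := by
            rw [← Real.rpow_add hx0, ← Real.rpow_add hx0]
            congr 1
            ring
    have e6 : (E' : ℝ) ≤ x ^ (1 - d) := hE
    push_cast
    calc ((L : ℝ) + 1) * (E' + 40 * (2 ^ (a + 1) * R + R) ^ 2 / (1 / (J : ℝ)) ^ 2)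
        ≤ ((L : ℝ) + 1) * (x ^ (1 - d) + x ^ (1 - d)) :=
          mul_le_mul_of_nonneg_left (add_le_add e6 e1) (by positivity)
      _ = _ := by ring

open scoped Classical in
/-- the small case -/
lemma small_case (hSp : StmtSplit) {m L k : ℕ}
    {T g₀ d η C₀ C₂ x : ℝ} (hxk : x = k) (hd : 0 < d) (hd8 : d ≤ 1 / 8) (hη : η = d / 8)
    (hg₀ : 0 < g₀) (hC₀ : 0 < C₀) (hC₂ : 4 ≤ C₂) (hx : 96 ≤ x) (hT : x ^ (5 * g₀ + 1) ≤ T)
    (hT' : T ≤ x ^ C₀) (hLn : (C₀ + g₀ + 1) / η ≤ L)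
    (hp : ∀ p : ℕ, p.Prime → p ∣ Fintype.card G → k ≤ p)
    (h8 : 8 ≤ x ^ η) (h1 : Real.log x ≤ x ^ (d / 10)) (h2 : 216670464 * C₂ ≤ x ^ (d / 2))
    (h3 : 2097152 * C₂ * Real.log x ≤ x ^ (1 / 4 : ℝ))
    (h4 : 720 * C₂ * Real.log x ≤ x ^ (d / 2))
    (hm1 : x ≤ 2 * m) (hg : (Fintype.card G : ℝ) ≤ 2 ^ m)
    (hR : (C₀ + g₀ + 1) * (2 * ((L : ℝ) + 1) * x ^ (1 - d)) * Real.log x ≤ x / 2)
    (hbig : (2 : ℝ) ^ (L + 1) * 4 * 1536 * 3 ≤ x ^ (1 / 16 : ℝ)) :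
    ((univ.filter fun y : Fin m → G =>
      MinN (1 / (64 * Real.sqrt x * x ^ (1 - d))) (x ^ (1 - d)) y ∧
      T / 6 ≤ (Lam y (x ^ (-C₂))).card).card : ℝ)
      ≤ (Fintype.card G : ℝ) ^ m * (x ^ (-g₀) / T) ^ m / 2 := by
  have hx0 : 0 < x := by linarith
  have hx1 : 1 ≤ x := by linarith
  have hg0 : (0 : ℝ) < Fintype.card G := by
    exact_mod_cast Fintype.card_pos
  have hT0 : 0 < T := lt_of_lt_of_le (Real.rpow_pos_of_pos hx0 _) hT
  have hlog : 0 < Real.log x := Real.log_pos (by linarith)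
  set U : ℝ := 1536 * Fintype.card G * x ^ (-(g₀ + 1 / 16)) / T with hU
  have hU0 : 0 < U := by rw [hU]; positivity
  set E : ℝ := 2 * ((L : ℝ) + 1) * x ^ (1 - d) with hEdef
  have hUR : (Fintype.card G : ℝ) ≤ U * x ^ (C₀ + g₀ + 1) := by
    have e1 : T ≤ x ^ (-(g₀ + 1 / 16)) * x ^ (C₀ + g₀ + 1) := by
      rw [← Real.rpow_add hx0]
      exact hT'.trans (Real.rpow_le_rpow_of_exponent_le hx1 (by linarith))
    rw [hU, div_mul_eq_mul_div, le_div_iff₀ hT0]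
    have e2 := mul_le_mul_of_nonneg_left e1 hg0.le
    have e3 : 0 ≤ (Fintype.card G : ℝ) * (x ^ (-(g₀ + 1 / 16)) * x ^ (C₀ + g₀ + 1)) := by
      positivity
    calc (Fintype.card G : ℝ) * T ≤
          (Fintype.card G : ℝ) * (x ^ (-(g₀ + 1 / 16)) * x ^ (C₀ + g₀ + 1)) := e2
      _ ≤ 1536 * ((Fintype.card G : ℝ) * (x ^ (-(g₀ + 1 / 16)) * x ^ (C₀ + g₀ + 1))) := by
          linarith
      _ = _ := by ring
  have hcore := count_core (G := G) (m := m) (n := L + 1) (r := 1 / (⌈x ^ (2 * η)⌉₊ : ℝ))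
    (U := U) (R := x ^ (C₀ + g₀ + 1)) (E := E) hU0 (Real.one_le_rpow hx1 (by linarith)) hUR
  refine le_trans (Nat.cast_le.2 (card_le_card ?_)) (hcore.trans ?_)
  · intro y hy
    rw [mem_filter] at hy ⊢
    exact ⟨mem_univ _, small_one hSp hxk hd hd8 hη hg₀ hC₂ hx hT hT' hLn hp h8 h1 h2 h3 h4
      hy.2.1 hy.2.2⟩
  · have hRE : (x ^ (C₀ + g₀ + 1)) ^ E ≤ 3 ^ m := by
      calc (x ^ (C₀ + g₀ + 1)) ^ E = Real.exp ((C₀ + g₀ + 1) * E * Real.log x) := by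
            rw [← Real.rpow_mul hx0.le, Real.rpow_def_of_pos hx0]
            congr 1
            ring
        _ ≤ Real.exp ((m : ℝ) * 1) := Real.exp_le_exp.2 (by linarith)
        _ = (Real.exp 1) ^ m := Real.exp_nat_mul _ _
        _ ≤ 3 ^ m := pow_le_pow_left₀ (Real.exp_pos _).le
            (by have := Real.exp_one_lt_d9; linarith) _
    have hgn : (Fintype.card G : ℝ) ^ (L + 1) ≤ (2 ^ (L + 1)) ^ m := by
      calc (Fintype.card G : ℝ) ^ (L + 1) ≤ (2 ^ m) ^ (L + 1) :=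
            pow_le_pow_left₀ hg0.le hg _
        _ = _ := by rw [← pow_mul, ← pow_mul, mul_comm]
    have hmpos : 1 ≤ m := by
      by_contra hno
      have : m = 0 := by omega
      rw [this] at hm1
      push_cast at hm1
      linarith
    have h2m : (2 : ℝ) ≤ 2 ^ m := by
      calc (2 : ℝ) = 2 ^ 1 := by norm_num
        _ ≤ 2 ^ m := pow_le_pow_right₀ (by norm_num) hmpos
    have key : 2 * ((2 ^ (L + 1)) ^ m * 2 ^ m * (1536 ^ m * 3 ^ m)) ≤ (x ^ (1 / 16 : ℝ)) ^ m := by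
      calc 2 * (((2 : ℝ) ^ (L + 1)) ^ m * 2 ^ m * (1536 ^ m * 3 ^ m))
          ≤ 2 ^ m * (((2 : ℝ) ^ (L + 1)) ^ m * 2 ^ m * (1536 ^ m * 3 ^ m)) :=
            mul_le_mul_of_nonneg_right h2m (by positivity)
        _ = ((2 : ℝ) ^ (L + 1) * 4 * 1536 * 3) ^ m := by
            rw [← mul_pow, ← mul_pow, ← mul_pow, ← mul_pow]
            congr 1
            ring
        _ ≤ (x ^ (1 / 16 : ℝ)) ^ m := pow_le_pow_left₀ (by positivity) hbig _
    have eU : U ^ m = (Fintype.card G : ℝ) ^ m * 1536 ^ m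
        * ((x ^ (-(g₀ + 1 / 16))) ^ m / T ^ m) := by
      rw [hU, div_pow, mul_pow, mul_pow]
      ring
    have eR : (x ^ (-g₀) / T) ^ m
        = (x ^ (1 / 16 : ℝ)) ^ m * ((x ^ (-(g₀ + 1 / 16))) ^ m / T ^ m) := by
      rw [div_pow, ← mul_div_assoc, ← mul_pow, ← Real.rpow_add hx0]
      congr 3
      ring
    rw [eR]
    set Q : ℝ := (x ^ (-(g₀ + 1 / 16))) ^ m / T ^ m with hQ
    have hQ0 : 0 ≤ Q := by rw [hQ]; positivity
    calc (Fintype.card G : ℝ) ^ (L + 1) * 2 ^ m * (U ^ m * (x ^ (C₀ + g₀ + 1)) ^ E)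
        ≤ (2 ^ (L + 1)) ^ m * 2 ^ m * (U ^ m * 3 ^ m) := by
          refine mul_le_mul (mul_le_mul_of_nonneg_right hgn (by positivity))
            (mul_le_mul_of_nonneg_left hRE (by positivity)) (by positivity) (by positivity)
      _ = (2 * ((2 ^ (L + 1)) ^ m * 2 ^ m * (1536 ^ m * 3 ^ m)))
            * ((Fintype.card G : ℝ) ^ m * Q) / 2 := by
          rw [eU]; ring
      _ ≤ (x ^ (1 / 16 : ℝ)) ^ m * ((Fintype.card G : ℝ) ^ m * Q) / 2 := by
          refine div_le_div_of_nonneg_right ?_ (by norm_num)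
          exact mul_le_mul_of_nonneg_right key (by positivity)
      _ = _ := by ring

end

open scoped Classical in
/-- LEMMA MC (11331 of helper502) -/
def StmtMC : Prop :=
  ∀ g₀ d c C₀ : ℝ, 0 < g₀ → 0 < d → d ≤ 1 / 8 → 0 < c → 0 < C₀ → ∃ k₀ : ℕ, ∀ k : ℕ, k₀ ≤ k →
    ∀ (G : Type) [AddCommGroup G] [Fintype G] (m : ℕ), m ≤ k → (k : ℝ) ≤ 2 * m →
    (∀ p : ℕ, p.Prime → p ∣ Fintype.card G → k ≤ p) →
    (Fintype.card G : ℝ) * (3 / 4) ^ m ≤ Real.exp (-c * k) →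
    ∀ T : ℝ, (k : ℝ) ^ (5 * g₀ + 1) ≤ T → T ≤ (k : ℝ) ^ C₀ →
    ((univ.filter fun y : Fin m → G =>
      MinN (1 / (64 * Real.sqrt k * (k : ℝ) ^ (1 - d))) ((k : ℝ) ^ (1 - d)) y ∧
        T ≤ gZ 8 y).card : ℝ) ≤
      (Fintype.card G : ℝ) ^ m * ((k : ℝ) ^ (-g₀) / T) ^ m

open Filter in
open scoped Classical in
/-- LEMMA MC from its inputs -/
theorem stmtMC743 : StmtSplit → StmtLarge → StmtDyadic → StmtMC := by
  intro hSp hL hD g₀ d c C₀ hg₀ hd hd8 hc hC₀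
  set η : ℝ := d / 8 with hη
  have hη0 : 0 < η := by positivity
  set A : ℝ := (4 + 2 * (C₀ + g₀)) / c with hA
  have hA0 : 0 < A := by rw [hA]; positivity
  set C₂ : ℝ := 3 * A + 4 with hC₂
  have hC₂4 : 4 ≤ C₂ := by linarith
  set L : ℕ := ⌈(C₀ + g₀ + 1) / η⌉₊ with hLdef
  have hLn : (C₀ + g₀ + 1) / η ≤ L := Nat.le_ceil _
  have e1 := ev_const 8 hη0
  have e2 := ev_log 1 one_pos (show 0 < d / 10 by positivity)
  have e3 := ev_const (216670464 * C₂) (show 0 < d / 2 by positivity)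
  have e4 := ev_log (2097152 * C₂) (by positivity) (show (0 : ℝ) < 1 / 4 by norm_num)
  have e5 := ev_log (720 * C₂) (by positivity) (show 0 < d / 2 by positivity)
  have e6 := ev_log ((C₀ + g₀ + 1) * (2 * ((L : ℝ) + 1)) * 2) (by positivity) hd
  have e7 := ev_const ((2 : ℝ) ^ (L + 1) * 4 * 1536 * 3) (show (0 : ℝ) < 1 / 16 by norm_num)
  have e8 := ev_exp hc
  obtain ⟨k₀, hk₀⟩ := eventually_atTop.1
    (((((((e1.and e2).and e3).and e4).and e5).and e6).and e7).and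
      (e8.and (eventually_ge_atTop 96)))
  refine ⟨k₀, fun k hk G _ _ m hmk hkm hp hg T hT hT' => ?_⟩
  obtain ⟨⟨⟨⟨⟨⟨⟨h1, h2⟩, h3⟩, h4⟩, h5⟩, h6⟩, h7⟩, h8, h9⟩ := hk₀ k hk
  have hx : (96 : ℝ) ≤ k := by exact_mod_cast h9
  have hx0 : (0 : ℝ) < k := by linarith
  have hx1 : (1 : ℝ) ≤ k := by linarith
  have hmk' : (m : ℝ) ≤ k := by exact_mod_cast hmk
  have hTk : (k : ℝ) ≤ T := by
    calc (k : ℝ) = (k : ℝ) ^ (1 : ℝ) := (Real.rpow_one _).symm
      _ ≤ (k : ℝ) ^ (5 * g₀ + 1) := Real.rpow_le_rpow_of_exponent_le hx1 (by linarith)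
      _ ≤ T := hT
  have hT0 : 0 < T := by linarith
  have hT1 : 0 < T - 1 := by linarith
  have hlog : 0 < Real.log k := Real.log_pos (by linarith)
  rw [one_mul] at h2
  have hg2 : (Fintype.card G : ℝ) ≤ 2 ^ m := by
    have a1 : (Fintype.card G : ℝ) * (3 / 4) ^ m ≤ 1 := by
      refine hg.trans (Real.exp_le_one_iff.2 ?_)
      have : 0 ≤ c * k := by positivity
      linarith
    have a2 : (1 : ℝ) ≤ 2 ^ m * (3 / 4) ^ m := by
      rw [← mul_pow]
      exact one_le_pow₀ (by norm_num)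
    have a3 : (0 : ℝ) < (3 / 4) ^ m := by positivity
    exact le_of_mul_le_mul_right (a1.trans a2) a3
  have hR : (C₀ + g₀ + 1) * (2 * ((L : ℝ) + 1) * (k : ℝ) ^ (1 - d)) * Real.log k
      ≤ (k : ℝ) / 2 := by
    have b2 : (k : ℝ) ^ d * (k : ℝ) ^ (1 - d) = k := by
      rw [← Real.rpow_add hx0]
      have : d + (1 - d) = 1 := by ring
      rw [this, Real.rpow_one]
    have b3 := mul_le_mul_of_nonneg_right h6 (show 0 ≤ (k : ℝ) ^ (1 - d) by positivity)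
    rw [b2] at b3
    linarith
  have hS := small_case (G := G) (m := m) (T := T) hSp (x := (k : ℝ)) rfl hd hd8 hη hg₀ hC₀ hC₂4
    hx hT hT' hLn hp h1 h2 h3 h4 h5 hkm hg2 hR h7
  have hLg := large_gen (G := G) (m := m) (T := T - 1) (c := c) (C₀ := C₀ + g₀) (A := A) hL hc
    (by positivity) hA (by
      rw [div_le_iff₀ hx0]
      exact one_le_mul_of_one_le_of_one_le (by linarith only [hTk, hx]) hx1) hx hmk' hkm hg h8
  have h10 : (k : ℝ) ^ (-((C₀ + g₀) * k)) ≤ ((k : ℝ) ^ (-g₀) / T) ^ m := by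
    calc (k : ℝ) ^ (-((C₀ + g₀) * k)) ≤ (k : ℝ) ^ (-((C₀ + g₀) * m)) := by
          refine Real.rpow_le_rpow_of_exponent_le hx1 (neg_le_neg ?_)
          exact mul_le_mul_of_nonneg_left hmk' (by positivity)
      _ = ((k : ℝ) ^ (-g₀ - C₀)) ^ m := by
          rw [← Real.rpow_natCast, ← Real.rpow_mul hx0.le]
          congr 1
          ring
      _ ≤ ((k : ℝ) ^ (-g₀) / T) ^ m := by
          refine pow_le_pow_left₀ (Real.rpow_nonneg hx0.le _) ?_ _
          rw [Real.rpow_sub hx0]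
          exact div_le_div_of_nonneg_left (by positivity) hT0 hT'
  refine le_trans (b := (((univ.filter fun y : Fin m → G =>
      MinN (1 / (64 * Real.sqrt k * (k : ℝ) ^ (1 - d))) ((k : ℝ) ^ (1 - d)) y ∧
      T / 6 ≤ (Lam y ((k : ℝ) ^ (-C₂))).card).card : ℝ) +
    ((univ.filter fun y : Fin m → G => ∃ i : ℕ, i ≤ m ∧
      (1 / 2 : ℝ) ^ (i + 1) < (k : ℝ) ^ (-(3 * A + 4))
      ∧ 2 ^ i * (T - 1) / ((i + 1) * (i + 2)) ≤ (Lam y ((1 / 2) ^ (i + 1))).card).card : ℝ))) ?_ ?_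
  · rw [← Nat.cast_add]
    refine Nat.cast_le.2 (le_trans (card_le_card ?_) (card_union_le _ _))
    intro y hy
    rw [mem_filter] at hy
    obtain ⟨-, hns, hZ⟩ := hy
    obtain ⟨i, him, hi⟩ := hD G m y (T - 1) hT1 (by linarith)
    rw [mem_union, mem_filter, mem_filter]
    by_cases hlt : (1 / 2 : ℝ) ^ (i + 1) < (k : ℝ) ^ (-(3 * A + 4))
    · exact Or.inr ⟨mem_univ _, i, him, hlt, hi⟩
    · left
      refine ⟨mem_univ _, hns, ?_⟩
      push Not at hlt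
      have hsub : Lam y ((1 / 2) ^ (i + 1)) ⊆ Lam y ((k : ℝ) ^ (-C₂)) := by
        intro ψ hψ
        rw [mem_Lam'] at hψ ⊢
        exact ⟨hψ.1, hlt.trans hψ.2⟩
      have hle : ((Lam y ((1 / 2) ^ (i + 1))).card : ℝ) ≤ (Lam y ((k : ℝ) ^ (-C₂))).card :=
        Nat.cast_le.2 (card_le_card hsub)
      refine le_trans ?_ hle
      have hpl := poly_le i
      have hpos : (0 : ℝ) < ((i : ℝ) + 1) * (i + 2) := by positivity
      have hT3 : (T - 1) / 3 ≤ 2 ^ i * (T - 1) / ((i + 1) * (i + 2)) := by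
        rw [div_le_div_iff₀ (by norm_num) hpos]
        have := mul_le_mul_of_nonneg_left hpl hT1.le
        linarith only [this]
      have hT6 : T / 6 ≤ (T - 1) / 3 := by linarith
      exact hT6.trans (hT3.trans hi)
  · have h11 : (Fintype.card G : ℝ) ^ m * (k : ℝ) ^ (-((C₀ + g₀) * k)) / 2
        ≤ (Fintype.card G : ℝ) ^ m * ((k : ℝ) ^ (-g₀) / T) ^ m / 2 := by
      refine div_le_div_of_nonneg_right ?_ (by norm_num)
      exact mul_le_mul_of_nonneg_left h10 (by positivity)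
    linarith

end Vale.Agent.P160.Half.Flat.MC743
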