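import Mathlib

/-!
# P160 (M), scheme 11331: leaf (P3), MIN NORM

`x i` are the rows (entries of absolute value at most `1`), the matrix has trivial real kernel,
there is no structured sparse near-integral vector `ψ` (event `S (b)`), and `φ` is a nonzero
reduced vector (`|φ c| ≤ 1/2`) with all `x i ⬝ φ` integral.  Then `φ` cannot be small in `ℓ²`
off a set of at most `E` coordinates.
-/

namespace Vale.Agent.P160.Half.MinNorm708

open Finset

variable {ι κ : Type*} [Fintype κ] [DecidableEq κ]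

theorem min_norm (x : ι → κ → ℝ) (hx : ∀ i c, |x i c| ≤ 1)
    (hker : ∀ φ : κ → ℝ, (∀ i, ∑ c, x i c * φ c = 0) → φ = 0)
    {k E : ℝ} (hk : (Fintype.card κ : ℝ) ≤ k) (hk0 : 0 < k) (hE : 1 ≤ E)
    (hS : ∀ ψ : κ → ℝ, (∀ c, |ψ c| ≤ 1 / 2) →
      ((univ.filter fun c => ψ c ≠ 0).card : ℝ) ≤ E →
      (∃ c, 1 / (4 * E) < |ψ c|) →
      ¬ ∀ i, ∃ z : ℤ, |∑ c, x i c * ψ c - z| ≤ 1 / (64 * E))
    (φ : κ → ℝ) (hφ : ∀ c, |φ c| ≤ 1 / 2) (hφ0 : φ ≠ 0)
    (hint : ∀ i, ∃ z : ℤ, ∑ c, x i c * φ c = z)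
    (G : Finset κ) (hG : ((univ \ G).card : ℝ) ≤ E) :
    (1 / (64 * Real.sqrt k * E)) ^ 2 < ∑ c ∈ G, φ c ^ 2 := by
  classical
  have hE0 : (0 : ℝ) < E := by linarith
  by_contra hcon
  have hcon : ∑ c ∈ G, φ c ^ 2 ≤ (1 / (64 * Real.sqrt k * E)) ^ 2 := not_lt.mp hcon
  -- the part on `G` is small in every row
  have hGrow : ∀ i, |∑ c ∈ G, x i c * φ c| ≤ 1 / (64 * E) := by
    intro i
    have h1 : (∑ c ∈ G, x i c * φ c) ^ 2 ≤ (∑ c ∈ G, x i c ^ 2) * ∑ c ∈ G, φ c ^ 2 :=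
      Finset.sum_mul_sq_le_sq_mul_sq G _ _
    have h2 : ∑ c ∈ G, x i c ^ 2 ≤ k := by
      calc ∑ c ∈ G, x i c ^ 2 ≤ ∑ _c ∈ G, (1 : ℝ) := by
            refine Finset.sum_le_sum fun c _ => ?_
            have := hx i c
            have h3 : x i c ^ 2 = |x i c| ^ 2 := (sq_abs _).symm
            rw [h3]
            nlinarith [abs_nonneg (x i c)]
        _ = (G.card : ℝ) := by simp
        _ ≤ (Fintype.card κ : ℝ) := by exact_mod_cast Finset.card_le_univ G
        _ ≤ k := hk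
    have h3 : (∑ c ∈ G, x i c * φ c) ^ 2 ≤ k * (1 / (64 * Real.sqrt k * E)) ^ 2 := by
      refine h1.trans ?_
      have h0 : 0 ≤ ∑ c ∈ G, φ c ^ 2 := Finset.sum_nonneg fun c _ => sq_nonneg _
      exact mul_le_mul h2 hcon h0 hk0.le
    have h4 : k * (1 / (64 * Real.sqrt k * E)) ^ 2 = (1 / (64 * E)) ^ 2 := by
      have hs : Real.sqrt k ^ 2 = k := Real.sq_sqrt hk0.le
      have hsp : 0 < Real.sqrt k := Real.sqrt_pos.mpr hk0
      field_simp
      rw [hs]
    rw [h4] at h3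
    have h5 : (0 : ℝ) ≤ 1 / (64 * E) := by positivity
    exact abs_le_of_sq_le_sq h3 h5
  have hsplit : ∀ i, ∑ c, x i c * φ c =
      ∑ c ∈ G, x i c * φ c + ∑ c ∈ univ \ G, x i c * φ c := by
    intro i
    rw [add_comm, Finset.sum_sdiff (Finset.subset_univ G)]
  by_cases hbig : ∃ c ∈ univ \ G, 1 / (4 * E) < |φ c|
  · obtain ⟨c₀, hc₀, hc₀'⟩ := hbig
    have hc₀G : c₀ ∉ G := by simpa using hc₀
    refine hS (fun c => if c ∈ G then 0 else φ c) ?_ ?_ ⟨c₀, ?_⟩ ?_
    · intro c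
      by_cases hc : c ∈ G
      · simp [hc]
      · simpa [hc] using hφ c
    · refine le_trans ?_ hG
      have : (univ.filter fun c => (if c ∈ G then (0 : ℝ) else φ c) ≠ 0) ⊆ univ \ G := by
        intro c hc
        simp only [mem_filter, mem_univ, true_and] at hc
        simp only [mem_sdiff, mem_univ, true_and]
        intro hcG
        exact hc (by simp [hcG])
      exact_mod_cast Finset.card_le_card this
    · simpa [hc₀G] using hc₀'
    · intro i
      obtain ⟨z, hz⟩ := hint i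
      refine ⟨z, ?_⟩
      have h1 : ∑ c, x i c * (if c ∈ G then (0 : ℝ) else φ c) = ∑ c ∈ univ \ G, x i c * φ c := by
        rw [← Finset.sum_sdiff (Finset.subset_univ G)]
        have h2 : ∑ c ∈ G, x i c * (if c ∈ G then (0 : ℝ) else φ c) = 0 :=
          Finset.sum_eq_zero fun c hc => by simp [hc]
        rw [h2, add_zero]
        refine Finset.sum_congr rfl fun c hc => ?_
        have : c ∉ G := by simpa using hc
        simp [this]
      have h3 : ∑ c ∈ univ \ G, x i c * φ c - (z : ℝ) = -∑ c ∈ G, x i c * φ c := by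
        rw [← hz, hsplit i]; ring
      rw [h1, h3, abs_neg]
      exact hGrow i
  · push Not at hbig
    apply hφ0
    apply hker
    intro i
    obtain ⟨z, hz⟩ := hint i
    have h1 : |∑ c ∈ univ \ G, x i c * φ c| ≤ 1 / 4 := by
      calc |∑ c ∈ univ \ G, x i c * φ c| ≤ ∑ c ∈ univ \ G, |x i c * φ c| :=
            Finset.abs_sum_le_sum_abs _ _
        _ ≤ ∑ _c ∈ univ \ G, 1 / (4 * E) := by
            refine Finset.sum_le_sum fun c hc => ?_
            rw [abs_mul]
            have h2 := hbig c hc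
            have h3 := hx i c
            calc |x i c| * |φ c| ≤ 1 * (1 / (4 * E)) :=
                  mul_le_mul h3 h2 (abs_nonneg _) zero_le_one
              _ = 1 / (4 * E) := one_mul _
        _ = ((univ \ G).card : ℝ) * (1 / (4 * E)) := by simp
        _ ≤ E * (1 / (4 * E)) := by
            exact mul_le_mul_of_nonneg_right hG (by positivity)
        _ = 1 / 4 := by field_simp
    have h2 : |(z : ℝ)| < 1 := by
      rw [← hz, hsplit i]
      have h3 : 1 / (64 * E) ≤ 1 / 64 := by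
        apply one_div_le_one_div_of_le (by norm_num)
        nlinarith
      calc |∑ c ∈ G, x i c * φ c + ∑ c ∈ univ \ G, x i c * φ c|
          ≤ |∑ c ∈ G, x i c * φ c| + |∑ c ∈ univ \ G, x i c * φ c| := abs_add_le _ _
        _ ≤ 1 / (64 * E) + 1 / 4 := add_le_add (hGrow i) h1
        _ < 1 := by linarith
    have h3 : z = 0 := by
      have : |z| < 1 := by exact_mod_cast h2
      exact Int.abs_lt_one_iff.mp this
    rw [hz, h3]; simp

/-- Circle version: `θ c` are elements of `ℝ / ℤ` (values of one character on the coordinates of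
`v`), not all zero, with `∑ c, X i c • θ c = 0` for all rows. -/
theorem min_norm_circle (X : ι → κ → ℤ) (hX : ∀ i c, |X i c| ≤ 1)
    (hker : ∀ φ : κ → ℝ, (∀ i, ∑ c, (X i c : ℝ) * φ c = 0) → φ = 0)
    {k E : ℝ} (hk : (Fintype.card κ : ℝ) ≤ k) (hk0 : 0 < k) (hE : 1 ≤ E)
    (hS : ∀ ψ : κ → ℝ, (∀ c, |ψ c| ≤ 1 / 2) →
      ((univ.filter fun c => ψ c ≠ 0).card : ℝ) ≤ E →
      (∃ c, 1 / (4 * E) < |ψ c|) →
      ¬ ∀ i, ∃ z : ℤ, |∑ c, (X i c : ℝ) * ψ c - z| ≤ 1 / (64 * E))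
    (θ : κ → UnitAddCircle) (hθ0 : θ ≠ 0)
    (hint : ∀ i, ∑ c, X i c • θ c = 0)
    (G : Finset κ) (hG : ((univ \ G).card : ℝ) ≤ E) :
    (1 / (64 * Real.sqrt k * E)) ^ 2 < ∑ c ∈ G, ‖θ c‖ ^ 2 := by
  classical
  have hrep : ∀ t : UnitAddCircle, ∃ r : ℝ, (r : UnitAddCircle) = t ∧ |r| = ‖t‖ := by
    intro t
    obtain ⟨x, rfl⟩ := QuotientAddGroup.mk_surjective t
    refine ⟨x - round x, ?_, ?_⟩
    · have h1 : (((round x : ℤ) : ℝ) : UnitAddCircle) = 0 := by
        have := AddCircle.coe_eq_zero_iff (1 : ℝ) (x := ((round x : ℤ) : ℝ))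
        rw [this]
        exact ⟨round x, by simp⟩
      have h2 : ((x - round x : ℝ) : UnitAddCircle) = (x : UnitAddCircle) -
          (((round x : ℤ) : ℝ) : UnitAddCircle) := rfl
      rw [h2, h1, sub_zero]
    · exact (UnitAddCircle.norm_eq (x := x)).symm
  choose rep hrep1 hrep2 using hrep
  have hnorm : ∀ t : UnitAddCircle, ‖t‖ ≤ 1 / 2 := by
    intro t
    have := AddCircle.norm_le_half_period (1 : ℝ) (x := t) one_ne_zero
    simpa using this
  have key := min_norm (fun i c => (X i c : ℝ)) (fun i c => by exact_mod_cast hX i c) hker hk hk0 hE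
    hS (fun c => rep (θ c)) (fun c => by rw [hrep2]; exact hnorm _) ?_ ?_ G hG
  · refine lt_of_lt_of_eq key (Finset.sum_congr rfl fun c _ => ?_)
    rw [← hrep2, sq_abs]
  · intro h0
    apply hθ0
    funext c
    have h1 : rep (θ c) = 0 := congrFun h0 c
    rw [← hrep1 (θ c), h1]; rfl
  · intro i
    have h1 : ((∑ c, (X i c : ℝ) * rep (θ c) : ℝ) : UnitAddCircle) = 0 := by
      have h2 : ((∑ c, (X i c : ℝ) * rep (θ c) : ℝ) : UnitAddCircle) =
          ∑ c, (((X i c : ℝ) * rep (θ c) : ℝ) : UnitAddCircle) :=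
        map_sum (QuotientAddGroup.mk' _) _ _
      rw [h2, ← hint i]
      refine Finset.sum_congr rfl fun c _ => ?_
      rw [← zsmul_eq_mul, AddCircle.coe_zsmul, hrep1]
    rw [AddCircle.coe_eq_zero_iff] at h1
    obtain ⟨n, hn⟩ := h1
    exact ⟨n, by rw [← hn]; simp⟩

end Vale.Agent.P160.Half.MinNorm708
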