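import Vale.Agent.P160.Half.Pack502
import Vale.Agent.P160.Half.FlatI
import Vale.Agent.P160.Half.MinNorm708

/-!
# P160 (M), scheme 11331: bridge between `Pack502` (packing growth), `FlatI` (characters with
values in `ℂ`) and `MinNorm708`

`n y c s = ‖s (y c)‖`, the distance of the angle of `s (y c)` to the integers.
-/

namespace Vale.Agent.P160.Half.NrmChar

open Finset Vale.Agent.P160 Vale.Agent.P160.Half.Flat

/-- the angle of a complex number, in turns -/
noncomputable def tu (z : ℂ) : UnitAddCircle := ((z.arg / (2 * Real.pi) : ℝ) : UnitAddCircle)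

theorem norm_coe_of_le {x : ℝ} (h : |x| ≤ 1 / 2) : ‖(x : UnitAddCircle)‖ = |x| := by
  rw [AddCircle.norm_coe_eq_abs_iff (1 : ℝ) one_ne_zero]
  simpa using h

theorem norm_tu (z : ℂ) : ‖tu z‖ = |z.arg| / (2 * Real.pi) := by
  have hpi := Real.pi_pos
  have h1 : |z.arg / (2 * Real.pi)| = |z.arg| / (2 * Real.pi) := by
    rw [abs_div, abs_of_pos (by positivity : (0 : ℝ) < 2 * Real.pi)]
  unfold tu
  rw [norm_coe_of_le, h1]
  rw [h1, div_le_iff₀ (by positivity)]
  have := Complex.abs_arg_le_pi z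
  linarith

theorem tu_one : tu 1 = 0 := by simp [tu]

theorem tu_mul {z w : ℂ} (hz : z ≠ 0) (hw : w ≠ 0) : tu (z * w) = tu z + tu w := by
  have hpi := Real.pi_pos
  have h1 := Complex.arg_mul_coe_angle hz hw
  rw [← Real.Angle.coe_add, Real.Angle.angle_eq_iff_two_pi_dvd_sub] at h1
  obtain ⟨k, hk⟩ := h1
  unfold tu
  rw [← AddCircle.coe_add, ← sub_eq_zero, ← AddCircle.coe_sub, AddCircle.coe_eq_zero_iff]
  refine ⟨k, ?_⟩
  have h2 : (z * w).arg / (2 * Real.pi) - (z.arg / (2 * Real.pi) + w.arg / (2 * Real.pi)) = k := by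
    rw [← add_div, ← sub_div, hk]
    field_simp
  rw [h2]
  simp

theorem two_norm (θ : UnitAddCircle) (h : ‖θ‖ ≤ 1 / 4) : ‖θ + θ‖ = 2 * ‖θ‖ := by
  obtain ⟨x, rfl⟩ := QuotientAddGroup.mk_surjective θ
  have h1 : ((x - round x : ℝ) : UnitAddCircle) = (x : UnitAddCircle) := by
    rw [AddCircle.coe_sub]
    have h2 : (((round x : ℤ) : ℝ) : UnitAddCircle) = 0 := by
      rw [AddCircle.coe_eq_zero_iff]
      exact ⟨round x, by simp⟩
    rw [h2, sub_zero]
  change ‖(x : UnitAddCircle)‖ ≤ 1 / 4 at h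
  change ‖(x : UnitAddCircle) + (x : UnitAddCircle)‖ = 2 * ‖(x : UnitAddCircle)‖
  have h3 : ‖(x : UnitAddCircle)‖ = |x - round x| := UnitAddCircle.norm_eq (x := x)
  rw [h3] at h ⊢
  rw [← h1, ← AddCircle.coe_add, norm_coe_of_le]
  · rw [← two_mul, abs_mul, abs_two]
  · rw [← two_mul, abs_mul, abs_two]
    linarith

theorem norm_sub_one_sq {z : ℂ} (hz : ‖z‖ = 1) : ‖z - 1‖ ^ 2 = 2 - 2 * z.re := by
  have h1 : ‖z‖ ^ 2 = z.re * z.re + z.im * z.im := by
    rw [← Complex.normSq_eq_norm_sq, Complex.normSq_apply]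
  rw [← Complex.normSq_eq_norm_sq, Complex.normSq_apply]
  rw [hz] at h1
  simp only [Complex.sub_re, Complex.one_re, Complex.sub_im, Complex.one_im, sub_zero]
  nlinarith

theorem norm_sub_one_eq {z : ℂ} (hz : ‖z‖ = 1) : ‖z - 1‖ = 2 * |Real.sin (z.arg / 2)| := by
  have h1 : z.re = Real.cos z.arg := by
    rw [Complex.cos_arg (by intro h; rw [h, norm_zero] at hz; exact one_ne_zero hz.symm), hz,
      div_one]
  have h2 : ‖z - 1‖ ^ 2 = (2 * |Real.sin (z.arg / 2)|) ^ 2 := by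
    rw [norm_sub_one_sq hz, h1, mul_pow, sq_abs]
    have h3 : Real.cos z.arg = 1 - 2 * Real.sin (z.arg / 2) ^ 2 := by
      have h4 := Real.cos_two_mul (z.arg / 2)
      have h5 := Real.sin_sq_add_cos_sq (z.arg / 2)
      rw [show 2 * (z.arg / 2) = z.arg by ring] at h4
      linarith
    rw [h3]; ring
  exact (pow_left_inj₀ (norm_nonneg _) (by positivity) two_ne_zero).1 h2

theorem four_le {z : ℂ} (hz : ‖z‖ = 1) : 4 * ‖tu z‖ ≤ ‖z - 1‖ := by
  have hpi := Real.pi_pos
  rw [norm_tu, norm_sub_one_eq hz]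
  have h1 := Complex.abs_arg_le_pi z
  have h2 : |z.arg / 2| ≤ Real.pi / 2 := by
    rw [abs_div, abs_two]; linarith
  have h3 := Real.mul_abs_le_abs_sin h2
  rw [abs_div, abs_two] at h3
  calc 4 * (|z.arg| / (2 * Real.pi)) = 2 * (2 / Real.pi * (|z.arg| / 2)) := by field_simp; ring
    _ ≤ 2 * |Real.sin (z.arg / 2)| := by linarith

theorem le_two_pi {z : ℂ} (hz : ‖z‖ = 1) : ‖z - 1‖ ≤ 2 * Real.pi * ‖tu z‖ := by
  have hpi := Real.pi_pos
  rw [norm_tu, norm_sub_one_eq hz]
  have h1 : |Real.sin (z.arg / 2)| ≤ |z.arg / 2| := Real.abs_sin_le_abs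
  rw [abs_div, abs_two] at h1
  calc 2 * |Real.sin (z.arg / 2)| ≤ |z.arg| := by linarith
    _ = 2 * Real.pi * (|z.arg| / (2 * Real.pi)) := by field_simp

variable {G : Type} [AddCommGroup G] [Fintype G]

theorem ch_ne (s : AddChar G ℂ) (x : G) : s x ≠ 0 := by
  intro h
  have := AddChar.norm_apply s x
  rw [h, norm_zero] at this
  exact zero_ne_one this

/-- the angle of a character as a homomorphism -/
noncomputable def hom (s : AddChar G ℂ) : G →+ UnitAddCircle where
  toFun x := tu (s x)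
  map_zero' := by rw [AddChar.map_zero_eq_one, tu_one]
  map_add' x y := by rw [AddChar.map_add_eq_mul, tu_mul (ch_ne s x) (ch_ne s y)]

theorem hom_apply (s : AddChar G ℂ) (x : G) : hom s x = tu (s x) := rfl

/-- the norms -/
noncomputable def n {ι : Type*} (y : ι → G) (c : ι) (s : AddChar G ℂ) : ℝ := ‖tu (s (y c))‖

theorem nrm {ι : Type*} (y : ι → G) : Pack502.Nrm (n y) where
  nonneg c s := norm_nonneg _
  zero c := by
    unfold n
    rw [AddChar.zero_apply, tu_one, norm_zero]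
  neg c s := by
    unfold n
    rw [AddChar.neg_apply, ← hom_apply, ← hom_apply, map_neg, norm_neg]
  add c s t := by
    unfold n
    rw [AddChar.add_apply, tu_mul (ch_ne s _) (ch_ne t _)]
    exact norm_add_le _ _
  dbl c s h := by
    unfold n at h ⊢
    rw [AddChar.add_apply, tu_mul (ch_ne s _) (ch_ne s _)]
    exact two_norm _ h

theorem four_n_le {ι : Type*} (y : ι → G) (c : ι) (s : AddChar G ℂ) :
    4 * n y c s ≤ ‖s (y c) - 1‖ := four_le (AddChar.norm_apply s _)

theorem le_n {ι : Type*} (y : ι → G) (c : ι) (s : AddChar G ℂ) :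
    ‖s (y c) - 1‖ ≤ 2 * Real.pi * n y c s := le_two_pi (AddChar.norm_apply s _)

end Vale.Agent.P160.Half.NrmChar
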