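import Vale.Agent.P160.Half.MCZ743
import Vale.Agent.P160.Half.MCTail373
import Vale.Agent.P160.Half.NrmChar708

/-! P160 (M), LEMMA MC of note 11331 for every laziness `4 ≤ M ≤ 8` (helper743). -/

namespace Vale.Agent.P160.Half.Flat.MC743

open Finset Vale.Agent.P160 Vale.Agent.P160.Half.Flat Vale.Agent.P160.Half.Flat.C743

section
variable {G : Type} [AddCommGroup G] [Fintype G]

lemma gPM_le_gP8 {m M : ℕ} (hM4 : 4 ≤ M) (hM8 : M ≤ 8) (y : Fin m → G) (ψ : AddChar G ℂ) :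
    gP M y ψ ≤ gP 8 y ψ := by
  unfold gP
  refine prod_le_prod (fun c _ => cf_nonneg hM4 (AddChar.norm_apply ψ _)) ?_
  intro c _
  have h1 : (ψ (y c)).re ≤ 1 := by
    have := Complex.re_le_norm (ψ (y c))
    rwa [AddChar.norm_apply] at this
  have hM4' : (4 : ℝ) ≤ M := by exact_mod_cast hM4
  have hM8' : (M : ℝ) ≤ 8 := by exact_mod_cast hM8
  have h2 : (1 : ℝ) / 8 ≤ 1 / M := one_div_le_one_div_of_le (by linarith) hM8'
  unfold cf
  push_cast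
  have e1 : (1 : ℝ) - 2 / M + 2 / M * (ψ (y c)).re = 1 - 2 * (1 / M * (1 - (ψ (y c)).re)) := by
    ring
  have e2 : (1 : ℝ) - 2 / 8 + 2 / 8 * (ψ (y c)).re = 1 - 2 * (1 / 8 * (1 - (ψ (y c)).re)) := by
    ring
  have h3 : (1 / 8 : ℝ) * (1 - (ψ (y c)).re) ≤ 1 / M * (1 - (ψ (y c)).re) :=
    mul_le_mul_of_nonneg_right h2 (by linarith)
  rw [e1, e2]
  linarith

lemma LM_card {m M : ℕ} (hM4 : 4 ≤ M) (hM8 : M ≤ 8) (y : Fin m → G) {t t' : ℝ}
    (htt : t' ≤ t) : (Tail.LM M y t).card ≤ (Lam y t').card + 1 := by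
  classical
  have h : Tail.LM M y t ⊆ insert 1 (Lam y t') := by
    intro ψ hψ
    rw [Tail.mem_LM] at hψ
    rw [mem_insert]
    by_cases h1 : ψ = 1
    · exact Or.inl h1
    · right
      rw [mem_Lam']
      exact ⟨h1, htt.trans (hψ.trans (gPM_le_gP8 hM4 hM8 y ψ))⟩
  exact (card_le_card h).trans (card_insert_le _ _)

/-- `MinN` in the notation of `NrmChar` -/
lemma minN_of {m : ℕ} {σ E : ℝ} {y : Fin m → G}
    (h : ∀ ψ : AddChar G ℂ, ψ ≠ 1 → ∀ F : Finset (Fin m), ((Fᶜ).card : ℝ) ≤ E →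
      σ ^ 2 < ∑ c ∈ F, NrmChar.n y c ψ ^ 2) : MinN σ E y := by
  intro s hs D hD
  have := h s hs Dᶜ (by rw [compl_compl]; exact hD)
  exact this

end

open scoped Classical in
/-- LEMMA MC for the law `M` -/
def StmtMCM (M : ℕ) : Prop :=
  ∀ g₀ d c C₀ : ℝ, 0 < g₀ → 0 < d → d ≤ 1 / 8 → 0 < c → 0 < C₀ → ∃ k₀ : ℕ, ∀ k : ℕ, k₀ ≤ k →
    ∀ (G : Type) [AddCommGroup G] [Fintype G] (m : ℕ), m ≤ k → (k : ℝ) ≤ 2 * m →
    (∀ p : ℕ, p.Prime → p ∣ Fintype.card G → k ≤ p) →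
    (Fintype.card G : ℝ) * (1 - 2 / M) ^ m ≤ Real.exp (-c * k) →
    ∀ T : ℝ, (k : ℝ) ^ (5 * g₀ + 2) ≤ T → T ≤ (k : ℝ) ^ C₀ →
    ((univ.filter fun y : Fin m → G =>
      MinN (1 / (64 * Real.sqrt k * (k : ℝ) ^ (1 - d))) ((k : ℝ) ^ (1 - d)) y ∧
        T ≤ gZ M y).card : ℝ) ≤
      (Fintype.card G : ℝ) ^ m * ((k : ℝ) ^ (-g₀) / T) ^ m

open Filter in
open scoped Classical in
/-- LEMMA MC for `4 ≤ M ≤ 8` -/
theorem mcM743 {M : ℕ} (hM4 : 4 ≤ M) (hM8 : M ≤ 8) : StmtMCM M := by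
  intro g₀ d c C₀ hg₀ hd hd8 hc hC₀
  obtain ⟨A, hA0, k₁, htail⟩ := Tail.stmtTail hM4 c (C₀ + g₀ + 1) hc (by positivity)
  set g₁ : ℝ := g₀ + 1 / 10 with hg₁
  have hg₁0 : 0 < g₁ := by positivity
  set η : ℝ := d / 8 with hη
  have hη0 : 0 < η := by positivity
  set C₂ : ℝ := max A 4 with hC₂
  have hC₂4 : 4 ≤ C₂ := le_max_right _ _
  have hC₂A : A ≤ C₂ := le_max_left _ _
  have hC₂0 : 0 < C₂ := by linarith
  set L : ℕ := ⌈(C₀ + g₁ + 1) / η⌉₊ with hLdef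
  have hLn : (C₀ + g₁ + 1) / η ≤ L := Nat.le_ceil _
  have e1 := ev_const 8 hη0
  have e2 := ev_log 1 one_pos (show 0 < d / 10 by positivity)
  have e3 := ev_const (216670464 * C₂) (show 0 < d / 2 by positivity)
  have e4 := ev_log (2097152 * C₂) (by positivity) (show (0 : ℝ) < 1 / 4 by norm_num)
  have e5 := ev_log (720 * C₂) (by positivity) (show 0 < d / 2 by positivity)
  have e6 := ev_log ((C₀ + g₁ + 1) * (2 * ((L : ℝ) + 1)) * 2) (by positivity) hd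
  have e7 := ev_const ((2 : ℝ) ^ (L + 1) * 4 * 1536 * 3) (show (0 : ℝ) < 1 / 16 by norm_num)
  have e8 := ev_const (8 / 3) (show (0 : ℝ) < 1 / 10 by norm_num)
  obtain ⟨k₀, hk₀⟩ := eventually_atTop.1
    (((((((e1.and e2).and e3).and e4).and e5).and e6).and e7).and
      (e8.and (eventually_ge_atTop 96)))
  refine ⟨max k₀ k₁, fun k hk G _ _ m hmk hkm hp hg T hT hT' => ?_⟩
  obtain ⟨⟨⟨⟨⟨⟨⟨h1, h2⟩, h3⟩, h4⟩, h5⟩, h6⟩, h7⟩, h8, h9⟩ :=
    hk₀ k (le_trans (le_max_left _ _) hk)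
  have hx : (96 : ℝ) ≤ k := by exact_mod_cast h9
  have hx0 : (0 : ℝ) < k := by linarith
  have hx1 : (1 : ℝ) ≤ k := by linarith
  have hmk' : (m : ℝ) ≤ k := by exact_mod_cast hmk
  have hTk : (k : ℝ) ≤ T := by
    calc (k : ℝ) = (k : ℝ) ^ (1 : ℝ) := (Real.rpow_one _).symm
      _ ≤ (k : ℝ) ^ (5 * g₀ + 2) := Real.rpow_le_rpow_of_exponent_le hx1 (by linarith)
      _ ≤ T := hT
  have hT0 : 0 < T := by linarith
  have hlog : 0 < Real.log k := Real.log_pos (by linarith)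
  rw [one_mul] at h2
  have hM4' : (4 : ℝ) ≤ M := by exact_mod_cast hM4
  have hg2 : (Fintype.card G : ℝ) ≤ 2 ^ m := by
    have a0 : (1 / 2 : ℝ) ≤ 1 - 2 / M := by
      have : (2 : ℝ) / M ≤ 2 / 4 := div_le_div_of_nonneg_left (by norm_num) (by norm_num) hM4'
      linarith
    have a1 : (Fintype.card G : ℝ) * (1 - 2 / M) ^ m ≤ 1 := by
      refine hg.trans (Real.exp_le_one_iff.2 ?_)
      have : 0 ≤ c * k := by positivity
      linarith
    have a2 : (1 : ℝ) ≤ 2 ^ m * (1 - 2 / M) ^ m := by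
      rw [← mul_pow]
      exact one_le_pow₀ (by linarith)
    have a3 : (0 : ℝ) < (1 - 2 / M) ^ m := pow_pos (by linarith) _
    exact le_of_mul_le_mul_right (a1.trans a2) a3
  have hR : (C₀ + g₁ + 1) * (2 * ((L : ℝ) + 1) * (k : ℝ) ^ (1 - d)) * Real.log k
      ≤ (k : ℝ) / 2 := by
    have b2 : (k : ℝ) ^ d * (k : ℝ) ^ (1 - d) = k := by
      rw [← Real.rpow_add hx0]
      have : d + (1 - d) = 1 := by ring
      rw [this, Real.rpow_one]
    have b3 := mul_le_mul_of_nonneg_right h6 (show 0 ≤ (k : ℝ) ^ (1 - d) by positivity)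
    rw [b2] at b3
    linarith
  have hT2 : (k : ℝ) ^ (5 * g₁ + 1) ≤ 3 * T / 8 := by
    have b1 : (8 / 3 : ℝ) ≤ (k : ℝ) ^ (1 / 2 : ℝ) :=
      h8.trans (Real.rpow_le_rpow_of_exponent_le hx1 (by norm_num))
    have b2 : (k : ℝ) ^ (5 * g₁ + 1) * (k : ℝ) ^ (1 / 2 : ℝ) ≤ T := by
      rw [← Real.rpow_add hx0]
      refine le_trans (le_of_eq ?_) hT
      congr 1
      rw [hg₁]
      ring
    have b3 : (k : ℝ) ^ (5 * g₁ + 1) * (8 / 3) ≤ T :=
      (mul_le_mul_of_nonneg_left b1 (by positivity)).trans b2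
    linarith
  have hS := small_case (G := G) (m := m) (T := 3 * T / 8) Spl.stmtSplit (x := (k : ℝ)) rfl hd
    hd8 hη hg₁0 hC₀ hC₂4 hx hT2 (by linarith) hLn hp h1 h2 h3 h4 h5 hkm hg2 hR h7
  have hTl := htail k (le_trans (le_max_right _ _) hk) G m hmk hg (T / 2) (by linarith)
  have h10 : (k : ℝ) ^ (-((C₀ + g₀) * k)) ≤ ((k : ℝ) ^ (-g₀) / T) ^ m := by
    calc (k : ℝ) ^ (-((C₀ + g₀) * k)) ≤ (k : ℝ) ^ (-((C₀ + g₀) * m)) := by
          refine Real.rpow_le_rpow_of_exponent_le hx1 (neg_le_neg ?_)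
          exact mul_le_mul_of_nonneg_left hmk' (by positivity)
      _ = ((k : ℝ) ^ (-g₀ - C₀)) ^ m := by
          rw [← Real.rpow_natCast, ← Real.rpow_mul hx0.le]
          congr 1
          ring
      _ ≤ ((k : ℝ) ^ (-g₀) / T) ^ m := by
          refine pow_le_pow_left₀ (Real.rpow_nonneg hx0.le _) ?_ _
          rw [Real.rpow_sub hx0]
          exact div_le_div_of_nonneg_left (by positivity) hT0 hT'
  have h12 : Real.exp (-((C₀ + g₀ + 1) * (k * Real.log k)))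
      ≤ ((k : ℝ) ^ (-g₀) / T) ^ m / 2 := by
    have b1 : Real.exp (-((C₀ + g₀ + 1) * (k * Real.log k)))
        = (k : ℝ) ^ (-((C₀ + g₀) * k)) * (k : ℝ) ^ (-(k : ℝ)) := by
      rw [← Real.rpow_add hx0, Real.rpow_def_of_pos hx0]
      congr 1
      ring
    have b2 : (k : ℝ) ^ (-(k : ℝ)) ≤ 1 / 2 := by
      calc (k : ℝ) ^ (-(k : ℝ)) ≤ (k : ℝ) ^ (-(1 : ℝ)) :=
            Real.rpow_le_rpow_of_exponent_le hx1 (by linarith)
        _ = 1 / k := by rw [Real.rpow_neg hx0.le, Real.rpow_one, one_div]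
        _ ≤ 1 / 2 := one_div_le_one_div_of_le (by norm_num) (by linarith)
    rw [b1]
    calc (k : ℝ) ^ (-((C₀ + g₀) * k)) * (k : ℝ) ^ (-(k : ℝ))
        ≤ ((k : ℝ) ^ (-g₀) / T) ^ m * (1 / 2) :=
          mul_le_mul h10 b2 (by positivity) (by positivity)
      _ = _ := by ring
  have h13 : ((k : ℝ) ^ (-g₁) / (3 * T / 8)) ^ m ≤ ((k : ℝ) ^ (-g₀) / T) ^ m := by
    refine pow_le_pow_left₀ (by positivity) ?_ _
    have b1 : (k : ℝ) ^ (-g₁) * (k : ℝ) ^ (1 / 10 : ℝ) = (k : ℝ) ^ (-g₀) := by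
      rw [← Real.rpow_add hx0]
      congr 1
      rw [hg₁]
      ring
    have b2 : (k : ℝ) ^ (-g₁) * (8 / 3) ≤ (k : ℝ) ^ (-g₀) := by
      rw [← b1]
      exact mul_le_mul_of_nonneg_left h8 (by positivity)
    calc (k : ℝ) ^ (-g₁) / (3 * T / 8) = (k : ℝ) ^ (-g₁) * (8 / 3) / T := by
          field_simp
      _ ≤ (k : ℝ) ^ (-g₀) / T := div_le_div_of_nonneg_right b2 hT0.le
  refine le_trans (b := (((univ.filter fun y : Fin m → G =>
      MinN (1 / (64 * Real.sqrt k * (k : ℝ) ^ (1 - d))) ((k : ℝ) ^ (1 - d)) y ∧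
      3 * T / 8 / 6 ≤ (Lam y ((k : ℝ) ^ (-C₂))).card).card : ℝ) +
    ((univ.filter fun y : Fin m → G =>
      2 * (T / 2) ≤ gZ M y ∧ ((Tail.LM M y ((k : ℝ) ^ (-A))).card : ℝ) < T / 2 / 4).card : ℝ))) ?_ ?_
  · rw [← Nat.cast_add]
    refine Nat.cast_le.2 (le_trans (card_le_card ?_) (card_union_le _ _))
    intro y hy
    rw [mem_filter] at hy
    obtain ⟨-, hns, hZ⟩ := hy
    rw [mem_union, mem_filter, mem_filter]
    by_cases hlt : ((Tail.LM M y ((k : ℝ) ^ (-A))).card : ℝ) < T / 2 / 4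
    · exact Or.inr ⟨mem_univ _, by linarith, hlt⟩
    · left
      refine ⟨mem_univ _, hns, ?_⟩
      push Not at hlt
      have hle := LM_card hM4 hM8 y (show (k : ℝ) ^ (-C₂) ≤ (k : ℝ) ^ (-A) from
        Real.rpow_le_rpow_of_exponent_le hx1 (by linarith))
      have hle' : ((Tail.LM M y ((k : ℝ) ^ (-A))).card : ℝ)
          ≤ (Lam y ((k : ℝ) ^ (-C₂))).card + 1 := by exact_mod_cast hle
      linarith
  · have h14 : (Fintype.card G : ℝ) ^ m * ((k : ℝ) ^ (-g₁) / (3 * T / 8)) ^ m / 2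
        ≤ (Fintype.card G : ℝ) ^ m * ((k : ℝ) ^ (-g₀) / T) ^ m / 2 := by
      refine div_le_div_of_nonneg_right ?_ (by norm_num)
      exact mul_le_mul_of_nonneg_left h13 (by positivity)
    have h15 : (Fintype.card G : ℝ) ^ m * Real.exp (-((C₀ + g₀ + 1) * (k * Real.log k)))
        ≤ (Fintype.card G : ℝ) ^ m * (((k : ℝ) ^ (-g₀) / T) ^ m / 2) :=
      mul_le_mul_of_nonneg_left h12 (by positivity)
    linarith

/-- LEMMA MC for `M = 4` -/
theorem mc4 : StmtMCM 4 := mcM743 le_rfl (by norm_num)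

end Vale.Agent.P160.Half.Flat.MC743
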