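import Vale.Agent.P160.Half.CntAM
import Vale.Agent.P160.Half.FlatI
import Vale.Agent.P160.Half.FlatD

/-! P160-HALF, LEMMA MC, part 1: the tail (tiny characters do not matter), general laziness. -/

open Finset

namespace Vale.Agent.P160.Half.MC

open Vale.Agent.P160 Vale.Agent.P160.Half Vale.Agent.P160.Half.Flat

theorem eventually_log_le (a b : ℝ) (hb : 0 < b) :
    ∃ k₀ : ℕ, ∀ k : ℕ, k₀ ≤ k → a * Real.log k ≤ b * k := by
  have h1 : (fun x : ℝ => a * Real.log x) =o[Filter.atTop] (fun x : ℝ => x) := by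
    exact Real.isLittleO_log_id_atTop.const_mul_left a
  have h2 := (h1.def hb)
  have h3 : ∀ᶠ k : ℕ in Filter.atTop, ‖a * Real.log (k : ℝ)‖ ≤ b * ‖(k : ℝ)‖ :=
    tendsto_natCast_atTop_atTop.eventually h2
  obtain ⟨k₀, hk₀⟩ := Filter.eventually_atTop.1 h3
  refine ⟨k₀, fun k hk => ?_⟩
  have h4 := hk₀ k hk
  rw [Real.norm_of_nonneg (Nat.cast_nonneg k)] at h4
  exact (le_abs_self _).trans h4

theorem cf_eq_hh (M : ℕ) (z : ℂ) : cf M z = CntM.hh (1 / M) z := by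
  unfold cf CntM.hh
  ring

theorem gP_eq_PPi {G : Type} [AddCommGroup G] [Fintype G] {m : ℕ} (M : ℕ) (y : Fin m → G)
    (ψ : AddChar G ℂ) : gP M y ψ = CntM.PPi (1 / M) y ψ := by
  unfold gP CntM.PPi
  exact prod_congr rfl fun e _ => cf_eq_hh M _

theorem num1 {k i : ℕ} (hk8 : 8 ≤ k) (him : i ≤ k + 1) :
    8 * (((i : ℝ) + 1) * (i + 2)) * 4 ≤ Real.exp (4 * Real.log k) := by
  have hk8' : (8 : ℝ) ≤ k := by exact_mod_cast hk8
  have hkpos : (0 : ℝ) < k := by linarith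
  have h1 : (i : ℝ) ≤ k + 1 := by exact_mod_cast him
  have h2 : Real.exp (4 * Real.log k) = (k : ℝ) ^ 4 := by
    rw [show (4 : ℝ) * Real.log k = ((4 : ℕ) : ℝ) * Real.log k by norm_num, Real.exp_nat_mul,
      Real.exp_log hkpos]
  rw [h2]
  have h3 : ((i : ℝ) + 1) * (i + 2) ≤ (k + 2) * (k + 3) :=
    mul_le_mul (by linarith) (by linarith) (by positivity) (by positivity)
  have h5 : (64 : ℝ) ≤ k ^ 2 := by nlinarith
  have h6 : ((k : ℝ) + 2) * (k + 3) ≤ 2 * k ^ 2 := by nlinarith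
  have h7 : (64 : ℝ) * k ^ 2 ≤ k ^ 2 * k ^ 2 := mul_le_mul_of_nonneg_right h5 (sq_nonneg _)
  have h8 : (k : ℝ) ^ 4 = k ^ 2 * k ^ 2 := by ring
  linarith

theorem log_ge_two {k : ℕ} (hk8 : 8 ≤ k) : 2 ≤ Real.log k := by
  have hk8' : (8 : ℝ) ≤ k := by exact_mod_cast hk8
  have : Real.log 8 ≤ Real.log k := Real.log_le_log (by norm_num) hk8'
  have h8 : Real.log 8 = 3 * Real.log 2 := by
    rw [show (8 : ℝ) = 2 ^ 3 by norm_num, Real.log_pow]; norm_num
  have := Real.log_two_gt_d9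
  linarith

theorem num2 {D' x q : ℝ} {l i : ℕ} (hD : 0 < D') (hx : 2 ≤ x) (hl2 : (l : ℝ) < D' * x + 1)
    (hq0 : 0 < q) (hik : q * 4 ≤ Real.exp (4 * x))
    (hi : (6 + 3 * D') / Real.log 2 * x < (i : ℝ)) :
    2 * (3 : ℝ) ^ l ≤ (2 : ℝ) ^ i / q := by
  have hlog2 : 0 < Real.log 2 := Real.log_pos (by norm_num)
  have h1 : (3 : ℝ) ^ l ≤ Real.exp (2 * D' * x + 2) := by
    have h2 : (3 : ℝ) ≤ Real.exp 2 := by
      have := Real.exp_one_gt_d9
      have h3 : Real.exp 2 = Real.exp 1 ^ 2 := by rw [← Real.exp_nat_mul]; norm_num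
      rw [h3]
      nlinarith
    calc (3 : ℝ) ^ l ≤ (Real.exp 2) ^ l := pow_le_pow_left₀ (by norm_num) h2 l
      _ = Real.exp (l * 2) := by rw [← Real.exp_nat_mul]
      _ ≤ _ := Real.exp_le_exp.2 (by linarith)
  have h2 : Real.exp ((6 + 3 * D') * x) ≤ (2 : ℝ) ^ i := by
    have h3 : (2 : ℝ) ^ i = Real.exp (i * Real.log 2) := by
      rw [Real.exp_nat_mul, Real.exp_log (by norm_num)]
    rw [h3]
    apply Real.exp_le_exp.2
    have h4 : (6 + 3 * D') / Real.log 2 * x * Real.log 2 = (6 + 3 * D') * x := by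
      field_simp
    rw [← h4]
    exact mul_le_mul_of_nonneg_right hi.le hlog2.le
  rw [le_div_iff₀ hq0]
  have h5 : q ≤ Real.exp (4 * x) / 4 := by linarith
  have hD'x : 0 ≤ D' * x := by positivity
  calc 2 * (3 : ℝ) ^ l * q ≤ 2 * Real.exp (2 * D' * x + 2) * (Real.exp (4 * x) / 4) := by
        apply mul_le_mul _ h5 hq0.le (by positivity)
        linarith
    _ ≤ Real.exp (2 * D' * x + 2) * Real.exp (4 * x) := by
        have := mul_pos (Real.exp_pos (2 * D' * x + 2)) (Real.exp_pos (4 * x))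
        linarith
    _ = Real.exp (2 * D' * x + 2 + 4 * x) := (Real.exp_add _ _).symm
    _ ≤ Real.exp ((6 + 3 * D') * x) := Real.exp_le_exp.2 (by linarith)
    _ ≤ (2 : ℝ) ^ i := h2

/-- the final comparison -/
theorem num3 {N g q c k' x D : ℝ} {l m : ℕ} (hg0 : 0 < g) (hq0 : 0 < q) (hc : 0 < c)
    (hk' : 0 < k')
    (hmain2 : N * (1 / (4 * q)) ^ l ≤ g ^ m * (Real.exp (-c * k')) ^ l)
    (hkk : 4 * x ≤ c / 2 * k') (hik : q * 4 ≤ Real.exp (4 * x))
    (hl1 : 2 * D / c * x ≤ l) :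
    N ≤ g ^ m * Real.exp (-(D * k' * x)) := by
  have h1 : Real.exp (-c * k') ≤ Real.exp (-(c / 2) * k') * (1 / (4 * q)) := by
    have h2 : Real.exp (-4 * x) ≤ 1 / (4 * q) := by
      rw [le_div_iff₀ (by positivity)]
      calc Real.exp (-4 * x) * (4 * q) ≤ Real.exp (-4 * x) * Real.exp (4 * x) := by
            apply mul_le_mul_of_nonneg_left _ (Real.exp_pos _).le
            linarith
        _ = 1 := by rw [← Real.exp_add]; simp
    calc Real.exp (-c * k') ≤ Real.exp (-(c / 2) * k' + -4 * x) := by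
          apply Real.exp_le_exp.2
          linarith
      _ = Real.exp (-(c / 2) * k') * Real.exp (-4 * x) := Real.exp_add _ _
      _ ≤ _ := mul_le_mul_of_nonneg_left h2 (Real.exp_pos _).le
  have h2 : N * (1 / (4 * q)) ^ l ≤ g ^ m * Real.exp (-(c / 2) * k') ^ l * (1 / (4 * q)) ^ l := by
    calc N * (1 / (4 * q)) ^ l ≤ g ^ m * (Real.exp (-c * k')) ^ l := hmain2
      _ ≤ g ^ m * (Real.exp (-(c / 2) * k') * (1 / (4 * q))) ^ l := by
          apply mul_le_mul_of_nonneg_left _ (by positivity)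
          exact pow_le_pow_left₀ (Real.exp_pos _).le h1 l
      _ = _ := by rw [mul_pow]; ring
  have h3 : N ≤ g ^ m * Real.exp (-(c / 2) * k') ^ l :=
    le_of_mul_le_mul_right h2 (by positivity)
  refine h3.trans ?_
  apply mul_le_mul_of_nonneg_left _ (by positivity)
  rw [← Real.exp_nat_mul]
  apply Real.exp_le_exp.2
  have h7 : (2 * D / c * x) * (c / 2 * k') ≤ l * (c / 2 * k') :=
    mul_le_mul_of_nonneg_right hl1 (by positivity)
  have h8 : (2 * D / c * x) * (c / 2 * k') = D * k' * x := by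
    field_simp
  linarith

/-- one level -/
theorem level (M : ℕ) (hM : 4 ≤ M) (c D : ℝ) (hc : 0 < c) (hD : 0 < D) :
    ∃ A : ℝ, 0 < A ∧ ∃ k₀ : ℕ, ∀ k : ℕ, k₀ ≤ k →
    ∀ (G : Type) [AddCommGroup G] [Fintype G] [DecidableEq G] (m : ℕ),
    (Fintype.card G : ℝ) * (1 - 2 / M) ^ m ≤ Real.exp (-c * k) →
    ∀ i : ℕ, A * Real.log k < (i : ℝ) → i ≤ k + 1 →
    ((univ.filter fun y : Fin m → G =>
        (2 : ℝ) ^ i / (8 * ((i + 1) * (i + 2))) ≤
          (CntM.Lam (1 / M) y ((1 / 2) ^ (i + 1))).card).card : ℝ) ≤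
      (Fintype.card G : ℝ) ^ m * Real.exp (-(D * k * Real.log k)) := by
  have hM' : (4 : ℝ) ≤ M := by exact_mod_cast hM
  have hb0 : (0 : ℝ) ≤ 1 / M := by positivity
  have hb4 : (1 : ℝ) / M ≤ 1 / 4 := one_div_le_one_div_of_le (by norm_num) hM'
  have hb : 1 - 2 / (M : ℝ) = 1 - 2 * (1 / M) := by ring
  have hD0 : 0 < 2 * D / c := by positivity
  have hlog2 : 0 < Real.log 2 := Real.log_pos (by norm_num)
  obtain ⟨k₁, hk₁⟩ := eventually_log_le 4 (c / 2) (by positivity)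
  refine ⟨(6 + 3 * (2 * D / c)) / Real.log 2, by positivity, max k₁ 8, ?_⟩
  intro k hk G _ _ _ m hcard i hi him
  have hk8 : 8 ≤ k := (le_max_right _ _).trans hk
  have hkpos : (0 : ℝ) < k := by exact_mod_cast (by omega : 0 < k)
  have hkk := hk₁ k ((le_max_left _ _).trans hk)
  have hx1 : 2 ≤ Real.log k := log_ge_two hk8
  have hl1 : 2 * D / c * Real.log k ≤ ⌈2 * D / c * Real.log k⌉₊ := Nat.le_ceil _
  have hl2 : (⌈2 * D / c * Real.log k⌉₊ : ℝ) < 2 * D / c * Real.log k + 1 :=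
    Nat.ceil_lt_add_one (by positivity)
  generalize ⌈2 * D / c * Real.log k⌉₊ = l at hl1 hl2
  have hik := num1 hk8 him
  have hq0 : 0 < 8 * (((i : ℝ) + 1) * (i + 2)) := by positivity
  generalize 8 * (((i : ℝ) + 1) * (i + 2)) = q at hik hq0 ⊢
  have hK1 : (2 : ℝ) ^ i / q ≤ ⌈(2 : ℝ) ^ i / q⌉₊ := Nat.le_ceil _
  have ht0 : 0 < (1 / 2 : ℝ) ^ (i + 1) := by positivity
  have h8l := num2 hD0 hx1 hl2 hq0 hik hi
  have h8l' : 2 * 3 ^ l ≤ ⌈(2 : ℝ) ^ i / q⌉₊ := by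
    have : ((2 * 3 ^ l : ℕ) : ℝ) ≤ (⌈(2 : ℝ) ^ i / q⌉₊ : ℝ) := by
      push_cast
      exact h8l.trans hK1
    exact_mod_cast this
  have hmain := CntM.card_tiny (G := G) (ι := Fin m) hb0 hb4 ht0 h8l'
  have hKt : 1 / (4 * q) ≤ (⌈(2 : ℝ) ^ i / q⌉₊ : ℝ) * (1 / 2 : ℝ) ^ (i + 1) / 2 := by
    have h1 : (2 : ℝ) ^ i / q * (1 / 2 : ℝ) ^ (i + 1) / 2 = 1 / (4 * q) := by
      rw [pow_succ]
      have : (2 : ℝ) ^ i * (1 / 2) ^ i = 1 := by rw [← mul_pow]; norm_num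
      field_simp
      linarith
    rw [← h1]
    have := mul_le_mul_of_nonneg_right hK1 ht0.le
    linarith
  have hset : (univ.filter fun y : Fin m → G =>
        (2 : ℝ) ^ i / q ≤ (CntM.Lam (1 / M) y ((1 / 2 : ℝ) ^ (i + 1))).card) =
      univ.filter fun y : Fin m → G =>
        ⌈(2 : ℝ) ^ i / q⌉₊ ≤ (CntM.Lam (1 / M) y ((1 / 2 : ℝ) ^ (i + 1))).card := by
    ext y
    simp only [mem_filter, mem_univ, true_and]
    rw [Nat.ceil_le]
  rw [hset]
  have hg0 : (0 : ℝ) < (Fintype.card G : ℝ) := by exact_mod_cast Fintype.card_pos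
  have hβ : (0 : ℝ) ≤ 1 - 2 * (1 / M) := by linarith
  rw [hb] at hcard
  refine num3 hg0 hq0 hc hkpos ?_ hkk hik hl1
  generalize (Fintype.card G : ℝ) = g at hmain hcard hg0 ⊢
  calc _ ≤ ((univ.filter fun y : Fin m → G =>
        ⌈(2 : ℝ) ^ i / q⌉₊ ≤ (CntM.Lam (1 / M) y ((1 / 2 : ℝ) ^ (i + 1))).card).card : ℝ) *
          ((⌈(2 : ℝ) ^ i / q⌉₊ : ℝ) * (1 / 2 : ℝ) ^ (i + 1) / 2) ^ l := by
        apply mul_le_mul_of_nonneg_left _ (Nat.cast_nonneg _)
        exact pow_le_pow_left₀ (by positivity) hKt l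
    _ ≤ g ^ l * (g * (1 - 2 * (1 / M)) ^ l) ^ m := by simpa using hmain
    _ = g ^ m * (g * (1 - 2 * (1 / M)) ^ m) ^ l := by
        rw [mul_pow, mul_pow, ← pow_mul, ← pow_mul, mul_comm l m]; ring
    _ ≤ g ^ m * (Real.exp (-c * k)) ^ l := by
        apply mul_le_mul_of_nonneg_left _ (by positivity)
        exact pow_le_pow_left₀ (by positivity) hcard l

theorem dyadic_pt {x : ℝ} {i0 k : ℕ} (hx0 : 0 ≤ x) (hx1 : x < (1 / 2) ^ i0) :
    x ≤ ∑ i ∈ Icc i0 (k + 1), (if (1 / 2 : ℝ) ^ (i + 1) ≤ x then (1 / 2 : ℝ) ^ i else 0) +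
      (1 / 2) ^ (k + 2) := by
  have hnn : 0 ≤ ∑ i ∈ Icc i0 (k + 1),
      (if (1 / 2 : ℝ) ^ (i + 1) ≤ x then (1 / 2 : ℝ) ^ i else 0) :=
    sum_nonneg fun i _ => by split_ifs <;> positivity
  by_cases h : x ≤ (1 / 2) ^ (k + 2)
  · linarith
  · have h1 : (1 / 2 : ℝ) ^ (k + 2) < x := not_le.1 h
    have hx1' : x ≤ 1 := hx1.le.trans (pow_le_one₀ (by norm_num) (by norm_num))
    obtain ⟨i, hi, h3, h4⟩ := FlatD.exists_level h1.le hx1'
    have hik : i ≤ k + 1 := by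
      by_contra hcon
      have : k + 2 ≤ i := by omega
      have h5 : (1 / 2 : ℝ) ^ i ≤ (1 / 2) ^ (k + 2) :=
        pow_le_pow_of_le_one (by norm_num) (by norm_num) this
      linarith
    have hi0 : i0 ≤ i := by
      by_contra hcon
      have : i + 1 ≤ i0 := by omega
      have h5 : (1 / 2 : ℝ) ^ i0 ≤ (1 / 2) ^ (i + 1) :=
        pow_le_pow_of_le_one (by norm_num) (by norm_num) this
      linarith
    have h6 := Finset.single_le_sum (f := fun i => if (1 / 2 : ℝ) ^ (i + 1) ≤ x then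
      (1 / 2 : ℝ) ^ i else 0) (fun i _ => by split_ifs <;> positivity)
      (mem_Icc.2 ⟨hi0, hik⟩)
    simp only [h3, if_true] at h6
    have : (0 : ℝ) < (1 / 2) ^ (k + 2) := by positivity
    linarith

theorem tele (a n : ℕ) :
    ∑ i ∈ Icc a n, (1 : ℝ) / (8 * (((i : ℝ) + 1) * ((i : ℝ) + 2))) ≤ 1 / 8 := by
  have h1 := FlatD.sum_tele (n + 1)
  have h2 : ∑ i ∈ Icc a n, (1 : ℝ) / (8 * (((i : ℝ) + 1) * ((i : ℝ) + 2))) ≤
      ∑ i ∈ range (n + 1), (1 : ℝ) / (8 * (((i : ℝ) + 1) * ((i : ℝ) + 2))) := by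
    apply sum_le_sum_of_subset_of_nonneg
    · intro i hi
      rw [mem_Icc] at hi
      rw [mem_range]; omega
    · intro i _ _; positivity
  have h3 : ∑ i ∈ range (n + 1), (1 : ℝ) / (8 * (((i : ℝ) + 1) * ((i : ℝ) + 2))) =
      (1 / 8) * ∑ i ∈ range (n + 1), (1 : ℝ) / (((i : ℝ) + 1) * ((i : ℝ) + 2)) := by
    rw [mul_sum]
    refine sum_congr rfl fun i _ => ?_
    have : ((i : ℝ) + 1) * ((i : ℝ) + 2) ≠ 0 := by positivity
    field_simp
  rw [h3, h1] at h2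
  have : (0 : ℝ) ≤ 1 / (((n + 1 : ℕ) : ℝ) + 1) := by positivity
  linarith

/-- if many small characters matter then one dyadic level is large -/
theorem exists_big (M : ℕ) (hM : 4 ≤ M) {G : Type} [AddCommGroup G] [Fintype G] [DecidableEq G]
    {m k i0 : ℕ} (hG : (Fintype.card G : ℝ) ≤ 2 ^ k) (y : Fin m → G) {T : ℝ} (hT : 1 ≤ T)
    (h1 : T ≤ gZ M y)
    (h2 : ((univ.filter fun ψ : AddChar G ℂ => (1 / 2 : ℝ) ^ i0 ≤ gP M y ψ).card : ℝ) < T / 2) :
    ∃ i ∈ Icc i0 (k + 1), (2 : ℝ) ^ i / (8 * ((i + 1) * (i + 2))) ≤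
      (CntM.Lam (1 / M) y ((1 / 2) ^ (i + 1))).card := by
  by_contra hcon
  push Not at hcon
  have hnn : ∀ ψ : AddChar G ℂ, 0 ≤ gP M y ψ := fun ψ =>
    prod_nonneg fun e _ => cf_nonneg hM (AddChar.norm_apply ψ _)
  have hle1 : ∀ ψ : AddChar G ℂ, gP M y ψ ≤ 1 := fun ψ =>
    prod_le_one (fun e _ => cf_nonneg hM (AddChar.norm_apply ψ _))
      fun e _ => cf_le_one (AddChar.norm_apply ψ _)
  have hg1 : gP M y 0 = 1 := by
    unfold gP
    simp [cf]
  set S := univ.filter fun ψ : AddChar G ℂ => (1 / 2 : ℝ) ^ i0 ≤ gP M y ψ with hS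
  have hsplit : gZ M y = ∑ ψ ∈ S, gP M y ψ + ∑ ψ ∈ univ.filter (fun ψ : AddChar G ℂ =>
      ¬ (1 / 2 : ℝ) ^ i0 ≤ gP M y ψ), gP M y ψ := by
    unfold gZ
    rw [hS, sum_filter_add_sum_filter_not]
  have hS1 : ∑ ψ ∈ S, gP M y ψ ≤ S.card := by
    calc ∑ ψ ∈ S, gP M y ψ ≤ ∑ ψ ∈ S, (1 : ℝ) := sum_le_sum fun ψ _ => hle1 ψ
      _ = _ := by simp
  have hS2 : ∑ ψ ∈ univ.filter (fun ψ : AddChar G ℂ =>
      ¬ (1 / 2 : ℝ) ^ i0 ≤ gP M y ψ), gP M y ψ ≤
      ∑ i ∈ Icc i0 (k + 1), (1 / 2 : ℝ) ^ i *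
        (CntM.Lam (1 / M) y ((1 / 2) ^ (i + 1))).card + 1 / 4 := by
    calc ∑ ψ ∈ univ.filter (fun ψ : AddChar G ℂ => ¬ (1 / 2 : ℝ) ^ i0 ≤ gP M y ψ), gP M y ψ
        ≤ ∑ ψ ∈ univ.filter (fun ψ : AddChar G ℂ => ¬ (1 / 2 : ℝ) ^ i0 ≤ gP M y ψ),
          (∑ i ∈ Icc i0 (k + 1), (if ψ ∈ CntM.Lam (1 / M) y ((1 / 2) ^ (i + 1)) then
            (1 / 2 : ℝ) ^ i else 0) + (1 / 2) ^ (k + 2)) := by
          refine sum_le_sum fun ψ hψ => ?_
          have hψ' : gP M y ψ < (1 / 2) ^ i0 := not_le.1 (mem_filter.1 hψ).2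
          have hne : ψ ≠ 0 := by
            rintro rfl
            rw [hg1] at hψ'
            have : (1 / 2 : ℝ) ^ i0 ≤ 1 := pow_le_one₀ (by norm_num) (by norm_num)
            linarith
          refine (dyadic_pt (k := k) (hnn ψ) hψ').trans ?_
          apply add_le_add _ le_rfl
          refine sum_le_sum fun i _ => ?_
          have : (ψ ∈ CntM.Lam (1 / M) y ((1 / 2) ^ (i + 1))) ↔ (1 / 2 : ℝ) ^ (i + 1) ≤ gP M y ψ := by
            unfold CntM.Lam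
            simp only [mem_filter, mem_univ, true_and, gP_eq_PPi]
            exact ⟨fun h => h.2, fun h => ⟨hne, h⟩⟩
          by_cases h : (1 / 2 : ℝ) ^ (i + 1) ≤ gP M y ψ
          · rw [if_pos h, if_pos (this.2 h)]
          · rw [if_neg h, if_neg (fun h' => h (this.1 h'))]
      _ ≤ ∑ ψ : AddChar G ℂ,
          (∑ i ∈ Icc i0 (k + 1), (if ψ ∈ CntM.Lam (1 / M) y ((1 / 2) ^ (i + 1)) then
            (1 / 2 : ℝ) ^ i else 0) + (1 / 2) ^ (k + 2)) := by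
          apply sum_le_sum_of_subset_of_nonneg (filter_subset _ _)
          intro ψ _ _
          have : 0 ≤ ∑ i ∈ Icc i0 (k + 1), (if ψ ∈ CntM.Lam (1 / M) y ((1 / 2) ^ (i + 1)) then
            (1 / 2 : ℝ) ^ i else 0) := sum_nonneg fun i _ => by split_ifs <;> positivity
          positivity
      _ = ∑ i ∈ Icc i0 (k + 1), (1 / 2 : ℝ) ^ i *
          (CntM.Lam (1 / M) y ((1 / 2) ^ (i + 1))).card +
          Fintype.card G * (1 / 2) ^ (k + 2) := by
          rw [sum_add_distrib, sum_comm]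
          congr 1
          · refine sum_congr rfl fun i _ => ?_
            rw [sum_ite_mem, univ_inter, sum_const, nsmul_eq_mul, mul_comm]
          · rw [sum_const, nsmul_eq_mul, card_univ, AddChar.card_eq]
      _ ≤ _ := by
          apply add_le_add le_rfl
          calc (Fintype.card G : ℝ) * (1 / 2) ^ (k + 2) ≤ 2 ^ k * (1 / 2) ^ (k + 2) :=
                mul_le_mul_of_nonneg_right hG (by positivity)
            _ = 1 / 4 := by
                rw [pow_add, ← mul_assoc, ← mul_pow]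
                norm_num
  have hS3 : ∑ i ∈ Icc i0 (k + 1), (1 / 2 : ℝ) ^ i *
        (CntM.Lam (1 / M) y ((1 / 2) ^ (i + 1))).card ≤ 1 / 8 := by
    refine (sum_le_sum fun i hi => ?_).trans (tele i0 (k + 1))
    have h3 := hcon i hi
    calc (1 / 2 : ℝ) ^ i * (CntM.Lam (1 / M) y ((1 / 2) ^ (i + 1))).card
        ≤ (1 / 2 : ℝ) ^ i * ((2 : ℝ) ^ i / (8 * ((i + 1) * (i + 2)))) :=
          mul_le_mul_of_nonneg_left h3.le (by positivity)
      _ = 1 / (8 * (((i : ℝ) + 1) * ((i : ℝ) + 2))) := by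
          rw [mul_div_assoc', ← mul_pow]
          norm_num
  linarith

/-- THE TAIL -/
theorem tail (M : ℕ) (hM : 4 ≤ M) (c D : ℝ) (hc : 0 < c) (hD : 0 < D) :
    ∃ A : ℝ, 0 < A ∧ ∃ k₀ : ℕ, ∀ k : ℕ, k₀ ≤ k →
    ∀ (G : Type) [AddCommGroup G] [Fintype G] [DecidableEq G] (m : ℕ),
    (Fintype.card G : ℝ) ≤ 2 ^ k →
    (Fintype.card G : ℝ) * (1 - 2 / M) ^ m ≤ Real.exp (-c * k) →
    ∀ T : ℝ, 1 ≤ T →
    ((univ.filter fun y : Fin m → G => T ≤ gZ M y ∧
        ((univ.filter fun ψ : AddChar G ℂ => Real.exp (-(A * Real.log k)) ≤ gP M y ψ).card : ℝ) <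
          T / 2).card : ℝ) ≤
      (Fintype.card G : ℝ) ^ m * Real.exp (-(D * k * Real.log k)) := by
  obtain ⟨A, hA, k₁, hk₁⟩ := level M hM c (D + 1) hc (by linarith)
  refine ⟨A + 1, by linarith, max k₁ 8, ?_⟩
  intro k hk G _ _ _ m hG hcard T hT
  have hk8 : 8 ≤ k := (le_max_right _ _).trans hk
  have hk8' : (8 : ℝ) ≤ k := by exact_mod_cast hk8
  have hx1 : 2 ≤ Real.log k := log_ge_two hk8
  have hkk := hk₁ k ((le_max_left _ _).trans hk) G m hcard
  set i0 : ℕ := ⌊A * Real.log k⌋₊ + 1 with hi0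
  have hi1 : A * Real.log k < i0 := by
    rw [hi0]; push_cast; exact Nat.lt_floor_add_one _
  have hi2 : (i0 : ℝ) ≤ (A + 1) * Real.log k := by
    have := Nat.floor_le (by positivity : 0 ≤ A * Real.log k)
    rw [hi0]; push_cast
    linarith
  have hτ : Real.exp (-((A + 1) * Real.log k)) ≤ (1 / 2 : ℝ) ^ i0 := by
    have h1 : (1 / 2 : ℝ) ^ i0 = Real.exp (-(i0 * Real.log 2)) := by
      rw [Real.exp_neg, Real.exp_nat_mul, Real.exp_log (by norm_num)]
      rw [one_div, inv_pow]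
    rw [h1]
    apply Real.exp_le_exp.2
    have h2 : Real.log 2 ≤ 1 := by have := Real.log_two_lt_d9; linarith
    have h3 : 0 < Real.log 2 := Real.log_pos (by norm_num)
    have h4 : (i0 : ℝ) * Real.log 2 ≤ i0 * 1 := mul_le_mul_of_nonneg_left h2 (Nat.cast_nonneg _)
    linarith
  have hsub : (univ.filter fun y : Fin m → G => T ≤ gZ M y ∧
        ((univ.filter fun ψ : AddChar G ℂ =>
          Real.exp (-((A + 1) * Real.log k)) ≤ gP M y ψ).card : ℝ) < T / 2) ⊆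
      (Icc i0 (k + 1)).biUnion (fun i => univ.filter fun y : Fin m → G =>
        (2 : ℝ) ^ i / (8 * ((i + 1) * (i + 2))) ≤
          (CntM.Lam (1 / M) y ((1 / 2) ^ (i + 1))).card) := by
    intro y hy
    obtain ⟨_, hy1, hy2⟩ := mem_filter.1 hy
    have h3 : ((univ.filter fun ψ : AddChar G ℂ => (1 / 2 : ℝ) ^ i0 ≤ gP M y ψ).card : ℝ) <
        T / 2 := by
      refine lt_of_le_of_lt ?_ hy2
      have : (univ.filter fun ψ : AddChar G ℂ => (1 / 2 : ℝ) ^ i0 ≤ gP M y ψ) ⊆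
          univ.filter fun ψ : AddChar G ℂ =>
            Real.exp (-((A + 1) * Real.log k)) ≤ gP M y ψ := by
        intro ψ hψ
        rw [mem_filter] at hψ ⊢
        exact ⟨hψ.1, hτ.trans hψ.2⟩
      exact_mod_cast card_le_card this
    obtain ⟨i, hi, h4⟩ := exists_big M hM hG y hT hy1 h3
    rw [mem_biUnion]
    exact ⟨i, hi, mem_filter.2 ⟨mem_univ _, h4⟩⟩
  have hg0 : (0 : ℝ) < (Fintype.card G : ℝ) := by exact_mod_cast Fintype.card_pos
  calc _ ≤ (((Icc i0 (k + 1)).biUnion (fun i => univ.filter fun y : Fin m → G =>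
        (2 : ℝ) ^ i / (8 * ((i + 1) * (i + 2))) ≤
          (CntM.Lam (1 / M) y ((1 / 2) ^ (i + 1))).card)).card : ℝ) := by
        exact_mod_cast card_le_card hsub
    _ ≤ ∑ i ∈ Icc i0 (k + 1), ((univ.filter fun y : Fin m → G =>
        (2 : ℝ) ^ i / (8 * ((i + 1) * (i + 2))) ≤
          (CntM.Lam (1 / M) y ((1 / 2) ^ (i + 1))).card).card : ℝ) := by
        exact_mod_cast card_biUnion_le
    _ ≤ ∑ i ∈ Icc i0 (k + 1), ((Fintype.card G : ℝ) ^ m *
        Real.exp (-((D + 1) * k * Real.log k))) := by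
        refine sum_le_sum fun i hi => ?_
        rw [mem_Icc] at hi
        refine hkk i (lt_of_lt_of_le hi1 (by exact_mod_cast hi.1)) hi.2
    _ = ((Icc i0 (k + 1)).card : ℝ) * ((Fintype.card G : ℝ) ^ m *
        Real.exp (-((D + 1) * k * Real.log k))) := by rw [sum_const, nsmul_eq_mul]
    _ ≤ Real.exp (k * Real.log k) * ((Fintype.card G : ℝ) ^ m *
        Real.exp (-((D + 1) * k * Real.log k))) := by
        apply mul_le_mul_of_nonneg_right _ (by positivity)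
        have h1 : ((Icc i0 (k + 1)).card : ℝ) ≤ k + 2 := by
          rw [Nat.card_Icc]
          have : k + 1 + 1 - i0 ≤ k + 2 := by omega
          exact_mod_cast this
        have h2 := Real.add_one_le_exp (k * Real.log k)
        nlinarith
    _ = (Fintype.card G : ℝ) ^ m * (Real.exp (k * Real.log k) *
        Real.exp (-((D + 1) * k * Real.log k))) := by ring
    _ = _ := by
        rw [← Real.exp_add]
        congr 2
        ring

end Vale.Agent.P160.Half.MC
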