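import Vale.Agent.P160.Half.MC743c
import Vale.Agent.P160.Half.FlatF
import Vale.Agent.P160.Half.FlatL
import Vale.Agent.P160.Half.FlatD

/-! P160 (M): LEMMA MC of note 11331, unconditional. -/

namespace Vale.Agent.P160.Half.Flat.MC743

open Vale.Agent.P160.Half.Flat

/-- LEMMA MC -/
theorem mc743 : StmtMC := stmtMC743 Spl.stmtSplit stmtLarge FlatD.stmtDyadic

end Vale.Agent.P160.Half.Flat.MC743
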