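import Vale.Agent.P160.Half.M67Close
import Vale.Agent.P160.Half.Sparse807
import Vale.Agent.P160.Half.MomTop836
import Vale.Agent.P160.Half.MProd358
import Vale.Agent.P160.Half.DetCor428

/-! # P160, rate 1/2, part (M): closing (helper259).  Nothing here imports the old rate `1/√2`. -/

namespace Vale.Agent.P160.Half.MFin

/-- the i.i.d. part -/
theorem xi (b₁ B : ℝ) (h1 : 1 ≤ b₁) (h2 : b₁ ≤ B) : M8.StmtXi b₁ (1 / 8) (3 / 5) B :=
  M67.close (by norm_num) le_rfl MomTop836.mom3 Sp807.stmtSparse b₁ (3 / 5) B h1 h2 (by norm_num)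

/-- part (M) without loss, for all `b₁ ∈ [1.99, 2)`, from `Cor1 (1/4)` (few singular matrices) -/
theorem stmtM (h14 : F.Cor1 (1 / 4)) (b₁ : ℝ) (h1 : 199 / 100 ≤ b₁) (h2 : b₁ < 2) : MTop.StmtM b₁ 0 :=
  MProd.stmtM_prod b₁ (by linarith) (DetCor428.rowHyp h14 b₁ h1 fun B hB => xi b₁ B (by linarith) (by linarith))

end Vale.Agent.P160.Half.MFin
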