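import Vale.Agent.P160.Half.CorkOne
import Vale.Agent.P160.Half.LODig3
import Vale.Agent.P160.Half.HadN

/-!
# P160, safety net: the number of large primes at which a symmetric 0/1 matrix has corank `≥ 2`

`row_sum` : for a nonsingular integer 0/1 matrix `Q` of size `m`, the average over `y ∈ {0,1}^m` of
`s ^ #{p ≥ B : ker_p Q ≠ 0, y ⊥ ker_p Q}` is at most `2^{O(n / log n)} (1 + (s-1)/16)^{n/4}`.
-/

set_option linter.unusedSectionVars false

namespace Vale.Agent.P160.Half.ML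

open Finset Matrix Vale.Agent.P160

/-- 0/1 dot product -/
def bd {R ι : Type*} [CommRing R] [Fintype ι] (x : ι → Bool) (w : ι → R) : R :=
  ∑ i, if x i then w i else 0

/-! ### Chinese remainder -/

/-- a vector modulo a squarefree number from vectors modulo its prime factors -/
theorem exists_crt {ι : Type*} (F : Finset ℕ) (hF : ∀ p ∈ F, p.Prime) (u : ∀ p : ℕ, ι → ZMod p) :
    ∃ w : ι → ℤ, ∀ p ∈ F, ∀ i, ((w i : ℤ) : ZMod p) = u p i := by
  classical
  have h : ∀ i, ∃ z : ℤ, ∀ p ∈ F, ((z : ℤ) : ZMod p) = u p i := by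
    intro i
    have hcop : (F : Set ℕ).Pairwise (Function.onFun Nat.Coprime fun p => p) := by
      intro p hp q hq hpq
      exact (Nat.coprime_primes (hF p hp) (hF q hq)).2 hpq
    obtain ⟨k, hk⟩ := Nat.chineseRemainderOfFinset (fun p => (u p i).val) (fun p => p) F
      (fun p hp => (hF p hp).ne_zero) hcop
    refine ⟨k, fun p hp => ?_⟩
    have h1 := hk p hp
    have : NeZero p := ⟨(hF p hp).ne_zero⟩
    have h2 : ((k : ℕ) : ZMod p) = (((u p i).val : ℕ) : ZMod p) :=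
      (ZMod.natCast_eq_natCast_iff _ _ _).2 h1
    rw [ZMod.natCast_val, ZMod.cast_id] at h2
    simpa using h2
  choose w hw using h
  exact ⟨w, fun p hp i => hw i p hp⟩

/-- an integer vector which is nonzero modulo every prime factor of `N` is surjective mod `N` -/
theorem surj_of_ne {m N : ℕ} [NeZero N] (w : Fin m → ℤ)
    (hw : ∀ p : ℕ, p.Prime → p ∣ N → ∃ i, ((w i : ℤ) : ZMod p) ≠ 0) (a : ZMod N) :
    ∃ z : Fin m → ℤ, LODig.pr (fun i => ((w i : ℤ) : ZMod N)) z = a := by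
  classical
  -- the ideal of ℤ generated by `N` and the `w i`
  set I : Ideal ℤ := Ideal.span (Set.range w) ⊔ Ideal.span {(N : ℤ)} with hI
  have hItop : I = ⊤ := by
    by_contra hne
    obtain ⟨g, hg⟩ : ∃ g : ℤ, I = Ideal.span {g} := ⟨_, (Submodule.IsPrincipal.span_singleton_generator I).symm⟩
    have hNI : (N : ℤ) ∈ I := by
      rw [hI]
      exact Ideal.mem_sup_right (Ideal.mem_span_singleton_self _)
    have hwI : ∀ i, w i ∈ I := fun i => by
      rw [hI]
      exact Ideal.mem_sup_left (Ideal.subset_span ⟨i, rfl⟩)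
    rw [hg] at hNI hwI hne
    have hg1 : g.natAbs ≠ 1 := by
      intro h1
      apply hne
      rw [Ideal.span_singleton_eq_top]
      exact Int.isUnit_iff_natAbs_eq.2 h1
    obtain ⟨p, hp, hpg⟩ := Nat.exists_prime_and_dvd hg1
    have hpg' : (p : ℤ) ∣ g := Int.natCast_dvd.2 hpg
    have hpN : p ∣ N := by
      have := hpg'.trans (Ideal.mem_span_singleton.1 hNI)
      exact_mod_cast this
    obtain ⟨i, hi⟩ := hw p hp hpN
    apply hi
    rw [ZMod.intCast_zmod_eq_zero_iff_dvd]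
    exact hpg'.trans (Ideal.mem_span_singleton.1 (hwI i))
  have h1 : (a.val : ℤ) ∈ I := by rw [hItop]; trivial
  rw [hI, Submodule.mem_sup] at h1
  obtain ⟨x, hx, y, hy, hxy⟩ := h1
  obtain ⟨c, hc⟩ := Ideal.mem_span_range_iff_exists_fun.1 hx
  refine ⟨c, ?_⟩
  have h2 : ((y : ℤ) : ZMod N) = 0 := by
    rw [ZMod.intCast_zmod_eq_zero_iff_dvd]
    exact Ideal.mem_span_singleton.1 hy
  have h3 : (((∑ i, c i * w i) + y : ℤ) : ZMod N) = a := by
    rw [hc, hxy]
    simp
  rw [Int.cast_add, h2, add_zero, Int.cast_sum] at h3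
  rw [← h3]
  unfold LODig.pr
  exact sum_congr rfl fun i _ => by push_cast; ring

/-! ### One row -/

/-- Littlewood–Offord for a set `F` of large primes: `A` a nonsingular integer 0/1 matrix, `u p` a
nonzero kernel vector modulo `p` for every `p ∈ F`.  The number of 0/1 vectors orthogonal to all the
`u p`. -/
theorem lo_set {m j B : ℕ} (hm : 1 ≤ m) (A : Matrix (Fin m) (Fin m) ℤ)
    (hA : ∀ i k, |A i k| ≤ 1) (hdet : A.det ≠ 0) (F : Finset ℕ) (hF : ∀ p ∈ F, p.Prime)
    (hFB : ∀ p ∈ F, B ≤ p) (u : ∀ p : ℕ, Fin m → ZMod p) (hu0 : ∀ p ∈ F, u p ≠ 0)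
    (hu : ∀ p ∈ F, A.map (Int.cast : ℤ → ZMod p) *ᵥ u p = 0)
    (hj : (2 : ℝ) ^ j ≤ 2 * Real.sqrt m) :
    (B : ℝ) ^ F.card * (((univ : Finset (Fin m → Bool)).filter
      fun y => ∀ p ∈ F, bd y (u p) = 0).card : ℝ) ^ j ≤
      (Real.exp (5 / 2) * (1 + 2 * Real.sqrt m)) ^ m := by
  classical
  set N : ℕ := ∏ p ∈ F, p with hN
  have hN0 : N ≠ 0 := prod_ne_zero_iff.2 fun p hp => (hF p hp).ne_zero
  have : NeZero N := ⟨hN0⟩
  obtain ⟨w, hw⟩ := exists_crt F hF u
  have hprime : ∀ p : ℕ, p.Prime → p ∣ N → p ∈ F := by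
    intro p hp hpN
    rw [hN, hp.prime.dvd_finsetProd_iff] at hpN
    obtain ⟨q, hq, hpq⟩ := hpN
    rwa [(Nat.prime_dvd_prime_iff_eq hp (hF q hq)).1 hpq]
  -- `N` divides an integer iff every `p` does
  have hdvd : ∀ z : ℤ, (∀ p ∈ F, ((z : ℤ) : ZMod p) = 0) → ((z : ℤ) : ZMod N) = 0 := by
    intro z hz
    rw [ZMod.intCast_zmod_eq_zero_iff_dvd, hN]
    push_cast
    apply Finset.prod_dvd_of_coprime
    · intro p hp q hq hpq
      exact (Nat.isCoprime_iff_coprime.2 ((Nat.coprime_primes (hF p hp) (hF q hq)).2 hpq))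
    · intro p hp
      rw [← ZMod.intCast_zmod_eq_zero_iff_dvd]
      exact hz p hp
  have hsurj : ∀ a : ZMod N, ∃ z : Fin m → ℤ, LODig.pr (fun i => ((w i : ℤ) : ZMod N)) z = a := by
    apply surj_of_ne
    intro p hp hpN
    have hpF := hprime p hp hpN
    by_contra hcon
    push Not at hcon
    apply hu0 p hpF
    funext i
    rw [← hw p hpF i, hcon i]
    rfl
  set Xb := (univ : Finset (Fin m → Bool)).filter fun y => ∀ p ∈ F, bd y (u p) = 0 with hXb
  set X : Finset (Fin m → ℤ) := Xb.image fun y i => if y i then (1 : ℤ) else 0 with hX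
  have hXcard : X.card = Xb.card := by
    apply card_image_of_injective
    intro y y' h
    funext i
    have h1 := congrFun h i
    by_cases h2 : y i = true <;> by_cases h3 : y' i = true <;> simp_all
  have key := LODig.lo_span (m := m) (N := N) (j := j) hm (fun i => ((w i : ℤ) : ZMod N)) hsurj
    (Set.range A) (by
      rintro r ⟨i, rfl⟩
      calc ∑ c, ((A i c : ℤ) : ℝ) ^ 2 ≤ ∑ _c : Fin m, (1 : ℝ) := by
            refine sum_le_sum fun c _ => ?_
            have h1 : |((A i c : ℤ) : ℝ)| ≤ 1 := by exact_mod_cast hA i c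
            have h2 := sq_le_one_iff_abs_le_one _ |>.2 h1
            exact h2
        _ = m := by simp)
    (by
      rintro r ⟨i, rfl⟩
      have h1 : LODig.pr (fun i => ((w i : ℤ) : ZMod N)) (A i) = (((∑ c, A i c * w c : ℤ)) : ZMod N) := by
        unfold LODig.pr
        push_cast
        rfl
      rw [h1]
      apply hdvd
      intro p hp
      have h2 := congrFun (hu p hp) i
      simp only [mulVec, dotProduct, map_apply, Pi.zero_apply] at h2
      push_cast
      rw [← h2]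
      exact sum_congr rfl fun c _ => by rw [hw p hp c])
    0 X (by
      intro x hx c
      rw [hX, mem_image] at hx
      obtain ⟨y, -, rfl⟩ := hx
      by_cases h : y c = true
      · exact Or.inr (by simp [h])
      · exact Or.inl (by simp [h]))
    (by
      intro x hx
      rw [hX, mem_image] at hx
      obtain ⟨y, hy, rfl⟩ := hx
      rw [hXb, mem_filter] at hy
      have h1 : LODig.pr (fun i => ((w i : ℤ) : ZMod N)) (fun i => if y i then (1 : ℤ) else 0) =
          (((∑ c, (if y c then w c else 0) : ℤ)) : ZMod N) := by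
        unfold LODig.pr
        push_cast
        refine sum_congr rfl fun c _ => ?_
        split_ifs <;> simp
      rw [h1]
      apply hdvd
      intro p hp
      have h2 := hy.2 p hp
      unfold bd at h2
      push_cast
      refine Eq.trans (sum_congr rfl fun c _ => ?_) h2
      split_ifs
      · exact hw p hp c
      · rfl)
    hj
  rcases key with ⟨v, hv0, hv, -⟩ | key
  · exfalso
    apply hdet
    rw [← Matrix.exists_mulVec_eq_zero_iff]
    refine ⟨v, hv0, ?_⟩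
    funext i
    exact hv (A i) ⟨i, rfl⟩
  · rw [hXcard] at key
    refine le_trans (mul_le_mul_of_nonneg_right ?_ (by positivity)) key
    have h1 : B ^ F.card ≤ N := by
      rw [hN]
      exact Finset.pow_card_le_prod _ _ _ hFB
    exact_mod_cast h1

/-- the same for an arbitrary index type -/
theorem lo_set' {ι : Type*} [Fintype ι] [DecidableEq ι] {j B : ℕ} (hm : 1 ≤ Fintype.card ι)
    (A : Matrix ι ι ℤ) (hA : ∀ i k, |A i k| ≤ 1) (hdet : A.det ≠ 0) (F : Finset ℕ)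
    (hF : ∀ p ∈ F, p.Prime) (hFB : ∀ p ∈ F, B ≤ p) (u : ∀ p : ℕ, ι → ZMod p)
    (hu0 : ∀ p ∈ F, u p ≠ 0) (hu : ∀ p ∈ F, A.map (Int.cast : ℤ → ZMod p) *ᵥ u p = 0)
    (hj : (2 : ℝ) ^ j ≤ 2 * Real.sqrt (Fintype.card ι)) :
    (B : ℝ) ^ F.card * (((univ : Finset (ι → Bool)).filter
      fun y => ∀ p ∈ F, bd y (u p) = 0).card : ℝ) ^ j ≤
      (Real.exp (5 / 2) * (1 + 2 * Real.sqrt (Fintype.card ι))) ^ Fintype.card ι := by
  classical
  let e : Fin (Fintype.card ι) ≃ ι := (Fintype.equivFin ι).symm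
  have h1 := lo_set (B := B) hm (A.submatrix e e) (fun i k => hA _ _) (by
    rw [det_submatrix_equiv_self]; exact hdet) F hF hFB (fun p i => u p (e i))
    (fun p hp h => hu0 p hp (by
      funext i
      have := congrFun h (e.symm i)
      simpa using this))
    (fun p hp => by
      funext i
      have h2 := congrFun (hu p hp) (e i)
      simp only [mulVec, dotProduct, map_apply, Pi.zero_apply, submatrix_apply] at h2 ⊢
      rw [← h2]
      exact Equiv.sum_comp e (fun c => ((A (e i) c : ℤ) : ZMod p) * u p c)) hj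
  convert h1 using 4
  refine card_bij (fun y _ => y ∘ e) ?_ ?_ ?_
  · intro y hy
    rw [mem_filter] at hy ⊢
    refine ⟨mem_univ _, fun p hp => ?_⟩
    rw [← hy.2 p hp]
    unfold bd
    exact Equiv.sum_comp e (fun c => if y c then u p c else 0)
  · intro y _ y' _ h
    funext i
    have := congrFun h (e.symm i)
    simpa using this
  · intro y hy
    refine ⟨y ∘ e.symm, ?_, ?_⟩
    · rw [mem_filter] at hy ⊢
      refine ⟨mem_univ _, fun p hp => ?_⟩
      rw [← hy.2 p hp]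
      unfold bd
      rw [← Equiv.sum_comp e]
      refine sum_congr rfl fun c _ => ?_
      simp
    · funext i
      simp

/-- numerical form -/
theorem lo_num {ι : Type*} [Fintype ι] [DecidableEq ι] {j n : ℕ} (hj1 : 1 ≤ j)
    (hm : 1 ≤ Fintype.card ι) (hmn : Fintype.card ι ≤ n)
    (A : Matrix ι ι ℤ) (hA : ∀ i k, |A i k| ≤ 1) (hdet : A.det ≠ 0) (F : Finset ℕ)
    (hFn : 4 * F.card ≤ n)
    (hF : ∀ p ∈ F, p.Prime) (hFB : ∀ p ∈ F, n ^ 2 ≤ p) (u : ∀ p : ℕ, ι → ZMod p)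
    (hu0 : ∀ p ∈ F, u p ≠ 0) (hu : ∀ p ∈ F, A.map (Int.cast : ℤ → ZMod p) *ᵥ u p = 0)
    (hj : (2 : ℝ) ^ j ≤ 2 * Real.sqrt (Fintype.card ι))
    (hj' : Real.sqrt (Fintype.card ι) < (2 : ℝ) ^ j) :
    (((univ : Finset (ι → Bool)).filter fun y => ∀ p ∈ F, bd y (u p) = 0).card : ℝ) ≤
      2 ^ Fintype.card ι * (2 : ℝ) ^ ((7 : ℝ) * n / j) * (1 / 16) ^ F.card := by
  classical
  set m := Fintype.card ι with hm'
  have key := lo_set' (B := n ^ 2) hm A hA hdet F hF hFB u hu0 hu hj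
  rw [← hm'] at key
  set x : ℝ := (((univ : Finset (ι → Bool)).filter fun y => ∀ p ∈ F, bd y (u p) = 0).card : ℝ)
    with hx
  have hx0 : 0 ≤ x := Nat.cast_nonneg _
  have hm1 : (1 : ℝ) ≤ m := by exact_mod_cast hm
  have hs1 : 1 ≤ Real.sqrt m := Real.one_le_sqrt.2 hm1
  have hjpos : (0 : ℝ) < j := by exact_mod_cast hj1
  -- bound of the constant
  have hK : Real.exp (5 / 2) * (1 + 2 * Real.sqrt m) ≤ (2 : ℝ) ^ (j + 6) := by
    have h1 : Real.exp (5 / 2) ≤ 21 := by
      have h2 : Real.exp (5 / 2) = Real.exp 1 ^ 2 * Real.exp (1 / 2) := by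
        rw [← Real.exp_nat_mul, ← Real.exp_add]; norm_num
      have h3 : Real.exp 1 < 2.7182818286 := Real.exp_one_lt_d9
      have h4 : Real.exp (1 / 2) ≤ Real.exp 1 := Real.exp_le_exp.2 (by norm_num)
      have h5 : 0 < Real.exp 1 := Real.exp_pos 1
      rw [h2]
      have h6 : Real.exp 1 ^ 2 ≤ 2.7182818286 ^ 2 := by gcongr
      calc Real.exp 1 ^ 2 * Real.exp (1 / 2) ≤ 2.7182818286 ^ 2 * 2.7182818286 := by
            apply mul_le_mul h6 (h4.trans h3.le) (Real.exp_pos _).le (by positivity)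
        _ ≤ 21 := by norm_num
    have h7 : 1 + 2 * Real.sqrt m ≤ 3 * (2 : ℝ) ^ j := by linarith
    calc Real.exp (5 / 2) * (1 + 2 * Real.sqrt m) ≤ 21 * (3 * (2 : ℝ) ^ j) := by
          apply mul_le_mul h1 h7 (by positivity) (by norm_num)
      _ ≤ (2 : ℝ) ^ (j + 6) := by
          rw [pow_add]
          have : (0 : ℝ) < 2 ^ j := by positivity
          nlinarith
  -- `16 ^ (j - 1) ≤ n ^ 2`
  have hB : (16 : ℝ) ^ j ≤ 16 * (n : ℝ) ^ 2 := by
    have h1 : ((2 : ℝ) ^ j) ^ 4 ≤ (2 * Real.sqrt m) ^ 4 := by gcongr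
    have h2 : (2 * Real.sqrt m) ^ 4 = 16 * (m : ℝ) ^ 2 := by
      have : Real.sqrt m ^ 2 = m := Real.sq_sqrt (by positivity)
      calc (2 * Real.sqrt m) ^ 4 = 16 * (Real.sqrt m ^ 2) ^ 2 := by ring
        _ = _ := by rw [this]
    have h3 : (m : ℝ) ≤ n := by exact_mod_cast hmn
    have h4 : ((2 : ℝ) ^ j) ^ 4 = (16 : ℝ) ^ j := by
      rw [← pow_mul, mul_comm, pow_mul]; norm_num
    rw [← h4]
    refine h1.trans ?_
    rw [h2]
    gcongr
  -- raise to the power `j`
  have h1 : ((16 : ℝ) ^ F.card * x) ^ j ≤ 16 ^ F.card * (2 : ℝ) ^ ((j + 6) * m) := by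
    have h2 : (16 : ℝ) ^ (j * F.card) ≤ 16 ^ F.card * ((n : ℝ) ^ 2) ^ F.card := by
      rw [pow_mul, ← mul_pow]
      gcongr
    have h3 : (((n ^ 2 : ℕ) : ℝ)) ^ F.card * x ^ j ≤ (2 : ℝ) ^ ((j + 6) * m) := by
      refine key.trans ?_
      rw [pow_mul]
      gcongr
    push_cast at h3
    calc ((16 : ℝ) ^ F.card * x) ^ j = (16 : ℝ) ^ (j * F.card) * x ^ j := by
          rw [mul_pow, ← pow_mul, mul_comm F.card j]
      _ ≤ (16 ^ F.card * ((n : ℝ) ^ 2) ^ F.card) * x ^ j := by gcongr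
      _ = 16 ^ F.card * (((n : ℝ) ^ 2) ^ F.card * x ^ j) := by ring
      _ ≤ _ := by gcongr
  have h2 : (16 : ℝ) ^ F.card * (2 : ℝ) ^ ((j + 6) * m) ≤
      ((2 : ℝ) ^ m * (2 : ℝ) ^ ((7 : ℝ) * n / j)) ^ j := by
    have h3 : (16 : ℝ) ^ F.card ≤ 2 ^ n := by
      calc (16 : ℝ) ^ F.card = 2 ^ (4 * F.card) := by rw [pow_mul]; norm_num
        _ ≤ 2 ^ n := pow_le_pow_right₀ (by norm_num) hFn
    have h4 : ((2 : ℝ) ^ ((7 : ℝ) * n / j)) ^ j = 2 ^ (7 * n) := by
      rw [← Real.rpow_natCast, ← Real.rpow_mul (by norm_num), div_mul_cancel₀ _ hjpos.ne',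
        ← Real.rpow_natCast]
      push_cast
      rfl
    rw [mul_pow, h4, ← pow_mul, ← pow_add]
    calc (16 : ℝ) ^ F.card * (2 : ℝ) ^ ((j + 6) * m) ≤ 2 ^ n * (2 : ℝ) ^ ((j + 6) * m) := by gcongr
      _ = 2 ^ (n + (j + 6) * m) := by rw [← pow_add]
      _ ≤ _ := by
          apply pow_le_pow_right₀ (by norm_num)
          nlinarith
  have h3 : (16 : ℝ) ^ F.card * x ≤ (2 : ℝ) ^ m * (2 : ℝ) ^ ((7 : ℝ) * n / j) :=
    (pow_le_pow_iff_left₀ (by positivity) (by positivity) (by omega : j ≠ 0)).1 (h1.trans h2)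
  have h4 : x = (1 / 16) ^ F.card * ((16 : ℝ) ^ F.card * x) := by
    rw [← mul_assoc, ← mul_pow]; norm_num
  rw [h4]
  calc (1 / 16 : ℝ) ^ F.card * ((16 : ℝ) ^ F.card * x) ≤
      (1 / 16 : ℝ) ^ F.card * ((2 : ℝ) ^ m * (2 : ℝ) ^ ((7 : ℝ) * n / j)) := by gcongr
    _ = _ := by ring

end Vale.Agent.P160.Half.ML
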