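import Vale.Agent.P160.Half.MLam613

/-! # P160, safety net: one row and the choice of the deleted index -/

set_option linter.unusedSectionVars false

namespace Vale.Agent.P160.Half.ML

open Finset Matrix Vale.Agent.P160 Vale.Agent.P160.Half.CO

/-- `Q` is singular modulo `p` and `y` is orthogonal to its kernel modulo `p` -/
def Tp {ι : Type*} [Fintype ι] (p : ℕ) (Q : Matrix ι ι ℤ) (y : ι → Bool) : Prop :=
  (∃ u : ι → ZMod p, u ≠ 0 ∧ Q.map (Int.cast : ℤ → ZMod p) *ᵥ u = 0) ∧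
    ∀ u : ι → ZMod p, Q.map (Int.cast : ℤ → ZMod p) *ᵥ u = 0 → bd y u = 0

theorem det_map {ι : Type*} [Fintype ι] [DecidableEq ι] {R : Type*} [CommRing R]
    (Q : Matrix ι ι ℤ) : (Q.map (Int.cast : ℤ → R)).det = ((Q.det : ℤ) : R) := by
  have := (Int.castRingHom R).map_det Q
  simpa using this.symm

theorem exists_ker_iff {ι : Type*} [Fintype ι] [DecidableEq ι] (p : ℕ) (hp : p.Prime)
    (Q : Matrix ι ι ℤ) : (∃ u : ι → ZMod p, u ≠ 0 ∧ Q.map (Int.cast : ℤ → ZMod p) *ᵥ u = 0) ↔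
      (p : ℤ) ∣ Q.det := by
  have : Fact p.Prime := ⟨hp⟩
  rw [Matrix.exists_mulVec_eq_zero_iff, det_map, ZMod.intCast_zmod_eq_zero_iff_dvd]

/-- the large primes dividing the determinant -/
def SP {ι : Type*} [Fintype ι] [DecidableEq ι] (n : ℕ) (Q : Matrix ι ι ℤ) : Finset ℕ :=
  Q.det.natAbs.primeFactors.filter fun p => n ^ 2 ≤ p

theorem mem_SP {ι : Type*} [Fintype ι] [DecidableEq ι] {n : ℕ} {Q : Matrix ι ι ℤ}
    (hdet : Q.det ≠ 0) {p : ℕ} : p ∈ SP n Q ↔ p.Prime ∧ (p : ℤ) ∣ Q.det ∧ n ^ 2 ≤ p := by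
  unfold SP
  rw [mem_filter, Nat.mem_primeFactors_of_ne_zero (Int.natAbs_ne_zero.2 hdet), Int.natCast_dvd]
  tauto

theorem prod_dvd_det {F : Finset ℕ} (hF : ∀ p ∈ F, p.Prime) (c : ℕ) (D : ℤ)
    (h : ∀ p ∈ F, (p : ℤ) ^ c ∣ D) : ((∏ p ∈ F, (p : ℤ) ^ c) : ℤ) ∣ D := by
  apply Finset.prod_dvd_of_coprime
  · intro p hp q hq hpq
    exact (Nat.isCoprime_iff_coprime.2 ((Nat.coprime_primes (hF p hp) (hF q hq)).2 hpq)).pow
  · exact h

theorem card_le_of_det {ι : Type*} [Fintype ι] [DecidableEq ι] {n c : ℕ} (hn : 2 ≤ n)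
    (hmn : Fintype.card ι ≤ n) (Q : Matrix ι ι ℤ) (hQ : ∀ i j, |Q i j| ≤ 1) (hdet : Q.det ≠ 0)
    (F : Finset ℕ) (hF : ∀ p ∈ F, p.Prime) (hFB : ∀ p ∈ F, n ^ 2 ≤ p)
    (h : ∀ p ∈ F, (p : ℤ) ^ c ∣ Q.det) : 4 * c * F.card ≤ n := by
  have h1 := prod_dvd_det hF c Q.det h
  have h2 : ((∏ p ∈ F, (p : ℤ) ^ c)).natAbs ≤ Q.det.natAbs :=
    Nat.le_of_dvd (Int.natAbs_pos.2 hdet) (Int.natAbs_dvd_natAbs.2 h1)
  have h3 : ((∏ p ∈ F, (p : ℤ) ^ c)).natAbs = ∏ p ∈ F, p ^ c := by
    have : (∏ p ∈ F, (p : ℤ) ^ c) = ((∏ p ∈ F, p ^ c : ℕ) : ℤ) := by push_cast; rfl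
    rw [this, Int.natAbs_natCast]
  have h4 : (n ^ 2) ^ (c * F.card) ≤ ∏ p ∈ F, p ^ c := by
    rw [pow_mul]
    apply Finset.pow_card_le_prod
    intro p hp
    exact Nat.pow_le_pow_left (hFB p hp) c
  have h5 := HadN.det_sq_le Q hQ
  have h6 : (Q.det.natAbs) ^ 2 ≤ n ^ n := by
    have h7 : ((Q.det.natAbs : ℤ)) ^ 2 = Q.det ^ 2 := Int.natAbs_sq _
    have h8 : (Q.det.natAbs : ℤ) ^ 2 ≤ ((Fintype.card ι : ℕ) : ℤ) ^ Fintype.card ι := by
      rw [h7]; exact_mod_cast h5
    have h9 : (Q.det.natAbs) ^ 2 ≤ (Fintype.card ι) ^ Fintype.card ι := by exact_mod_cast h8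
    refine h9.trans ((Nat.pow_le_pow_left hmn _).trans (Nat.pow_le_pow_right (by omega) hmn))
  have h10 : n ^ (4 * c * F.card) ≤ n ^ n := by
    calc n ^ (4 * c * F.card) = ((n ^ 2) ^ (c * F.card)) ^ 2 := by
          rw [← pow_mul, ← pow_mul]; congr 1; ring
      _ ≤ (Q.det.natAbs) ^ 2 := Nat.pow_le_pow_left (h4.trans (h3 ▸ h2)) 2
      _ ≤ n ^ n := h6
  exact (Nat.pow_le_pow_iff_right (by omega)).1 h10

theorem card_SP {ι : Type*} [Fintype ι] [DecidableEq ι] {n : ℕ} (hn : 2 ≤ n)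
    (hmn : Fintype.card ι ≤ n) (Q : Matrix ι ι ℤ) (hQ : ∀ i j, |Q i j| ≤ 1) (hdet : Q.det ≠ 0) :
    4 * (SP n Q).card ≤ n := by
  have := card_le_of_det (c := 1) hn hmn Q hQ hdet (SP n Q)
    (fun p hp => ((mem_SP hdet).1 hp).1) (fun p hp => ((mem_SP hdet).1 hp).2.2)
    (fun p hp => by rw [pow_one]; exact ((mem_SP hdet).1 hp).2.1)
  omega

open Classical in
/-- **One row.** -/
theorem row_sum {ι : Type*} [Fintype ι] [DecidableEq ι] {j n : ℕ} (hn : 2 ≤ n) (hj1 : 1 ≤ j)
    (hm : 1 ≤ Fintype.card ι) (hmn : Fintype.card ι ≤ n)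
    (Q : Matrix ι ι ℤ) (hQ : ∀ i k, |Q i k| ≤ 1) (hdet : Q.det ≠ 0)
    (hj : (2 : ℝ) ^ j ≤ 2 * Real.sqrt (Fintype.card ι))
    (hj' : Real.sqrt (Fintype.card ι) < (2 : ℝ) ^ j) (s : ℝ) (hs : 1 ≤ s) :
    ∑ y : ι → Bool, s ^ ((SP n Q).filter fun p => Tp p Q y).card ≤
      2 ^ Fintype.card ι * (2 : ℝ) ^ ((7 : ℝ) * n / j) * (1 + (s - 1) / 16) ^ ((n : ℝ) / 4) := by
  have hS := card_SP hn hmn Q hQ hdet
  set S := SP n Q with hSdef
  have hSp : ∀ p ∈ S, p.Prime := fun p hp => ((mem_SP hdet).1 hp).1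
  have hSB : ∀ p ∈ S, n ^ 2 ≤ p := fun p hp => ((mem_SP hdet).1 hp).2.2
  have hker : ∀ p : ℕ, ∃ u : ι → ZMod p, p ∈ S → u ≠ 0 ∧ Q.map (Int.cast : ℤ → ZMod p) *ᵥ u = 0 := by
    intro p
    by_cases hp : p ∈ S
    · obtain ⟨u, hu⟩ := (exists_ker_iff p (hSp p hp) Q).2 ((mem_SP hdet).1 hp).2.1
      exact ⟨u, fun _ => hu⟩
    · exact ⟨0, fun h => absurd h hp⟩
  choose u hu using hker
  have h1 : ∀ y : ι → Bool, s ^ (S.filter fun p => Tp p Q y).card ≤
      ∑ F ∈ S.powerset, if (∀ p ∈ F, bd y (u p) = 0) then (s - 1) ^ F.card else 0 := by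
    intro y
    have h2 := Finset.sum_pow_mul_eq_add_pow (s - 1) 1 (S.filter fun p => Tp p Q y)
    simp only [one_pow, mul_one, sub_add_cancel] at h2
    rw [← h2]
    have h3 : ∑ F ∈ S.powerset, (if (∀ p ∈ F, bd y (u p) = 0) then (s - 1) ^ F.card else 0) =
        ∑ F ∈ S.powerset.filter (fun F => ∀ p ∈ F, bd y (u p) = 0), (s - 1) ^ F.card := by
      rw [sum_filter]
    rw [h3]
    apply sum_le_sum_of_subset_of_nonneg
    · intro F hF
      rw [mem_powerset] at hF
      rw [mem_filter, mem_powerset]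
      refine ⟨hF.trans (filter_subset _ _), fun p hp => ?_⟩
      have h4 := mem_filter.1 (hF hp)
      exact h4.2.2 _ (hu p h4.1).2
    · intro F _ _
      exact pow_nonneg (by linarith) _
  calc ∑ y : ι → Bool, s ^ (S.filter fun p => Tp p Q y).card
      ≤ ∑ y : ι → Bool, ∑ F ∈ S.powerset,
          (if (∀ p ∈ F, bd y (u p) = 0) then (s - 1) ^ F.card else 0) := sum_le_sum fun y _ => h1 y
    _ = ∑ F ∈ S.powerset, ∑ y : ι → Bool,
          (if (∀ p ∈ F, bd y (u p) = 0) then (s - 1) ^ F.card else 0) := sum_comm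
    _ = ∑ F ∈ S.powerset, (((univ : Finset (ι → Bool)).filter
          fun y => ∀ p ∈ F, bd y (u p) = 0).card : ℝ) * (s - 1) ^ F.card := by
        refine sum_congr rfl fun F _ => ?_
        rw [← sum_filter, sum_const, nsmul_eq_mul]
    _ ≤ ∑ F ∈ S.powerset, (2 ^ Fintype.card ι * (2 : ℝ) ^ ((7 : ℝ) * n / j) * (1 / 16) ^ F.card) *
          (s - 1) ^ F.card := by
        refine sum_le_sum fun F hF => ?_
        rw [mem_powerset] at hF
        refine mul_le_mul_of_nonneg_right ?_ (pow_nonneg (by linarith) _)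
        have hFc := card_le_card hF
        exact lo_num hj1 hm hmn Q hQ hdet F (by omega) (fun p hp => hSp p (hF hp))
          (fun p hp => hSB p (hF hp)) u (fun p hp => (hu p (hF hp)).1)
          (fun p hp => (hu p (hF hp)).2) hj hj'
    _ = 2 ^ Fintype.card ι * (2 : ℝ) ^ ((7 : ℝ) * n / j) *
          ∑ F ∈ S.powerset, ((s - 1) / 16) ^ F.card * 1 ^ (S.card - F.card) := by
        rw [mul_sum]
        refine sum_congr rfl fun F _ => ?_
        have h9 : ((s - 1) / 16) ^ F.card = (1 / 16) ^ F.card * (s - 1) ^ F.card := by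
          rw [← mul_pow]; congr 1; ring
        rw [h9, one_pow]
        ring
    _ = 2 ^ Fintype.card ι * (2 : ℝ) ^ ((7 : ℝ) * n / j) * (1 + (s - 1) / 16) ^ S.card := by
        rw [Finset.sum_pow_mul_eq_add_pow, add_comm]
    _ ≤ _ := by
        apply mul_le_mul_of_nonneg_left _ (by positivity)
        rw [← Real.rpow_natCast]
        apply Real.rpow_le_rpow_of_exponent_le
        · have : 0 ≤ (s - 1) / 16 := div_nonneg (by linarith) (by norm_num)
          linarith
        · have : (4 : ℝ) * (S.card : ℝ) ≤ n := by exact_mod_cast hS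
          linarith

/-! ### The deleted index -/

variable {n : ℕ}

/-- the matrix without the index `i` -/
def sub (i : Fin n) (b : Sym2 (Fin n) → Bool) : Matrix {k // k ≠ i} {k // k ≠ i} ℤ :=
  (matZ b).submatrix Subtype.val Subtype.val

/-- the deleted row -/
def row (i : Fin n) (b : Sym2 (Fin n) → Bool) : {k // k ≠ i} → Bool := fun k => b s(i, k)

theorem sum_split {R : Type*} [AddCommMonoid R] (i : Fin n) (f : Fin n → R) :
    ∑ k, f k = f i + ∑ k : {k // k ≠ i}, f k := by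
  classical
  rw [← Finset.add_sum_erase univ f (mem_univ i)]
  congr 1
  have : (univ.erase i : Finset (Fin n)) = univ.filter (fun k => k ≠ i) := by
    ext k; simp
  rw [this]
  exact Finset.sum_subtype _ (fun k => by simp) f

theorem mulVec_off (p : ℕ) (i : Fin n) (b : Sym2 (Fin n) → Bool) (g : Fin n → ZMod p)
    (hg : g i = 0) (k : {k // k ≠ i}) :
    ((matZ b).map (Int.cast : ℤ → ZMod p) *ᵥ g) k =
      ((sub i b).map (Int.cast : ℤ → ZMod p) *ᵥ (fun k : {k // k ≠ i} => g k)) k := by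
  simp only [mulVec, dotProduct, map_apply]
  rw [sum_split i, hg, mul_zero, zero_add]
  rfl

theorem mulVec_row (p : ℕ) (i : Fin n) (b : Sym2 (Fin n) → Bool) (g : Fin n → ZMod p)
    (hg : g i = 0) :
    ((matZ b).map (Int.cast : ℤ → ZMod p) *ᵥ g) i = bd (row i b) (fun k : {k // k ≠ i} => g k) := by
  simp only [mulVec, dotProduct, map_apply]
  rw [sum_split i, hg, mul_zero, zero_add]
  unfold bd row
  refine sum_congr rfl fun k _ => ?_
  unfold matZ
  split_ifs <;> simp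

/-- a kernel vector which does not vanish at `i` serves `p` at the index `i` -/
theorem served {p : ℕ} (hp : p.Prime) (i : Fin n) (b : Sym2 (Fin n) → Bool)
    (hr : ((matZ b).map (Int.cast : ℤ → ZMod p)).rank + 2 ≤ n) (g : Fin n → ZMod p)
    (hg : (matZ b).map (Int.cast : ℤ → ZMod p) *ᵥ g = 0) (hgi : g i ≠ 0) :
    Tp p (sub i b) (row i b) := by
  classical
  have : Fact p.Prime := ⟨hp⟩
  set M := (matZ b).map (Int.cast : ℤ → ZMod p) with hM
  constructor
  · -- a second kernel vector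
    have h1 : 2 ≤ Module.finrank (ZMod p) (LinearMap.ker M.mulVecLin) := by
      have h2 := LinearMap.finrank_range_add_finrank_ker M.mulVecLin
      rw [Module.finrank_fintype_fun_eq_card, Fintype.card_fin] at h2
      have h3 : M.rank = Module.finrank (ZMod p) (LinearMap.range M.mulVecLin) := rfl
      omega
    have h2 : ∃ g' ∈ LinearMap.ker M.mulVecLin, g' ∉ Submodule.span (ZMod p) {g} := by
      by_contra hcon
      push Not at hcon
      have h3 : LinearMap.ker M.mulVecLin ≤ Submodule.span (ZMod p) {g} := hcon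
      have h4 := Submodule.finrank_mono h3
      have h5 : Module.finrank (ZMod p) (Submodule.span (ZMod p) {g}) ≤ 1 := by
        have h6 := finrank_span_le_card (R := ZMod p) ({g} : Set (Fin n → ZMod p))
        simpa using h6
      omega
    obtain ⟨g', hg', hg'2⟩ := h2
    rw [LinearMap.mem_ker, mulVecLin_apply] at hg'
    set h := g' - (g' i / g i) • g with hh
    have hh0 : h i = 0 := by
      simp only [hh, Pi.sub_apply, Pi.smul_apply, smul_eq_mul]
      field_simp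
      ring
    have hhk : M *ᵥ h = 0 := by
      rw [hh, mulVec_sub, mulVec_smul, hg', hg]
      simp
    refine ⟨fun k => h k, ?_, ?_⟩
    · intro h0
      apply hg'2
      have h3 : h = 0 := by
        funext k
        by_cases hk : k = i
        · rw [hk]; exact hh0
        · exact congrFun h0 ⟨k, hk⟩
      rw [Submodule.mem_span_singleton]
      refine ⟨g' i / g i, ?_⟩
      rw [hh, sub_eq_zero] at h3
      exact h3.symm
    · funext k
      rw [← mulVec_off p i b h hh0 k]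
      exact congrFun hhk k
  · intro u hu
    set h : Fin n → ZMod p := fun k => if hk : k ≠ i then u ⟨k, hk⟩ else 0 with hh
    have hh0 : h i = 0 := by simp [hh]
    have hres : (fun k : {k // k ≠ i} => h k) = u := by
      funext k
      simp [hh, k.2]
    have h1 : ∀ k : Fin n, k ≠ i → (M *ᵥ h) k = 0 := by
      intro k hk
      have := mulVec_off p i b h hh0 ⟨k, hk⟩
      rw [hres, hu] at this
      exact this
    have h2 : (M *ᵥ h) i = bd (row i b) u := by
      rw [hM, mulVec_row p i b h hh0, hres]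
    -- symmetry
    have hsymm : Mᵀ = M := by
      ext k l
      simp only [transpose_apply, hM, map_apply]
      rw [matZ_symm]
    have h3 : g ⬝ᵥ (M *ᵥ h) = 0 := by
      rw [dotProduct_mulVec, ← mulVec_transpose, hsymm, hg, zero_dotProduct]
    have h4 : g ⬝ᵥ (M *ᵥ h) = g i * (M *ᵥ h) i := by
      unfold dotProduct
      rw [Finset.sum_eq_single i]
      · intro k _ hk
        rw [h1 k hk, mul_zero]
      · intro hcon
        exact absurd (mem_univ i) hcon
    rw [h4] at h3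
    rcases mul_eq_zero.1 h3 with h5 | h5
    · exact absurd h5 hgi
    · rw [← h2]; exact h5

open Classical in
/-- the large primes at which the matrix has corank `≥ 2` -/
noncomputable def S2 (b : Sym2 (Fin n) → Bool) : Finset ℕ :=
  (SP n (matZ b)).filter fun p => ((matZ b).map (Int.cast : ℤ → ZMod p)).rank + 2 ≤ n

/-- for a nonsingular matrix `S2 b` consists of all the primes `p ≥ n²` with corank `≥ 2` -/
theorem mem_S2 {b : Sym2 (Fin n) → Bool} (hdet : (matZ b).det ≠ 0) {p : ℕ} :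
    p ∈ S2 b ↔ p.Prime ∧ n ^ 2 ≤ p ∧ ((matZ b).map (Int.cast : ℤ → ZMod p)).rank + 2 ≤ n := by
  classical
  unfold S2
  rw [mem_filter, mem_SP hdet]
  constructor
  · rintro ⟨⟨h1, h2, h3⟩, h4⟩
    exact ⟨h1, h3, h4⟩
  · rintro ⟨h1, h3, h4⟩
    refine ⟨⟨h1, ?_, h3⟩, h4⟩
    have h5 := HadN.pow_corank_dvd_det h1 (matZ b)
    rw [Fintype.card_fin] at h5
    exact (dvd_pow_self (p : ℤ) (by omega)).trans h5

theorem card_S2 (hn : 2 ≤ n) {b : Sym2 (Fin n) → Bool} (hdet : (matZ b).det ≠ 0) :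
    8 * (S2 b).card ≤ n := by
  have := card_le_of_det (c := 2) hn (by simp) (matZ b) (matZ_abs b) hdet (S2 b)
    (fun p hp => ((mem_S2 hdet).1 hp).1) (fun p hp => ((mem_S2 hdet).1 hp).2.1)
    (fun p hp => by
      have h1 := (mem_S2 hdet).1 hp
      have h5 := HadN.pow_corank_dvd_det h1.1 (matZ b)
      rw [Fintype.card_fin] at h5
      exact (pow_dvd_pow (p : ℤ) (by omega)).trans h5)
  omega

open Classical in
/-- **Choice of the index.** -/
theorem select {z : ℕ} (hn : 1 ≤ n) {b : Sym2 (Fin n) → Bool} (hdet : (matZ b).det ≠ 0)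
    (hz : ∀ p, p.Prime → n ^ 2 ≤ p → ∀ g : Fin n → ZMod p, g ≠ 0 →
      (matZ b).map (Int.cast : ℤ → ZMod p) *ᵥ g = 0 → (univ.filter fun i => g i = 0).card < z) :
    ∃ i : Fin n, (n - z) * (S2 b).card ≤
      n * ((S2 b).filter fun p => Tp p (sub i b) (row i b)).card := by
  have h1 : ∀ p ∈ S2 b, n - z ≤ (univ.filter fun i : Fin n => Tp p (sub i b) (row i b)).card := by
    intro p hp
    obtain ⟨hp1, hp2, hp3⟩ := (mem_S2 hdet).1 hp
    have hp' : p ∈ SP n (matZ b) := (mem_filter.1 hp).1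
    obtain ⟨g, hg0, hg⟩ := (exists_ker_iff p hp1 (matZ b)).2 ((mem_SP hdet).1 hp').2.1
    have h2 := hz p hp1 hp2 g hg0 hg
    have h3 : (univ.filter fun i : Fin n => ¬ g i = 0) ⊆
        univ.filter fun i : Fin n => Tp p (sub i b) (row i b) := by
      intro i hi
      rw [mem_filter] at hi ⊢
      exact ⟨mem_univ _, served hp1 i b hp3 g hg hi.2⟩
    have h4 := card_le_card h3
    have h5 := Finset.card_filter_add_card_filter_not (s := (univ : Finset (Fin n))) (fun i => g i = 0)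
    rw [card_univ, Fintype.card_fin] at h5
    omega
  have h2 : (n - z) * (S2 b).card ≤ ∑ i : Fin n, ((S2 b).filter fun p => Tp p (sub i b) (row i b)).card := by
    calc (n - z) * (S2 b).card = ∑ _p ∈ S2 b, (n - z) := by rw [sum_const, smul_eq_mul, mul_comm]
      _ ≤ ∑ p ∈ S2 b, (univ.filter fun i : Fin n => Tp p (sub i b) (row i b)).card := sum_le_sum h1
      _ = ∑ i : Fin n, ((S2 b).filter fun p => Tp p (sub i b) (row i b)).card := by
          simp only [card_filter]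
          exact sum_comm
  by_contra hcon
  push Not at hcon
  have h3 : n * ∑ i : Fin n, ((S2 b).filter fun p => Tp p (sub i b) (row i b)).card <
      ∑ _i : Fin n, (n - z) * (S2 b).card := by
    rw [mul_sum]
    have : Nonempty (Fin n) := ⟨⟨0, by omega⟩⟩
    exact sum_lt_sum_of_nonempty univ_nonempty fun i _ => hcon i
  rw [sum_const, card_univ, Fintype.card_fin, smul_eq_mul] at h3
  have h4 := Nat.mul_le_mul_left n h2
  omega

end Vale.Agent.P160.Half.ML
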