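import Vale.Agent.P160.Half.MLam613b

/-! # P160, safety net: the one-row moment with kernels of dimension `≥ t` -/

set_option linter.unusedSectionVars false

namespace Vale.Agent.P160.Half.ML

open Finset Matrix Vale.Agent.P160 Vale.Agent.P160.Half.CO

/-- numerical form of the volume Littlewood–Offord bound, exponent `t` at every prime of `F`, all the
primes at least `n ^ b` -/
theorem num_t {j n m t c : ℕ} (hj1 : 1 ≤ j) (hm : 1 ≤ m) (hmn : m ≤ n) (b : ℝ) (hb : 0 ≤ b)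
    (hcn : 2 * (b * t) * c ≤ n) (x P : ℝ) (hx0 : 0 ≤ x) (hP : ((n : ℝ) ^ b) ^ (t * c) ≤ P)
    (hj : (2 : ℝ) ^ j ≤ 2 * Real.sqrt m) (hj' : Real.sqrt m < (2 : ℝ) ^ j)
    (key : P * x ^ j ≤ (Real.exp (5 / 2) * (1 + 2 * Real.sqrt m)) ^ m) :
    x ≤ 2 ^ m * (2 : ℝ) ^ ((7 : ℝ) * n / j) * ((4 : ℝ) ^ (-(b * t))) ^ c := by
  have hm1 : (1 : ℝ) ≤ m := by exact_mod_cast hm
  have hn1 : (1 : ℝ) ≤ n := by exact_mod_cast hm.trans hmn
  have hs1 : 1 ≤ Real.sqrt m := Real.one_le_sqrt.2 hm1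
  have hjpos : (0 : ℝ) < j := by exact_mod_cast hj1
  -- bound of the constant
  have hK : Real.exp (5 / 2) * (1 + 2 * Real.sqrt m) ≤ (2 : ℝ) ^ (j + 6) := by
    have h1 : Real.exp (5 / 2) ≤ 21 := by
      have h2 : Real.exp (5 / 2) = Real.exp 1 ^ 2 * Real.exp (1 / 2) := by
        rw [← Real.exp_nat_mul, ← Real.exp_add]; norm_num
      have h3 : Real.exp 1 < 2.7182818286 := Real.exp_one_lt_d9
      have h4 : Real.exp (1 / 2) ≤ Real.exp 1 := Real.exp_le_exp.2 (by norm_num)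
      have h5 : 0 < Real.exp 1 := Real.exp_pos 1
      rw [h2]
      have h6 : Real.exp 1 ^ 2 ≤ 2.7182818286 ^ 2 := by gcongr
      calc Real.exp 1 ^ 2 * Real.exp (1 / 2) ≤ 2.7182818286 ^ 2 * 2.7182818286 := by
            apply mul_le_mul h6 (h4.trans h3.le) (Real.exp_pos _).le (by positivity)
        _ ≤ 21 := by norm_num
    have h7 : 1 + 2 * Real.sqrt m ≤ 3 * (2 : ℝ) ^ j := by linarith
    calc Real.exp (5 / 2) * (1 + 2 * Real.sqrt m) ≤ 21 * (3 * (2 : ℝ) ^ j) := by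
          apply mul_le_mul h1 h7 (by positivity) (by norm_num)
      _ ≤ (2 : ℝ) ^ (j + 6) := by
          rw [pow_add]
          have : (0 : ℝ) < 2 ^ j := by positivity
          nlinarith
  -- `4 ^ j ≤ 4 n`
  have hB : (4 : ℝ) ^ (j : ℝ) ≤ 4 * (n : ℝ) := by
    have h1 : ((2 : ℝ) ^ j) ^ 2 ≤ (2 * Real.sqrt m) ^ 2 := by gcongr
    have h2 : (2 * Real.sqrt m) ^ 2 = 4 * (m : ℝ) := by
      have : Real.sqrt m ^ 2 = m := Real.sq_sqrt (by positivity)
      calc (2 * Real.sqrt m) ^ 2 = 4 * (Real.sqrt m ^ 2) := by ring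
        _ = _ := by rw [this]
    have h3 : (m : ℝ) ≤ n := by exact_mod_cast hmn
    have h4 : ((2 : ℝ) ^ j) ^ 2 = (4 : ℝ) ^ (j : ℝ) := by
      rw [Real.rpow_natCast, ← pow_mul, mul_comm, pow_mul]; norm_num
    rw [← h4]
    refine h1.trans ?_
    rw [h2]
    linarith
  set e : ℝ := b * t * c with he
  have he0 : 0 ≤ e := by positivity
  have hen : 2 * e ≤ n := by
    calc 2 * e = 2 * (b * t) * c := by rw [he]; ring
      _ ≤ n := hcn
  have h4e : ((4 : ℝ) ^ (-(b * t))) ^ c = (4 : ℝ) ^ (-e) := by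
    rw [← Real.rpow_natCast, ← Real.rpow_mul (by norm_num), he]
    congr 1
    ring
  have hPe : (n : ℝ) ^ e ≤ P := by
    refine le_trans (le_of_eq ?_) hP
    rw [← Real.rpow_natCast, ← Real.rpow_mul (by positivity), he]
    congr 1
    push_cast
    ring
  -- the power `j`
  have h1 : ((4 : ℝ) ^ e * x) ^ (j : ℝ) ≤ (4 : ℝ) ^ e * (2 : ℝ) ^ (((j + 6) * m : ℕ) : ℝ) := by
    have h2 : ((4 : ℝ) ^ e) ^ (j : ℝ) ≤ (4 : ℝ) ^ e * (n : ℝ) ^ e := by
      rw [← Real.rpow_mul (by norm_num), mul_comm e, Real.rpow_mul (by norm_num),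
        ← Real.mul_rpow (by norm_num) (by positivity)]
      exact Real.rpow_le_rpow (by positivity) hB he0
    have h3 : (n : ℝ) ^ e * x ^ j ≤ (2 : ℝ) ^ ((j + 6) * m) := by
      calc (n : ℝ) ^ e * x ^ j ≤ P * x ^ j := by gcongr
        _ ≤ _ := key
        _ ≤ (2 : ℝ) ^ ((j + 6) * m) := by
            rw [pow_mul]
            gcongr
    rw [Real.mul_rpow (by positivity) hx0, Real.rpow_natCast x j, Real.rpow_natCast 2]
    calc ((4 : ℝ) ^ e) ^ (j : ℝ) * x ^ j ≤ ((4 : ℝ) ^ e * (n : ℝ) ^ e) * x ^ j := by gcongr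
      _ = (4 : ℝ) ^ e * ((n : ℝ) ^ e * x ^ j) := by ring
      _ ≤ _ := by gcongr
  have h2 : (4 : ℝ) ^ e * (2 : ℝ) ^ (((j + 6) * m : ℕ) : ℝ) ≤
      ((2 : ℝ) ^ m * (2 : ℝ) ^ ((7 : ℝ) * n / j)) ^ (j : ℝ) := by
    have h3 : (4 : ℝ) ^ e = (2 : ℝ) ^ (2 * e) := by
      have h4 : (4 : ℝ) = (2 : ℝ) ^ (2 : ℝ) := by norm_num
      rw [h4, ← Real.rpow_mul (by norm_num)]
    have h5 : ((2 : ℝ) ^ m * (2 : ℝ) ^ ((7 : ℝ) * n / j)) ^ (j : ℝ) =
        (2 : ℝ) ^ ((m : ℝ) * j + 7 * n) := by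
      rw [← Real.rpow_natCast, ← Real.rpow_add (by norm_num), ← Real.rpow_mul (by norm_num)]
      congr 1
      field_simp
    rw [h3, h5, ← Real.rpow_add (by norm_num)]
    apply Real.rpow_le_rpow_of_exponent_le (by norm_num)
    push_cast
    have h6 : (m : ℝ) ≤ n := by exact_mod_cast hmn
    nlinarith
  have h3 : (4 : ℝ) ^ e * x ≤ (2 : ℝ) ^ m * (2 : ℝ) ^ ((7 : ℝ) * n / j) :=
    (Real.rpow_le_rpow_iff (by positivity) (by positivity) hjpos).1 (h1.trans h2)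
  have h4 : x = (4 : ℝ) ^ (-e) * ((4 : ℝ) ^ e * x) := by
    rw [← mul_assoc, ← Real.rpow_add (by norm_num), neg_add_cancel, Real.rpow_zero, one_mul]
  rw [h4e, h4]
  calc (4 : ℝ) ^ (-e) * ((4 : ℝ) ^ e * x) ≤
      (4 : ℝ) ^ (-e) * ((2 : ℝ) ^ m * (2 : ℝ) ^ ((7 : ℝ) * n / j)) := by gcongr
    _ = _ := by ring

open Classical in
/-- **One-row moment, general form.** `S` a set of primes, `Ort p y` events such that every
`{y : ∀ p ∈ F, Ort p y}` satisfies the volume Littlewood–Offord bound with exponent `t`. -/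
theorem moment_t {ι : Type*} [Fintype ι] [DecidableEq ι] {j n t : ℕ} (hj1 : 1 ≤ j)
    (hm : 1 ≤ Fintype.card ι) (hmn : Fintype.card ι ≤ n) (b : ℝ) (hb : 0 ≤ b) (S : Finset ℕ)
    (hS : 2 * (b * t) * S.card ≤ n) (hSB : ∀ p ∈ S, (n : ℝ) ^ b ≤ p)
    (Ort : ℕ → (ι → Bool) → Prop)
    (hlo : ∀ F ⊆ S, (∏ p ∈ F, (p : ℝ) ^ t) *
      (((univ : Finset (ι → Bool)).filter fun y => ∀ p ∈ F, Ort p y).card : ℝ) ^ j ≤
        (Real.exp (5 / 2) * (1 + 2 * Real.sqrt (Fintype.card ι))) ^ Fintype.card ι)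
    (hj : (2 : ℝ) ^ j ≤ 2 * Real.sqrt (Fintype.card ι))
    (hj' : Real.sqrt (Fintype.card ι) < (2 : ℝ) ^ j) (s : ℝ) (hs : 1 ≤ s) :
    ∑ y : ι → Bool, s ^ (S.filter fun p => Ort p y).card ≤
      2 ^ Fintype.card ι * (2 : ℝ) ^ ((7 : ℝ) * n / j) *
        (1 + (s - 1) * (4 : ℝ) ^ (-(b * t))) ^ S.card := by
  have h1 : ∀ y : ι → Bool, s ^ (S.filter fun p => Ort p y).card =
      ∑ F ∈ S.powerset, if (∀ p ∈ F, Ort p y) then (s - 1) ^ F.card else 0 := by
    intro y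
    have h2 := Finset.sum_pow_mul_eq_add_pow (s - 1) 1 (S.filter fun p => Ort p y)
    simp only [one_pow, mul_one, sub_add_cancel] at h2
    rw [← h2, ← sum_filter]
    refine sum_congr ?_ fun _ _ => rfl
    ext F
    rw [mem_powerset, mem_filter, mem_powerset]
    constructor
    · intro hF
      exact ⟨hF.trans (filter_subset _ _), fun p hp => (mem_filter.1 (hF hp)).2⟩
    · rintro ⟨h3, h4⟩ p hp
      exact mem_filter.2 ⟨h3 hp, h4 p hp⟩
  calc ∑ y : ι → Bool, s ^ (S.filter fun p => Ort p y).card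
      = ∑ y : ι → Bool, ∑ F ∈ S.powerset,
          (if (∀ p ∈ F, Ort p y) then (s - 1) ^ F.card else 0) := sum_congr rfl fun y _ => h1 y
    _ = ∑ F ∈ S.powerset, ∑ y : ι → Bool,
          (if (∀ p ∈ F, Ort p y) then (s - 1) ^ F.card else 0) := sum_comm
    _ = ∑ F ∈ S.powerset, (((univ : Finset (ι → Bool)).filter
          fun y => ∀ p ∈ F, Ort p y).card : ℝ) * (s - 1) ^ F.card := by
        refine sum_congr rfl fun F _ => ?_
        rw [← sum_filter, sum_const, nsmul_eq_mul]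
    _ ≤ ∑ F ∈ S.powerset, (2 ^ Fintype.card ι * (2 : ℝ) ^ ((7 : ℝ) * n / j) *
          ((4 : ℝ) ^ (-(b * t))) ^ F.card) * (s - 1) ^ F.card := by
        refine sum_le_sum fun F hF => ?_
        rw [mem_powerset] at hF
        refine mul_le_mul_of_nonneg_right ?_ (pow_nonneg (by linarith) _)
        have hFc : (F.card : ℝ) ≤ S.card := by exact_mod_cast card_le_card hF
        have h0 : 0 ≤ 2 * (b * t) := by positivity
        refine num_t hj1 hm hmn b hb ((mul_le_mul_of_nonneg_left hFc h0).trans hS) _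
          (∏ p ∈ F, (p : ℝ) ^ t) (by positivity) ?_ hj hj' (hlo F hF)
        rw [pow_mul, ← prod_const]
        refine prod_le_prod (fun p _ => by positivity) fun p hp => ?_
        exact pow_le_pow_left₀ (by positivity) (hSB p (hF hp)) t
    _ = 2 ^ Fintype.card ι * (2 : ℝ) ^ ((7 : ℝ) * n / j) *
          ∑ F ∈ S.powerset, ((s - 1) * (4 : ℝ) ^ (-(b * t))) ^ F.card * 1 ^ (S.card - F.card) := by
        rw [mul_sum]
        refine sum_congr rfl fun F _ => ?_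
        rw [one_pow, mul_pow]
        ring
    _ = _ := by
        rw [Finset.sum_pow_mul_eq_add_pow, add_comm]

end Vale.Agent.P160.Half.ML
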