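import Vale.Agent.P160.Half.MLam613b
import Vale.Agent.P160.Half.LODig5

/-! # P160: the one-row moment for kernels of dimension `≥ t` (for StmtM, helper205)

`moment_ker` : `A` nonsingular integer, entries in `{-1,0,1}`, `S` a set of primes `p ≥ m ^ b` with
`corank_p A ≥ t`.  Then `∑_{x ∈ {0,1}^m} s ^ #{p ∈ S : x ⊥ ker_p A} ≤ 2^{(1+ε) m} (1 + (s-1) 4^{-bt})^{m/(2bt)}`. -/

set_option linter.unusedSectionVars false

namespace Vale.Agent.P160.Half.ML

open Finset Matrix Vale.Agent.P160 Vale.Agent.P160.Half.CO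

/-- `x` is orthogonal to the kernel of `A` modulo `p` -/
def Ok {ι : Type*} [Fintype ι] (p : ℕ) (A : Matrix ι ι ℤ) (x : ι → Bool) : Prop :=
  ∀ u : ι → ZMod p, A.map (Int.cast : ℤ → ZMod p) *ᵥ u = 0 → bd x u = 0

/-- expansion of the moment over the subsets -/
theorem moment_expand {X : Type*} [Fintype X] (S : Finset ℕ) (Ort : ℕ → X → Prop)
    [∀ x, DecidablePred fun p => Ort p x] [∀ F : Finset ℕ, DecidablePred fun x => ∀ p ∈ F, Ort p x]
    (s : ℝ) :
    ∑ x : X, s ^ (S.filter fun p => Ort p x).card =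
      ∑ F ∈ S.powerset, (((univ : Finset X).filter fun x => ∀ p ∈ F, Ort p x).card : ℝ) *
        (s - 1) ^ F.card := by
  classical
  have h1 : ∀ x : X, s ^ (S.filter fun p => Ort p x).card =
      ∑ F ∈ S.powerset, if (∀ p ∈ F, Ort p x) then (s - 1) ^ F.card else 0 := by
    intro y
    have h2 := Finset.sum_pow_mul_eq_add_pow (s - 1) 1 (S.filter fun p => Ort p y)
    simp only [one_pow, mul_one, sub_add_cancel] at h2
    rw [← h2, ← sum_filter]
    refine sum_congr ?_ fun _ _ => rfl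
    ext F
    rw [mem_powerset, mem_filter, mem_powerset]
    constructor
    · intro hF
      exact ⟨hF.trans (filter_subset _ _), fun p hp => (mem_filter.1 (hF hp)).2⟩
    · rintro ⟨h3, h4⟩ p hp
      exact mem_filter.2 ⟨h3 hp, h4 p hp⟩
  rw [sum_congr rfl fun y _ => h1 y, sum_comm]
  refine sum_congr rfl fun F _ => ?_
  rw [← sum_filter, sum_const, nsmul_eq_mul]

/-- Hadamard: at most `m / (2 b t)` primes `p ≥ m ^ b` with corank `≥ t` -/
theorem card_S_le {ι : Type*} [Fintype ι] [DecidableEq ι] (hm : 2 ≤ Fintype.card ι)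
    (A : Matrix ι ι ℤ) (hA : ∀ i j, |A i j| ≤ 1) (hdet : A.det ≠ 0) (b : ℝ) (t : ℕ)
    (S : Finset ℕ) (hS : ∀ p ∈ S, p.Prime) (hSb : ∀ p ∈ S, (Fintype.card ι : ℝ) ^ b ≤ p)
    (ht : ∀ p ∈ S, t + (A.map (Int.cast : ℤ → ZMod p)).rank ≤ Fintype.card ι) :
    2 * (b * t) * S.card ≤ Fintype.card ι := by
  set m := Fintype.card ι with hm'
  have hdvd : ∀ p ∈ S, (p : ℤ) ^ t ∣ A.det := by
    intro p hp
    have h5 := HadN.pow_corank_dvd_det (hS p hp) A
    have h6 := ht p hp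
    exact (pow_dvd_pow (p : ℤ) (by omega)).trans h5
  have h1 := prod_dvd_det hS t A.det hdvd
  have h2 : ((∏ p ∈ S, (p : ℤ) ^ t)).natAbs ≤ A.det.natAbs :=
    Nat.le_of_dvd (Int.natAbs_pos.2 hdet) (Int.natAbs_dvd_natAbs.2 h1)
  have h3 : ((∏ p ∈ S, (p : ℤ) ^ t)).natAbs = ∏ p ∈ S, p ^ t := by
    have : (∏ p ∈ S, (p : ℤ) ^ t) = ((∏ p ∈ S, p ^ t : ℕ) : ℤ) := by push_cast; rfl
    rw [this, Int.natAbs_natCast]
  have h5 := HadN.det_sq_le A hA
  have h6 : (A.det.natAbs) ^ 2 ≤ m ^ m := by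
    have h7 : ((A.det.natAbs : ℤ)) ^ 2 = A.det ^ 2 := Int.natAbs_sq _
    have h8 : (A.det.natAbs : ℤ) ^ 2 ≤ ((m : ℕ) : ℤ) ^ m := by
      rw [h7]; exact_mod_cast h5
    exact_mod_cast h8
  have hmR : (2 : ℝ) ≤ m := by exact_mod_cast hm
  have hm0 : (0 : ℝ) < m := by linarith
  have h7 : (m : ℝ) ^ (2 * (b * t) * S.card) ≤ (m : ℝ) ^ (m : ℝ) := by
    have h8 : ((m : ℝ) ^ b) ^ (t * S.card) ≤ (A.det.natAbs : ℝ) := by
      have h9 : ((m : ℝ) ^ b) ^ (t * S.card) ≤ ((∏ p ∈ S, p ^ t : ℕ) : ℝ) := by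
        push_cast
        rw [pow_mul, ← prod_const]
        exact prod_le_prod (fun p _ => by positivity)
          fun p hp => pow_le_pow_left₀ (by positivity) (hSb p hp) t
      refine h9.trans ?_
      rw [← h3]
      exact_mod_cast h2
    calc (m : ℝ) ^ (2 * (b * t) * S.card) = (((m : ℝ) ^ b) ^ (t * S.card)) ^ 2 := by
          rw [← Real.rpow_natCast, ← Real.rpow_natCast, ← Real.rpow_mul hm0.le,
            ← Real.rpow_mul hm0.le]
          congr 1
          push_cast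
          ring
      _ ≤ (A.det.natAbs : ℝ) ^ 2 := by gcongr
      _ ≤ (m : ℝ) ^ m := by exact_mod_cast h6
      _ = (m : ℝ) ^ (m : ℝ) := (Real.rpow_natCast _ _).symm
  exact (Real.rpow_le_rpow_left_iff (by linarith)).1 h7

open Classical in
/-- **One-row moment** (with the number of primes of `S` in the exponent) -/
theorem moment_ker0 (ε : ℝ) (hε : 0 < ε) : ∃ m₀ : ℕ, ∀ m ≥ m₀,
    ∀ A : Matrix (Fin m) (Fin m) ℤ, A.det ≠ 0 → (∀ i j, |A i j| ≤ 1) →
    ∀ (b : ℝ) (S : Finset ℕ) (t : ℕ), (∀ p ∈ S, p.Prime) → (∀ p ∈ S, (m : ℝ) ^ b ≤ p) →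
    (∀ p ∈ S, t + (A.map (Int.cast : ℤ → ZMod p)).rank ≤ m) → ∀ s : ℝ, 1 ≤ s →
    ∑ x : Fin m → Bool, s ^ (S.filter fun p => Ok p A x).card ≤
      (2 : ℝ) ^ ((1 + ε) * m) * (1 + (s - 1) * (4 : ℝ) ^ (-(b * t))) ^ S.card := by
  obtain ⟨m₀, hm₀⟩ := LODig.lo_ker_asymp ε hε
  refine ⟨m₀, fun m hm A hdet hA b S t hS hSb ht s hs => ?_⟩
  rw [moment_expand S (fun p x => Ok p A x) s]
  calc ∑ F ∈ S.powerset, (((univ : Finset (Fin m → Bool)).filter
          fun x => ∀ p ∈ F, Ok p A x).card : ℝ) * (s - 1) ^ F.card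
      ≤ ∑ F ∈ S.powerset, ((2 : ℝ) ^ ((1 + ε) * m) * ((4 : ℝ) ^ (-(b * t))) ^ F.card) *
          (s - 1) ^ F.card := by
        refine sum_le_sum fun F hF => ?_
        rw [mem_powerset] at hF
        refine mul_le_mul_of_nonneg_right ?_ (pow_nonneg (by linarith) _)
        refine (hm₀ m hm A hdet hA b F t (fun p hp => hS p (hF hp)) (fun p hp => hSb p (hF hp))
          (fun p hp => ht p (hF hp)) _ ?_).trans (le_of_eq ?_)
        · intro x hx p hp u hu
          exact (mem_filter.1 hx).2 p hp u hu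
        · have h4 : (4 : ℝ) = (2 : ℝ) ^ (2 : ℝ) := by norm_num
          rw [h4, ← Real.rpow_natCast, ← Real.rpow_mul (by norm_num), ← Real.rpow_mul (by norm_num),
            ← Real.rpow_add (by norm_num)]
          congr 1
          ring
    _ = (2 : ℝ) ^ ((1 + ε) * m) *
          ∑ F ∈ S.powerset, ((s - 1) * (4 : ℝ) ^ (-(b * t))) ^ F.card * 1 ^ (S.card - F.card) := by
        rw [mul_sum]
        refine sum_congr rfl fun F _ => ?_
        rw [one_pow, mul_pow]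
        ring
    _ = _ := by
        rw [Finset.sum_pow_mul_eq_add_pow, add_comm ((s - 1) * (4 : ℝ) ^ (-(b * t))) 1]

open Classical in
/-- **One-row moment.** -/
theorem moment_ker (ε : ℝ) (hε : 0 < ε) : ∃ m₀ : ℕ, ∀ m ≥ m₀,
    ∀ A : Matrix (Fin m) (Fin m) ℤ, A.det ≠ 0 → (∀ i j, |A i j| ≤ 1) →
    ∀ (b : ℝ), 0 < b → ∀ (S : Finset ℕ) (t : ℕ), 1 ≤ t → (∀ p ∈ S, p.Prime) →
    (∀ p ∈ S, (m : ℝ) ^ b ≤ p) →
    (∀ p ∈ S, t + (A.map (Int.cast : ℤ → ZMod p)).rank ≤ m) → ∀ s : ℝ, 1 ≤ s →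
    ∑ x : Fin m → Bool, s ^ (S.filter fun p => Ok p A x).card ≤
      (2 : ℝ) ^ ((1 + ε) * m) * (1 + (s - 1) * (4 : ℝ) ^ (-(b * t))) ^ ((m : ℝ) / (2 * (b * t))) := by
  obtain ⟨m₀, hm₀⟩ := moment_ker0 ε hε
  refine ⟨max m₀ 2, fun m hm A hdet hA b hb S t ht1 hS hSb ht s hs => ?_⟩
  refine (hm₀ m (le_trans (le_max_left _ _) hm) A hdet hA b S t hS hSb ht s hs).trans ?_
  apply mul_le_mul_of_nonneg_left _ (by positivity)
  have hm2 : 2 ≤ m := le_trans (le_max_right _ _) hm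
  have h1 := card_S_le (ι := Fin m) (by simpa using hm2) A hA hdet b t S hS
    (by simpa using hSb) (by simpa using ht)
  rw [Fintype.card_fin] at h1
  have ht0 : (0 : ℝ) < t := by exact_mod_cast ht1
  rw [← Real.rpow_natCast]
  apply Real.rpow_le_rpow_of_exponent_le
  · have h2 : 0 ≤ (s - 1) * (4 : ℝ) ^ (-(b * t)) := mul_nonneg (by linarith) (by positivity)
    linarith
  · rw [le_div_iff₀ (by positivity)]
    linarith

open Classical in
/-- **One-row moment**, arbitrary index type. -/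
theorem moment_ker' (ε : ℝ) (hε : 0 < ε) : ∃ m₀ : ℕ, ∀ (ι : Type) [Fintype ι] [DecidableEq ι],
    m₀ ≤ Fintype.card ι →
    ∀ A : Matrix ι ι ℤ, A.det ≠ 0 → (∀ i j, |A i j| ≤ 1) →
    ∀ (b : ℝ), 0 < b → ∀ (S : Finset ℕ) (t : ℕ), 1 ≤ t → (∀ p ∈ S, p.Prime) →
    (∀ p ∈ S, (Fintype.card ι : ℝ) ^ b ≤ p) →
    (∀ p ∈ S, t + (A.map (Int.cast : ℤ → ZMod p)).rank ≤ Fintype.card ι) → ∀ s : ℝ, 1 ≤ s →
    ∑ x : ι → Bool, s ^ (S.filter fun p => Ok p A x).card ≤
      (2 : ℝ) ^ ((1 + ε) * Fintype.card ι) *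
        (1 + (s - 1) * (4 : ℝ) ^ (-(b * t))) ^ ((Fintype.card ι : ℝ) / (2 * (b * t))) := by
  obtain ⟨m₀, hm₀⟩ := moment_ker ε hε
  refine ⟨m₀, fun ι _ _ hm A hdet hA b hb S t ht1 hS hSb ht s hs => ?_⟩
  let e : Fin (Fintype.card ι) ≃ ι := (Fintype.equivFin ι).symm
  have h1 := hm₀ _ hm (A.submatrix e e) (by rw [det_submatrix_equiv_self]; exact hdet)
    (fun i j => hA _ _) b hb S t ht1 hS hSb (fun p hp => by
      have h2 : (A.submatrix e e).map (Int.cast : ℤ → ZMod p) =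
          (A.map (Int.cast : ℤ → ZMod p)).submatrix e e := rfl
      rw [h2, rank_submatrix]
      exact ht p hp) s hs
  refine le_trans (le_of_eq ?_) h1
  rw [← Equiv.sum_comp (e.arrowCongr (Equiv.refl Bool))]
  refine sum_congr rfl fun x _ => ?_
  congr 2
  ext p
  rw [mem_filter, mem_filter]
  refine and_congr_right fun hp => ?_
  unfold Ok
  constructor
  · intro h u hu
    have h3 : A.map (Int.cast : ℤ → ZMod p) *ᵥ (u ∘ e.symm) = 0 := by
      funext i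
      have h4 := congrFun hu (e.symm i)
      simp only [mulVec, dotProduct, map_apply, Pi.zero_apply, submatrix_apply,
        Equiv.apply_symm_apply] at h4 ⊢
      rw [← h4, ← Equiv.sum_comp e]
      exact sum_congr rfl fun c _ => by simp
    have h5 := h _ h3
    rw [← h5]
    unfold bd
    rw [← Equiv.sum_comp e]
    exact sum_congr rfl fun c _ => by simp [Equiv.arrowCongr]
  · intro h u hu
    have h3 : (A.submatrix e e).map (Int.cast : ℤ → ZMod p) *ᵥ (u ∘ e) = 0 := by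
      funext i
      have h4 := congrFun hu (e i)
      simp only [mulVec, dotProduct, map_apply, Pi.zero_apply, submatrix_apply] at h4 ⊢
      rw [← h4]
      exact Equiv.sum_comp e (fun c => ((A (e i) c : ℤ) : ZMod p) * u c)
    have h5 := h _ h3
    rw [← h5]
    unfold bd
    rw [← Equiv.sum_comp e]
    exact sum_congr rfl fun c _ => by simp [Equiv.arrowCongr]

end Vale.Agent.P160.Half.ML
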