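import Vale.Agent.P160.Half.MLam613d
import Vale.Agent.P160.Half.MTop

/-! # P160: coranks after deleting one index -/

set_option linter.unusedSectionVars false

namespace Vale.Agent.P160.Half.ML

open Finset Matrix Vale.Agent.P160 Vale.Agent.P160.Half.CO Vale.Agent.P160.Half.MTop

variable {n : ℕ}

theorem finrank_ker_eq_crk {ι : Type*} [Fintype ι] [DecidableEq ι] (P : Matrix ι ι ℤ) (p : ℕ)
    [Fact p.Prime] :
    Module.finrank (ZMod p) (LinearMap.ker (P.map (Int.cast : ℤ → ZMod p)).mulVecLin) = crk P p := by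
  have h1 := LinearMap.finrank_range_add_finrank_ker (P.map (Int.cast : ℤ → ZMod p)).mulVecLin
  rw [Module.finrank_fintype_fun_eq_card] at h1
  have h2 : HadN.rP p P =
    Module.finrank (ZMod p) (LinearMap.range (P.map (Int.cast : ℤ → ZMod p)).mulVecLin) := rfl
  unfold crk
  omega

theorem card_ne (i : Fin n) : Fintype.card {k // k ≠ i} = n - 1 := by
  rw [Fintype.card_subtype_compl, Fintype.card_fin, Fintype.card_subtype_eq]

/-- deleting an index lowers the corank by at most one -/
theorem crk_le_sub (i : Fin n) (b : Sym2 (Fin n) → Bool) (p : ℕ) [Fact p.Prime] :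
    crk (matZ b) p ≤ crk (sub i b) p + 1 := by
  unfold crk HadN.rP
  have h1 : ((sub i b).map (Int.cast : ℤ → ZMod p)) =
      ((matZ b).map (Int.cast : ℤ → ZMod p)).submatrix Subtype.val Subtype.val := rfl
  have h2 : ((sub i b).map (Int.cast : ℤ → ZMod p)).rank ≤
      ((matZ b).map (Int.cast : ℤ → ZMod p)).rank := by
    rw [h1]
    exact rank_submatrix_le _ _ _
  rw [card_ne, Fintype.card_fin]
  omega

/-- if the deleted row is not orthogonal to the kernel of the remaining matrix, then the corank
increases by one under the deletion -/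
theorem crk_lt_sub (i : Fin n) (b : Sym2 (Fin n) → Bool) (p : ℕ) [Fact p.Prime]
    (h : ¬ Ok p (sub i b) (row i b)) : crk (matZ b) p + 1 ≤ crk (sub i b) p := by
  classical
  set M := (matZ b).map (Int.cast : ℤ → ZMod p) with hM
  set M' := (sub i b).map (Int.cast : ℤ → ZMod p) with hM'
  unfold Ok at h
  push Not at h
  obtain ⟨u, hu, hu0⟩ := h
  rw [← finrank_ker_eq_crk, ← finrank_ker_eq_crk]
  have hsymm : Mᵀ = M := by
    ext k l
    simp only [transpose_apply, hM, map_apply]
    rw [matZ_symm]
  -- the extension of `u`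
  set w : Fin n → ZMod p := fun k => if hk : k ≠ i then u ⟨k, hk⟩ else 0 with hw
  have hw0 : w i = 0 := by simp [hw]
  have hres : (fun k : {k // k ≠ i} => w k) = u := by
    funext k
    simp [hw, k.2]
  have hw1 : ∀ k : Fin n, k ≠ i → (M *ᵥ w) k = 0 := by
    intro k hk
    have := mulVec_off p i b w hw0 ⟨k, hk⟩
    rw [hres, hu] at this
    exact this
  have hw2 : (M *ᵥ w) i = bd (row i b) u := by
    rw [hM, mulVec_row p i b w hw0, hres]
  -- kernel vectors vanish at `i`
  have hg0 : ∀ g : Fin n → ZMod p, M *ᵥ g = 0 → g i = 0 := by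
    intro g hg
    have h3 : g ⬝ᵥ (M *ᵥ w) = 0 := by
      rw [dotProduct_mulVec, ← mulVec_transpose, hsymm, hg, zero_dotProduct]
    have h4 : g ⬝ᵥ (M *ᵥ w) = g i * (M *ᵥ w) i := by
      unfold dotProduct
      rw [Finset.sum_eq_single i]
      · intro k _ hk
        rw [hw1 k hk, mul_zero]
      · intro hcon
        exact absurd (mem_univ i) hcon
    rw [h4, hw2] at h3
    exact (mul_eq_zero.1 h3).resolve_right hu0
  -- restriction map
  let ρ : (Fin n → ZMod p) →ₗ[ZMod p] ({k // k ≠ i} → ZMod p) :=
    { toFun := fun g k => g k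
      map_add' := fun _ _ => rfl
      map_smul' := fun _ _ => rfl }
  have hρ : ∀ g k, ρ g k = g k.1 := fun _ _ => rfl
  have hinj : Module.finrank (ZMod p) ((LinearMap.ker M.mulVecLin).map ρ) =
      Module.finrank (ZMod p) (LinearMap.ker M.mulVecLin) := by
    rw [← LinearMap.range_domRestrict]
    apply LinearMap.finrank_range_of_inj
    rw [injective_iff_map_eq_zero]
    rintro ⟨g, hg⟩ h0
    rw [LinearMap.mem_ker, mulVecLin_apply] at hg
    apply Subtype.ext
    funext k
    by_cases hk : k = i
    · rw [hk]; exact hg0 g hg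
    · exact congrFun h0 ⟨k, hk⟩
  have hlt : (LinearMap.ker M.mulVecLin).map ρ < LinearMap.ker M'.mulVecLin := by
    rw [lt_iff_le_and_ne]
    constructor
    · rintro _ ⟨g, hg, rfl⟩
      rw [SetLike.mem_coe, LinearMap.mem_ker, mulVecLin_apply] at hg
      rw [LinearMap.mem_ker, mulVecLin_apply]
      funext k
      have h5 := mulVec_off p i b g (hg0 g hg) k
      rw [← hM, hg] at h5
      exact h5.symm
    · intro heq
      have h5 : u ∈ (LinearMap.ker M.mulVecLin).map ρ := by
        rw [heq, LinearMap.mem_ker, mulVecLin_apply]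
        exact hu
      obtain ⟨g, hg, hgu⟩ := h5
      rw [SetLike.mem_coe, LinearMap.mem_ker, mulVecLin_apply] at hg
      apply hu0
      have h6 := mulVec_row p i b g (hg0 g hg)
      rw [← hM, hg] at h6
      rw [← hgu]
      exact h6.symm
  have h9 := Submodule.finrank_lt_finrank_of_lt hlt
  rw [hinj] at h9
  exact h9

/-- **Deletion of one index.** -/
theorem del (i : Fin n) (b : Sym2 (Fin n) → Bool) (p : ℕ) [Fact p.Prime] (t : ℕ)
    (h : t + 1 ≤ crk (matZ b) p) :
    (t ≤ crk (sub i b) p ∧ Ok p (sub i b) (row i b)) ∨ t + 2 ≤ crk (sub i b) p := by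
  by_cases h1 : Ok p (sub i b) (row i b)
  · left
    have := crk_le_sub i b p
    exact ⟨by omega, h1⟩
  · right
    have := crk_lt_sub i b p h1
    omega

end Vale.Agent.P160.Half.ML
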