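import Mathlib.Algebra.BigOperators.Fin
import Mathlib.Algebra.Order.BigOperators.Ring.Finset
import Mathlib.Analysis.SpecialFunctions.Pow.Real
import Mathlib.Data.Fin.Tuple.Basic

/-! # P160/Half, block (M): potential induction over the columns

Abstract form of (C) of the note on the simpler route for the exceptional event: columns are exposed one
by one, every `p` in a finite set `P` has a counter `e`, a column may raise the counters of a random
set of `p`; the probability that all `p ∈ B` are raised is at most `K ∏_{p ∈ B} w p (e p)`.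
If `ψ p e + w p e * ψ p (e+1) ≤ (1+ε) ψ p e`, then `E ∏ ψ p (e p) ≤ (K (1+ε)^|P|)^m ∏ ψ p 0`. -/

namespace Vale.Agent.P160.Half.MPot

open Finset

variable {Ω κ : Type*} [Fintype Ω] [DecidableEq κ]

open Classical in
/-- one step -/
theorem step (P : Finset κ) (μ : Ω → ℝ) (hμ : ∀ y, 0 ≤ μ y) (inc : Ω → κ → Prop)
    (ok : Ω → Prop) (e : κ → ℕ) (w ψ : κ → ℕ → ℝ) (hψ0 : ∀ p e, 0 ≤ ψ p e)
    (hw0 : ∀ p e, 0 ≤ w p e) {K ε : ℝ} (hK : 0 ≤ K)
    (hψ : ∀ p ∈ P, ∀ e, ψ p e + w p e * ψ p (e + 1) ≤ (1 + ε) * ψ p e)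
    (hLO : ∀ B ⊆ P, ∑ y, μ y * (if ok y ∧ ∀ p ∈ B, inc y p then 1 else 0) ≤
      K * ∏ p ∈ B, w p (e p)) :
    ∑ y, μ y * (if ok y then ∏ p ∈ P, ψ p (e p + if inc y p then 1 else 0) else 0) ≤
      K * ((1 + ε) ^ P.card * ∏ p ∈ P, ψ p (e p)) := by
  have h1 : ∀ y, (if ok y then ∏ p ∈ P, ψ p (e p + if inc y p then 1 else 0) else 0) ≤
      ∑ B ∈ P.powerset, ((∏ p ∈ B, ψ p (e p + 1)) * ∏ p ∈ P \ B, ψ p (e p)) *
        (if ok y ∧ ∀ p ∈ B, inc y p then 1 else 0) := by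
    intro y
    by_cases hy : ok y
    · rw [if_pos hy]
      have h2 : ∏ p ∈ P, ψ p (e p + if inc y p then 1 else 0) ≤
          ∏ p ∈ P, ((if inc y p then ψ p (e p + 1) else 0) + ψ p (e p)) := by
        refine prod_le_prod (fun p _ => hψ0 _ _) fun p _ => ?_
        by_cases hp : inc y p
        · rw [if_pos hp, if_pos hp]; linarith [hψ0 p (e p)]
        · rw [if_neg hp, if_neg hp, add_zero, zero_add]
      refine h2.trans (le_of_eq ?_)
      rw [prod_add]
      refine sum_congr rfl fun B _ => ?_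
      by_cases hB : ∀ p ∈ B, inc y p
      · rw [if_pos ⟨hy, hB⟩, mul_one]
        congr 1
        exact prod_congr rfl fun p hp => if_pos (hB p hp)
      · rw [if_neg (fun h => hB h.2), mul_zero]
        push Not at hB
        obtain ⟨p, hp, hip⟩ := hB
        rw [prod_eq_zero hp (if_neg hip), zero_mul]
    · rw [if_neg hy]
      refine sum_nonneg fun B _ => mul_nonneg (mul_nonneg (prod_nonneg fun p _ => hψ0 _ _)
        (prod_nonneg fun p _ => hψ0 _ _)) ?_
      split_ifs <;> norm_num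
  calc ∑ y, μ y * (if ok y then ∏ p ∈ P, ψ p (e p + if inc y p then 1 else 0) else 0)
      ≤ ∑ y, μ y * ∑ B ∈ P.powerset, ((∏ p ∈ B, ψ p (e p + 1)) * ∏ p ∈ P \ B, ψ p (e p)) *
        (if ok y ∧ ∀ p ∈ B, inc y p then 1 else 0) :=
        sum_le_sum fun y _ => mul_le_mul_of_nonneg_left (h1 y) (hμ y)
    _ = ∑ B ∈ P.powerset, ((∏ p ∈ B, ψ p (e p + 1)) * ∏ p ∈ P \ B, ψ p (e p)) *
        ∑ y, μ y * (if ok y ∧ ∀ p ∈ B, inc y p then 1 else 0) := by
        simp only [mul_sum]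
        rw [sum_comm]
        refine sum_congr rfl fun B _ => sum_congr rfl fun y _ => ?_
        ring
    _ ≤ ∑ B ∈ P.powerset, ((∏ p ∈ B, ψ p (e p + 1)) * ∏ p ∈ P \ B, ψ p (e p)) *
        (K * ∏ p ∈ B, w p (e p)) := by
        refine sum_le_sum fun B hB => mul_le_mul_of_nonneg_left (hLO B (mem_powerset.1 hB)) ?_
        exact mul_nonneg (prod_nonneg fun p _ => hψ0 _ _) (prod_nonneg fun p _ => hψ0 _ _)
    _ = K * ∏ p ∈ P, (w p (e p) * ψ p (e p + 1) + ψ p (e p)) := by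
        rw [prod_add, mul_sum]
        refine sum_congr rfl fun B _ => ?_
        rw [prod_mul_distrib]
        ring
    _ ≤ K * ∏ p ∈ P, ((1 + ε) * ψ p (e p)) := by
        refine mul_le_mul_of_nonneg_left ?_ hK
        refine prod_le_prod (fun p _ => add_nonneg (mul_nonneg (hw0 _ _) (hψ0 _ _)) (hψ0 _ _))
          fun p hp => ?_
        linarith [hψ p hp (e p)]
    _ = K * ((1 + ε) ^ P.card * ∏ p ∈ P, ψ p (e p)) := by
        rw [prod_mul_distrib, prod_const]

open Classical in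
/-- **Potential induction.** `e j ω p` = counter of `p` after the columns `ω 0, …, ω (j-1)`,
`ok j ω` = the columns are rationally independent. -/
theorem main (P : Finset κ) (μ : Ω → ℝ) (hμ : ∀ y, 0 ≤ μ y)
    (e : (j : ℕ) → (Fin j → Ω) → κ → ℕ) (ok : (j : ℕ) → (Fin j → Ω) → Prop)
    (inc : (j : ℕ) → (Fin j → Ω) → Ω → κ → Prop)
    (w ψ : κ → ℕ → ℝ) (hψ0 : ∀ p e, 0 ≤ ψ p e) (hw0 : ∀ p e, 0 ≤ w p e) {K ε : ℝ}
    (hK : 0 ≤ K) (hε : 0 ≤ ε)
    (hψ : ∀ p ∈ P, ∀ e, ψ p e + w p e * ψ p (e + 1) ≤ (1 + ε) * ψ p e)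
    (he0 : ∀ ω p, e 0 ω p = 0)
    (hok : ∀ j (ω : Fin j → Ω) (y : Ω), ok (j + 1) (Fin.snoc ω y : Fin (j + 1) → Ω) → ok j ω)
    (he : ∀ j (ω : Fin j → Ω) (y : Ω), ok (j + 1) (Fin.snoc ω y : Fin (j + 1) → Ω) → ∀ p ∈ P,
      (inc j ω y p ∧ e (j + 1) (Fin.snoc ω y : Fin (j + 1) → Ω) p = e j ω p + 1) ∨
      (¬ inc j ω y p ∧ e (j + 1) (Fin.snoc ω y : Fin (j + 1) → Ω) p = e j ω p))
    (m : ℕ)
    (hLO : ∀ j < m, ∀ (ω : Fin j → Ω), ok j ω → ∀ B ⊆ P,
      (∑ y, μ y * (if ok (j + 1) (Fin.snoc ω y : Fin (j + 1) → Ω) ∧ ∀ p ∈ B, inc j ω y p then 1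
        else 0)) ≤ K * ∏ p ∈ B, w p (e j ω p)) :
    (∑ ω : Fin m → Ω, (∏ i, μ (ω i)) * (if ok m ω then ∏ p ∈ P, ψ p (e m ω p) else 0)) ≤
      (K * (1 + ε) ^ P.card) ^ m * ∏ p ∈ P, ψ p 0 := by
  induction m with
  | zero =>
    rw [Fintype.sum_eq_single (fun i : Fin 0 => i.elim0) (fun ω h => absurd (Subsingleton.elim _ _) h)]
    simp only [univ_eq_empty, prod_empty, one_mul, pow_zero]
    split_ifs with h
    · exact le_of_eq (prod_congr rfl fun p _ => by rw [he0])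
    · exact prod_nonneg fun p _ => hψ0 _ _
  | succ m ih =>
    have ih' := ih fun j hj => hLO j (by omega)
    have h1 : ∑ ω : Fin (m + 1) → Ω, (∏ i, μ (ω i)) *
        (if ok (m + 1) ω then ∏ p ∈ P, ψ p (e (m + 1) ω p) else 0) =
        ∑ ω : Fin m → Ω, (∏ i, μ (ω i)) * ∑ y, μ y *
          (if ok (m + 1) (Fin.snoc ω y : Fin (m + 1) → Ω) then
            ∏ p ∈ P, ψ p (e (m + 1) (Fin.snoc ω y : Fin (m + 1) → Ω) p) else 0) := by
      rw [← (Fin.snocEquiv (fun _ : Fin (m + 1) => Ω)).sum_comp, Fintype.sum_prod_type, sum_comm]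
      refine sum_congr rfl fun ω _ => ?_
      rw [mul_sum]
      refine sum_congr rfl fun y _ => ?_
      have hs : (Fin.snocEquiv (fun _ : Fin (m + 1) => Ω)) (y, ω) = (Fin.snoc ω y : Fin (m + 1) → Ω) :=
        rfl
      have hp : ∏ i, μ ((Fin.snoc ω y : Fin (m + 1) → Ω) i) = (∏ i, μ (ω i)) * μ y := by
        rw [Fin.prod_univ_castSucc]
        simp only [Fin.snoc_castSucc, Fin.snoc_last]
      rw [hs, hp]
      ring
    rw [h1]
    calc ∑ ω : Fin m → Ω, (∏ i, μ (ω i)) * ∑ y, μ y *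
          (if ok (m + 1) (Fin.snoc ω y : Fin (m + 1) → Ω) then
            ∏ p ∈ P, ψ p (e (m + 1) (Fin.snoc ω y : Fin (m + 1) → Ω) p) else 0)
        ≤ ∑ ω : Fin m → Ω, (∏ i, μ (ω i)) * (if ok m ω then
            K * ((1 + ε) ^ P.card * ∏ p ∈ P, ψ p (e m ω p)) else 0) := by
          refine sum_le_sum fun ω _ => mul_le_mul_of_nonneg_left ?_ (prod_nonneg fun i _ => hμ _)
          by_cases hω : ok m ω
          · rw [if_pos hω]
            refine le_trans (le_of_eq ?_) (step P μ hμ (inc m ω)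
              (fun y => ok (m + 1) (Fin.snoc ω y : Fin (m + 1) → Ω)) (e m ω) w ψ hψ0 hw0 hK hψ
              (fun B hB => hLO m (by omega) ω hω B hB))
            refine sum_congr rfl fun y _ => ?_
            congr 1
            by_cases hy : ok (m + 1) (Fin.snoc ω y : Fin (m + 1) → Ω)
            · rw [if_pos hy, if_pos hy]
              refine prod_congr rfl fun p hp => ?_
              rcases he m ω y hy p hp with ⟨h, h'⟩ | ⟨h, h'⟩
              · rw [h', if_pos h]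
              · rw [h', if_neg h, add_zero]
            · rw [if_neg hy, if_neg hy]
          · rw [if_neg hω]
            refine le_of_eq (sum_eq_zero fun y _ => ?_)
            rw [if_neg (fun h => hω (hok m ω y h)), mul_zero]
      _ = (K * (1 + ε) ^ P.card) * ∑ ω : Fin m → Ω, (∏ i, μ (ω i)) *
            (if ok m ω then ∏ p ∈ P, ψ p (e m ω p) else 0) := by
          rw [mul_sum]
          refine sum_congr rfl fun ω _ => ?_
          split_ifs
          · ring
          · ring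
      _ ≤ (K * (1 + ε) ^ P.card) * ((K * (1 + ε) ^ P.card) ^ m * ∏ p ∈ P, ψ p 0) :=
          mul_le_mul_of_nonneg_left ih' (by positivity)
      _ = (K * (1 + ε) ^ P.card) ^ (m + 1) * ∏ p ∈ P, ψ p 0 := by ring

end Vale.Agent.P160.Half.MPot
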