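import Vale.Agent.P160.Half.MLam613e
import Vale.Agent.P160.Half.SgnRed

/-! # P160: the recursion over deleted indices (safety net for part (M)) -/

set_option linter.unusedSectionVars false

namespace Vale.Agent.P160.Half.MR

open Finset Matrix Vale.Agent.P160 Vale.Agent.P160.Half.CO Vale.Agent.P160.Half.MTop
  Vale.Agent.P160.Half.ML

variable {m : ℕ}

open Classical in
/-- the primes in `[y, Y]` with corank at least `r + 1` -/
noncomputable def St {α : Type*} [Fintype α] (y Y : ℝ) (r : ℕ) (P : Matrix α α ℤ) : Finset ℕ :=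
  (range (⌊Y⌋₊ + 1)).filter fun p => p.Prime ∧ y ≤ p ∧ r + 1 ≤ crk P p

/-- bits of the matrix without the index `i` -/
def rs (i : Fin (m + 1)) (b : Sym2 (Fin (m + 1)) → Bool) : Sym2 (Fin m) → Bool :=
  CO.res i.succAbove b

/-- the deleted row -/
def rx (i : Fin (m + 1)) (b : Sym2 (Fin (m + 1)) → Bool) : Fin m → Bool :=
  fun k => b s(i, i.succAbove k)

theorem Ok_submatrix {ι κ : Type*} [Fintype ι] [Fintype κ] (e : κ ≃ ι) (p : ℕ)
    (A : Matrix ι ι ℤ) (x : ι → Bool) : Ok p (A.submatrix e e) (x ∘ e) ↔ Ok p A x := by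
  unfold Ok
  constructor
  · intro h u hu
    have h3 : (A.submatrix e e).map (Int.cast : ℤ → ZMod p) *ᵥ (u ∘ e) = 0 := by
      funext i
      have h4 := congrFun hu (e i)
      simp only [mulVec, dotProduct, map_apply, Pi.zero_apply, submatrix_apply] at h4 ⊢
      rw [← h4]
      exact Equiv.sum_comp e (fun c => ((A (e i) c : ℤ) : ZMod p) * u c)
    have h5 := h _ h3
    rw [← h5]
    unfold bd
    rw [← Equiv.sum_comp e]
    rfl
  · intro h u hu
    have h3 : A.map (Int.cast : ℤ → ZMod p) *ᵥ (u ∘ e.symm) = 0 := by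
      funext i
      have h4 := congrFun hu (e.symm i)
      simp only [mulVec, dotProduct, map_apply, Pi.zero_apply, submatrix_apply,
        Equiv.apply_symm_apply] at h4 ⊢
      rw [← h4, ← Equiv.sum_comp e]
      exact sum_congr rfl fun c _ => by simp
    have h5 := h _ h3
    rw [← h5]
    unfold bd
    rw [← Equiv.sum_comp e]
    exact sum_congr rfl fun c _ => by simp

theorem matZ_rs (i : Fin (m + 1)) (b : Sym2 (Fin (m + 1)) → Bool) :
    matZ (rs i b) = (sub i b).submatrix (finSuccAboveEquiv i) (finSuccAboveEquiv i) := by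
  unfold rs
  rw [matZ_res]
  rfl

theorem crk_rs (i : Fin (m + 1)) (b : Sym2 (Fin (m + 1)) → Bool) (p : ℕ) :
    crk (matZ (rs i b)) p = crk (sub i b) p := by
  unfold crk HadN.rP
  rw [matZ_rs]
  have h2 : ((sub i b).submatrix (finSuccAboveEquiv i) (finSuccAboveEquiv i)).map
      (Int.cast : ℤ → ZMod p) = ((sub i b).map (Int.cast : ℤ → ZMod p)).submatrix
        (finSuccAboveEquiv i) (finSuccAboveEquiv i) := rfl
  rw [h2, rank_submatrix, Fintype.card_congr (finSuccAboveEquiv i)]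

theorem Ok_rs (i : Fin (m + 1)) (b : Sym2 (Fin (m + 1)) → Bool) (p : ℕ) :
    Ok p (matZ (rs i b)) (rx i b) ↔ Ok p (sub i b) (row i b) := by
  rw [matZ_rs]
  exact Ok_submatrix (finSuccAboveEquiv i) p (sub i b) (row i b)

open Classical in
/-- the deletion step for the sets of primes -/
theorem St_le (y Y : ℝ) (r : ℕ) (i : Fin (m + 1)) (b : Sym2 (Fin (m + 1)) → Bool) :
    (St y Y r (matZ b)).card ≤
      ((range (⌊Y⌋₊ + 1)).filter fun p : ℕ => (p.Prime ∧ y ≤ p ∧ r ≤ crk (matZ (rs i b)) p) ∧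
        Ok p (matZ (rs i b)) (rx i b)).card + (St y Y (r + 1) (matZ (rs i b))).card := by
  classical
  refine (card_le_card ?_).trans (card_union_le _ _)
  intro p hp
  unfold St at hp
  rw [mem_filter] at hp
  obtain ⟨hp1, hp2, hp3, hp4⟩ := hp
  have : Fact p.Prime := ⟨hp2⟩
  rw [mem_union]
  rcases del i b p r hp4 with ⟨h1, h2⟩ | h1
  · left
    rw [mem_filter]
    refine ⟨hp1, ⟨hp2, hp3, by rwa [crk_rs]⟩, (Ok_rs i b p).2 h2⟩
  · right
    unfold St
    rw [mem_filter, crk_rs]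
    exact ⟨hp1, hp2, hp3, h1⟩

/-- the split of the bits is injective -/
theorem split_inj (i : Fin (m + 1)) : Function.Injective
    fun b : Sym2 (Fin (m + 1)) → Bool => (rs i b, rx i b, b s(i, i)) := by
  intro b b' h
  simp only [Prod.mk.injEq] at h
  obtain ⟨h1, h2, h3⟩ := h
  funext z
  induction z using Sym2.ind with
  | _ k l =>
    rcases Fin.eq_self_or_eq_succAbove i k with hk | ⟨k', hk⟩
    · rcases Fin.eq_self_or_eq_succAbove i l with hl | ⟨l', hl⟩
      · rw [hk, hl]; exact h3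
      · rw [hk, hl]; exact congrFun h2 l'
    · rcases Fin.eq_self_or_eq_succAbove i l with hl | ⟨l', hl⟩
      · rw [hk, hl, Sym2.eq_swap]; exact congrFun h2 k'
      · rw [hk, hl]; exact congrFun h1 s(k', l')

theorem sum_split_le (i : Fin (m + 1)) (G : (Sym2 (Fin m) → Bool) → (Fin m → Bool) → ℝ)
    (hG : ∀ b x, 0 ≤ G b x) :
    ∑ b : Sym2 (Fin (m + 1)) → Bool, G (rs i b) (rx i b) ≤ 2 * ∑ b', ∑ x, G b' x := by
  classical
  set Φ := fun b : Sym2 (Fin (m + 1)) → Bool => (rs i b, rx i b, b s(i, i)) with hΦ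
  set H : (Sym2 (Fin m) → Bool) × (Fin m → Bool) × Bool → ℝ := fun z => G z.1 z.2.1 with hH
  calc ∑ b : Sym2 (Fin (m + 1)) → Bool, G (rs i b) (rx i b) = ∑ b, H (Φ b) := rfl
    _ = ∑ z ∈ univ.image Φ, H z := (sum_image fun b _ b' _ h => split_inj i h).symm
    _ ≤ ∑ z, H z := sum_le_sum_of_subset_of_nonneg (subset_univ _) fun z _ _ => hG _ _
    _ = 2 * ∑ b', ∑ x, G b' x := by
        rw [Fintype.sum_prod_type, mul_sum]
        refine sum_congr rfl fun b' _ => ?_
        rw [Fintype.sum_prod_type, mul_sum]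
        refine sum_congr rfl fun x _ => ?_
        rw [Fintype.sum_bool]
        simp only [hH]
        ring

/-- the zero event after deletion of a zero -/
theorem kill_del {Qs : ℕ → Prop} (hQs : ∀ q, Qs q → 2 ≤ q) {t z : ℕ}
    (b : Sym2 (Fin (m + 1)) → Bool) (h : Kill Qs t z (matZ b)) :
    ∃ i : Fin (m + 1), Kill Qs t (z - 1) (matZ (rs i b)) := by
  classical
  rcases Nat.eq_zero_or_pos z with hz | hz
  · exact ⟨0, Or.inl (by omega)⟩
  rcases h with h | ⟨q, hq, u, hu1, hu2, hu3⟩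
  · omega
  have hcard : ∀ (Q : Fin (m + 1) → Prop) (i : Fin (m + 1)), Nat.card {k // Q k} =
      (if Q i then 1 else 0) + Nat.card {k : Fin m // Q (i.succAbove k)} := by
    intro Q i
    rw [Nat.card_eq_fintype_card, Nat.card_eq_fintype_card, Fintype.card_subtype,
      Fintype.card_subtype, card_filter, card_filter, Fin.sum_univ_succAbove _ i]
  have hpos : 0 < Nat.card {k // u k = 0} := lt_of_lt_of_le hz hu3
  obtain ⟨⟨i, hi⟩⟩ : Nonempty {k // u k = 0} := (Nat.card_pos_iff.1 hpos).1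
  have hq2 := hQs q hq
  have : Fact (1 < q) := ⟨by omega⟩
  refine ⟨i, Or.inr ⟨q, hq, u ∘ i.succAbove, ?_, ?_, ?_⟩⟩
  · have h1 := hcard (fun k => IsUnit (u k)) i
    have h2 : ¬ IsUnit (u i) := by
      rw [hi]
      exact not_isUnit_zero
    rw [if_neg h2, zero_add] at h1
    rw [h1] at hu1
    exact hu1
  · funext k
    have h1 := congrFun hu2 (i.succAbove k)
    simp only [mulVec, dotProduct, map_apply, Pi.zero_apply] at h1 ⊢
    rw [Fin.sum_univ_succAbove _ i, hi, mul_zero, zero_add] at h1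
    rw [← h1]
    unfold rs
    rw [matZ_res]
    rfl
  · have h1 := hcard (fun k => u k = 0) i
    rw [if_pos hi] at h1
    have h2 : Nat.card {k : Fin m // (u ∘ i.succAbove) k = 0} =
      Nat.card {k : Fin m // u (i.succAbove k) = 0} := rfl
    rw [h2]
    omega

open Classical in
/-- normalised exponential moment -/
noncomputable def em (m : ℕ) (y Y : ℝ) (Qs : ℕ → Prop) (t z r : ℕ) : ℝ :=
  (∑ b ∈ univ.filter (fun b : Sym2 (Fin m) → Bool => (matZ b).det ≠ 0 ∧ Kill Qs t z (matZ b)),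
    (2 : ℝ) ^ (St y Y r (matZ b)).card) / 2 ^ Fintype.card (Sym2 (Fin m))

open Classical in
/-- density of the singular 0/1 matrices -/
noncomputable def p0 (m : ℕ) : ℝ :=
  ((univ.filter fun b : Sym2 (Fin m) → Bool => (matZ b).det = 0).card : ℝ) /
    2 ^ Fintype.card (Sym2 (Fin m))

theorem em_nonneg (m : ℕ) (y Y : ℝ) (Qs : ℕ → Prop) (t z r : ℕ) : 0 ≤ em m y Y Qs t z r := by
  unfold em
  positivity

theorem p0_nonneg (m : ℕ) : 0 ≤ p0 m := by
  unfold p0
  positivity

/-- deterministic bound of the number of primes -/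
theorem St_card {n : ℕ} (hm : 2 ≤ m) (hmn : m ≤ n) (β Y : ℝ) (hβ : 0 < β) (r : ℕ)
    (b : Sym2 (Fin m) → Bool) (hdet : (matZ b).det ≠ 0) :
    ((St ((n : ℝ) ^ β) Y r (matZ b)).card : ℝ) ≤ n / (2 * (β * ((r + 1 : ℕ) : ℝ))) := by
  classical
  have hS : ∀ p ∈ St ((n : ℝ) ^ β) Y r (matZ b), p.Prime ∧ (n : ℝ) ^ β ≤ p ∧
      r + 1 ≤ crk (matZ b) p := fun p hp => by
    unfold St at hp
    exact (mem_filter.1 hp).2
  have h1 := card_S_le (ι := Fin m) (by simpa using hm) (matZ b) (matZ_abs b) hdet β (r + 1)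
    (St ((n : ℝ) ^ β) Y r (matZ b)) (fun p hp => (hS p hp).1)
    (fun p hp => by
      refine le_trans ?_ (hS p hp).2.1
      rw [Fintype.card_fin]
      exact Real.rpow_le_rpow (by positivity) (by exact_mod_cast hmn) hβ.le)
    (fun p hp => by
      have h2 := (hS p hp).2.2
      unfold crk HadN.rP at h2
      omega)
  rw [le_div_iff₀ (by positivity)]
  have h3 : ((Fintype.card (Fin m) : ℕ) : ℝ) ≤ n := by
    rw [Fintype.card_fin]; exact_mod_cast hmn
  linarith

end Vale.Agent.P160.Half.MR
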