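import Vale.Agent.P160.Half.MRec613
import Vale.Agent.P160.ST12

/-! # P160: the recursion over deleted indices (safety net for part (M)), the step -/

set_option linter.unusedSectionVars false

namespace Vale.Agent.P160.Half.MR

open Finset Matrix Vale.Agent.P160 Vale.Agent.P160.Half.CO Vale.Agent.P160.Half.MTop
  Vale.Agent.P160.Half.ML

open Classical in
/-- **The step.** -/
theorem step (ε : ℝ) (hε : 0 < ε) (β : ℝ) (hβ : 0 < β) : ∃ m₀ : ℕ, ∀ m ≥ m₀, ∀ n : ℕ, m + 1 ≤ n →
    ∀ (Y : ℝ) (Qs : ℕ → Prop), (∀ q, Qs q → 2 ≤ q) → ∀ t z r : ℕ, 1 ≤ r →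
    em (m + 1) ((n : ℝ) ^ β) Y Qs t z r ≤ (m + 1) *
      ((2 : ℝ) ^ (ε * m) * (1 + (4 : ℝ) ^ (-(β * r))) ^ ((m : ℝ) / (2 * (β * r))) *
        em m ((n : ℝ) ^ β) Y Qs t (z - 1) (r + 1) + p0 m * (2 : ℝ) ^ ((n : ℝ) / (4 * β))) := by
  obtain ⟨m₀, hm₀⟩ := moment_ker' ε hε
  refine ⟨max m₀ 1, fun m hm n hmn Y Qs hQs t z r hr => ?_⟩
  have hm1 : 1 ≤ m := le_trans (le_max_right _ _) hm
  set y : ℝ := (n : ℝ) ^ β with hy
  set K : ℝ := (2 : ℝ) ^ ((n : ℝ) / (4 * β)) with hK
  set C : ℝ := (2 : ℝ) ^ ((1 + ε) * m) * (1 + (4 : ℝ) ^ (-(β * r))) ^ ((m : ℝ) / (2 * (β * r)))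
    with hC
  have hr0 : (1 : ℝ) ≤ r := by exact_mod_cast hr
  -- the two majorants
  set R : (Sym2 (Fin m) → Bool) → (Fin m → Bool) → Finset ℕ := fun b' x =>
    (range (⌊Y⌋₊ + 1)).filter fun p : ℕ => (p.Prime ∧ y ≤ p ∧ r ≤ crk (matZ b') p) ∧
      Ok p (matZ b') x with hR
  set G : (Sym2 (Fin m) → Bool) → (Fin m → Bool) → ℝ := fun b' x =>
    (if (matZ b').det ≠ 0 ∧ Kill Qs t (z - 1) (matZ b') then
      (2 : ℝ) ^ (R b' x).card * 2 ^ (St y Y (r + 1) (matZ b')).card else 0) +
    (if (matZ b').det = 0 then K else 0) with hG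
  have hG0 : ∀ b' x, 0 ≤ G b' x := by
    intro b' x
    simp only [hG]
    have hK0 : 0 ≤ K := by positivity
    apply add_nonneg
    · split_ifs <;> positivity
    · split_ifs
      · exact hK0
      · exact le_rfl
  have h1 : ∀ b ∈ univ.filter (fun b : Sym2 (Fin (m + 1)) → Bool =>
      (matZ b).det ≠ 0 ∧ Kill Qs t z (matZ b)),
      (2 : ℝ) ^ (St y Y r (matZ b)).card ≤ ∑ i : Fin (m + 1), G (rs i b) (rx i b) := by
    intro b hb
    obtain ⟨-, hdet, hkill⟩ := mem_filter.1 hb
    obtain ⟨i, hi⟩ := kill_del hQs b hkill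
    refine le_trans ?_ (single_le_sum (fun j _ => hG0 (rs j b) (rx j b)) (mem_univ i))
    by_cases h2 : (matZ (rs i b)).det = 0
    · have h3 : (2 : ℝ) ^ (St y Y r (matZ b)).card ≤ K := by
        rw [← Real.rpow_natCast, hK]
        apply Real.rpow_le_rpow_of_exponent_le (by norm_num)
        have h4 := St_card (m := m + 1) (n := n) (by omega) hmn β Y hβ r b hdet
        refine h4.trans ?_
        apply div_le_div_of_nonneg_left (by positivity) (by positivity)
        push_cast
        nlinarith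
      simp only [hG]
      rw [if_neg (by rw [h2]; simp), if_pos h2, zero_add]
      exact h3
    · simp only [hG]
      rw [if_pos ⟨h2, hi⟩, if_neg h2, add_zero, ← pow_add]
      exact pow_le_pow_right₀ (by norm_num) (St_le y Y r i b)
  -- the row moment
  have h2 : ∀ b' : Sym2 (Fin m) → Bool, (matZ b').det ≠ 0 →
      ∑ x : Fin m → Bool, (2 : ℝ) ^ (R b' x).card ≤ C := by
    intro b' hdet
    have h3 := hm₀ (Fin m) (by rw [Fintype.card_fin]; exact le_trans (le_max_left _ _) hm)
      (matZ b') hdet (matZ_abs b') β hβ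
      ((range (⌊Y⌋₊ + 1)).filter fun p : ℕ => (p.Prime ∧ y ≤ p ∧ r ≤ crk (matZ b') p)) r hr
      (fun p hp => (mem_filter.1 hp).2.1)
      (fun p hp => by
        refine le_trans ?_ (mem_filter.1 hp).2.2.1
        rw [Fintype.card_fin, hy]
        exact Real.rpow_le_rpow (by positivity) (by exact_mod_cast (by omega : m ≤ n)) hβ.le)
      (fun p hp => by
        have h4 := (mem_filter.1 hp).2.2.2
        unfold crk HadN.rP at h4
        omega) 2 (by norm_num)
    rw [Fintype.card_fin] at h3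
    have h5 : (1 : ℝ) + (2 - 1) * (4 : ℝ) ^ (-(β * r)) = 1 + (4 : ℝ) ^ (-(β * r)) := by ring
    rw [h5] at h3
    refine le_trans (le_of_eq (sum_congr rfl fun x _ => ?_)) h3
    rw [filter_filter]
  -- summation
  have h3 : ∑ b ∈ univ.filter (fun b : Sym2 (Fin (m + 1)) → Bool =>
      (matZ b).det ≠ 0 ∧ Kill Qs t z (matZ b)), (2 : ℝ) ^ (St y Y r (matZ b)).card ≤
      (m + 1) * (2 * (∑ b' ∈ univ.filter (fun b : Sym2 (Fin m) → Bool =>
        (matZ b).det ≠ 0 ∧ Kill Qs t (z - 1) (matZ b)),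
          (2 : ℝ) ^ (St y Y (r + 1) (matZ b')).card * C +
        ((univ.filter fun b : Sym2 (Fin m) → Bool => (matZ b).det = 0).card : ℝ) *
          (2 ^ m * K))) := by
    calc _ ≤ ∑ b ∈ univ.filter (fun b : Sym2 (Fin (m + 1)) → Bool =>
          (matZ b).det ≠ 0 ∧ Kill Qs t z (matZ b)), ∑ i : Fin (m + 1), G (rs i b) (rx i b) :=
          sum_le_sum h1
      _ ≤ ∑ b : Sym2 (Fin (m + 1)) → Bool, ∑ i : Fin (m + 1), G (rs i b) (rx i b) :=
          sum_le_sum_of_subset_of_nonneg (subset_univ _) fun b _ _ =>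
            sum_nonneg fun i _ => hG0 _ _
      _ = ∑ i : Fin (m + 1), ∑ b : Sym2 (Fin (m + 1)) → Bool, G (rs i b) (rx i b) := sum_comm
      _ ≤ ∑ _i : Fin (m + 1), (2 * ∑ b', ∑ x, G b' x) :=
          sum_le_sum fun i _ => sum_split_le i G hG0
      _ = (m + 1) * (2 * ∑ b', ∑ x, G b' x) := by
          rw [sum_const, card_univ, Fintype.card_fin, nsmul_eq_mul]
          push_cast
          ring
      _ ≤ _ := by
          refine mul_le_mul_of_nonneg_left (mul_le_mul_of_nonneg_left ?_ (by norm_num))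
            (by positivity)
          have h4 : ∀ b' : Sym2 (Fin m) → Bool, ∑ x, G b' x ≤
              (if (matZ b').det ≠ 0 ∧ Kill Qs t (z - 1) (matZ b') then
                (2 : ℝ) ^ (St y Y (r + 1) (matZ b')).card * C else 0) +
              (if (matZ b').det = 0 then 2 ^ m * K else 0) := by
            intro b'
            simp only [hG]
            rw [sum_add_distrib]
            apply add_le_add
            · split_ifs with h5
              · rw [← sum_mul, mul_comm]
                exact mul_le_mul_of_nonneg_left (h2 b' h5.1) (by positivity)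
              · simp
            · split_ifs with h5
              · rw [sum_const, card_univ, Fintype.card_fun, Fintype.card_bool, Fintype.card_fin,
                  nsmul_eq_mul]
                push_cast
                exact le_rfl
              · simp
          refine (sum_le_sum fun b' _ => h4 b').trans (le_of_eq ?_)
          rw [sum_add_distrib, ← sum_filter, ← sum_filter, sum_const, nsmul_eq_mul]
  have hbits : (2 : ℝ) ^ Fintype.card (Sym2 (Fin (m + 1))) =
      2 ^ (m + 1) * 2 ^ Fintype.card (Sym2 (Fin m)) := by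
    exact_mod_cast SgnRed.card_bits m
  unfold em p0
  rw [div_le_iff₀ (by positivity)]
  refine h3.trans (le_of_eq ?_)
  rw [hbits, ← sum_mul]
  have h7 : (2 : ℝ) ^ ((1 + ε) * m) = 2 ^ m * (2 : ℝ) ^ (ε * m) := by
    rw [← Real.rpow_natCast 2 m, ← Real.rpow_add (by norm_num)]
    congr 1
    ring
  rw [hC, h7]
  have hD : (2 : ℝ) ^ Fintype.card (Sym2 (Fin m)) ≠ 0 := by positivity
  generalize (1 + (4 : ℝ) ^ (-(β * r))) ^ ((m : ℝ) / (2 * (β * r))) = W
  generalize (2 : ℝ) ^ (ε * m) = E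
  generalize (2 : ℝ) ^ Fintype.card (Sym2 (Fin m)) = D at hD ⊢
  field_simp
  ring

end Vale.Agent.P160.Half.MR
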