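import Vale.Agent.P160.Half.MTop
import Vale.Agent.P160.Half.LODig5

/-! # P160, rate 1/2, part (M), milestone (c): the one-row Littlewood–Offord bound inside `StmtM`

Exponential moment of the number of primes of corank `≥ 2`, row by row:
`S_t(P) = {p ∈ [y, Y] : corank_p P ≥ t + 1}`, `R_t(A, x) = {p : corank_p A ≥ t, x ⟂ ker_p A}`,
`|S_t(P)| ≤ |R_t(P', x)| + |S_{t+1}(P')|` for `P'` = `P` without the index `i`, `x` = row `i`, and
`∑_x 2 ^ |R_t(A, x)| = ∑_F #{x ⟂ ker_p A, p ∈ F} ≤ 2 ^ (m + ε m) (1 + 4 ^ (- b t)) ^ (m / (2 b t))` (volume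
Littlewood–Offord). -/

open Finset Matrix

namespace Vale.Agent.P160.Half.MRow205

open Vale.Agent.P160.Half Vale.Agent.P160.Half.MTop
open Vale.Agent.P160.Half.HadN (rQ rP)

/-! ## Deleting an index: coranks -/

section del

variable {K : Type*} [Field K] {m : ℕ}

/-- if some kernel vector of the minor is not orthogonal to the deleted row, the rank goes up by two -/
theorem rank_del (P : Matrix (Fin (m + 1)) (Fin (m + 1)) K) (hP : ∀ i j, P i j = P j i)
    (i : Fin (m + 1)) (u : Fin m → K) (hu : (P.submatrix i.succAbove i.succAbove) *ᵥ u = 0)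
    (hxu : ∑ c, P i (i.succAbove c) * u c ≠ 0) :
    (P.submatrix i.succAbove i.succAbove).rank + 2 ≤ P.rank := by
  classical
  set P' := P.submatrix i.succAbove i.succAbove with hP'
  have hmv : ∀ (w : Fin (m + 1) → K) (j : Fin (m + 1)),
      (P *ᵥ w) j = P j i * w i + ∑ k, P j (i.succAbove k) * w (i.succAbove k) := by
    intro w j
    rw [mulVec, dotProduct, Fin.sum_univ_succAbove _ i]
  have hw0 : ∀ w : Fin (m + 1) → K, P *ᵥ w = 0 → w i = 0 := by
    intro w hw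
    have h1 : ∀ k, (P' *ᵥ fun c => w (i.succAbove c)) k = - (P i (i.succAbove k) * w i) := by
      intro k
      have h2 := congrFun hw (i.succAbove k)
      rw [hmv] at h2
      have h3 : (P' *ᵥ fun c => w (i.succAbove c)) k =
          ∑ c, P (i.succAbove k) (i.succAbove c) * w (i.succAbove c) := rfl
      rw [h3, hP i (i.succAbove k)]
      have h4 : (0 : Fin (m + 1) → K) (i.succAbove k) = 0 := rfl
      rw [h4] at h2
      linear_combination h2
    have h5 : u ⬝ᵥ (P' *ᵥ fun c => w (i.succAbove c)) = 0 := by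
      rw [dotProduct_mulVec, ← mulVec_transpose, show P'.transpose = P' from by
        ext a b; exact hP _ _, hu, zero_dotProduct]
    have h6 : u ⬝ᵥ (P' *ᵥ fun c => w (i.succAbove c)) =
        - ((∑ c, P i (i.succAbove c) * u c) * w i) := by
      rw [dotProduct, sum_mul, ← sum_neg_distrib]
      refine sum_congr rfl fun k _ => ?_
      rw [h1 k]
      ring
    rw [h5] at h6
    have h7 : (∑ c, P i (i.succAbove c) * u c) * w i = 0 := by
      rw [← neg_eq_zero]; exact h6.symm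
    rcases mul_eq_zero.1 h7 with h | h
    · exact absurd h hxu
    · exact h
  let res : (Fin (m + 1) → K) →ₗ[K] (Fin m → K) := LinearMap.funLeft K K i.succAbove
  have hres : ∀ w k, res w k = w (i.succAbove k) := fun w k => rfl
  let V := LinearMap.ker P.mulVecLin
  let V' := LinearMap.ker P'.mulVecLin
  have hinj : Function.Injective (res.domRestrict V) := by
    rw [injective_iff_map_eq_zero]
    rintro ⟨w, hw⟩ h
    have hw' : P *ᵥ w = 0 := by simpa [V] using hw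
    apply Subtype.ext
    funext j
    refine Fin.succAboveCases i ?_ (fun k => ?_) j
    · exact hw0 w hw'
    · exact congrFun h k
  have hle : Submodule.map res V < V' := by
    rw [lt_iff_le_and_ne]
    constructor
    · rintro _ ⟨w, hw, rfl⟩
      have hw' : P *ᵥ w = 0 := by simpa [V] using hw
      rw [LinearMap.mem_ker, mulVecLin_apply]
      funext k
      have h2 := congrFun hw' (i.succAbove k)
      rw [hmv, hw0 w hw', mul_zero, zero_add] at h2
      exact h2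
    · intro heq
      have hu' : u ∈ V' := by rw [LinearMap.mem_ker, mulVecLin_apply]; exact hu
      rw [← heq] at hu'
      obtain ⟨w, hw, hwu⟩ := hu'
      have hw' : P *ᵥ w = 0 := by simpa [V] using hw
      apply hxu
      have h2 := congrFun hw' i
      rw [hmv, hw0 w hw', mul_zero, zero_add] at h2
      rw [← hwu]
      exact h2
  have h1 := Submodule.finrank_lt_finrank_of_lt hle
  have h2 : Module.finrank K (Submodule.map res V) = Module.finrank K V := by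
    have h3 : Submodule.map res V = LinearMap.range (res.domRestrict V) := by
      ext y
      simp [Submodule.mem_map]
    rw [h3]
    exact LinearMap.finrank_range_of_inj hinj
  rw [h2] at h1
  have h4 := LinearMap.finrank_range_add_finrank_ker P.mulVecLin
  have h5 := LinearMap.finrank_range_add_finrank_ker P'.mulVecLin
  rw [Module.finrank_fintype_fun_eq_card, Fintype.card_fin] at h4 h5
  unfold Matrix.rank
  show Module.finrank K (LinearMap.range P'.mulVecLin) + 2 ≤ _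
  have h6 : Module.finrank K V = Module.finrank K (LinearMap.ker P.mulVecLin) := rfl
  have h7 : Module.finrank K V' = Module.finrank K (LinearMap.ker P'.mulVecLin) := rfl
  omega

end del

/-! ## The two sets of primes -/

open Classical in
/-- the primes `p ∈ [y, Y]` of corank at least `t + 1` -/
noncomputable def St {m : ℕ} (P : Matrix (Fin m) (Fin m) ℤ) (t : ℕ) (y Y : ℝ) : Finset ℕ :=
  (range (⌊Y⌋₊ + 1)).filter fun p => p.Prime ∧ y ≤ p ∧ t + 1 ≤ crk P p

/-- `x` is orthogonal to the kernel of `A` modulo `p` -/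
def Perp {m : ℕ} (A : Matrix (Fin m) (Fin m) ℤ) (x : Fin m → Bool) (p : ℕ) : Prop :=
  ∀ u : Fin m → ZMod p, (A.map (Int.cast : ℤ → ZMod p)) *ᵥ u = 0 → ∑ c, (if x c then u c else 0) = 0

open Classical in
/-- the primes `p ∈ [y, Y]` of corank at least `t` with `x ⟂ ker_p A` -/
noncomputable def Rt {m : ℕ} (A : Matrix (Fin m) (Fin m) ℤ) (x : Fin m → Bool) (t : ℕ) (y Y : ℝ) : Finset ℕ :=
  (range (⌊Y⌋₊ + 1)).filter fun p => p.Prime ∧ y ≤ p ∧ t ≤ crk A p ∧ Perp A x p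

theorem St_one {m : ℕ} (P : Matrix (Fin m) (Fin m) ℤ) (y Y : ℝ) : St P 1 y Y = S2 P y Y := rfl

/-- Hadamard: `y ^ (2 t |S|) ≤ m ^ m` -/
theorem had {m : ℕ} (A : Matrix (Fin m) (Fin m) ℤ) (hA : A.det ≠ 0) (h1 : ∀ i j, |A i j| ≤ 1) (t : ℕ)
    (S : Finset ℕ) (y : ℝ) (hy : 0 ≤ y) (hS : ∀ p ∈ S, p.Prime ∧ y ≤ p ∧ t ≤ crk A p) :
    y ^ (2 * t * S.card) ≤ (m : ℝ) ^ m := by
  have hr : rQ A = m := by
    have h : (A.map (Int.cast : ℤ → ℚ)).det ≠ 0 := by
      have h2 := RingHom.map_det (Int.castRingHom ℚ) A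
      have h3 : (A.map (Int.cast : ℤ → ℚ)).det = (A.det : ℚ) := by simpa using h2.symm
      rw [h3]
      exact_mod_cast hA
    have h4 : (A.map (Int.cast : ℤ → ℚ)).rank = Fintype.card (Fin m) := Matrix.rank_of_det_ne_zero h
    rwa [Fintype.card_fin] at h4
  have h2 := HadN.prod_pow_dvd A S (fun p hp => (hS p hp).1) h1
  rw [hr] at h2
  have h3 : y ^ (t * S.card) ≤ ((∏ p ∈ S, p ^ (m - rP p A) : ℕ) : ℝ) := by
    rw [Nat.cast_prod, pow_mul, ← prod_const]
    refine prod_le_prod (fun _ _ => by positivity) fun p hp => ?_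
    obtain ⟨hp1, hp2, hp3⟩ := hS p hp
    have hp1' : (1 : ℝ) ≤ p := by exact_mod_cast hp1.one_lt.le
    rw [Nat.cast_pow]
    have hp4 : t ≤ m - rP p A := by
      have := hp3
      unfold crk at this
      rwa [Fintype.card_fin] at this
    calc y ^ t ≤ (p : ℝ) ^ t := pow_le_pow_left₀ hy hp2 _
      _ ≤ (p : ℝ) ^ (m - rP p A) := pow_le_pow_right₀ hp1' hp4
  have h4 : (((∏ p ∈ S, p ^ (m - rP p A) : ℕ)) : ℝ) ^ 2 ≤ (m : ℝ) ^ m := by exact_mod_cast h2
  calc y ^ (2 * t * S.card) = (y ^ (t * S.card)) ^ 2 := by rw [← pow_mul]; ring_nf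
    _ ≤ _ := (pow_le_pow_left₀ (by positivity) h3 2).trans h4

/-- `b t |S| ≤ m / 2` -/
theorem had' {m : ℕ} (hm : 2 ≤ m) (A : Matrix (Fin m) (Fin m) ℤ) (hA : A.det ≠ 0)
    (h1 : ∀ i j, |A i j| ≤ 1) (t : ℕ) (S : Finset ℕ) (b y : ℝ) (hy : (m : ℝ) ^ b ≤ y)
    (hS : ∀ p ∈ S, p.Prime ∧ y ≤ p ∧ t ≤ crk A p) : b * t * S.card ≤ m / 2 := by
  have hm1 : (1 : ℝ) < m := by exact_mod_cast hm
  have hlog : 0 < Real.log m := Real.log_pos hm1
  have h := had A hA h1 t S ((m : ℝ) ^ b) (by positivity) fun p hp =>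
    ⟨(hS p hp).1, hy.trans (hS p hp).2.1, (hS p hp).2.2⟩
  have h2 := Real.log_le_log (by positivity) h
  rw [Real.log_pow, Real.log_pow, Real.log_rpow (by linarith)] at h2
  push_cast at h2
  have h3 : (b * t * S.card) * (2 * Real.log m) ≤ (m / 2) * (2 * Real.log m) := by linarith
  exact le_of_mul_le_mul_right h3 (by positivity)

/-! ## The input: volume Littlewood–Offord -/

/-- **Input** (helper159): rows orthogonal to many kernels are rare -/
def LoKer : Prop := ∀ ε : ℝ, 0 < ε → ∀ b : ℝ, 0 < b → ∃ m₀ : ℕ, ∀ m ≥ m₀, ∀ A : Matrix (Fin m) (Fin m) ℤ,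
  (∀ i j, A i j = 0 ∨ A i j = 1) → A.det ≠ 0 → ∀ (t : ℕ) (F : Finset ℕ), (∀ p ∈ F, p.Prime) →
  (∀ p ∈ F, (m : ℝ) ^ b ≤ p) → (∀ p ∈ F, t + (A.map (Int.cast : ℤ → ZMod p)).rank ≤ m) →
  b * t * F.card ≤ m / 2 → ∀ X : Finset (Fin m → Bool), (∀ x ∈ X, ∀ p ∈ F, Perp A x p) →
  (X.card : ℝ) ≤ 2 ^ ((m : ℝ) + ε * m - 2 * b * t * F.card)

/-- exponential moment for one row -/
theorem moment (hLO : LoKer) (ε b : ℝ) (hε : 0 < ε) (hb : 0 < b) : ∃ m₀ : ℕ, ∀ m ≥ m₀,
    ∀ A : Matrix (Fin m) (Fin m) ℤ, (∀ i j, A i j = 0 ∨ A i j = 1) → A.det ≠ 0 → ∀ t : ℕ, 0 < t →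
    ∀ y Y : ℝ, (m : ℝ) ^ b ≤ y →
    ∑ x : Fin m → Bool, (2 : ℝ) ^ (Rt A x t y Y).card ≤
      2 ^ ((m : ℝ) + ε * m) * (1 + (2 : ℝ) ^ (-(2 * b * t))) ^ ((m : ℝ) / (2 * b * t)) := by
  classical
  obtain ⟨m₀, h0⟩ := hLO ε hε b hb
  refine ⟨max m₀ 2, fun m hm A hA hdet t ht y Y hy => ?_⟩
  have hm0 : m₀ ≤ m := (le_max_left _ _).trans hm
  have hm2 : 2 ≤ m := (le_max_right _ _).trans hm
  have habs : ∀ i j, |A i j| ≤ 1 := fun i j => by
    rcases hA i j with h | h <;> rw [h] <;> simp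
  have ht0 : (0 : ℝ) < t := by exact_mod_cast ht
  set q : ℝ := (2 : ℝ) ^ (-(2 * b * t)) with hq
  have hq0 : 0 < q := by positivity
  set T : Finset ℕ := (range (⌊Y⌋₊ + 1)).filter fun p => p.Prime ∧ y ≤ p ∧ t ≤ crk A p with hT
  have hTm : ∀ p ∈ T, p.Prime ∧ y ≤ p ∧ t ≤ crk A p := fun p hp => (mem_filter.1 hp).2
  have hTc : (T.card : ℝ) ≤ (m : ℝ) / (2 * b * t) := by
    have := had' hm2 A hdet habs t T b y hy hTm
    rw [le_div_iff₀ (by positivity)]
    linarith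
  have hsub : ∀ x, Rt A x t y Y ⊆ T := fun x p hp => by
    have h := mem_filter.1 hp
    exact mem_filter.2 ⟨h.1, h.2.1, h.2.2.1, h.2.2.2.1⟩
  have hpow : ∀ x : Fin m → Bool, (2 : ℝ) ^ (Rt A x t y Y).card =
      ∑ F ∈ T.powerset, if F ⊆ Rt A x t y Y then (1 : ℝ) else 0 := by
    intro x
    rw [← sum_filter]
    have h1 : T.powerset.filter (fun F => F ⊆ Rt A x t y Y) = (Rt A x t y Y).powerset := by
      ext F
      simp only [mem_filter, mem_powerset]
      exact ⟨fun h => h.2, fun h => ⟨h.trans (hsub x), h⟩⟩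
    rw [h1, sum_const, card_powerset]
    simp
  calc ∑ x : Fin m → Bool, (2 : ℝ) ^ (Rt A x t y Y).card
      = ∑ F ∈ T.powerset, ∑ x : Fin m → Bool, (if F ⊆ Rt A x t y Y then (1 : ℝ) else 0) := by
        rw [sum_comm]
        exact sum_congr rfl fun x _ => hpow x
    _ ≤ ∑ F ∈ T.powerset, 2 ^ ((m : ℝ) + ε * m) * q ^ F.card := by
        refine sum_le_sum fun F hF => ?_
        have hFT : F ⊆ T := mem_powerset.1 hF
        rw [← sum_filter, sum_const, nsmul_eq_mul, mul_one]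
        have h1 := h0 m hm0 A hA hdet t F (fun p hp => (hTm p (hFT hp)).1)
          (fun p hp => hy.trans (hTm p (hFT hp)).2.1)
          (fun p hp => by
            have h2 := (hTm p (hFT hp)).2.2
            unfold crk at h2
            rw [Fintype.card_fin] at h2
            have h3 : (A.map (Int.cast : ℤ → ZMod p)).rank = rP p A := rfl
            rw [h3]
            omega)
          (had' hm2 A hdet habs t F b y hy fun p hp => hTm p (hFT hp))
          (univ.filter fun x => F ⊆ Rt A x t y Y)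
          (fun x hx p hp => ((mem_filter.1 ((mem_filter.1 hx).2 hp)).2.2.2.2))
        refine h1.trans (le_of_eq ?_)
        rw [hq, ← Real.rpow_natCast, ← Real.rpow_mul (by norm_num), ← Real.rpow_add (by norm_num)]
        congr 1
        ring
    _ = 2 ^ ((m : ℝ) + ε * m) * (1 + q) ^ T.card := by
        rw [← mul_sum]
        congr 1
        have h2 := Finset.sum_pow_mul_eq_add_pow q 1 T
        rw [add_comm 1 q, ← h2]
        exact sum_congr rfl fun F _ => by rw [one_pow, mul_one]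
    _ ≤ 2 ^ ((m : ℝ) + ε * m) * (1 + q) ^ ((m : ℝ) / (2 * b * t)) := by
        refine mul_le_mul_of_nonneg_left ?_ (by positivity)
        rw [← Real.rpow_natCast]
        exact Real.rpow_le_rpow_of_exponent_le (by linarith) hTc

/-! ## Deleting an index -/

section step

variable {m : ℕ}

/-- the bits without the index `i` -/
def del (i : Fin (m + 1)) (b : Sym2 (Fin (m + 1)) → Bool) : Sym2 (Fin m) → Bool :=
  fun e => b (e.map i.succAbove)

/-- the row of the index `i` -/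
def row (i : Fin (m + 1)) (b : Sym2 (Fin (m + 1)) → Bool) : Fin m → Bool :=
  fun c => b s(i, i.succAbove c)

/-- the data of a matrix with the index `i` deleted -/
def dat (i : Fin (m + 1)) (b : Sym2 (Fin (m + 1)) → Bool) :
    (Sym2 (Fin m) → Bool) × (Fin m → Bool) × Bool :=
  (del i b, row i b, b s(i, i))

theorem dat_inj (j : Fin (m + 1)) : Function.Injective (dat j) := by
  intro b b' h
  have h1 : del j b = del j b' := congrArg Prod.fst h
  have h2 := congrArg (fun x => x.2.1) h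
  have h3 : b s(j, j) = b' s(j, j) := congrArg (fun x => x.2.2) h
  have h4 : ∀ k, b s(j, j.succAbove k) = b' s(j, j.succAbove k) := fun k => congrFun h2 k
  funext e
  induction e using Sym2.ind with
  | _ x y =>
    refine Fin.succAboveCases j (α := fun x => b s(x, y) = b' s(x, y)) ?_ (fun k => ?_) x
    · refine Fin.succAboveCases j (α := fun y => b s(j, y) = b' s(j, y)) h3 (fun l => h4 l) y
    · refine Fin.succAboveCases j
        (α := fun y => b s(j.succAbove k, y) = b' s(j.succAbove k, y)) ?_ (fun l => ?_) y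
      · rw [Sym2.eq_swap]; exact h4 k
      · exact congrFun h1 s(k, l)

theorem matZ_del (i : Fin (m + 1)) (b : Sym2 (Fin (m + 1)) → Bool) :
    matZ (del i b) = (matZ b).submatrix i.succAbove i.succAbove := rfl

theorem crk_step (i : Fin (m + 1)) (b : Sym2 (Fin (m + 1)) → Bool) (p : ℕ) (hp : p.Prime) (t : ℕ)
    (h : t + 1 ≤ crk (matZ b) p) :
    (t ≤ crk (matZ (del i b)) p ∧ Perp (matZ (del i b)) (row i b) p) ∨
      t + 2 ≤ crk (matZ (del i b)) p := by
  classical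
  have : Fact p.Prime := ⟨hp⟩
  set P : Matrix (Fin (m + 1)) (Fin (m + 1)) (ZMod p) := (matZ b).map (Int.cast : ℤ → ZMod p) with hP
  have hP' : (matZ (del i b)).map (Int.cast : ℤ → ZMod p) =
      P.submatrix i.succAbove i.succAbove := rfl
  have hs : ∀ x y, P x y = P y x := fun x y => by
    rw [hP, map_apply, map_apply, matZ_symm]
  have hr : (P.submatrix i.succAbove i.succAbove).rank ≤ P.rank := Matrix.rank_submatrix_le _ _ _
  unfold crk at h ⊢
  rw [Fintype.card_fin] at h ⊢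
  have e1 : rP p (matZ b) = P.rank := rfl
  have e2 : rP p (matZ (del i b)) = (P.submatrix i.succAbove i.succAbove).rank := rfl
  rw [e1] at h
  rw [e2]
  by_cases hx : Perp (matZ (del i b)) (row i b) p
  · exact Or.inl ⟨by omega, hx⟩
  · refine Or.inr ?_
    unfold Perp at hx
    push Not at hx
    obtain ⟨u, hu, hxu⟩ := hx
    rw [hP'] at hu
    have h2 : ∑ c, P i (i.succAbove c) * u c ≠ 0 := by
      have h3 : ∑ c, P i (i.succAbove c) * u c = ∑ c, (if row i b c then u c else 0) := by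
        refine sum_congr rfl fun c _ => ?_
        rw [hP, map_apply]
        unfold matZ row
        split_ifs <;> simp
      rw [h3]
      exact hxu
    have h4 := rank_del P hs i u hu h2
    have h5 : P.rank ≤ m + 1 := by
      have := P.rank_le_width
      exact this
    omega

theorem St_step (i : Fin (m + 1)) (b : Sym2 (Fin (m + 1)) → Bool) (t : ℕ) (y Y : ℝ) :
    (St (matZ b) t y Y).card ≤ (Rt (matZ (del i b)) (row i b) t y Y).card +
      (St (matZ (del i b)) (t + 1) y Y).card := by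
  classical
  refine (card_le_card ?_).trans (card_union_le _ _)
  intro p hp
  obtain ⟨h1, h2, h3, h4⟩ := mem_filter.1 hp
  rw [mem_union]
  rcases crk_step i b p h2 t h4 with h | h
  · exact Or.inl (mem_filter.2 ⟨h1, h2, h3, h.1, h.2⟩)
  · exact Or.inr (mem_filter.2 ⟨h1, h2, h3, h⟩)

theorem kill_step (b : Sym2 (Fin (m + 1)) → Bool) (Qs : ℕ → Prop) (hQ : ∀ q, Qs q → 2 ≤ q) (t z : ℕ)
    (h : Kill Qs t z (matZ b)) : ∃ i : Fin (m + 1), Kill Qs t (z - 1) (matZ (del i b)) := by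
  classical
  by_cases hz : z ≤ 1
  · exact ⟨0, Or.inl (by omega)⟩
  rcases h with h | ⟨q, hq, u, hu, hPu, hzu⟩
  · omega
  have hq2 := hQ q hq
  have : Fact (1 < q) := ⟨by omega⟩
  have : NeZero q := ⟨by omega⟩
  have hcard : Nat.card {i // u i = 0} = (univ.filter fun i => u i = 0).card := by
    rw [Nat.card_eq_fintype_card, Fintype.card_subtype]
  have hpos : 0 < (univ.filter fun i => u i = 0).card := by
    rw [← hcard]; omega
  obtain ⟨i, hi⟩ := card_pos.1 hpos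
  have hui : u i = 0 := (mem_filter.1 hi).2
  refine ⟨i, Or.inr ⟨q, hq, fun c => u (i.succAbove c), ?_, ?_, ?_⟩⟩
  · refine hu.trans ?_
    have h1 : ∀ j : {j // IsUnit (u j)}, ∃ c, i.succAbove c = (j : Fin (m + 1)) := by
      rintro ⟨j, hj⟩
      apply Fin.exists_succAbove_eq
      rintro rfl
      rw [hui] at hj
      exact not_isUnit_zero hj
    choose g hg using h1
    refine Nat.card_le_card_of_injective
      (fun j : {j // IsUnit (u j)} => (⟨g j, by rw [hg j]; exact j.2⟩ : {c // IsUnit (u (i.succAbove c))})) ?_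
    intro j j' hjj
    have h2 : g j = g j' := congrArg Subtype.val hjj
    apply Subtype.ext
    rw [← hg j, ← hg j', h2]
  · funext k
    have h2 := congrFun hPu (i.succAbove k)
    rw [mulVec, dotProduct, Fin.sum_univ_succAbove _ i, hui, mul_zero, zero_add] at h2
    exact h2
  · have h3 : Nat.card {c // u (i.succAbove c) = 0} =
        (univ.filter fun c => u (i.succAbove c) = 0).card := by
      rw [Nat.card_eq_fintype_card, Fintype.card_subtype]
    have h4 : (univ.filter fun j => u j = 0).card =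
        1 + (univ.filter fun c => u (i.succAbove c) = 0).card := by
      rw [card_filter, card_filter, Fin.sum_univ_succAbove _ i, if_pos hui]
    rw [h3]
    rw [hcard] at hzu
    omega

end step

/-! ## The exponential moment of the number of primes -/

/-- events of the bits, every size -/
abbrev Ev : Type := ∀ m : ℕ, ℕ → (Sym2 (Fin m) → Bool) → Prop

/-- the event is inherited by some minor -/
def Hered (E : Ev) : Prop := ∀ (m z : ℕ) (b : Sym2 (Fin (m + 1)) → Bool), E (m + 1) z b →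
  ∃ i : Fin (m + 1), E m (z - 1) (del i b)

open Classical in
/-- exponential moment of `|S_t|` on the nonsingular matrices with the event `E` -/
noncomputable def Gm (E : Ev) (m t z : ℕ) (y Y : ℝ) : ℝ :=
  ∑ b : Sym2 (Fin m) → Bool, if (matZ b).det ≠ 0 ∧ E m z b then
    (2 : ℝ) ^ (St (matZ b) t y Y).card else 0

open Classical in
/-- number of singular matrices -/
noncomputable def sing (m : ℕ) : ℝ := ((univ.filter fun b : Sym2 (Fin m) → Bool => (matZ b).det = 0).card : ℝ)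

theorem Gm_nonneg (E : Ev) (m t z : ℕ) (y Y : ℝ) : 0 ≤ Gm E m t z y Y := by
  unfold Gm
  exact sum_nonneg fun b _ => by split_ifs <;> positivity

theorem Gm_step (E : Ev) (hE : Hered E) (m t z : ℕ) (y Y M H : ℝ) (hH0 : 0 ≤ H)
    (hM : ∀ A : Matrix (Fin m) (Fin m) ℤ, (∀ i j, A i j = 0 ∨ A i j = 1) → A.det ≠ 0 →
      ∑ x : Fin m → Bool, (2 : ℝ) ^ (Rt A x t y Y).card ≤ M)
    (hH : ∀ b : Sym2 (Fin (m + 1)) → Bool, (matZ b).det ≠ 0 → (2 : ℝ) ^ (St (matZ b) t y Y).card ≤ H) :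
    Gm E (m + 1) t z y Y ≤ (m + 1) * (2 * (M * Gm E m (t + 1) (z - 1) y Y) + 2 * 2 ^ m * H * sing m) := by
  classical
  let F : (Sym2 (Fin m) → Bool) × (Fin m → Bool) × Bool → ℝ := fun d =>
    (if (matZ d.1).det ≠ 0 ∧ E m (z - 1) d.1 then
      (2 : ℝ) ^ (Rt (matZ d.1) d.2.1 t y Y).card * 2 ^ (St (matZ d.1) (t + 1) y Y).card else 0) +
    (if (matZ d.1).det = 0 then H else 0)
  have hF0 : ∀ d, 0 ≤ F d := fun d => by
    simp only [F]
    refine add_nonneg ?_ ?_ <;> split_ifs <;> positivity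
  have h1 : Gm E (m + 1) t z y Y ≤ ∑ b : Sym2 (Fin (m + 1)) → Bool, ∑ i, F (dat i b) := by
    unfold Gm
    refine sum_le_sum fun b _ => ?_
    split_ifs with hb
    · obtain ⟨i, hi⟩ := hE m z b hb.2
      refine le_trans ?_ (single_le_sum (f := fun i => F (dat i b)) (fun i _ => hF0 _) (mem_univ i))
      show _ ≤ (if (matZ (del i b)).det ≠ 0 ∧ E m (z - 1) (del i b) then
        (2 : ℝ) ^ (Rt (matZ (del i b)) (row i b) t y Y).card *
          2 ^ (St (matZ (del i b)) (t + 1) y Y).card else 0) +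
        (if (matZ (del i b)).det = 0 then H else 0)
      by_cases hd : (matZ (del i b)).det = 0
      · rw [if_neg (fun h => h.1 hd), if_pos hd, zero_add]
        exact hH b hb.1
      · rw [if_pos ⟨hd, hi⟩, if_neg hd, add_zero, ← pow_add]
        exact pow_le_pow_right₀ (by norm_num) (St_step i b t y Y)
    · exact sum_nonneg fun i _ => hF0 _
  have h2 : ∀ i : Fin (m + 1), ∑ b : Sym2 (Fin (m + 1)) → Bool, F (dat i b) ≤ ∑ d, F d := by
    intro i
    rw [← sum_image (s := univ) (g := dat i) (f := F) fun x _ y _ h => dat_inj i h]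
    exact sum_le_univ_sum_of_nonneg hF0
  have h3 : ∑ d, F d ≤ 2 * (M * Gm E m (t + 1) (z - 1) y Y) + 2 * 2 ^ m * H * sing m := by
    rw [Fintype.sum_prod_type]
    have h4 : ∀ b' : Sym2 (Fin m) → Bool, ∑ d : (Fin m → Bool) × Bool, F (b', d) ≤
        2 * (M * (if (matZ b').det ≠ 0 ∧ E m (z - 1) b' then
          (2 : ℝ) ^ (St (matZ b') (t + 1) y Y).card else 0)) +
        2 * 2 ^ m * H * (if (matZ b').det = 0 then 1 else 0) := by
      intro b'
      have h5 : ∑ d : (Fin m → Bool) × Bool, F (b', d) = ∑ d : (Fin m → Bool) × Bool,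
        (if (matZ b').det ≠ 0 ∧ E m (z - 1) b' then
          (2 : ℝ) ^ (Rt (matZ b') d.1 t y Y).card * 2 ^ (St (matZ b') (t + 1) y Y).card else 0) +
        ∑ d : (Fin m → Bool) × Bool, (if (matZ b').det = 0 then H else 0) := by
        rw [← sum_add_distrib]
      rw [h5]
      refine add_le_add ?_ ?_
      · by_cases hc : (matZ b').det ≠ 0 ∧ E m (z - 1) b'
        · simp only [if_pos hc]
          rw [Fintype.sum_prod_type]
          simp only [sum_const, card_univ, Fintype.card_bool, nsmul_eq_mul]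
          rw [← mul_sum, ← sum_mul]
          push_cast
          refine mul_le_mul_of_nonneg_left ?_ (by norm_num)
          exact mul_le_mul_of_nonneg_right (hM (matZ b')
            (fun i j => by unfold matZ; split_ifs <;> simp) hc.1) (by positivity)
        · simp only [if_neg hc, sum_const_zero, mul_zero, le_refl]
      · rw [sum_const, card_univ, Fintype.card_prod, Fintype.card_bool, Fintype.card_fun,
          Fintype.card_bool, Fintype.card_fin, nsmul_eq_mul]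
        push_cast
        split_ifs
        · apply le_of_eq; ring
        · apply le_of_eq; ring
    refine (sum_le_sum fun b' _ => h4 b').trans (le_of_eq ?_)
    rw [sum_add_distrib, ← mul_sum, ← mul_sum, ← mul_sum]
    unfold Gm sing
    rw [card_filter]
    push_cast
    rfl
  calc Gm E (m + 1) t z y Y ≤ ∑ b : Sym2 (Fin (m + 1)) → Bool, ∑ i, F (dat i b) := h1
    _ = ∑ i, ∑ b : Sym2 (Fin (m + 1)) → Bool, F (dat i b) := sum_comm
    _ ≤ ∑ _i : Fin (m + 1), (2 * (M * Gm E m (t + 1) (z - 1) y Y) + 2 * 2 ^ m * H * sing m) :=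
        sum_le_sum fun i _ => (h2 i).trans h3
    _ = _ := by
        rw [sum_const, card_univ, Fintype.card_fin, nsmul_eq_mul]
        push_cast
        ring

theorem loKer : LoKer := by
  intro ε hε b hb
  obtain ⟨m₀, h⟩ := LODig.lo_ker_asymp ε hε
  refine ⟨m₀, fun m hm A hA hdet t F h1 h2 h3 _ X hX => ?_⟩
  have h4 := h m hm A hdet (fun i j => by rcases hA i j with h | h <;> rw [h] <;> simp) b F t h1 h2 h3 X
    (fun x hx p hp u hu => hX x hx p hp u hu)
  refine h4.trans (le_of_eq ?_)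
  congr 1
  ring

/-! ## Densities and the recursion -/

/-- number of matrices of size `m` -/
noncomputable def Dn (m : ℕ) : ℝ := 2 ^ Fintype.card (Sym2 (Fin m))

theorem Dn_pos (m : ℕ) : 0 < Dn m := by unfold Dn; positivity

theorem Dn_succ (m : ℕ) : Dn (m + 1) = 2 * 2 ^ m * Dn m := by
  unfold Dn
  rw [Sym2.card, Sym2.card, Fintype.card_fin, Fintype.card_fin, Nat.choose_succ_succ' (m + 1) 1,
    Nat.choose_one_right, pow_add, pow_succ]
  ring

/-- the exponential rate per row -/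
noncomputable def ct (b : ℝ) (t : ℕ) : ℝ := ((4 : ℝ) ^ (-b)) ^ t / (2 * b * t)

theorem ct_nonneg (b : ℝ) (hb : 0 < b) (t : ℕ) : 0 ≤ ct b t := by unfold ct; positivity

theorem moment' (ε b : ℝ) (hε : 0 < ε) (hb : 0 < b) : ∃ m₀ : ℕ, ∀ m ≥ m₀, ∀ n : ℕ, m ≤ n →
    ∀ A : Matrix (Fin m) (Fin m) ℤ, (∀ i j, A i j = 0 ∨ A i j = 1) → A.det ≠ 0 → ∀ t : ℕ, 0 < t →
    ∀ y Y : ℝ, (m : ℝ) ^ b ≤ y →
    ∑ x : Fin m → Bool, (2 : ℝ) ^ (Rt A x t y Y).card ≤
      2 ^ m * ((2 : ℝ) ^ (ε * n) * Real.exp (ct b t * n)) := by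
  obtain ⟨m₀, h⟩ := moment loKer ε b hε hb
  refine ⟨m₀, fun m hm n hmn A hA hdet t ht y Y hy => (h m hm A hA hdet t ht y Y hy).trans ?_⟩
  have hmn' : (m : ℝ) ≤ n := by exact_mod_cast hmn
  have ht0 : (0 : ℝ) < t := by exact_mod_cast ht
  have hq : (2 : ℝ) ^ (-(2 * b * t)) = ((4 : ℝ) ^ (-b)) ^ t := by
    rw [show (4 : ℝ) = 2 ^ (2 : ℝ) by norm_num, ← Real.rpow_mul (by norm_num), ← Real.rpow_natCast,
      ← Real.rpow_mul (by norm_num)]
    congr 1
    ring
  set q : ℝ := ((4 : ℝ) ^ (-b)) ^ t with hqd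
  have hq0 : 0 < q := by positivity
  rw [hq]
  have h1 : (1 + q) ^ ((m : ℝ) / (2 * b * t)) ≤ Real.exp (ct b t * n) := by
    calc (1 + q) ^ ((m : ℝ) / (2 * b * t)) ≤ (Real.exp q) ^ ((m : ℝ) / (2 * b * t)) := by
          refine Real.rpow_le_rpow (by positivity) ?_ (by positivity)
          rw [add_comm]
          exact Real.add_one_le_exp q
      _ = Real.exp (q * (m / (2 * b * t))) := by rw [← Real.exp_mul]
      _ ≤ Real.exp (ct b t * n) := by
          apply Real.exp_le_exp.2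
          unfold ct
          rw [← hqd]
          have h2 : q * ((m : ℝ) / (2 * b * t)) = q / (2 * b * t) * m := by ring
          rw [h2]
          exact mul_le_mul_of_nonneg_left hmn' (by positivity)
  have h2 : (2 : ℝ) ^ ((m : ℝ) + ε * m) ≤ 2 ^ m * (2 : ℝ) ^ (ε * n) := by
    rw [Real.rpow_add (by norm_num), Real.rpow_natCast]
    refine mul_le_mul_of_nonneg_left ?_ (by positivity)
    exact Real.rpow_le_rpow_of_exponent_le (by norm_num) (mul_le_mul_of_nonneg_left hmn' hε.le)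
  calc _ ≤ (2 ^ m * (2 : ℝ) ^ (ε * n)) * Real.exp (ct b t * n) :=
        mul_le_mul h2 h1 (by positivity) (by positivity)
    _ = _ := by ring

/-- the number of primes of corank `≥ t + 1` of a nonsingular matrix -/
theorem St_le {m n : ℕ} (hm : 2 ≤ m) (hmn : m ≤ n) (bb : Sym2 (Fin m) → Bool) (hdet : (matZ bb).det ≠ 0)
    (b : ℝ) (hb : 0 < b) (t : ℕ) (y Y : ℝ) (hy : (m : ℝ) ^ b ≤ y) :
    (2 : ℝ) ^ (St (matZ bb) t y Y).card ≤ 2 ^ ((n : ℝ) / (2 * b * (t + 1))) := by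
  have h := had' hm (matZ bb) hdet (fun i j => matZ_abs bb i j) (t + 1) (St (matZ bb) t y Y) b y hy
    fun p hp => (mem_filter.1 hp).2
  push_cast at h
  rw [← Real.rpow_natCast]
  apply Real.rpow_le_rpow_of_exponent_le (by norm_num)
  have ht : (0 : ℝ) < (t : ℝ) + 1 := by positivity
  have hmn' : (m : ℝ) ≤ n := by exact_mod_cast hmn
  rw [le_div_iff₀ (by positivity)]
  linarith

theorem ratio_step (ε b : ℝ) (hε : 0 < ε) (hb : 0 < b) : ∃ m₀ : ℕ, ∀ m ≥ m₀, ∀ n : ℕ, m + 1 ≤ n →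
    ∀ (E : Ev), Hered E → ∀ t z : ℕ, 0 < t → ∀ y Y : ℝ, (n : ℝ) ^ b ≤ y →
    Gm E (m + 1) t z y Y / Dn (m + 1) ≤ (n * ((2 : ℝ) ^ (ε * n) * Real.exp (ct b t * n))) *
      (Gm E m (t + 1) (z - 1) y Y / Dn m) + n * (2 : ℝ) ^ ((n : ℝ) / (4 * b)) * (sing m / Dn m) := by
  obtain ⟨m₀, h⟩ := moment' ε b hε hb
  refine ⟨max m₀ 1, fun m hm n hmn E hE t z ht y Y hy => ?_⟩
  have hm0 : m₀ ≤ m := (le_max_left _ _).trans hm
  have hm1 : 1 ≤ m := (le_max_right _ _).trans hm
  have hmn' : ((m : ℝ) + 1) ≤ n := by exact_mod_cast hmn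
  have hy1 : ((m + 1 : ℕ) : ℝ) ^ b ≤ y := by
    refine le_trans (Real.rpow_le_rpow (by positivity) ?_ hb.le) hy
    push_cast
    exact hmn'
  have hy0 : ((m : ℕ) : ℝ) ^ b ≤ y := by
    refine le_trans (Real.rpow_le_rpow (by positivity) ?_ hb.le) hy
    linarith
  set r : ℝ := (2 : ℝ) ^ (ε * n) * Real.exp (ct b t * n) with hr
  have hr0 : 0 < r := by positivity
  set H : ℝ := (2 : ℝ) ^ ((n : ℝ) / (4 * b)) with hH
  have hH0 : 0 < H := by positivity
  have h1 := Gm_step E hE m t z y Y (2 ^ m * r) H hH0.le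
    (fun A hA hd => h m hm0 n (by omega) A hA hd t ht y Y hy0)
    (fun bb hd => by
      refine (St_le (by omega) hmn bb hd b hb t y Y hy1).trans ?_
      apply Real.rpow_le_rpow_of_exponent_le (by norm_num)
      have ht1 : (1 : ℝ) ≤ t := by exact_mod_cast ht
      apply div_le_div_of_nonneg_left (by positivity) (by positivity)
      nlinarith)
  have hD := Dn_pos m
  have hG := Gm_nonneg E m (t + 1) (z - 1) y Y
  have hs : 0 ≤ sing m := by unfold sing; positivity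
  have hp : (0 : ℝ) < 2 ^ m := by positivity
  rw [div_le_iff₀ (Dn_pos _), Dn_succ]
  refine h1.trans ?_
  have h2 : ((n : ℝ) * r * (Gm E m (t + 1) (z - 1) y Y / Dn m) + n * H * (sing m / Dn m)) *
      (2 * 2 ^ m * Dn m) =
      n * (2 * (2 ^ m * r * Gm E m (t + 1) (z - 1) y Y) + 2 * 2 ^ m * H * sing m) := by
    field_simp
  rw [h2]
  refine mul_le_mul_of_nonneg_right hmn' ?_
  positivity

theorem iterate (ε b : ℝ) (hε : 0 < ε) (hb : 0 < b) (τ : ℕ) : ∃ n₀ : ℕ, ∀ n ≥ n₀,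
    ∀ (E : Ev), Hered E → ∀ z : ℕ, ∀ y Y σ : ℝ, (n : ℝ) ^ b ≤ y → 0 ≤ σ →
    (∀ m, n - τ ≤ m → sing m / Dn m ≤ σ) → ∀ j ≤ τ,
    Gm E n 1 z y Y / Dn n ≤ (∏ k ∈ range j, ((n : ℝ) * ((2 : ℝ) ^ (ε * n) * Real.exp (ct b (k + 1) * n)))) *
      (Gm E (n - j) (j + 1) (z - j) y Y / Dn (n - j) + j * (n * (2 : ℝ) ^ ((n : ℝ) / (4 * b)) * σ)) := by
  obtain ⟨m₀, h⟩ := ratio_step ε b hε hb
  refine ⟨m₀ + τ + 1, fun n hn E hE z y Y σ hy hσ hs j => ?_⟩
  have hn1 : (1 : ℝ) ≤ n := by exact_mod_cast (by omega : 1 ≤ n)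
  induction j with
  | zero => intro _; simp
  | succ j ih =>
    intro hj
    refine (ih (by omega)).trans ?_
    set R : ℕ → ℝ := fun k => (n : ℝ) * ((2 : ℝ) ^ (ε * n) * Real.exp (ct b (k + 1) * n)) with hR
    have hR1 : ∀ k, 1 ≤ R k := by
      intro k
      have h1 : (1 : ℝ) ≤ (2 : ℝ) ^ (ε * n) := Real.one_le_rpow (by norm_num) (by positivity)
      have h2 : (1 : ℝ) ≤ Real.exp (ct b (k + 1) * n) :=
        Real.one_le_exp (mul_nonneg (ct_nonneg b hb _) (by positivity))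
      have h3 : (1 : ℝ) ≤ (2 : ℝ) ^ (ε * n) * Real.exp (ct b (k + 1) * n) := one_le_mul_of_one_le_of_one_le h1 h2
      exact one_le_mul_of_one_le_of_one_le hn1 h3
    rw [prod_range_succ R j, mul_assoc ((range j).prod R) (R j)]
    refine mul_le_mul_of_nonneg_left ?_ (prod_nonneg fun k _ => by linarith [hR1 k])
    have hmj : n - j = (n - (j + 1)) + 1 := by omega
    have h4 := h (n - (j + 1)) (by omega) n (by omega) E hE (j + 1) (z - j) (by omega) y Y hy
    rw [← hmj, Nat.sub_sub] at h4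
    have h5 := hs (n - (j + 1)) (by omega)
    set W : ℝ := n * (2 : ℝ) ^ ((n : ℝ) / (4 * b)) with hW
    have hW0 : 0 ≤ W := by positivity
    have h6 : W * (sing (n - (j + 1)) / Dn (n - (j + 1))) ≤ W * σ := mul_le_mul_of_nonneg_left h5 hW0
    have h7 := hR1 j
    have h8 : 0 ≤ W * σ := by positivity
    have h9 : (j : ℝ) * (W * σ) + W * σ ≤ R j * (((j + 1 : ℕ) : ℝ) * (W * σ)) := by
      push_cast
      have : 0 ≤ ((j : ℝ) + 1) * (W * σ) := by positivity
      nlinarith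
    calc Gm E (n - j) (j + 1) (z - j) y Y / Dn (n - j) + j * (W * σ)
        ≤ (R j * (Gm E (n - (j + 1)) (j + 1 + 1) (z - (j + 1)) y Y / Dn (n - (j + 1))) + W * σ) +
          j * (W * σ) := by
          refine add_le_add ?_ le_rfl
          refine h4.trans (add_le_add (le_of_eq ?_) h6)
          simp only [hR]
      _ ≤ R j * (Gm E (n - (j + 1)) (j + 1 + 1) (z - (j + 1)) y Y / Dn (n - (j + 1)) +
          ((j + 1 : ℕ) : ℝ) * (W * σ)) := by
          rw [mul_add]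
          linarith

open Classical in
/-- density of an event -/
noncomputable def dens (E : Ev) (m z : ℕ) : ℝ := ((univ.filter fun b : Sym2 (Fin m) → Bool => E m z b).card : ℝ) / Dn m

theorem dens_nonneg (E : Ev) (m z : ℕ) : 0 ≤ dens E m z := by
  unfold dens
  have := Dn_pos m
  positivity

theorem Gm_le_dens (E : Ev) {m n : ℕ} (hm : 2 ≤ m) (hmn : m ≤ n) (b : ℝ) (hb : 0 < b) (t z : ℕ) (y Y : ℝ)
    (hy : (m : ℝ) ^ b ≤ y) :
    Gm E m t z y Y / Dn m ≤ dens E m z * (2 : ℝ) ^ ((n : ℝ) / (2 * b * (t + 1))) := by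
  classical
  unfold dens
  rw [div_mul_eq_mul_div]
  refine div_le_div_of_nonneg_right ?_ (Dn_pos m).le
  unfold Gm
  rw [card_filter]
  push_cast
  rw [sum_mul]
  refine sum_le_sum fun bb _ => ?_
  by_cases h1 : (matZ bb).det ≠ 0 ∧ E m z bb
  · rw [if_pos h1, if_pos h1.2, one_mul]
    exact St_le hm hmn bb h1.1 b hb t y Y hy
  · rw [if_neg h1]
    split_ifs <;> positivity

open Classical in
theorem count_le_Gm (E : Ev) (n z s : ℕ) (y Y : ℝ) :
    ((univ.filter fun b : Sym2 (Fin n) → Bool => (matZ b).det ≠ 0 ∧ E n z b ∧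
      s ≤ N2 (matZ b) y Y).card : ℝ) ≤ (2 : ℝ) ^ (-(s : ℝ)) * Gm E n 1 z y Y := by
  unfold Gm
  rw [card_filter]
  push_cast
  rw [mul_sum]
  refine sum_le_sum fun b _ => ?_
  by_cases h : (matZ b).det ≠ 0 ∧ E n z b ∧ s ≤ N2 (matZ b) y Y
  · rw [if_pos h, if_pos ⟨h.1, h.2.1⟩]
    have h1 : s ≤ (St (matZ b) 1 y Y).card := h.2.2
    rw [← Real.rpow_natCast, ← Real.rpow_add (by norm_num)]
    apply Real.one_le_rpow (by norm_num)
    have : (s : ℝ) ≤ ((St (matZ b) 1 y Y).card : ℝ) := by exact_mod_cast h1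
    linarith
  · rw [if_neg h]
    split_ifs <;> positivity

/-- the loss of the one-row bound -/
noncomputable def lamRow (b : ℝ) : ℝ := -(Real.logb 2 (1 - (4 : ℝ) ^ (-b))) / (2 * b)

theorem sum_ct_le (b : ℝ) (hb : 0 < b) (τ : ℕ) :
    ∑ k ∈ range τ, ct b (k + 1) ≤ lamRow b * Real.log 2 := by
  set x : ℝ := (4 : ℝ) ^ (-b) with hx
  have hx0 : 0 < x := by positivity
  have hx1 : x < 1 := by
    rw [hx]
    exact Real.rpow_lt_one_of_one_lt_of_neg (by norm_num) (by linarith)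
  have h1 := Real.hasSum_pow_div_log_of_abs_lt_one (x := x) (by rw [abs_of_pos hx0]; exact hx1)
  have h2 : ∑ k ∈ range τ, x ^ (k + 1) / ((k : ℝ) + 1) ≤ -Real.log (1 - x) :=
    sum_le_hasSum _ (fun k _ => by positivity) h1
  have h3 : ∑ k ∈ range τ, ct b (k + 1) = (∑ k ∈ range τ, x ^ (k + 1) / ((k : ℝ) + 1)) / (2 * b) := by
    rw [sum_div]
    refine sum_congr rfl fun k _ => ?_
    unfold ct
    rw [← hx]
    push_cast
    have : (k : ℝ) + 1 ≠ 0 := by positivity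
    field_simp
  have hl : Real.log 2 ≠ 0 := (Real.log_pos (by norm_num)).ne'
  have h4 : lamRow b * Real.log 2 = -Real.log (1 - x) / (2 * b) := by
    unfold lamRow Real.logb
    rw [← hx]
    field_simp
  rw [h3, h4]
  exact div_le_div_of_nonneg_right h2 (by positivity)

theorem lamRow_le (b : ℝ) (hb : 3 / 2 ≤ b) : lamRow b ≤ 7 / 100 := by
  set x : ℝ := (4 : ℝ) ^ (-b) with hx
  have hx0 : 0 < x := by positivity
  have hx1 : x ≤ 1 / 8 := by
    have h1 : x ≤ (4 : ℝ) ^ (-(3 / 2) : ℝ) := Real.rpow_le_rpow_of_exponent_le (by norm_num) (by linarith)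
    have h2 : (4 : ℝ) ^ (-(3 / 2) : ℝ) = 1 / 8 := by
      rw [show (4 : ℝ) = 2 ^ (2 : ℝ) by norm_num, ← Real.rpow_mul (by norm_num)]
      rw [show (2 : ℝ) * (-(3 / 2)) = -((3 : ℕ) : ℝ) by norm_num, Real.rpow_neg (by norm_num),
        Real.rpow_natCast]
      norm_num
    linarith
  have h3 : -Real.log (1 - x) ≤ 1 / 7 := by
    have h4 : Real.log (1 - x)⁻¹ ≤ (1 - x)⁻¹ - 1 := Real.log_le_sub_one_of_pos (by
      have : 0 < 1 - x := by linarith
      positivity)
    rw [Real.log_inv] at h4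
    have h5 : (1 - x)⁻¹ ≤ 8 / 7 := by
      rw [inv_le_comm₀ (by linarith) (by norm_num)]
      linarith
    linarith
  have hl := Real.log_two_gt_d9
  have h6 : lamRow b = (-Real.log (1 - x)) / (2 * b * Real.log 2) := by
    unfold lamRow Real.logb
    rw [← hx]
    have : Real.log 2 ≠ 0 := by linarith
    field_simp
  rw [h6, div_le_iff₀ (by positivity)]
  nlinarith

theorem lamRow_nonneg (b : ℝ) (hb : 0 < b) : 0 ≤ lamRow b := by
  have h := sum_ct_le b hb 0
  rw [range_zero, sum_empty] at h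
  have hl := Real.log_pos (by norm_num : (1 : ℝ) < 2)
  exact nonneg_of_mul_nonneg_left h hl

/-! ## The result -/

theorem growth (K : ℕ) (δ : ℝ) (hδ : 0 < δ) : ∃ n₀ : ℕ, ∀ n ≥ n₀,
    ((K : ℝ) + 1) * (n : ℝ) ^ (K + 1) ≤ (2 : ℝ) ^ (δ * n) := by
  have h1 : (1 : ℝ) < (2 : ℝ) ^ δ := Real.one_lt_rpow (by norm_num) hδ
  have h2 := tendsto_pow_const_div_const_pow_of_one_lt (K + 1) h1
  have h3 := h2.eventually (gt_mem_nhds (show (0 : ℝ) < 1 / ((K : ℝ) + 1) by positivity))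
  obtain ⟨n₀, h4⟩ := Filter.eventually_atTop.1 h3
  refine ⟨n₀, fun n hn => ?_⟩
  have h5 := h4 n hn
  have hp : (0 : ℝ) < ((2 : ℝ) ^ δ) ^ n := by positivity
  rw [div_lt_div_iff₀ hp (by positivity), one_mul] at h5
  rw [Real.rpow_mul (by norm_num), Real.rpow_natCast]
  linarith

/-- **Input**: the landed rate `1 / √2` for the singularity of symmetric 0/1 matrices -/
def SingHalf : Prop := ∀ ε : ℝ, 0 < ε → ∃ n₀ : ℕ, ∀ n ≥ n₀, sing n ≤ (2 : ℝ) ^ (-((1 / 2 - ε) * n)) * Dn n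

theorem num_main (n s τ : ℕ) (ε δ L b σ d G0 G1 Pr : ℝ) (hδ0 : 0 < δ) (hδε : δ ≤ ε) (hδ1 : δ ≤ 1 / 100)
    (hlam : L ≤ 7 / 100) (_hlam0 : 0 ≤ L) (hn1 : (1 : ℝ) ≤ n) (hnR : 20 * (τ : ℝ) ≤ n) (hd : 0 ≤ d)
    (hσ : σ = (2 : ℝ) ^ (-((1 / 2 - δ) * (n - τ))))
    (hgr1 : (n : ℝ) ^ τ ≤ (2 : ℝ) ^ (δ / 4 * n)) (hgr2 : (n : ℝ) ^ τ * (τ * n) ≤ (2 : ℝ) ^ (δ / 4 * n))
    (hexp1 : (n : ℝ) / (2 * b * (((τ + 1 : ℕ) : ℝ) + 1)) ≤ δ / 4 * n)
    (hexp2 : (n : ℝ) / (4 * b) ≤ n / 6) (_hb0 : 0 < b)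
    (h4 : G0 ≤ Pr * (G1 + τ * (n * (2 : ℝ) ^ ((n : ℝ) / (4 * b)) * σ)))
    (h6 : Pr ≤ (n : ℝ) ^ τ * (2 : ℝ) ^ (δ / 4 * n + L * n))
    (h5 : G1 ≤ d * (2 : ℝ) ^ ((n : ℝ) / (2 * b * (((τ + 1 : ℕ) : ℝ) + 1)))) (hG1 : 0 ≤ G1) :
    (2 : ℝ) ^ (-(s : ℝ)) * G0 ≤
      d * (2 : ℝ) ^ (-(s - L * n) + ε * n) + (2 : ℝ) ^ (-((s : ℝ) + n / 5)) := by
  have hσ0 : 0 ≤ σ := by rw [hσ]; positivity
  have hτ0 : (0 : ℝ) ≤ τ := by positivity
  have h7 : G1 ≤ d * (2 : ℝ) ^ (δ / 4 * n) := h5.trans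
    (mul_le_mul_of_nonneg_left (Real.rpow_le_rpow_of_exponent_le (by norm_num) hexp1) hd)
  have h8 : (τ : ℝ) * (n * (2 : ℝ) ^ ((n : ℝ) / (4 * b)) * σ) ≤ τ * (n * (2 : ℝ) ^ ((n : ℝ) / 6) * σ) := by
    refine mul_le_mul_of_nonneg_left ?_ hτ0
    refine mul_le_mul_of_nonneg_right ?_ hσ0
    refine mul_le_mul_of_nonneg_left ?_ (by positivity)
    exact Real.rpow_le_rpow_of_exponent_le (by norm_num) hexp2
  have h9 : G0 ≤ ((n : ℝ) ^ τ * (2 : ℝ) ^ (δ / 4 * n + L * n)) *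
      (d * (2 : ℝ) ^ (δ / 4 * n) + τ * (n * (2 : ℝ) ^ ((n : ℝ) / 6) * σ)) := by
    refine h4.trans (mul_le_mul h6 (add_le_add h7 h8) (by positivity) (by positivity))
  have h10 : (2 : ℝ) ^ (-(s : ℝ)) * G0 ≤
      (n : ℝ) ^ τ * (d * (2 : ℝ) ^ (-(s : ℝ) + (δ / 4 * n + L * n) + δ / 4 * n)) +
          ((n : ℝ) ^ τ * (τ * n)) * (2 : ℝ) ^ (-(s : ℝ) + (δ / 4 * n + L * n) + n / 6 +
            -((1 / 2 - δ) * (n - τ))) := by
    refine (mul_le_mul_of_nonneg_left h9 (by positivity)).trans (le_of_eq ?_)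
    rw [hσ]
    simp only [Real.rpow_add (by norm_num : (0 : ℝ) < 2)]
    ring
  refine h10.trans ?_
  have h11 : (n : ℝ) ^ τ * (d * (2 : ℝ) ^ (-(s : ℝ) + (δ / 4 * n + L * n) + δ / 4 * n)) ≤
      d * (2 : ℝ) ^ (-(s - L * n) + ε * n) := by
    refine (mul_le_mul_of_nonneg_right hgr1 (by positivity)).trans ?_
    have e : (2 : ℝ) ^ (δ / 4 * n) * (d * (2 : ℝ) ^ (-(s : ℝ) + (δ / 4 * n + L * n) + δ / 4 * n)) =
        d * (2 : ℝ) ^ (δ / 4 * n + (-(s : ℝ) + (δ / 4 * n + L * n) + δ / 4 * n)) := by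
      rw [Real.rpow_add (by norm_num : (0 : ℝ) < 2) (δ / 4 * n)]
      ring
    rw [e]
    refine mul_le_mul_of_nonneg_left ?_ hd
    apply Real.rpow_le_rpow_of_exponent_le (by norm_num)
    have h12 : δ * n ≤ ε * n := mul_le_mul_of_nonneg_right hδε (by positivity)
    have h13 : 0 ≤ δ * n := by positivity
    linarith
  have h14 : ((n : ℝ) ^ τ * (τ * n)) * (2 : ℝ) ^ (-(s : ℝ) + (δ / 4 * n + L * n) + n / 6 +
      -((1 / 2 - δ) * (n - τ))) ≤ (2 : ℝ) ^ (-((s : ℝ) + n / 5)) := by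
    refine (mul_le_mul_of_nonneg_right hgr2 (by positivity)).trans ?_
    rw [← Real.rpow_add (by norm_num : (0 : ℝ) < 2)]
    apply Real.rpow_le_rpow_of_exponent_le (by norm_num)
    have h13 : δ * n ≤ 1 / 100 * n := mul_le_mul_of_nonneg_right hδ1 (by positivity)
    have h14 : L * n ≤ 7 / 100 * n := mul_le_mul_of_nonneg_right hlam (by positivity)
    have h15 : 0 ≤ δ * τ := by positivity
    have h16 : (1 / 2 - δ) * ((n : ℝ) - τ) = n / 2 - δ * n - τ / 2 + δ * τ := by ring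
    rw [h16]
    have h17 : δ * (τ : ℝ) ≤ 1 / 100 * τ := mul_le_mul_of_nonneg_right hδ1 hτ0
    linarith
  exact add_le_add h11 h14

open Classical in
/-- **Core form**, for any hereditary event. -/
theorem core (b : ℝ) (hb : 3 / 2 ≤ b) (hS : SingHalf) (ε : ℝ) (hε : 0 < ε) : ∃ τ n₀ : ℕ, ∀ n ≥ n₀,
    ∀ (E : Ev), Hered E → ∀ z s : ℕ, ∀ Y : ℝ,
    ((univ.filter fun bb : Sym2 (Fin n) → Bool => (matZ bb).det ≠ 0 ∧ E n z bb ∧
      s ≤ N2 (matZ bb) ((n : ℝ) ^ b) Y).card : ℝ) ≤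
      (dens E (n - τ) (z - τ) * (2 : ℝ) ^ (-(s - lamRow b * n) + ε * n) +
        (2 : ℝ) ^ (-((s : ℝ) + n / 5))) * Dn n := by
  have hb0 : 0 < b := by linarith
  set δ : ℝ := min ε (1 / 100) with hδ
  have hδ0 : 0 < δ := lt_min hε (by norm_num)
  have hδε : δ ≤ ε := min_le_left _ _
  have hδ1 : δ ≤ 1 / 100 := min_le_right _ _
  set τ : ℕ := ⌈4 / δ⌉₊ with hτ
  have hτ1 : 4 / δ ≤ τ := Nat.le_ceil _
  have hτ0 : (0 : ℝ) < τ := lt_of_lt_of_le (by positivity) hτ1
  set ε₁ : ℝ := δ / (4 * (τ + 1)) with hε₁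
  have hε₁0 : 0 < ε₁ := by positivity
  obtain ⟨n₁, h1⟩ := iterate ε₁ b hε₁0 hb0 τ
  obtain ⟨n₂, h2⟩ := growth τ (δ / 4) (by positivity)
  obtain ⟨n₃, h3⟩ := hS δ hδ0
  refine ⟨τ, n₁ + n₂ + n₃ + 20 * τ + 4, fun n hn E hE z s Y => ?_⟩
  have hnR : 20 * (τ : ℝ) ≤ n := by exact_mod_cast (by omega : 20 * τ ≤ n)
  have hn1 : (1 : ℝ) ≤ n := by exact_mod_cast (by omega : 1 ≤ n)
  have hlam := lamRow_le b hb
  have hlam0 := lamRow_nonneg b hb0
  set L : ℝ := lamRow b with hL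
  set σ : ℝ := (2 : ℝ) ^ (-((1 / 2 - δ) * (n - τ))) with hσ
  have hσ0 : 0 ≤ σ := by positivity
  have hsing : ∀ m, n - τ ≤ m → sing m / Dn m ≤ σ := by
    intro m hm
    have hm1 : (n : ℝ) - τ ≤ m := by
      have : (n : ℝ) ≤ m + τ := by exact_mod_cast (by omega : n ≤ m + τ)
      linarith
    rw [div_le_iff₀ (Dn_pos m)]
    refine (h3 m (by omega)).trans ?_
    refine mul_le_mul_of_nonneg_right ?_ (Dn_pos m).le
    apply Real.rpow_le_rpow_of_exponent_le (by norm_num)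
    have : (1 / 2 - δ) * ((n : ℝ) - τ) ≤ (1 / 2 - δ) * m := mul_le_mul_of_nonneg_left hm1 (by linarith)
    linarith
  have h4 := h1 n (by omega) E hE z ((n : ℝ) ^ b) Y σ le_rfl hσ0 hsing τ le_rfl
  have hnτ : ((n - τ : ℕ) : ℝ) ^ b ≤ (n : ℝ) ^ b :=
    Real.rpow_le_rpow (by positivity) (by exact_mod_cast Nat.sub_le n τ) hb0.le
  have h5 := Gm_le_dens E (by omega : 2 ≤ n - τ) (Nat.sub_le n τ) b hb0 (τ + 1) (z - τ) ((n : ℝ) ^ b) Y hnτ
  -- the product
  have h6 : ∏ k ∈ range τ, ((n : ℝ) * ((2 : ℝ) ^ (ε₁ * n) * Real.exp (ct b (k + 1) * n))) ≤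
      (n : ℝ) ^ τ * (2 : ℝ) ^ (δ / 4 * n + L * n) := by
    rw [prod_mul_distrib, prod_const, card_range, prod_mul_distrib, prod_const, card_range,
      ← Real.exp_sum, ← sum_mul]
    refine mul_le_mul_of_nonneg_left ?_ (by positivity)
    rw [Real.rpow_add (by norm_num)]
    refine mul_le_mul ?_ ?_ (by positivity) (by positivity)
    · rw [← Real.rpow_natCast, ← Real.rpow_mul (by norm_num)]
      apply Real.rpow_le_rpow_of_exponent_le (by norm_num)
      have h7 : ε₁ * τ ≤ δ / 4 := by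
        rw [hε₁, div_mul_eq_mul_div, div_le_div_iff₀ (by positivity) (by norm_num)]
        nlinarith
      nlinarith
    · have h8 := sum_ct_le b hb0 τ
      calc Real.exp ((∑ i ∈ range τ, ct b (i + 1)) * n) ≤ Real.exp (L * Real.log 2 * n) := by
            apply Real.exp_le_exp.2
            exact mul_le_mul_of_nonneg_right h8 (by positivity)
        _ = (2 : ℝ) ^ (L * n) := by
            rw [Real.rpow_def_of_pos (by norm_num)]
            congr 1
            ring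
  have hgr := h2 n (by omega)
  have hgr1 : (n : ℝ) ^ τ ≤ (2 : ℝ) ^ (δ / 4 * n) := by
    refine le_trans ?_ hgr
    have h9 : (n : ℝ) ^ τ ≤ (n : ℝ) ^ (τ + 1) := pow_le_pow_right₀ hn1 (by omega)
    have h10 : (0 : ℝ) ≤ (n : ℝ) ^ (τ + 1) := by positivity
    nlinarith
  have hgr2 : (n : ℝ) ^ τ * (τ * n) ≤ (2 : ℝ) ^ (δ / 4 * n) := by
    refine le_trans ?_ hgr
    have h10 : (0 : ℝ) ≤ (n : ℝ) ^ (τ + 1) := by positivity
    calc (n : ℝ) ^ τ * (τ * n) = τ * (n : ℝ) ^ (τ + 1) := by ring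
      _ ≤ ((τ : ℝ) + 1) * (n : ℝ) ^ (τ + 1) := by nlinarith
  have hd := dens_nonneg E (n - τ) (z - τ)
  set d := dens E (n - τ) (z - τ) with hdd
  -- exponents
  have hexp1 : (n : ℝ) / (2 * b * (((τ + 1 : ℕ) : ℝ) + 1)) ≤ δ / 4 * n := by
    push_cast
    rw [div_le_iff₀ (by positivity)]
    have h11 : 4 ≤ τ * δ := by rwa [div_le_iff₀ hδ0] at hτ1
    have h12 : 1 ≤ δ / 4 * (2 * b * ((τ : ℝ) + 1 + 1)) := by nlinarith
    nlinarith
  have hexp2 : (n : ℝ) / (4 * b) ≤ n / 6 := by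
    apply div_le_div_of_nonneg_left (by positivity) (by norm_num) (by linarith)
  have hmain : (2 : ℝ) ^ (-(s : ℝ)) * (Gm E n 1 z ((n : ℝ) ^ b) Y / Dn n) ≤
      d * (2 : ℝ) ^ (-(s - L * n) + ε * n) + (2 : ℝ) ^ (-((s : ℝ) + n / 5)) := by
    have hG0 : 0 ≤ Gm E (n - τ) (τ + 1) (z - τ) ((n : ℝ) ^ b) Y / Dn (n - τ) :=
      div_nonneg (Gm_nonneg _ _ _ _ _ _) (Dn_pos _).le
    exact num_main n s τ ε δ L b σ d _ _ _ hδ0 hδε hδ1 hlam hlam0 hn1 hnR hd hσ hgr1 hgr2 hexp1 hexp2 hb0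
      h4 h6 h5 hG0
  refine (count_le_Gm E n z s ((n : ℝ) ^ b) Y).trans ?_
  have hD := Dn_pos n
  calc (2 : ℝ) ^ (-(s : ℝ)) * Gm E n 1 z ((n : ℝ) ^ b) Y =
        ((2 : ℝ) ^ (-(s : ℝ)) * (Gm E n 1 z ((n : ℝ) ^ b) Y / Dn n)) * Dn n := by
        field_simp
    _ ≤ _ := mul_le_mul_of_nonneg_right hmain hD.le

/-- **Milestone (c)**: part (M) with the loss `-log₂(1 - 4^{-b}) / (2 b)` (`≤ .0238` for `b = 1.99`). -/
theorem stmtM_row (b : ℝ) (hb : 3 / 2 ≤ b) (hS : SingHalf) : StmtM b (lamRow b) := by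
  classical
  intro ε B hε
  obtain ⟨τ, n₀, h⟩ := core b hb hS ε hε
  refine ⟨τ, n₀, fun n hn Qs hQ t z s _ => ?_⟩
  let E : Ev := fun m z bb => Kill Qs t z (matZ bb)
  have hE : Hered E := fun m z bb hk => kill_step bb Qs hQ t z hk
  have h1 := h n hn E hE z s ((n : ℝ) ^ B)
  have e1 : (Nat.card {bb : Sym2 (Fin n) → Bool // (matZ bb).det ≠ 0 ∧ Kill Qs t z (matZ bb) ∧
      s ≤ N2 (matZ bb) ((n : ℝ) ^ b) ((n : ℝ) ^ B)} : ℝ) =
      ((univ.filter fun bb : Sym2 (Fin n) → Bool => (matZ bb).det ≠ 0 ∧ E n z bb ∧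
      s ≤ N2 (matZ bb) ((n : ℝ) ^ b) ((n : ℝ) ^ B)).card : ℝ) := by
    rw [Nat.card_eq_fintype_card, Fintype.card_subtype]
  have e2 : dens E (n - τ) (z - τ) = kden (n - τ) Qs t (z - τ) := by
    unfold dens kden Dn
    rw [Nat.card_eq_fintype_card, Fintype.card_subtype]
  rw [e1]
  refine h1.trans ?_
  refine mul_le_mul_of_nonneg_right ?_ (Dn_pos n).le
  have hk : ∀ m, 0 ≤ kden m Qs t (z - τ) := fun m => by unfold kden; positivity
  refine add_le_add (mul_le_mul_of_nonneg_right ?_ (by positivity)) ?_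
  · rw [e2]
    exact single_le_sum (f := fun m => kden m Qs t (z - τ)) (fun m _ => hk m)
      (mem_Icc.2 ⟨le_rfl, Nat.sub_le _ _⟩)
  · apply Real.rpow_le_rpow_of_exponent_le (by norm_num)
    have h2 : (0 : ℝ) ≤ s := by positivity
    have h3 : (0 : ℝ) ≤ n := by positivity
    linarith

end Vale.Agent.P160.Half.MRow205
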