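import Vale.Agent.P160.Half.M8Asy

/-!
# P160-HALF, part (M): the product over `τ` deletions (358's walk, 11396)
-/

set_option linter.unusedSectionVars false

namespace Vale.Agent.P160.Half.MTopProd604

open Finset Matrix Vale.Agent.P160.Half.M8Incl Vale.Agent.P160.Half.MTop Vale.Agent.P160.Half.HadN
  Vale.Agent.P160.Half.M8Asy Vale.Agent.P160.Half.M8Del

section step

variable {α : Type} [Fintype α] [DecidableEq α]

/-- one row: `A` depends only on the principal submatrix on `T` -/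
theorem dens_step (T : Finset α) (i : α) (hi : i ∉ T) (A : (Sym2 α → Bool) → Prop)
    (hA : ∀ b b', bT b T = bT b' T → A b → A b') (R : (Sym2 T → Bool) → (T → Bool) → Prop) (c : ℝ)
    (hc : 0 ≤ c) (hM : ∀ b, A b → (Nat.card {x : T → Bool // R (bT b T) x} : ℝ) ≤ c * 2 ^ T.card) :
    (Nat.card {b : Sym2 α → Bool // A b ∧ R (bT b T) (rw_ b T i)} : ℝ) ≤
      c * Nat.card {b : Sym2 α → Bool // A b} := by
  classical
  let Pr : (Sym2 T → Bool) → Prop := fun b' => ∃ b, bT b T = b' ∧ A b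
  have hPr : ∀ b, A b ↔ Pr (bT b T) := fun b => ⟨fun h => ⟨b, rfl, h⟩, fun ⟨b1, h1, h2⟩ => hA b1 b h1 h2⟩
  have h1 := dens_le T i hi Pr (fun b' x => Pr b' ∧ R b' x) (fun b' x h => h.1) c hc ?_
  · have h2 := dens_eq T Pr
    have e1 : Nat.card {b : Sym2 α → Bool // A b} = Nat.card {b : Sym2 α → Bool // Pr (bT b T)} :=
      Nat.card_congr (Equiv.subtypeEquivRight hPr)
    have e2 : Nat.card {b : Sym2 α → Bool // A b ∧ R (bT b T) (rw_ b T i)} =
        Nat.card {b : Sym2 α → Bool // Pr (bT b T) ∧ R (bT b T) (rw_ b T i)} :=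
      Nat.card_congr (Equiv.subtypeEquivRight fun b => and_congr_left' (hPr b))
    rw [e1, e2, h2]
    refine h1.trans (le_of_eq ?_)
    ring
  · rintro b' ⟨b, rfl, hb⟩
    refine le_trans ?_ (hM b hb)
    rw [Nat.cast_le]
    refine Nat.card_le_card_of_injective (fun x => ⟨x.1, x.2.2⟩) ?_
    intro x x' h
    exact Subtype.ext (congrArg (fun z : {x : T → Bool // R (bT b T) x} => z.1) h)

theorem bT_congr {b b' : Sym2 α → Bool} {T T' : Finset α} (h : bT b T = bT b' T) (hT : T' ⊆ T) :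
    bT b T' = bT b' T' := by
  funext e
  induction e using Sym2.ind with
  | _ i j => exact congrFun h s(⟨i, hT i.2⟩, ⟨j, hT j.2⟩)

theorem rw_congr {b b' : Sym2 α → Bool} {T T' : Finset α} {i : α} (h : bT b T = bT b' T) (hT : T' ⊆ T)
    (hi : i ∈ T) : rw_ b T' i = rw_ b' T' i := by
  funext a
  exact congrFun h s(⟨a, hT a.2⟩, ⟨i, hi⟩)

end step

section prod

variable {n : ℕ}

theorem Ts_anti (idx : ℕ → Fin n) {r r' : ℕ} (h : r ≤ r') : Ts idx r' ⊆ Ts idx r := by
  unfold Ts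
  exact sdiff_subset_sdiff Subset.rfl (image_subset_image (range_subset_range.2 h))

/-- the joint event from step `r` on -/
def Ev (y Y : ℝ) (idx : ℕ → Fin n) (τ : ℕ) (Q : (Sym2 (Fin n) → Bool) → Prop)
    (G : ∀ T : Finset (Fin n), (Sym2 T → Bool) → Prop) (s : ℕ → ℕ) (r : ℕ) (b : Sym2 (Fin n) → Bool) : Prop :=
  Q b ∧ ∀ r', r ≤ r' → r' < τ → G _ (bT b (Ts idx (r' + 1))) ∧
    s r' ≤ (KS (bT b (Ts idx (r' + 1))) (rw_ b (Ts idx (r' + 1)) (idx r')) y Y).card

theorem prod_le (y Y : ℝ) (idx : ℕ → Fin n) (τ : ℕ) (hinj : Set.InjOn idx (Set.Iio τ))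
    (Q : (Sym2 (Fin n) → Bool) → Prop) (hQ : ∀ b b', bT b (Ts idx τ) = bT b' (Ts idx τ) → Q b → Q b')
    (G : ∀ T : Finset (Fin n), (Sym2 T → Bool) → Prop) (s : ℕ → ℕ) (c : ℕ → ℝ) (hc : ∀ r, 0 ≤ c r)
    (hrow : ∀ r < τ, ∀ b' : Sym2 (Ts idx (r + 1)) → Bool, G _ b' →
      (Nat.card {x : Ts idx (r + 1) → Bool // s r ≤ (KS b' x y Y).card} : ℝ) ≤
        c r * 2 ^ (Ts idx (r + 1)).card) :
    ∀ j ≤ τ, (Nat.card {b : Sym2 (Fin n) → Bool // Ev y Y idx τ Q G s (τ - j) b} : ℝ) ≤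
      (∏ r ∈ Ico (τ - j) τ, c r) * Nat.card {b : Sym2 (Fin n) → Bool // Q b} := by
  classical
  intro j
  induction j with
  | zero =>
    intro _
    rw [Nat.sub_zero, Ico_self, prod_empty, one_mul, Nat.cast_le]
    refine Nat.card_le_card_of_injective (fun b => ⟨b.1, b.2.1⟩) ?_
    intro x x' h
    exact Subtype.ext (congrArg (fun z : {b : Sym2 (Fin n) → Bool // Q b} => z.1) h)
  | succ j ih =>
    intro hj
    have ih := ih (by omega)
    obtain ⟨r, hr⟩ : ∃ r, r = τ - (j + 1) := ⟨_, rfl⟩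
    have hr1 : τ - j = r + 1 := by omega
    have hrτ : r < τ := by omega
    rw [← hr]
    rw [hr1] at ih
    set T := Ts idx (r + 1) with hT
    have hstep := dens_step T (idx r) (Ts_succ hinj hrτ).2 (Ev y Y idx τ Q G s (r + 1)) ?_
      (fun b' x => G _ b' ∧ s r ≤ (KS b' x y Y).card) (c r) (hc r) ?_
    · have h1 : (Nat.card {b : Sym2 (Fin n) → Bool // Ev y Y idx τ Q G s r b} : ℝ) ≤
          (Nat.card {b : Sym2 (Fin n) → Bool // Ev y Y idx τ Q G s (r + 1) b ∧
            (G _ (bT b T) ∧ s r ≤ (KS (bT b T) (rw_ b T (idx r)) y Y).card)} : ℝ) := by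
        rw [Nat.cast_le]
        refine Nat.card_le_card_of_injective (fun b => ⟨b.1, ⟨b.2.1, fun r' h1 h2 => b.2.2 r' (by omega) h2⟩,
          b.2.2 r le_rfl hrτ⟩) ?_
        intro x x' h
        exact Subtype.ext (congrArg (fun z : {b : Sym2 (Fin n) → Bool // Ev y Y idx τ Q G s (r + 1) b ∧
            (G _ (bT b T) ∧ s r ≤ (KS (bT b T) (rw_ b T (idx r)) y Y).card)} => z.1) h)
      refine h1.trans (hstep.trans ?_)
      have h2 : ∏ r' ∈ Ico r τ, c r' = c r * ∏ r' ∈ Ico (r + 1) τ, c r' :=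
        Finset.prod_eq_prod_Ico_succ_bot hrτ c
      rw [h2, mul_assoc]
      exact mul_le_mul_of_nonneg_left ih (hc r)
    · rintro b b' hbb ⟨h1, h2⟩
      refine ⟨hQ b b' (bT_congr hbb (Ts_anti idx (by omega))) h1, fun r' h3 h4 => ?_⟩
      have h5 := h2 r' h3 h4
      have h6 : bT b (Ts idx (r' + 1)) = bT b' (Ts idx (r' + 1)) :=
        bT_congr hbb (Ts_anti idx (by omega))
      have h7 : rw_ b (Ts idx (r' + 1)) (idx r') = rw_ b' (Ts idx (r' + 1)) (idx r') := by
        refine rw_congr hbb (Ts_anti idx (by omega)) ?_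
        refine Ts_anti idx h3 ?_
        rw [(Ts_succ hinj h4).1]
        exact mem_insert_self _ _
      rwa [h6, h7] at h5
    · intro b _
      by_cases hG : G _ (bT b T)
      · refine le_trans ?_ (hrow r hrτ (bT b T) hG)
        rw [Nat.cast_le]
        refine Nat.card_le_card_of_injective (fun x => ⟨x.1, x.2.2⟩) ?_
        intro x x' h
        exact Subtype.ext (congrArg (fun z : {x : Ts idx (r + 1) → Bool // s r ≤ (KS (bT b T) x y Y).card} => z.1) h)
      · have : IsEmpty {x : T → Bool // G _ (bT b T) ∧ s r ≤ (KS (bT b T) x y Y).card} :=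
          ⟨fun x => hG x.2.1⟩
        rw [Nat.card_of_isEmpty, Nat.cast_zero]
        exact mul_nonneg (hc r) (by positivity)

/-- extension of `f : Fin τ → Fin n` -/
def ext {τ : ℕ} (hn : 0 < n) (f : Fin τ → Fin n) : ℕ → Fin n := fun r => if h : r < τ then f ⟨r, h⟩ else ⟨0, hn⟩

theorem ext_of_lt {τ : ℕ} (hn : 0 < n) (f : Fin τ → Fin n) {r : ℕ} (h : r < τ) : ext hn f r = f ⟨r, h⟩ := dif_pos h

theorem ext_inj {τ : ℕ} (hn : 0 < n) (f : Fin τ → Fin n) (hf : Function.Injective f) :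
    Set.InjOn (ext hn f) (Set.Iio τ) := by
  intro a ha b hb hab
  have ha' : a < τ := ha
  have hb' : b < τ := hb
  rw [ext_of_lt hn f ha', ext_of_lt hn f hb'] at hab
  exact congrArg Fin.val (hf hab)

/-- indices to delete -/
theorem exists_f {τ : ℕ} (S : Finset (Fin n)) (hS : τ ≤ S.card) :
    ∃ f : Fin τ → Fin n, Function.Injective f ∧ ∀ r, f r ∈ S := by
  classical
  obtain ⟨S', hS', hc⟩ := exists_subset_card_eq hS
  let e : S' ≃ Fin τ := S'.equivFinOfCardEq hc
  exact ⟨fun r => (e.symm r : Fin n), fun a b h => e.symm.injective (Subtype.ext h),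
    fun r => hS' (e.symm r).2⟩

/-- **Inclusion, with the sum.** -/
theorem incl_sum {τ : ℕ} (b : Sym2 (Fin n) → Bool) (y Y : ℝ) (Qs : ℕ → Prop) (hQ : ∀ q, Qs q → 2 ≤ q)
    (t z K' : ℕ) (hn : 0 < n) (hτn : τ ≤ n) (hy : 1 ≤ y) (hz : Kill Qs t z (matZ b))
    (hK : (n : ℝ) ^ n < y ^ (2 * (τ + 2) * (K' + 1))) :
    ∃ f : Fin τ → Fin n, Function.Injective f ∧ Kill Qs t (z - τ) (matZ (bT b (Ts (ext hn f) τ))) ∧
      ((matZ (bT b (Ts (ext hn f) τ))).det ≠ 0 → N2 (matZ b) y Y ≤ K' + ∑ r ∈ range τ,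
        (KS (bT b (Ts (ext hn f) (r + 1))) (rw_ b (Ts (ext hn f) (r + 1)) (ext hn f r)) y Y).card) := by
  classical
  have hidx : ∃ f : Fin τ → Fin n, Function.Injective f ∧
      Kill Qs t (z - τ) (matZ (bT b (Ts (ext hn f) τ))) := by
    rcases Nat.lt_or_ge τ z with hzt | hzt
    · rcases hz with h0 | ⟨q, hq, u, hu, hk, hzc⟩
      · omega
      · have hc : Nat.card {i // u i = 0} = (univ.filter fun i => u i = 0).card := by
          rw [Nat.card_eq_fintype_card, Fintype.card_subtype]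
        obtain ⟨f, hf, hfS⟩ := exists_f (univ.filter fun i => u i = 0) (show τ ≤ _ by omega)
        refine ⟨f, hf, ?_⟩
        have hcT := card_Ts (ext_inj hn f hf) (le_refl τ)
        rw [← prin_matZ]
        refine kill_restr b Qs hQ t z τ _ (by omega) hq u hu hk hzc fun i hi => ?_
        unfold Ts at hi
        simp only [mem_sdiff, mem_univ, true_and, not_not, mem_image, mem_range] at hi
        obtain ⟨s, hs, rfl⟩ := hi
        rw [ext_of_lt hn f hs]
        exact (mem_filter.1 (hfS ⟨s, hs⟩)).2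
    · obtain ⟨f, hf, -⟩ := exists_f (univ : Finset (Fin n)) (show τ ≤ _ by simpa using hτn)
      exact ⟨f, hf, Or.inl (by omega)⟩
  obtain ⟨f, hf, hzev⟩ := hidx
  refine ⟨f, hf, hzev, fun hdet => ?_⟩
  set idx := ext hn f with hidx
  have hinj : Set.InjOn idx (Set.Iio τ) := ext_inj hn f hf
  -- classification of the primes
  set S := S2 (matZ b) y Y with hS
  let A : ℕ → Finset ℕ := fun r => KS (bT b (Ts idx (r + 1))) (rw_ b (Ts idx (r + 1)) (idx r)) y Y
  let Bg : Finset ℕ := S.filter fun p =>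
    (prin ((matZ b).map (Int.cast : ℤ → ZMod p)) (Ts idx τ)).rank + (τ + 2) ≤ (Ts idx τ).card
  have hsub : S ⊆ Bg ∪ (range τ).biUnion A := by
    intro p hp
    have hp' := hp
    rw [hS] at hp'
    unfold S2 at hp'
    obtain ⟨hpY, hpp, hpy, hc2⟩ := mem_filter.1 hp'
    have hfact : Fact p.Prime := ⟨hpp⟩
    have hY : (p : ℝ) ≤ Y := by
      have h1 : p ≤ ⌊Y⌋₊ := Nat.lt_succ_iff.1 (mem_range.1 hpY)
      have h2 : ⌊Y⌋₊ ≠ 0 := by
        intro h0
        rw [h0] at h1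
        exact hpp.ne_zero (by omega)
      exact (Nat.le_floor_iff' hpp.ne_zero).1 h1
    have hsym : ∀ i j, ((matZ b).map (Int.cast : ℤ → ZMod p)) i j =
        ((matZ b).map (Int.cast : ℤ → ZMod p)) j i := by
      intro i j
      rw [Matrix.map_apply, Matrix.map_apply, matZ_symm]
    have h0 : 2 ≤ Module.finrank (ZMod p) (K ((matZ b).map (Int.cast : ℤ → ZMod p)) (Ts idx 0)) := by
      have h1 := finrank_K ((matZ b).map (Int.cast : ℤ → ZMod p)) (Ts idx 0)
      have h2 : (prin ((matZ b).map (Int.cast : ℤ → ZMod p)) (Ts idx 0)).rank ≤ rP p (matZ b) :=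
        Matrix.rank_submatrix_le ((matZ b).map (Int.cast : ℤ → ZMod p)) _ _
      have h3 := card_Ts hinj (Nat.zero_le τ)
      unfold crk at hc2
      rw [Fintype.card_fin] at hc2
      omega
    rcases chain hsym (Ts idx) idx τ (fun r hr => (Ts_succ hinj hr).1) (fun r hr => (Ts_succ hinj hr).2)
      h0 with ⟨r, hr, hk, hne⟩ | hbig
    · exact mem_union_right _ (mem_biUnion.2 ⟨r, mem_range.2 hr, mem_KS b _ _ y Y hpy hY hk hne⟩)
    · refine mem_union_left _ (mem_filter.2 ⟨hp, ?_⟩)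
      have h1 := finrank_K ((matZ b).map (Int.cast : ℤ → ZMod p)) (Ts idx τ)
      omega
  have hBg : Bg.card ≤ K' := by
    refine card_big_le (matZ b) (Ts idx τ) (τ + 2) K' y (matZ_abs b) hy
      (by rw [prin_matZ]; exact hdet) Bg (fun p hp => ?_) hK
    obtain ⟨hp1, hp2⟩ := mem_filter.1 hp
    rw [hS] at hp1
    unfold S2 at hp1
    obtain ⟨-, hpp, hpy, -⟩ := mem_filter.1 hp1
    exact ⟨hpp, hpy, hp2⟩
  have h1 : S.card ≤ Bg.card + ((range τ).biUnion A).card :=
    (card_le_card hsub).trans (card_union_le _ _)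
  have h2 : ((range τ).biUnion A).card ≤ ∑ r ∈ range τ, (A r).card := card_biUnion_le
  have h3 : N2 (matZ b) y Y = S.card := rfl
  rw [h3]
  exact h1.trans (add_le_add hBg h2)

end prod

end Vale.Agent.P160.Half.MTopProd604
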