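import Mathlib

/-!
# The master inequality of the bad period (P160, 11212 (c), 11242 (N))

Real numbers only.  Unit of the exponents: `k * log k`.
`w p` : weight of the prime `p` (sum `beta`), `y p`, `x p` : excess at the first bad column and at
the end, `rho` : rational corank, `kap` : constant of the minor Littlewood-Offord lemma, `sig` :
positions, `R` : tuple size of the good period, `c0` : exponent of the count, `gam` : constant of the
rational rank deficiency.
-/

namespace Vale.Agent.P160.Half.Master310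

open Finset

/-- One prime: the best final excess. -/
theorem one_prime {kap sig x y : ℝ} (hk : 0 < kap) (hy : 0 ≤ y) (hxy : y ≤ x) :
    2 * x - kap * (x ^ 2 - y ^ 2) / 2 + sig * (x - y) ≤ (2 + sig) ^ 2 / (2 * kap) + 2 * y := by
  obtain ⟨d, rfl⟩ : ∃ d, x = y + d := ⟨x - y, by ring⟩
  have hd : 0 ≤ d := by linarith
  have h1 : 0 ≤ kap * (y * d) := mul_nonneg hk.le (mul_nonneg hy hd)
  have h2 : (2 + sig) * d - kap * d ^ 2 / 2 ≤ (2 + sig) ^ 2 / (2 * kap) := by
    rw [le_div_iff₀ (by positivity)]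
    nlinarith [sq_nonneg (kap * d - (2 + sig))]
  nlinarith

/-- All primes together. -/
theorem sum_primes {ι : Type*} (P : Finset ι) (w x y : ι → ℝ) {kap sig : ℝ} (hk : 0 < kap)
    (hw : ∀ p ∈ P, 0 ≤ w p) (hy : ∀ p ∈ P, 0 ≤ y p) (hxy : ∀ p ∈ P, y p ≤ x p) :
    ∑ p ∈ P, w p * (2 * x p - kap * (x p ^ 2 - y p ^ 2) / 2 + sig * (x p - y p)) ≤
      (∑ p ∈ P, w p) * ((2 + sig) ^ 2 / (2 * kap)) + 2 * ∑ p ∈ P, w p * y p := by
  calc ∑ p ∈ P, w p * (2 * x p - kap * (x p ^ 2 - y p ^ 2) / 2 + sig * (x p - y p))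
      ≤ ∑ p ∈ P, w p * ((2 + sig) ^ 2 / (2 * kap) + 2 * y p) :=
        sum_le_sum fun p hp => mul_le_mul_of_nonneg_left
          (one_prime hk (hy p hp) (hxy p hp)) (hw p hp)
    _ = _ := by
        rw [sum_mul, mul_sum, ← sum_add_distrib]
        exact sum_congr rfl fun p _ => by ring

/-- A maximum of three numbers is at least every convex combination. -/
theorem max_three {a b c t1 t2 t3 : ℝ} (h1 : 0 ≤ t1) (h2 : 0 ≤ t2) (h3 : 0 ≤ t3)
    (hs : t1 + t2 + t3 = 1) : t1 * a + t2 * b + t3 * c ≤ max (max a b) c := by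
  have ha : a ≤ max (max a b) c := le_trans (le_max_left _ _) (le_max_left _ _)
  have hb : b ≤ max (max a b) c := le_trans (le_max_right _ _) (le_max_left _ _)
  have hc : c ≤ max (max a b) c := le_max_right _ _
  calc t1 * a + t2 * b + t3 * c
      ≤ t1 * max (max a b) c + t2 * max (max a b) c + t3 * max (max a b) c := by
        gcongr
    _ = (t1 + t2 + t3) * max (max a b) c := by ring
    _ = max (max a b) c := by rw [hs, one_mul]

/-- The master inequality of 11212 (c). -/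
theorem master {ι : Type*} (P : Finset ι) (w x y : ι → ℝ) {kap sig R beta c0 gam rho : ℝ}
    (hk : 0 < kap) (hw : ∀ p ∈ P, 0 ≤ w p) (hb : ∑ p ∈ P, w p = beta)
    (hy : ∀ p ∈ P, 0 ≤ y p) (hxy : ∀ p ∈ P, y p ≤ x p) (hR : 0 < R - sig) (hg : 0 < gam)
    (hpos : 0 ≤ 1 - 2 / (R - sig) - 2 * beta / gam) :
    ∑ p ∈ P, w p * (2 * x p - kap * (x p ^ 2 - y p ^ 2) / 2 + sig * (x p - y p))
        + 2 * beta * rho
        - max (max c0 ((R - sig) * ∑ p ∈ P, w p * y p)) (gam * rho) ≤
      beta * ((2 + sig) ^ 2 / (2 * kap)) - c0 * (1 - 2 / (R - sig) - 2 * beta / gam) := by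
  have hbeta : 0 ≤ beta := hb ▸ sum_nonneg hw
  have h1 := sum_primes P w x y (sig := sig) hk hw hy hxy
  rw [hb] at h1
  have h2 := max_three (a := c0) (b := (R - sig) * ∑ p ∈ P, w p * y p) (c := gam * rho)
    (t1 := 1 - 2 / (R - sig) - 2 * beta / gam) (t2 := 2 / (R - sig)) (t3 := 2 * beta / gam)
    hpos (by positivity) (by positivity) (by ring)
  have h3 : 2 / (R - sig) * ((R - sig) * ∑ p ∈ P, w p * y p) = 2 * ∑ p ∈ P, w p * y p := by
    rw [← mul_assoc, div_mul_cancel₀ _ hR.ne']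
  have h4 : 2 * beta / gam * (gam * rho) = 2 * beta * rho := by
    rw [← mul_assoc, div_mul_cancel₀ _ hg.ne']
  rw [h3, h4] at h2
  linarith

/-- The numbers of 11242 (N): `beta = .064`, `kap = 1`, `gam = 1/3`, `R = 12`, `sig = .26`,
`c0 = .48`: every exponent of the bad period is at most `-.05`. -/
theorem numbers : (0.064 : ℝ) * ((2 + 0.26) ^ 2 / (2 * 1))
    - 0.48 * (1 - 2 / (12 - 0.26) - 2 * 0.064 / (1 / 3)) ≤ -0.05 := by
  norm_num

end Vale.Agent.P160.Half.Master310
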