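import Vale.Agent.P160.RD.Rank
import Vale.Agent.P160.RD.Swap

/-!
# P160, block (M), leaf M/RQ: rational rank of iid matrices, law (1/4, 1/2, 1/4)

`rank_count`: seeds `e : Ω → ℤ` with `e = 0` on half and `e = 1`, `e = -1` on a quarter of `Ω`.
The number of `X : Matrix κ κ' Ω` (`|κ| = |κ'| = k`) with rational rank of `e ∘ X` equal to `k - r`
is at most `k 2^(2k+2r) 2^(-rk/3) |Ω|^(k²)` (`1 ≤ r ≤ k`).
`rank_count_le`: the same for rank at most `k - r`, with one more factor `k`.
-/

namespace Vale.Agent.P160.Half.RankQ304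

open Finset Module Vale.Agent.P160.RD Vale.Agent.P160.RD.Swap304

open Classical in
/-- weighted form -/
theorem rank_wt {k r : ℕ} (hr : 1 ≤ r) (hrk : r ≤ k) :
    (∑ X : Fin k → (Fin k → Fin 3),
      if finrank ℚ (Submodule.span ℚ (Set.range fun i => vec (X i))) = k - r
      then wt u X else 0) ≤ k * (2 : ℝ) ^ (2 * k + 2 * r) * (2 : ℝ) ^ (-((r * k : ℕ) : ℝ) / 3) := by
  have ht3 : ((2 : ℝ) ^ (-(1 : ℝ) / 3)) ^ 3 = 1 / 2 := by
    rw [← Real.rpow_natCast, ← Real.rpow_mul (by norm_num)]
    norm_num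
  have hpos : 0 < (2 : ℝ) ^ (-(1 : ℝ) / 3) := by positivity
  have ht0 : (3 : ℝ) / 4 ≤ (2 : ℝ) ^ (-(1 : ℝ) / 3) := by
    apply le_of_pow_le_pow_left₀ (n := 3) (by norm_num) hpos.le
    rw [ht3]; norm_num
  have ht1 : (2 : ℝ) ^ (-(1 : ℝ) / 3) ≤ 1 := by
    apply le_of_pow_le_pow_left₀ (n := 3) (by norm_num) (by norm_num)
    rw [ht3]; norm_num
  have hpow : ∀ n : ℕ, ((2 : ℝ) ^ (-(1 : ℝ) / 3)) ^ n = (2 : ℝ) ^ (-(n : ℝ) / 3) := by
    intro n
    rw [← Real.rpow_natCast, ← Real.rpow_mul (by norm_num)]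
    congr 1
    ring
  have h := rank_swap (Om := Fin k → Fin 3) (k := k) (u := u) (v := v) u_nonneg v_nonneg (sum_u k)
    (sum_v k) (vec := vec) ht0 ht1 (fun U => by
      have h1 := odlyzko U
      rw [sum_filter] at h1
      exact h1) (fun U => by
      have h1 := swap U
      rw [sum_filter, sum_filter] at h1
      rw [hpow]
      exact h1) hr hrk
  rw [hpow] at h
  exact h

open Classical in
/-- push forward of the counting measure -/
theorem count_push {k : ℕ} {Ω : Type*} [Fintype Ω] (φ : Ω → Fin 3)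
    (hφ : ∀ b, ((univ.filter fun ω => φ ω = b).card : ℝ) = Fintype.card Ω * w4 b)
    (P : (Fin k → Fin k → Fin 3) → Prop) :
    ((univ.filter fun X : Fin k → Fin k → Ω => P (fun i j => φ (X i j))).card : ℝ) =
      (Fintype.card Ω : ℝ) ^ (k * k) * ∑ Y : Fin k → Fin k → Fin 3, if P Y then wt u Y else 0 := by
  have h1 : ((univ.filter fun X : Fin k → Fin k → Ω => P (fun i j => φ (X i j))).card : ℝ) =
      ∑ Y : Fin k → Fin k → Fin 3, if P Y then
        (((univ.filter fun X : Fin k → Fin k → Ω => (fun i j => φ (X i j)) = Y).card : ℕ) : ℝ)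
        else 0 := by
    rw [card_eq_sum_card_fiberwise (f := fun X : Fin k → Fin k → Ω => (fun i j => φ (X i j)))
      (t := univ) (fun _ _ => mem_coe.2 (mem_univ _))]
    push_cast
    refine sum_congr rfl fun Y _ => ?_
    rw [filter_filter]
    by_cases hY : P Y
    · rw [if_pos hY]
      congr 2
      ext X
      simp only [mem_filter, mem_univ, true_and]
      constructor
      · exact fun h => h.2
      · intro h
        exact ⟨by rw [h]; exact hY, h⟩
    · rw [if_neg hY]
      rw [filter_false_of_mem]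
      · simp
      · intro X _ h
        exact hY (h.2 ▸ h.1)
  rw [h1, mul_sum]
  refine sum_congr rfl fun Y _ => ?_
  by_cases hY : P Y
  · rw [if_pos hY, if_pos hY]
    have h2 : (univ.filter fun X : Fin k → Fin k → Ω => (fun i j => φ (X i j)) = Y) =
        Fintype.piFinset fun i => Fintype.piFinset fun j => univ.filter fun ω => φ ω = Y i j := by
      ext X
      simp only [mem_filter, mem_univ, true_and, Fintype.mem_piFinset]
      constructor
      · intro h i j
        exact congrFun (congrFun h i) j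
      · intro h
        funext i j
        exact h i j
    rw [h2, Fintype.card_piFinset]
    simp only [Fintype.card_piFinset]
    push_cast
    simp only [hφ]
    have h3 : (Fintype.card Ω : ℝ) ^ (k * k) = ∏ _i : Fin k, ∏ _j : Fin k, (Fintype.card Ω : ℝ) := by
      simp [pow_mul]
    rw [h3]
    unfold wt u
    rw [← prod_mul_distrib]
    refine prod_congr rfl fun i _ => ?_
    rw [← prod_mul_distrib]
  · rw [if_neg hY, if_neg hY, mul_zero]

section count

variable {Ω : Type*} [Fintype Ω] {e : Ω → ℤ}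

open Classical in
theorem vals (h0 : 2 * (univ.filter fun ω => e ω = 0).card = Fintype.card Ω)
    (h1 : 4 * (univ.filter fun ω => e ω = 1).card = Fintype.card Ω)
    (h2 : 4 * (univ.filter fun ω => e ω = -1).card = Fintype.card Ω) (ω : Ω) :
    e ω = 0 ∨ e ω = 1 ∨ e ω = -1 := by
  by_contra hne
  push Not at hne
  obtain ⟨n0, n1, n2⟩ := hne
  have hd1 : Disjoint (univ.filter fun ω => e ω = 0) (univ.filter fun ω => e ω = 1) := by
    rw [disjoint_filter]; intro x _ h h'; omega
  have hd2 : Disjoint ((univ.filter fun ω => e ω = 0) ∪ (univ.filter fun ω => e ω = 1))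
      (univ.filter fun ω => e ω = -1) := by
    rw [disjoint_union_left]
    constructor <;> (rw [disjoint_filter]; intro x _ h h'; omega)
  have hc : (((univ.filter fun ω => e ω = 0) ∪ (univ.filter fun ω => e ω = 1)) ∪
      (univ.filter fun ω => e ω = -1)).card ≤ (univ.erase ω).card := by
    apply card_le_card
    intro x hx
    rw [mem_erase]
    refine ⟨?_, mem_univ _⟩
    rintro rfl
    simp only [mem_union, mem_filter, mem_univ, true_and] at hx
    omega
  rw [card_union_of_disjoint hd2, card_union_of_disjoint hd1, card_erase_of_mem (mem_univ _),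
    card_univ] at hc
  have hpos : 0 < Fintype.card Ω := Fintype.card_pos_iff.2 ⟨ω⟩
  omega

open Classical in
/-- **counting form**, matrices indexed by `Fin k` -/
theorem rank_count_fin (h0 : 2 * (univ.filter fun ω => e ω = 0).card = Fintype.card Ω)
    (h1 : 4 * (univ.filter fun ω => e ω = 1).card = Fintype.card Ω)
    (h2 : 4 * (univ.filter fun ω => e ω = -1).card = Fintype.card Ω)
    {k r : ℕ} (hr : 1 ≤ r) (hrk : r ≤ k) :
    ((univ.filter fun X : Matrix (Fin k) (Fin k) Ω =>
      ((X.map e).map (Int.cast : ℤ → ℚ)).rank = k - r).card : ℝ) ≤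
      k * (2 : ℝ) ^ (2 * k + 2 * r) * (2 : ℝ) ^ (-((r * k : ℕ) : ℝ) / 3) *
        (Fintype.card Ω : ℝ) ^ (k * k) := by
  let φ : Ω → Fin 3 := fun ω => if e ω = 0 then 0 else if e ω = 1 then 1 else 2
  have hv := vals h0 h1 h2
  have hφv : ∀ ω, val (φ ω) = e ω := by
    intro ω
    rcases hv ω with h | h | h <;> simp [φ, h, val_0, val_1, val_2]
  have hf0 : (univ.filter fun ω => φ ω = 0) = univ.filter fun ω => e ω = 0 := by
    ext ω
    simp only [mem_filter, mem_univ, true_and]
    rcases hv ω with h | h | h <;> simp [φ, h]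
  have hf1 : (univ.filter fun ω => φ ω = 1) = univ.filter fun ω => e ω = 1 := by
    ext ω
    simp only [mem_filter, mem_univ, true_and]
    rcases hv ω with h | h | h <;> simp [φ, h]
  have hf2 : (univ.filter fun ω => φ ω = 2) = univ.filter fun ω => e ω = -1 := by
    ext ω
    simp only [mem_filter, mem_univ, true_and]
    rcases hv ω with h | h | h <;> simp [φ, h]
  have hφ : ∀ b, ((univ.filter fun ω => φ ω = b).card : ℝ) = Fintype.card Ω * w4 b := by
    intro b
    have h0' : (2 : ℝ) * ((univ.filter fun ω => e ω = 0).card : ℝ) = Fintype.card Ω := by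
      exact_mod_cast h0
    have h1' : (4 : ℝ) * ((univ.filter fun ω => e ω = 1).card : ℝ) = Fintype.card Ω := by
      exact_mod_cast h1
    have h2' : (4 : ℝ) * ((univ.filter fun ω => e ω = -1).card : ℝ) = Fintype.card Ω := by
      exact_mod_cast h2
    fin_cases b
    · show ((univ.filter fun ω => φ ω = 0).card : ℝ) = _ * w4 0
      rw [hf0, w4_0]; linarith
    · show ((univ.filter fun ω => φ ω = 1).card : ℝ) = _ * w4 1
      rw [hf1, w4_1]; linarith
    · show ((univ.filter fun ω => φ ω = 2).card : ℝ) = _ * w4 2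
      rw [hf2, w4_2]; linarith
  have h := count_push φ hφ (fun Y : Fin k → Fin k → Fin 3 =>
    finrank ℚ (Submodule.span ℚ (Set.range fun i => vec (Y i))) = k - r)
  have hrow : ∀ X : Matrix (Fin k) (Fin k) Ω, ((X.map e).map (Int.cast : ℤ → ℚ)).rank =
      finrank ℚ (Submodule.span ℚ (Set.range fun i => vec (fun j => φ (X i j)))) := by
    intro X
    rw [Matrix.rank_eq_finrank_span_row]
    have : (((X.map e).map (Int.cast : ℤ → ℚ)) : Matrix (Fin k) (Fin k) ℚ).row =
        fun i => vec (fun j => φ (X i j)) := by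
      funext i j
      show ((e (X i j) : ℤ) : ℚ) = ((Swap304.val (φ (X i j)) : ℤ) : ℚ)
      rw [hφv]
    rw [this]
  have hset : (univ.filter fun X : Matrix (Fin k) (Fin k) Ω =>
      ((X.map e).map (Int.cast : ℤ → ℚ)).rank = k - r).card =
      (univ.filter fun X : Fin k → Fin k → Ω =>
        finrank ℚ (Submodule.span ℚ (Set.range fun i => vec (fun j => φ (X i j)))) = k - r).card := by
    apply card_bij (fun (X : Matrix (Fin k) (Fin k) Ω) _ => (fun i j => X i j : Fin k → Fin k → Ω))
    · intro X hX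
      simp only [mem_filter, mem_univ, true_and] at hX ⊢
      rw [← hX, hrow X]
    · intro X _ Y _ h
      ext i j
      exact congrFun (congrFun h i) j
    · intro Y hY
      refine ⟨Matrix.of Y, ?_, rfl⟩
      simp only [mem_filter, mem_univ, true_and] at hY ⊢
      rw [← hY, hrow (Matrix.of Y)]
      rfl
  rw [hset]
  have hle : (Fintype.card Ω : ℝ) ^ (k * k) * (∑ Y : Fin k → Fin k → Fin 3,
      if finrank ℚ (Submodule.span ℚ (Set.range fun i => vec (Y i))) = k - r then wt u Y else 0) ≤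
      k * (2 : ℝ) ^ (2 * k + 2 * r) * (2 : ℝ) ^ (-((r * k : ℕ) : ℝ) / 3) *
        (Fintype.card Ω : ℝ) ^ (k * k) := by
    rw [mul_comm]
    exact mul_le_mul_of_nonneg_right (rank_wt hr hrk) (by positivity)
  refine le_trans (le_of_eq ?_) hle
  convert h

open Classical in
/-- **counting form**, arbitrary index types -/
theorem rank_count (h0 : 2 * (univ.filter fun ω => e ω = 0).card = Fintype.card Ω)
    (h1 : 4 * (univ.filter fun ω => e ω = 1).card = Fintype.card Ω)
    (h2 : 4 * (univ.filter fun ω => e ω = -1).card = Fintype.card Ω)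
    {κ κ' : Type*} [Fintype κ] [Fintype κ']
    {k r : ℕ} (hκ : Fintype.card κ = k) (hκ' : Fintype.card κ' = k) (hr : 1 ≤ r) (hrk : r ≤ k) :
    ((univ.filter fun X : Matrix κ κ' Ω =>
      ((X.map e).map (Int.cast : ℤ → ℚ)).rank = k - r).card : ℝ) ≤
      k * (2 : ℝ) ^ (2 * k + 2 * r) * (2 : ℝ) ^ (-((r * k : ℕ) : ℝ) / 3) *
        (Fintype.card Ω : ℝ) ^ (k * k) := by
  let f : κ ≃ Fin k := (Fintype.equivFin κ).trans (finCongr hκ)
  let g : κ' ≃ Fin k := (Fintype.equivFin κ').trans (finCongr hκ')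
  have hcard : (univ.filter fun X : Matrix κ κ' Ω =>
      ((X.map e).map (Int.cast : ℤ → ℚ)).rank = k - r).card =
      (univ.filter fun X : Matrix (Fin k) (Fin k) Ω =>
      ((X.map e).map (Int.cast : ℤ → ℚ)).rank = k - r).card := by
    apply card_bij (fun X _ => Matrix.reindex f g X)
    · intro X hX
      simp only [mem_filter, mem_univ, true_and] at hX ⊢
      rw [← hX]
      exact Matrix.rank_submatrix ((X.map e).map (Int.cast : ℤ → ℚ)) f.symm g.symm
    · intro X _ Y _ h
      exact (Matrix.reindex f g).injective h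
    · intro Y hY
      refine ⟨(Matrix.reindex f g).symm Y, ?_, by simp⟩
      simp only [mem_filter, mem_univ, true_and] at hY ⊢
      rw [← hY]
      exact Matrix.rank_submatrix ((Y.map e).map (Int.cast : ℤ → ℚ)) f g
  rw [hcard]
  exact rank_count_fin h0 h1 h2 hr hrk

open Classical in
/-- rank at most `k - r` -/
theorem rank_count_le (h0 : 2 * (univ.filter fun ω => e ω = 0).card = Fintype.card Ω)
    (h1 : 4 * (univ.filter fun ω => e ω = 1).card = Fintype.card Ω)
    (h2 : 4 * (univ.filter fun ω => e ω = -1).card = Fintype.card Ω)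
    {κ κ' : Type*} [Fintype κ] [Fintype κ']
    {k r : ℕ} (hκ : Fintype.card κ = k) (hκ' : Fintype.card κ' = k) (hr : 1 ≤ r) (hrk : r ≤ k) :
    ((univ.filter fun X : Matrix κ κ' Ω =>
      r ≤ k - ((X.map e).map (Int.cast : ℤ → ℚ)).rank).card : ℝ) ≤
      (k : ℝ) ^ 2 * (2 : ℝ) ^ (2 * k + 2 * r) * (2 : ℝ) ^ (-((r * k : ℕ) : ℝ) / 3) *
        (Fintype.card Ω : ℝ) ^ (k * k) := by
  have hk1 : (1 : ℝ) ≤ k := by exact_mod_cast hr.trans hrk
  have hallcard : (Fintype.card (Matrix κ κ' Ω) : ℝ) = (Fintype.card Ω : ℝ) ^ (k * k) := by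
    have h7 : Fintype.card (Matrix κ κ' Ω) = Fintype.card (κ → κ' → Ω) :=
      Fintype.card_congr (Equiv.refl _)
    have h8 : Fintype.card (κ → κ' → Ω) = Fintype.card Ω ^ (k * k) := by
      rw [Fintype.card_fun, Fintype.card_fun, hκ, hκ', ← pow_mul]
    rw [h7, h8]; push_cast; ring
  by_cases hk6 : k < 6
  · have htriv : ((univ.filter fun X : Matrix κ κ' Ω =>
      r ≤ k - ((X.map e).map (Int.cast : ℤ → ℚ)).rank).card : ℝ) ≤ (Fintype.card Ω : ℝ) ^ (k * k) := by
      rw [← hallcard]
      exact_mod_cast card_filter_le _ _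
    refine htriv.trans ?_
    have h3 : (1 : ℝ) ≤ (k : ℝ) ^ 2 * ((2 : ℝ) ^ (2 * k + 2 * r) *
        (2 : ℝ) ^ (-((r * k : ℕ) : ℝ) / 3)) := by
      have h4 : (1 : ℝ) ≤ (k : ℝ) ^ 2 := one_le_pow₀ hk1
      have h5 : (1 : ℝ) ≤ (2 : ℝ) ^ (2 * k + 2 * r) * (2 : ℝ) ^ (-((r * k : ℕ) : ℝ) / 3) := by
        rw [← Real.rpow_natCast, ← Real.rpow_add (by norm_num)]
        apply Real.one_le_rpow (by norm_num)
        have h6 : ((r * k : ℕ) : ℝ) ≤ ((6 * r : ℕ) : ℝ) := by
          have : r * k ≤ 6 * r := by nlinarith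
          exact_mod_cast this
        push_cast at h6 ⊢
        nlinarith
      nlinarith
    calc (Fintype.card Ω : ℝ) ^ (k * k) = 1 * (Fintype.card Ω : ℝ) ^ (k * k) := (one_mul _).symm
      _ ≤ ((k : ℝ) ^ 2 * ((2 : ℝ) ^ (2 * k + 2 * r) *
        (2 : ℝ) ^ (-((r * k : ℕ) : ℝ) / 3))) * (Fintype.card Ω : ℝ) ^ (k * k) :=
          mul_le_mul_of_nonneg_right h3 (by positivity)
      _ = _ := by ring
  · push Not at hk6
    have hsub : (univ.filter fun X : Matrix κ κ' Ω =>
        r ≤ k - ((X.map e).map (Int.cast : ℤ → ℚ)).rank) ⊆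
        (Icc r k).biUnion fun s => univ.filter fun X : Matrix κ κ' Ω =>
          ((X.map e).map (Int.cast : ℤ → ℚ)).rank = k - s := by
      intro X hX
      simp only [mem_filter, mem_univ, true_and] at hX
      simp only [mem_biUnion, mem_filter, mem_univ, true_and, mem_Icc]
      have hle : ((X.map e).map (Int.cast : ℤ → ℚ)).rank ≤ k := by
        rw [← hκ]
        exact Matrix.rank_le_card_height _
      exact ⟨k - ((X.map e).map (Int.cast : ℤ → ℚ)).rank, ⟨hX, by omega⟩, by omega⟩
    have hterm : ∀ s ∈ Icc r k, ((univ.filter fun X : Matrix κ κ' Ω =>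
          ((X.map e).map (Int.cast : ℤ → ℚ)).rank = k - s).card : ℝ) ≤
        k * (2 : ℝ) ^ (2 * k + 2 * r) * (2 : ℝ) ^ (-((r * k : ℕ) : ℝ) / 3) *
        (Fintype.card Ω : ℝ) ^ (k * k) := by
      intro s hs
      rw [mem_Icc] at hs
      refine (rank_count h0 h1 h2 hκ hκ' (hr.trans hs.1) hs.2).trans ?_
      apply mul_le_mul_of_nonneg_right _ (by positivity)
      rw [mul_assoc, mul_assoc]
      apply mul_le_mul_of_nonneg_left _ (by positivity)
      rw [← Real.rpow_natCast, ← Real.rpow_natCast, ← Real.rpow_add (by norm_num),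
        ← Real.rpow_add (by norm_num)]
      apply Real.rpow_le_rpow_of_exponent_le (by norm_num)
      have hs1 : (r : ℝ) ≤ s := by exact_mod_cast hs.1
      have hk6' : (6 : ℝ) ≤ k := by exact_mod_cast hk6
      push_cast
      nlinarith
    calc ((univ.filter fun X : Matrix κ κ' Ω =>
        r ≤ k - ((X.map e).map (Int.cast : ℤ → ℚ)).rank).card : ℝ)
        ≤ (((Icc r k).biUnion fun s => univ.filter fun X : Matrix κ κ' Ω =>
          ((X.map e).map (Int.cast : ℤ → ℚ)).rank = k - s).card : ℝ) := by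
          exact_mod_cast card_le_card hsub
      _ ≤ ∑ s ∈ Icc r k, ((univ.filter fun X : Matrix κ κ' Ω =>
          ((X.map e).map (Int.cast : ℤ → ℚ)).rank = k - s).card : ℝ) := by
          exact_mod_cast card_biUnion_le
      _ ≤ ∑ _s ∈ Icc r k, k * (2 : ℝ) ^ (2 * k + 2 * r) * (2 : ℝ) ^ (-((r * k : ℕ) : ℝ) / 3) *
        (Fintype.card Ω : ℝ) ^ (k * k) := sum_le_sum hterm
      _ = ((k + 1 - r : ℕ) : ℝ) * (k * (2 : ℝ) ^ (2 * k + 2 * r) *
          (2 : ℝ) ^ (-((r * k : ℕ) : ℝ) / 3) * (Fintype.card Ω : ℝ) ^ (k * k)) := by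
          rw [sum_const, nsmul_eq_mul, Nat.card_Icc]
      _ ≤ (k : ℝ) * (k * (2 : ℝ) ^ (2 * k + 2 * r) *
          (2 : ℝ) ^ (-((r * k : ℕ) : ℝ) / 3) * (Fintype.card Ω : ℝ) ^ (k * k)) := by
          apply mul_le_mul_of_nonneg_right _ (by positivity)
          have : k + 1 - r ≤ k := by omega
          exact_mod_cast this
      _ = _ := by ring

end count

end Vale.Agent.P160.Half.RankQ304
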