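import Mathlib

/-! # P160, rate 1/2, item MID: moments of the kernel (abstract form, helper113)

`e p y` = excess of the corank at `p` over the rational corank `f y`. If the profile bound and the
rational rank bound hold then the `m`-th moment of `∏ p ^ (corank)` is `2 ^ o(k)`
when `∑ log₂ p ≤ k ^ (1 - g)`. -/

namespace Vale.Agent.P160.Half.MidKm

open Finset Filter
open scoped Topology

/-- sum over profiles -/
theorem sum_profile {Y : Type*} [Fintype Y] (k M : ℕ) (PP : Finset ℕ) (e : ℕ → Y → ℕ) (W : ℕ → ℝ)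
    (T : ℝ) (hW : ∀ p ∈ PP, 0 < W p) (he : ∀ p ∈ PP, ∀ y, e p y ≤ k)
    (hP : ∀ x : ℕ → ℕ, ((univ.filter fun y => ∀ p ∈ PP, x p ≤ e p y).card : ℝ) *
      ∏ p ∈ PP, W p ^ ((x p).choose 2) ≤ T * ∏ p ∈ PP, (k : ℝ) ^ (x p)) :
    ∑ y : Y, ∏ p ∈ PP, (p : ℝ) ^ (M * e p y) ≤
      T * ∏ p ∈ PP, ∑ x ∈ range (k + 1), (p : ℝ) ^ (M * x) * (k : ℝ) ^ x / W p ^ (x.choose 2) := by
  classical
  set t : PP → Finset ℕ := fun _ => range (k + 1) with ht
  have h1 : ∀ y : Y, ∏ p ∈ PP, (p : ℝ) ^ (M * e p y) =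
      ∑ x ∈ Fintype.piFinset t, if (∀ p : PP, x p = e p y) then ∏ p : PP, ((p : ℕ) : ℝ) ^ (M * x p)
        else 0 := by
    intro y
    rw [Finset.sum_eq_single (fun p : PP => e p y)]
    · rw [if_pos (fun p => rfl)]
      exact (Finset.prod_coe_sort PP (fun p => (p : ℝ) ^ (M * e p y))).symm
    · intro x _ hx
      rw [if_neg]
      intro h
      exact hx (funext h)
    · intro h
      exfalso
      apply h
      rw [Fintype.mem_piFinset]
      intro p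
      rw [ht, Finset.mem_range]
      exact Nat.lt_succ_of_le (he p p.2 y)
  simp_rw [h1]
  rw [Finset.sum_comm]
  have h2 : ∀ x ∈ Fintype.piFinset t, (∑ y : Y, if (∀ p : PP, x p = e p y) then
      ∏ p : PP, ((p : ℕ) : ℝ) ^ (M * x p) else 0) ≤
      T * ∏ p : PP, (((p : ℕ) : ℝ) ^ (M * x p) * (k : ℝ) ^ (x p) / W p ^ ((x p).choose 2)) := by
    intro x _
    rw [← Finset.sum_filter, Finset.sum_const, nsmul_eq_mul]
    set x' : ℕ → ℕ := fun p => if h : p ∈ PP then x ⟨p, h⟩ else 0 with hx'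
    have hx'' : ∀ p : PP, x' p = x p := fun p => by
      rw [hx']
      simp
    have hcard : ((univ.filter fun y : Y => ∀ p : PP, x p = e p y).card : ℝ) ≤
        ((univ.filter fun y => ∀ p ∈ PP, x' p ≤ e p y).card : ℝ) := by
      have : (univ.filter fun y : Y => ∀ p : PP, x p = e p y) ⊆
          (univ.filter fun y => ∀ p ∈ PP, x' p ≤ e p y) := by
        intro y hy
        rw [Finset.mem_filter] at hy ⊢
        refine ⟨mem_univ _, fun p hp => ?_⟩
        have := hy.2 ⟨p, hp⟩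
        rw [← hx''] at this
        exact this.le
      exact_mod_cast Finset.card_le_card this
    have hWp : 0 < ∏ p ∈ PP, W p ^ ((x' p).choose 2) :=
      Finset.prod_pos fun p hp => pow_pos (hW p hp) _
    have h3 : ((univ.filter fun y => ∀ p ∈ PP, x' p ≤ e p y).card : ℝ) ≤
        T * (∏ p ∈ PP, (k : ℝ) ^ (x' p)) / ∏ p ∈ PP, W p ^ ((x' p).choose 2) := by
      rw [le_div_iff₀ hWp]
      exact hP x'
    have h4 : ∀ F : ℕ → ℕ → ℝ, ∏ p ∈ PP, F p (x' p) = ∏ p : PP, F p (x p) := by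
      intro F
      rw [← Finset.prod_coe_sort PP (fun p => F p (x' p))]
      exact Finset.prod_congr rfl fun p _ => by rw [hx'']
    rw [h4 (fun _ a => (k : ℝ) ^ a), h4 (fun p a => W p ^ (a.choose 2))] at h3
    have h5 : (0 : ℝ) ≤ ∏ p : PP, ((p : ℕ) : ℝ) ^ (M * x p) :=
      Finset.prod_nonneg fun p _ => by positivity
    refine (mul_le_mul_of_nonneg_right (hcard.trans h3) h5).trans (le_of_eq ?_)
    rw [Finset.prod_div_distrib, Finset.prod_mul_distrib]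
    ring
  refine (Finset.sum_le_sum h2).trans (le_of_eq ?_)
  rw [← Finset.mul_sum]
  congr 1
  rw [← Finset.prod_coe_sort PP]
  rw [Finset.prod_univ_sum]

/-- one prime -/
theorem one_prime {k p M : ℕ} (hk : 2 ≤ k) (hkp : k ≤ p) :
    ∑ x ∈ range (k + 1), (p : ℝ) ^ (M * x) * (k : ℝ) ^ x / ((p : ℝ) ^ (Real.logb k 2)) ^ (x.choose 2) ≤
      (2 : ℝ) ^ ((((M : ℝ) + 2) ^ 2 / 2 + 2) * Real.logb 2 k * Real.logb 2 p) := by
  have hk0 : (0 : ℝ) < k := by exact_mod_cast (by omega : 0 < k)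
  have hp0 : (0 : ℝ) < p := by exact_mod_cast (by omega : 0 < p)
  have hk2 : (2 : ℝ) ≤ k := by exact_mod_cast hk
  have hkp' : (k : ℝ) ≤ p := by exact_mod_cast hkp
  set L : ℝ := Real.logb 2 k with hL
  set P : ℝ := Real.logb 2 p with hP
  have hL1 : 1 ≤ L := by
    rw [hL, Real.le_logb_iff_rpow_le (by norm_num) hk0, Real.rpow_one]
    exact hk2
  have hLP : L ≤ P := Real.logb_le_logb_of_le (by norm_num) hk0 hkp'
  set b : ℝ := P / L with hb
  have hL0 : 0 < L := by linarith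
  have hb1 : 1 ≤ b := by rw [hb, le_div_iff₀ hL0]; linarith
  have hbL : b * L = P := by rw [hb]; field_simp
  have ek : (k : ℝ) = (2 : ℝ) ^ L := (Real.rpow_logb (by norm_num) (by norm_num) hk0).symm
  have ep : (p : ℝ) = (2 : ℝ) ^ P := (Real.rpow_logb (by norm_num) (by norm_num) hp0).symm
  have elog : Real.logb k 2 = 1 / L := by
    rw [hL, Real.logb, Real.logb, one_div, inv_div]
  have eW : (p : ℝ) ^ (Real.logb k 2) = (2 : ℝ) ^ b := by
    rw [elog, ep, ← Real.rpow_mul (by norm_num), hb]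
    congr 1
    ring
  have hterm : ∀ x ∈ range (k + 1), (p : ℝ) ^ (M * x) * (k : ℝ) ^ x /
      ((p : ℝ) ^ (Real.logb k 2)) ^ (x.choose 2) ≤ (2 : ℝ) ^ (((M : ℝ) + 2) ^ 2 / 2 * L * P) := by
    intro x _
    rw [eW]
    have e1 : (p : ℝ) ^ (M * x) = (2 : ℝ) ^ (P * ((M : ℝ) * x)) := by
      rw [ep, ← Real.rpow_natCast, ← Real.rpow_mul (by norm_num)]
      push_cast
      rfl
    have e2 : (k : ℝ) ^ x = (2 : ℝ) ^ (L * x) := by
      rw [ek, ← Real.rpow_natCast, ← Real.rpow_mul (by norm_num)]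
    have e3 : ((2 : ℝ) ^ b) ^ (x.choose 2) = (2 : ℝ) ^ (b * ((x : ℝ) * (x - 1) / 2)) := by
      rw [← Real.rpow_natCast, ← Real.rpow_mul (by norm_num), Nat.cast_choose_two]
    rw [e1, e2, e3, ← Real.rpow_add (by norm_num), ← Real.rpow_sub (by norm_num)]
    refine Real.rpow_le_rpow_of_exponent_le (by norm_num) ?_
    have hx0 : (0 : ℝ) ≤ x := Nat.cast_nonneg x
    have hM0 : (0 : ℝ) ≤ M := Nat.cast_nonneg M
    rw [← hbL]
    -- exponent
    have h1 : L * x ≤ b * L * x := by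
      have : 0 ≤ L * x := by positivity
      nlinarith
    have h2 : ((M : ℝ) + 1) * L * x - x * (x - 1) / 2 ≤ ((M : ℝ) + 2) ^ 2 / 2 * L ^ 2 := by
      have h3 : ((M : ℝ) + 1) * L * x + x / 2 ≤ ((M : ℝ) + 2) * L * x := by nlinarith
      nlinarith [sq_nonneg ((x : ℝ) - ((M : ℝ) + 2) * L)]
    have h4 : b * (((M : ℝ) + 1) * L * x - x * (x - 1) / 2) ≤ b * (((M : ℝ) + 2) ^ 2 / 2 * L ^ 2) :=
      mul_le_mul_of_nonneg_left h2 (by linarith)
    nlinarith
  refine (Finset.sum_le_sum hterm).trans ?_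
  rw [Finset.sum_const, Finset.card_range, nsmul_eq_mul]
  have h5 : ((k + 1 : ℕ) : ℝ) ≤ (2 : ℝ) ^ (2 * L * P) := by
    have h6 : ((k + 1 : ℕ) : ℝ) ≤ (2 : ℝ) ^ (1 + L) := by
      rw [Real.rpow_add (by norm_num), Real.rpow_one, ← ek]
      push_cast
      linarith
    refine h6.trans (Real.rpow_le_rpow_of_exponent_le (by norm_num) ?_)
    nlinarith
  calc ((k + 1 : ℕ) : ℝ) * (2 : ℝ) ^ (((M : ℝ) + 2) ^ 2 / 2 * L * P)
      ≤ (2 : ℝ) ^ (2 * L * P) * (2 : ℝ) ^ (((M : ℝ) + 2) ^ 2 / 2 * L * P) :=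
        mul_le_mul_of_nonneg_right h5 (by positivity)
    _ = (2 : ℝ) ^ ((((M : ℝ) + 2) ^ 2 / 2 + 2) * L * P) := by
        rw [← Real.rpow_add (by norm_num)]
        congr 1
        ring

/-- moments of the excess part -/
theorem moment_excess {Y : Type*} [Fintype Y] {k M : ℕ} (hk : 2 ≤ k) (PP : Finset ℕ)
    (hPP : ∀ p ∈ PP, k ≤ p) (e : ℕ → Y → ℕ) (T : ℝ) (hT : 0 ≤ T) (he : ∀ p ∈ PP, ∀ y, e p y ≤ k)
    (hP : ∀ x : ℕ → ℕ, ((univ.filter fun y => ∀ p ∈ PP, x p ≤ e p y).card : ℝ) *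
      ∏ p ∈ PP, ((p : ℝ) ^ (Real.logb k 2)) ^ ((x p).choose 2) ≤ T * ∏ p ∈ PP, (k : ℝ) ^ (x p)) :
    ∑ y : Y, ∏ p ∈ PP, (p : ℝ) ^ (M * e p y) ≤
      T * (2 : ℝ) ^ ((((M : ℝ) + 2) ^ 2 / 2 + 2) * Real.logb 2 k * ∑ p ∈ PP, Real.logb 2 p) := by
  have hpos : ∀ p ∈ PP, (0 : ℝ) < p := fun p hp => by
    have := hPP p hp
    exact_mod_cast (by omega : 0 < p)
  refine (sum_profile k M PP e (fun p => (p : ℝ) ^ (Real.logb k 2)) T
    (fun p hp => Real.rpow_pos_of_pos (hpos p hp) _) he hP).trans ?_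
  refine mul_le_mul_of_nonneg_left ?_ hT
  rw [Finset.mul_sum, Real.rpow_sum_of_pos (by norm_num)]
  refine Finset.prod_le_prod (fun p hp => Finset.sum_nonneg fun x _ => ?_) fun p hp => ?_
  · have := hpos p hp
    positivity
  · exact one_prime hk (hPP p hp)

/-- moments of the rational part -/
theorem moment_rat {Y : Type*} [Fintype Y] {k M : ℕ} (f : Y → ℕ) (hf : ∀ y, f y ≤ k) (T Λ : ℝ)
    (hT : 0 ≤ T) (hcard : (Fintype.card Y : ℝ) ≤ T) (hΛ0 : 0 ≤ Λ) (hΛ : M * Λ + 2 ≤ (k : ℝ) / 12)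
    (hR : ∀ r : ℕ, 20 ≤ r → r ≤ k → ((univ.filter fun y => f y = r).card : ℝ) ≤
      T * ((k + 1) * (2 : ℝ) ^ (2 * (k : ℝ) + 2 * r - r * k / 3))) :
    ∑ y : Y, (2 : ℝ) ^ (M * Λ * f y) ≤ T * (2 * (2 : ℝ) ^ (20 * (M * Λ))) := by
  classical
  have hM0 : (0 : ℝ) ≤ M * Λ := by positivity
  have h1 : ∑ y : Y, (2 : ℝ) ^ (M * Λ * f y) =
      ∑ y ∈ univ.filter (fun y => f y < 20), (2 : ℝ) ^ (M * Λ * f y) +
      ∑ y ∈ univ.filter (fun y => ¬ f y < 20), (2 : ℝ) ^ (M * Λ * f y) :=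
    (Finset.sum_filter_add_sum_filter_not _ _ _).symm
  have h2 : ∑ y ∈ univ.filter (fun y => f y < 20), (2 : ℝ) ^ (M * Λ * f y) ≤
      T * (2 : ℝ) ^ (20 * (M * Λ)) := by
    calc ∑ y ∈ univ.filter (fun y => f y < 20), (2 : ℝ) ^ (M * Λ * f y)
        ≤ ∑ y ∈ univ.filter (fun y => f y < 20), (2 : ℝ) ^ (20 * (M * Λ)) := by
          refine Finset.sum_le_sum fun y hy => ?_
          rw [Finset.mem_filter] at hy
          refine Real.rpow_le_rpow_of_exponent_le (by norm_num) ?_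
          have : (f y : ℝ) ≤ 20 := by exact_mod_cast hy.2.le
          nlinarith
      _ = ((univ.filter (fun y => f y < 20)).card : ℝ) * (2 : ℝ) ^ (20 * (M * Λ)) := by
          rw [Finset.sum_const, nsmul_eq_mul]
      _ ≤ T * (2 : ℝ) ^ (20 * (M * Λ)) := by
          refine mul_le_mul_of_nonneg_right (le_trans ?_ hcard) (by positivity)
          exact_mod_cast Finset.card_le_univ _
  have h3 : ∑ y ∈ univ.filter (fun y => ¬ f y < 20), (2 : ℝ) ^ (M * Λ * f y) ≤ T * 1 := by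
    have h4 : ∑ y ∈ univ.filter (fun y => ¬ f y < 20), (2 : ℝ) ^ (M * Λ * f y) =
        ∑ r ∈ (range (k + 1)).filter (fun r => 20 ≤ r),
          ((univ.filter fun y => f y = r).card : ℝ) * (2 : ℝ) ^ (M * Λ * r) := by
      rw [← Finset.sum_fiberwise_of_maps_to (t := (range (k + 1)).filter (fun r => 20 ≤ r))
        (g := f)]
      · refine Finset.sum_congr rfl fun r hr => ?_
        rw [Finset.mem_filter] at hr
        have : (univ.filter (fun y => ¬ f y < 20)).filter (fun y => f y = r) =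
            univ.filter fun y => f y = r := by
          ext y
          simp only [Finset.mem_filter, Finset.mem_univ, true_and, not_lt]
          constructor
          · exact fun h => h.2
          · intro h
            exact ⟨by rw [h]; exact hr.2, h⟩
        rw [this]
        rw [Finset.sum_congr rfl (g := fun _ => (2 : ℝ) ^ (M * Λ * r))]
        · rw [Finset.sum_const, nsmul_eq_mul]
        · intro y hy
          rw [Finset.mem_filter] at hy
          rw [hy.2]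
      · intro y hy
        rw [Finset.mem_filter] at hy ⊢
        exact ⟨Finset.mem_range.2 (Nat.lt_succ_of_le (hf y)), not_lt.1 hy.2⟩
    rw [h4]
    have h5 : ∀ r ∈ (range (k + 1)).filter (fun r => 20 ≤ r),
        ((univ.filter fun y => f y = r).card : ℝ) * (2 : ℝ) ^ (M * Λ * r) ≤
          T * ((k + 1) * (2 : ℝ) ^ (-(3 * (k : ℝ)))) := by
      intro r hr
      rw [Finset.mem_filter, Finset.mem_range] at hr
      have hr20 : (20 : ℝ) ≤ r := by exact_mod_cast hr.2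
      calc ((univ.filter fun y => f y = r).card : ℝ) * (2 : ℝ) ^ (M * Λ * r)
          ≤ (T * ((k + 1) * (2 : ℝ) ^ (2 * (k : ℝ) + 2 * r - r * k / 3))) * (2 : ℝ) ^ (M * Λ * r) :=
            mul_le_mul_of_nonneg_right (hR r hr.2 (Nat.lt_succ_iff.1 hr.1)) (by positivity)
        _ = T * ((k + 1) * (2 : ℝ) ^ (2 * (k : ℝ) + 2 * r - r * k / 3 + M * Λ * r)) := by
            rw [Real.rpow_add (by norm_num) (2 * (k : ℝ) + 2 * r - r * k / 3)]
            ring
        _ ≤ T * ((k + 1) * (2 : ℝ) ^ (-(3 * (k : ℝ)))) := by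
            refine mul_le_mul_of_nonneg_left ?_ hT
            refine mul_le_mul_of_nonneg_left ?_ (by positivity)
            refine Real.rpow_le_rpow_of_exponent_le (by norm_num) ?_
            have hk0 : (0 : ℝ) ≤ k := Nat.cast_nonneg k
            have h6 : (r : ℝ) * (M * Λ + 2) ≤ r * ((k : ℝ) / 12) :=
              mul_le_mul_of_nonneg_left hΛ (by linarith)
            have h7 : 20 * (k : ℝ) ≤ r * k := mul_le_mul_of_nonneg_right hr20 hk0
            nlinarith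
    refine (Finset.sum_le_sum h5).trans ?_
    rw [Finset.sum_const, nsmul_eq_mul]
    have h6 : (((range (k + 1)).filter (fun r => 20 ≤ r)).card : ℝ) ≤ k + 1 := by
      have : ((range (k + 1)).filter (fun r => 20 ≤ r)).card ≤ k + 1 := by
        refine (Finset.card_filter_le _ _).trans ?_
        rw [Finset.card_range]
      exact_mod_cast this
    have h7 : ((k : ℝ) + 1) ≤ (2 : ℝ) ^ (k : ℝ) := by
      rw [Real.rpow_natCast]
      have : k + 1 ≤ 2 ^ k := Nat.lt_two_pow_self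
      exact_mod_cast this
    have h8 : ((k : ℝ) + 1) * ((k + 1) * (2 : ℝ) ^ (-(3 * (k : ℝ)))) ≤ 1 := by
      calc ((k : ℝ) + 1) * ((k + 1) * (2 : ℝ) ^ (-(3 * (k : ℝ))))
          ≤ (2 : ℝ) ^ (k : ℝ) * ((2 : ℝ) ^ (k : ℝ) * (2 : ℝ) ^ (-(3 * (k : ℝ)))) := by
            refine mul_le_mul h7 ?_ (by positivity) (by positivity)
            exact mul_le_mul_of_nonneg_right h7 (by positivity)
        _ = (2 : ℝ) ^ (-(k : ℝ)) := by
            rw [← Real.rpow_add (by norm_num), ← Real.rpow_add (by norm_num)]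
            congr 1
            ring
        _ ≤ (2 : ℝ) ^ (0 : ℝ) := Real.rpow_le_rpow_of_exponent_le (by norm_num) (by
            have : (0 : ℝ) ≤ k := Nat.cast_nonneg k
            linarith)
        _ = 1 := Real.rpow_zero _
    calc (((range (k + 1)).filter (fun r => 20 ≤ r)).card : ℝ) * (T * ((k + 1) * (2 : ℝ) ^ (-(3 * (k : ℝ)))))
        ≤ ((k : ℝ) + 1) * (T * ((k + 1) * (2 : ℝ) ^ (-(3 * (k : ℝ))))) :=
          mul_le_mul_of_nonneg_right h6 (by positivity)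
      _ = T * (((k : ℝ) + 1) * ((k + 1) * (2 : ℝ) ^ (-(3 * (k : ℝ))))) := by ring
      _ ≤ T * 1 := mul_le_mul_of_nonneg_left h8 hT
  rw [h1]
  have h9 : (1 : ℝ) ≤ (2 : ℝ) ^ (20 * (M * Λ)) := Real.one_le_rpow (by norm_num) (by positivity)
  calc _ ≤ T * (2 : ℝ) ^ (20 * (M * Λ)) + T * 1 := add_le_add h2 h3
    _ ≤ T * (2 : ℝ) ^ (20 * (M * Λ)) + T * (2 : ℝ) ^ (20 * (M * Λ)) := by
        have := mul_le_mul_of_nonneg_left h9 hT
        linarith
    _ = T * (2 * (2 : ℝ) ^ (20 * (M * Λ))) := by ring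

/-- asymptotics -/
theorem asym (C g η : ℝ) (hg : 0 < g) (hη : 0 < η) : ∃ k0 : ℕ, ∀ k : ℕ, k0 ≤ k →
    C * (Real.logb 2 k + 1) * (k : ℝ) ^ (1 - g) + C ≤ η * k := by
  have h1 : Tendsto (fun x : ℝ => Real.log x / x ^ g) atTop (𝓝 0) :=
    (isLittleO_log_rpow_atTop hg).tendsto_div_nhds_zero
  have h2 : Tendsto (fun x : ℝ => x ^ (-g)) atTop (𝓝 0) := tendsto_rpow_neg_atTop hg
  have h3 : Tendsto (fun x : ℝ => x⁻¹) atTop (𝓝 0) := tendsto_inv_atTop_zero
  have h4 : Tendsto (fun x : ℝ => C * ((Real.log 2)⁻¹ * (Real.log x / x ^ g) + x ^ (-g)) + C * x⁻¹)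
      atTop (𝓝 (C * ((Real.log 2)⁻¹ * 0 + 0) + C * 0)) :=
    (((h1.const_mul _).add h2).const_mul C).add (h3.const_mul C)
  simp only [mul_zero, add_zero] at h4
  have h5 : ∀ᶠ x : ℝ in atTop, C * ((Real.log 2)⁻¹ * (Real.log x / x ^ g) + x ^ (-g)) + C * x⁻¹ < η :=
    h4.eventually (gt_mem_nhds hη)
  have h6 : ∀ᶠ x : ℝ in atTop, C * (Real.logb 2 x + 1) * x ^ (1 - g) + C ≤ η * x := by
    filter_upwards [h5, eventually_gt_atTop 0] with x hx hx0
    have e1 : C * (Real.logb 2 x + 1) * x ^ (1 - g) + C =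
        x * (C * ((Real.log 2)⁻¹ * (Real.log x / x ^ g) + x ^ (-g)) + C * x⁻¹) := by
      have e2 : x ^ (1 - g) = x * x ^ (-g) := by
        rw [sub_eq_add_neg, Real.rpow_add hx0, Real.rpow_one]
      have e3 : Real.log x / x ^ g = Real.log x * x ^ (-g) := by
        rw [Real.rpow_neg hx0.le, div_eq_mul_inv]
      rw [e2, e3, Real.logb]
      field_simp
    rw [e1]
    nlinarith
  obtain ⟨x0, hx0⟩ := eventually_atTop.1 h6
  refine ⟨⌈x0⌉₊, fun k hk => hx0 k ?_⟩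
  exact (Nat.le_ceil x0).trans (by exact_mod_cast hk)

/-- **Moments of the kernel.** -/
theorem km (m : ℕ) (g η : ℝ) (hg : 0 < g) (hη : 0 < η) : ∃ k0 : ℕ, ∀ k : ℕ, k0 ≤ k →
    ∀ (Y : Type) [Fintype Y] (PP : Finset ℕ) (e : ℕ → Y → ℕ) (f : Y → ℕ),
      (∀ p ∈ PP, k ≤ p) → (∑ p ∈ PP, Real.logb 2 p ≤ (k : ℝ) ^ (1 - g)) →
      (∀ p ∈ PP, ∀ y, e p y ≤ k) → (∀ y, f y ≤ k) →
      (∀ x : ℕ → ℕ, ((univ.filter fun y => ∀ p ∈ PP, x p ≤ e p y).card : ℝ) *
        ∏ p ∈ PP, ((p : ℝ) ^ (Real.logb k 2)) ^ ((x p).choose 2) ≤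
          Fintype.card Y * ∏ p ∈ PP, (k : ℝ) ^ (x p)) →
      (∀ r : ℕ, 20 ≤ r → r ≤ k → ((univ.filter fun y => f y = r).card : ℝ) ≤
        Fintype.card Y * ((k + 1) * (2 : ℝ) ^ (2 * (k : ℝ) + 2 * r - r * k / 3))) →
      ∑ y : Y, ∏ p ∈ PP, (p : ℝ) ^ (m * (e p y + f y)) ≤
        (2 : ℝ) ^ (η * k) * Fintype.card Y := by
  set M : ℕ := 2 * m with hM
  set C1 : ℝ := ((M : ℝ) + 2) ^ 2 / 2 + 2 with hC1
  obtain ⟨k1, hk1⟩ := asym (12 * (M + 2)) g 1 hg one_pos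
  obtain ⟨k2, hk2⟩ := asym (C1 + 20 * M + 1) g (2 * η) hg (by linarith)
  refine ⟨max 2 (max k1 k2), fun k hk Y _ PP e f hPP hsum he hf hP hR => ?_⟩
  have hk2' : 2 ≤ k := (le_max_left _ _).trans hk
  have hkk1 := hk1 k ((le_max_left _ _).trans ((le_max_right _ _).trans hk))
  have hkk2 := hk2 k ((le_max_right _ _).trans ((le_max_right _ _).trans hk))
  have hk0 : (0 : ℝ) < k := by exact_mod_cast (by omega : 0 < k)
  have hk2r : (2 : ℝ) ≤ k := by exact_mod_cast hk2'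
  set L : ℝ := Real.logb 2 k with hL
  set K : ℝ := (k : ℝ) ^ (1 - g) with hK
  set Λ : ℝ := ∑ p ∈ PP, Real.logb 2 p with hΛ
  have hL1 : 1 ≤ L := by
    rw [hL, Real.le_logb_iff_rpow_le (by norm_num) hk0, Real.rpow_one]
    exact hk2r
  have hK0 : 0 < K := Real.rpow_pos_of_pos hk0 _
  have hM0 : (0 : ℝ) ≤ M := Nat.cast_nonneg M
  have hpp : ∀ p ∈ PP, (1 : ℝ) ≤ p := fun p hp => by
    have := hPP p hp
    exact_mod_cast (by omega : 1 ≤ p)
  have hΛ0 : 0 ≤ Λ := Finset.sum_nonneg fun p hp => Real.logb_nonneg (by norm_num) (hpp p hp)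
  set T : ℝ := (Fintype.card Y : ℝ) with hT
  have hT0 : 0 ≤ T := Nat.cast_nonneg _
  have hΛM : M * Λ + 2 ≤ (k : ℝ) / 12 := by
    have h1 : (M : ℝ) * Λ ≤ M * K := mul_le_mul_of_nonneg_left hsum hM0
    have h2 : 12 * ((M : ℝ) + 2) * (L + 1) * K + 12 * (M + 2) ≤ 1 * k := hkk1
    have h3 : 12 * (M : ℝ) * K ≤ 12 * ((M : ℝ) + 2) * (L + 1) * K := by
      refine mul_le_mul_of_nonneg_right ?_ hK0.le
      nlinarith
    nlinarith
  have S1 := moment_excess (M := M) hk2' PP hPP e T hT0 he hP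
  have S2 := moment_rat (M := M) f hf T Λ hT0 le_rfl hΛ0 hΛM hR
  -- Cauchy-Schwarz
  have hCS := Finset.sum_mul_sq_le_sq_mul_sq (univ : Finset Y)
    (fun y => ∏ p ∈ PP, (p : ℝ) ^ (m * e p y)) (fun y => ∏ p ∈ PP, (p : ℝ) ^ (m * f y))
  have e1 : ∀ y : Y, (∏ p ∈ PP, (p : ℝ) ^ (m * e p y)) ^ 2 = ∏ p ∈ PP, (p : ℝ) ^ (M * e p y) := by
    intro y
    rw [← Finset.prod_pow]
    refine Finset.prod_congr rfl fun p _ => ?_
    rw [← pow_mul]
    congr 1
    rw [hM]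
    ring
  have e2 : ∀ y : Y, (∏ p ∈ PP, (p : ℝ) ^ (m * f y)) ^ 2 = (2 : ℝ) ^ (M * Λ * f y) := by
    intro y
    rw [← Finset.prod_pow]
    have e3 : (2 : ℝ) ^ (M * Λ * f y) = ∏ p ∈ PP, (2 : ℝ) ^ (M * f y * Real.logb 2 p) := by
      rw [← Real.rpow_sum_of_pos (by norm_num), ← Finset.mul_sum]
      congr 1
      rw [hΛ]
      ring
    rw [e3]
    refine Finset.prod_congr rfl fun p hp => ?_
    rw [← pow_mul, mul_comm ((M : ℝ) * f y) (Real.logb 2 p), Real.rpow_mul (by norm_num),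
      Real.rpow_logb (by norm_num) (by norm_num) (by linarith [hpp p hp]), ← Real.rpow_natCast]
    congr 1
    rw [hM]
    push_cast
    ring
  have e4 : ∀ y : Y, (∏ p ∈ PP, (p : ℝ) ^ (m * e p y)) * (∏ p ∈ PP, (p : ℝ) ^ (m * f y)) =
      ∏ p ∈ PP, (p : ℝ) ^ (m * (e p y + f y)) := by
    intro y
    rw [← Finset.prod_mul_distrib]
    refine Finset.prod_congr rfl fun p _ => ?_
    rw [← pow_add, mul_add]
  simp only [e1, e2, e4] at hCS
  set S : ℝ := ∑ y : Y, ∏ p ∈ PP, (p : ℝ) ^ (m * (e p y + f y)) with hS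
  have hS0 : 0 ≤ S := Finset.sum_nonneg fun y _ => Finset.prod_nonneg fun p _ => by positivity
  have hbound : S ^ 2 ≤ ((2 : ℝ) ^ (η * k) * T) ^ 2 := by
    refine hCS.trans ((mul_le_mul S1 S2 (Finset.sum_nonneg fun y _ => by positivity)
      (by positivity)).trans ?_)
    have h5 : T * (2 : ℝ) ^ (C1 * L * Λ) * (T * (2 * (2 : ℝ) ^ (20 * (M * Λ)))) =
        T ^ 2 * (2 : ℝ) ^ (C1 * L * Λ + 1 + 20 * (M * Λ)) := by
      rw [Real.rpow_add (by norm_num), Real.rpow_add (by norm_num), Real.rpow_one]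
      ring
    have h6 : ((2 : ℝ) ^ (η * k) * T) ^ 2 = T ^ 2 * (2 : ℝ) ^ (2 * η * k) := by
      rw [mul_pow, ← Real.rpow_natCast ((2 : ℝ) ^ (η * k)) 2, ← Real.rpow_mul (by norm_num)]
      rw [mul_comm]
      congr 2
      push_cast
      ring
    rw [h5, h6]
    refine mul_le_mul_of_nonneg_left ?_ (by positivity)
    refine Real.rpow_le_rpow_of_exponent_le (by norm_num) ?_
    have hC1p : 0 ≤ C1 := by rw [hC1]; positivity
    have h7 : C1 * L * Λ ≤ C1 * L * K := mul_le_mul_of_nonneg_left hsum (by positivity)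
    have h8 : 20 * (M * Λ) ≤ 20 * (M * K) := by
      have := mul_le_mul_of_nonneg_left hsum hM0
      linarith
    have h9 : (C1 + 20 * M + 1) * (L + 1) * K + (C1 + 20 * M + 1) ≤ 2 * η * k := hkk2
    have h10 : C1 * L * K + 20 * (M * K) ≤ (C1 + 20 * M + 1) * (L + 1) * K := by
      have : (C1 + 20 * M + 1) * (L + 1) * K - (C1 * L * K + 20 * (M * K)) =
          (C1 + (20 * M + 1) * L + 1) * K := by ring
      have h11 : 0 ≤ (C1 + (20 * M + 1) * L + 1) * K := by positivity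
      linarith
    have h12 : (0 : ℝ) ≤ 20 * M := by positivity
    linarith
  have h13 : 0 ≤ (2 : ℝ) ^ (η * k) * T := by positivity
  exact (pow_le_pow_iff_left₀ hS0 h13 (by norm_num)).1 hbound

end Vale.Agent.P160.Half.MidKm
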