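import Vale.Agent.P160.Half.NrmChar708
import Vale.Agent.P160.Half.Pack502b

/-!
# P160 (M), scheme 11331: MIN NORM in the form of `Pack502.growthC`, level sets from `gP`, Markov
-/

namespace Vale.Agent.P160.Half.MinChar

open Finset Vale.Agent.P160 Vale.Agent.P160.Half.Flat Vale.Agent.P160.Half.NrmChar

variable {G : Type} [AddCommGroup G] [Fintype G] {ι : Type*} {m : ℕ}

/-- **MIN NORM for characters.** `y` is orthogonal to the rows `X i`. -/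
theorem min_char (X : ι → Fin m → ℤ) (hX : ∀ i c, |X i c| ≤ 1)
    (hker : ∀ φ : Fin m → ℝ, (∀ i, ∑ c, (X i c : ℝ) * φ c = 0) → φ = 0)
    {k E : ℝ} (hk : (m : ℝ) ≤ k) (hk0 : 0 < k) (hE : 1 ≤ E)
    (hS : ∀ ψ : Fin m → ℝ, (∀ c, |ψ c| ≤ 1 / 2) →
      ((univ.filter fun c => ψ c ≠ 0).card : ℝ) ≤ E →
      (∃ c, 1 / (4 * E) < |ψ c|) →
      ¬ ∀ i, ∃ z : ℤ, |∑ c, (X i c : ℝ) * ψ c - z| ≤ 1 / (64 * E))
    (y : Fin m → G) (hy : ∀ i, ∑ c, X i c • y c = 0)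
    (ψ : AddChar G ℂ) (hψ : ∃ c, ψ (y c) ≠ 1)
    (F : Finset (Fin m)) (hF : ((Fᶜ).card : ℝ) ≤ E) :
    (1 / (16 * Real.sqrt k * E)) ^ 2 < ∑ c ∈ F, ‖ψ (y c) - 1‖ ^ 2 := by
  have h1 := MinNorm708.min_norm_circle X hX hker (k := k) (E := E) (by simpa using hk) hk0 hE hS
    (fun c => hom ψ (y c)) (by
      intro h0
      obtain ⟨c, hc⟩ := hψ
      apply hc
      have h2 : hom ψ (y c) = 0 := congrFun h0 c
      rw [hom_apply] at h2
      have h3 := le_two_pi (AddChar.norm_apply ψ (y c))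
      rw [h2, norm_zero, mul_zero] at h3
      have h4 : ‖ψ (y c) - 1‖ = 0 := le_antisymm h3 (norm_nonneg _)
      exact sub_eq_zero.1 (norm_eq_zero.1 h4)) (by
      intro i
      have h2 : hom ψ (∑ c, X i c • y c) = 0 := by rw [hy i, map_zero]
      rw [map_sum] at h2
      rw [← h2]
      exact Finset.sum_congr rfl fun c _ => (map_zsmul (hom ψ) _ _).symm) F
    (by rwa [← Finset.compl_eq_univ_sdiff])
  have h2 : 16 * ∑ c ∈ F, ‖hom ψ (y c)‖ ^ 2 ≤ ∑ c ∈ F, ‖ψ (y c) - 1‖ ^ 2 := by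
    rw [Finset.mul_sum]
    refine Finset.sum_le_sum fun c _ => ?_
    have h3 := four_le (AddChar.norm_apply ψ (y c))
    rw [hom_apply]
    have h4 := norm_nonneg (tu (ψ (y c)))
    nlinarith
  have h3 : (1 / (16 * Real.sqrt k * E)) ^ 2 = 16 * (1 / (64 * Real.sqrt k * E)) ^ 2 := by
    have : 0 < Real.sqrt k := Real.sqrt_pos.mpr hk0
    field_simp
    norm_num
  rw [h3]
  linarith

theorem one_sub_cf {M : ℕ} (hM : 4 ≤ M) {z : ℂ} (hz : ‖z‖ = 1) :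
    cf M z = 1 - ‖z - 1‖ ^ 2 / M := by
  have hM0 : (M : ℝ) ≠ 0 := by positivity
  rw [norm_sub_one_sq hz]
  unfold cf
  field_simp
  ring

theorem cf_nonneg {M : ℕ} (hM : 4 ≤ M) {z : ℂ} (hz : ‖z‖ = 1) : 0 ≤ cf M z := by
  have hM0 : (4 : ℝ) ≤ M := by exact_mod_cast hM
  rw [one_sub_cf hM hz]
  have h1 : ‖z - 1‖ ≤ 2 := by
    calc ‖z - 1‖ ≤ ‖z‖ + ‖(1 : ℂ)‖ := norm_sub_le _ _
      _ = 2 := by rw [hz, norm_one]; norm_num
  have h2 : ‖z - 1‖ ^ 2 ≤ 4 := by nlinarith [norm_nonneg (z - 1)]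
  have h3 : ‖z - 1‖ ^ 2 / M ≤ 1 := by
    rw [div_le_one (by linarith)]; linarith
  linarith

/-- characters with large product lie in a level set -/
theorem sum_le_of_gP {M : ℕ} (hM : 4 ≤ M) (y : Fin m → G) (ψ : AddChar G ℂ) {t : ℝ} (ht : 0 < t)
    (h : t ≤ gP M y ψ) : ∑ c, ‖ψ (y c) - 1‖ ^ 2 ≤ M * Real.log (1 / t) := by
  have hM0 : (0 : ℝ) < M := by positivity
  have h1 : gP M y ψ ≤ Real.exp (-(∑ c, ‖ψ (y c) - 1‖ ^ 2) / M) := by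
    unfold gP
    rw [show -(∑ c, ‖ψ (y c) - 1‖ ^ 2) / M = ∑ c, (-(‖ψ (y c) - 1‖ ^ 2) / M) by
      rw [← Finset.sum_neg_distrib, Finset.sum_div], Real.exp_sum]
    refine Finset.prod_le_prod (fun c _ => cf_nonneg hM (AddChar.norm_apply ψ _)) fun c _ => ?_
    rw [one_sub_cf hM (AddChar.norm_apply ψ _)]
    have := Real.add_one_le_exp (-(‖ψ (y c) - 1‖ ^ 2) / M)
    rw [neg_div] at this ⊢
    linarith
  have h2 : Real.log t ≤ -(∑ c, ‖ψ (y c) - 1‖ ^ 2) / M := by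
    rw [← Real.log_exp (-(∑ c, ‖ψ (y c) - 1‖ ^ 2) / M)]
    exact Real.log_le_log ht (h.trans h1)
  rw [one_div, Real.log_inv]
  rw [neg_div, le_neg, div_le_iff₀ hM0] at h2
  linarith

theorem TC_of_gP {M : ℕ} (hM : 4 ≤ M) (y : Fin m → G) (ψ : AddChar G ℂ) {t R : ℝ} (ht : 0 < t)
    (hR : M * Real.log (1 / t) ≤ R ^ 2) (h : t ≤ gP M y ψ) : Pack502.TC y R 0 ψ := by
  refine ⟨univ, by simp, ?_⟩
  exact (sum_le_of_gP hM y ψ ht h).trans hR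

open Classical in
/-- Markov -/
theorem card_of_TC (y : Fin m → G) {ψ : AddChar G ℂ} {ρ D : ℝ} {e : ℕ} (hD : 0 < D)
    (h : Pack502.TC y ρ e ψ) :
    ((univ.filter fun c => D < ‖ψ (y c) - 1‖).card : ℝ) ≤ e + ρ ^ 2 / D ^ 2 := by
  obtain ⟨F, hF, h⟩ := h
  have h1 : (univ.filter fun c => D < ‖ψ (y c) - 1‖) ⊆
      Fᶜ ∪ F.filter fun c => D < ‖ψ (y c) - 1‖ := by
    intro c hc
    by_cases hcF : c ∈ F
    · exact mem_union_right _ (mem_filter.2 ⟨hcF, (mem_filter.1 hc).2⟩)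
    · exact mem_union_left _ (mem_compl.2 hcF)
  have h2 : ((F.filter fun c => D < ‖ψ (y c) - 1‖).card : ℝ) ≤ ρ ^ 2 / D ^ 2 := by
    rw [le_div_iff₀ (by positivity)]
    calc ((F.filter fun c => D < ‖ψ (y c) - 1‖).card : ℝ) * D ^ 2
        = ∑ _c ∈ F.filter (fun c => D < ‖ψ (y c) - 1‖), D ^ 2 := by simp
      _ ≤ ∑ c ∈ F.filter (fun c => D < ‖ψ (y c) - 1‖), ‖ψ (y c) - 1‖ ^ 2 := by
          refine Finset.sum_le_sum fun c hc => ?_
          exact pow_le_pow_left₀ hD.le (mem_filter.1 hc).2.le 2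
      _ ≤ ∑ c ∈ F, ‖ψ (y c) - 1‖ ^ 2 :=
          Finset.sum_le_sum_of_subset_of_nonneg (filter_subset _ _) fun _ _ _ => sq_nonneg _
      _ ≤ ρ ^ 2 := h
  calc ((univ.filter fun c => D < ‖ψ (y c) - 1‖).card : ℝ)
      ≤ ((Fᶜ ∪ F.filter fun c => D < ‖ψ (y c) - 1‖).card : ℝ) := by
        exact_mod_cast card_le_card h1
    _ ≤ ((Fᶜ).card : ℝ) + ((F.filter fun c => D < ‖ψ (y c) - 1‖).card : ℝ) := by
        exact_mod_cast card_union_le _ _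
    _ ≤ e + ρ ^ 2 / D ^ 2 := add_le_add (by exact_mod_cast hF) h2

end Vale.Agent.P160.Half.MinChar
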