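import Mathlib

/-! # P160: minor form of the deterministic Littlewood-Offord inequality, with excess

(helper505; after helper537 and helper832, note 11023 (1)).  `Y` is an integral matrix with rows
indexed by `ι`; for a prime `p` let `U_p` be the left kernel of `Y` modulo `p`.  The half-lazy
vector `β - β'` is orthogonal to all `U_p`, `p ∈ B`, with probability at most `2^(-d)`, where
`∏_{p ∈ B} p ^ (rank_ℚ Y - rank_p Y) ≤ d! a ^ d`, `a = card ι`. -/

namespace Vale.Agent.P160.Half.MLO505

open Finset Matrix Module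

section abs

variable {ι G : Type*} [Fintype ι] [DecidableEq ι] [AddCommGroup G]

/-- coefficients `-1, 0, 1` -/
def Tern (ε : ι → ℤ) : Prop := ∀ i, ε i = -1 ∨ ε i = 0 ∨ ε i = 1

/-- all subset sums of `g` on `D` are different -/
def Dis (g : ι → G) (D : Finset ι) : Prop :=
  ∀ ε : ι → ℤ, Tern ε → (∀ i, i ∉ D → ε i = 0) → ∑ i, ε i • g i = 0 → ∀ i, ε i = 0

theorem exists_max (g : ι → G) : ∃ (D : Finset ι) (C : ι → ι → ℤ), Dis g D ∧
    (∀ k, Tern (C k)) ∧ (∀ k i, i ∉ D → C k i = 0) ∧
    (∀ k ∈ D, ∀ i, C k i = if i = k then 1 else 0) ∧ ∀ k, g k = ∑ i, C k i • g i := by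
  classical
  have hne : (univ.filter fun D : Finset ι => Dis g D).Nonempty :=
    ⟨∅, mem_filter.2 ⟨mem_univ _, fun ε _ h _ i => h i (by simp)⟩⟩
  obtain ⟨D, hD, hmax⟩ := exists_max_image _ (fun D : Finset ι => D.card) hne
  have hD' : Dis g D := (mem_filter.1 hD).2
  have key : ∀ k, ∃ c : ι → ℤ, Tern c ∧ (∀ i, i ∉ D → c i = 0) ∧
      (k ∈ D → ∀ i, c i = if i = k then 1 else 0) ∧ g k = ∑ i, c i • g i := by
    intro k
    by_cases hk : k ∈ D
    · refine ⟨fun i => if i = k then 1 else 0, fun i => ?_, fun i hi => ?_, fun _ i => rfl, ?_⟩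
      · by_cases h : i = k
        · right; right; simp [h]
        · right; left; simp [h]
      · have : i ≠ k := fun h => hi (h ▸ hk)
        simp [this]
      · simp
    · have hnot : ¬ Dis g (insert k D) := by
        intro h
        have := hmax (insert k D) (mem_filter.2 ⟨mem_univ _, h⟩)
        rw [card_insert_of_notMem hk] at this
        omega
      unfold Dis at hnot
      push Not at hnot
      obtain ⟨ε, hε, hsup, hsum, i₀, hi₀⟩ := hnot
      have hk0 : ε k ≠ 0 := by
        intro h0
        apply hi₀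
        refine hD' ε hε (fun i hi => ?_) hsum i₀
        by_cases hik : i = k
        · rw [hik]; exact h0
        · exact hsup i (by simp [hik, hi])
      have hsq : ε k * ε k = 1 := by
        rcases hε k with h | h | h
        · rw [h]; norm_num
        · exact absurd h hk0
        · rw [h]; norm_num
      refine ⟨fun i => if i = k then 0 else -(ε k) * ε i, fun i => ?_, fun i hi => ?_,
        fun h => absurd h hk, ?_⟩
      · by_cases h : i = k
        · right; left; simp [h]
        · simp only [h, if_false]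
          rcases hε i with h1 | h1 | h1 <;> rcases hε k with h2 | h2 | h2 <;>
            simp [h1, h2]
      · by_cases h : i = k
        · simp [h]
        · simp only [h, if_false]
          rw [hsup i (by simp [h, hi])]
          simp
      · have e1 : ∑ i, (if i = k then 0 else -(ε k) * ε i) • g i =
            -(ε k) • ∑ i, (if i = k then 0 else ε i • g i) := by
          rw [smul_sum]
          refine sum_congr rfl fun i _ => ?_
          by_cases h : i = k
          · simp [h]
          · simp only [h, if_false]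
            rw [mul_smul]
        have e2 : ∑ i, (if i = k then 0 else ε i • g i) = - (ε k • g k) := by
          have h3 : ∑ i, ε i • g i = ε k • g k + ∑ i, (if i = k then 0 else ε i • g i) := by
            rw [← add_sum_erase _ _ (mem_univ k)]
            congr 1
            rw [← add_sum_erase _ (fun i => if i = k then (0 : G) else ε i • g i) (mem_univ k)]
            simp only [if_true, zero_add]
            refine sum_congr rfl fun i hi => ?_
            rw [if_neg (ne_of_mem_erase hi)]
          rw [hsum] at h3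
          exact (neg_eq_of_add_eq_zero_right h3.symm).symm
        rw [e1, e2, smul_neg, neg_smul, neg_neg, smul_smul, hsq, one_smul]
  choose C h1 h2 h3 h4 using key
  exact ⟨D, C, hD', h1, h2, h3, h4⟩

/-- a bit as an integer -/
def bz (b : Bool) : ℤ := if b then 1 else 0

theorem bz_sub (b c : Bool) : bz b - bz c = -1 ∨ bz b - bz c = 0 ∨ bz b - bz c = 1 := by
  cases b <;> cases c <;> simp [bz]

theorem bz_inj {b c : Bool} (h : bz b - bz c = 0) : b = c := by
  cases b <;> cases c <;> simp_all [bz]

/-- the law of `β - β'`: at most `4^a 2^(-d)` pairs give a relation -/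
theorem card_le (g : ι → G) (D : Finset ι) (hD : Dis g D)
    (T : Finset ((ι → Bool) × (ι → Bool)))
    (hT : ∀ x ∈ T, ∑ i, (bz (x.1 i) - bz (x.2 i)) • g i = 0) :
    T.card * 2 ^ D.card ≤ 4 ^ Fintype.card ι := by
  classical
  have h1 : T.card ≤ Fintype.card (({i // i ∉ D} → Bool) × (ι → Bool)) := by
    rw [← card_univ]
    refine card_le_card_of_injOn (fun x => (fun i => x.1 i, x.2)) (fun _ _ => mem_coe.2 (mem_univ _)) ?_
    intro x hx y hy hxy
    simp only [Prod.mk.injEq] at hxy
    obtain ⟨e1, e2⟩ := hxy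
    have hx' := hT x hx
    have hy' := hT y hy
    have h3 : ∑ i, (bz (x.1 i) - bz (y.1 i)) • g i = 0 := by
      have : ∀ i, (bz (x.1 i) - bz (y.1 i)) • g i =
          (bz (x.1 i) - bz (x.2 i)) • g i - (bz (y.1 i) - bz (y.2 i)) • g i := by
        intro i
        rw [← sub_smul, ← e2]
        congr 1
        ring
      simp_rw [this]
      rw [sum_sub_distrib, hx', hy', sub_zero]
    have h4 := hD _ (fun i => bz_sub _ _) (fun i hi => ?_) h3
    · have h5 : x.1 = y.1 := funext fun i => bz_inj (h4 i)
      exact Prod.ext h5 e2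
    · have := congrFun e1 ⟨i, hi⟩
      simp only at this
      rw [this]
      exact sub_self _
  have h2 : Fintype.card (({i // i ∉ D} → Bool) × (ι → Bool)) * 2 ^ D.card =
      4 ^ Fintype.card ι := by
    rw [Fintype.card_prod, Fintype.card_fun, Fintype.card_fun, Fintype.card_bool,
      Fintype.card_subtype_compl, Fintype.card_coe]
    have h3 : D.card ≤ Fintype.card ι := card_le_univ D
    rw [mul_right_comm, ← pow_add, Nat.sub_add_cancel h3, ← mul_pow]
    norm_num
  rw [← h2]
  exact Nat.mul_le_mul_right _ h1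

end abs

section lin

variable {k : Type*} [Field k] {ι : Type*} [Fintype ι] [DecidableEq ι]

theorem exists_basis (N : Submodule k (ι → k)) :
    ∃ (B : Basis ι k (ι → k)) (J : Finset ι), J.card = finrank k N ∧ ∀ j ∈ J, B j ∈ N := by
  classical
  obtain ⟨N', hN⟩ := Submodule.exists_isCompl N
  set s := finrank k N
  set t := finrank k N'
  let b := ((finBasis k N).prod (finBasis k N')).map (Submodule.prodEquivOfIsCompl N N' hN)
  have hcard : Fintype.card (Fin s ⊕ Fin t) = Fintype.card ι := by
    rw [← finrank_eq_card_basis b, finrank_fintype_fun_eq_card]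
  let e : Fin s ⊕ Fin t ≃ ι := Fintype.equivOfCardEq hcard
  refine ⟨b.reindex e, (Finset.univ : Finset (Fin s)).image fun i => e (Sum.inl i), ?_, ?_⟩
  · rw [Finset.card_image_of_injective _ fun x y h => Sum.inl_injective (e.injective h),
      Finset.card_univ, Fintype.card_fin]
  · intro j hj
    obtain ⟨i, -, rfl⟩ := Finset.mem_image.1 hj
    rw [Basis.reindex_apply, e.symm_apply_apply]
    simp only [b, Basis.map_apply, Basis.prod_apply, Sum.elim_inl,
      Function.comp_apply, Submodule.coe_prodEquivOfIsCompl', LinearMap.coe_inl,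
      ZeroMemClass.coe_zero, add_zero]
    exact (finBasis k N i).2

/-- reduction of an integral matrix modulo `p` -/
def red (p : ℕ) {m n : Type*} (A : Matrix m n ℤ) : Matrix m n (ZMod p) :=
  A.map (Int.cast : ℤ → ZMod p)

/-- rational matrix of an integral matrix -/
def rat {m n : Type*} (A : Matrix m n ℤ) : Matrix m n ℚ := A.map (Int.cast : ℤ → ℚ)

theorem red_apply {p : ℕ} {m n : Type*} (A : Matrix m n ℤ) (i : m) (j : n) :
    red p A i j = ((A i j : ℤ) : ZMod p) := rfl

theorem rat_apply {m n : Type*} (A : Matrix m n ℤ) (i : m) (j : n) :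
    rat A i j = ((A i j : ℤ) : ℚ) := rfl

theorem vecMul_apply {R m n : Type*} [CommSemiring R] [Fintype m] (u : m → R) (A : Matrix m n R) (j : n) :
    (u ᵥ* A) j = ∑ i, u i * A i j := rfl

theorem red_det {p : ℕ} (A : Matrix ι ι ℤ) : (red p A).det = ((A.det : ℤ) : ZMod p) :=
  (RingHom.map_det (Int.castRingHom (ZMod p)) A).symm

theorem rat_det (A : Matrix ι ι ℤ) : (rat A).det = ((A.det : ℤ) : ℚ) :=
  (RingHom.map_det (Int.castRingHom ℚ) A).symm

/-- **`p ^ corank_p A ∣ det A`** -/
theorem pow_dvd_det {p : ℕ} [Fact p.Prime] (A : Matrix ι ι ℤ) :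
    (p : ℤ) ^ (Fintype.card ι - (red p A).rank) ∣ A.det := by
  classical
  obtain ⟨B, J, hJ, hB⟩ := exists_basis (LinearMap.ker (red p A).mulVecLin)
  have hker : finrank (ZMod p) (LinearMap.ker (red p A).mulVecLin) =
      Fintype.card ι - (red p A).rank := by
    have := LinearMap.finrank_range_add_finrank_ker (red p A).mulVecLin
    rw [finrank_fintype_fun_eq_card] at this
    unfold Matrix.rank
    omega
  obtain ⟨U, hUe, hdet⟩ : ∃ U : Matrix ι ι (ZMod p), (∀ i j, U i j = B j i) ∧ U.det ≠ 0 := by
    refine ⟨(Pi.basisFun (ZMod p) ι).toMatrix B, fun i j => ?_, ?_⟩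
    · rw [Basis.toMatrix_apply, Pi.basisFun_repr]
    · have hU : (Pi.basisFun (ZMod p) ι).toMatrix B * (B.toMatrix (Pi.basisFun (ZMod p) ι)) = 1 :=
        (Pi.basisFun (ZMod p) ι).toMatrix_mul_toMatrix_flip B
      intro h0
      have := congrArg Matrix.det hU
      rw [Matrix.det_mul, h0, zero_mul, Matrix.det_one] at this
      exact zero_ne_one this
  obtain ⟨V, hV⟩ : ∃ V : Matrix ι ι ℤ, ∀ i j, ((V i j : ℤ) : ZMod p) = U i j := by
    refine ⟨fun i j => ((U i j).val : ℤ), fun i j => ?_⟩
    show ((((U i j).val : ℕ) : ℤ) : ZMod p) = U i j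
    rw [Int.cast_natCast, ZMod.natCast_val, ZMod.cast_id]
  have hVU : red p V = U := by
    ext i j
    rw [red_apply, hV]
  have hA : ∀ j ∈ J, ∀ i, (p : ℤ) ∣ (A * V) i j := by
    intro j hj i
    rw [← ZMod.intCast_zmod_eq_zero_iff_dvd]
    have h1 := congrFun (LinearMap.mem_ker.1 (hB j hj)) i
    have h2 : (((A * V) i j : ℤ) : ZMod p) = ∑ l, red p A i l * B j l := by
      rw [Matrix.mul_apply, Int.cast_sum]
      refine Finset.sum_congr rfl fun l _ => ?_
      rw [Int.cast_mul, hV, hUe, red_apply]
    rw [h2]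
    exact h1
  let v : ι → ℤ := fun j => if j ∈ J then (p : ℤ) else 1
  have hv : ∀ i j, v j ∣ (A * V) i j := by
    intro i j
    by_cases hj : j ∈ J
    · simp only [v, if_pos hj]
      exact hA j hj i
    · simp only [v, if_neg hj]
      exact one_dvd _
  choose G' hG' using hv
  have e1 : A * V = fun i j => v j * G' i j := by
    funext i j
    exact hG' i j
  have e2 : (A * V).det = (∏ j, v j) * Matrix.det (fun i j => G' i j) := by
    rw [e1]
    exact Matrix.det_mul_row v _
  have e3 : (∏ j, v j) = (p : ℤ) ^ (Fintype.card ι - (red p A).rank) := by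
    simp only [v]
    rw [Finset.prod_ite_mem, Finset.univ_inter, Finset.prod_const, hJ, hker]
  have h5 : (p : ℤ) ^ (Fintype.card ι - (red p A).rank) ∣ A.det * V.det := by
    rw [← Matrix.det_mul, e2, e3]
    exact dvd_mul_right _ _
  have hp : Prime (p : ℤ) := Nat.prime_iff_prime_int.1 (Fact.out)
  have hnd : ¬ (p : ℤ) ∣ V.det := by
    intro h
    apply hdet
    rw [← hVU, red_det]
    exact (ZMod.intCast_zmod_eq_zero_iff_dvd _ _).2 h
  exact (hp.coprime_iff_not_dvd.2 hnd).pow_left.dvd_of_dvd_mul_right h5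

/-- the left kernel -/
def lk {m n : Type*} [Fintype m] [Fintype n] (A : Matrix m n k) : Submodule k (m → k) :=
  LinearMap.ker A.vecMulLinear

theorem mem_lk {m n : Type*} [Fintype m] [Fintype n] (A : Matrix m n k) (u : m → k) :
    u ∈ lk A ↔ u ᵥ* A = 0 := by
  rw [lk, LinearMap.mem_ker, Matrix.vecMulLinear_apply]

theorem finrank_lk {m n : Type*} [Fintype m] [Fintype n] (A : Matrix m n k) :
    finrank k (lk A) + A.rank = Fintype.card m := by
  have h := LinearMap.finrank_range_add_finrank_ker (A.vecMulLinear)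
  rw [finrank_fintype_fun_eq_card, ← Matrix.mulVecLin_transpose] at h
  have h2 : finrank k (LinearMap.range Aᵀ.mulVecLin) = A.rank := by
    rw [← rank_transpose A]
    rfl
  rw [h2] at h
  rw [lk, ← Matrix.mulVecLin_transpose]
  omega

theorem exists_rows {m n : Type*} [Fintype m] [Fintype n] (M : Matrix m n k) :
    ∃ f : Fin M.rank → m, LinearIndependent k (M.submatrix f id).row := by
  classical
  obtain ⟨κ, a, ha, hspan, hli⟩ := exists_linearIndependent' k M.row
  have : Finite κ := Finite.of_injective a ha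
  have : Fintype κ := Fintype.ofFinite κ
  have hc : Fintype.card κ = M.rank := by
    rw [rank_eq_finrank_span_row, ← hspan]
    exact (finrank_span_eq_card hli).symm
  let e : Fin M.rank ≃ κ := (Fintype.equivFinOfCardEq hc).symm
  exact ⟨a ∘ e, hli.comp e e.injective⟩

theorem exists_minor {m n : Type*} [Fintype m] [Fintype n] (M : Matrix m n k) :
    ∃ (f : Fin M.rank → m) (g : Fin M.rank → n), (M.submatrix f g).det ≠ 0 := by
  classical
  obtain ⟨f, hf⟩ := exists_rows M
  have h1 : (M.submatrix f id).rank = M.rank := by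
    rw [hf.rank_matrix, Fintype.card_fin]
  obtain ⟨g, hg⟩ := exists_rows (M.submatrix f id)ᵀ
  have h2 : ((M.submatrix f id)ᵀ).rank = M.rank := by rw [rank_transpose, h1]
  refine ⟨f, g ∘ Fin.cast h2.symm, ?_⟩
  have h3 : LinearIndependent k ((M.submatrix f (g ∘ Fin.cast h2.symm))ᵀ).row := by
    have := hg.comp (Fin.cast h2.symm) (Fin.cast_injective _)
    exact this
  rw [Matrix.linearIndependent_rows_iff_isUnit] at h3
  have h4 := (Matrix.isUnit_iff_isUnit_det _).1 h3
  rw [Matrix.det_transpose] at h4
  exact h4.ne_zero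

end lin

section main

variable {ι κ : Type*} [Fintype ι] [DecidableEq ι] [Fintype κ]

/-- **Deterministic Littlewood-Offord inequality with excess, minor form.** -/
theorem minLO (Y : Matrix ι κ ℤ) (hY : ∀ i j, |Y i j| ≤ 1) (B : Finset ℕ)
    (hB : ∀ p ∈ B, p.Prime) (T : Finset ((ι → Bool) × (ι → Bool)))
    (hT : ∀ x ∈ T, ∀ p ∈ B, ∀ u : ι → ZMod p, u ᵥ* red p Y = 0 →
      ∑ i, ((bz (x.1 i) - bz (x.2 i) : ℤ) : ZMod p) * u i = 0) :
    ∃ d ≤ Fintype.card ι, T.card * 2 ^ d ≤ 4 ^ Fintype.card ι ∧
      ∏ p ∈ B, p ^ ((rat Y).rank - (red p Y).rank) ≤ d.factorial * Fintype.card ι ^ d := by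
  classical
  let g : ι → (∀ p : B, {u : ι → ZMod p // u ᵥ* red (p : ℕ) Y = 0} → ZMod p) :=
    fun i p u => u.1 i
  obtain ⟨D, C, hD, hC, hC0, hC1, hgC⟩ := exists_max g
  have hu : ∀ p ∈ B, ∀ u : ι → ZMod p, u ᵥ* red p Y = 0 → ∀ k, u k = ∑ i, (C k i : ZMod p) * u i := by
    intro p hp u hu k
    have := congrFun (congrFun (hgC k) ⟨p, hp⟩) ⟨u, hu⟩
    simp only [g, Finset.sum_apply, zsmul_eq_mul] at this
    exact this
  have hcard := card_le g D hD T (fun x hx => by
    funext p u
    have := hT x hx p.1 p.2 u.1 u.2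
    simp only [g, Finset.sum_apply, zsmul_eq_mul, Pi.zero_apply]
    exact this)
  refine ⟨D.card, card_le_univ D, hcard, ?_⟩
  obtain ⟨M, hMe⟩ : ∃ M : Matrix D κ ℤ, ∀ i j, M i j = ∑ k, C k i * Y k j :=
    ⟨fun i j => ∑ k, C k i * Y k j, fun _ _ => rfl⟩
  have hM : ∀ i j, |M i j| ≤ (Fintype.card ι : ℤ) := by
    intro i j
    rw [hMe]
    refine (abs_sum_le_sum_abs _ _).trans ?_
    have : ∀ k ∈ (univ : Finset ι), |C k i * Y k j| ≤ 1 := by
      intro k _
      rw [abs_mul]
      have h1 : |C k i| ≤ 1 := by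
        rcases hC k i with h | h | h <;> rw [h] <;> norm_num
      calc |C k i| * |Y k j| ≤ 1 * 1 := mul_le_mul h1 (hY k j) (abs_nonneg _) zero_le_one
        _ = 1 := one_mul 1
    refine (sum_le_card_nsmul _ _ _ this).trans ?_
    simp
  -- rational ranks
  have hr1 : D.card + (rat Y).rank ≤ Fintype.card ι + (rat M).rank := by
    have h1 := finrank_lk (rat Y)
    have h2 := finrank_lk (rat M)
    rw [Fintype.card_coe] at h2
    let φ : (D → ℚ) →ₗ[ℚ] (ι → ℚ) :=
      { toFun := fun v k => ∑ i : D, (C k i : ℚ) * v i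
        map_add' := fun v w => by funext k; simp [mul_add, sum_add_distrib]
        map_smul' := fun c v => by
          funext k
          simp only [Pi.smul_apply, smul_eq_mul, RingHom.id_apply, mul_sum]
          exact sum_congr rfl fun i _ => by ring }
    have hφ : ∀ v (i : D), φ v i = v i := by
      intro v i
      simp only [φ, LinearMap.coe_mk, AddHom.coe_mk]
      rw [sum_eq_single i]
      · rw [hC1 i i.2]; simp
      · intro b _ hb
        rw [hC1 i i.2, if_neg (fun h => hb (Subtype.ext h))]
        simp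
      · simp
    have hinj : Function.Injective φ := by
      intro v w h
      funext i
      rw [← hφ v i, ← hφ w i, h]
    have hmem : ∀ v ∈ lk (rat M), φ v ∈ lk (rat Y) := by
      intro v hv
      rw [mem_lk] at hv ⊢
      funext j
      have hvj := congrFun hv j
      rw [vecMul_apply] at hvj ⊢
      rw [Pi.zero_apply] at hvj ⊢
      rw [← hvj]
      simp only [φ, LinearMap.coe_mk, AddHom.coe_mk]
      simp_rw [Finset.sum_mul]
      rw [Finset.sum_comm]
      refine Finset.sum_congr rfl fun i _ => ?_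
      rw [rat_apply, hMe, Int.cast_sum, Finset.mul_sum]
      refine Finset.sum_congr rfl fun k _ => ?_
      rw [rat_apply]
      push_cast
      ring
    have hle : finrank ℚ (lk (rat M)) ≤ finrank ℚ (lk (rat Y)) := by
      refine LinearMap.finrank_le_finrank_of_injective (f := φ.restrict hmem) ?_
      intro v w h
      apply Subtype.ext
      apply hinj
      exact congrArg Subtype.val h
    omega
  have hr2 : ∀ p ∈ B, Fintype.card ι + (red p M).rank ≤ D.card + (red p Y).rank := by
    intro p hp
    have : Fact p.Prime := ⟨hB p hp⟩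
    have h1 := finrank_lk (red p Y)
    have h2 := finrank_lk (red p M)
    rw [Fintype.card_coe] at h2
    let ψ : (ι → ZMod p) →ₗ[ZMod p] (D → ZMod p) := LinearMap.funLeft (ZMod p) (ZMod p) (fun i : D => (i : ι))
    have hψ : ∀ u (i : D), ψ u i = u i := fun u i => rfl
    have hCD : ∀ (k : ι) (u : ι → ZMod p), ∑ i, (C k i : ZMod p) * u i = ∑ i : D, (C k i : ZMod p) * u i := by
      intro k u
      rw [Finset.sum_coe_sort D (fun i => (C k i : ZMod p) * u i)]
      symm
      apply Finset.sum_subset (Finset.subset_univ _)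
      intro i _ hi
      rw [hC0 k i hi]
      simp
    have hmem : ∀ u ∈ lk (red p Y), ψ u ∈ lk (red p M) := by
      intro u hu'
      rw [mem_lk] at hu' ⊢
      have hk := hu p hp u hu'
      funext j
      have huj := congrFun hu' j
      rw [vecMul_apply] at huj ⊢
      rw [Pi.zero_apply] at huj ⊢
      rw [← huj]
      have h5 : ∀ k, u k * red p Y k j = ∑ i : D, (C k i : ZMod p) * u i * red p Y k j := by
        intro k
        rw [← Finset.sum_mul, ← hCD, ← hk]
      simp_rw [h5]
      rw [Finset.sum_comm]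
      refine Finset.sum_congr rfl fun i _ => ?_
      rw [hψ, red_apply, hMe, Int.cast_sum, Finset.mul_sum]
      refine Finset.sum_congr rfl fun k _ => ?_
      rw [red_apply]
      push_cast
      ring
    have hle : finrank (ZMod p) (lk (red p Y)) ≤ finrank (ZMod p) (lk (red p M)) := by
      refine LinearMap.finrank_le_finrank_of_injective (f := ψ.restrict hmem) ?_
      intro u w h
      apply Subtype.ext
      funext k
      have h6 : ψ u.1 = ψ w.1 := congrArg Subtype.val h
      rw [hu p hp u.1 ((mem_lk _ _).1 u.2) k, hu p hp w.1 ((mem_lk _ _).1 w.2) k, hCD, hCD]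
      refine Finset.sum_congr rfl fun i _ => ?_
      have := congrFun h6 i
      rw [hψ, hψ] at this
      rw [this]
    omega
  -- the minor
  obtain ⟨s, hs, f, h, hdet⟩ : ∃ s, s = (rat M).rank ∧ ∃ (f : Fin s → D) (h : Fin s → κ),
      ((rat M).submatrix f h).det ≠ 0 := ⟨_, rfl, exists_minor (rat M)⟩
  rw [← hs] at hr1
  let N : Matrix (Fin s) (Fin s) ℤ := M.submatrix f h
  have hN : N.det ≠ 0 := by
    intro h0
    apply hdet
    have h7 : (rat M).submatrix f h = rat N := rfl
    rw [h7, rat_det, h0]
    simp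
  have hdvd : ∀ p ∈ B, ((p : ℤ) ^ ((rat Y).rank - (red p Y).rank)) ∣ N.det := by
    intro p hp
    have : Fact p.Prime := ⟨hB p hp⟩
    have h8 := pow_dvd_det (p := p) N
    have h9 : (red p N).rank ≤ (red p M).rank := rank_submatrix_le (red p M) f h
    have h10 := hr2 p hp
    rw [Fintype.card_fin] at h8
    exact (pow_dvd_pow _ (by omega)).trans h8
  have hprod : (∏ p ∈ B, (p : ℤ) ^ ((rat Y).rank - (red p Y).rank)) ∣ N.det := by
    apply Finset.prod_dvd_of_coprime _ hdvd
    intro p hp q hq hpq
    apply IsCoprime.pow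
    rw [Nat.isCoprime_iff_coprime]
    exact (Nat.coprime_primes (hB p hp) (hB q hq)).2 hpq
  have hle1 : |N.det| ≤ (s.factorial : ℤ) * (Fintype.card ι : ℤ) ^ s := by
    have h11 := Matrix.det_le (A := N) (abv := AbsoluteValue.abs) (x := (Fintype.card ι : ℤ))
      (fun i j => hM (f i) (h j))
    simp only [Fintype.card_fin, nsmul_eq_mul] at h11
    exact h11
  have hsd : s ≤ D.card := by
    have := rank_le_card_height (rat M)
    rwa [Fintype.card_coe, ← hs] at this
  have hle2 : (∏ p ∈ B, (p : ℤ) ^ ((rat Y).rank - (red p Y).rank)) ≤ |N.det| :=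
    Int.le_of_dvd (abs_pos.2 hN) ((dvd_abs _ _).2 hprod)
  have hle3 : ((∏ p ∈ B, p ^ ((rat Y).rank - (red p Y).rank) : ℕ) : ℤ) ≤
      ((s.factorial * Fintype.card ι ^ s : ℕ) : ℤ) := by
    push_cast
    exact hle2.trans hle1
  have hle4 : ∏ p ∈ B, p ^ ((rat Y).rank - (red p Y).rank) ≤ s.factorial * Fintype.card ι ^ s := by
    exact_mod_cast hle3
  refine hle4.trans (Nat.mul_le_mul (Nat.factorial_le hsd) ?_)
  rcases Nat.eq_zero_or_pos (Fintype.card ι) with h0 | h0
  · have hD0 : D.card = 0 := Nat.le_zero.1 (h0 ▸ card_le_univ D)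
    have : s = 0 := by omega
    rw [this, hD0]
  · exact Nat.pow_le_pow_right h0 hsd

end main

end Vale.Agent.P160.Half.MLO505
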