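import Mathlib

/-! P160, (P3) MIN NORM of helper502's note 11331 (helper139). -/

namespace Vale.Agent.P160.Half.MinNorm139

open Finset

variable {ι κ : Type*} [Fintype κ]

/-- not S(b): every `psi` supported on at most `E` coordinates, with entries in `[-1/2,1/2]` and
some entry `> 1/(4E)`, is at distance `> 1/(64E)` from the integers on some row. -/
def NotSb (x : ι → κ → ℤ) (E : ℕ) : Prop :=
  ∀ psi : κ → ℝ, (∀ c, |psi c| ≤ 1 / 2) → {c | psi c ≠ 0}.ncard ≤ E →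
    (∃ c, 1 / (4 * (E : ℝ)) < |psi c|) →
      ∃ i, ∀ z : ℤ, 1 / (64 * (E : ℝ)) < |∑ c, (x i c : ℝ) * psi c - z|

/-- Cauchy-Schwarz for one row. -/
theorem row_le (x : κ → ℤ) (hx : ∀ c, |x c| ≤ 1) (phi : κ → ℝ) (G : Finset κ) (K σ : ℝ)
    (hK : (Fintype.card κ : ℝ) ≤ K) (h : ∑ c ∈ G, phi c ^ 2 ≤ σ ^ 2) :
    (∑ c ∈ G, (x c : ℝ) * phi c) ^ 2 ≤ K * σ ^ 2 := by
  classical
  have h1 := Finset.sum_mul_sq_le_sq_mul_sq G (fun c => (x c : ℝ)) phi
  have h2 : ∑ c ∈ G, (x c : ℝ) ^ 2 ≤ K := by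
    refine le_trans ?_ hK
    refine le_trans (Finset.sum_le_sum (g := fun _ => (1 : ℝ)) ?_) ?_
    · intro c _
      have : |(x c : ℝ)| ≤ 1 := by exact_mod_cast hx c
      exact (sq_le_one_iff_abs_le_one _).2 this
    · rw [Finset.sum_const, nsmul_eq_mul, mul_one]
      exact_mod_cast Finset.card_le_univ G
  have h0 : 0 ≤ ∑ c ∈ G, phi c ^ 2 := Finset.sum_nonneg fun _ _ => sq_nonneg _
  have hx0 : 0 ≤ ∑ c ∈ G, (x c : ℝ) ^ 2 := Finset.sum_nonneg fun _ _ => sq_nonneg _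
  calc (∑ c ∈ G, (x c : ℝ) * phi c) ^ 2
      ≤ (∑ c ∈ G, (x c : ℝ) ^ 2) * ∑ c ∈ G, phi c ^ 2 := h1
    _ ≤ K * σ ^ 2 := mul_le_mul h2 h h0 (hx0.trans h2)

/-- MIN NORM. -/
theorem min_norm (x : ι → κ → ℤ) (hx : ∀ i c, |x i c| ≤ 1) (E : ℕ) (hE : 1 ≤ E) (K : ℝ)
    (hK0 : 0 < K) (hK : (Fintype.card κ : ℝ) ≤ K) (hnot : NotSb x E)
    (hinj : ∀ phi : κ → ℝ, (∀ i, ∑ c, (x i c : ℝ) * phi c = 0) → phi = 0)
    (phi : κ → ℝ) (hphi : ∀ c, |phi c| ≤ 1 / 2)
    (hint : ∀ i, ∃ z : ℤ, ∑ c, (x i c : ℝ) * phi c = z) (hne : phi ≠ 0)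
    (G : Finset κ) (hG : ((G : Set κ)ᶜ).ncard ≤ E) :
    (1 / (64 * Real.sqrt K * E)) ^ 2 < ∑ c ∈ G, phi c ^ 2 := by
  classical
  by_contra h
  push Not at h
  have hEr : (1 : ℝ) ≤ E := by exact_mod_cast hE
  have hE0 : (0 : ℝ) < E := by linarith
  have hsK : 0 < Real.sqrt K := Real.sqrt_pos.2 hK0
  set σ : ℝ := 1 / (64 * Real.sqrt K * E) with hσ
  have hσ0 : 0 ≤ σ := by positivity
  have hKσ : K * σ ^ 2 = (1 / (64 * (E : ℝ))) ^ 2 := by
    have : Real.sqrt K ^ 2 = K := Real.sq_sqrt hK0.le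
    rw [hσ]
    field_simp
    rw [this]
  have hrow : ∀ i, |∑ c ∈ G, (x i c : ℝ) * phi c| ≤ 1 / (64 * (E : ℝ)) := by
    intro i
    have h1 := row_le (x i) (hx i) phi G K σ hK h
    rw [hKσ] at h1
    exact abs_le_of_sq_le_sq h1 (by positivity)
  set psi : κ → ℝ := fun c => if c ∈ G then 0 else phi c with hpsi
  have hsplit : ∀ i, ∑ c, (x i c : ℝ) * phi c =
      ∑ c, (x i c : ℝ) * psi c + ∑ c ∈ G, (x i c : ℝ) * phi c := by
    intro i
    have h1 : ∑ c ∈ G, (x i c : ℝ) * phi c = ∑ c, if c ∈ G then (x i c : ℝ) * phi c else 0 := by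
      rw [← Finset.sum_filter]
      congr 1
      ext c; simp
    rw [h1, ← Finset.sum_add_distrib]
    refine Finset.sum_congr rfl fun c _ => ?_
    simp only [hpsi]
    split_ifs <;> ring
  have hpsile : ∀ c, |psi c| ≤ 1 / 2 := by
    intro c
    simp only [hpsi]
    split_ifs
    · simp
    · exact hphi c
  have hsupp : {c | psi c ≠ 0} ⊆ (G : Set κ)ᶜ := by
    intro c hc
    simp only [Set.mem_ofPred_eq, hpsi] at hc
    intro hcG
    apply hc
    simp only [Finset.mem_coe] at hcG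
    simp [hcG]
  have hcard : {c | psi c ≠ 0}.ncard ≤ E := (Set.ncard_le_ncard hsupp (Set.toFinite _)).trans hG
  by_cases hbig : ∃ c, 1 / (4 * (E : ℝ)) < |psi c|
  · obtain ⟨i, hi⟩ := hnot psi hpsile hcard hbig
    obtain ⟨z, hz⟩ := hint i
    have h1 := hi z
    have h2 : ∑ c, (x i c : ℝ) * psi c - z = -∑ c ∈ G, (x i c : ℝ) * phi c := by
      rw [← hz, hsplit i]; ring
    rw [h2, abs_neg] at h1
    exact absurd (hrow i) (not_le.2 h1)
  · push Not at hbig
    apply hne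
    apply hinj
    intro i
    obtain ⟨z, hz⟩ := hint i
    have h1 : |∑ c, (x i c : ℝ) * psi c| ≤ 1 / 4 := by
      have h2 : ∑ c, (x i c : ℝ) * psi c =
          ∑ c ∈ (univ.filter fun c => psi c ≠ 0), (x i c : ℝ) * psi c := by
        rw [Finset.sum_filter]
        refine Finset.sum_congr rfl fun c _ => ?_
        by_cases hc : psi c = 0
        · simp [hc]
        · simp [hc]
      rw [h2]
      calc |∑ c ∈ (univ.filter fun c => psi c ≠ 0), (x i c : ℝ) * psi c|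
          ≤ ∑ c ∈ (univ.filter fun c => psi c ≠ 0), |(x i c : ℝ) * psi c| :=
            Finset.abs_sum_le_sum_abs _ _
        _ ≤ ∑ _c ∈ (univ.filter fun c => psi c ≠ 0), 1 / (4 * (E : ℝ)) := by
            refine Finset.sum_le_sum fun c _ => ?_
            rw [abs_mul]
            have h3 : |(x i c : ℝ)| ≤ 1 := by exact_mod_cast hx i c
            calc |(x i c : ℝ)| * |psi c| ≤ 1 * |psi c| :=
                  mul_le_mul_of_nonneg_right h3 (abs_nonneg _)
              _ ≤ 1 / (4 * (E : ℝ)) := by rw [one_mul]; exact hbig c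
        _ = ((univ.filter fun c => psi c ≠ 0).card : ℝ) * (1 / (4 * (E : ℝ))) := by
            rw [Finset.sum_const, nsmul_eq_mul]
        _ ≤ (E : ℝ) * (1 / (4 * (E : ℝ))) := by
            refine mul_le_mul_of_nonneg_right ?_ (by positivity)
            have h4 : {c | psi c ≠ 0} = ((univ.filter fun c => psi c ≠ 0 : Finset κ) : Set κ) := by
              ext c; simp
            rw [h4, Set.ncard_coe_finset] at hcard
            exact_mod_cast hcard
        _ = 1 / 4 := by field_simp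
    have h5 : |(z : ℝ)| < 1 := by
      rw [← hz, hsplit i]
      have h6 : 1 / (64 * (E : ℝ)) ≤ 1 / 64 := by
        apply one_div_le_one_div_of_le (by norm_num)
        nlinarith
      calc |∑ c, (x i c : ℝ) * psi c + ∑ c ∈ G, (x i c : ℝ) * phi c|
          ≤ |∑ c, (x i c : ℝ) * psi c| + |∑ c ∈ G, (x i c : ℝ) * phi c| := abs_add_le _ _
        _ ≤ 1 / 4 + 1 / 64 := add_le_add h1 ((hrow i).trans h6)
        _ < 1 := by norm_num
    have h7 : z = 0 := by
      have h8 : |z| < 1 := by exact_mod_cast h5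
      exact Int.abs_lt_one_iff.1 h8
    rw [hz, h7]
    simp

end Vale.Agent.P160.Half.MinNorm139
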