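import Mathlib

/-! # P160: deterministic Littlewood–Offord inequality, minor version, with excess

`Y` an integral `a × k` matrix of rank `r` over the rationals, `U p` the left kernel of `Y` modulo
`p`.  If `dim (U p) ≥ a - r + e p` for the primes `p ∈ B`, then the 0/1 vectors `y` which have
prescribed pairings with all the `U p` have density at most `2 ^ (-d)`, where
`∏ p ^ (e p) ≤ A ^ d` and `A` bounds the norms of the `{-1,0,1}`-combinations of the rows. -/

set_option linter.unusedSectionVars false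

namespace Vale.Agent.P160.Half.MLO

open Finset Matrix

/-- Hadamard's inequality. -/
theorem hadamard {R : ℕ} (N : Matrix (Fin R) (Fin R) ℝ) :
    |N.det| ≤ ∏ i, √(∑ j, N i j ^ 2) := by
  set b := EuclideanSpace.basisFun (Fin R) ℝ with hb
  have : Fact (Module.finrank ℝ (EuclideanSpace ℝ (Fin R)) = R) := ⟨by simp⟩
  set o := b.toBasis.orientation with ho
  have h := o.abs_volumeForm_apply_le (fun i => (WithLp.toLp 2 (N i) : EuclideanSpace ℝ (Fin R)))
  rw [o.volumeForm_robust b rfl, Module.Basis.det_apply] at h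
  have h2 : (b.toBasis.toMatrix fun i => (WithLp.toLp 2 (N i) : EuclideanSpace ℝ (Fin R))) = Nᵀ := by
    ext i j
    simp [Module.Basis.toMatrix_apply, hb]
  rw [h2, Matrix.det_transpose] at h
  refine h.trans (le_of_eq ?_)
  refine prod_congr rfl fun i _ => ?_
  rw [EuclideanSpace.norm_eq]
  simp

section Dissociated

variable {V : Type*} [AddCommGroup V] {ι : Type*} [Fintype ι] [DecidableEq ι]

/-- All the subset sums over `D` are different. -/
def Diss (g : ι → V) (D : Finset ι) : Prop :=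
  ∀ S ⊆ D, ∀ T ⊆ D, ∑ i ∈ S, g i = ∑ i ∈ T, g i → S = T

theorem exists_max (g : ι → V) : ∃ D : Finset ι, Diss g D ∧ ∀ k, ∃ c : ι → ℤ,
    (∀ i, |c i| ≤ 1) ∧ (∀ i ∉ D, c i = 0) ∧ g k = ∑ i, c i • g i ∧ (k ∈ D → c = Pi.single k 1) := by
  classical
  obtain ⟨D, hD, hmax⟩ := (univ.filter fun D : Finset ι => Diss g D).exists_max_image card
    ⟨∅, by
      simp only [mem_filter, mem_univ, true_and]
      intro S hS T hT _
      rw [subset_empty.1 hS, subset_empty.1 hT]⟩
  have hD' : Diss g D := (mem_filter.1 hD).2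
  refine ⟨D, hD', fun k => ?_⟩
  by_cases hk : k ∈ D
  · refine ⟨Pi.single k 1, fun i => ?_, fun i hi => ?_, ?_, fun _ => rfl⟩
    · by_cases h : i = k
      · subst h; simp
      · simp [h]
    · have : i ≠ k := fun h => hi (h ▸ hk)
      simp [this]
    · rw [sum_eq_single k]
      · simp
      · intro i _ hi
        simp [hi]
      · simp
  · -- `insert k D` is not dissociated
    have hnot : ¬ Diss g (insert k D) := by
      intro h
      have h1 := hmax (insert k D) (by simp [h])
      rw [card_insert_of_notMem hk] at h1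
      omega
    have key : ∀ S T : Finset ι, S ⊆ insert k D → T ⊆ insert k D → k ∈ S → k ∉ T →
        ∑ i ∈ S, g i = ∑ i ∈ T, g i → ∃ c : ι → ℤ,
        (∀ i, |c i| ≤ 1) ∧ (∀ i ∉ D, c i = 0) ∧ g k = ∑ i, c i • g i := by
      intro S T hS hT hkS hkT hST
      have hT' : T ⊆ D := fun i hi => by
        rcases mem_insert.1 (hT hi) with h | h
        · exact absurd (h ▸ hi) hkT
        · exact h
      have hS' : S.erase k ⊆ D := fun i hi => by
        rcases mem_insert.1 (hS (mem_of_mem_erase hi)) with h | h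
        · exact absurd h (ne_of_mem_erase hi)
        · exact h
      refine ⟨fun i => (if i ∈ T then 1 else 0) - (if i ∈ S.erase k then 1 else 0), fun i => ?_,
        fun i hi => ?_, ?_⟩
      · dsimp only
        split_ifs <;> simp
      · have h1 : i ∉ T := fun h => hi (hT' h)
        have h2 : i ∉ S.erase k := fun h => hi (hS' h)
        simp only [h1, h2, if_false, sub_zero]
      · have h1 : ∑ i ∈ S, g i = g k + ∑ i ∈ S.erase k, g i := (add_sum_erase S g hkS).symm
        have h2 : g k = ∑ i ∈ T, g i - ∑ i ∈ S.erase k, g i := by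
          rw [← hST, h1]; abel
        rw [h2]
        simp only [sub_smul, sum_sub_distrib, ite_smul, one_smul, zero_smul]
        rw [sum_ite_mem, sum_ite_mem, univ_inter, univ_inter]
    have hex : ∃ c : ι → ℤ, (∀ i, |c i| ≤ 1) ∧ (∀ i ∉ D, c i = 0) ∧ g k = ∑ i, c i • g i := by
      unfold Diss at hnot
      push Not at hnot
      obtain ⟨S, hS, T, hT, hST, hne⟩ := hnot
      by_cases h1 : k ∈ S <;> by_cases h2 : k ∈ T
      · exfalso
        apply hne
        have hS' : S.erase k ⊆ D := fun i hi => by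
          rcases mem_insert.1 (hS (mem_of_mem_erase hi)) with h | h
          · exact absurd h (ne_of_mem_erase hi)
          · exact h
        have hT' : T.erase k ⊆ D := fun i hi => by
          rcases mem_insert.1 (hT (mem_of_mem_erase hi)) with h | h
          · exact absurd h (ne_of_mem_erase hi)
          · exact h
        have h3 : S.erase k = T.erase k := by
          apply hD' _ hS' _ hT'
          have e1 := add_sum_erase S g h1
          have e2 := add_sum_erase T g h2
          rw [← e1, ← e2] at hST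
          exact add_left_cancel hST
        rw [← insert_erase h1, ← insert_erase h2, h3]
      · exact key S T hS hT h1 h2 hST
      · exact key T S hT hS h2 h1 hST.symm
      · exfalso
        apply hne
        apply hD' S _ T _ hST
        · intro i hi
          rcases mem_insert.1 (hS hi) with h | h
          · exact absurd (h ▸ hi) h1
          · exact h
        · intro i hi
          rcases mem_insert.1 (hT hi) with h | h
          · exact absurd (h ▸ hi) h2
          · exact h
    obtain ⟨c, h1, h2, h3⟩ := hex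
    exact ⟨c, h1, h2, h3, fun h => absurd h hk⟩

theorem card_diss_le (g : ι → V) (D : Finset ι) (hD : Diss g D) (t : V)
    [DecidablePred fun y : ι → Bool => ∑ i, (if y i then g i else 0) = t] :
    (univ.filter fun y : ι → Bool => ∑ i, (if y i then g i else 0) = t).card ≤
      2 ^ (Fintype.card ι - D.card) := by
  classical
  have hc : Fintype.card ({i // i ∉ D} → Bool) = 2 ^ (Fintype.card ι - D.card) := by
    rw [Fintype.card_fun, Fintype.card_bool]
    congr 1
    rw [Fintype.card_subtype_compl, Fintype.card_coe]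
  rw [← hc, ← card_univ]
  refine card_le_card_of_injOn (fun y i => y i.1) (fun _ _ => mem_univ _) ?_
  intro y hy z hz hyz
  have hy' : ∑ i, (if y i then g i else 0) = t := (mem_filter.1 hy).2
  have hz' : ∑ i, (if z i then g i else 0) = t := (mem_filter.1 hz).2
  have hoff : ∀ i ∉ D, y i = z i := fun i hi => congr_fun hyz ⟨i, hi⟩
  have hsplit : ∀ w : ι → Bool, ∑ i, (if w i then g i else 0) =
      ∑ i ∈ D.filter (fun i => w i = true), g i + ∑ i ∈ Dᶜ, (if w i then g i else 0) := by
    intro w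
    rw [← sum_add_sum_compl D, sum_filter]
  have hS : D.filter (fun i => y i = true) = D.filter (fun i => z i = true) := by
    apply hD _ (filter_subset _ _) _ (filter_subset _ _)
    have h1 := hsplit y
    have h2 := hsplit z
    rw [hy'] at h1
    rw [hz'] at h2
    have h3 : ∑ i ∈ Dᶜ, (if y i then g i else 0) = ∑ i ∈ Dᶜ, (if z i then g i else 0) :=
      sum_congr rfl fun i hi => by rw [hoff i (mem_compl.1 hi)]
    rw [h3, h2] at h1
    exact (add_right_cancel h1).symm
  funext i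
  by_cases hi : i ∈ D
  · have h1 : (i ∈ D.filter (fun i => y i = true)) ↔ (i ∈ D.filter (fun i => z i = true)) := by
      rw [hS]
    simp only [mem_filter, hi, true_and] at h1
    exact Bool.eq_iff_iff.2 h1
  · exact hoff i hi

end Dissociated

/-- If the integral matrix `N` has an `e`-dimensional left kernel modulo `p` then `p ^ e` divides
its determinant. -/
theorem pow_dvd_det {R p : ℕ} [Fact p.Prime] (N : Matrix (Fin R) (Fin R) ℤ)
    (U : Submodule (ZMod p) (Fin R → ZMod p))
    (hU : ∀ u ∈ U, u ᵥ* N.map (Int.cast : ℤ → ZMod p) = 0) :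
    (p : ℤ) ^ Module.finrank (ZMod p) U ∣ N.det := by
  classical
  obtain ⟨W, hW⟩ := Submodule.exists_isCompl U
  set b1 := Module.finBasis (ZMod p) U
  set b2 := Module.finBasis (ZMod p) W
  set b := (b1.prod b2).map (Submodule.prodEquivOfIsCompl U W hW) with hb
  set σ := b.indexEquiv (Pi.basisFun (ZMod p) (Fin R)) with hσ
  set T : Matrix (Fin R) (Fin R) (ZMod p) := Matrix.of fun i => b (σ.symm i) with hT
  have hTu : IsUnit T := by
    rw [← Matrix.linearIndependent_rows_iff_isUnit]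
    exact b.linearIndependent.comp σ.symm σ.symm.injective
  have hTd : T.det ≠ 0 := ((Matrix.isUnit_iff_isUnit_det _).1 hTu).ne_zero
  set T' : Matrix (Fin R) (Fin R) ℤ := Matrix.of fun i j => ((T i j).val : ℤ) with hT'
  have hcast : T'.map (Int.cast : ℤ → ZMod p) = T := by
    ext i j
    simp [hT']
  have hdet : ((T'.det : ℤ) : ZMod p) = T.det := by
    rw [← hcast]
    exact (Int.castRingHom (ZMod p)).map_det T'
  have hp : Prime (p : ℤ) := Nat.prime_iff_prime_int.1 Fact.out
  have hnd : ¬ (p : ℤ) ∣ T'.det := by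
    intro h
    rw [← ZMod.intCast_zmod_eq_zero_iff_dvd, hdet] at h
    exact hTd h
  set d : Fin R → ℤ := fun i => if (σ.symm i).isLeft then (p : ℤ) else 1 with hd
  have hdiv : ∀ i j, d i ∣ (T' * N) i j := by
    intro i j
    by_cases hi : (σ.symm i).isLeft
    · have hdi : d i = p := by simp [hd, hi]
      rw [hdi, ← ZMod.intCast_zmod_eq_zero_iff_dvd]
      obtain ⟨x, hx⟩ := Sum.isLeft_iff.1 hi
      have hmem : T i ∈ U := by
        have : T i = (b1 x : Fin R → ZMod p) := by
          change b (σ.symm i) = (b1 x : Fin R → ZMod p)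
          rw [hx, hb]
          simp
        rw [this]
        exact (b1 x).2
      have h1 := congr_fun (hU _ hmem) j
      have h2 : (((T' * N) i j : ℤ) : ZMod p) = (T i ᵥ* N.map (Int.cast : ℤ → ZMod p)) j := by
        rw [Matrix.mul_apply, Matrix.vecMul, dotProduct]
        push_cast
        refine sum_congr rfl fun l _ => ?_
        have : ((T' i l : ℤ) : ZMod p) = T i l := by
          rw [← hcast]; rfl
        rw [this]; rfl
      rw [h2, h1]; rfl
    · have hdi : d i = 1 := by simp [hd, hi]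
      rw [hdi]
      exact one_dvd _
  have hprod : ∏ i, d i = (p : ℤ) ^ Module.finrank (ZMod p) U := by
    rw [← Equiv.prod_comp σ d]
    simp only [hd, Equiv.symm_apply_apply]
    rw [Fintype.prod_sum_type]
    simp
  have hfac : T' * N = Matrix.of fun i j => d i * ((T' * N) i j / d i) := by
    ext i j
    rw [Matrix.of_apply, Int.mul_ediv_cancel' (hdiv i j)]
  have h3 : (T' * N).det = (∏ i, d i) * (Matrix.of fun i j => (T' * N) i j / d i).det := by
    conv_lhs => rw [hfac]
    exact Matrix.det_mul_column d (Matrix.of fun i j => (T' * N) i j / d i)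
  have h1 : (p : ℤ) ^ Module.finrank (ZMod p) U ∣ (T' * N).det := by
    rw [h3, hprod]
    exact dvd_mul_right _ _
  rw [Matrix.det_mul] at h1
  have hcop : IsCoprime ((p : ℤ) ^ Module.finrank (ZMod p) U) T'.det := by
    apply IsCoprime.pow_left
    exact hp.coprime_iff_not_dvd.2 hnd
  exact hcop.dvd_of_dvd_mul_left h1

theorem exists_rows {K ι κ : Type*} [Field K] [Fintype ι] [Fintype κ] (M : Matrix ι κ K) :
    ∃ f : Fin M.rank → ι, LinearIndependent K (fun i => M (f i)) := by
  have h := Submodule.exists_fun_fin_finrank_span_eq K (Set.range M.row)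
  rw [← Matrix.rank_eq_finrank_span_row] at h
  obtain ⟨v, hv, -, hvi⟩ := h
  choose f hf using hv
  refine ⟨f, ?_⟩
  have h1 : (fun i => M (f i)) = v := funext hf
  rw [h1]
  exact hvi

/-- A matrix over a field has a nonsingular square submatrix of the size of its rank. -/
theorem exists_minor {K ι κ : Type*} [Field K] [Fintype ι] [Fintype κ] (M : Matrix ι κ K) :
    ∃ f : Fin M.rank → ι, ∃ g : Fin M.rank → κ, Function.Injective f ∧ Function.Injective g ∧
      (M.submatrix f g).det ≠ 0 := by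
  classical
  obtain ⟨f, hf⟩ := exists_rows M
  have hfi : Function.Injective f := fun x y hxy => hf.injective (by simp only [hxy])
  have hr : ((M.submatrix f id)ᵀ).rank = M.rank := by
    rw [Matrix.rank_transpose]
    have := LinearIndependent.rank_matrix (M := M.submatrix f id) hf
    rw [this, Fintype.card_fin]
  obtain ⟨g, hg⟩ := exists_rows (M.submatrix f id)ᵀ
  set g' : Fin M.rank → κ := fun i => g (Fin.cast hr.symm i) with hg'
  have hli : LinearIndependent K (fun i => (M.submatrix f id)ᵀ (g' i)) :=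
    hg.comp _ (Fin.cast_injective hr.symm)
  have hgi : Function.Injective g' := fun x y hxy => hli.injective (by simp only [hxy])
  refine ⟨f, g', hfi, hgi, ?_⟩
  have h1 : IsUnit (M.submatrix f g') := Matrix.linearIndependent_cols_iff_isUnit.1 hli
  exact ((Matrix.isUnit_iff_isUnit_det _).1 h1).ne_zero

theorem finrank_range_le {K V W X : Type*} [Field K] [AddCommGroup V] [AddCommGroup W]
    [AddCommGroup X] [Module K V] [Module K W] [Module K X] [FiniteDimensional K V]
    [FiniteDimensional K W] [FiniteDimensional K X] (φ : V →ₗ[K] W) (ψ : W →ₗ[K] X) :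
    Module.finrank K (LinearMap.range φ) ≤
      Module.finrank K (LinearMap.range (ψ ∘ₗ φ)) + Module.finrank K (LinearMap.ker ψ) := by
  have h := LinearMap.finrank_range_add_finrank_ker (ψ.domRestrict (LinearMap.range φ))
  have h1 : LinearMap.range (ψ.domRestrict (LinearMap.range φ)) = LinearMap.range (ψ ∘ₗ φ) := by
    ext x
    constructor
    · rintro ⟨⟨y, v, rfl⟩, rfl⟩
      exact ⟨v, rfl⟩
    · rintro ⟨v, rfl⟩
      exact ⟨⟨φ v, v, rfl⟩, rfl⟩
  rw [h1] at h
  have h2 : Module.finrank K (LinearMap.ker (ψ.domRestrict (LinearMap.range φ))) ≤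
      Module.finrank K (LinearMap.ker ψ) := by
    refine LinearMap.finrank_le_finrank_of_injective
      (f := ((LinearMap.range φ).subtype ∘ₗ (LinearMap.ker (ψ.domRestrict (LinearMap.range φ))).subtype).codRestrict
        (LinearMap.ker ψ) (fun x => x.2)) ?_
    intro x y hxy
    have h3 := congrArg Subtype.val hxy
    exact Subtype.ext (Subtype.ext h3)
  omega

/-- **Deterministic Littlewood–Offord inequality** (minor version, all primes at once). -/
theorem minor_lo {a k : ℕ} (Y : Matrix (Fin a) (Fin k) ℤ) (r : ℕ)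
    (hr : r ≤ (Y.map (Int.cast : ℤ → ℚ)).rank) (B : Finset ℕ) (hB : ∀ p ∈ B, p.Prime) (e : ℕ → ℕ)
    (he : ∀ p ∈ B, a + e p ≤
      r + Module.finrank (ZMod p) (LinearMap.ker (Y.map (Int.cast : ℤ → ZMod p)).vecMulLinear))
    (A : ℝ) (hA1 : 1 ≤ A) (hA : ∀ c : Fin a → ℤ, (∀ i, |c i| ≤ 1) → ∀ J : Finset (Fin k),
      J.card ≤ a → ∑ j ∈ J, ((∑ i, c i * Y i j : ℤ) : ℝ) ^ 2 ≤ A ^ 2) :
    ∃ d ≤ a, ((∏ p ∈ B, p ^ e p : ℕ) : ℝ) ≤ A ^ d ∧
      ∀ (t : (p : ℕ) → (Fin a → ZMod p) → ZMod p) (S : Finset (Fin a → Bool)),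
        (∀ y ∈ S, ∀ p ∈ B, ∀ u : Fin a → ZMod p, u ᵥ* Y.map (Int.cast : ℤ → ZMod p) = 0 →
          ∑ i, (if y i then u i else 0) = t p u) → S.card ≤ 2 ^ (a - d) := by
  classical
  set g : Fin a → ((p : B) → {u : Fin a → ZMod p.1 // u ᵥ* Y.map (Int.cast : ℤ → ZMod p.1) = 0} →
    ZMod p.1) := fun i p u => u.1 i with hg
  obtain ⟨D, hD, hc⟩ := exists_max g
  choose c hc1 hc2 hc3 hc4 using hc
  have hrel : ∀ p ∈ B, ∀ u : Fin a → ZMod p, u ᵥ* Y.map (Int.cast : ℤ → ZMod p) = 0 → ∀ l,
      u l = ∑ i, (c l i : ZMod p) * u i := by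
    intro p hp u hu l
    have h1 := congr_fun (congr_fun (hc3 l) ⟨p, hp⟩) ⟨u, hu⟩
    simp only [hg, Finset.sum_apply, zsmul_eq_mul] at h1
    exact h1
  set M : Matrix (Fin a) (Fin k) ℤ := (Matrix.of c)ᵀ * Y with hM
  have hMij : ∀ i j, M i j = ∑ l, c l i * Y l j := fun i j => by
    rw [hM, Matrix.mul_apply]; rfl
  set MQ : Matrix (Fin a) (Fin k) ℚ := M.map (Int.cast : ℤ → ℚ) with hMQ
  -- the rank over the rationals
  have hrank : D.card + r ≤ a + MQ.rank := by
    have h1 : MQ = ((Matrix.of c).map (Int.cast : ℤ → ℚ))ᵀ * Y.map (Int.cast : ℤ → ℚ) := by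
      ext i j
      rw [hMQ, Matrix.map_apply, hMij, Matrix.mul_apply]
      push_cast
      rfl
    have h2 := finrank_range_le (Y.map (Int.cast : ℤ → ℚ)).mulVecLin
      (((Matrix.of c).map (Int.cast : ℤ → ℚ))ᵀ).mulVecLin
    rw [← Matrix.mulVecLin_mul, ← h1] at h2
    have h3 : Module.finrank ℚ (LinearMap.ker (((Matrix.of c).map (Int.cast : ℤ → ℚ))ᵀ).mulVecLin) ≤
        a - D.card := by
      have h4 : Module.finrank ℚ ({i // i ∉ D} → ℚ) = a - D.card := by
        rw [Module.finrank_fintype_fun_eq_card, Fintype.card_subtype_compl, Fintype.card_coe,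
          Fintype.card_fin]
      rw [← h4]
      refine LinearMap.finrank_le_finrank_of_injective
        (f := (LinearMap.funLeft ℚ ℚ (Subtype.val : {i // i ∉ D} → Fin a)) ∘ₗ
          (LinearMap.ker (((Matrix.of c).map (Int.cast : ℤ → ℚ))ᵀ).mulVecLin).subtype) ?_
      rw [← LinearMap.ker_eq_bot, LinearMap.ker_eq_bot']
      rintro ⟨x, hx⟩ hx0
      have hoff : ∀ i ∉ D, x i = 0 := fun i hi => congr_fun hx0 ⟨i, hi⟩
      apply Subtype.ext
      funext i
      change x i = 0
      by_cases hi : i ∈ D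
      · have h5 := congr_fun (LinearMap.mem_ker.1 hx) i
        have h6 : ∑ l, (c l i : ℚ) * x l = 0 := by
          rw [Matrix.mulVecLin_apply] at h5
          exact h5
        rw [sum_eq_single i] at h6
        · rw [hc4 i hi, Pi.single_eq_same] at h6
          simpa using h6
        · intro l _ hli
          by_cases hl : l ∈ D
          · rw [hc4 l hl, Pi.single_eq_of_ne (Ne.symm hli)]
            simp
          · rw [hoff l hl, mul_zero]
        · simp
      · exact hoff i hi
    have h5 : D.card ≤ a := by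
      simpa using card_le_univ D
    have h6 : (Y.map (Int.cast : ℤ → ℚ)).rank ≤ MQ.rank + (a - D.card) := le_trans h2 (by
      change MQ.rank + _ ≤ _
      omega)
    omega
  obtain ⟨R, f, g', hR, hfi, hgi, hdet⟩ : ∃ R : ℕ, ∃ f : Fin R → Fin a, ∃ g' : Fin R → Fin k,
      MQ.rank = R ∧ Function.Injective f ∧ Function.Injective g' ∧ (MQ.submatrix f g').det ≠ 0 := by
    obtain ⟨f, g', h1, h2, h3⟩ := exists_minor MQ
    exact ⟨_, f, g', rfl, h1, h2, h3⟩
  rw [hR] at hrank
  set N : Matrix (Fin R) (Fin R) ℤ := M.submatrix f g' with hN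
  have hNdet : N.det ≠ 0 := by
    intro h
    apply hdet
    have h1 : MQ.submatrix f g' = N.map (Int.castRingHom ℚ) := rfl
    have h2 : (N.map (Int.castRingHom ℚ)).det = (Int.castRingHom ℚ) N.det :=
      ((Int.castRingHom ℚ).map_det N).symm
    rw [h1, h2, h, map_zero]
  have hM0 : ∀ i ∉ D, ∀ j, M i j = 0 := fun i hi j => by
    rw [hMij]
    exact sum_eq_zero fun l _ => by rw [hc2 l i hi, zero_mul]
  have hfD : ∀ x, f x ∈ D := by
    intro x
    by_contra hx
    exact hNdet (Matrix.det_eq_zero_of_row_eq_zero x fun j => hM0 _ hx _)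
  set F : Finset (Fin a) := univ.image f with hF
  have hFcard : F.card = R := by rw [hF, card_image_of_injective _ hfi, card_univ, Fintype.card_fin]
  have hFD : F ⊆ D := by
    intro i hi
    obtain ⟨x, -, rfl⟩ := mem_image.1 hi
    exact hfD x
  have hRD : R ≤ D.card := hFcard ▸ card_le_card hFD
  have hDa : D.card ≤ a := by simpa using card_le_univ D
  have hdvd : ∀ p ∈ B, ((p : ℤ) ^ e p) ∣ N.det := by
    intro p hp
    have : Fact p.Prime := ⟨hB p hp⟩
    set Yp : Matrix (Fin a) (Fin k) (ZMod p) := Y.map (Int.cast : ℤ → ZMod p) with hYp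
    set L := LinearMap.ker Yp.vecMulLinear with hL
    set ρ : L →ₗ[ZMod p] ({i // i ∈ D \ F} → ZMod p) :=
      (LinearMap.funLeft (ZMod p) (ZMod p) (Subtype.val : {i // i ∈ D \ F} → Fin a)) ∘ₗ L.subtype
      with hρ
    have hK0 : e p ≤ Module.finrank (ZMod p) (LinearMap.ker ρ) := by
      have h1 := LinearMap.finrank_range_add_finrank_ker ρ
      have h2 : Module.finrank (ZMod p) (LinearMap.range ρ) ≤ D.card - R := by
        refine (Submodule.finrank_le _).trans (le_of_eq ?_)
        rw [Module.finrank_fintype_fun_eq_card, Fintype.card_coe, card_sdiff_of_subset hFD, hFcard]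
      have h3 : a + e p ≤ r + Module.finrank (ZMod p) L := he p hp
      omega
    set τ : LinearMap.ker ρ →ₗ[ZMod p] (Fin R → ZMod p) :=
      (LinearMap.funLeft (ZMod p) (ZMod p) f) ∘ₗ L.subtype ∘ₗ (LinearMap.ker ρ).subtype with hτ
    have hτi : Function.Injective τ := by
      rw [← LinearMap.ker_eq_bot, LinearMap.ker_eq_bot']
      rintro ⟨⟨u, hu⟩, hu2⟩ hu3
      have hoff : ∀ i ∈ D, i ∉ F → u i = 0 := fun i hi hi2 =>
        congr_fun (LinearMap.mem_ker.1 hu2) ⟨i, mem_sdiff.2 ⟨hi, hi2⟩⟩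
      have hon : ∀ x, u (f x) = 0 := fun x => congr_fun hu3 x
      have hDz : ∀ i ∈ D, u i = 0 := by
        intro i hi
        by_cases hi2 : i ∈ F
        · obtain ⟨x, -, rfl⟩ := mem_image.1 hi2
          exact hon x
        · exact hoff i hi hi2
      have huY : u ᵥ* Yp = 0 := LinearMap.mem_ker.1 hu
      apply Subtype.ext
      apply Subtype.ext
      funext l
      change u l = 0
      rw [hrel p hp u huY l]
      refine sum_eq_zero fun i _ => ?_
      by_cases hi : i ∈ D
      · rw [hDz i hi, mul_zero]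
      · rw [hc2 l i hi, Int.cast_zero, zero_mul]
    have h4 : (p : ℤ) ^ Module.finrank (ZMod p) (LinearMap.range τ) ∣ N.det := by
      apply pow_dvd_det
      rintro w ⟨⟨⟨u, hu⟩, hu2⟩, rfl⟩
      have hoff : ∀ i ∈ D, i ∉ F → u i = 0 := fun i hi hi2 =>
        congr_fun (LinearMap.mem_ker.1 hu2) ⟨i, mem_sdiff.2 ⟨hi, hi2⟩⟩
      have huY : u ᵥ* Yp = 0 := LinearMap.mem_ker.1 hu
      funext j
      have h5 : ∑ x, u (f x) * (M (f x) (g' j) : ZMod p) = 0 := by
        have h6 : ∑ x, u (f x) * (M (f x) (g' j) : ZMod p) =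
            ∑ i ∈ F, u i * (M i (g' j) : ZMod p) := by
          rw [hF, sum_image (fun x _ y _ h => hfi h)]
        have h7 : ∑ i ∈ F, u i * (M i (g' j) : ZMod p) = ∑ i, u i * (M i (g' j) : ZMod p) := by
          refine sum_subset (subset_univ F) fun i _ hi => ?_
          by_cases hiD : i ∈ D
          · rw [hoff i hiD hi, zero_mul]
          · rw [hM0 i hiD, Int.cast_zero, mul_zero]
        rw [h6, h7]
        have h8 : ∀ i, u i * (M i (g' j) : ZMod p) =
            ∑ l, (c l i : ZMod p) * u i * (Y l (g' j) : ZMod p) := by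
          intro i
          rw [hMij]
          push_cast
          rw [mul_sum]
          exact sum_congr rfl fun l _ => by ring
        rw [sum_congr rfl fun i _ => h8 i, sum_comm]
        have h9 : ∀ l, ∑ i, (c l i : ZMod p) * u i * (Y l (g' j) : ZMod p) =
            u l * (Y l (g' j) : ZMod p) := by
          intro l
          rw [← sum_mul, ← hrel p hp u huY l]
        rw [sum_congr rfl fun l _ => h9 l]
        exact congr_fun huY (g' j)
      exact h5
    rw [LinearMap.finrank_range_of_inj hτi] at h4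
    exact (pow_dvd_pow _ hK0).trans h4
  have hdvd2 : (∏ p ∈ B, (p : ℤ) ^ e p) ∣ N.det := by
    refine Finset.prod_dvd_of_coprime ?_ hdvd
    intro p hp q hq hpq
    apply IsCoprime.pow
    exact Nat.isCoprime_iff_coprime.2 ((Nat.coprime_primes (hB p hp) (hB q hq)).2 hpq)
  have habs : ((∏ p ∈ B, p ^ e p : ℕ) : ℝ) ≤ |((N.det : ℤ) : ℝ)| := by
    have h1 : (∏ p ∈ B, (p : ℤ) ^ e p) ≤ |N.det| := Int.le_of_dvd (abs_pos.2 hNdet) ((dvd_abs _ _).2 hdvd2)
    have h2 : (((∏ p ∈ B, (p : ℤ) ^ e p : ℤ)) : ℝ) ≤ ((|N.det| : ℤ) : ℝ) := by exact_mod_cast h1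
    rw [Int.cast_abs] at h2
    refine le_trans (le_of_eq ?_) h2
    push_cast
    rfl
  have hhad : |((N.det : ℤ) : ℝ)| ≤ A ^ R := by
    have h1 := hadamard (N.map (Int.castRingHom ℝ))
    have h2 : (N.map (Int.castRingHom ℝ)).det = (Int.castRingHom ℝ) N.det :=
      ((Int.castRingHom ℝ).map_det N).symm
    rw [h2] at h1
    refine h1.trans ?_
    have h3 : ∀ x : Fin R, √(∑ j, (N.map (Int.castRingHom ℝ)) x j ^ 2) ≤ A := by
      intro x
      apply Real.sqrt_le_iff.2
      refine ⟨by linarith, ?_⟩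
      have h4 := hA (fun l => c l (f x)) (fun l => hc1 l (f x)) (univ.image g') (by
        rw [card_image_of_injective _ hgi, card_univ, Fintype.card_fin]
        omega)
      rw [sum_image (fun x _ y _ h => hgi h)] at h4
      refine le_trans (le_of_eq ?_) h4
      refine sum_congr rfl fun j _ => ?_
      have h5 : N x j = ∑ l, c l (f x) * Y l (g' j) := hMij _ _
      rw [Matrix.map_apply, h5]
      rfl
    calc ∏ x : Fin R, √(∑ j, (N.map (Int.castRingHom ℝ)) x j ^ 2) ≤ ∏ _x : Fin R, A :=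
          prod_le_prod (fun _ _ => Real.sqrt_nonneg _) fun x _ => h3 x
      _ = A ^ R := by rw [prod_const, card_univ, Fintype.card_fin]
  refine ⟨D.card, hDa, (habs.trans hhad).trans (pow_le_pow_right₀ hA1 hRD), ?_⟩
  intro t S hS
  have h1 := card_diss_le g D hD (fun p u => t p u.1)
  rw [Fintype.card_fin] at h1
  refine (card_le_card ?_).trans h1
  intro y hy
  rw [mem_filter]
  refine ⟨mem_univ _, ?_⟩
  funext p u
  rw [Finset.sum_apply, Finset.sum_apply]
  refine Eq.trans ?_ (hS y hy p.1 p.2 u.1 u.2)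
  refine sum_congr rfl fun i _ => ?_
  by_cases hyi : y i = true
  · simp only [hyi, if_true]
    rfl
  · simp only [hyi]
    rfl

theorem lazy_of_fair {a d : ℕ} (B : Finset ℕ) (W : (p : ℕ) → (Fin a → ZMod p) → Prop)
    (h2 : ∀ (t : (p : ℕ) → (Fin a → ZMod p) → ZMod p) (S : Finset (Fin a → Bool)),
        (∀ y ∈ S, ∀ p ∈ B, ∀ u : Fin a → ZMod p, W p u →
          ∑ i, (if y i then u i else 0) = t p u) → S.card ≤ 2 ^ (a - d))
    (t : (p : ℕ) → (Fin a → ZMod p) → ZMod p) (S : Finset ((Fin a → Bool) × (Fin a → Bool)))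
    (hS : ∀ z ∈ S, ∀ p ∈ B, ∀ u : Fin a → ZMod p, W p u →
          ∑ i, (if z.1 i then u i else 0) - ∑ i, (if z.2 i then u i else 0) = t p u) :
    S.card ≤ 2 ^ a * 2 ^ (a - d) := by
  classical
  have h3 : S.card = ∑ w : Fin a → Bool, (S.filter fun z => z.2 = w).card := by
    rw [← card_eq_sum_card_fiberwise (f := fun z : (Fin a → Bool) × (Fin a → Bool) => z.2)]
    intro z _
    exact mem_univ _
  rw [h3]
  have h4 : ∀ w : Fin a → Bool, (S.filter fun z => z.2 = w).card ≤ 2 ^ (a - d) := by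
    intro w
    have h5 : (S.filter fun z => z.2 = w).card = ((S.filter fun z => z.2 = w).image Prod.fst).card := by
      rw [card_image_of_injOn]
      intro z hz z' hz' h
      exact Prod.ext h (((mem_filter.1 hz).2).trans ((mem_filter.1 hz').2).symm)
    rw [h5]
    apply h2 (fun p u => t p u + ∑ i, (if w i then u i else 0))
    intro y hy p hp u hu
    obtain ⟨z, hz, rfl⟩ := mem_image.1 hy
    obtain ⟨hz1, rfl⟩ := mem_filter.1 hz
    rw [← hS z hz1 p hp u hu]
    ring
  calc ∑ w : Fin a → Bool, (S.filter fun z => z.2 = w).card ≤ ∑ _w : Fin a → Bool, 2 ^ (a - d) :=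
        sum_le_sum fun w _ => h4 w
    _ = 2 ^ a * 2 ^ (a - d) := by
        rw [sum_const, card_univ, Fintype.card_fun, Fintype.card_bool, Fintype.card_fin, smul_eq_mul]

/-- The same for the law of a difference of two uniform 0/1 vectors. -/
theorem minor_lo_lazy {a k : ℕ} (Y : Matrix (Fin a) (Fin k) ℤ) (r : ℕ)
    (hr : r ≤ (Y.map (Int.cast : ℤ → ℚ)).rank) (B : Finset ℕ) (hB : ∀ p ∈ B, p.Prime) (e : ℕ → ℕ)
    (he : ∀ p ∈ B, a + e p ≤
      r + Module.finrank (ZMod p) (LinearMap.ker (Y.map (Int.cast : ℤ → ZMod p)).vecMulLinear))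
    (A : ℝ) (hA1 : 1 ≤ A) (hA : ∀ c : Fin a → ℤ, (∀ i, |c i| ≤ 1) → ∀ J : Finset (Fin k),
      J.card ≤ a → ∑ j ∈ J, ((∑ i, c i * Y i j : ℤ) : ℝ) ^ 2 ≤ A ^ 2) :
    ∃ d ≤ a, ((∏ p ∈ B, p ^ e p : ℕ) : ℝ) ≤ A ^ d ∧
      (∀ (t : (p : ℕ) → (Fin a → ZMod p) → ZMod p) (S : Finset (Fin a → Bool)),
        (∀ y ∈ S, ∀ p ∈ B, ∀ u : Fin a → ZMod p, u ᵥ* Y.map (Int.cast : ℤ → ZMod p) = 0 →
          ∑ i, (if y i then u i else 0) = t p u) → S.card ≤ 2 ^ (a - d)) ∧
      ∀ (t : (p : ℕ) → (Fin a → ZMod p) → ZMod p) (S : Finset ((Fin a → Bool) × (Fin a → Bool))),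
        (∀ z ∈ S, ∀ p ∈ B, ∀ u : Fin a → ZMod p, u ᵥ* Y.map (Int.cast : ℤ → ZMod p) = 0 →
          ∑ i, (if z.1 i then u i else 0) - ∑ i, (if z.2 i then u i else 0) = t p u) →
        S.card ≤ 2 ^ a * 2 ^ (a - d) := by
  obtain ⟨d, hda, h1, h2⟩ := minor_lo Y r hr B hB e he A hA1 hA
  exact ⟨d, hda, h1, h2, lazy_of_fair B (fun p u => u ᵥ* Y.map (Int.cast : ℤ → ZMod p) = 0) h2⟩

/-- The crude norm bound for a matrix with entries in `{-1,0,1}`. -/
theorem crude {a k : ℕ} (Y : Matrix (Fin a) (Fin k) ℤ) (hY : ∀ i j, |Y i j| ≤ 1) :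
    ∀ c : Fin a → ℤ, (∀ i, |c i| ≤ 1) → ∀ J : Finset (Fin k),
      J.card ≤ a → ∑ j ∈ J, ((∑ i, c i * Y i j : ℤ) : ℝ) ^ 2 ≤ (a * √a : ℝ) ^ 2 := by
  intro c hc J hJ
  have h1 : ∀ j, ((∑ i, c i * Y i j : ℤ) : ℝ) ^ 2 ≤ (a : ℝ) ^ 2 := by
    intro j
    apply sq_le_sq'
    · have : -(a : ℤ) ≤ ∑ i, c i * Y i j := by
        have h := abs_le.1 ((abs_sum_le_sum_abs (fun i => c i * Y i j) univ).trans
          ((sum_le_sum fun i _ => (by
            rw [abs_mul]
            exact mul_le_one₀ (hc i) (abs_nonneg _) (hY i j) : |c i * Y i j| ≤ 1)).trans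
            (le_of_eq (by simp : ∑ _i : Fin a, (1 : ℤ) = a))))
        exact h.1
      exact_mod_cast this
    · have : ∑ i, c i * Y i j ≤ (a : ℤ) := by
        have h := abs_le.1 ((abs_sum_le_sum_abs (fun i => c i * Y i j) univ).trans
          ((sum_le_sum fun i _ => (by
            rw [abs_mul]
            exact mul_le_one₀ (hc i) (abs_nonneg _) (hY i j) : |c i * Y i j| ≤ 1)).trans
            (le_of_eq (by simp : ∑ _i : Fin a, (1 : ℤ) = a))))
        exact h.2
      exact_mod_cast this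
  calc ∑ j ∈ J, ((∑ i, c i * Y i j : ℤ) : ℝ) ^ 2 ≤ ∑ _j ∈ J, (a : ℝ) ^ 2 :=
        sum_le_sum fun j _ => h1 j
    _ = J.card * (a : ℝ) ^ 2 := by rw [sum_const, nsmul_eq_mul]
    _ ≤ a * (a : ℝ) ^ 2 := by
        apply mul_le_mul_of_nonneg_right _ (by positivity)
        exact_mod_cast hJ
    _ = (a * √a : ℝ) ^ 2 := by
        rw [mul_pow, Real.sq_sqrt (Nat.cast_nonneg a)]
        ring

/-- The `2/3` form: `∏ p ^ (e p) ≤ a ^ (3 d / 2)`. -/
theorem minor_lo_crude {a k : ℕ} (ha : 1 ≤ a) (Y : Matrix (Fin a) (Fin k) ℤ)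
    (hY : ∀ i j, |Y i j| ≤ 1) (r : ℕ)
    (hr : r ≤ (Y.map (Int.cast : ℤ → ℚ)).rank) (B : Finset ℕ) (hB : ∀ p ∈ B, p.Prime) (e : ℕ → ℕ)
    (he : ∀ p ∈ B, a + e p ≤
      r + Module.finrank (ZMod p) (LinearMap.ker (Y.map (Int.cast : ℤ → ZMod p)).vecMulLinear)) :
    ∃ d ≤ a, (∏ p ∈ B, p ^ e p) ^ 2 ≤ a ^ (3 * d) ∧
      (∀ (t : (p : ℕ) → (Fin a → ZMod p) → ZMod p) (S : Finset (Fin a → Bool)),
        (∀ y ∈ S, ∀ p ∈ B, ∀ u : Fin a → ZMod p, u ᵥ* Y.map (Int.cast : ℤ → ZMod p) = 0 →
          ∑ i, (if y i then u i else 0) = t p u) → S.card ≤ 2 ^ (a - d)) ∧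
      ∀ (t : (p : ℕ) → (Fin a → ZMod p) → ZMod p) (S : Finset ((Fin a → Bool) × (Fin a → Bool))),
        (∀ z ∈ S, ∀ p ∈ B, ∀ u : Fin a → ZMod p, u ᵥ* Y.map (Int.cast : ℤ → ZMod p) = 0 →
          ∑ i, (if z.1 i then u i else 0) - ∑ i, (if z.2 i then u i else 0) = t p u) →
        S.card ≤ 2 ^ a * 2 ^ (a - d) := by
  have ha1 : (1 : ℝ) ≤ a := by exact_mod_cast ha
  have hA1 : (1 : ℝ) ≤ a * √a := by
    have h1 : (1 : ℝ) ≤ √a := Real.one_le_sqrt.2 ha1
    nlinarith
  obtain ⟨d, hda, h1, h2, h3⟩ := minor_lo_lazy Y r hr B hB e he (a * √a) hA1 (crude Y hY)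
  refine ⟨d, hda, ?_, h2, h3⟩
  have h4 : (((∏ p ∈ B, p ^ e p : ℕ) : ℝ)) ^ 2 ≤ ((a * √a : ℝ) ^ d) ^ 2 :=
    pow_le_pow_left₀ (Nat.cast_nonneg _) h1 2
  have h5 : (((a * √a : ℝ)) ^ d) ^ 2 = (a : ℝ) ^ (3 * d) := by
    rw [← pow_mul, mul_comm d 2, pow_mul, mul_pow, Real.sq_sqrt (Nat.cast_nonneg a), pow_mul]
    congr 1
  rw [h5] at h4
  exact_mod_cast h4

end Vale.Agent.P160.Half.MLO
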