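import Vale.Agent.P160.Half.LemM836

/-! # P160-HALF (M), LEMMA M of note 11331: the abstract core

`(#ker_N Y)^s` counts the tuples `v : Fin m → (ℤ/N)^s` with `Y v = 0`; each generates a subgroup `H`.
Either all have `Zp ≤ T` (first moment) or the chain lemma gives a critical quotient. -/

namespace Vale.Agent.P160.Half.P4L

open Finset Vale.Agent.P160.Half.LemM836

/-- every subgroup of `(ℤ/N)^s` is generated by `s` elements -/
theorem exists_gen (N s : ℕ) [NeZero N] (H : AddSubgroup (Fin s → ZMod N)) :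
    ∃ f : Fin s → (Fin s → ZMod N), AddSubgroup.closure (Set.range f) = H := by
  classical
  let π : (Fin s → ℤ) →+ (Fin s → ZMod N) :=
    { toFun := fun x i => (x i : ZMod N)
      map_zero' := by ext i; simp
      map_add' := by intro x y; ext i; simp }
  let H' : Submodule ℤ (Fin s → ℤ) := AddSubgroup.toIntSubmodule (H.comap π)
  obtain ⟨n, b⟩ := Submodule.basisOfPid (Pi.basisFun ℤ (Fin s)) H'
  have hn : n ≤ s := by
    have h1 := Submodule.finrank_le H'
    rw [Module.finrank_eq_card_basis b, Module.finrank_fin_fun, Fintype.card_fin] at h1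
    exact h1
  refine ⟨fun i => if h : (i : ℕ) < n then π (b ⟨i, h⟩ : Fin s → ℤ) else 0, ?_⟩
  apply le_antisymm
  · rw [AddSubgroup.closure_le]
    rintro _ ⟨i, rfl⟩
    by_cases h : (i : ℕ) < n
    · simp only [h, dif_pos]
      exact (b ⟨i, h⟩).2
    · simp only [h, dif_neg, not_false_eq_true]
      exact H.zero_mem
  · intro x hx
    let x' : Fin s → ℤ := fun i => ((x i).val : ℤ)
    have hx' : π x' = x := by
      ext i
      show (((x i).val : ℤ) : ZMod N) = x i
      simp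
    have hm : x' ∈ H' := by
      show π x' ∈ H
      rw [hx']; exact hx
    have h1 := b.sum_repr ⟨x', hm⟩
    have h2 : ∑ i, b.repr ⟨x', hm⟩ i • (b i : Fin s → ℤ) = x' := by
      have := congrArg H'.subtype h1
      rw [map_sum] at this
      simpa only [map_smul, Submodule.subtype_apply] using this
    rw [← hx', ← h2, map_sum]
    refine AddSubgroup.sum_mem _ fun i _ => ?_
    rw [map_zsmul]
    refine AddSubgroup.zsmul_mem _ (AddSubgroup.subset_closure ?_) _
    refine ⟨⟨i, lt_of_lt_of_le i.2 hn⟩, ?_⟩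
    simp

theorem card_subgroups (N s : ℕ) [NeZero N] :
    Nat.card (AddSubgroup (Fin s → ZMod N)) ≤ N ^ (s * s) := by
  have h := Nat.card_le_card_of_surjective
    (fun f : Fin s → (Fin s → ZMod N) => AddSubgroup.closure (Set.range f))
    (fun H => exists_gen N s H)
  refine h.trans (le_of_eq ?_)
  rw [Nat.card_eq_fintype_card, Fintype.card_fun, Fintype.card_fun, Fintype.card_fin, ZMod.card,
    pow_mul]

section core

variable {Om : Type} [Fintype Om] {k m : ℕ}

/-- kernel vectors with values in `G` -/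
def KerG (e : Om → ℤ) (G : Type) [AddCommGroup G] (Y : Fin k → Fin m → Om) : Type :=
  {v : Fin m → G // ∀ i, dotp e (Y i) v = 0}

instance (e : Om → ℤ) (G : Type) [AddCommGroup G] [Finite G] (Y : Fin k → Fin m → Om) :
    Finite (KerG e G Y) := by unfold KerG; infer_instance

/-- generating kernel vectors with a property -/
def KerP (e : Om → ℤ) (G : Type) [AddCommGroup G] (P : (Fin m → G) → Prop)
    (Y : Fin k → Fin m → Om) : Type :=
  {v : Fin m → G // P v ∧ ∀ i, dotp e (Y i) v = 0}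

instance (e : Om → ℤ) (G : Type) [AddCommGroup G] [Finite G] (P : (Fin m → G) → Prop)
    (Y : Fin k → Fin m → Om) : Finite (KerP e G P Y) := by unfold KerP; infer_instance

omit [Fintype Om] in
/-- the `s`-th power of the kernel count -/
theorem ker_pow (e : Om → ℤ) (N s : ℕ) [NeZero N] (Y : Fin k → Fin m → Om) :
    Nat.card (KerG e (ZMod N) Y) ^ s = Nat.card (KerG e (Fin s → ZMod N) Y) := by
  have h : Nat.card (Fin s → KerG e (ZMod N) Y) = Nat.card (KerG e (ZMod N) Y) ^ s := by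
    rw [Nat.card_fun, Nat.card_eq_fintype_card (α := Fin s), Fintype.card_fin]
  rw [← h]
  refine Nat.card_congr
    { toFun := fun f => ⟨fun c j => (f j).1 c, fun i => ?_⟩
      invFun := fun v j => ⟨fun c => v.1 c j, fun i => ?_⟩
      left_inv := fun f => rfl
      right_inv := fun v => rfl }
  · funext j
    have := (f j).2 i
    unfold dotp at this ⊢
    rw [Finset.sum_apply]
    exact this
  · have := congrFun (v.2 i) j
    unfold dotp at this ⊢
    rw [Finset.sum_apply] at this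
    exact this

open Classical in
/-- exchange of sums -/
theorem sum_KerP (e : Om → ℤ) (G : Type) [AddCommGroup G] [Fintype G] (P : (Fin m → G) → Prop)
    (hO : 0 < Fintype.card Om) :
    (∑ Y : Fin k → Fin m → Om, (Nat.card (KerP e G P Y) : ℝ)) * (Nat.card G : ℝ) ^ k =
      (Fintype.card Om : ℝ) ^ (k * m) * ∑ y ∈ univ.filter (fun y : Fin m → G => P y), Zp e y ^ k := by
  have h1 : ∀ Y : Fin k → Fin m → Om, (Nat.card (KerP e G P Y) : ℝ) =
      ∑ y ∈ univ.filter (fun y : Fin m → G => P y), if (∀ i, dotp e (Y i) y = 0) then (1 : ℝ) else 0 := by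
    intro Y
    rw [← sum_filter, filter_filter, sum_const, nsmul_eq_mul, mul_one]
    unfold KerP
    rw [Nat.card_eq_fintype_card, Fintype.card_subtype]
  simp only [h1]
  rw [sum_comm, sum_mul, mul_sum]
  refine sum_congr rfl fun y _ => ?_
  have h3 : (univ.filter fun Y : Fin k → Fin m → Om => ∀ i, dotp e (Y i) y = 0) =
      Fintype.piFinset (fun _ : Fin k => univ.filter fun x : Fin m → Om => dotp e x y = 0) := by
    ext Y
    simp
  rw [← sum_filter, sum_const, nsmul_eq_mul, mul_one, h3, Fintype.card_piFinset_const]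
  unfold Zp cnt
  have h4 : ((Fintype.card Om : ℝ) ^ m) ≠ 0 := by positivity
  rw [div_pow, mul_pow, mul_comm k m, pow_mul]
  push_cast
  field_simp

/-- a generating tuple of the subgroup generated by `v` -/
theorem closure_toCl {G : Type} [AddCommGroup G] (v : Fin m → G) :
    AddSubgroup.closure (Set.range fun j => (⟨v j, AddSubgroup.subset_closure ⟨j, rfl⟩⟩ :
      AddSubgroup.closure (Set.range v))) = ⊤ := by
  have h := AddSubgroup.closure_closure_coe_preimage (k := Set.range v)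
  rw [← h]
  congr 1
  ext x
  constructor
  · rintro ⟨j, rfl⟩
    exact ⟨j, rfl⟩
  · rintro ⟨j, hj⟩
    exact ⟨j, Subtype.ext hj⟩

open Classical in
omit [Fintype Om] in
/-- kernel tuples by the subgroup they generate -/
theorem ker_le_sum (e : Om → ℤ) (Γ : Type) [AddCommGroup Γ] [Finite Γ] [Fintype (AddSubgroup Γ)]
    (Y : Fin k → Fin m → Om) :
    Nat.card (KerG e Γ Y) ≤ ∑ H : AddSubgroup Γ,
      Nat.card (KerP e H (fun y => AddSubgroup.closure (Set.range y) = ⊤) Y) := by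
  rw [← Nat.card_sigma]
  let f : KerG e Γ Y → Σ H : AddSubgroup Γ,
      KerP e H (fun y => AddSubgroup.closure (Set.range y) = ⊤) Y := fun v =>
    ⟨AddSubgroup.closure (Set.range v.1), ⟨fun j => ⟨v.1 j, AddSubgroup.subset_closure ⟨j, rfl⟩⟩,
      closure_toCl v.1, fun i => by
        refine Subtype.ext (Eq.trans ?_ (v.2 i))
        unfold dotp
        rw [AddSubgroup.val_finsetSum]
        rfl⟩⟩
  let g : (Σ H : AddSubgroup Γ, KerP e H (fun y => AddSubgroup.closure (Set.range y) = ⊤) Y) →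
      (Fin m → Γ) := fun z j => (z.2.1 j : Γ)
  refine Nat.card_le_card_of_injective f fun v w hvw => Subtype.ext ?_
  have h1 : g (f v) = g (f w) := by rw [hvw]
  exact h1

open Classical in
/-- the pointwise bound -/
theorem point (e : Om → ℤ) (N s : ℕ) [NeZero N] (T Q R : ℝ) (hT : 1 ≤ T) (hR : 0 ≤ R)
    (hO : 0 < Fintype.card Om)
    (hQ : ∀ p : ℕ, p.Prime → p ∣ N → (p : ℝ) ≤ Q)
    (PP : ∀ (G : Type) [AddCommGroup G], (Fin m → G) → Prop)
    (Y : Fin k → Fin m → Om)
    (h1 : ∀ (G : Type) [AddCommGroup G] [Finite G], (∀ g : G, N • g = 0) → ∀ y : Fin m → G,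
      AddSubgroup.closure (Set.range y) = ⊤ → (∀ i, dotp e (Y i) y = 0) → PP G y)
    (hker : (Nat.card (KerG e (ZMod N) Y) : ℝ) ^ s ≤ R) [Fintype (AddSubgroup (Fin s → ZMod N))]
    [∀ H : AddSubgroup (Fin s → ZMod N), Fintype (AddSubgroup H)] :
    (Nat.card (KerG e (ZMod N) Y) : ℝ) ^ s ≤
      ∑ H : AddSubgroup (Fin s → ZMod N), (Nat.card (KerP e H (fun y => PP H y ∧ Zp e y ≤ T) Y) : ℝ) +
      R * ∑ H : AddSubgroup (Fin s → ZMod N), ∑ K : AddSubgroup H,
        (Nat.card (KerP e (H ⧸ K) (fun y => PP (H ⧸ K) y ∧ T < Zp e y ∧ Zp e y ≤ Q * T) Y) : ℝ) := by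
  have hN : ∀ H : AddSubgroup (Fin s → ZMod N), ∀ g : H, N • g = 0 := by
    intro H g
    refine Subtype.ext ?_
    rw [AddSubgroup.coe_nsmul]
    ext i
    simp
  by_cases h : ∃ (H : AddSubgroup (Fin s → ZMod N)) (y : Fin m → H),
      AddSubgroup.closure (Set.range y) = ⊤ ∧ (∀ i, dotp e (Y i) y = 0) ∧ T < Zp e y
  · obtain ⟨H, y, hy1, hy2, hy3⟩ := h
    obtain ⟨K, hK1, hK2⟩ := chain e y T Q hT (fun p hp hpd => hQ p hp (by
      have h2 : p ∣ Nat.card (Fin s → ZMod N) := hpd.trans (AddSubgroup.card_addSubgroup_dvd_card H)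
      rw [Nat.card_eq_fintype_card, Fintype.card_fun, ZMod.card, Fintype.card_fin] at h2
      exact hp.dvd_of_dvd_pow h2)) hy3 hO
    have hz1 : AddSubgroup.closure (Set.range fun c => (y c : H ⧸ K)) = ⊤ := by
      have h3 : (AddSubgroup.closure (Set.range y)).map (QuotientAddGroup.mk' K) =
          AddSubgroup.closure (Set.range fun c => (y c : H ⧸ K)) := by
        rw [AddMonoidHom.map_closure, ← Set.range_comp]
        rfl
      rw [← h3, hy1]
      exact AddSubgroup.map_top_of_surjective _ (QuotientAddGroup.mk'_surjective K)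
    have hz2 : ∀ i, dotp e (Y i) (fun c => (y c : H ⧸ K)) = 0 := by
      intro i
      have h3 := dotp_map (QuotientAddGroup.mk' K) e (Y i) y
      rw [hy2 i, map_zero] at h3
      exact h3
    have hz3 : PP (H ⧸ K) (fun c => (y c : H ⧸ K)) := by
      refine h1 (H ⧸ K) (fun g => ?_) _ hz1 hz2
      obtain ⟨g, rfl⟩ := QuotientAddGroup.mk_surjective g
      rw [← QuotientAddGroup.mk_nsmul, hN H g]
      rfl
    have h5 : (1 : ℝ) ≤ (Nat.card (KerP e (H ⧸ K)
        (fun y => PP (H ⧸ K) y ∧ T < Zp e y ∧ Zp e y ≤ Q * T) Y) : ℝ) := by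
      have : Nonempty (KerP e (H ⧸ K) (fun y => PP (H ⧸ K) y ∧ T < Zp e y ∧ Zp e y ≤ Q * T) Y) :=
        ⟨⟨_, ⟨hz3, hK1, hK2⟩, hz2⟩⟩
      exact_mod_cast Nat.card_pos
    have h6 : (1 : ℝ) ≤ ∑ H : AddSubgroup (Fin s → ZMod N), ∑ K : AddSubgroup H,
        (Nat.card (KerP e (H ⧸ K) (fun y => PP (H ⧸ K) y ∧ T < Zp e y ∧ Zp e y ≤ Q * T) Y) : ℝ) := by
      refine h5.trans ?_
      refine (single_le_sum (f := fun K : AddSubgroup H => (Nat.card (KerP e (H ⧸ K)
        (fun y => PP (H ⧸ K) y ∧ T < Zp e y ∧ Zp e y ≤ Q * T) Y) : ℝ))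
        (fun _ _ => Nat.cast_nonneg _) (mem_univ K)).trans ?_
      exact single_le_sum (f := fun H : AddSubgroup (Fin s → ZMod N) => ∑ K : AddSubgroup H,
        (Nat.card (KerP e (H ⧸ K) (fun y => PP (H ⧸ K) y ∧ T < Zp e y ∧ Zp e y ≤ Q * T) Y) : ℝ))
        (fun _ _ => sum_nonneg fun _ _ => Nat.cast_nonneg _) (mem_univ H)
    have h7 : (0 : ℝ) ≤ ∑ H : AddSubgroup (Fin s → ZMod N),
        (Nat.card (KerP e H (fun y => PP H y ∧ Zp e y ≤ T) Y) : ℝ) :=
      sum_nonneg fun _ _ => Nat.cast_nonneg _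
    nlinarith
  · push Not at h
    have h2 : (Nat.card (KerG e (ZMod N) Y) : ℝ) ^ s ≤ ∑ H : AddSubgroup (Fin s → ZMod N),
        (Nat.card (KerP e H (fun y => PP H y ∧ Zp e y ≤ T) Y) : ℝ) := by
      have h3 := ker_le_sum e (Fin s → ZMod N) Y
      rw [← ker_pow] at h3
      rw [← Nat.cast_pow]
      refine le_trans (Nat.cast_le.2 h3) ?_
      rw [Nat.cast_sum]
      refine sum_le_sum fun H _ => ?_
      refine Nat.cast_le.2 ?_
      let f : KerP e H (fun y => AddSubgroup.closure (Set.range y) = ⊤) Y →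
          KerP e H (fun y => PP H y ∧ Zp e y ≤ T) Y := fun y =>
        ⟨y.1, ⟨h1 H (hN H) y.1 y.2.1 y.2.2, h H y.1 y.2.1 y.2.2⟩, y.2.2⟩
      refine Nat.card_le_card_of_injective f fun y z hyz => Subtype.ext ?_
      have h9 : (f y).1 = (f z).1 := by rw [hyz]
      exact h9
    have h4 : (0 : ℝ) ≤ R * ∑ H : AddSubgroup (Fin s → ZMod N), ∑ K : AddSubgroup H,
        (Nat.card (KerP e (H ⧸ K) (fun y => PP (H ⧸ K) y ∧ T < Zp e y ∧ Zp e y ≤ Q * T) Y) : ℝ) :=
      mul_nonneg hR (sum_nonneg fun _ _ => sum_nonneg fun _ _ => Nat.cast_nonneg _)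
    linarith

open Classical in
/-- one group -/
theorem sum_KerP_le (e : Om → ℤ) (G : Type) [AddCommGroup G] [Fintype G] (P : (Fin m → G) → Prop)
    (hO : 0 < Fintype.card Om) (A : ℝ)
    (h : ∑ y ∈ univ.filter (fun y : Fin m → G => P y), Zp e y ^ k ≤ (Nat.card G : ℝ) ^ k * A) :
    ∑ Y : Fin k → Fin m → Om, (Nat.card (KerP e G P Y) : ℝ) ≤ (Fintype.card Om : ℝ) ^ (k * m) * A := by
  have h1 := sum_KerP (k := k) e G P hO
  have h2 : (0 : ℝ) < (Nat.card G : ℝ) ^ k := by
    have : (0 : ℝ) < (Nat.card G : ℝ) := by exact_mod_cast Nat.card_pos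
    positivity
  refine le_of_mul_le_mul_right ?_ h2
  rw [h1]
  calc (Fintype.card Om : ℝ) ^ (k * m) * ∑ y ∈ univ.filter (fun y : Fin m → G => P y), Zp e y ^ k
      ≤ (Fintype.card Om : ℝ) ^ (k * m) * ((Nat.card G : ℝ) ^ k * A) := by gcongr
    _ = _ := by ring

open Classical in
/-- **CORE of LEMMA M** -/
theorem core (e : Om → ℤ) (N s : ℕ) [NeZero N] (T Q R A B : ℝ) (hT : 1 ≤ T) (hR : 0 ≤ R)
    (hA : 0 ≤ A) (hB : 0 ≤ B) (hO : 0 < Fintype.card Om)
    (hQ : ∀ p : ℕ, p.Prime → p ∣ N → (p : ℝ) ≤ Q)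
    (PP : ∀ (G : Type) [AddCommGroup G], (Fin m → G) → Prop)
    (YY : Finset (Fin k → Fin m → Om))
    (h1 : ∀ Y ∈ YY, ∀ (G : Type) [AddCommGroup G] [Finite G], (∀ g : G, N • g = 0) →
      ∀ y : Fin m → G, AddSubgroup.closure (Set.range y) = ⊤ → (∀ i, dotp e (Y i) y = 0) → PP G y)
    (hker : ∀ Y ∈ YY, (Nat.card (KerG e (ZMod N) Y) : ℝ) ^ s ≤ R)
    (hlow : ∀ (G : Type) [AddCommGroup G] [Fintype G], (∀ g : G, N • g = 0) → Nat.card G ≤ N ^ s →
      ∑ y ∈ univ.filter (fun y : Fin m → G => PP G y ∧ Zp e y ≤ T), Zp e y ^ k ≤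
        (Nat.card G : ℝ) ^ k * A)
    (hbig : ∀ (G : Type) [AddCommGroup G] [Fintype G], (∀ g : G, N • g = 0) → Nat.card G ≤ N ^ s →
      ∑ y ∈ univ.filter (fun y : Fin m → G => PP G y ∧ T < Zp e y ∧ Zp e y ≤ Q * T), Zp e y ^ k ≤
        (Nat.card G : ℝ) ^ k * B) :
    ∑ Y ∈ YY, (Nat.card (KerG e (ZMod N) Y) : ℝ) ^ s ≤ (Fintype.card Om : ℝ) ^ (k * m) *
      ((N : ℝ) ^ (s * s) * A + R * ((N : ℝ) ^ (s * s) * (N : ℝ) ^ (s * s)) * B) := by
  let _ : Fintype (AddSubgroup (Fin s → ZMod N)) := Fintype.ofFinite _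
  let _ : ∀ H : AddSubgroup (Fin s → ZMod N), Fintype (AddSubgroup H) := fun H => Fintype.ofFinite _
  have hN : ∀ H : AddSubgroup (Fin s → ZMod N), ∀ g : H, N • g = 0 := by
    intro H g
    refine Subtype.ext ?_
    rw [AddSubgroup.coe_nsmul]
    ext i
    simp
  have hcard : Nat.card (Fin s → ZMod N) = N ^ s := by
    rw [Nat.card_eq_fintype_card, Fintype.card_fun, ZMod.card, Fintype.card_fin]
  have hcH : ∀ H : AddSubgroup (Fin s → ZMod N), Nat.card H ≤ N ^ s := fun H => by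
    rw [← hcard]
    exact Nat.card_le_card_of_injective (fun x : H => (x : Fin s → ZMod N)) Subtype.val_injective
  have hcK : ∀ (H : AddSubgroup (Fin s → ZMod N)) (K : AddSubgroup H), Nat.card (H ⧸ K) ≤ N ^ s :=
    fun H K => (Nat.card_le_card_of_surjective _ (QuotientAddGroup.mk_surjective (s := K))).trans (hcH H)
  have hS : (Fintype.card (AddSubgroup (Fin s → ZMod N)) : ℝ) ≤ (N : ℝ) ^ (s * s) := by
    have := card_subgroups N s
    rw [Nat.card_eq_fintype_card] at this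
    exact_mod_cast this
  have hSH : ∀ H : AddSubgroup (Fin s → ZMod N), (Fintype.card (AddSubgroup H) : ℝ) ≤
      (N : ℝ) ^ (s * s) := by
    intro H
    have h2 : Nat.card (AddSubgroup H) ≤ Nat.card (AddSubgroup (Fin s → ZMod N)) :=
      Nat.card_le_card_of_injective (fun K : AddSubgroup H => K.map H.subtype)
        (AddSubgroup.map_injective H.subtype_injective)
    have := h2.trans (card_subgroups N s)
    rw [Nat.card_eq_fintype_card] at this
    exact_mod_cast this
  set O : ℝ := (Fintype.card Om : ℝ) ^ (k * m) with hOdef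
  have hO0 : 0 ≤ O := by positivity
  let F1 : (Fin k → Fin m → Om) → ℝ := fun Y => ∑ H : AddSubgroup (Fin s → ZMod N),
    (Nat.card (KerP e H (fun y => PP H y ∧ Zp e y ≤ T) Y) : ℝ)
  let F2 : (Fin k → Fin m → Om) → ℝ := fun Y => ∑ H : AddSubgroup (Fin s → ZMod N),
    ∑ K : AddSubgroup H,
      (Nat.card (KerP e (H ⧸ K) (fun y => PP (H ⧸ K) y ∧ T < Zp e y ∧ Zp e y ≤ Q * T) Y) : ℝ)
  have hF1 : ∀ Y, 0 ≤ F1 Y := fun Y => sum_nonneg fun _ _ => Nat.cast_nonneg _
  have hF2 : ∀ Y, 0 ≤ F2 Y := fun Y => sum_nonneg fun _ _ => sum_nonneg fun _ _ => Nat.cast_nonneg _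
  have hs1 : ∑ Y : Fin k → Fin m → Om, F1 Y ≤ (N : ℝ) ^ (s * s) * (O * A) := by
    simp only [F1]
    rw [sum_comm]
    calc _ ≤ ∑ H : AddSubgroup (Fin s → ZMod N), O * A := sum_le_sum fun H _ => by
          let _ : Fintype H := Fintype.ofFinite _
          refine sum_KerP_le e H _ hO A ?_
          convert hlow H (hN H) (hcH H)
      _ = (Fintype.card (AddSubgroup (Fin s → ZMod N)) : ℝ) * (O * A) := by
          rw [sum_const, card_univ, nsmul_eq_mul]
      _ ≤ _ := by gcongr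
  have hs2 : ∑ Y : Fin k → Fin m → Om, F2 Y ≤ (N : ℝ) ^ (s * s) * ((N : ℝ) ^ (s * s) * (O * B)) := by
    simp only [F2]
    rw [sum_comm]
    calc _ ≤ ∑ H : AddSubgroup (Fin s → ZMod N), (N : ℝ) ^ (s * s) * (O * B) :=
          sum_le_sum fun H _ => by
            rw [sum_comm]
            calc _ ≤ ∑ K : AddSubgroup H, O * B := sum_le_sum fun K _ => by
                  let _ : Fintype (H ⧸ K) := Fintype.ofFinite _
                  refine sum_KerP_le e (H ⧸ K) _ hO B ?_
                  convert hbig (H ⧸ K) (fun g => ?_) (hcK H K)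
                  obtain ⟨g, rfl⟩ := QuotientAddGroup.mk_surjective g
                  rw [← QuotientAddGroup.mk_nsmul, hN H g]
                  rfl
              _ = (Fintype.card (AddSubgroup H) : ℝ) * (O * B) := by
                  rw [sum_const, card_univ, nsmul_eq_mul]
              _ ≤ _ := by
                  have := hSH H
                  gcongr
      _ = (Fintype.card (AddSubgroup (Fin s → ZMod N)) : ℝ) * ((N : ℝ) ^ (s * s) * (O * B)) := by
          rw [sum_const, card_univ, nsmul_eq_mul]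
      _ ≤ _ := by gcongr
  calc ∑ Y ∈ YY, (Nat.card (KerG e (ZMod N) Y) : ℝ) ^ s ≤ ∑ Y ∈ YY, (F1 Y + R * F2 Y) :=
        sum_le_sum fun Y hY => point e N s T Q R hT hR hO hQ PP Y (fun G _ _ => h1 Y hY G) (hker Y hY)
    _ ≤ ∑ Y, (F1 Y + R * F2 Y) := sum_le_sum_of_subset_of_nonneg (subset_univ _) fun Y _ _ =>
        add_nonneg (hF1 Y) (mul_nonneg hR (hF2 Y))
    _ = ∑ Y, F1 Y + R * ∑ Y, F2 Y := by rw [sum_add_distrib, mul_sum]
    _ ≤ (N : ℝ) ^ (s * s) * (O * A) + R * ((N : ℝ) ^ (s * s) * ((N : ℝ) ^ (s * s) * (O * B))) := by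
        gcongr
    _ = _ := by ring

end core

end Vale.Agent.P160.Half.P4L
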