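import Vale.Agent.P160.Half.MomGlue539
import Vale.Agent.P160.Half.P4Lem7
import Vale.Agent.P160.Half.P4Sum7
import Vale.Agent.P160.Half.MinM67_628

/-! # P160, half rate, (M): `StmtMom 3 (1/8)` from COUNT (`gZ 4`) and LEMMA MC (`M = 4`) -/

set_option linter.unusedVariables false

namespace Vale.Agent.P160.Half.Mom310

open Finset Vale.Agent.P160 Vale.Agent.P160.Half Vale.Agent.P160.Half.Flat

/-- the same as `MC.MinC` -/
def MinC' {G : Type} [AddCommGroup G] {m : ℕ} (e σ : ℝ) (y : Fin m → G) : Prop :=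
  ∀ ψ : AddChar G ℂ, ψ ≠ 1 → ∀ F : Finset (Fin m), ((Fᶜ).card : ℝ) ≤ e →
    σ ^ 2 < ∑ c ∈ F, ‖ψ (y c) - 1‖ ^ 2

open scoped Classical in
def CountProp : Prop :=
  ∀ δ c C₀ : ℝ, 0 < δ → δ ≤ 1 → 0 < c → 0 < C₀ → ∃ k₀ : ℕ, ∀ k : ℕ, k₀ ≤ k →
    ∀ (G : Type) [AddCommGroup G] [Fintype G] (m : ℕ), m ≤ k → (k : ℝ) ≤ 2 * m →
    (∀ p : ℕ, p.Prime → p ∣ Fintype.card G → k ≤ p) →
    (Fintype.card G : ℝ) * (1 / 2) ^ m ≤ Real.exp (-c * k) →
    ∀ T : ℝ, 1 / (k : ℝ) ^ 3 ≤ T → T ≤ (k : ℝ) ^ C₀ →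
    ((univ.filter fun y : Fin m → G =>
      NonSp ((k : ℝ) ^ (1 - δ / 4)) y ∧ 1 + T ≤ gZ 4 y).card : ℝ) ≤
      (Fintype.card G : ℝ) ^ m * ((k : ℝ) ^ (-(1 / 2) + δ) / max 1 T) ^ m

open scoped Classical in
def MCProp : Prop :=
  ∀ c C₀ C₁ d : ℝ, 0 < c → 0 < C₀ → 0 < C₁ → 0 < d → d ≤ 1 / 12 →
    ∃ k₀ : ℕ, ∀ k : ℕ, k₀ ≤ k →
    ∀ (G : Type) [AddCommGroup G] [Fintype G] (m : ℕ), m ≤ k → (k : ℝ) ≤ 2 * m →
    (∀ p : ℕ, p.Prime → p ∣ Fintype.card G → k ≤ p) →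
    (Fintype.card G : ℝ) * (1 - 2 / (4 : ℕ)) ^ m ≤ Real.exp (-c * k) →
    ∀ T : ℝ, (k : ℝ) ^ C₁ ≤ T → T ≤ (k : ℝ) ^ C₀ →
    ((univ.filter fun y : Fin m → G =>
      MinC' ((k : ℝ) ^ (1 - d)) ((k : ℝ) ^ (-(3 / 2) : ℝ)) y ∧ T ≤ gZ 4 y).card : ℝ) ≤
      (Fintype.card G : ℝ) ^ m * ((k : ℝ) ^ (-(C₁ / 5) + 1 / 10) / T) ^ m

/-- two bits as one of four seeds -/
def eps : Bool × Bool ≃ Fin 4 where
  toFun b := if b.1 then (if b.2 then 3 else 0) else (if b.2 then 1 else 2)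
  invFun a := if a = 0 then (true, false) else if a = 1 then (false, true) else
    if a = 2 then (false, false) else (true, true)
  left_inv := by decide
  right_inv := by decide

lemma stL_eps : ∀ b : Bool × Bool, stL 1 (eps b) = M67.xi b := by decide

lemma Zp_eq {m : ℕ} {G : Type} [AddCommGroup G] [Fintype G] (y : Fin m → G) :
    LemM836.Zp M67.xi y = gZ 4 y := by
  classical
  have h := prL_zero_eq (L := 1) (M := 4) (by norm_num) (by norm_num) y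
  have h1 : gZ 4 y = ∑ ψ : AddChar G ℂ, ∏ e, cfL 1 4 (ψ (y e)) := by
    unfold gZ gP
    refine sum_congr rfl fun ψ _ => prod_congr rfl fun e _ => ?_
    unfold cf cfL
    norm_num
  rw [h1, ← h]
  unfold LemM836.Zp prL LemM836.cnt
  have hc : ((univ : Finset (Fin m → Bool × Bool)).filter
      fun x => LemM836.dotp M67.xi x y = 0).card =
      (univ.filter (fun ω : Fin m → Fin 4 => gwL 1 ω y = 0)).card := by
    refine Finset.card_equiv ((Equiv.refl (Fin m)).arrowCongr eps) fun x => ?_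
    rw [mem_filter, mem_filter]
    have e1 : gwL 1 (((Equiv.refl (Fin m)).arrowCongr eps) x) y = LemM836.dotp M67.xi x y := by
      unfold gwL LemM836.dotp
      refine sum_congr rfl fun c _ => ?_
      have : ((Equiv.refl (Fin m)).arrowCongr eps) x c = eps (x c) := rfl
      rw [this, stL_eps]
    rw [e1]
    simp
  rw [Nat.card_eq_fintype_card, Fintype.card_prod, Fintype.card_bool, Fintype.card_fin]
  rw [mul_div_assoc]
  congr 2
  · convert congrArg (Nat.cast : ℕ → ℝ) hc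

lemma Zp_nonneg {m : ℕ} {G : Type} [AddCommGroup G] (y : Fin m → G) :
    0 ≤ LemM836.Zp M67.xi y := by
  unfold LemM836.Zp
  positivity

lemma Zp_le {m : ℕ} {G : Type} [AddCommGroup G] (y : Fin m → G) :
    LemM836.Zp M67.xi y ≤ Nat.card G := by
  classical
  unfold LemM836.Zp LemM836.cnt
  have h1 : (((univ : Finset (Fin m → Bool × Bool)).filter
      fun x => LemM836.dotp M67.xi x y = 0).card : ℝ) ≤ (Fintype.card (Bool × Bool) : ℝ) ^ m := by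
    have h := Finset.card_le_univ ((univ : Finset (Fin m → Bool × Bool)).filter
      fun x => LemM836.dotp M67.xi x y = 0)
    rw [Fintype.card_fun, Fintype.card_fin] at h
    exact_mod_cast h
  rw [div_le_iff₀ (by positivity)]
  refine mul_le_mul_of_nonneg_left ?_ (by positivity)
  convert h1

lemma xi_abs : ∀ b : Bool × Bool, |M67.xi b| ≤ 1 := by decide

lemma prime_mem {P : Finset ℕ} (hP : ∀ p ∈ P, p.Prime) (q : ℕ) (hq : q.Prime)
    (h : q ∣ ∏ p ∈ P, p) : q ∈ P := by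
  obtain ⟨p, hp, hqp⟩ := (Prime.dvd_finsetProd_iff hq.prime _).1 h
  rw [(Nat.prime_dvd_prime_iff_eq hq (hP p hp)).1 hqp]
  exact hp

lemma prime_dvd_of_card {G : Type} [AddCommGroup G] [Fintype G] (N : ℕ) (hN : ∀ g : G, N • g = 0)
    (p : ℕ) (hp : p.Prime) (h : p ∣ Fintype.card G) : p ∣ N := by
  have := Fact.mk hp
  obtain ⟨g, hg⟩ := exists_prime_addOrderOf_dvd_card p h
  rw [← hg]
  exact addOrderOf_dvd_of_nsmul_eq_zero (hN g)

/-- numerical facts for large `k` -/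
lemma nums (B δ : ℝ) (hB : 1 ≤ B) (hδ : 0 < δ) (hδ1 : δ ≤ 1 / 100) : ∃ k₀ : ℕ, ∀ k ≥ k₀,
    3 ≤ k ∧ 3 * (k : ℝ) ^ (-(1 / 2) + δ) ≤ 1 ∧ 3 * (k : ℝ) ^ (22 : ℝ) + 1 ≤ (2 : ℝ) ^ k ∧
      B + 24 ≤ k := by
  have h1 : ∀ᶠ k : ℕ in Filter.atTop, (3 : ℝ) ≤ (k : ℝ) ^ (1 / 2 - δ) :=
    ((tendsto_rpow_atTop (by linarith)).comp tendsto_natCast_atTop_atTop).eventually_ge_atTop 3
  have h2 : ∀ᶠ k : ℕ in Filter.atTop, 3 * (k : ℝ) ^ (22 : ℝ) + 1 ≤ (2 : ℝ) ^ k := by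
    have h3 : Filter.Tendsto (fun k : ℕ => (k : ℝ) ^ 22 / (2 : ℝ) ^ k) Filter.atTop (nhds 0) :=
      tendsto_pow_const_div_const_pow_of_one_lt 22 (by norm_num)
    have h4 := h3.eventually (gt_mem_nhds (show (0 : ℝ) < 1 / 4 by norm_num))
    filter_upwards [h4, Filter.eventually_ge_atTop 1] with k hk hk1
    rw [div_lt_iff₀ (by positivity)] at hk
    have hk1' : (1 : ℝ) ≤ k := by exact_mod_cast hk1
    have h5 : (1 : ℝ) ≤ (k : ℝ) ^ 22 := one_le_pow₀ hk1'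
    have h6 : (k : ℝ) ^ (22 : ℝ) = (k : ℝ) ^ 22 := by
      rw [← Real.rpow_natCast]; norm_num
    rw [h6]
    linarith
  have h3 : ∀ᶠ k : ℕ in Filter.atTop, B + 24 ≤ (k : ℝ) :=
    tendsto_natCast_atTop_atTop.eventually_ge_atTop _
  obtain ⟨k₀, hk₀⟩ := Filter.eventually_atTop.1
    (h1.and (h2.and (h3.and (Filter.eventually_ge_atTop 3))))
  refine ⟨k₀, fun k hk => ?_⟩
  obtain ⟨a1, a2, a3, a4⟩ := hk₀ k hk
  refine ⟨a4, ?_, a2, a3⟩
  have hk0 : (0 : ℝ) < k := by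
    have : 0 < k := by omega
    exact_mod_cast this
  have : (k : ℝ) ^ (-(1 / 2) + δ) = ((k : ℝ) ^ (1 / 2 - δ))⁻¹ := by
    rw [← Real.rpow_neg hk0.le]
    congr 1
    ring
  rw [this, ← div_eq_mul_inv, div_le_one (by positivity)]
  exact a1

/-- size of the group against the number of columns -/
lemma size_ok {k m : ℕ} (hm : 99 * k ≤ 100 * m) {g N : ℝ} (hN0 : 0 ≤ N) (hg : g ≤ N ^ 6)
    (hN : N ≤ (2 : ℝ) ^ ((1 / 8 : ℝ) * k)) :
    g * (1 / 2) ^ m ≤ Real.exp (-(1 / 10) * k) := by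
  have hm' : (99 : ℝ) * k ≤ 100 * m := by exact_mod_cast hm
  have h1 : N ^ 6 ≤ (2 : ℝ) ^ ((3 / 4 : ℝ) * k) := by
    calc N ^ 6 ≤ ((2 : ℝ) ^ ((1 / 8 : ℝ) * k)) ^ 6 := pow_le_pow_left₀ hN0 hN 6
      _ = (2 : ℝ) ^ ((3 / 4 : ℝ) * k) := by
          rw [← Real.rpow_natCast, ← Real.rpow_mul (by norm_num)]
          congr 1
          push_cast
          ring
  have h2 : ((1 : ℝ) / 2) ^ m = (2 : ℝ) ^ (-(m : ℝ)) := by
    rw [Real.rpow_neg (by norm_num), Real.rpow_natCast, one_div, inv_pow]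
  calc g * (1 / 2) ^ m ≤ (2 : ℝ) ^ ((3 / 4 : ℝ) * k) * (2 : ℝ) ^ (-(m : ℝ)) := by
        rw [h2]
        exact mul_le_mul_of_nonneg_right (hg.trans h1) (by positivity)
    _ = (2 : ℝ) ^ ((3 / 4 : ℝ) * k - m) := by
        rw [← Real.rpow_add (by norm_num)]
        congr 1
    _ ≤ (2 : ℝ) ^ (-(24 / 100 : ℝ) * k) := by
        apply Real.rpow_le_rpow_of_exponent_le (by norm_num)
        linarith
    _ ≤ Real.exp (-(1 / 10) * k) := by
        rw [Real.rpow_def_of_pos (by norm_num)]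
        apply Real.exp_le_exp.2
        have h3 := Real.log_two_gt_d9
        have h4 : (0 : ℝ) ≤ k := by positivity
        nlinarith

/-- last numerical step: the big part -/
lemma big_num {k m : ℕ} (B : ℝ) (hB : 1 ≤ B) (hk3 : 3 ≤ k) (hmk : m ≤ k) (hm : 99 * k ≤ 100 * m)
    (hBk : B + 24 ≤ k) :
    ((m : ℝ) ^ m) ^ 3 * ((3 * (k : ℝ) ^ (-(22 / 5) + 1 / 10 : ℝ)) ^ m *
      ((k : ℝ) ^ (B + 24) + 1)) ≤ (2 : ℝ) ^ (2 * k + 1) := by
  have hk0 : (0 : ℝ) < k := by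
    have : 0 < k := by omega
    exact_mod_cast this
  have hk1 : (1 : ℝ) ≤ k := by
    have : 1 ≤ k := by omega
    exact_mod_cast this
  have hm' : (99 : ℝ) * k ≤ 100 * m := by exact_mod_cast hm
  have hmk' : (m : ℝ) ≤ k := by exact_mod_cast hmk
  have h1 : ((m : ℝ) ^ m) ^ 3 ≤ (k : ℝ) ^ (3 * (m : ℝ)) := by
    calc ((m : ℝ) ^ m) ^ 3 ≤ ((k : ℝ) ^ m) ^ 3 := by gcongr
      _ = (k : ℝ) ^ (3 * (m : ℝ)) := by
          rw [← Real.rpow_natCast, ← Real.rpow_natCast, ← Real.rpow_mul hk0.le]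
          congr 1
          push_cast
          ring
  have h2 : (3 * (k : ℝ) ^ (-(22 / 5) + 1 / 10 : ℝ)) ^ m =
      (3 : ℝ) ^ m * (k : ℝ) ^ ((-(43 / 10)) * (m : ℝ)) := by
    rw [mul_pow, ← Real.rpow_natCast ((k : ℝ) ^ (-(22 / 5) + 1 / 10 : ℝ)) m, ← Real.rpow_mul hk0.le]
    norm_num
  have h3 : (k : ℝ) ^ (B + 24) + 1 ≤ 2 * (k : ℝ) ^ (B + 24) := by
    have : 1 ≤ (k : ℝ) ^ (B + 24) := Real.one_le_rpow hk1 (by linarith)
    linarith
  have h4 : (k : ℝ) ^ (3 * (m : ℝ)) * ((k : ℝ) ^ ((-(43 / 10)) * (m : ℝ)) * (k : ℝ) ^ (B + 24)) ≤ 1 := by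
    rw [← Real.rpow_add hk0, ← Real.rpow_add hk0]
    apply Real.rpow_le_one_of_one_le_of_nonpos hk1
    nlinarith
  have h5 : (3 : ℝ) ^ m ≤ (2 : ℝ) ^ (2 * k) := by
    calc (3 : ℝ) ^ m ≤ 4 ^ m := by gcongr; norm_num
      _ ≤ 4 ^ k := pow_le_pow_right₀ (by norm_num) hmk
      _ = (2 : ℝ) ^ (2 * k) := by rw [pow_mul]; norm_num
  calc ((m : ℝ) ^ m) ^ 3 * ((3 * (k : ℝ) ^ (-(22 / 5) + 1 / 10 : ℝ)) ^ m * ((k : ℝ) ^ (B + 24) + 1))
      ≤ (k : ℝ) ^ (3 * (m : ℝ)) * (((3 : ℝ) ^ m * (k : ℝ) ^ ((-(43 / 10)) * (m : ℝ))) *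
          (2 * (k : ℝ) ^ (B + 24))) := by
        rw [h2]
        gcongr
    _ = (3 : ℝ) ^ m * 2 * ((k : ℝ) ^ (3 * (m : ℝ)) *
          ((k : ℝ) ^ ((-(43 / 10)) * (m : ℝ)) * (k : ℝ) ^ (B + 24))) := by ring
    _ ≤ (2 : ℝ) ^ (2 * k) * 2 * 1 := by gcongr
    _ = (2 : ℝ) ^ (2 * k + 1) := by rw [pow_succ]; ring

/-- spread and without short characters -/
def PPd (s σ : ℝ) (G : Type) [AddCommGroup G] {m : ℕ} (y : Fin m → G) : Prop :=
  NonSp s y ∧ MinC' s σ y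

open scoped Classical in
/-- **LEMMA M** -/
theorem mom_of (hCount : CountProp) (hMC : MCProp) : M67.StmtMom 3 (1 / 8) := by
  intro δ b₁ B hδ hδ1 hb1 hbB
  have hB1 : 1 ≤ B := hb1.trans hbB
  obtain ⟨k₁, h₁⟩ := hCount δ (1 / 10) (B + 24) hδ (by linarith) (by norm_num) (by linarith)
  obtain ⟨k₂, h₂⟩ := hMC (1 / 10) (B + 24) 22 (δ / 4) (by norm_num) (by linarith) (by norm_num)
    (by linarith) (by linarith)
  obtain ⟨k₃, h₃⟩ := MinM67.minC (d := δ / 4) (by linarith) (by linarith)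
  obtain ⟨k₄, h₄⟩ := nums B δ hB1 hδ hδ1
  refine ⟨13, max (max k₁ k₂) (max k₃ k₄), fun k hk m hmk hm99 P hP => ?_⟩
  have hk₁ : k₁ ≤ k := le_trans (le_trans (le_max_left _ _) (le_max_left _ _)) hk
  have hk₂ : k₂ ≤ k := le_trans (le_trans (le_max_right _ _) (le_max_left _ _)) hk
  have hk₃ : k₃ ≤ k := le_trans (le_trans (le_max_left _ _) (le_max_right _ _)) hk
  have hk₄ : k₄ ≤ k := le_trans (le_trans (le_max_right _ _) (le_max_right _ _)) hk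
  obtain ⟨hk3, hX, hT2, hBk⟩ := h₄ k hk₄
  have hk0 : (0 : ℝ) < k := by
    have : 0 < k := by omega
    exact_mod_cast this
  have hk1 : (1 : ℝ) ≤ k := by
    have : 1 ≤ k := by omega
    exact_mod_cast this
  have hk3' : (3 : ℝ) ≤ k := by exact_mod_cast hk3
  have hm' : (99 : ℝ) * k ≤ 100 * m := by exact_mod_cast hm99
  have hkm : (k : ℝ) ≤ 2 * m := by linarith
  set N : ℕ := ∏ p ∈ P, p with hN
  have hN0 : N ≠ 0 := Finset.prod_ne_zero_iff.2 fun p hp => (hP.pr p hp).ne_zero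
  have : NeZero N := ⟨hN0⟩
  have hNr : (N : ℝ) ≤ (2 : ℝ) ^ ((1 / 8 : ℝ) * k) := by
    have := hP.size
    rw [hN]
    push_cast
    exact this
  have hN1 : (1 : ℝ) ≤ N := by
    have : 1 ≤ N := Nat.one_le_iff_ne_zero.2 hN0
    exact_mod_cast this
  -- parameters
  set s : ℝ := (k : ℝ) ^ (1 - δ / 4) with hs
  set σ : ℝ := (k : ℝ) ^ (-(3 / 2) : ℝ) with hσ
  set T : ℝ := 3 * (k : ℝ) ^ (22 : ℝ) with hT
  set X : ℝ := (k : ℝ) ^ (-(1 / 2) + δ) with hXdef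
  set X2 : ℝ := (k : ℝ) ^ (-(22 / 5) + 1 / 10 : ℝ) with hX2
  have hk22 : 1 ≤ (k : ℝ) ^ (22 : ℝ) := Real.one_le_rpow hk1 (by norm_num)
  have hT1 : 1 ≤ T := by rw [hT]; linarith
  have hTC : T ≤ (k : ℝ) ^ (B + 24) := by
    calc T ≤ (k : ℝ) * (k : ℝ) ^ (22 : ℝ) := by rw [hT]; gcongr
      _ = (k : ℝ) ^ (23 : ℝ) := by
          rw [← Real.rpow_one_add' hk0.le (by norm_num)]
          norm_num
      _ ≤ (k : ℝ) ^ (B + 24) := Real.rpow_le_rpow_of_exponent_le hk1 (by linarith)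
  have hQT : (k : ℝ) ^ B * T ≤ (k : ℝ) ^ (B + 24) := by
    calc (k : ℝ) ^ B * T ≤ (k : ℝ) ^ B * ((k : ℝ) * (k : ℝ) ^ (22 : ℝ)) := by
          rw [hT]; gcongr
      _ = (k : ℝ) ^ (B + 23) := by
          rw [← Real.rpow_one_add' hk0.le (by norm_num), ← Real.rpow_add hk0]
          congr 1
          ring
      _ ≤ (k : ℝ) ^ (B + 24) := Real.rpow_le_rpow_of_exponent_le hk1 (by linarith)
  set YY : Finset (Fin k → Fin m → Bool × Bool) := univ.filter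
    (fun ω => M67.rkQ (M67.mt M67.xi ω) = m ∧ ¬ M67.Sp P s (M67.mt M67.xi ω)) with hYY
  -- groups killed by `N`
  have hprime : ∀ (G : Type) [AddCommGroup G] [Fintype G], (∀ g : G, N • g = 0) →
      ∀ p : ℕ, p.Prime → p ∣ Fintype.card G → k ≤ p := by
    intro G _ _ hG p hp hpG
    have h1 := prime_dvd_of_card N hG p hp hpG
    have h2 := prime_mem hP.pr p hp h1
    have h3 := hP.lo p h2
    have h4 : (k : ℝ) ≤ (p : ℝ) := by
      calc (k : ℝ) = (k : ℝ) ^ (1 : ℝ) := (Real.rpow_one _).symm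
        _ ≤ (k : ℝ) ^ b₁ := Real.rpow_le_rpow_of_exponent_le hk1 hb1
        _ ≤ p := h3
    exact_mod_cast h4
  have hsize : ∀ (G : Type) [AddCommGroup G] [Fintype G], Nat.card G ≤ N ^ 6 →
      (Fintype.card G : ℝ) * (1 / 2) ^ m ≤ Real.exp (-(1 / 10) * k) := by
    intro G _ _ hG
    refine size_ok hm99 (by positivity) ?_ hNr
    rw [Nat.card_eq_fintype_card] at hG
    exact_mod_cast hG
  have hcore := P4L.core (Om := Bool × Bool) (k := k) (m := m) M67.xi N 6 T ((k : ℝ) ^ B)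
    (((m : ℝ) ^ m) ^ 3) (2 ^ k + (3 * X) ^ m * (T + 1)) ((3 * X2) ^ m * ((k : ℝ) ^ (B + 24) + 1))
    hT1 (by positivity) (by positivity) (by positivity) (by simp)
    (fun p hp hpN => hP.hi p (prime_mem hP.pr p hp hpN))
    (fun (G : Type) [AddCommGroup G] (y : Fin m → G) => PPd s σ G y) YY
    ?h1 ?hker ?hlow ?hbig
  case h1 =>
    intro Y hY G _ _ hG y hy hker
    rw [hYY, mem_filter] at hY
    obtain ⟨-, hr, hSp⟩ := hY
    have hker' : ∀ i, ∑ j, M67.mt M67.xi Y i j • y j = 0 := hker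
    have : Fintype G := Fintype.ofFinite G
    refine ⟨MomGlue539.spread hN0 P (fun q hq h => prime_mem hP.pr q hq h) s (M67.mt M67.xi Y)
      (fun h => hSp (Or.inl h)) hG y hy hker', ?_⟩
    intro ψ hψ F hF
    refine h₃ k hk₃ m hmk (M67.mt M67.xi Y) (fun i c => xi_abs _) hr (fun h => hSp (Or.inr h)) G y
      hker' ψ ?_ F hF
    by_contra hcon
    push Not at hcon
    exact hψ (MomGlue539.eq_one_gen y hy ψ hcon)
  case hker =>
    intro Y hY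
    rw [hYY, mem_filter] at hY
    obtain ⟨-, hr, hSp⟩ := hY
    have h5 := MomGlue539.W_pow (M67.mt M67.xi Y) P hP.pr 3
    have h6 := MomGlue539.W_pow_le (M67.mt M67.xi Y) P hP.pr (fun i c => xi_abs _) hr 3
    have h7 := P4L.ker_pow M67.xi N 6 Y
    rw [h5] at h6
    refine le_trans (le_of_eq ?_) h6
    rw [← Nat.cast_pow, h7]
    rfl
  case hlow =>
    intro G _ _ hG hcG
    have hgr : (Nat.card G : ℝ) = (Fintype.card G : ℝ) := by rw [Nat.card_eq_fintype_card]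
    have hg1 : (1 : ℝ) ≤ (Nat.card G : ℝ) := by
      have : 1 ≤ Nat.card G := Nat.card_pos
      exact_mod_cast this
    refine P4S.low _ (LemM836.Zp M67.xi) (Nat.card G : ℝ) X T k m hmk (fun y => Zp_nonneg y) hg1
      (by positivity) (by linarith) ?_ ?_ (fun y _ => Zp_le y) ?_
    · rw [hgr]
      have := Finset.card_le_univ ((univ : Finset (Fin m → G)).filter
        (fun y => PPd s σ G y ∧ LemM836.Zp M67.xi y ≤ T))
      rw [Fintype.card_fun, Fintype.card_fin] at this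
      exact_mod_cast this
    · intro y hy
      have := (mem_filter.1 hy).2.2
      linarith
    · intro T' hT' hT'b
      have h8 := h₁ k hk₁ G m hmk hkm (hprime G hG) (hsize G hcG) T' (by
        refine le_trans ?_ hT'
        rw [div_le_one (by positivity)]
        exact one_le_pow₀ hk1) (hT'b.trans hTC)
      rw [max_eq_right hT'] at h8
      rw [hgr]
      refine le_trans ?_ h8
      refine Nat.cast_le.2 (card_le_card fun y hy => ?_)
      rw [mem_filter, mem_filter] at hy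
      rw [mem_filter]
      exact ⟨mem_univ _, hy.1.2.1.1, by rw [← Zp_eq]; exact hy.2⟩
  case hbig =>
    intro G _ _ hG hcG
    have hgr : (Nat.card G : ℝ) = (Fintype.card G : ℝ) := by rw [Nat.card_eq_fintype_card]
    have hg1 : (1 : ℝ) ≤ (Nat.card G : ℝ) := by
      have : 1 ≤ Nat.card G := Nat.card_pos
      exact_mod_cast this
    refine P4S.levels _ (LemM836.Zp M67.xi) (Nat.card G : ℝ) X2 ((T - 1) / 2) ((k : ℝ) ^ (B + 24))
      k m hmk (fun y => Zp_nonneg y) hg1 (by positivity) (by rw [hT]; linarith) (by positivity)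
      ?_ ?_ (fun y _ => Zp_le y) ?_
    · intro y hy
      have := (mem_filter.1 hy).2.2.1
      linarith
    · intro y hy
      have := (mem_filter.1 hy).2.2.2
      linarith
    · intro T' hT'a hT'1 hT'b
      have h8 := h₂ k hk₂ G m hmk hkm (hprime G hG) (by
        have h9 := hsize G hcG
        have h10 : (1 : ℝ) - 2 / ((4 : ℕ) : ℝ) = 1 / 2 := by norm_num
        rw [h10]
        exact h9) T' (by
        rw [hT] at hT'a
        linarith) hT'b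
      rw [hgr]
      refine le_trans ?_ h8
      refine Nat.cast_le.2 (card_le_card fun y hy => ?_)
      rw [mem_filter, mem_filter] at hy
      rw [mem_filter]
      refine ⟨mem_univ _, hy.1.2.1.2, ?_⟩
      rw [← Zp_eq]
      linarith [hy.2]
  -- conclusion
  have hW : ∑ ω ∈ YY, M67.W P (M67.mt M67.xi ω) ^ 3 =
      ∑ Y ∈ YY, (Nat.card (P4L.KerG M67.xi (ZMod N) Y) : ℝ) ^ 6 := by
    refine sum_congr rfl fun Y _ => ?_
    rw [MomGlue539.W_pow (M67.mt M67.xi Y) P hP.pr 3, ← Nat.cast_pow, P4L.ker_pow M67.xi N 6 Y]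
    rfl
  rw [hW]
  refine hcore.trans ?_
  have hOm : (Fintype.card (Bool × Bool) : ℝ) = 4 := by
    rw [Fintype.card_prod, Fintype.card_bool]; norm_num
  rw [hOm, mul_comm]
  refine mul_le_mul_of_nonneg_right ?_ (by positivity)
  have hA : 2 ^ k + (3 * X) ^ m * (T + 1) ≤ (2 : ℝ) ^ (k + 1) := by
    have h9 : (3 * X) ^ m ≤ 1 := pow_le_one₀ (by positivity) hX
    have h10 : (3 * X) ^ m * (T + 1) ≤ 1 * (2 : ℝ) ^ k := by
      refine mul_le_mul h9 ?_ (by linarith) (by norm_num)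
      rw [hT]
      exact hT2
    rw [pow_succ]
    linarith
  have hBig := big_num B hB1 hk3 hmk hm99 hBk
  have hN8 : (N : ℝ) ^ 8 ≤ (2 : ℝ) ^ k := by
    calc (N : ℝ) ^ 8 ≤ ((2 : ℝ) ^ ((1 / 8 : ℝ) * k)) ^ 8 := pow_le_pow_left₀ (by positivity) hNr 8
      _ = (2 : ℝ) ^ k := by
          rw [← Real.rpow_natCast, ← Real.rpow_mul (by norm_num), ← Real.rpow_natCast]
          congr 1
          push_cast
          ring
  have hN36 : (N : ℝ) ^ (6 * 6) ≤ (2 : ℝ) ^ (5 * k) := by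
    calc (N : ℝ) ^ (6 * 6) ≤ (N : ℝ) ^ (8 * 5) := pow_le_pow_right₀ hN1 (by norm_num)
      _ = ((N : ℝ) ^ 8) ^ 5 := pow_mul _ _ _
      _ ≤ ((2 : ℝ) ^ k) ^ 5 := pow_le_pow_left₀ (by positivity) hN8 5
      _ = (2 : ℝ) ^ (5 * k) := by rw [← pow_mul, mul_comm]
  calc (N : ℝ) ^ (6 * 6) * (2 ^ k + (3 * X) ^ m * (T + 1)) + ((m : ℝ) ^ m) ^ 3 *
        ((N : ℝ) ^ (6 * 6) * (N : ℝ) ^ (6 * 6)) * ((3 * X2) ^ m * ((k : ℝ) ^ (B + 24) + 1))
      = (N : ℝ) ^ (6 * 6) * (2 ^ k + (3 * X) ^ m * (T + 1)) +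
        ((N : ℝ) ^ (6 * 6) * (N : ℝ) ^ (6 * 6)) * (((m : ℝ) ^ m) ^ 3 *
          ((3 * X2) ^ m * ((k : ℝ) ^ (B + 24) + 1))) := by ring
    _ ≤ (2 : ℝ) ^ (5 * k) * (2 : ℝ) ^ (k + 1) +
        ((2 : ℝ) ^ (5 * k) * (2 : ℝ) ^ (5 * k)) * (2 : ℝ) ^ (2 * k + 1) := by gcongr
    _ = (2 : ℝ) ^ (6 * k + 1) + (2 : ℝ) ^ (12 * k + 1) := by
        rw [← pow_add, ← pow_add, ← pow_add]
        congr 2 <;> ring
    _ ≤ (2 : ℝ) ^ (12 * k + 1) + (2 : ℝ) ^ (12 * k + 1) := by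
        have : (2 : ℝ) ^ (6 * k + 1) ≤ (2 : ℝ) ^ (12 * k + 1) :=
          pow_le_pow_right₀ (by norm_num) (by omega)
        linarith
    _ = (2 : ℝ) ^ (12 * k + 2) := by rw [pow_succ (2 : ℝ) (12 * k + 1)]; ring
    _ ≤ (2 : ℝ) ^ (13 * k) := pow_le_pow_right₀ (by norm_num) (by omega)
    _ = (2 : ℝ) ^ ((13 : ℝ) * k) := by
        rw [← Real.rpow_natCast]
        push_cast
        rfl

end Vale.Agent.P160.Half.Mom310
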