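import Vale.Agent.P160.Half.LemM203
import Vale.Agent.P160.Half.LemMI2
import Vale.Agent.P160.Half.MC986
import Vale.Agent.P160.Half.FlatZ4
import Vale.Agent.P160.Half.HadW136
import Vale.Agent.P160.Half.M67Stmt

/-! # P160, half rate, M67 (4): `StmtMom 3 (1/8)` (LEMMA M), second copy. -/

set_option linter.unusedSectionVars false

namespace Vale.Agent.P160.Half.M67.Mom332

open Finset Vale.Agent.P160 Vale.Agent.P160.Half Vale.Agent.P160.Half.Flat
open Vale.Agent.P160.Half.LemM203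

/-- two fair bits as a seed of the lazy law `cf 4` -/
def sd : Bool × Bool ≃ Fin 4 where
  toFun b := if b = (true, false) then 0 else if b = (false, true) then 1 else
    if b = (false, false) then 2 else 3
  invFun a := if a = 0 then (true, false) else if a = 1 then (false, true) else
    if a = 2 then (false, false) else (true, true)
  left_inv := by decide
  right_inv := by decide

theorem xi_sd (b : Bool × Bool) : xi b = st (sd b) := by
  revert b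
  decide

theorem dom_xi : DomM 4 xi := by
  intro G _ _ _ a y
  have h1 : (univ.filter fun x : Fin a → Bool × Bool => ∑ c, xi (x c) • y c = 0).card =
      (univ.filter fun ω : Fin a → Fin 4 => gwalk ω y = 0).card := by
    refine card_bij (fun x _ => fun c => sd (x c)) ?_ ?_ ?_
    · intro x hx
      simp only [mem_filter, mem_univ, true_and] at hx ⊢
      simpa [gwalk, xi_sd] using hx
    · intro x _ x' _ h
      funext c
      exact sd.injective (congrFun h c)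
    · intro ω hω
      refine ⟨fun c => sd.symm (ω c), ?_, ?_⟩
      · simp only [mem_filter, mem_univ, true_and] at hω ⊢
        simpa [gwalk, xi_sd] using hω
      · funext c
        simp
  have h3 : gpr 4 y 0 * 4 ^ a = ((univ.filter fun ω : Fin a → Fin 4 => gwalk ω y = 0).card : ℝ) := by
    unfold gpr
    rw [Fintype.card_fin]
    field_simp
    norm_num
  have hc : (Fintype.card (Bool × Bool) : ℝ) = 4 := by
    have : Fintype.card (Bool × Bool) = 4 := by decide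
    rw [this]
    norm_num
  rw [h1, ← h3, hc, gZM_eq (by norm_num : 2 ≤ 4)]
  exact le_of_eq (by ring)

/-! ### one group -/

section one

variable {G : Type} [AddCommGroup G] [Fintype G]

open scoped Classical in
theorem low (δ : ℝ) (hδ : 0 < δ) (hδ1 : δ ≤ 1 / 100) : ∃ k₀ : ℕ, ∀ k : ℕ, k₀ ≤ k →
    ∀ (G : Type) [AddCommGroup G] [Fintype G] (m : ℕ), m ≤ k → (k : ℝ) ≤ 2 * m →
    (∀ p : ℕ, p.Prime → p ∣ Fintype.card G → k ≤ p) →
    (Fintype.card G : ℝ) * (1 / 2) ^ m ≤ Real.exp (-(1 / 10) * k) →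
    ∑ w ∈ univ.filter (fun w : Fin m → G => NonSp ((k : ℝ) ^ (1 - δ / 4)) w ∧
      gZ 4 w ≤ (k : ℝ) ^ (20 : ℝ)), gZ 4 w ^ k ≤
      (Fintype.card G : ℝ) ^ k * (3 + (20 * k : ℕ) * (2 * (2 * (k : ℝ) ^ (-(1 / 2) + δ))) ^ m) := by
  obtain ⟨k₁, h₁⟩ := countG4 δ (1 / 10) 20 hδ (by linarith) (by norm_num) (by norm_num)
  refine ⟨max k₁ 2, fun k hk G _ _ m hmk hkm hp hG => ?_⟩
  have hk1 : k₁ ≤ k := (le_max_left _ _).trans hk
  have hk2 : 2 ≤ k := (le_max_right _ _).trans hk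
  have hkr : (2 : ℝ) ≤ k := by exact_mod_cast hk2
  have hk0 : (0 : ℝ) < k := by linarith
  have key := h₁ k hk1 G m hmk hkm hp hG
  set g : ℝ := (Fintype.card G : ℝ) with hg
  have hg1 : 1 ≤ g := by rw [hg]; exact_mod_cast Fintype.card_pos
  set s : ℝ := (k : ℝ) ^ (1 - δ / 4) with hs
  set X : ℝ := (k : ℝ) ^ (-(1 / 2) + δ) with hX
  have hX0 : 0 < X := Real.rpow_pos_of_pos hk0 _
  have hZ0 : ∀ w : Fin m → G, 0 ≤ gZ 4 w := fun w => gZM_nonneg (by norm_num) w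
  set F := univ.filter (fun w : Fin m → G => NonSp s w ∧ gZ 4 w ≤ (k : ℝ) ^ (20 : ℝ)) with hF
  set F1 := univ.filter (fun w : Fin m → G => gZ 4 w < 1 + 1 / (k : ℝ)) with hF1
  set F2 := univ.filter (fun w : Fin m → G => NonSp s w ∧ 1 + 1 / (k : ℝ) ≤ gZ 4 w ∧
    gZ 4 w ≤ (k : ℝ) ^ (20 : ℝ)) with hF2
  have hsub : F ⊆ F1 ∪ F2 := by
    intro w hw
    simp only [hF, mem_filter, mem_univ, true_and] at hw
    by_cases h : gZ 4 w < 1 + 1 / (k : ℝ)
    · exact mem_union_left _ (by simp only [hF1, mem_filter, mem_univ, true_and]; exact h)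
    · exact mem_union_right _ (by
        simp only [hF2, mem_filter, mem_univ, true_and]
        exact ⟨hw.1, not_lt.1 h, hw.2⟩)
  have h1 : ∑ w ∈ F1, gZ 4 w ^ k ≤ g ^ k * 3 := by
    have hexp : (1 + 1 / (k : ℝ)) ^ k ≤ 3 := by
      have h2 : 1 + 1 / (k : ℝ) ≤ Real.exp (1 / k) := by
        have := Real.add_one_le_exp (1 / (k : ℝ))
        linarith
      calc (1 + 1 / (k : ℝ)) ^ k ≤ Real.exp (1 / k) ^ k :=
            pow_le_pow_left₀ (by positivity) h2 k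
        _ = Real.exp 1 := by
            rw [← Real.exp_nat_mul]
            congr 1
            field_simp
        _ ≤ 3 := by linarith [Real.exp_one_lt_d9]
    calc ∑ w ∈ F1, gZ 4 w ^ k ≤ ∑ _w ∈ F1, (3 : ℝ) := by
          refine sum_le_sum fun w hw => ?_
          simp only [hF1, mem_filter, mem_univ, true_and] at hw
          exact (pow_le_pow_left₀ (hZ0 w) hw.le k).trans hexp
      _ = F1.card * 3 := by rw [sum_const, nsmul_eq_mul]
      _ ≤ g ^ m * 3 := by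
          refine mul_le_mul_of_nonneg_right ?_ (by norm_num)
          have h3 : F1.card ≤ (Fintype.card G) ^ m := by
            refine (card_le_univ _).trans ?_
            simp
          rw [hg]
          exact_mod_cast h3
      _ ≤ g ^ k * 3 := mul_le_mul_of_nonneg_right (pow_le_pow_right₀ hg1 hmk) (by norm_num)
  have h2 : ∑ w ∈ F2, gZ 4 w ^ k ≤ g ^ k * ((20 * k : ℕ) * (2 * (2 * X)) ^ m) := by
    refine dyad (fun w : Fin m → G => gZ 4 w) hZ0 g (by linarith)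
      (fun w => gZM_le_card (by norm_num) w) m k hmk (2 * X) (1 + 1 / (k : ℝ)) (by positivity)
      (20 * k) F2 ?_ ?_
    · intro i _ D hD hDi
      by_cases hbig : (k : ℝ) ^ (20 : ℝ) < (1 + 1 / (k : ℝ)) * 2 ^ i
      · have : D = ∅ := by
          refine eq_empty_of_forall_notMem fun w hw => ?_
          have h3 := hDi w hw
          have h4 := hD hw
          simp only [hF2, mem_filter, mem_univ, true_and] at h4
          linarith [h4.2.2]
        rw [this, card_empty, Nat.cast_zero]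
        positivity
      · push Not at hbig
        have h2i : (1 : ℝ) ≤ 2 ^ i := one_le_pow₀ (by norm_num)
        have hkk : 0 < 1 / (k : ℝ) := by positivity
        have h3 := key ((1 + 1 / (k : ℝ)) * 2 ^ i - 1) (by
          have h4 : 1 / (k : ℝ) ^ 3 ≤ 1 / k := by
            apply one_div_le_one_div_of_le hk0
            nlinarith [sq_nonneg ((k : ℝ) - 1)]
          nlinarith) (by linarith)
        have h4 : (D.card : ℝ) ≤ ((univ.filter fun y : Fin m → G =>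
            NonSp s y ∧ 1 + ((1 + 1 / (k : ℝ)) * 2 ^ i - 1) ≤ gZ 4 y).card : ℝ) := by
          refine Nat.cast_le.2 (card_le_card fun w hw => ?_)
          have h5 := hDi w hw
          have h6 := hD hw
          simp only [hF2, mem_filter, mem_univ, true_and] at h6 ⊢
          exact ⟨h6.1, by linarith⟩
        refine h4.trans (h3.trans ?_)
        refine mul_le_mul_of_nonneg_left (pow_le_pow_left₀ (by positivity) ?_ m) (by positivity)
        rw [div_le_div_iff₀ (by positivity) (by positivity)]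
        have h5 : (1 + 1 / (k : ℝ)) * 2 ^ i ≤ 2 * max 1 ((1 + 1 / (k : ℝ)) * 2 ^ i - 1) := by
          have := le_max_left 1 ((1 + 1 / (k : ℝ)) * 2 ^ i - 1)
          have := le_max_right 1 ((1 + 1 / (k : ℝ)) * 2 ^ i - 1)
          linarith
        calc X * ((1 + 1 / (k : ℝ)) * 2 ^ i) ≤ X * (2 * max 1 ((1 + 1 / (k : ℝ)) * 2 ^ i - 1)) :=
              mul_le_mul_of_nonneg_left h5 hX0.le
          _ = _ := by ring
    · intro w hw
      simp only [hF2, mem_filter, mem_univ, true_and] at hw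
      refine ⟨hw.2.1, lt_of_le_of_lt hw.2.2 ?_⟩
      have h3 : (k : ℝ) ^ (20 : ℝ) < 2 ^ (20 * k) := by
        have h4 : (k : ℝ) < 2 ^ k := by exact_mod_cast Nat.lt_two_pow_self
        have h5 : (k : ℝ) ^ (20 : ℝ) = (k : ℝ) ^ 20 := by
          rw [← Real.rpow_natCast]
          norm_num
        rw [h5, mul_comm 20 k, pow_mul]
        exact pow_lt_pow_left₀ h4 hk0.le (by norm_num)
      have h4 : 0 < 1 / (k : ℝ) := by positivity
      have h5 : (0 : ℝ) < 2 ^ (20 * k) := by positivity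
      nlinarith
  have hnn : ∀ w : Fin m → G, 0 ≤ gZ 4 w ^ k := fun w => pow_nonneg (hZ0 w) k
  calc ∑ w ∈ F, gZ 4 w ^ k ≤ ∑ w ∈ F1 ∪ F2, gZ 4 w ^ k :=
        sum_le_sum_of_subset_of_nonneg hsub fun w _ _ => hnn w
    _ ≤ ∑ w ∈ F1, gZ 4 w ^ k + ∑ w ∈ F2, gZ 4 w ^ k := by
        rw [← sum_union_inter]
        exact le_add_of_nonneg_right (sum_nonneg fun w _ => hnn w)
    _ ≤ g ^ k * 3 + g ^ k * ((20 * k : ℕ) * (2 * (2 * X)) ^ m) := add_le_add h1 h2
    _ = _ := by ring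

open scoped Classical in
theorem big (δ B : ℝ) (hδ : 0 < δ) (hδ1 : δ ≤ 1 / 100) (hB : 1 ≤ B) : ∃ k₀ : ℕ, ∀ k : ℕ, k₀ ≤ k →
    ∀ (G : Type) [AddCommGroup G] [Fintype G] (m : ℕ), m ≤ k → (k : ℝ) ≤ 2 * m →
    (∀ p : ℕ, p.Prime → p ∣ Fintype.card G → k ≤ p) →
    (Fintype.card G : ℝ) * (1 / 2) ^ m ≤ Real.exp (-(1 / 10) * k) →
    ∑ w ∈ univ.filter (fun w : Fin m → G => MC.MinC ((k : ℝ) ^ (1 - δ / 4)) ((k : ℝ) ^ (-(3 / 2) : ℝ)) w ∧
      (k : ℝ) ^ (20 : ℝ) < gZ 4 w ∧ gZ 4 w ≤ (k : ℝ) ^ B * (k : ℝ) ^ (20 : ℝ)), gZ 4 w ^ k ≤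
      (Fintype.card G : ℝ) ^ k * ((k * ⌈B⌉₊ : ℕ) * (2 * (k : ℝ) ^ (-(20 / 5 : ℝ) + 1 / 10)) ^ m) := by
  obtain ⟨k₁, h₁⟩ := MC.mc 4 le_rfl (1 / 10) (B + 20) 20 (δ / 4) (by norm_num) (by linarith)
    (by norm_num) (by linarith) (by linarith)
  refine ⟨max k₁ 2, fun k hk G _ _ m hmk hkm hp hG => ?_⟩
  have hk1 : k₁ ≤ k := (le_max_left _ _).trans hk
  have hk2 : 2 ≤ k := (le_max_right _ _).trans hk
  have hkr : (2 : ℝ) ≤ k := by exact_mod_cast hk2
  have hk0 : (0 : ℝ) < k := by linarith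
  have key := h₁ k hk1 G m hmk hkm hp (by
    convert hG using 3
    norm_num)
  set g : ℝ := (Fintype.card G : ℝ) with hg
  have hg1 : 1 ≤ g := by rw [hg]; exact_mod_cast Fintype.card_pos
  have hZ0 : ∀ w : Fin m → G, 0 ≤ gZ 4 w := fun w => gZM_nonneg (by norm_num) w
  refine dyad (fun w : Fin m → G => gZ 4 w) hZ0 g (by linarith)
    (fun w => gZM_le_card (by norm_num) w) m k hmk _ ((k : ℝ) ^ (20 : ℝ)) (by positivity)
    (k * ⌈B⌉₊) _ ?_ ?_
  · intro i _ D hD hDi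
    have h2i : (1 : ℝ) ≤ 2 ^ i := one_le_pow₀ (by norm_num)
    have hk20 : (0 : ℝ) < (k : ℝ) ^ (20 : ℝ) := by positivity
    by_cases hbig : (k : ℝ) ^ (B + 20) < (k : ℝ) ^ (20 : ℝ) * 2 ^ i
    · have : D = ∅ := by
        refine eq_empty_of_forall_notMem fun w hw => ?_
        have h3 := hDi w hw
        have h4 := hD hw
        simp only [mem_filter, mem_univ, true_and] at h4
        have h5 := h4.2.2
        rw [← Real.rpow_add hk0] at h5
        linarith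
      rw [this, card_empty, Nat.cast_zero]
      positivity
    · push Not at hbig
      have h3 := key ((k : ℝ) ^ (20 : ℝ) * 2 ^ i) (by nlinarith) hbig
      refine le_trans (Nat.cast_le.2 (card_le_card fun w hw => ?_)) h3
      have h5 := hDi w hw
      have h6 := hD hw
      simp only [mem_filter, mem_univ, true_and] at h6 ⊢
      exact ⟨h6.1, h5⟩
  · intro w hw
    simp only [mem_filter, mem_univ, true_and] at hw
    refine ⟨hw.2.1.le, lt_of_le_of_lt hw.2.2 ?_⟩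
    rw [mul_comm]
    refine mul_lt_mul_of_pos_left ?_ (by positivity)
    have h4 : (k : ℝ) < 2 ^ k := by exact_mod_cast Nat.lt_two_pow_self
    have h6 : 1 ≤ ⌈B⌉₊ := Nat.one_le_ceil_iff.2 (by linarith)
    calc (k : ℝ) ^ B ≤ (k : ℝ) ^ ((⌈B⌉₊ : ℕ) : ℝ) :=
          Real.rpow_le_rpow_of_exponent_le (by linarith) (Nat.le_ceil B)
      _ = (k : ℝ) ^ ⌈B⌉₊ := Real.rpow_natCast _ _
      _ < (2 ^ k) ^ ⌈B⌉₊ := pow_lt_pow_left₀ h4 hk0.le (by omega)
      _ = 2 ^ (k * ⌈B⌉₊) := by rw [pow_mul]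

end one


/-! ### the weight -/

theorem finrank_ker (p : ℕ) [Fact p.Prime] {m k : ℕ} (Y : Fin k → Fin m → Bool × Bool) :
    Module.finrank (ZMod p) (Ker xi p Y) = m - rkp p (mt xi Y) := by
  have h1 : Ker xi p Y =
      LinearMap.ker (((mt xi Y).map (Int.cast : ℤ → ZMod p)).mulVecLin) := by
    ext u
    rw [mem_Ker, LinearMap.mem_ker, Matrix.mulVecLin_apply]
    constructor
    · intro h
      funext j
      have := h j
      simpa [Matrix.mulVec, dotProduct, mt, zsmul_eq_mul] using this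
    · intro h j
      have := congrFun h j
      simpa [Matrix.mulVec, dotProduct, mt, zsmul_eq_mul] using this
  rw [h1]
  have h2 := LinearMap.finrank_range_add_finrank_ker
    (((mt xi Y).map (Int.cast : ℤ → ZMod p)).mulVecLin)
  rw [Module.finrank_fin_fun] at h2
  unfold rkp Matrix.rank
  omega

theorem W_pow (P : Finset ℕ) [∀ i : {x // x ∈ P}, Fact (i.1).Prime] {m k : ℕ}
    (Y : Fin k → Fin m → Bool × Bool) :
    W P (mt xi Y) ^ 3 = (Wq xi (fun i : {x // x ∈ P} => i.1) 6 Y : ℝ) := by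
  unfold W Wq
  rw [← prod_pow, ← prod_coe_sort P]
  push_cast
  refine prod_congr rfl fun i _ => ?_
  rw [finrank_ker, ← pow_mul]
  congr 1
  ring

theorem W_le (P : Finset ℕ) (hP : ∀ p ∈ P, p.Prime) {m k : ℕ} (hmk : m ≤ k) (hk : 1 ≤ k)
    (Y : Fin k → Fin m → Bool × Bool) (hr : rkQ (mt xi Y) = m) :
    W P (mt xi Y) ^ 3 ≤ (k : ℝ) ^ (3 * k) := by
  have h1 := HadW136.hadW (mt xi Y) 1 (fun i l => by
    have := xi_abs (Y i l)
    exact_mod_cast this) P hP (fun p => m - rkp p (mt xi Y)) (fun p hp => by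
      have h2 := HadW136.rank_le_rank_rat (mt xi Y) (hP p hp)
      have h3 : ((mt xi Y).map (Int.cast : ℤ → ℚ)).rank = m := hr
      rw [h3] at h2 ⊢
      unfold rkp
      omega)
  have h3 : ((mt xi Y).map (Int.cast : ℤ → ℚ)).rank = m := hr
  rw [h3] at h1
  have h4 : W P (mt xi Y) ≤ (k : ℝ) ^ k := by
    have h5 : W P (mt xi Y) = (((∏ p ∈ P, p ^ (m - rkp p (mt xi Y))) ^ 2 : ℕ) : ℝ) := by
      unfold W
      push_cast
      rw [← prod_pow]
      refine prod_congr rfl fun p _ => ?_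
      rw [← pow_mul, mul_comm]
    rw [h5]
    have h6 : (∏ p ∈ P, p ^ (m - rkp p (mt xi Y))) ^ 2 ≤ k ^ k := by
      refine h1.trans ?_
      simp only [one_pow, one_mul]
      exact (Nat.pow_le_pow_left hmk m).trans (Nat.pow_le_pow_right hk hmk)
    exact_mod_cast h6
  have h7 : 0 ≤ W P (mt xi Y) := by
    unfold W
    positivity
  calc W P (mt xi Y) ^ 3 ≤ ((k : ℝ) ^ k) ^ 3 := pow_le_pow_left₀ h7 h4 3
    _ = _ := by rw [← pow_mul, mul_comm]

/-- the constraints of a good matrix -/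
theorem good_PP (δ : ℝ) (hδ : 0 < δ) (hδ1 : δ ≤ 1 / 100) {k m : ℕ} (hk : 1 ≤ k)
    (h16 : 16 ≤ (k : ℝ) ^ (δ / 4)) (P : Finset ℕ) [∀ i : {x // x ∈ P}, Fact (i.1).Prime]
    (Y : Fin k → Fin m → Bool × Bool) (hr : rkQ (mt xi Y) = m)
    (hsp : ¬ Sp P ((k : ℝ) ^ (1 - δ / 4)) (mt xi Y))
    (S : Finset ({x // x ∈ P} × Fin 6))
    (w : Fin m → Good439.GS (ps (fun i : {x // x ∈ P} => i.1) 6) S)
    (hker : ∀ j, ∑ c, xi (Y j c) • w c = 0)
    (hind : Ind (fun i : {x // x ∈ P} => i.1) S w) :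
    NonSp ((k : ℝ) ^ (1 - δ / 4)) w ∧
      MC.MinC ((k : ℝ) ^ (1 - δ / 4)) ((k : ℝ) ^ (-(3 / 2) : ℝ)) w := by
  have hkr : (1 : ℝ) ≤ k := by exact_mod_cast hk
  have hk0 : (0 : ℝ) < k := by linarith
  set s : ℝ := (k : ℝ) ^ (1 - δ / 4) with hs
  have hs1 : 1 ≤ s := Real.one_le_rpow hkr (by linarith)
  have hns : NonSp s w := by
    refine nonsp_slots xi (fun i : {x // x ∈ P} => i.1) Subtype.val_injective Y s ?_ S w hker hind
    intro i u hu hu0
    by_contra hcon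
    push Not at hcon
    apply hsp
    left
    refine ⟨i.1, i.2, u, hu0, ?_, fun j => ?_⟩
    · convert hcon
    · have := hu j
      simpa [mt, zsmul_eq_mul] using this
  refine ⟨hns, fun ψ hψ F hF => ?_⟩
  have hb : ¬ SpB s (mt xi Y) := fun h => hsp (Or.inr h)
  have hex : ∃ c, ψ (w c) ≠ 1 := by
    by_contra hcon
    push Not at hcon
    have h1 := hns ψ hψ
    have h2 : (univ.filter fun c => ψ (w c) ≠ 1) = ∅ :=
      filter_eq_empty_iff.2 fun c _ h => h (hcon c)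
    rw [h2, card_empty, Nat.cast_zero] at h1
    linarith
  have h1 := minN_chord s hs1 (by omega) Y hr hb w hker ψ hex F hF
  refine lt_of_le_of_lt ?_ h1
  refine pow_le_pow_left₀ (by positivity) ?_ 2
  have hsq : Real.sqrt k = (k : ℝ) ^ (1 / 2 : ℝ) := Real.sqrt_eq_rpow _
  rw [hsq, hs, le_div_iff₀ (by positivity)]
  have e1 : (k : ℝ) ^ (-(3 / 2) : ℝ) * (16 * (k : ℝ) ^ (1 / 2 : ℝ) * (k : ℝ) ^ (1 - δ / 4)) =
      16 * (k : ℝ) ^ (-(δ / 4)) := by
    have : (k : ℝ) ^ (-(3 / 2) : ℝ) * (k : ℝ) ^ (1 / 2 : ℝ) * (k : ℝ) ^ (1 - δ / 4) =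
        (k : ℝ) ^ (-(δ / 4)) := by
      rw [← Real.rpow_add hk0, ← Real.rpow_add hk0]
      congr 1
      ring
    rw [← this]
    ring
  rw [e1, Real.rpow_neg hk0.le, ← div_eq_mul_inv, div_le_one (by positivity)]
  exact h16


/-! ### numbers -/

theorem ev_pow (a c : ℝ) (ha : 0 < a) : ∃ k₀ : ℕ, ∀ k : ℕ, k₀ ≤ k → c ≤ (k : ℝ) ^ a := by
  have h := ((tendsto_rpow_atTop ha).comp tendsto_natCast_atTop_atTop).eventually_ge_atTop c
  exact Filter.eventually_atTop.1 h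

/-- the size of the groups -/
theorem num_card {k m : ℕ} {g N : ℝ} (hg : g ≤ N ^ 6) (hN0 : 0 ≤ N)
    (hN : N ≤ (2 : ℝ) ^ ((1 / 8 : ℝ) * k)) (hm : 99 * k ≤ 100 * m) :
    g * (1 / 2) ^ m ≤ Real.exp (-(1 / 10) * k) := by
  have h1 : N ^ 6 ≤ (2 : ℝ) ^ ((3 / 4 : ℝ) * k) := by
    calc N ^ 6 ≤ ((2 : ℝ) ^ ((1 / 8 : ℝ) * k)) ^ 6 := pow_le_pow_left₀ hN0 hN 6
      _ = _ := by
          rw [← Real.rpow_natCast, ← Real.rpow_mul (by norm_num)]
          congr 1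
          push_cast
          ring
  have h2 : (1 / 2 : ℝ) ^ m ≤ (2 : ℝ) ^ (-((99 / 100 : ℝ) * k)) := by
    have h3 : (1 / 2 : ℝ) ^ m = (2 : ℝ) ^ (-(m : ℝ)) := by
      rw [Real.rpow_neg (by norm_num), Real.rpow_natCast, one_div, inv_pow]
    rw [h3]
    apply Real.rpow_le_rpow_of_exponent_le (by norm_num)
    have h4 : (99 : ℝ) * k ≤ 100 * m := by exact_mod_cast hm
    linarith
  have h3 : (2 : ℝ) ^ ((3 / 4 : ℝ) * k) * (2 : ℝ) ^ (-((99 / 100 : ℝ) * k)) ≤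
      Real.exp (-(1 / 10) * k) := by
    rw [← Real.rpow_add (by norm_num), Real.rpow_def_of_pos (by norm_num)]
    apply Real.exp_le_exp.2
    have h4 := Real.log_two_gt_d9
    have h5 : (0 : ℝ) ≤ k := Nat.cast_nonneg _
    nlinarith
  refine le_trans ?_ h3
  exact mul_le_mul (hg.trans h1) h2 (by positivity) (by positivity)

/-- the low term -/
theorem num_low {k m : ℕ} {δ : ℝ} (hδ1 : δ ≤ 1 / 100) (hk : 1 ≤ k) (h4 : 4 ≤ (k : ℝ) ^ (1 / 4 : ℝ)) :
    3 + (20 * k : ℕ) * (2 * (2 * (k : ℝ) ^ (-(1 / 2) + δ))) ^ m ≤ (2 : ℝ) ^ (6 * k) := by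
  have hkr : (1 : ℝ) ≤ k := by exact_mod_cast hk
  have hk0 : (0 : ℝ) < k := by linarith
  have h1 : (k : ℝ) ^ (-(1 / 2) + δ) ≤ (k : ℝ) ^ (-(1 / 4) : ℝ) :=
    Real.rpow_le_rpow_of_exponent_le hkr (by linarith)
  have h2 : (k : ℝ) ^ (-(1 / 4) : ℝ) ≤ 1 / 4 := by
    rw [Real.rpow_neg hk0.le, ← one_div]
    exact one_div_le_one_div_of_le (by norm_num) h4
  have h3 : (2 * (2 * (k : ℝ) ^ (-(1 / 2) + δ))) ^ m ≤ 1 :=
    pow_le_one₀ (by positivity) (by linarith)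
  have h5 : ((20 * k : ℕ) : ℝ) * (2 * (2 * (k : ℝ) ^ (-(1 / 2) + δ))) ^ m ≤ (20 * k : ℕ) * 1 :=
    mul_le_mul_of_nonneg_left h3 (Nat.cast_nonneg _)
  have h6 : (k : ℝ) < 2 ^ k := by exact_mod_cast Nat.lt_two_pow_self
  have h7 : (2 : ℝ) ^ 5 ≤ 2 ^ (5 * k) := pow_le_pow_right₀ (by norm_num) (by omega)
  have h8 : (2 : ℝ) ^ (6 * k) = 2 ^ (5 * k) * 2 ^ k := by rw [← pow_add]; congr 1; ring
  push_cast at h5 ⊢
  rw [h8]
  have h9 : (0 : ℝ) < 2 ^ k := by positivity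
  nlinarith

/-- the big term -/
theorem num_big {k m : ℕ} {B : ℝ} (hk : 16 ≤ k) (hBk : ⌈B⌉₊ ≤ k) (h2 : 2 ≤ (k : ℝ) ^ (1 / 10 : ℝ))
    (hm : 99 * k ≤ 100 * m) :
    (k : ℝ) ^ (3 * k) * ((k * ⌈B⌉₊ : ℕ) * (2 * (k : ℝ) ^ (-(20 / 5 : ℝ) + 1 / 10)) ^ m) ≤ 1 := by
  have hkr : (16 : ℝ) ≤ k := by exact_mod_cast hk
  have hk0 : (0 : ℝ) < k := by linarith
  have h1 : 2 * (k : ℝ) ^ (-(20 / 5 : ℝ) + 1 / 10) ≤ (k : ℝ) ^ (-(19 / 5) : ℝ) := by
    calc 2 * (k : ℝ) ^ (-(20 / 5 : ℝ) + 1 / 10)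
        ≤ (k : ℝ) ^ (1 / 10 : ℝ) * (k : ℝ) ^ (-(20 / 5 : ℝ) + 1 / 10) :=
          mul_le_mul_of_nonneg_right h2 (by positivity)
      _ = _ := by
          rw [← Real.rpow_add hk0]
          congr 1
          norm_num
  have h3 : (2 * (k : ℝ) ^ (-(20 / 5 : ℝ) + 1 / 10)) ^ m ≤
      (k : ℝ) ^ (-((19 / 5) * (99 / 100) * k) : ℝ) := by
    calc (2 * (k : ℝ) ^ (-(20 / 5 : ℝ) + 1 / 10)) ^ m ≤ ((k : ℝ) ^ (-(19 / 5) : ℝ)) ^ m :=
          pow_le_pow_left₀ (by positivity) h1 m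
      _ = (k : ℝ) ^ (-(19 / 5) * m : ℝ) := by rw [Real.rpow_mul hk0.le, Real.rpow_natCast]
      _ ≤ _ := by
          apply Real.rpow_le_rpow_of_exponent_le (by linarith)
          have h4 : (99 : ℝ) * k ≤ 100 * m := by exact_mod_cast hm
          linarith
  have h4 : ((k * ⌈B⌉₊ : ℕ) : ℝ) ≤ (k : ℝ) ^ (2 : ℝ) := by
    have h5 : k * ⌈B⌉₊ ≤ k ^ 2 := by
      rw [pow_two]
      exact Nat.mul_le_mul_left k hBk
    have h6 : (k : ℝ) ^ (2 : ℝ) = ((k ^ 2 : ℕ) : ℝ) := by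
      push_cast
      rw [← Real.rpow_natCast]
      norm_num
    rw [h6]
    exact_mod_cast h5
  have h5 : (k : ℝ) ^ (3 * k) = (k : ℝ) ^ ((3 : ℝ) * k) := by
    rw [← Real.rpow_natCast]
    push_cast
    rfl
  rw [h5]
  calc (k : ℝ) ^ ((3 : ℝ) * k) * ((k * ⌈B⌉₊ : ℕ) * (2 * (k : ℝ) ^ (-(20 / 5 : ℝ) + 1 / 10)) ^ m)
      ≤ (k : ℝ) ^ ((3 : ℝ) * k) * ((k : ℝ) ^ (2 : ℝ) *
          (k : ℝ) ^ (-((19 / 5) * (99 / 100) * k) : ℝ)) := by
        refine mul_le_mul_of_nonneg_left ?_ (by positivity)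
        exact mul_le_mul h4 h3 (by positivity) (by positivity)
    _ = (k : ℝ) ^ ((3 : ℝ) * k + (2 + -((19 / 5) * (99 / 100) * k))) := by
        rw [← Real.rpow_add hk0, ← Real.rpow_add hk0]
    _ ≤ 1 := by
        apply Real.rpow_le_one_of_one_le_of_nonpos (by linarith)
        nlinarith

open scoped Classical in
/-- LEMMA M: sixth moment of the kernel, `β = 1/8`. -/
theorem stmtMom : StmtMom 3 (1 / 8) := by
  intro δ b₁ B hδ hδ1 hb₁ hbB
  have hB1 : 1 ≤ B := hb₁.trans hbB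
  obtain ⟨k₁, h₁⟩ := low δ hδ hδ1
  obtain ⟨k₂, h₂⟩ := big δ B hδ hδ1 hB1
  obtain ⟨k₃, h₃⟩ := ev_pow (δ / 4) 16 (by linarith)
  obtain ⟨k₄, h₄⟩ := ev_pow (1 / 10) 2 (by norm_num)
  obtain ⟨k₅, h₅⟩ := ev_pow (1 / 4) 4 (by norm_num)
  refine ⟨40, max (max (max k₁ k₂) (max k₃ k₄)) (max k₅ (max ⌈B⌉₊ 16)), fun k hk m hmk hm P hP => ?_⟩
  have g1 : k₁ ≤ k := by omega
  have g2 : k₂ ≤ k := by omega
  have g3 := h₃ k (by omega)
  have g4 := h₄ k (by omega)
  have g5 := h₅ k (by omega)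
  have g6 : ⌈B⌉₊ ≤ k := by omega
  have g7 : 16 ≤ k := by omega
  have hkr : (16 : ℝ) ≤ k := by exact_mod_cast g7
  have hk0 : (0 : ℝ) < k := by linarith
  have hkm2 : (k : ℝ) ≤ 2 * m := by
    have : (99 : ℝ) * k ≤ 100 * m := by exact_mod_cast hm
    linarith
  have hpr := hP.pr
  haveI hF : ∀ i : {x // x ∈ P}, Fact (i.1).Prime := fun i => ⟨hpr i.1 i.2⟩
  set s : ℝ := (k : ℝ) ^ (1 - δ / 4) with hs
  set GG := (univ : Finset (Fin k → Fin m → Bool × Bool)).filter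
      (fun ω => rkQ (mt xi ω) = m ∧ ¬ Sp P s (mt xi ω)) with hGG
  -- the product
  set N : ℝ := ∏ p ∈ P, (p : ℝ) with hNdef
  have hN : N ≤ (2 : ℝ) ^ ((1 / 8 : ℝ) * k) := hP.size
  have hN1 : 1 ≤ N := by
    have : ((1 : ℕ) : ℝ) ≤ ((∏ p ∈ P, p : ℕ) : ℝ) := by
      exact_mod_cast Finset.prod_pos fun p hp => (hpr p hp).pos
    push_cast at this
    exact this
  have hN0 : 0 ≤ N := by linarith
  have hN8 : N ^ 8 ≤ 2 ^ k := by
    calc N ^ 8 ≤ ((2 : ℝ) ^ ((1 / 8 : ℝ) * k)) ^ 8 := pow_le_pow_left₀ hN0 hN 8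
      _ = 2 ^ k := by
          rw [← Real.rpow_natCast, ← Real.rpow_mul (by norm_num), ← Real.rpow_natCast 2 k]
          congr 1
          push_cast
          ring
  have hNk : N ≤ 2 ^ k := by
    calc N = N ^ 1 := (pow_one N).symm
      _ ≤ N ^ 8 := pow_le_pow_right₀ hN1 (by norm_num)
      _ ≤ 2 ^ k := hN8
  have hcP : Fintype.card {x // x ∈ P} = P.card := Fintype.card_coe P
  have hcardP : P.card ≤ k := by
    have h1 : (2 : ℝ) ^ P.card ≤ N := by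
      rw [hNdef, ← prod_const]
      refine prod_le_prod (fun _ _ => by norm_num) fun p hp => ?_
      exact_mod_cast (hpr p hp).two_le
    have h2 : (2 : ℝ) ^ P.card ≤ 2 ^ k := h1.trans hNk
    exact (pow_le_pow_iff_right₀ (by norm_num : (1 : ℝ) < 2)).1 h2
  -- groups
  have hcardG : ∀ S : Finset ({x // x ∈ P} × Fin 6),
      (Fintype.card (Good439.GS (ps (fun i : {x // x ∈ P} => i.1) 6) S) : ℝ) ≤ N ^ 6 := by
    intro S
    rw [Good439.card_GS]
    have h1 : ∏ i ∈ S, ps (fun i : {x // x ∈ P} => i.1) 6 i ≤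
        ∏ i : {x // x ∈ P} × Fin 6, ps (fun i : {x // x ∈ P} => i.1) 6 i :=
      prod_le_prod_of_subset_of_one_le' (subset_univ S) fun i _ _ => (hF i.1).out.one_lt.le
    have h2 : (∏ i : {x // x ∈ P} × Fin 6, ps (fun i : {x // x ∈ P} => i.1) 6 i : ℕ) =
        (∏ p ∈ P, p) ^ 6 := by
      rw [Fintype.prod_prod_type]
      have h4 : ∀ i : {x // x ∈ P}, ∏ l : Fin 6, ps (fun i : {x // x ∈ P} => i.1) 6 (i, l) =
          i.1 ^ 6 := by
        intro i
        have : ∏ _l : Fin 6, i.1 = i.1 ^ 6 := by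
          rw [prod_const, card_univ, Fintype.card_fin]
        exact this
      rw [prod_congr rfl fun i _ => h4 i, prod_pow, prod_coe_sort P (fun x => x)]
    have h3 : N ^ 6 = (((∏ p ∈ P, p) ^ 6 : ℕ) : ℝ) := by
      rw [hNdef]
      push_cast
      rfl
    rw [h3, ← h2]
    exact_mod_cast h1
  have hprG : ∀ S : Finset ({x // x ∈ P} × Fin 6), ∀ p : ℕ, p.Prime →
      p ∣ Fintype.card (Good439.GS (ps (fun i : {x // x ∈ P} => i.1) 6) S) → k ≤ p := by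
    intro S q hq hqd
    rw [Good439.card_GS] at hqd
    obtain ⟨i, _, hi⟩ := (Prime.dvd_finsetProd_iff hq.prime _).1 hqd
    have h1 := (Nat.prime_dvd_prime_iff_eq hq (hF i.1).out).1 hi
    have h2 : (k : ℝ) ≤ (i.1.1 : ℝ) := by
      refine le_trans ?_ (hP.lo i.1.1 i.1.2)
      calc (k : ℝ) = (k : ℝ) ^ (1 : ℝ) := (Real.rpow_one _).symm
        _ ≤ (k : ℝ) ^ b₁ := Real.rpow_le_rpow_of_exponent_le (by linarith) hb₁
    rw [h1]
    exact_mod_cast h2
  have hexG : ∀ S : Finset ({x // x ∈ P} × Fin 6),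
      (Fintype.card (Good439.GS (ps (fun i : {x // x ∈ P} => i.1) 6) S) : ℝ) * (1 / 2) ^ m ≤
        Real.exp (-(1 / 10) * k) := fun S => num_card (hcardG S) hN0 hN hm
  have hnn : ∀ (S : Finset ({x // x ∈ P} × Fin 6))
      (w : Fin m → Good439.GS (ps (fun i : {x // x ∈ P} => i.1) 6) S), 0 ≤ gZ 4 w ^ k :=
    fun S w => pow_nonneg (gZM_nonneg (by norm_num) w) k
  have key := core xi (fun i : {x // x ∈ P} => i.1) (q := 6) (by norm_num : 2 ≤ 4) dom_xi GG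
    (fun S w => NonSp s w ∧ MC.MinC s ((k : ℝ) ^ (-(3 / 2) : ℝ)) w) ((k : ℝ) ^ (20 : ℝ))
    ((k : ℝ) ^ B) (3 + (20 * k : ℕ) * (2 * (2 * (k : ℝ) ^ (-(1 / 2) + δ))) ^ m)
    ((k * ⌈B⌉₊ : ℕ) * (2 * (k : ℝ) ^ (-(20 / 5 : ℝ) + 1 / 10)) ^ m) ((k : ℝ) ^ (3 * k))
    (Real.one_le_rpow (by linarith) (by norm_num)) (fun i => hP.hi i.1 i.2) (by positivity)
    (fun Y hY S w hker hind => by
      rw [hGG, mem_filter] at hY
      exact good_PP δ hδ hδ1 (by omega) g3 P Y hY.2.1 hY.2.2 S w hker hind)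
    (fun S => by
      refine le_trans (sum_le_sum_of_subset_of_nonneg ?_ fun w _ _ => hnn S w)
        (h₁ k g1 _ m hmk hkm2 (hprG S) (hexG S))
      intro w hw
      simp only [mem_filter, mem_univ, true_and] at hw ⊢
      exact ⟨hw.1.1, hw.2⟩)
    (fun S => by
      refine le_trans (sum_le_sum_of_subset_of_nonneg ?_ fun w _ _ => hnn S w)
        (h₂ k g2 _ m hmk hkm2 (hprG S) (hexG S))
      intro w hw
      simp only [mem_filter, mem_univ, true_and] at hw ⊢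
      exact ⟨hw.1.2, hw.2.1, hw.2.2⟩)
    (fun Y hY => by
      rw [hGG, mem_filter] at hY
      rw [← W_pow]
      exact W_le P hpr hmk (by omega) Y hY.2.1)
  have e1 : ∑ Y ∈ GG, (Wq xi (fun i : {x // x ∈ P} => i.1) 6 Y : ℝ) =
      ∑ Y ∈ GG, W P (mt xi Y) ^ 3 := sum_congr rfl fun Y _ => (W_pow P Y).symm
  rw [e1] at key
  refine key.trans ?_
  have hc : (Fintype.card (Bool × Bool) : ℝ) = 4 := by
    have : Fintype.card (Bool × Bool) = 4 := by decide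
    rw [this]
    norm_num
  rw [hc, hcP]
  have f1 := num_low (m := m) (δ := δ) hδ1 (by omega : 1 ≤ k) g5
  have f2 := num_big (m := m) (B := B) g7 g6 g4 hm
  have f3 : ((∏ i : {x // x ∈ P}, 2 ^ 6 * (i.1) ^ (6 * 6) : ℕ) : ℝ) ≤ 2 ^ (6 * k) * 2 ^ (5 * k) := by
    have h1 : ((∏ i : {x // x ∈ P}, 2 ^ 6 * (i.1) ^ (6 * 6) : ℕ) : ℝ) = (2 ^ 6) ^ P.card * N ^ 36 := by
      push_cast
      rw [prod_mul_distrib, prod_const, card_univ, hcP, prod_pow, prod_coe_sort P (fun x => (x : ℝ)),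
        hNdef]
      norm_num
    rw [h1]
    refine mul_le_mul ?_ ?_ (by positivity) (by positivity)
    · rw [← pow_mul]
      exact pow_le_pow_right₀ (by norm_num) (by omega)
    · calc N ^ 36 ≤ N ^ 40 := pow_le_pow_right₀ hN1 (by norm_num)
        _ = (N ^ 8) ^ 5 := by rw [← pow_mul]
        _ ≤ (2 ^ k) ^ 5 := pow_le_pow_left₀ (by positivity) hN8 5
        _ = _ := by rw [← pow_mul]; congr 1; ring
  have f4 : (2 : ℝ) ^ (P.card * 6) ≤ 2 ^ (6 * k) := pow_le_pow_right₀ (by norm_num) (by omega)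
  have f5 : (2 : ℝ) ^ ((40 : ℝ) * k) = 2 ^ (40 * k) := by
    rw [← Real.rpow_natCast]
    push_cast
    rfl
  rw [f5, mul_comm m k, mul_comm ((2 : ℝ) ^ (40 * k))]
  refine mul_le_mul_of_nonneg_left ?_ (by positivity)
  have f6 : ((∏ i : {x // x ∈ P}, 2 ^ 6 * (i.1) ^ (6 * 6) : ℕ) : ℝ) *
      (3 + (20 * k : ℕ) * (2 * (2 * (k : ℝ) ^ (-(1 / 2) + δ))) ^ m) ≤
      2 ^ (6 * k) * 2 ^ (5 * k) * 2 ^ (6 * k) :=
    mul_le_mul f3 f1 (by positivity) (by positivity)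
  calc (2 : ℝ) ^ (P.card * 6) * (((∏ i : {x // x ∈ P}, 2 ^ 6 * (i.1) ^ (6 * 6) : ℕ) : ℝ) *
      (3 + (20 * k : ℕ) * (2 * (2 * (k : ℝ) ^ (-(1 / 2) + δ))) ^ m) +
      (k : ℝ) ^ (3 * k) * ((k * ⌈B⌉₊ : ℕ) * (2 * (k : ℝ) ^ (-(20 / 5 : ℝ) + 1 / 10)) ^ m))
      ≤ 2 ^ (6 * k) * (2 ^ (6 * k) * 2 ^ (5 * k) * 2 ^ (6 * k) + 1) :=
        mul_le_mul f4 (add_le_add f6 f2) (by positivity) (by positivity)
    _ ≤ 2 ^ (6 * k) * (2 ^ (17 * k) + 2 ^ (17 * k)) := by
        refine mul_le_mul_of_nonneg_left (add_le_add (le_of_eq ?_) (one_le_pow₀ (by norm_num)))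
          (by positivity)
        rw [← pow_add, ← pow_add]
        congr 1
        ring
    _ = 2 ^ (23 * k + 1) := by
        rw [pow_succ, ← two_mul]
        rw [show 23 * k = 6 * k + 17 * k by ring, pow_add]
        ring
    _ ≤ 2 ^ (40 * k) := pow_le_pow_right₀ (by norm_num) (by omega)

end Vale.Agent.P160.Half.M67.Mom332
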