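import Vale.Agent.P160.Half.MC986
import Vale.Agent.P160.Half.MinC708
import Vale.Agent.P160.Half.FlatZ4
import Vale.Agent.P160.Half.FirstMom685
import Vale.Agent.P160.Half.MomGlue539
import Vale.Agent.P160.Half.LemM203

/-! P160-HALF, (M), LEMMA M: `M67.StmtMom q β` for `2 q β ≤ 97/100` (helper695) -/

open Finset

namespace Vale.Agent.P160.Half.Mom695

open Vale.Agent.P160 Vale.Agent.P160.Half Vale.Agent.P160.Half.Flat

/-! ### the law -/

theorem sum_xi (z : ℂ) (hz : ‖z‖ = 1) :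
    ∑ b : Bool × Bool, z ^ (M67.xi b) = ((4 * cf 4 z : ℝ) : ℂ) := by
  have h1 : z⁻¹ = (starRingEnd ℂ) z := Complex.inv_eq_conj hz
  rw [Fintype.sum_prod_type]
  simp only [Fintype.sum_bool, M67.xi]
  norm_num
  rw [h1]
  apply Complex.ext
  · simp [cf]; ring
  · simp [cf]

theorem domM4 : LemM203.DomM 4 M67.xi := by
  intro G _ _ _ a y
  classical
  have h0 : ((Fintype.card G : ℂ)) *
      ((univ.filter fun x : Fin a → Bool × Bool => ∑ c, M67.xi (x c) • y c = 0).card : ℂ) =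
      ∑ x : Fin a → Bool × Bool, ∑ ψ : AddChar G ℂ, ψ (∑ c, M67.xi (x c) • y c) := by
    rw [card_filter]
    push_cast
    rw [mul_sum]
    refine sum_congr rfl fun x _ => ?_
    rw [AddChar.sum_apply_eq_ite]
    split_ifs <;> simp
  have h1 : ∑ x : Fin a → Bool × Bool, ∑ ψ : AddChar G ℂ, ψ (∑ c, M67.xi (x c) • y c) =
      (((4 : ℝ) ^ a * gZ 4 y : ℝ) : ℂ) := by
    rw [sum_comm]
    unfold gZ
    rw [mul_sum]
    push_cast
    refine sum_congr rfl fun ψ _ => ?_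
    have h2 : ∀ x : Fin a → Bool × Bool, ψ (∑ c, M67.xi (x c) • y c) =
        ∏ c, (ψ (y c)) ^ (M67.xi (x c)) := by
      intro x
      rw [LOq.addChar_sum]
      exact prod_congr rfl fun c _ => AddChar.map_zsmul_eq_zpow _ _ _
    simp only [h2]
    have h3 : ∑ x : Fin a → Bool × Bool, ∏ c, (ψ (y c)) ^ (M67.xi (x c)) =
        ∏ c, ∑ b : Bool × Bool, (ψ (y c)) ^ (M67.xi b) := by
      rw [Finset.prod_univ_sum]
      rw [Fintype.piFinset_univ]
    rw [h3]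
    unfold gP
    push_cast
    have h9 : (4 : ℂ) ^ a = ∏ _c : Fin a, (4 : ℂ) := by simp
    rw [h9, ← prod_mul_distrib]
    refine prod_congr rfl fun c _ => ?_
    rw [sum_xi _ (AddChar.norm_apply _ _)]
    push_cast
    rfl
  rw [h1] at h0
  have h4 : (Fintype.card G : ℝ) *
      ((univ.filter fun x : Fin a → Bool × Bool => ∑ c, M67.xi (x c) • y c = 0).card : ℝ) =
      (4 : ℝ) ^ a * gZ 4 y := by exact_mod_cast h0
  have h5 : (Fintype.card (Bool × Bool) : ℝ) = 4 := by simp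
  rw [h5]
  refine le_of_eq ?_
  convert h4

/-! ### the weight -/

theorem finrank_Ker {k m : ℕ} (p : ℕ) [hp : Fact p.Prime] (Y : Fin k → Fin m → Bool × Bool) :
    Module.finrank (ZMod p) (LemM203.Ker M67.xi p Y) = m - M67.rkp p (M67.mt M67.xi Y) := by
  have h1 := MomGlue539.card_prime (M67.mt M67.xi Y) p hp.out
  have h2 : Nat.card (LemM203.Ker M67.xi p Y) =
      p ^ Module.finrank (ZMod p) (LemM203.Ker M67.xi p Y) := by
    rw [Module.natCard_eq_pow_finrank (K := ZMod p), Nat.card_zmod]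
  have h3 : Nat.card (LemM203.Ker M67.xi p Y) =
      Nat.card (MomGlue539.Ker (M67.mt M67.xi Y) (ZMod p)) := rfl
  exact Nat.pow_right_injective hp.out.two_le (h2.symm.trans (h3.trans h1))

theorem wq_eq (P : Finset ℕ) [∀ i : {x // x ∈ P}, Fact (i : ℕ).Prime] (q : ℕ) {k m : ℕ}
    (Y : Fin k → Fin m → Bool × Bool) :
    M67.W P (M67.mt M67.xi Y) ^ q =
      ((LemM203.Wq M67.xi (fun i : {x // x ∈ P} => (i : ℕ)) (2 * q) Y : ℕ) : ℝ) := by
  unfold M67.W LemM203.Wq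
  push_cast
  rw [← prod_pow, ← Finset.prod_coe_sort P]
  refine prod_congr rfl fun i _ => ?_
  rw [finrank_Ker, ← pow_mul]
  congr 1
  ring

/-! ### groups of slots -/

section grp

variable {ι : Type} [Fintype ι] [DecidableEq ι] (p : ι → ℕ) [hpF : ∀ i, Fact (p i).Prime]

theorem card_GS_le (r : ℕ) (S : Finset (ι × Fin r)) :
    (Fintype.card (Good439.GS (LemM203.ps p r) S) : ℝ) ≤ (∏ i, (p i : ℝ)) ^ r := by
  rw [Good439.card_GS]
  have h1 : ∏ s ∈ S, LemM203.ps p r s ≤ ∏ s : ι × Fin r, LemM203.ps p r s := by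
    refine prod_le_prod_of_subset_of_one_le' (subset_univ _) fun s _ _ => (hpF s.1).out.one_lt.le
  have h2 : ∏ s : ι × Fin r, LemM203.ps p r s = (∏ i, p i) ^ r := by
    rw [Fintype.prod_prod_type]
    rw [← prod_pow]
    refine prod_congr rfl fun i _ => ?_
    show ∏ _y : Fin r, p i = p i ^ r
    rw [prod_const, card_univ, Fintype.card_fin]
  rw [h2] at h1
  exact_mod_cast h1

omit [Fintype ι] in
theorem prime_GS (r : ℕ) (S : Finset (ι × Fin r)) (k : ℕ) (hk : ∀ i, k ≤ p i) (q : ℕ)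
    (hq : q.Prime) (hd : q ∣ Fintype.card (Good439.GS (LemM203.ps p r) S)) : k ≤ q := by
  rw [Good439.card_GS] at hd
  obtain ⟨s, -, hs⟩ := (Prime.dvd_finsetProd_iff hq.prime _).1 hd
  have h := (Nat.prime_dvd_prime_iff_eq hq (hpF s.1).out).1 hs
  rw [h]
  exact hk s.1

end grp

/-! ### numbers -/

theorem ev1 (B C₁ : ℝ) : ∃ k₀ : ℕ, ∀ k : ℕ, k₀ ≤ k → (k : ℝ) ^ B < 2 ^ k ∧ (k : ℝ) ^ C₁ + 2 ≤ 2 ^ k ∧ 2 ≤ k := by
  have h1 : ∀ B : ℝ, ∃ k₀ : ℕ, ∀ k : ℕ, k₀ ≤ k → (k : ℝ) ^ B ≤ 1 / 2 * 2 ^ k := by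
    intro B
    have h := isLittleO_rpow_exp_pos_mul_atTop B (Real.log_pos (by norm_num : (1 : ℝ) < 2))
    have h2 := (h.comp_tendsto tendsto_natCast_atTop_atTop).bound (by norm_num : (0 : ℝ) < 1 / 2)
    obtain ⟨k₀, hk₀⟩ := Filter.eventually_atTop.1 h2
    refine ⟨k₀, fun k hk => ?_⟩
    have h3 := hk₀ k hk
    simp only [Function.comp] at h3
    rw [Real.norm_of_nonneg (by positivity), Real.norm_of_nonneg (by positivity)] at h3
    have h4 : Real.exp (Real.log 2 * (k : ℝ)) = 2 ^ k := by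
      rw [mul_comm, Real.exp_nat_mul, Real.exp_log (by norm_num)]
    rw [h4] at h3
    exact h3
  obtain ⟨k₁, h₁⟩ := h1 B
  obtain ⟨k₂, h₂⟩ := h1 C₁
  refine ⟨max (max k₁ k₂) 2, fun k hk => ?_⟩
  have hk1 := h₁ k (((le_max_left _ _).trans (le_max_left _ _)).trans hk)
  have hk2 := h₂ k (((le_max_right _ _).trans (le_max_left _ _)).trans hk)
  have hk3 : 2 ≤ k := (le_max_right _ _).trans hk
  have h4 : (4 : ℝ) ≤ 2 ^ k := by
    calc (4 : ℝ) = 2 ^ 2 := by norm_num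
      _ ≤ 2 ^ k := pow_le_pow_right₀ (by norm_num) hk3
  refine ⟨by linarith, by linarith, hk3⟩

/-- the big part: `R B ≤ 4^k` -/
theorem big_num (q k m : ℕ) (hk : 2 ≤ k) (hmk : m ≤ k) (hkm : (k : ℝ) ≤ 2 * m) :
    ((k : ℝ) ^ k) ^ q * (k * (2 * (k : ℝ) ^ (-((10 * q + 10 : ℝ) / 5) + 1 / 10)) ^ m) ≤ 4 ^ k := by
  have hk0 : (0 : ℝ) < k := by positivity
  have hk1 : (1 : ℝ) ≤ k := by exact_mod_cast (by omega : 1 ≤ k)
  have hk2 : (k : ℝ) ≤ 2 ^ k := by exact_mod_cast (Nat.lt_two_pow_self).le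
  have e1 : ((k : ℝ) ^ k) ^ q = (k : ℝ) ^ ((q : ℝ) * k) := by
    rw [← pow_mul, ← Real.rpow_natCast]
    congr 1
    push_cast
    ring
  have e2 : (2 * (k : ℝ) ^ (-((10 * q + 10 : ℝ) / 5) + 1 / 10)) ^ m ≤
      2 ^ k * (k : ℝ) ^ (-((q : ℝ) * k)) := by
    rw [mul_pow]
    refine mul_le_mul (pow_le_pow_right₀ (by norm_num) hmk) ?_ (by positivity) (by positivity)
    rw [← Real.rpow_natCast, ← Real.rpow_mul hk0.le]
    refine Real.rpow_le_rpow_of_exponent_le hk1 ?_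
    have hm0 : (0 : ℝ) ≤ m := by positivity
    have hq0 : (0 : ℝ) ≤ q := by positivity
    have h1 := mul_le_mul_of_nonneg_left hkm hq0
    nlinarith
  calc ((k : ℝ) ^ k) ^ q * (k * (2 * (k : ℝ) ^ (-((10 * q + 10 : ℝ) / 5) + 1 / 10)) ^ m)
      ≤ (k : ℝ) ^ ((q : ℝ) * k) * (2 ^ k * (2 ^ k * (k : ℝ) ^ (-((q : ℝ) * k)))) := by
        rw [e1]
        refine mul_le_mul_of_nonneg_left ?_ (by positivity)
        exact mul_le_mul hk2 e2 (by positivity) (by positivity)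
    _ = (2 ^ k * 2 ^ k) * ((k : ℝ) ^ ((q : ℝ) * k) * (k : ℝ) ^ (-((q : ℝ) * k))) := by ring
    _ = 4 ^ k := by
        rw [← Real.rpow_add hk0, add_neg_cancel, Real.rpow_zero, mul_one, ← mul_pow]
        norm_num

/-! ### the theorem -/

theorem final_num (q k : ℕ) (β : ℝ) (C₁ NP : ℝ) (card : ℕ)
    (h1 : (1 : ℝ) ≤ NP) (hN : NP ≤ (2 : ℝ) ^ (β * k)) (hc : (2 : ℝ) ^ card ≤ NP)
    (h2 : (k : ℝ) ^ C₁ + 2 ≤ 2 ^ k) (C₀ RB : ℝ) (hC₀ : C₀ = (2 : ℝ) ^ (card * (2 * q)) * NP ^ ((2 * q) * (2 * q)))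
    (hRB : RB ≤ 4 ^ k) :
    (2 : ℝ) ^ (card * (2 * q)) * (C₀ * (3 ^ k * ((k : ℝ) ^ C₁ + 2)) + RB) ≤
      (2 : ℝ) ^ ((β * (4 * q + 4 * q * q) + 4) * k) := by
  have e1 : (2 : ℝ) ^ (card * (2 * q)) ≤ NP ^ (2 * q) := by
    rw [pow_mul]
    exact pow_le_pow_left₀ (by positivity) hc _
  have hNP0 : (0 : ℝ) ≤ NP := by linarith
  have e2 : C₀ ≤ NP ^ (2 * q + (2 * q) * (2 * q)) := by
    rw [hC₀, pow_add]
    exact mul_le_mul_of_nonneg_right e1 (by positivity)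
  have e3 : (3 : ℝ) ^ k * ((k : ℝ) ^ C₁ + 2) ≤ 8 ^ k := by
    calc (3 : ℝ) ^ k * ((k : ℝ) ^ C₁ + 2) ≤ 4 ^ k * 2 ^ k := by
          refine mul_le_mul (pow_le_pow_left₀ (by norm_num) (by norm_num) _) h2 (by positivity) (by positivity)
      _ = 8 ^ k := by rw [← mul_pow]; norm_num
  have hC0 : 0 ≤ C₀ := by rw [hC₀]; positivity
  have e4 : C₀ * (3 ^ k * ((k : ℝ) ^ C₁ + 2)) + RB ≤ NP ^ (2 * q + (2 * q) * (2 * q)) * 16 ^ k := by
    have h3 : (1 : ℝ) ≤ NP ^ (2 * q + (2 * q) * (2 * q)) := one_le_pow₀ h1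
    have h4 : C₀ * (3 ^ k * ((k : ℝ) ^ C₁ + 2)) ≤ NP ^ (2 * q + (2 * q) * (2 * q)) * 8 ^ k :=
      mul_le_mul e2 e3 (by positivity) (by positivity)
    have h5 : (4 : ℝ) ^ k ≤ NP ^ (2 * q + (2 * q) * (2 * q)) * 4 ^ k := by
      have : (0 : ℝ) < 4 ^ k := by positivity
      nlinarith
    rcases Nat.eq_zero_or_pos k with hk | hk
    · subst hk
      -- k = 0 : impossible since 2^0 = 1 < 2
      exfalso
      have : (0 : ℝ) ≤ ((0 : ℕ) : ℝ) ^ C₁ := by positivity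
      norm_num at h2
      linarith
    · have h6 : (8 : ℝ) ^ k + 4 ^ k ≤ 16 ^ k := by
        have h7 : (4 : ℝ) ^ k ≤ 8 ^ k := pow_le_pow_left₀ (by norm_num) (by norm_num) _
        have h8 : (16 : ℝ) ^ k = 8 ^ k * 2 ^ k := by rw [← mul_pow]; norm_num
        have h9 : (2 : ℝ) ≤ 2 ^ k := by
          calc (2 : ℝ) = 2 ^ 1 := by norm_num
            _ ≤ 2 ^ k := pow_le_pow_right₀ (by norm_num) hk
        have h10 : (0 : ℝ) < 8 ^ k := by positivity
        nlinarith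
      have h11 : (0 : ℝ) ≤ NP ^ (2 * q + (2 * q) * (2 * q)) := by positivity
      calc _ ≤ NP ^ (2 * q + (2 * q) * (2 * q)) * 8 ^ k + NP ^ (2 * q + (2 * q) * (2 * q)) * 4 ^ k := by
            linarith
        _ = NP ^ (2 * q + (2 * q) * (2 * q)) * (8 ^ k + 4 ^ k) := by ring
        _ ≤ _ := mul_le_mul_of_nonneg_left h6 h11
  have e5 : (2 : ℝ) ^ (card * (2 * q)) * (C₀ * (3 ^ k * ((k : ℝ) ^ C₁ + 2)) + RB) ≤
      NP ^ (2 * q) * (NP ^ (2 * q + (2 * q) * (2 * q)) * 16 ^ k) := by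
    refine (mul_le_mul_of_nonneg_left e4 (by positivity)).trans ?_
    exact mul_le_mul_of_nonneg_right e1 (by positivity)
  refine e5.trans ?_
  have e6 : NP ^ (2 * q) * (NP ^ (2 * q + (2 * q) * (2 * q)) * 16 ^ k) =
      NP ^ (4 * q + 4 * q * q) * 16 ^ k := by
    rw [← mul_assoc, ← pow_add]
    congr 2
    ring
  rw [e6]
  have e7 : NP ^ (4 * q + 4 * q * q) ≤ (2 : ℝ) ^ (β * k * ((4 * q + 4 * q * q : ℕ) : ℝ)) := by
    rw [Real.rpow_mul (by norm_num), Real.rpow_natCast]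
    exact pow_le_pow_left₀ hNP0 hN _
  have e8 : (16 : ℝ) ^ k = (2 : ℝ) ^ ((4 : ℝ) * k) := by
    rw [Real.rpow_mul (by norm_num), Real.rpow_natCast]
    norm_num
  calc NP ^ (4 * q + 4 * q * q) * 16 ^ k ≤
        (2 : ℝ) ^ (β * k * ((4 * q + 4 * q * q : ℕ) : ℝ)) * (2 : ℝ) ^ ((4 : ℝ) * k) := by
        rw [e8]
        exact mul_le_mul_of_nonneg_right e7 (by positivity)
    _ = _ := by
        rw [← Real.rpow_add (by norm_num)]
        congr 1
        push_cast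
        ring

theorem xi_abs (b : Bool × Bool) : |M67.xi b| ≤ 1 := by
  rcases b with ⟨_ | _, _ | _⟩ <;> simp [M67.xi]

open scoped Classical in
/-- **LEMMA M** -/
theorem mom (q : ℕ) (β : ℝ) (hq : 2 * q * β ≤ 97 / 100) : M67.StmtMom q β := by
  intro δ b₁ B hδ hδ1 hb₁ hB
  set C₁ : ℝ := 10 * q + 10 with hC₁
  have hC₁0 : 0 < C₁ := by positivity
  obtain ⟨k₁, h₁⟩ := countG4 δ (1 / 100) C₁ hδ (by linarith) (by norm_num) hC₁0
  obtain ⟨k₂, h₂⟩ := MC.mc 4 le_rfl (1 / 100) (C₁ + B) C₁ (δ / 4) (by norm_num) (by linarith) hC₁0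
    (by linarith) (by linarith)
  obtain ⟨k₃, h₃⟩ := MinChar.minC_of (δ / 4) (by linarith) (by linarith)
  obtain ⟨k₄, h₄⟩ := ev1 B C₁
  refine ⟨β * (4 * q + 4 * q * q) + 4, max (max k₁ k₂) (max k₃ k₄), fun k hk m hmk hkm P hP => ?_⟩
  have hk1' : k₁ ≤ k := ((le_max_left _ _).trans (le_max_left _ _)).trans hk
  have hk2' : k₂ ≤ k := ((le_max_right _ _).trans (le_max_left _ _)).trans hk
  have hk3' : k₃ ≤ k := ((le_max_left _ _).trans (le_max_right _ _)).trans hk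
  have hk4' : k₄ ≤ k := ((le_max_right _ _).trans (le_max_right _ _)).trans hk
  obtain ⟨hkB, hkC, hk2⟩ := h₄ k hk4'
  have hk0 : (0 : ℝ) < k := by exact_mod_cast (by omega : 0 < k)
  have hk1 : (1 : ℝ) ≤ k := by exact_mod_cast (by omega : 1 ≤ k)
  have hkm2 : (k : ℝ) ≤ 2 * m := by exact_mod_cast (by omega : k ≤ 2 * m)
  have hpF : ∀ i : {x // x ∈ P}, Fact (i : ℕ).Prime := fun i => ⟨hP.pr i.1 i.2⟩
  have hpk : ∀ i : {x // x ∈ P}, k ≤ (i : ℕ) := by
    intro i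
    have h := hP.lo i.1 i.2
    have h2 : (k : ℝ) ≤ (k : ℝ) ^ b₁ := by
      calc (k : ℝ) = (k : ℝ) ^ (1 : ℝ) := (Real.rpow_one _).symm
        _ ≤ _ := Real.rpow_le_rpow_of_exponent_le hk1 hb₁
    exact_mod_cast h2.trans h
  set s : ℝ := (k : ℝ) ^ (1 - δ / 4) with hs
  have hs0 : 0 < s := by positivity
  set T : ℝ := (k : ℝ) ^ C₁ with hT
  have hT1 : 1 ≤ T := Real.one_le_rpow hk1 hC₁0.le
  have hT0 : 0 < T := by linarith
  set NP : ℝ := ∏ p ∈ P, (p : ℝ) with hNP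
  have hNPi : ∏ i : {x // x ∈ P}, ((i : ℕ) : ℝ) = NP := by
    rw [hNP, ← Finset.prod_coe_sort P]
  have hNP1 : (1 : ℝ) ≤ NP := by
    have h : 1 ≤ ∏ p ∈ P, p := Nat.one_le_iff_ne_zero.2 (prod_ne_zero_iff.2 fun p hp => (hP.pr p hp).ne_zero)
    have h2 : ((1 : ℕ) : ℝ) ≤ ((∏ p ∈ P, p : ℕ) : ℝ) := by exact_mod_cast h
    push_cast at h2
    exact h2
  have hNPc : (2 : ℝ) ^ P.card ≤ NP := by
    have h : 2 ^ P.card ≤ ∏ p ∈ P, p := Finset.pow_card_le_prod _ _ _ fun p hp => (hP.pr p hp).two_le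
    have h2 : ((2 ^ P.card : ℕ) : ℝ) ≤ ((∏ p ∈ P, p : ℕ) : ℝ) := by exact_mod_cast h
    push_cast at h2
    exact h2
  -- facts on the groups
  have hcG : ∀ S : Finset ({x // x ∈ P} × Fin (2 * q)),
      (Fintype.card (Good439.GS (LemM203.ps (fun i : {x // x ∈ P} => (i : ℕ)) (2 * q)) S) : ℝ) *
        (1 / 2) ^ m ≤ Real.exp (-(1 / 100) * k) := by
    intro S
    have h1 := card_GS_le (fun i : {x // x ∈ P} => (i : ℕ)) (2 * q) S
    rw [hNPi] at h1
    have h2 : NP ^ (2 * q) ≤ (2 : ℝ) ^ (97 / 100 * (k : ℝ)) := by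
      calc NP ^ (2 * q) ≤ ((2 : ℝ) ^ (β * k)) ^ (2 * q) :=
            pow_le_pow_left₀ (by linarith) hP.size _
        _ = (2 : ℝ) ^ (2 * q * β * k) := by
            rw [← Real.rpow_natCast, ← Real.rpow_mul (by norm_num)]
            congr 1
            push_cast
            ring
        _ ≤ _ := Real.rpow_le_rpow_of_exponent_le (by norm_num)
            (mul_le_mul_of_nonneg_right hq hk0.le)
    have h3 : ((1 : ℝ) / 2) ^ m ≤ (2 : ℝ) ^ (-(99 / 100 * (k : ℝ))) := by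
      rw [one_div, inv_pow, Real.rpow_neg (by norm_num)]
      refine inv_anti₀ (by positivity) ?_
      rw [← Real.rpow_natCast]
      refine Real.rpow_le_rpow_of_exponent_le (by norm_num) ?_
      have : (99 * k : ℝ) ≤ 100 * m := by exact_mod_cast hkm
      linarith
    calc _ ≤ (2 : ℝ) ^ (97 / 100 * (k : ℝ)) * (2 : ℝ) ^ (-(99 / 100 * (k : ℝ))) :=
          mul_le_mul (h1.trans h2) h3 (by positivity) (by positivity)
      _ = (2 : ℝ) ^ (-(1 / 50 * (k : ℝ))) := by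
          rw [← Real.rpow_add (by norm_num)]
          congr 1
          ring
      _ ≤ _ := by
          rw [Real.rpow_def_of_pos (by norm_num)]
          apply Real.exp_le_exp.2
          have := Real.log_two_gt_d9
          nlinarith
  have hpG : ∀ S : Finset ({x // x ∈ P} × Fin (2 * q)), ∀ p : ℕ, p.Prime →
      p ∣ Fintype.card (Good439.GS (LemM203.ps (fun i : {x // x ∈ P} => (i : ℕ)) (2 * q)) S) →
      k ≤ p := fun S p hp hd => prime_GS _ (2 * q) S k hpk p hp hd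
  set X : ℝ := (k : ℝ) ^ (-(C₁ / 5) + 1 / 10) with hX
  have hlow : ∀ S : Finset ({x // x ∈ P} × Fin (2 * q)),
      ∑ w ∈ univ.filter (fun w : Fin m → Good439.GS (LemM203.ps (fun i : {x // x ∈ P} => (i : ℕ)) (2 * q)) S =>
        (NonSp s w ∧ MC.MinC s ((k : ℝ) ^ (-(3 / 2) : ℝ)) w) ∧ gZ 4 w ≤ T), gZ 4 w ^ k ≤
        (Fintype.card (Good439.GS (LemM203.ps (fun i : {x // x ∈ P} => (i : ℕ)) (2 * q)) S) : ℝ) ^ k *
          (3 ^ k * (T + 2)) := by
    intro S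
    have hfm := FirstMom685.first_moment
      (G := Good439.GS (LemM203.ps (fun i : {x // x ∈ P} => (i : ℕ)) (2 * q)) S) (M := 4)
      (by norm_num) hmk s ((k : ℝ) ^ (-(1 / 2) + δ)) T (by positivity)
      (Real.rpow_le_one_of_one_le_of_nonpos hk1 (by linarith)) hT1 (by
        intro T' hT'1 hT'2
        have h := h₁ k hk1' _ m hmk hkm2 (hpG S) (hcG S) T'
          (by
            refine le_trans ?_ hT'1
            rw [div_le_one (by positivity)]
            exact one_le_pow₀ hk1) hT'2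
        rw [max_eq_right hT'1] at h
        convert h)
    have hg : (0 : ℝ) < Fintype.card (Good439.GS (LemM203.ps (fun i : {x // x ∈ P} => (i : ℕ)) (2 * q)) S) := by
      exact_mod_cast Fintype.card_pos
    set g : ℝ := (Fintype.card (Good439.GS (LemM203.ps (fun i : {x // x ∈ P} => (i : ℕ)) (2 * q)) S) : ℝ) with hgdef
    calc _ ≤ ∑ w ∈ univ.filter (fun w : Fin m → Good439.GS (LemM203.ps (fun i : {x // x ∈ P} => (i : ℕ)) (2 * q)) S =>
          NonSp s w ∧ gZ 4 w ≤ T), gZ 4 w ^ k := by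
          refine sum_le_sum_of_subset_of_nonneg (fun w hw => ?_) fun w _ _ =>
            pow_nonneg (LemM203.gZM_nonneg (by norm_num) w) k
          rw [mem_filter] at hw ⊢
          exact ⟨hw.1, hw.2.1.1, hw.2.2⟩
      _ = g ^ k * ∑ w ∈ univ.filter (fun w : Fin m → Good439.GS (LemM203.ps (fun i : {x // x ∈ P} => (i : ℕ)) (2 * q)) S =>
          NonSp s w ∧ gZ 4 w ≤ T), (gZ 4 w / g) ^ k := by
          rw [mul_sum]
          refine sum_congr rfl fun w _ => ?_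
          rw [← mul_pow, mul_div_cancel₀ _ hg.ne']
      _ ≤ _ := mul_le_mul_of_nonneg_left hfm (by positivity)
  have hbig : ∀ S : Finset ({x // x ∈ P} × Fin (2 * q)),
      ∑ w ∈ univ.filter (fun w : Fin m → Good439.GS (LemM203.ps (fun i : {x // x ∈ P} => (i : ℕ)) (2 * q)) S =>
        (NonSp s w ∧ MC.MinC s ((k : ℝ) ^ (-(3 / 2) : ℝ)) w) ∧ T < gZ 4 w ∧ gZ 4 w ≤ (k : ℝ) ^ B * T),
        gZ 4 w ^ k ≤
        (Fintype.card (Good439.GS (LemM203.ps (fun i : {x // x ∈ P} => (i : ℕ)) (2 * q)) S) : ℝ) ^ k *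
          (k * (2 * X) ^ m) := by
    intro S
    refine LemM203.dyad (fun w : Fin m → Good439.GS (LemM203.ps (fun i : {x // x ∈ P} => (i : ℕ)) (2 * q)) S =>
      gZ 4 w) (fun w => LemM203.gZM_nonneg (by norm_num) w) _ (by exact_mod_cast Fintype.card_pos)
      (fun w => LemM203.gZM_le_card (by norm_num) w) m k hmk X T hT0 k _ ?_ ?_
    · intro i _ D hD hDy
      by_cases hTi : T * 2 ^ i ≤ (k : ℝ) ^ (C₁ + B)
      · have h := h₂ k hk2' (Good439.GS (LemM203.ps (fun i : {x // x ∈ P} => (i : ℕ)) (2 * q)) S) m hmk hkm2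
          (hpG S) (by
            have h9 := hcG S
            norm_num at h9 ⊢
            exact h9) (T * 2 ^ i)
          (le_mul_of_one_le_right hT0.le (one_le_pow₀ (by norm_num))) hTi
        refine le_trans ?_ h
        refine Nat.cast_le.2 (card_le_card fun w hw => ?_)
        have h1 := (mem_filter.1 (hD hw)).2
        rw [mem_filter]
        exact ⟨mem_univ _, h1.1.2, hDy w hw⟩
      · have hD0 : D = ∅ := by
          rw [Finset.eq_empty_iff_forall_notMem]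
          intro w hw
          have h1 := (mem_filter.1 (hD hw)).2
          have h2 := hDy w hw
          have h3 : (k : ℝ) ^ B * T = (k : ℝ) ^ (C₁ + B) := by
            rw [hT, mul_comm, ← Real.rpow_add hk0]
          have h4 := h1.2.2
          rw [h3] at h4
          exact hTi (h2.trans h4)
        rw [hD0, card_empty, Nat.cast_zero]
        positivity
    · intro w hw
      have h1 := (mem_filter.1 hw).2
      refine ⟨h1.2.1.le, lt_of_le_of_lt h1.2.2 ?_⟩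
      rw [mul_comm T]
      exact mul_lt_mul_of_pos_right hkB hT0
  set GG := (univ : Finset (Fin k → Fin m → Bool × Bool)).filter
      (fun ω => M67.rkQ (M67.mt M67.xi ω) = m ∧ ¬ M67.Sp P s (M67.mt M67.xi ω)) with hGG
  have hh1 : ∀ Y ∈ GG, ∀ S, ∀ w : Fin m → Good439.GS (LemM203.ps (fun i : {x // x ∈ P} => (i : ℕ)) (2 * q)) S,
      (∀ j, ∑ c, M67.xi (Y j c) • w c = 0) →
      LemM203.Ind (fun i : {x // x ∈ P} => (i : ℕ)) S w →
      NonSp s w ∧ MC.MinC s ((k : ℝ) ^ (-(3 / 2) : ℝ)) w := by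
    intro Y hY S w hw hi
    obtain ⟨hr, hns⟩ := (mem_filter.1 hY).2
    have hns1 : ¬ M67.Sparse P s (M67.mt M67.xi Y) := fun h => hns (Or.inl h)
    have hns2 : ¬ M67.SpB s (M67.mt M67.xi Y) := fun h => hns (Or.inr h)
    have hN : NonSp s w := by
      refine LemM203.nonsp_slots M67.xi (fun i : {x // x ∈ P} => (i : ℕ)) Subtype.val_injective Y s ?_ S w hw hi
      intro i u hu hu0
      by_contra hlt
      push Not at hlt
      refine hns1 ⟨i, i.2, u, hu0, ?_, fun r => ?_⟩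
      · convert hlt
      · have := hu r
        simp only [zsmul_eq_mul] at this
        exact this
    refine ⟨hN, ?_⟩
    exact h₃ k hk3' m hmk (M67.mt M67.xi Y) (fun i j => xi_abs _) hr hns2 _ w hw (by
      intro ψ hψ
      have h := hN ψ hψ
      by_contra hcon
      push Not at hcon
      have h0 : (univ.filter fun c => ψ (w c) ≠ 1) = ∅ := by
        rw [filter_eq_empty_iff]
        intro c _
        simp [hcon c]
      have h5 : s ≤ 0 := by
        refine h.trans ?_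
        have h6 : ((univ.filter fun c => ψ (w c) ≠ 1).card : ℝ) = 0 := by
          rw [h0]; simp
        convert h6.le
      linarith)
  have hRR : ∀ Y ∈ GG, ((LemM203.Wq M67.xi (fun i : {x // x ∈ P} => (i : ℕ)) (2 * q) Y : ℕ) : ℝ) ≤
      ((k : ℝ) ^ k) ^ q := by
    intro Y hY
    obtain ⟨hr, -⟩ := (mem_filter.1 hY).2
    rw [← wq_eq P q Y]
    refine (MomGlue539.W_pow_le _ P hP.pr (fun i j => xi_abs _) hr q).trans ?_
    refine pow_le_pow_left₀ (by positivity) ?_ q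
    calc (m : ℝ) ^ m ≤ (k : ℝ) ^ m := pow_le_pow_left₀ (by positivity) (by exact_mod_cast hmk) _
      _ ≤ (k : ℝ) ^ k := pow_le_pow_right₀ hk1 hmk
  have hcore := LemM203.core (q := 2 * q) M67.xi (fun i : {x // x ∈ P} => (i : ℕ)) (M := 4)
    (by norm_num) domM4 (a := m) (k := k) GG
    (fun S w => NonSp s w ∧ MC.MinC s ((k : ℝ) ^ (-(3 / 2) : ℝ)) w) T ((k : ℝ) ^ B)
    (3 ^ k * (T + 2)) (k * (2 * X) ^ m) (((k : ℝ) ^ k) ^ q) hT1
    (fun i => hP.hi i.1 i.2) (by positivity) hh1 (fun S => by convert hlow S) (fun S => by convert hbig S) hRR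
  have hsum : ∑ ω ∈ GG, M67.W P (M67.mt M67.xi ω) ^ q =
      ∑ Y ∈ GG, ((LemM203.Wq M67.xi (fun i : {x // x ∈ P} => (i : ℕ)) (2 * q) Y : ℕ) : ℝ) :=
    sum_congr rfl fun Y _ => wq_eq P q Y
  have hfin := final_num q k β C₁ NP P.card hNP1 hP.size hNPc hkC
    ((2 : ℝ) ^ (P.card * (2 * q)) * NP ^ ((2 * q) * (2 * q)))
    (((k : ℝ) ^ k) ^ q * (k * (2 * X) ^ m)) rfl (by
      have h := big_num q k m hk2 hmk hkm2
      exact h)
  have hprod : ((∏ i : {x // x ∈ P}, 2 ^ (2 * q) * (i : ℕ) ^ ((2 * q) * (2 * q)) : ℕ) : ℝ) =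
      (2 : ℝ) ^ (P.card * (2 * q)) * NP ^ ((2 * q) * (2 * q)) := by
    push_cast
    rw [prod_mul_distrib, prod_const, card_univ, Fintype.card_coe, ← pow_mul, prod_pow, hNPi,
      mul_comm (2 * q) P.card]
  have hgoal : ∑ ω ∈ GG, M67.W P (M67.mt M67.xi ω) ^ q ≤
      (2 : ℝ) ^ ((β * (4 * q + 4 * q * q) + 4) * k) * (4 : ℝ) ^ (k * m) := by
    rw [hsum]
    refine hcore.trans ?_
    rw [hprod, Fintype.card_coe]
    have h4 : (Fintype.card (Bool × Bool) : ℝ) = 4 := by simp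
    rw [h4, mul_comm ((4 : ℝ) ^ (m * k)), mul_comm k m]
    exact mul_le_mul_of_nonneg_right hfin (by positivity)
  convert hgoal

end Vale.Agent.P160.Half.Mom695
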