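import Vale.Agent.P160.Half.LemM203
import Vale.Agent.P160.Half.LemMI1h708
import Vale.Agent.P160.Half.LemMI2
import Vale.Agent.P160.Half.MC986
import Vale.Agent.P160.Half.Four817d

/-! P160-HALF, block (M): LEMMA M (`M67.StmtMom 3 β`, `β ≤ 1/8`), assembly (second copy, helper817). -/

namespace Vale.Agent.P160.Half.Mom817

open Finset Filter Vale.Agent.P160 Vale.Agent.P160.Half.Flat Vale.Agent.P160.Half.Good439 Vale.Agent.P160.Half.LemM203

lemma ev_two_pow (C : ℝ) : ∀ᶠ k : ℕ in atTop, (k : ℝ) ^ C < 2 ^ k := by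
  have h := (isLittleO_rpow_exp_pos_mul_atTop C (Real.log_pos (by norm_num : (1 : ℝ) < 2))).def
    (show (0 : ℝ) < 1 / 2 by norm_num)
  have h2 := tendsto_natCast_atTop_atTop (R := ℝ) |>.eventually h
  filter_upwards [h2] with k hk
  rw [Real.norm_of_nonneg (Real.rpow_nonneg (by positivity) _),
    Real.norm_of_nonneg (Real.exp_pos _).le] at hk
  have e : Real.exp (Real.log 2 * k) = 2 ^ k := by
    rw [mul_comm, Real.exp_nat_mul, Real.exp_log (by norm_num)]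
  rw [e] at hk
  have : (0 : ℝ) < 2 ^ k := by positivity
  linarith

lemma gz4_nonneg {G : Type} [AddCommGroup G] [Fintype G] {m : ℕ} (y : Fin m → G) : 0 ≤ gZ 4 y :=
  gZM_nonneg (by norm_num) y

open scoped Classical in
/-- low part of the moment -/
theorem low_sum (δ c C₁ : ℝ) (hδ : 0 < δ) (hδ1 : δ ≤ 1 / 4) (hc : 0 < c) (hC₁ : 0 < C₁) :
    ∃ k₀ : ℕ, ∀ k ≥ k₀, ∀ (G : Type) [AddCommGroup G] [Fintype G] (m : ℕ), m ≤ k →
      (k : ℝ) ≤ 2 * m → (∀ p : ℕ, p.Prime → p ∣ Fintype.card G → k ≤ p) →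
      (Fintype.card G : ℝ) * (1 / 2) ^ m ≤ Real.exp (-c * k) →
      ∀ PP : (Fin m → G) → Prop, (∀ w, PP w → NonSp ((k : ℝ) ^ (1 - δ / 4)) w) →
      ∑ w ∈ univ.filter (fun w : Fin m → G => PP w ∧ gZ 4 w ≤ (k : ℝ) ^ C₁), gZ 4 w ^ k ≤
        (Fintype.card G : ℝ) ^ k * (3 + k) := by
  obtain ⟨k₁, h1⟩ := Flat4.countG4 δ c C₁ hδ (by linarith) hc hC₁
  obtain ⟨k₂, h2⟩ := eventually_atTop.1 ((ev_two_pow C₁).and
    ((Flat.C743.ev_const 4 (show (0 : ℝ) < 1 / 4 by norm_num)).and (eventually_ge_atTop 1)))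
  refine ⟨max k₁ k₂, fun k hk G _ _ m hmk hkm hp hg PP hPP => ?_⟩
  have hk1 := (le_max_left _ _).trans hk
  obtain ⟨h3, h4, h5⟩ := h2 k ((le_max_right _ _).trans hk)
  have hkr : (1 : ℝ) ≤ k := by exact_mod_cast h5
  have hk0 : (0 : ℝ) < k := by linarith
  have hG1 : (1 : ℝ) ≤ Fintype.card G := by exact_mod_cast Fintype.card_pos (α := G)
  set F := univ.filter (fun w : Fin m → G => PP w ∧ gZ 4 w ≤ (k : ℝ) ^ C₁) with hF
  rw [← sum_filter_add_sum_filter_not F (fun w => gZ 4 w ≤ 1 + 1 / (k : ℝ))]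
  have hA : ∑ w ∈ F.filter (fun w => gZ 4 w ≤ 1 + 1 / (k : ℝ)), gZ 4 w ^ k ≤
      (Fintype.card G : ℝ) ^ k * 3 := by
    have hexp : (1 + 1 / (k : ℝ)) ^ k ≤ 3 := by
      have h6 := Real.add_one_le_exp (1 / (k : ℝ))
      calc (1 + 1 / (k : ℝ)) ^ k ≤ (Real.exp (1 / k)) ^ k :=
            pow_le_pow_left₀ (by positivity) (by linarith) _
        _ = Real.exp 1 := by
            rw [← Real.exp_nat_mul]
            congr 1
            field_simp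
        _ ≤ 3 := by have := Real.exp_one_lt_d9; linarith
    have hcardF : ((F.filter (fun w => gZ 4 w ≤ 1 + 1 / (k : ℝ))).card : ℝ) ≤
        (Fintype.card G : ℝ) ^ m := by
      have := card_le_univ (F.filter (fun w => gZ 4 w ≤ 1 + 1 / (k : ℝ)))
      rw [Fintype.card_fun, Fintype.card_fin] at this
      exact_mod_cast this
    calc ∑ w ∈ F.filter (fun w => gZ 4 w ≤ 1 + 1 / (k : ℝ)), gZ 4 w ^ k
        ≤ ∑ _w ∈ F.filter (fun w => gZ 4 w ≤ 1 + 1 / (k : ℝ)), (3 : ℝ) :=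
          sum_le_sum fun w hw => (pow_le_pow_left₀ (gz4_nonneg w) (mem_filter.1 hw).2 k).trans hexp
      _ = (F.filter (fun w => gZ 4 w ≤ 1 + 1 / (k : ℝ))).card * 3 := by
          rw [sum_const, nsmul_eq_mul]
      _ ≤ (Fintype.card G : ℝ) ^ m * 3 := mul_le_mul_of_nonneg_right hcardF (by norm_num)
      _ ≤ (Fintype.card G : ℝ) ^ k * 3 :=
          mul_le_mul_of_nonneg_right (pow_le_pow_right₀ hG1 hmk) (by norm_num)
  have hB : ∑ w ∈ F.filter (fun w => ¬ gZ 4 w ≤ 1 + 1 / (k : ℝ)), gZ 4 w ^ k ≤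
      (Fintype.card G : ℝ) ^ k * k := by
    have h6 := dyad (fun w : Fin m → G => gZ 4 w) gz4_nonneg (Fintype.card G : ℝ) (by linarith)
      (fun y => gZM_le_card (by norm_num) y) m k hmk (2 * (k : ℝ) ^ (-(1 / 2) + δ)) (1 + 1 / (k : ℝ))
      (by positivity) k (F.filter (fun w => ¬ gZ 4 w ≤ 1 + 1 / (k : ℝ))) ?_ ?_
    · refine h6.trans (mul_le_mul_of_nonneg_left ?_ (by positivity))
      have h7 : (2 * (2 * (k : ℝ) ^ (-(1 / 2) + δ))) ^ m ≤ 1 := by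
        refine pow_le_one₀ (by positivity) ?_
        have h8 : (k : ℝ) ^ (-(1 / 2) + δ) ≤ (k : ℝ) ^ (-(1 / 4) : ℝ) :=
          Real.rpow_le_rpow_of_exponent_le hkr (by linarith)
        have h9 : (k : ℝ) ^ (-(1 / 4) : ℝ) * (k : ℝ) ^ (1 / 4 : ℝ) = 1 := by
          rw [← Real.rpow_add hk0]
          norm_num
        have h10 : 0 < (k : ℝ) ^ (-(1 / 4) : ℝ) := Real.rpow_pos_of_pos hk0 _
        nlinarith
      nlinarith
    · intro i _ D hD hDi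
      rcases D.eq_empty_or_nonempty with rfl | ⟨y, hy⟩
      · rw [card_empty, Nat.cast_zero]
        positivity
      · have hyF := (mem_filter.1 (mem_filter.1 (hD hy)).1).2
        have hT1 : (1 + 1 / (k : ℝ)) * 2 ^ i ≤ (k : ℝ) ^ C₁ := (hDi y hy).trans hyF.2
        have h2i : (1 : ℝ) ≤ 2 ^ i := one_le_pow₀ (by norm_num)
        have hU1 : 1 + 1 / (k : ℝ) ≤ (1 + 1 / (k : ℝ)) * 2 ^ i := by
          have : (0 : ℝ) ≤ 1 + 1 / (k : ℝ) := by positivity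
          nlinarith
        set T' : ℝ := (1 + 1 / (k : ℝ)) * 2 ^ i - 1 with hT'
        have hcnt := h1 k hk1 G m hmk hkm hp hg T' (by linarith) (by linarith)
        have hsub : (D.card : ℝ) ≤ ((univ.filter fun y : Fin m → G =>
            NonSp ((k : ℝ) ^ (1 - δ / 4)) y ∧ 1 + T' ≤ gZ 4 y).card : ℝ) := by
          refine Nat.cast_le.2 (card_le_card fun w hw => ?_)
          rw [mem_filter]
          have hwF := (mem_filter.1 (mem_filter.1 (hD hw)).1).2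
          exact ⟨mem_univ _, hPP w hwF.1, by have := hDi w hw; linarith⟩
        refine hsub.trans (hcnt.trans (mul_le_mul_of_nonneg_left ?_ (by positivity)))
        refine pow_le_pow_left₀ (by positivity) ?_ _
        have hM1 : (1 : ℝ) ≤ max 1 T' := le_max_left _ _
        have hM2 : T' ≤ max 1 T' := le_max_right _ _
        have hUpos : 0 < (1 + 1 / (k : ℝ)) * 2 ^ i := by positivity
        rw [div_le_div_iff₀ (by linarith) hUpos]
        have hq : 0 ≤ (k : ℝ) ^ (-(1 / 2) + δ) := Real.rpow_nonneg hk0.le _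
        have : (1 + 1 / (k : ℝ)) * 2 ^ i ≤ 2 * max 1 T' := by linarith
        calc (k : ℝ) ^ (-(1 / 2) + δ) * ((1 + 1 / (k : ℝ)) * 2 ^ i) ≤
              (k : ℝ) ^ (-(1 / 2) + δ) * (2 * max 1 T') := mul_le_mul_of_nonneg_left this hq
          _ = _ := by ring
    · intro y hy
      rw [mem_filter] at hy
      obtain ⟨hy1, hy2⟩ := hy
      push Not at hy2
      have hy3 := (mem_filter.1 hy1).2.2
      refine ⟨hy2.le, lt_of_le_of_lt hy3 (lt_of_lt_of_le h3 ?_)⟩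
      have : (0 : ℝ) < 2 ^ k := by positivity
      have h7 : (0 : ℝ) ≤ 1 / (k : ℝ) := by positivity
      nlinarith
  calc _ ≤ (Fintype.card G : ℝ) ^ k * 3 + (Fintype.card G : ℝ) ^ k * k := add_le_add hA hB
    _ = _ := by ring

open scoped Classical in
/-- big part of the moment -/
theorem big_sum (c C₁ B d : ℝ) (hc : 0 < c) (hC₁ : 0 < C₁) (hB : 0 < B) (hd : 0 < d)
    (hd' : d ≤ 1 / 12) :
    ∃ k₀ : ℕ, ∀ k ≥ k₀, ∀ (G : Type) [AddCommGroup G] [Fintype G] (m : ℕ), m ≤ k →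
      (k : ℝ) ≤ 2 * m → (∀ p : ℕ, p.Prime → p ∣ Fintype.card G → k ≤ p) →
      (Fintype.card G : ℝ) * (1 / 2) ^ m ≤ Real.exp (-c * k) →
      ∀ PP : (Fin m → G) → Prop,
      (∀ w, PP w → MC.MinC ((k : ℝ) ^ (1 - d)) ((k : ℝ) ^ (-(3 / 2) : ℝ)) w) →
      ∑ w ∈ univ.filter (fun w : Fin m → G => PP w ∧ (k : ℝ) ^ C₁ < gZ 4 w ∧
        gZ 4 w ≤ (k : ℝ) ^ B * (k : ℝ) ^ C₁), gZ 4 w ^ k ≤
        (Fintype.card G : ℝ) ^ k * (k * (2 * (k : ℝ) ^ (-(C₁ / 5) + 1 / 10)) ^ m) := by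
  obtain ⟨k₁, h1⟩ := MC.mc 4 le_rfl c (B + C₁) C₁ d hc (by linarith) hC₁ hd hd'
  obtain ⟨k₂, h2⟩ := eventually_atTop.1 ((ev_two_pow B).and (eventually_ge_atTop 1))
  refine ⟨max k₁ k₂, fun k hk G _ _ m hmk hkm hp hg PP hPP => ?_⟩
  have hk1 := (le_max_left _ _).trans hk
  obtain ⟨h3, h5⟩ := h2 k ((le_max_right _ _).trans hk)
  have hkr : (1 : ℝ) ≤ k := by exact_mod_cast h5
  have hk0 : (0 : ℝ) < k := by linarith
  have hG1 : (1 : ℝ) ≤ Fintype.card G := by exact_mod_cast Fintype.card_pos (α := G)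
  have hg' : (Fintype.card G : ℝ) * (1 - 2 / ((4 : ℕ) : ℝ)) ^ m ≤ Real.exp (-c * k) := by
    have e : (1 : ℝ) - 2 / ((4 : ℕ) : ℝ) = 1 / 2 := by norm_num
    rw [e]
    exact hg
  have hU0 : 0 < (k : ℝ) ^ C₁ := Real.rpow_pos_of_pos hk0 _
  refine dyad (fun w : Fin m → G => gZ 4 w) gz4_nonneg (Fintype.card G : ℝ) (by linarith)
    (fun y => gZM_le_card (by norm_num) y) m k hmk ((k : ℝ) ^ (-(C₁ / 5) + 1 / 10)) ((k : ℝ) ^ C₁)
    hU0 k _ ?_ ?_
  · intro i _ D hD hDi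
    rcases D.eq_empty_or_nonempty with rfl | ⟨y, hy⟩
    · rw [card_empty, Nat.cast_zero]
      positivity
    · have hyF := (mem_filter.1 (hD hy)).2
      have h2i : (1 : ℝ) ≤ 2 ^ i := one_le_pow₀ (by norm_num)
      have hT1 : (k : ℝ) ^ C₁ ≤ (k : ℝ) ^ C₁ * 2 ^ i := by nlinarith
      have hT2 : (k : ℝ) ^ C₁ * 2 ^ i ≤ (k : ℝ) ^ (B + C₁) := by
        rw [Real.rpow_add hk0]
        exact (hDi y hy).trans hyF.2.2
      have hcnt := h1 k hk1 G m hmk hkm hp hg' ((k : ℝ) ^ C₁ * 2 ^ i) hT1 hT2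
      refine le_trans (Nat.cast_le.2 (card_le_card fun w hw => ?_)) hcnt
      rw [mem_filter]
      exact ⟨mem_univ _, hPP w (mem_filter.1 (hD hw)).2.1, hDi w hw⟩
  · intro y hy
    rw [mem_filter] at hy
    obtain ⟨-, -, hy2, hy3⟩ := hy
    refine ⟨hy2.le, lt_of_le_of_lt hy3 ?_⟩
    rw [mul_comm]
    exact mul_lt_mul_of_pos_left h3 hU0


section slots

variable {P : Finset ℕ}

/-- order of the slot group -/
lemma card_slots_le [∀ i : {x // x ∈ P}, Fact ((i : ℕ)).Prime] (q : ℕ)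
    (S : Finset ({x // x ∈ P} × Fin q)) :
    (Fintype.card (GS (ps (fun i : {x // x ∈ P} => (i : ℕ)) q) S) : ℝ) ≤ (∏ p ∈ P, (p : ℝ)) ^ q := by
  rw [Good439.card_GS]
  have h1 : ∏ i ∈ S, ps (fun i : {x // x ∈ P} => (i : ℕ)) q i ≤
      ∏ i : {x // x ∈ P} × Fin q, ps (fun i : {x // x ∈ P} => (i : ℕ)) q i :=
    prod_le_prod_of_subset_of_one_le' (subset_univ S) fun i _ _ => (Fact.out (p := (i.1 : ℕ).Prime)).one_le
  have h2 : ∏ i : {x // x ∈ P} × Fin q, ps (fun i : {x // x ∈ P} => (i : ℕ)) q i = (∏ p ∈ P, p) ^ q := by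
    rw [Fintype.prod_prod_type]
    simp only [ps, prod_const, card_univ, Fintype.card_fin]
    rw [← prod_pow]
    exact prod_coe_sort P (fun p => p ^ q)
  rw [h2] at h1
  calc _ ≤ (((∏ p ∈ P, p) ^ q : ℕ) : ℝ) := by exact_mod_cast h1
    _ = _ := by push_cast; rfl

lemma prime_dvd_slots [∀ i : {x // x ∈ P}, Fact ((i : ℕ)).Prime] (q : ℕ)
    (S : Finset ({x // x ∈ P} × Fin q)) {r : ℕ} (hr : r.Prime)
    (hd : r ∣ Fintype.card (GS (ps (fun i : {x // x ∈ P} => (i : ℕ)) q) S)) : r ∈ P := by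
  rw [Good439.card_GS] at hd
  obtain ⟨i, _, hi⟩ := (Prime.dvd_finsetProd_iff hr.prime _).1 hd
  have := (Nat.prime_dvd_prime_iff_eq hr (Fact.out (p := (i.1 : ℕ).Prime))).1 hi
  rw [this]
  exact i.1.2

end slots

lemma W_nonneg (P : Finset ℕ) {k m : ℕ} (M : Matrix (Fin k) (Fin m) ℤ) : 0 ≤ M67.W P M := by
  unfold M67.W
  exact prod_nonneg fun p _ => by positivity

open scoped Classical in
/-- the numbers of the final step -/
theorem final_num {β : ℝ} (hβ : β ≤ 1 / 8) {k m : ℕ} (P : Finset ℕ)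
    [∀ i : {x // x ∈ P}, Fact ((i : ℕ)).Prime]
    (hP1 : (∏ p ∈ P, (p : ℝ)) ≤ (2 : ℝ) ^ (β * k)) (hk : 1 ≤ k) (hmk : m ≤ k)
    (hm : 99 * k ≤ 100 * m) :
    (2 : ℝ) ^ (Fintype.card {x // x ∈ P} * (2 * 3)) *
      (((∏ i : {x // x ∈ P}, 2 ^ (2 * 3) * (i : ℕ) ^ ((2 * 3) * (2 * 3)) : ℕ) : ℝ) * (3 + k) +
        ((k : ℝ) ^ k) ^ 3 * (k * (2 * (k : ℝ) ^ (-(20 / 5) + 1 / 10 : ℝ)) ^ m)) ≤
      (2 : ℝ) ^ ((30 : ℝ) * k) := by
  have hk1 : (1 : ℝ) ≤ k := by exact_mod_cast hk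
  have hk0 : (0 : ℝ) < k := by linarith
  have hb : (2 : ℝ) ^ (β * k) ≤ 2 ^ k := by
    rw [← Real.rpow_natCast 2 k]
    exact Real.rpow_le_rpow_of_exponent_le (by norm_num) (by nlinarith)
  have hN : (∏ p ∈ P, (p : ℝ)) ≤ 2 ^ k := hP1.trans hb
  have hN8 : (∏ p ∈ P, (p : ℝ)) ^ 8 ≤ 2 ^ k := by
    calc (∏ p ∈ P, (p : ℝ)) ^ 8 ≤ ((2 : ℝ) ^ (β * k)) ^ 8 :=
          pow_le_pow_left₀ (prod_nonneg fun p _ => by positivity) hP1 8
      _ = (2 : ℝ) ^ (8 * (β * k)) := by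
          rw [← Real.rpow_natCast, ← Real.rpow_mul (by norm_num)]
          congr 1
          push_cast
          ring
      _ ≤ (2 : ℝ) ^ (k : ℝ) := Real.rpow_le_rpow_of_exponent_le (by norm_num) (by nlinarith)
      _ = 2 ^ k := Real.rpow_natCast _ _
  have hcard : P.card ≤ k := by
    have h1 : (2 : ℝ) ^ P.card ≤ ∏ p ∈ P, (p : ℝ) := by
      rw [← prod_const]
      refine prod_le_prod (fun _ _ => by norm_num) fun p hp => ?_
      have := (Fact.out (p := (((⟨p, hp⟩ : {x // x ∈ P}) : ℕ)).Prime)).two_le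
      exact_mod_cast this
    have h2 := h1.trans hN
    exact (pow_le_pow_iff_right₀ (by norm_num : (1 : ℝ) < 2)).1 h2
  have hci : Fintype.card {x // x ∈ P} = P.card := Fintype.card_coe P
  have h1 : (2 : ℝ) ^ (Fintype.card {x // x ∈ P} * (2 * 3)) ≤ 2 ^ (6 * k) := by
    refine pow_le_pow_right₀ (by norm_num) ?_
    rw [hci]
    omega
  have h2 : ((∏ i : {x // x ∈ P}, 2 ^ (2 * 3) * (i : ℕ) ^ ((2 * 3) * (2 * 3)) : ℕ) : ℝ) ≤ 2 ^ (11 * k) := by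
    have e : ((∏ i : {x // x ∈ P}, 2 ^ (2 * 3) * (i : ℕ) ^ ((2 * 3) * (2 * 3)) : ℕ) : ℝ) =
        2 ^ (6 * P.card) * (∏ p ∈ P, (p : ℝ)) ^ 36 := by
      rw [prod_mul_distrib, prod_const, card_univ, hci, prod_coe_sort P (fun p => p ^ ((2 * 3) * (2 * 3))),
        prod_pow]
      push_cast
      have h64 : (64 : ℝ) ^ P.card = 2 ^ (6 * P.card) := by rw [pow_mul]; norm_num
      rw [h64]
    rw [e]
    have h3 : (1 : ℝ) ≤ ∏ p ∈ P, (p : ℝ) := by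
      have : 1 ≤ ∏ p ∈ P, p := Finset.one_le_prod' fun p hp =>
        (Fact.out (p := (((⟨p, hp⟩ : {x // x ∈ P}) : ℕ)).Prime)).one_le
      have h3' : ((1 : ℕ) : ℝ) ≤ ((∏ p ∈ P, p : ℕ) : ℝ) := Nat.cast_le.2 this
      rwa [Nat.cast_prod, Nat.cast_one] at h3'
    have h36 : (∏ p ∈ P, (p : ℝ)) ^ 36 ≤ 2 ^ (5 * k) := by
      calc (∏ p ∈ P, (p : ℝ)) ^ 36 ≤ (∏ p ∈ P, (p : ℝ)) ^ 40 := pow_le_pow_right₀ h3 (by norm_num)
        _ = ((∏ p ∈ P, (p : ℝ)) ^ 8) ^ 5 := by rw [← pow_mul]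
        _ ≤ (2 ^ k) ^ 5 := pow_le_pow_left₀ (by positivity) hN8 5
        _ = 2 ^ (5 * k) := by rw [← pow_mul, mul_comm]
    calc (2 : ℝ) ^ (6 * P.card) * (∏ p ∈ P, (p : ℝ)) ^ 36 ≤ 2 ^ (6 * k) * 2 ^ (5 * k) :=
          mul_le_mul (pow_le_pow_right₀ (by norm_num) (by omega)) h36 (by positivity) (by positivity)
      _ = 2 ^ (11 * k) := by rw [← pow_add]; congr 1; ring
  have hkk : (k : ℝ) ≤ 2 ^ k := by exact_mod_cast (Nat.lt_two_pow_self (n := k)).le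
  have h3k : (3 : ℝ) + k ≤ 2 ^ (3 * k) := by
    have h4 : (2 : ℝ) ^ (3 * k) = 2 ^ k * 2 ^ k * 2 ^ k := by
      rw [← pow_add, ← pow_add]; congr 1; ring
    have h5 : (2 : ℝ) ≤ 2 ^ k := by
      calc (2 : ℝ) = 2 ^ 1 := by norm_num
        _ ≤ 2 ^ k := pow_le_pow_right₀ (by norm_num) hk
    rw [h4]
    nlinarith [mul_pos (show (0 : ℝ) < 2 ^ k by positivity) (show (0 : ℝ) < 2 ^ k by positivity)]
  have hbig : ((k : ℝ) ^ k) ^ 3 * (k * (2 * (k : ℝ) ^ (-(20 / 5) + 1 / 10 : ℝ)) ^ m) ≤ 2 ^ (2 * k) := by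
    have e1 : ((k : ℝ) ^ k) ^ 3 = (k : ℝ) ^ ((3 : ℝ) * k) := by
      rw [← Real.rpow_natCast, ← Real.rpow_natCast, ← Real.rpow_mul hk0.le]
      congr 1
      push_cast
      ring
    have e2 : (2 * (k : ℝ) ^ (-(20 / 5) + 1 / 10 : ℝ)) ^ m = 2 ^ m * (k : ℝ) ^ ((-(20 / 5) + 1 / 10 : ℝ) * m) := by
      rw [mul_pow, ← Real.rpow_natCast ((k : ℝ) ^ _) m, ← Real.rpow_mul hk0.le]
    rw [e1, e2]
    have hmr : (99 : ℝ) * k ≤ 100 * m := by exact_mod_cast hm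
    have h4 : (k : ℝ) ^ ((3 : ℝ) * k) * (k : ℝ) ^ ((-(20 / 5) + 1 / 10 : ℝ) * m) ≤ 1 := by
      rw [← Real.rpow_add hk0]
      refine Real.rpow_le_one_of_one_le_of_nonpos hk1 ?_
      linarith
    have h5 : (2 : ℝ) ^ m ≤ 2 ^ k := pow_le_pow_right₀ (by norm_num) hmk
    calc (k : ℝ) ^ ((3 : ℝ) * k) * (k * (2 ^ m * (k : ℝ) ^ ((-(20 / 5) + 1 / 10 : ℝ) * m)))
        = ((k : ℝ) ^ ((3 : ℝ) * k) * (k : ℝ) ^ ((-(20 / 5) + 1 / 10 : ℝ) * m)) * (k * 2 ^ m) := by ring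
      _ ≤ 1 * (2 ^ k * 2 ^ k) := by
          refine mul_le_mul h4 (mul_le_mul hkk h5 (by positivity) (by positivity)) (by positivity) (by norm_num)
      _ = 2 ^ (2 * k) := by rw [one_mul, ← pow_add]; congr 1; ring
  have hfin : (2 : ℝ) ^ (6 * k) * (2 ^ (11 * k) * 2 ^ (3 * k) + 2 ^ (2 * k)) ≤ 2 ^ (30 * k) := by
    have h6 : (2 : ℝ) ^ (11 * k) * 2 ^ (3 * k) + 2 ^ (2 * k) ≤ 2 ^ (15 * k) := by
      have h7 : (2 : ℝ) ^ (11 * k) * 2 ^ (3 * k) = 2 ^ (14 * k) := by rw [← pow_add]; congr 1; ring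
      have h8 : (2 : ℝ) ^ (2 * k) ≤ 2 ^ (14 * k) := pow_le_pow_right₀ (by norm_num) (by omega)
      have h9 : (2 : ℝ) ^ (15 * k) = 2 ^ (14 * k) * 2 ^ k := by rw [← pow_add]; congr 1; ring
      have h5 : (2 : ℝ) ≤ 2 ^ k := by
        calc (2 : ℝ) = 2 ^ 1 := by norm_num
          _ ≤ 2 ^ k := pow_le_pow_right₀ (by norm_num) hk
      rw [h7, h9]
      nlinarith [show (0 : ℝ) < 2 ^ (14 * k) by positivity]
    calc (2 : ℝ) ^ (6 * k) * (2 ^ (11 * k) * 2 ^ (3 * k) + 2 ^ (2 * k)) ≤ 2 ^ (6 * k) * 2 ^ (15 * k) :=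
          mul_le_mul_of_nonneg_left h6 (by positivity)
      _ = 2 ^ (21 * k) := by rw [← pow_add]; congr 1; ring
      _ ≤ 2 ^ (30 * k) := pow_le_pow_right₀ (by norm_num) (by omega)
  have e30 : (2 : ℝ) ^ ((30 : ℝ) * k) = 2 ^ (30 * k) := by
    rw [← Real.rpow_natCast]
    congr 1
    push_cast
    ring
  rw [e30]
  refine le_trans ?_ hfin
  refine mul_le_mul h1 (add_le_add (mul_le_mul h2 h3k (by positivity) (by positivity)) hbig) ?_ (by positivity)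
  positivity

open scoped Classical in
/-- **LEMMA M** for the sixth moment -/
theorem mom3 {β : ℝ} (hβ : β ≤ 1 / 8) : M67.StmtMom 3 β := by
  intro δ b₁ B hδ hδ1 hb₁ hB
  obtain ⟨k₁, H1⟩ := low_sum δ (1 / 10) 20 hδ (by linarith) (by norm_num) (by norm_num)
  obtain ⟨k₂, H2⟩ := big_sum (1 / 10) 20 B (δ / 4) (by norm_num) (by norm_num) (by linarith)
    (by positivity) (by linarith)
  obtain ⟨k₃, H3⟩ := eventually_atTop.1 ((Flat.C743.ev_const 16 (show (0 : ℝ) < δ / 4 by positivity)).and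
    (eventually_ge_atTop 100))
  refine ⟨30, max k₁ (max k₂ k₃), fun k hk m hmk hm99 P hP => ?_⟩
  have hk1 : k₁ ≤ k := (le_max_left _ _).trans hk
  have hk2 : k₂ ≤ k := ((le_max_left _ _).trans (le_max_right _ _)).trans hk
  obtain ⟨h16, h100⟩ := H3 k (((le_max_right _ _).trans (le_max_right _ _)).trans hk)
  have hkr : (1 : ℝ) ≤ k := by exact_mod_cast (by omega : 1 ≤ k)
  have hk0 : (0 : ℝ) < k := by linarith
  have hm99r : (99 : ℝ) * k ≤ 100 * m := by exact_mod_cast hm99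
  have hF : ∀ i : {x // x ∈ P}, Fact ((i : ℕ)).Prime := fun i => ⟨hP.pr i i.2⟩
  set s : ℝ := (k : ℝ) ^ (1 - δ / 4) with hs
  have hs1 : 1 ≤ s := Real.one_le_rpow hkr (by linarith)
  set GG : Finset (Fin k → Fin m → Bool × Bool) := univ.filter (fun ω =>
    M67.rkQ (M67.mt M67.xi ω) = m ∧ ¬ M67.Sp P s (M67.mt M67.xi ω)) with hGG
  -- properties of kernel tuples
  have hprop : ∀ Y ∈ GG, ∀ S : Finset ({x // x ∈ P} × Fin (2 * 3)),
      ∀ w : Fin m → GS (ps (fun i : {x // x ∈ P} => (i : ℕ)) (2 * 3)) S,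
      (∀ j, ∑ c, M67.xi (Y j c) • w c = 0) → Ind (fun i : {x // x ∈ P} => (i : ℕ)) S w →
      (NonSp s w ∧ MC.MinC s ((k : ℝ) ^ (-(3 / 2) : ℝ)) w) := by
    intro Y hY S w hker hind
    obtain ⟨hr, hsp⟩ := (mem_filter.1 hY).2
    have hspA : ¬ M67.Sparse P s (M67.mt M67.xi Y) := fun h => hsp (Or.inl h)
    have hspB : ¬ M67.SpB s (M67.mt M67.xi Y) := fun h => hsp (Or.inr h)
    have hns : NonSp s w := by
      refine nonsp_slots M67.xi (fun i : {x // x ∈ P} => (i : ℕ)) Subtype.val_injective Y s ?_ S w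
        hker hind
      intro i u hu hu0
      by_contra hcon
      push Not at hcon
      refine hspA ⟨i, i.2, u, hu0, ?_, fun j => ?_⟩
      · convert hcon
      · have h1 := (mem_Ker M67.xi).1 hu j
        rw [← h1]
        refine sum_congr rfl fun c _ => ?_
        rw [zsmul_eq_mul]
        rfl
    refine ⟨hns, fun ψ hψ F hFc => ?_⟩
    have hex : ∃ c, ψ (w c) ≠ 1 := by
      have h1 := hns ψ hψ
      have h2 : (0 : ℝ) < ((univ.filter fun c => ψ (w c) ≠ 1).card : ℝ) := by linarith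
      have h3 : 0 < (univ.filter fun c => ψ (w c) ≠ 1).card := by exact_mod_cast h2
      obtain ⟨c, hc⟩ := card_pos.1 h3
      exact ⟨c, (mem_filter.1 hc).2⟩
    have h4 := minN_chord s hs1 (by omega) Y hr hspB w hker ψ hex F hFc
    refine lt_of_le_of_lt ?_ h4
    refine pow_le_pow_left₀ (by positivity) ?_ 2
    have hsq : Real.sqrt k = (k : ℝ) ^ (1 / 2 : ℝ) := Real.sqrt_eq_rpow _
    rw [hsq, hs, Real.rpow_neg hk0.le, ← one_div]
    refine one_div_le_one_div_of_le (by positivity) ?_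
    calc 16 * (k : ℝ) ^ (1 / 2 : ℝ) * (k : ℝ) ^ (1 - δ / 4) = 16 * (k : ℝ) ^ (3 / 2 - δ / 4) := by
          rw [mul_assoc, ← Real.rpow_add hk0]
          congr 2
          ring
      _ ≤ (k : ℝ) ^ (δ / 4) * (k : ℝ) ^ (3 / 2 - δ / 4) :=
          mul_le_mul_of_nonneg_right h16 (by positivity)
      _ = (k : ℝ) ^ (3 / 2 : ℝ) := by
          rw [← Real.rpow_add hk0]
          congr 1
          ring
  -- groups
  have hgrp : ∀ S : Finset ({x // x ∈ P} × Fin (2 * 3)),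
      (Fintype.card (GS (ps (fun i : {x // x ∈ P} => (i : ℕ)) (2 * 3)) S) : ℝ) * (1 / 2) ^ m ≤
        Real.exp (-(1 / 10) * k) := by
    intro S
    have h1 := card_slots_le (2 * 3) S
    have hP0 : (0 : ℝ) ≤ ∏ p ∈ P, (p : ℝ) := prod_nonneg fun p _ => by positivity
    have h2 : (∏ p ∈ P, (p : ℝ)) ^ (2 * 3) ≤ (2 : ℝ) ^ ((3 / 4 : ℝ) * k) := by
      calc (∏ p ∈ P, (p : ℝ)) ^ (2 * 3) ≤ ((2 : ℝ) ^ (β * k)) ^ (2 * 3) :=
            pow_le_pow_left₀ hP0 hP.size _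
        _ = (2 : ℝ) ^ (6 * (β * k)) := by
            rw [← Real.rpow_natCast, ← Real.rpow_mul (by norm_num)]
            congr 1
            push_cast
            ring
        _ ≤ _ := Real.rpow_le_rpow_of_exponent_le (by norm_num) (by nlinarith)
    have h3 : ((1 : ℝ) / 2) ^ m = (2 : ℝ) ^ (-(m : ℝ)) := by
      rw [Real.rpow_neg (by norm_num), Real.rpow_natCast, one_div, inv_pow]
    have h4 := mul_le_mul_of_nonneg_right (h1.trans h2) (show (0 : ℝ) ≤ (1 / 2) ^ m by positivity)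
    refine h4.trans ?_
    rw [h3, ← Real.rpow_add (by norm_num), Real.rpow_def_of_pos (by norm_num)]
    refine Real.exp_le_exp.2 ?_
    have hl := Real.log_two_gt_d9
    have hx : (3 / 4 : ℝ) * k + -(m : ℝ) ≤ -(24 / 100) * k := by linarith
    have hl0 : (0 : ℝ) ≤ Real.log 2 := by linarith
    calc Real.log 2 * (3 / 4 * k + -(m : ℝ)) ≤ Real.log 2 * (-(24 / 100) * k) :=
          mul_le_mul_of_nonneg_left hx hl0
      _ ≤ -(1 / 10) * k := by nlinarith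
  have hprm : ∀ S : Finset ({x // x ∈ P} × Fin (2 * 3)), ∀ p : ℕ, p.Prime →
      p ∣ Fintype.card (GS (ps (fun i : {x // x ∈ P} => (i : ℕ)) (2 * 3)) S) → k ≤ p := by
    intro S p hp hd
    have h1 := hP.lo p (prime_dvd_slots (2 * 3) S hp hd)
    have h2 : (k : ℝ) ≤ (k : ℝ) ^ b₁ := by
      calc (k : ℝ) = (k : ℝ) ^ (1 : ℝ) := (Real.rpow_one _).symm
        _ ≤ (k : ℝ) ^ b₁ := Real.rpow_le_rpow_of_exponent_le hkr hb₁
    exact_mod_cast h2.trans h1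
  have hk2m : (k : ℝ) ≤ 2 * m := by linarith
  have hmain := core M67.xi (fun i : {x // x ∈ P} => (i : ℕ)) (q := 2 * 3) (M := 4) (by norm_num)
    H708.domM4 GG (fun S w => NonSp s w ∧ MC.MinC s ((k : ℝ) ^ (-(3 / 2) : ℝ)) w)
    ((k : ℝ) ^ (20 : ℝ)) ((k : ℝ) ^ B) (3 + k)
    (k * (2 * (k : ℝ) ^ (-(20 / 5) + 1 / 10 : ℝ)) ^ m) (((k : ℝ) ^ k) ^ 3)
    (Real.one_le_rpow hkr (by norm_num)) (fun i => hP.hi i i.2) (by positivity) hprop
    (fun S => by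
      convert H1 k hk1 _ m hmk hk2m (hprm S) (hgrp S)
        (fun w => NonSp s w ∧ MC.MinC s ((k : ℝ) ^ (-(3 / 2) : ℝ)) w) (fun w hw => hw.1) using 2)
    (fun S => by
      convert H2 k hk2 _ m hmk hk2m (hprm S) (hgrp S)
        (fun w => NonSp s w ∧ MC.MinC s ((k : ℝ) ^ (-(3 / 2) : ℝ)) w) (fun w hw => hw.2) using 2)
    (fun Y hY => by
      have hr := (mem_filter.1 hY).2.1
      rw [← H708.wq_eq P 3 Y]
      exact pow_le_pow_left₀ (W_nonneg _ _) (H708.had hP.pr Y hr hmk (by omega)) 3)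
  have hW : ∑ ω ∈ GG, M67.W P (M67.mt M67.xi ω) ^ 3 =
      ∑ Y ∈ GG, ((Wq M67.xi (fun i : {x // x ∈ P} => (i : ℕ)) (2 * 3) Y : ℕ) : ℝ) :=
    sum_congr rfl fun Y _ => H708.wq_eq P 3 Y
  rw [hW]
  refine hmain.trans ?_
  have hOm : (Fintype.card (Bool × Bool) : ℝ) ^ (m * k) = (4 : ℝ) ^ (k * m) := by
    have : Fintype.card (Bool × Bool) = 4 := rfl
    rw [this, mul_comm]
    norm_num
  rw [hOm, mul_comm]
  exact mul_le_mul_of_nonneg_right (final_num hβ P hP.size (by omega) hmk hm99) (by positivity)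

end Vale.Agent.P160.Half.Mom817
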