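import Vale.Agent.P160.Half.Mom310
import Vale.Agent.P160.Half.MC986
import Vale.Agent.P160.Half.FlatZ4

/-! # P160, half rate, (M): `StmtMom 3 (1/8)`, unconditional (second proof of LEMMA M) -/

namespace Vale.Agent.P160.Half.Mom310

open scoped Classical in
theorem mom : M67.StmtMom 3 (1 / 8) :=
  mom_of Flat.countG4 (fun c C₀ C₁ d hc h0 h1 hd hd' =>
    MC.mc 4 (le_refl 4) c C₀ C₁ d hc h0 h1 hd hd')

end Vale.Agent.P160.Half.Mom310
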