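import Vale.Agent.P160.Half.MomGlue539
import Vale.Agent.P160.Half.LemMI1
import Vale.Agent.P160.Half.P4Lem7
import Vale.Agent.P160.Half.P4Sum7
import Vale.Agent.P160.Half.MC986
import Vale.Agent.P160.Half.FlatZ4

/-! # P160, half rate, (M): LEMMA M, `StmtMom 3 (1/8)` (independent assembly, helper828) -/

namespace Vale.Agent.P160.Half.MomFin828

open Finset Filter Vale.Agent.P160 Vale.Agent.P160.Half Vale.Agent.P160.Half.Flat
open Vale.Agent.P160.Half.LemM836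

/-- the property of the generating kernel tuples -/
def PP (s σ : ℝ) {m : ℕ} (G : Type) [AddCommGroup G] (y : Fin m → G) : Prop :=
  NonSp s y ∧ MC.MinC s σ y

lemma xi_le (b : Bool × Bool) : |M67.xi b| ≤ 1 := by
  rcases b with ⟨_ | _, _ | _⟩ <;> simp [M67.xi]

lemma Zp_nonneg {Om : Type} [Fintype Om] (e : Om → ℤ) {G : Type} [AddCommGroup G] {m : ℕ}
    (y : Fin m → G) : 0 ≤ Zp e y := by
  unfold Zp; positivity

lemma Zp_le_card {G : Type} [AddCommGroup G] [Fintype G] {m : ℕ} (y : Fin m → G) :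
    Zp M67.xi y ≤ Fintype.card G := by
  have h : cnt M67.xi y ≤ (Fintype.card (Bool × Bool)) ^ m := by
    unfold cnt
    refine (card_le_univ _).trans (le_of_eq ?_)
    rw [Fintype.card_fun, Fintype.card_fin]
  have h4 : (0 : ℝ) < (Fintype.card (Bool × Bool) : ℝ) ^ m := by
    have : (0 : ℝ) < (Fintype.card (Bool × Bool) : ℝ) := by simp
    positivity
  unfold Zp
  rw [div_le_iff₀ h4, Nat.card_eq_fintype_card]
  exact mul_le_mul_of_nonneg_left (by exact_mod_cast h) (by positivity)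

lemma Zp_le {G : Type} [AddCommGroup G] [Fintype G] {m : ℕ} (y : Fin m → G) :
    Zp M67.xi y ≤ gZ 4 y := by
  classical
  have h := LemM203.domM4 G m y
  have h4 : (0 : ℝ) < (Fintype.card (Bool × Bool) : ℝ) ^ m := by
    have : (0 : ℝ) < (Fintype.card (Bool × Bool) : ℝ) := by simp
    positivity
  unfold Zp
  rw [div_le_iff₀ h4, Nat.card_eq_fintype_card]
  have h2 : cnt M67.xi y = (univ.filter fun x : Fin m → Bool × Bool =>
      ∑ c, M67.xi (x c) • y c = 0).card := by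
    unfold cnt dotp
    congr!
  rw [h2, mul_comm (gZ 4 y)]
  exact h

lemma prime_dvd {G : Type} [AddCommGroup G] [Fintype G] {N : ℕ} (hG : ∀ g : G, N • g = 0)
    {p : ℕ} (hp : p.Prime) (h : p ∣ Fintype.card G) : p ∣ N := by
  have := Fact.mk hp
  obtain ⟨g, hg⟩ := exists_prime_addOrderOf_dvd_card p h
  rw [← hg]
  exact addOrderOf_dvd_of_nsmul_eq_zero (hG g)

open Classical in
/-- first moment -/
theorem low_bd (δ : ℝ) (hδ : 0 < δ) (hδ1 : δ ≤ 1 / 100) :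
    ∃ k₀ : ℕ, ∀ k : ℕ, k₀ ≤ k → ∀ (σ : ℝ) (G : Type) [AddCommGroup G] [Fintype G] (m : ℕ), m ≤ k →
    99 * k ≤ 100 * m → (∀ p : ℕ, p.Prime → p ∣ Fintype.card G → k ≤ p) →
    (Fintype.card G : ℝ) ≤ (2 : ℝ) ^ (3 / 4 * k : ℝ) →
    ∑ y ∈ univ.filter (fun y : Fin m → G => PP ((k : ℝ) ^ (1 - δ / 4)) σ G y ∧
      Zp M67.xi y ≤ (k : ℝ) ^ (17 : ℝ)), Zp M67.xi y ^ k ≤
        (Fintype.card G : ℝ) ^ k * (2 ^ k + ((k : ℝ) ^ (17 : ℝ) + 1)) := by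
  obtain ⟨k₁, h1⟩ := countG4 δ (1 / 10) 17 hδ (by linarith) (by norm_num) (by norm_num)
  refine ⟨max k₁ 81, ?_⟩
  intro k hk σ G _ _ m hmk hm hp hG
  have hk1 : k₁ ≤ k := (le_max_left _ _).trans hk
  have hk81 : 81 ≤ k := (le_max_right _ _).trans hk
  have hk0 : (81 : ℝ) ≤ k := by exact_mod_cast hk81
  have hkm : (k : ℝ) ≤ 2 * m := by
    have : ((99 * k : ℕ) : ℝ) ≤ ((100 * m : ℕ) : ℝ) := by exact_mod_cast hm
    push_cast at this
    linarith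
  have hX0 : (0 : ℝ) ≤ (k : ℝ) ^ (-(1 / 2) + δ) := by positivity
  have hX3 : 3 * (k : ℝ) ^ (-(1 / 2) + δ) ≤ 1 := by
    have h2 : (k : ℝ) ^ (-(1 / 2) + δ) ≤ (k : ℝ) ^ (-(1 / 4) : ℝ) :=
      Real.rpow_le_rpow_of_exponent_le (by linarith) (by linarith)
    have h3 : (k : ℝ) ^ (-(1 / 4) : ℝ) ≤ (81 : ℝ) ^ (-(1 / 4) : ℝ) :=
      Real.rpow_le_rpow_of_nonpos (by norm_num) hk0 (by norm_num)
    have h4 : (81 : ℝ) ^ (-(1 / 4) : ℝ) = 1 / 3 := by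
      rw [show (81 : ℝ) = 3 ^ (4 : ℝ) by norm_num, ← Real.rpow_mul (by norm_num)]
      norm_num
    linarith
  have hcard : (Fintype.card G : ℝ) * (1 / 2) ^ m ≤ Real.exp (-(1 / 10) * k) := by
    have h5 : ((1 : ℝ) / 2) ^ m = (2 : ℝ) ^ (-(m : ℝ)) := by
      rw [Real.rpow_neg (by norm_num), Real.rpow_natCast, one_div, inv_pow]
    have h6 : (m : ℝ) ≥ 99 / 100 * k := by
      have : ((99 * k : ℕ) : ℝ) ≤ ((100 * m : ℕ) : ℝ) := by exact_mod_cast hm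
      push_cast at this
      linarith
    calc (Fintype.card G : ℝ) * (1 / 2) ^ m ≤ (2 : ℝ) ^ (3 / 4 * k : ℝ) * (2 : ℝ) ^ (-(m : ℝ)) := by
          rw [h5]
          exact mul_le_mul_of_nonneg_right hG (by positivity)
      _ = (2 : ℝ) ^ (3 / 4 * k - m : ℝ) := by
          rw [← Real.rpow_add (by norm_num)]; congr 1
      _ = Real.exp (Real.log 2 * (3 / 4 * k - m)) := by
          rw [Real.rpow_def_of_pos (by norm_num)]
      _ ≤ Real.exp (-(1 / 10) * k) := by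
          apply Real.exp_le_exp.2
          have := Real.log_two_gt_d9
          nlinarith
  have hG1 : (1 : ℝ) ≤ Fintype.card G := by exact_mod_cast Fintype.card_pos
  have hT0 : (0 : ℝ) ≤ (k : ℝ) ^ (17 : ℝ) := by positivity
  refine (P4S.low _ (fun y : Fin m → G => Zp M67.xi y) (Fintype.card G)
    ((k : ℝ) ^ (-(1 / 2) + δ)) ((k : ℝ) ^ (17 : ℝ)) k m hmk (fun y => Zp_nonneg _ y) hG1 hX0 hT0
    ?_ ?_ ?_ ?_).trans ?_
  · have h5 : (univ.filter (fun y : Fin m → G => PP ((k : ℝ) ^ (1 - δ / 4)) σ G y ∧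
      Zp M67.xi y ≤ (k : ℝ) ^ (17 : ℝ))).card ≤ Fintype.card G ^ m := by
      refine (card_le_univ _).trans (le_of_eq ?_)
      rw [Fintype.card_fun, Fintype.card_fin]
    exact_mod_cast h5
  · intro y hy
    have := (mem_filter.1 hy).2.2
    linarith
  · intro y _
    exact Zp_le_card y
  · intro T hT1 hT2
    have h6 := h1 k hk1 G m hmk hkm hp hcard T (by
      refine le_trans ?_ hT1
      rw [div_le_one (by positivity)]
      exact one_le_pow₀ (by linarith)) hT2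
    rw [max_eq_right hT1] at h6
    refine le_trans (Nat.cast_le.2 (card_le_card ?_)) h6
    intro y hy
    simp only [mem_filter, mem_univ, true_and] at hy ⊢
    exact ⟨hy.1.1.1, hy.2.trans (Zp_le y)⟩
  · apply mul_le_mul_of_nonneg_left _ (by positivity)
    have h7 : (3 * (k : ℝ) ^ (-(1 / 2) + δ)) ^ m ≤ 1 := pow_le_one₀ (by positivity) hX3
    nlinarith

open Classical in
/-- large values -/
theorem big_bd (δ : ℝ) (hδ : 0 < δ) (hδ1 : δ ≤ 1 / 100) (B : ℝ) (hB : 1 ≤ B) :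
    ∃ k₀ : ℕ, ∀ k : ℕ, k₀ ≤ k → ∀ (G : Type) [AddCommGroup G] [Fintype G] (m : ℕ), m ≤ k →
    99 * k ≤ 100 * m → (∀ p : ℕ, p.Prime → p ∣ Fintype.card G → k ≤ p) →
    (Fintype.card G : ℝ) ≤ (2 : ℝ) ^ (3 / 4 * k : ℝ) →
    ∑ y ∈ univ.filter (fun y : Fin m → G =>
      PP ((k : ℝ) ^ (1 - δ / 4)) ((k : ℝ) ^ (-(3 / 2) : ℝ)) G y ∧
      (k : ℝ) ^ (17 : ℝ) < Zp M67.xi y ∧ Zp M67.xi y ≤ (k : ℝ) ^ B * (k : ℝ) ^ (17 : ℝ)),
        Zp M67.xi y ^ k ≤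
        (Fintype.card G : ℝ) ^ k * ((3 * (k : ℝ) ^ (-(31 / 10) : ℝ)) ^ m *
          ((k : ℝ) ^ B * (k : ℝ) ^ (17 : ℝ) + 1)) := by
  obtain ⟨k₁, h1⟩ := MC.mc 4 le_rfl (1 / 10) (B + 17) 16 (δ / 4) (by norm_num) (by linarith)
    (by norm_num) (by linarith) (by linarith)
  refine ⟨max k₁ 81, ?_⟩
  intro k hk G _ _ m hmk hm hp hG
  have hk1 : k₁ ≤ k := (le_max_left _ _).trans hk
  have hk81 : 81 ≤ k := (le_max_right _ _).trans hk
  have hk0 : (81 : ℝ) ≤ k := by exact_mod_cast hk81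
  have hkpos : (0 : ℝ) < k := by linarith
  have hkm : (k : ℝ) ≤ 2 * m := by
    have : ((99 * k : ℕ) : ℝ) ≤ ((100 * m : ℕ) : ℝ) := by exact_mod_cast hm
    push_cast at this
    linarith
  have hcard : (Fintype.card G : ℝ) * (1 - 2 / ((4 : ℕ) : ℝ)) ^ m ≤ Real.exp (-(1 / 10) * k) := by
    have h5 : (1 - 2 / ((4 : ℕ) : ℝ)) ^ m = (2 : ℝ) ^ (-(m : ℝ)) := by
      rw [Real.rpow_neg (by norm_num), Real.rpow_natCast, ← inv_pow]
      norm_num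
    have h6 : (m : ℝ) ≥ 99 / 100 * k := by
      have : ((99 * k : ℕ) : ℝ) ≤ ((100 * m : ℕ) : ℝ) := by exact_mod_cast hm
      push_cast at this
      linarith
    calc (Fintype.card G : ℝ) * (1 - 2 / ((4 : ℕ) : ℝ)) ^ m ≤
          (2 : ℝ) ^ (3 / 4 * k : ℝ) * (2 : ℝ) ^ (-(m : ℝ)) := by
          rw [h5]
          exact mul_le_mul_of_nonneg_right hG (by positivity)
      _ = (2 : ℝ) ^ (3 / 4 * k - m : ℝ) := by
          rw [← Real.rpow_add (by norm_num)]; congr 1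
      _ = Real.exp (Real.log 2 * (3 / 4 * k - m)) := by
          rw [Real.rpow_def_of_pos (by norm_num)]
      _ ≤ Real.exp (-(1 / 10) * k) := by
          apply Real.exp_le_exp.2
          have := Real.log_two_gt_d9
          nlinarith
  have hG1 : (1 : ℝ) ≤ Fintype.card G := by exact_mod_cast Fintype.card_pos
  have h17 : (k : ℝ) ^ (17 : ℝ) = (k : ℝ) ^ (16 : ℝ) * k := by
    rw [show (17 : ℝ) = 16 + 1 by norm_num, Real.rpow_add hkpos, Real.rpow_one]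
  have h16 : (1 : ℝ) ≤ (k : ℝ) ^ (16 : ℝ) := Real.one_le_rpow (by linarith) (by norm_num)
  have hT3 : (k : ℝ) ^ (16 : ℝ) ≤ ((k : ℝ) ^ (17 : ℝ) - 1) / 2 := by
    rw [h17]
    nlinarith
  have hQT : (0 : ℝ) ≤ (k : ℝ) ^ B * (k : ℝ) ^ (17 : ℝ) := by positivity
  refine (P4S.levels _ (fun y : Fin m → G => Zp M67.xi y) (Fintype.card G)
    ((k : ℝ) ^ (-(31 / 10) : ℝ)) (((k : ℝ) ^ (17 : ℝ) - 1) / 2)
    ((k : ℝ) ^ B * (k : ℝ) ^ (17 : ℝ)) k m hmk (fun y => Zp_nonneg _ y) hG1 (by positivity)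
    (by linarith) hQT ?_ ?_ ?_ ?_)
  · intro y hy
    have := (mem_filter.1 hy).2.2.1
    linarith
  · intro y hy
    have := (mem_filter.1 hy).2.2.2
    linarith
  · intro y _
    exact Zp_le_card y
  · intro T hTa hT1 hT2
    have h6 := h1 k hk1 G m hmk hkm hp hcard T (by linarith) (by
      rw [Real.rpow_add hkpos]
      exact hT2)
    have h7 : -((16 : ℝ) / 5) + 1 / 10 = -(31 / 10) := by norm_num
    rw [h7] at h6
    refine le_trans (Nat.cast_le.2 (card_le_card ?_)) h6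
    intro y hy
    simp only [mem_filter, mem_univ, true_and] at hy ⊢
    refine ⟨hy.1.1.2, ?_⟩
    have := hy.2.trans (Zp_le y)
    linarith

theorem ev_pow (a : ℝ) : ∀ᶠ k : ℕ in atTop, (k : ℝ) ^ a + 1 ≤ 2 ^ k := by
  have h := tendsto_pow_const_div_const_pow_of_one_lt ⌈a⌉₊ (r := (2 : ℝ)) (by norm_num)
  have h2 := h.eventually (gt_mem_nhds (by norm_num : (0 : ℝ) < 1 / 2))
  filter_upwards [h2, eventually_ge_atTop 2] with k hk hk2
  have hk1 : (1 : ℝ) ≤ k := by exact_mod_cast (by omega : 1 ≤ k)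
  have h3 : (k : ℝ) ^ a ≤ (k : ℝ) ^ ⌈a⌉₊ := by
    rw [← Real.rpow_natCast]
    exact Real.rpow_le_rpow_of_exponent_le hk1 (Nat.le_ceil a)
  have h4 : (0 : ℝ) < 2 ^ k := by positivity
  rw [div_lt_iff₀ h4] at hk
  have h5 : (2 : ℝ) ^ 2 ≤ 2 ^ k := pow_le_pow_right₀ (by norm_num) hk2
  linarith

theorem ev_sig (δ : ℝ) (hδ : 0 < δ) : ∀ᶠ k : ℕ in atTop, (64 : ℝ) ≤ (k : ℝ) ^ (δ / 4) :=
  ((tendsto_rpow_atTop (by positivity : 0 < δ / 4)).comp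
    tendsto_natCast_atTop_atTop).eventually_ge_atTop 64

/-- numbers -/
lemma sig_le {δ : ℝ} {k m : ℕ} (hk : 1 ≤ k) (hm : 0 < m) (hmk : m ≤ k)
    (h : (64 : ℝ) ≤ (k : ℝ) ^ (δ / 4)) :
    (k : ℝ) ^ (-(3 / 2) : ℝ) ≤ 1 / (64 * Real.sqrt m * (k : ℝ) ^ (1 - δ / 4)) := by
  have hk0 : (0 : ℝ) < k := by exact_mod_cast hk
  have hm0 : (0 : ℝ) < m := by exact_mod_cast hm
  have hs : 0 < Real.sqrt m := Real.sqrt_pos.2 hm0
  have h1 : Real.sqrt m ≤ (k : ℝ) ^ (1 / 2 : ℝ) := by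
    rw [← Real.sqrt_eq_rpow]
    exact Real.sqrt_le_sqrt (by exact_mod_cast hmk)
  have h2 : 0 < (k : ℝ) ^ (1 - δ / 4) := by positivity
  rw [le_div_iff₀ (by positivity)]
  calc (k : ℝ) ^ (-(3 / 2) : ℝ) * (64 * Real.sqrt m * (k : ℝ) ^ (1 - δ / 4))
      ≤ (k : ℝ) ^ (-(3 / 2) : ℝ) * ((k : ℝ) ^ (δ / 4) * (k : ℝ) ^ (1 / 2 : ℝ) *
          (k : ℝ) ^ (1 - δ / 4)) := by gcongr
    _ = 1 := by
        rw [← Real.rpow_add hk0, ← Real.rpow_add hk0, ← Real.rpow_add hk0]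
        rw [show (-(3 / 2) + (δ / 4 + 1 / 2 + (1 - δ / 4)) : ℝ) = 0 by ring, Real.rpow_zero]

lemma fin_num {k m : ℕ} {N B : ℝ} (hk : 1 ≤ k) (hmk : m ≤ k) (hN0 : 0 ≤ N)
    (hN : N ≤ (2 : ℝ) ^ (1 / 8 * k : ℝ)) (h1 : (k : ℝ) ^ (17 : ℝ) + 1 ≤ 2 ^ k)
    (h2 : (k : ℝ) ^ B * (k : ℝ) ^ (17 : ℝ) + 1 ≤ 2 ^ k) :
    N ^ (6 * 6) * (2 ^ k + ((k : ℝ) ^ (17 : ℝ) + 1)) +
      ((m : ℝ) ^ m) ^ 3 * (N ^ (6 * 6) * N ^ (6 * 6)) *
        ((3 * (k : ℝ) ^ (-(31 / 10) : ℝ)) ^ m * ((k : ℝ) ^ B * (k : ℝ) ^ (17 : ℝ) + 1)) ≤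
      (2 : ℝ) ^ (13 * k : ℝ) := by
  have hk0 : (0 : ℝ) < k := by exact_mod_cast hk
  have hk1 : (1 : ℝ) ≤ k := by exact_mod_cast hk
  have hx : (1 : ℝ) ≤ 2 ^ k := one_le_pow₀ (by norm_num)
  have hx2 : (2 : ℝ) ≤ 2 ^ k := by
    calc (2 : ℝ) = 2 ^ 1 := by norm_num
      _ ≤ 2 ^ k := pow_le_pow_right₀ (by norm_num) hk
  set x : ℝ := 2 ^ k with hxdef
  -- N^36 <= x^5
  have h3 : N ^ (6 * 6) ≤ x ^ 5 := by
    calc N ^ (6 * 6) ≤ ((2 : ℝ) ^ (1 / 8 * k : ℝ)) ^ (6 * 6) := pow_le_pow_left₀ hN0 hN _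
      _ = (2 : ℝ) ^ ((1 / 8 * k : ℝ) * ((6 * 6 : ℕ) : ℝ)) := by
          rw [← Real.rpow_natCast, ← Real.rpow_mul (by norm_num)]
      _ ≤ (2 : ℝ) ^ ((k : ℝ) * 5) := by
          apply Real.rpow_le_rpow_of_exponent_le (by norm_num)
          push_cast
          linarith
      _ = x ^ 5 := by
          rw [hxdef, ← pow_mul, ← Real.rpow_natCast]
          push_cast
          rfl
  have h36 : 0 ≤ N ^ (6 * 6) := by positivity
  have h3' : N ^ (6 * 6) * N ^ (6 * 6) ≤ (2 : ℝ) ^ ((k : ℝ) * 9) := by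
    rw [← pow_add]
    calc N ^ (6 * 6 + 6 * 6) ≤ ((2 : ℝ) ^ (1 / 8 * k : ℝ)) ^ (6 * 6 + 6 * 6) :=
          pow_le_pow_left₀ hN0 hN _
      _ = (2 : ℝ) ^ ((1 / 8 * k : ℝ) * ((6 * 6 + 6 * 6 : ℕ) : ℝ)) := by
          rw [← Real.rpow_natCast, ← Real.rpow_mul (by norm_num)]
      _ = (2 : ℝ) ^ ((k : ℝ) * 9) := by
          congr 1
          push_cast
          ring
  have h9 : (2 : ℝ) ^ ((k : ℝ) * 9) = x ^ 9 := by
    rw [hxdef, ← pow_mul, ← Real.rpow_natCast]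
    push_cast
    rfl
  rw [h9] at h3'
  -- Hadamard against the tail
  have h4 : ((m : ℝ) ^ m) ^ 3 * (3 * (k : ℝ) ^ (-(31 / 10) : ℝ)) ^ m ≤ x ^ 2 := by
    have h5 : (m : ℝ) ^ 3 * (k : ℝ) ^ (-(31 / 10) : ℝ) ≤ 1 := by
      calc (m : ℝ) ^ 3 * (k : ℝ) ^ (-(31 / 10) : ℝ)
          ≤ (k : ℝ) ^ 3 * (k : ℝ) ^ (-(31 / 10) : ℝ) := by
            have : (m : ℝ) ≤ k := by exact_mod_cast hmk
            gcongr
        _ = (k : ℝ) ^ (-(1 / 10) : ℝ) := by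
            rw [← Real.rpow_natCast, ← Real.rpow_add hk0]
            congr 1
            norm_num
        _ ≤ 1 := Real.rpow_le_one_of_one_le_of_nonpos hk1 (by norm_num)
    calc ((m : ℝ) ^ m) ^ 3 * (3 * (k : ℝ) ^ (-(31 / 10) : ℝ)) ^ m
        = ((m : ℝ) ^ 3 * (k : ℝ) ^ (-(31 / 10) : ℝ)) ^ m * 3 ^ m := by
          rw [← mul_pow, ← pow_mul, mul_comm m 3, pow_mul, ← mul_pow]
          congr 1
          ring
      _ ≤ 1 * 3 ^ m := by
          apply mul_le_mul_of_nonneg_right _ (by positivity)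
          exact pow_le_one₀ (by positivity) h5
      _ ≤ 1 * 4 ^ k := by
          have h6 : (3 : ℝ) ^ m ≤ 4 ^ m := pow_le_pow_left₀ (by norm_num) (by norm_num) _
          have h7 : (4 : ℝ) ^ m ≤ 4 ^ k := pow_le_pow_right₀ (by norm_num) hmk
          linarith
      _ = x ^ 2 := by
          rw [hxdef, one_mul, ← pow_mul, mul_comm, pow_mul]
          norm_num
  have hTb : 0 ≤ (k : ℝ) ^ B * (k : ℝ) ^ (17 : ℝ) + 1 := by positivity
  calc N ^ (6 * 6) * (x + ((k : ℝ) ^ (17 : ℝ) + 1)) +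
      ((m : ℝ) ^ m) ^ 3 * (N ^ (6 * 6) * N ^ (6 * 6)) *
        ((3 * (k : ℝ) ^ (-(31 / 10) : ℝ)) ^ m * ((k : ℝ) ^ B * (k : ℝ) ^ (17 : ℝ) + 1))
      = N ^ (6 * 6) * (x + ((k : ℝ) ^ (17 : ℝ) + 1)) +
        (N ^ (6 * 6) * N ^ (6 * 6)) *
        ((((m : ℝ) ^ m) ^ 3 * (3 * (k : ℝ) ^ (-(31 / 10) : ℝ)) ^ m) *
          ((k : ℝ) ^ B * (k : ℝ) ^ (17 : ℝ) + 1)) := by ring
    _ ≤ x ^ 5 * (x + x) + x ^ 9 * (x ^ 2 * x) := by
        gcongr
    _ ≤ x ^ 13 := by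
        have h7 : x ^ 5 * (x + x) ≤ x ^ 12 := by
          calc x ^ 5 * (x + x) = x ^ 6 * 2 := by ring
            _ ≤ x ^ 6 * x := by gcongr
            _ = x ^ 7 := by ring
            _ ≤ x ^ 12 := pow_le_pow_right₀ hx (by norm_num)
        have h8 : x ^ 9 * (x ^ 2 * x) = x ^ 12 := by ring
        calc _ ≤ x ^ 12 + x ^ 12 := by linarith
          _ = x ^ 12 * 2 := by ring
          _ ≤ x ^ 12 * x := by gcongr
          _ = x ^ 13 := by ring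
    _ = (2 : ℝ) ^ (13 * k : ℝ) := by
        rw [hxdef, ← pow_mul, ← Real.rpow_natCast]
        push_cast
        congr 1
        ring

/-- the weights are kernel counts -/
lemma W_ker {k m : ℕ} (P : Finset ℕ) (hP : ∀ p ∈ P, p.Prime) (Y : Fin k → Fin m → Bool × Bool) :
    M67.W P (M67.mt M67.xi Y) ^ 3 =
      (Nat.card (P4L.KerG M67.xi (ZMod (∏ p ∈ P, p)) Y) : ℝ) ^ 6 := by
  rw [MomGlue539.W_pow _ P hP 3, MomGlue539.card_pi]
  push_cast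
  rfl

open Classical in
theorem mom : M67.StmtMom 3 (1 / 8) := by
  intro δ b₁ B hδ hδ1 hb1 hbB
  have hB1 : 1 ≤ B := hb1.trans hbB
  obtain ⟨k₁, hlow⟩ := low_bd δ hδ hδ1
  obtain ⟨k₂, hbig⟩ := big_bd δ hδ hδ1 B hB1
  obtain ⟨k₃, hev⟩ := eventually_atTop.1 ((ev_pow 17).and ((ev_pow (B + 17)).and (ev_sig δ hδ)))
  refine ⟨13, max (max k₁ k₂) (max k₃ 2), ?_⟩
  intro k hk m hmk hm P hA
  have hk1 : k₁ ≤ k := ((le_max_left _ _).trans (le_max_left _ _)).trans hk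
  have hk2 : k₂ ≤ k := ((le_max_right _ _).trans (le_max_left _ _)).trans hk
  have hk3 : k₃ ≤ k := ((le_max_left _ _).trans (le_max_right _ _)).trans hk
  have hk4 : 2 ≤ k := ((le_max_right _ _).trans (le_max_right _ _)).trans hk
  obtain ⟨he1, he2, he3⟩ := hev k hk3
  have hkpos : (0 : ℝ) < k := by exact_mod_cast (by omega : 0 < k)
  have hkone : (1 : ℝ) ≤ k := by exact_mod_cast (by omega : 1 ≤ k)
  have hm0 : 0 < m := by omega
  have he2' : (k : ℝ) ^ B * (k : ℝ) ^ (17 : ℝ) + 1 ≤ 2 ^ k := by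
    rw [← Real.rpow_add hkpos]; exact he2
  have hPr := hA.pr
  have hN0 : (∏ p ∈ P, p) ≠ 0 := Finset.prod_ne_zero_iff.2 fun p hp => (hPr p hp).ne_zero
  have hNe : NeZero (∏ p ∈ P, p) := ⟨hN0⟩
  have hNle : ((∏ p ∈ P, p : ℕ) : ℝ) ≤ (2 : ℝ) ^ (1 / 8 * k : ℝ) := by
    rw [Nat.cast_prod]
    exact hA.size
  have hmem : ∀ q : ℕ, q.Prime → q ∣ (∏ p ∈ P, p) → q ∈ P := by
    intro q hq hd
    obtain ⟨r, hr, hqr⟩ := (Prime.dvd_finsetProd_iff hq.prime _).1 hd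
    rw [(Nat.prime_dvd_prime_iff_eq hq (hPr r hr)).1 hqr]
    exact hr
  have hge : ∀ q ∈ P, k ≤ q := by
    intro q hq
    have h1 : (k : ℝ) ≤ (k : ℝ) ^ b₁ := by
      calc (k : ℝ) = (k : ℝ) ^ (1 : ℝ) := (Real.rpow_one _).symm
        _ ≤ (k : ℝ) ^ b₁ := Real.rpow_le_rpow_of_exponent_le hkone hb1
    exact_mod_cast h1.trans (hA.lo q hq)
  have hGsize : ∀ (G : Type) [AddCommGroup G] [Fintype G], Nat.card G ≤ (∏ p ∈ P, p) ^ 6 →
      (Fintype.card G : ℝ) ≤ (2 : ℝ) ^ (3 / 4 * k : ℝ) := by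
    intro G _ _ h
    rw [Nat.card_eq_fintype_card] at h
    have h1 : (Fintype.card G : ℝ) ≤ ((∏ p ∈ P, p : ℕ) : ℝ) ^ 6 := by exact_mod_cast h
    refine h1.trans ((pow_le_pow_left₀ (by positivity) hNle 6).trans (le_of_eq ?_))
    rw [← Real.rpow_natCast, ← Real.rpow_mul (by norm_num)]
    congr 1
    push_cast
    ring
  have hGp : ∀ (G : Type) [AddCommGroup G] [Fintype G], (∀ g : G, (∏ p ∈ P, p) • g = 0) →
      ∀ p : ℕ, p.Prime → p ∣ Fintype.card G → k ≤ p := fun G _ _ hg p hp hd =>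
    hge p (hmem p hp (prime_dvd hg hp hd))
  set s : ℝ := (k : ℝ) ^ (1 - δ / 4) with hs
  have hs1 : 1 ≤ s := Real.one_le_rpow hkone (by linarith)
  set σ : ℝ := (k : ℝ) ^ (-(3 / 2) : ℝ) with hσ
  set YY : Finset (Fin k → Fin m → Bool × Bool) := univ.filter
      (fun ω => M67.rkQ (M67.mt M67.xi ω) = m ∧ ¬ M67.Sp P s (M67.mt M67.xi ω)) with hYY
  have hcore := P4L.core (Om := Bool × Bool) (k := k) (m := m) M67.xi (∏ p ∈ P, p) 6
    ((k : ℝ) ^ (17 : ℝ)) ((k : ℝ) ^ B) (((m : ℝ) ^ m) ^ 3) (2 ^ k + ((k : ℝ) ^ (17 : ℝ) + 1))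
    ((3 * (k : ℝ) ^ (-(31 / 10) : ℝ)) ^ m * ((k : ℝ) ^ B * (k : ℝ) ^ (17 : ℝ) + 1))
    (Real.one_le_rpow hkone (by norm_num)) (by positivity) (by positivity) (by positivity)
    (by simp) (fun p hp hd => hA.hi p (hmem p hp hd)) (@PP s σ m) YY ?_ ?_ ?_ ?_
  · calc ∑ ω ∈ YY, M67.W P (M67.mt M67.xi ω) ^ 3
        = ∑ ω ∈ YY, (Nat.card (P4L.KerG M67.xi (ZMod (∏ p ∈ P, p)) ω) : ℝ) ^ 6 :=
          sum_congr rfl fun ω _ => W_ker P hPr ω
      _ ≤ _ := hcore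
      _ = ((((∏ p ∈ P, p : ℕ) : ℝ) ^ (6 * 6) * (2 ^ k + ((k : ℝ) ^ (17 : ℝ) + 1)) +
          ((m : ℝ) ^ m) ^ 3 * (((∏ p ∈ P, p : ℕ) : ℝ) ^ (6 * 6) *
            ((∏ p ∈ P, p : ℕ) : ℝ) ^ (6 * 6)) *
          ((3 * (k : ℝ) ^ (-(31 / 10) : ℝ)) ^ m *
            ((k : ℝ) ^ B * (k : ℝ) ^ (17 : ℝ) + 1)))) * 4 ^ (k * m) := by
          simp only [Fintype.card_prod, Fintype.card_bool]
          push_cast
          ring
      _ ≤ (2 : ℝ) ^ (13 * k : ℝ) * 4 ^ (k * m) := by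
          apply mul_le_mul_of_nonneg_right _ (by positivity)
          exact fin_num (by omega) hmk (by positivity) hNle he1 he2'
  · intro Y hY G _ _ hG y hy hz
    let _ : Fintype G := Fintype.ofFinite G
    obtain ⟨hr, hns⟩ := (mem_filter.1 hY).2
    have hns1 : ¬ M67.Sparse P s (M67.mt M67.xi Y) := fun h => hns (Or.inl h)
    have hns2 : ¬ M67.SpB s (M67.mt M67.xi Y) := fun h => hns (Or.inr h)
    refine ⟨MomGlue539.spread hN0 P hmem s (M67.mt M67.xi Y) hns1 hG y hy hz, ?_⟩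
    intro ψ hψ F hF
    have h1 := MomGlue539.min_norm hs1 (M67.mt M67.xi Y) (fun i j => xi_le _) hr hns2 y hy
      hz ψ hψ F hF
    refine lt_of_le_of_lt (pow_le_pow_left₀ (by positivity) ?_ 2) h1
    exact sig_le (by omega) hm0 hmk he3
  · intro Y hY
    obtain ⟨hr, hns⟩ := (mem_filter.1 hY).2
    rw [← W_ker P hPr Y]
    exact MomGlue539.W_pow_le _ P hPr (fun i j => xi_le _) hr 3
  · intro G _ _ hG hc
    rw [Nat.card_eq_fintype_card]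
    exact hlow k hk1 σ G m hmk hm (hGp G hG) (hGsize G hc)
  · intro G _ _ hG hc
    rw [Nat.card_eq_fintype_card]
    exact hbig k hk2 G m hmk hm (hGp G hG) (hGsize G hc)

end Vale.Agent.P160.Half.MomFin828
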