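import Vale.Agent.P160.Half.LemM203
import Vale.Agent.P160.Half.MinM67_628
import Vale.Agent.P160.Half.MomGlue539
import Vale.Agent.P160.Half.MC986
import Vale.Agent.P160.Half.CountM549
import Vale.Agent.P160.Half.FlatF

/-! # P160-HALF, block (M): LEMMA M, `M67.StmtMom 3 (1/8)` (second copy of 203's (I3)). -/

namespace Vale.Agent.P160.Half.MomH51

open Finset Vale.Agent.P160 Vale.Agent.P160.Half Vale.Agent.P160.Half.Flat
open Vale.Agent.P160.Half.LemM203 (DomM Ind Wq ps Ker)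

/-- the law `(1/4,1/2,1/4)` is the lazy law with `M = 4` -/
theorem domM4 : DomM 4 M67.xi := by
  classical
  intro G _ _ _ a y
  let σ : Bool × Bool ≃ Fin 4 :=
    { toFun := fun b => if b.1 then (if b.2 then 2 else 0) else (if b.2 then 1 else 3)
      invFun := fun i => if i = 0 then (true, false) else if i = 1 then (false, true) else
        if i = 2 then (true, true) else (false, false)
      left_inv := by decide
      right_inv := by decide }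
  have hσ : ∀ b, M67.xi b = st (σ b) := by decide
  have h1 : (univ.filter fun x : Fin a → Bool × Bool => ∑ c, M67.xi (x c) • y c = 0).card =
      (univ.filter fun x : Fin a → Fin 4 => gwalk x y = 0).card := by
    refine card_equiv (Equiv.arrowCongr (Equiv.refl _) σ) fun x => ?_
    rw [mem_filter, mem_filter]
    have h6 : ∀ c, M67.xi (x c) = st (Equiv.arrowCongr (Equiv.refl _) σ x c) := fun c => hσ (x c)
    simp only [mem_univ, true_and, h6]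
    rfl
  have h2 : ((univ.filter fun x : Fin a → Fin 4 => gwalk x y = 0).card : ℝ) =
      (4 : ℝ) ^ a * gpr 4 y 0 := by
    unfold gpr
    rw [Fintype.card_fin]
    push_cast
    field_simp
  have h3 := LemM203.gZM_eq (M := 4) (by norm_num) y
  have h4 : (Fintype.card (Bool × Bool) : ℝ) = 4 := by norm_num [Fintype.card_prod]
  rw [h3, h4]
  have h5 : ((univ.filter fun x : Fin a → Bool × Bool => ∑ c, M67.xi (x c) • y c = 0).card : ℝ) =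
      (4 : ℝ) ^ a * gpr 4 y 0 := by rw [h1, h2]
  rw [h5]
  exact le_of_eq (by ring)

theorem pow_finrank {k m : ℕ} (p : ℕ) [hp : Fact p.Prime] (Y : Fin k → Fin m → Bool × Bool) :
    p ^ Module.finrank (ZMod p) (Ker M67.xi p Y) = p ^ (m - M67.rkp p (M67.mt M67.xi Y)) := by
  rw [← MomGlue539.card_prime (M67.mt M67.xi Y) p hp.out]
  have h := Module.natCard_eq_pow_finrank (K := ZMod p) (V := Ker M67.xi p Y)
  rw [Nat.card_zmod] at h
  rw [← h]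
  rfl

theorem wq_eq (P : Finset ℕ) [hpF : ∀ i : {x // x ∈ P}, Fact (i : ℕ).Prime] {k m : ℕ}
    (Y : Fin k → Fin m → Bool × Bool) :
    M67.W P (M67.mt M67.xi Y) ^ 3 =
      ((Wq M67.xi (fun i : {x // x ∈ P} => (i : ℕ)) 6 Y : ℕ) : ℝ) := by
  have h1 : ∀ i : {x // x ∈ P}, ((i : ℕ) : ℝ) ^ (6 * Module.finrank (ZMod (i : ℕ)) (Ker M67.xi (i : ℕ) Y)) =
      (((i : ℕ) : ℝ) ^ (2 * (m - M67.rkp (i : ℕ) (M67.mt M67.xi Y)))) ^ 3 := by
    intro i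
    have h2 := pow_finrank (i : ℕ) Y
    have h3 : ((i : ℕ) : ℝ) ^ Module.finrank (ZMod (i : ℕ)) (Ker M67.xi (i : ℕ) Y) =
        ((i : ℕ) : ℝ) ^ (m - M67.rkp (i : ℕ) (M67.mt M67.xi Y)) := by exact_mod_cast h2
    rw [mul_comm 6, pow_mul, h3, mul_comm 2, pow_mul, ← pow_mul _ 2 3]
  unfold Wq
  push_cast
  rw [prod_congr rfl fun i _ => h1 i, prod_pow]
  unfold M67.W
  rw [Finset.prod_coe_sort P (fun p => (p : ℝ) ^ (2 * (m - M67.rkp p (M67.mt M67.xi Y))))]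

theorem xi_abs (b : Bool × Bool) : |M67.xi b| ≤ 1 := by
  rcases b with ⟨_ | _, _ | _⟩ <;> simp [M67.xi]

/-- sum over a set of vectors with `gZ ≤ 2` -/
theorem low_sum {G : Type} [AddCommGroup G] [Fintype G] {m k : ℕ} (hmk : m ≤ k)
    (D : Finset (Fin m → G)) (hD : ∀ y ∈ D, gZ 4 y ≤ 2) :
    ∑ y ∈ D, gZ 4 y ^ k ≤ (Fintype.card G : ℝ) ^ k * 2 ^ k := by
  classical
  have h1 : ∑ y ∈ D, gZ 4 y ^ k ≤ ∑ _y ∈ D, (2 : ℝ) ^ k :=
    sum_le_sum fun y hy => pow_le_pow_left₀ (LemM203.gZM_nonneg (by norm_num) y) (hD y hy) k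
  refine h1.trans ?_
  rw [sum_const, nsmul_eq_mul]
  refine mul_le_mul_of_nonneg_right ?_ (by positivity)
  have h2 : D.card ≤ Fintype.card G ^ m := by
    refine (card_le_univ D).trans ?_
    rw [Fintype.card_fun, Fintype.card_fin]
  have h3 : (1 : ℝ) ≤ Fintype.card G := by exact_mod_cast Fintype.card_pos
  calc (D.card : ℝ) ≤ (Fintype.card G : ℝ) ^ m := by exact_mod_cast h2
    _ ≤ (Fintype.card G : ℝ) ^ k := pow_le_pow_right₀ h3 hmk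


open scoped Classical in
theorem low_gen {G : Type} [AddCommGroup G] [Fintype G] {m k : ℕ} (hmk : m ≤ k) (hk1 : 1 ≤ k)
    {δ : ℝ} (hδ : δ ≤ 1 / 100) (hk : (k : ℝ) ^ (20 : ℝ) < 2 ^ k) (PP : (Fin m → G) → Prop)
    (hPP : ∀ y, PP y → NonSp ((k : ℝ) ^ (1 - δ / 4)) y)
    (hcount : ∀ T : ℝ, (k : ℝ) ^ (-(1 : ℝ)) ≤ T → T ≤ (k : ℝ) ^ (21 : ℝ) →
      ((univ.filter fun y : Fin m → G =>
        NonSp ((k : ℝ) ^ (1 - δ / 4)) y ∧ 1 + T ≤ gZ 4 y).card : ℝ) ≤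
        (Fintype.card G : ℝ) ^ m * ((k : ℝ) ^ (-(1 / 2) + δ) / max 1 T) ^ m) :
    ∑ y ∈ univ.filter (fun y : Fin m → G => PP y ∧ gZ 4 y ≤ (k : ℝ) ^ (20 : ℝ)), gZ 4 y ^ k ≤
      (Fintype.card G : ℝ) ^ k * (2 ^ k + k * 4 ^ m) := by
  have hkr : (1 : ℝ) ≤ k := by exact_mod_cast hk1
  have hk0 : (0 : ℝ) < k := by linarith
  have hG : (1 : ℝ) ≤ Fintype.card G := by exact_mod_cast Fintype.card_pos
  have hnn : ∀ y : Fin m → G, 0 ≤ gZ 4 y := fun y => LemM203.gZM_nonneg (by norm_num) y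
  set As := univ.filter (fun y : Fin m → G => PP y ∧ gZ 4 y ≤ (k : ℝ) ^ (20 : ℝ)) with hAs
  rw [← sum_filter_add_sum_filter_not As (fun y => gZ 4 y ≤ 2), mul_add]
  refine add_le_add (low_sum hmk _ fun y hy => (mem_filter.1 hy).2) ?_
  have h := LemM203.dyad (V := Fin m → G) (fun y => gZ 4 y) hnn (Fintype.card G : ℝ)
    (by linarith) (fun y => LemM203.gZM_le_card (by norm_num) y) m k hmk 2 2 (by norm_num) k
    (As.filter fun y => ¬ gZ 4 y ≤ 2) ?_ ?_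
  · refine h.trans (le_of_eq ?_)
    norm_num
  · intro i _ D hD hDz
    rcases D.eq_empty_or_nonempty with rfl | ⟨y0, hy0⟩
    · rw [card_empty]
      push_cast
      positivity
    have h0 := hDz y0 hy0
    have h1 := (mem_filter.1 (mem_filter.1 (hD hy0)).1).2.2
    have hpow : (1 : ℝ) ≤ 2 ^ i := one_le_pow₀ (by norm_num)
    have h21 : (k : ℝ) ^ (20 : ℝ) ≤ (k : ℝ) ^ (21 : ℝ) :=
      Real.rpow_le_rpow_of_exponent_le hkr (by norm_num)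
    have hinv : (k : ℝ) ^ (-(1 : ℝ)) ≤ 1 := Real.rpow_le_one_of_one_le_of_nonpos hkr (by norm_num)
    have h2 := hcount (2 * 2 ^ i - 1) (by linarith) (by linarith)
    have h3 : (D.card : ℝ) ≤ ((univ.filter fun y : Fin m → G =>
        NonSp ((k : ℝ) ^ (1 - δ / 4)) y ∧ 1 + (2 * 2 ^ i - 1) ≤ gZ 4 y).card : ℝ) := by
      refine Nat.cast_le.2 (card_le_card fun y hy => ?_)
      have h4 := (mem_filter.1 (mem_filter.1 (hD hy)).1).2.1
      refine mem_filter.2 ⟨mem_univ _, hPP y h4, ?_⟩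
      have h5 := hDz y hy
      linarith
    refine h3.trans (h2.trans ?_)
    refine mul_le_mul_of_nonneg_left (pow_le_pow_left₀ (by positivity) ?_ m) (by positivity)
    have h6 : (k : ℝ) ^ (-(1 / 2) + δ) ≤ 1 :=
      Real.rpow_le_one_of_one_le_of_nonpos hkr (by linarith)
    have h7 : (2 : ℝ) ^ i ≤ max 1 (2 * 2 ^ i - 1) := le_max_of_le_right (by linarith)
    calc (k : ℝ) ^ (-(1 / 2) + δ) / max 1 (2 * 2 ^ i - 1) ≤ 1 / 2 ^ i := by
          gcongr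
      _ = 2 / (2 * 2 ^ i) := by field_simp
  · intro y hy
    have h1 := (mem_filter.1 (mem_filter.1 hy).1).2.2
    have h2 := (mem_filter.1 hy).2
    have hpos : (0 : ℝ) < 2 ^ k := by positivity
    constructor
    · exact (not_le.1 h2).le
    · show gZ 4 y < 2 * 2 ^ k
      linarith

open scoped Classical in
theorem big_gen {G : Type} [AddCommGroup G] [Fintype G] {m k : ℕ} (hmk : m ≤ k) (hk1 : 1 ≤ k)
    {d B C₀ : ℝ} (hC : B + 20 ≤ C₀) (hk : (k : ℝ) ^ B < 2 ^ k) (PP : (Fin m → G) → Prop)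
    (hPP : ∀ y, PP y → MC.MinC ((k : ℝ) ^ (1 - d)) ((k : ℝ) ^ (-(3 / 2) : ℝ)) y)
    (hcount : ∀ T : ℝ, (k : ℝ) ^ (20 : ℝ) ≤ T → T ≤ (k : ℝ) ^ C₀ →
      ((univ.filter fun y : Fin m → G =>
        MC.MinC ((k : ℝ) ^ (1 - d)) ((k : ℝ) ^ (-(3 / 2) : ℝ)) y ∧ T ≤ gZ 4 y).card : ℝ) ≤
        (Fintype.card G : ℝ) ^ m * ((k : ℝ) ^ (-(20 / 5) + 1 / 10 : ℝ) / T) ^ m) :
    ∑ y ∈ univ.filter (fun y : Fin m → G => PP y ∧ (k : ℝ) ^ (20 : ℝ) < gZ 4 y ∧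
      gZ 4 y ≤ (k : ℝ) ^ B * (k : ℝ) ^ (20 : ℝ)), gZ 4 y ^ k ≤
      (Fintype.card G : ℝ) ^ k * (k * (2 * (k : ℝ) ^ (-(20 / 5) + 1 / 10 : ℝ)) ^ m) := by
  have hkr : (1 : ℝ) ≤ k := by exact_mod_cast hk1
  have hk0 : (0 : ℝ) < k := by linarith
  have hG : (1 : ℝ) ≤ Fintype.card G := by exact_mod_cast Fintype.card_pos
  have hnn : ∀ y : Fin m → G, 0 ≤ gZ 4 y := fun y => LemM203.gZM_nonneg (by norm_num) y
  have hT0 : (0 : ℝ) < (k : ℝ) ^ (20 : ℝ) := Real.rpow_pos_of_pos hk0 _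
  refine LemM203.dyad (V := Fin m → G) (fun y => gZ 4 y) hnn (Fintype.card G : ℝ)
    (by linarith) (fun y => LemM203.gZM_le_card (by norm_num) y) m k hmk _ ((k : ℝ) ^ (20 : ℝ))
    hT0 k _ ?_ ?_
  · intro i _ D hD hDz
    rcases D.eq_empty_or_nonempty with rfl | ⟨y0, hy0⟩
    · rw [card_empty]
      push_cast
      positivity
    have h0 := hDz y0 hy0
    have h1 := (mem_filter.1 (hD hy0)).2.2.2
    have hpow : (1 : ℝ) ≤ 2 ^ i := one_le_pow₀ (by norm_num)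
    have h2 : (k : ℝ) ^ B * (k : ℝ) ^ (20 : ℝ) ≤ (k : ℝ) ^ C₀ := by
      rw [← Real.rpow_add hk0]
      exact Real.rpow_le_rpow_of_exponent_le hkr hC
    have h3 : (k : ℝ) ^ (20 : ℝ) ≤ (k : ℝ) ^ (20 : ℝ) * 2 ^ i := by nlinarith
    have h4 := hcount ((k : ℝ) ^ (20 : ℝ) * 2 ^ i) h3 (by
      have h5 : (k : ℝ) ^ (20 : ℝ) * 2 ^ i ≤ gZ 4 y0 := h0
      linarith)
    refine le_trans ?_ h4
    refine Nat.cast_le.2 (card_le_card fun y hy => ?_)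
    have h5 := (mem_filter.1 (hD hy)).2.1
    exact mem_filter.2 ⟨mem_univ _, hPP y h5, hDz y hy⟩
  · intro y hy
    have h1 := (mem_filter.1 hy).2
    refine ⟨h1.2.1.le, lt_of_le_of_lt h1.2.2 ?_⟩
    rw [mul_comm]
    exact mul_lt_mul_of_pos_left hk hT0


/-- `k^a < 2^k` eventually -/
theorem ev_lt (a : ℝ) : ∃ k₀ : ℕ, ∀ k : ℕ, k₀ ≤ k → (k : ℝ) ^ a < 2 ^ k := by
  obtain ⟨k₀, h⟩ := Big.eventually_log_le a (1 / 2) (by norm_num)
  refine ⟨max k₀ 1, fun k hk => ?_⟩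
  have hk1 : 1 ≤ k := (le_max_right _ _).trans hk
  have hk0 : (0 : ℝ) < k := by exact_mod_cast hk1
  have h1 := h k ((le_max_left _ _).trans hk)
  rw [Real.rpow_def_of_pos hk0]
  have h2 : (2 : ℝ) ^ k = Real.exp (Real.log 2 * k) := by
    rw [← Real.rpow_natCast, Real.rpow_def_of_pos (by norm_num)]
  rw [h2, Real.exp_lt_exp]
  have := Real.log_two_gt_d9
  nlinarith

theorem size_pow {P : Finset ℕ} {k : ℕ} (h : (∏ p ∈ P, (p : ℝ)) ≤ (2 : ℝ) ^ ((1 / 8 : ℝ) * k)) :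
    (∏ p ∈ P, (p : ℝ)) ^ 8 ≤ 2 ^ k := by
  have h0 : 0 ≤ ∏ p ∈ P, (p : ℝ) := prod_nonneg fun p _ => Nat.cast_nonneg _
  refine (pow_le_pow_left₀ h0 h 8).trans (le_of_eq ?_)
  rw [← Real.rpow_natCast, ← Real.rpow_mul (by norm_num), ← Real.rpow_natCast]
  congr 1
  push_cast
  ring

theorem prod_univ_eq (P : Finset ℕ) :
    ((∏ s : {x // x ∈ P} × Fin 6, ps (fun i : {x // x ∈ P} => (i : ℕ)) 6 s : ℕ) : ℝ) =
      (∏ p ∈ P, (p : ℝ)) ^ 6 := by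
  rw [Fintype.prod_prod_type]
  push_cast
  have : ∀ i : {x // x ∈ P}, ∏ _j : Fin 6, ((i : ℕ) : ℝ) = ((i : ℕ) : ℝ) ^ 6 := by
    intro i
    rw [prod_const, card_univ, Fintype.card_fin]
  rw [← Finset.prod_coe_sort P (fun p => (p : ℝ)), ← prod_pow]
  exact prod_congr rfl fun i _ => this i

theorem card_le {P : Finset ℕ} [hpF : ∀ i : {x // x ∈ P}, Fact (i : ℕ).Prime]
    (S : Finset ({x // x ∈ P} × Fin 6)) :
    (Fintype.card (Good439.GS (ps (fun i : {x // x ∈ P} => (i : ℕ)) 6) S) : ℝ) ≤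
      (∏ p ∈ P, (p : ℝ)) ^ 6 := by
  rw [Good439.card_GS, ← prod_univ_eq]
  refine Nat.cast_le.2 (Finset.prod_le_prod_of_subset_of_one_le' (subset_univ _) fun s _ _ => ?_)
  exact (hpF s.1).out.one_lt.le

theorem barrier {P : Finset ℕ} {k m : ℕ} [hpF : ∀ i : {x // x ∈ P}, Fact (i : ℕ).Prime]
    (h : (∏ p ∈ P, (p : ℝ)) ≤ (2 : ℝ) ^ ((1 / 8 : ℝ) * k)) (hkm : 99 * k ≤ 100 * m)
    (S : Finset ({x // x ∈ P} × Fin 6)) :
    (Fintype.card (Good439.GS (ps (fun i : {x // x ∈ P} => (i : ℕ)) 6) S) : ℝ) *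
      (1 - 2 / ((4 : ℕ) : ℝ)) ^ m ≤ Real.exp (-(1 / 10) * k) := by
  have h0 : 0 ≤ ∏ p ∈ P, (p : ℝ) := prod_nonneg fun p _ => Nat.cast_nonneg _
  have h1 := (card_le S).trans (pow_le_pow_left₀ h0 h 6)
  have h2 : ((2 : ℝ) ^ ((1 / 8 : ℝ) * k)) ^ 6 = Real.exp (Real.log 2 * (3 / 4 * k)) := by
    rw [← Real.rpow_natCast, ← Real.rpow_mul (by norm_num), Real.rpow_def_of_pos (by norm_num)]
    congr 1
    push_cast
    ring
  have h3 : (1 - 2 / ((4 : ℕ) : ℝ)) ^ m = Real.exp (-(Real.log 2 * m)) := by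
    have : (1 - 2 / ((4 : ℕ) : ℝ)) = (2 : ℝ)⁻¹ := by norm_num
    rw [this, inv_pow, Real.exp_neg, ← Real.rpow_natCast, Real.rpow_def_of_pos (by norm_num)]
  rw [h3]
  rw [h2] at h1
  calc _ ≤ Real.exp (Real.log 2 * (3 / 4 * k)) * Real.exp (-(Real.log 2 * m)) := by gcongr
    _ = Real.exp (Real.log 2 * (3 / 4 * k - m)) := by rw [← Real.exp_add]; congr 1; ring
    _ ≤ _ := by
        rw [Real.exp_le_exp]
        have h5 : (99 : ℝ) * k ≤ 100 * m := by exact_mod_cast hkm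
        have h6 := Real.log_two_gt_d9
        have h7 : (0 : ℝ) ≤ k := Nat.cast_nonneg _
        have h8 : (3 / 4 * (k : ℝ) - m) ≤ -(24 / 100) * k := by linarith
        nlinarith

theorem prime_ge {P : Finset ℕ} {k : ℕ} [hpF : ∀ i : {x // x ∈ P}, Fact (i : ℕ).Prime]
    (h : ∀ p ∈ P, k ≤ p) (S : Finset ({x // x ∈ P} × Fin 6)) (p : ℕ) (hp : p.Prime)
    (hd : p ∣ Fintype.card (Good439.GS (ps (fun i : {x // x ∈ P} => (i : ℕ)) 6) S)) : k ≤ p := by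
  rw [Good439.card_GS] at hd
  obtain ⟨s, _, hs⟩ := (Prime.dvd_finsetProd_iff hp.prime _).1 hd
  have := (Nat.prime_dvd_prime_iff_eq hp (hpF s.1).out).1 hs
  rw [this]
  exact h _ s.1.2


theorem card_P_le {P : Finset ℕ} {k : ℕ} (hpr : ∀ p ∈ P, p.Prime)
    (h : (∏ p ∈ P, (p : ℝ)) ^ 8 ≤ 2 ^ k) : P.card ≤ k := by
  have h1 : (2 : ℝ) ^ P.card ≤ ∏ p ∈ P, (p : ℝ) := by
    rw [← prod_const]
    exact prod_le_prod (fun _ _ => by norm_num) fun p hp => by exact_mod_cast (hpr p hp).two_le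
  have h0 : (1 : ℝ) ≤ ∏ p ∈ P, (p : ℝ) := (one_le_pow₀ (by norm_num)).trans h1
  have h2 : (2 : ℝ) ^ P.card ≤ 2 ^ k := by
    calc (2 : ℝ) ^ P.card ≤ ∏ p ∈ P, (p : ℝ) := h1
      _ ≤ (∏ p ∈ P, (p : ℝ)) ^ 8 := le_self_pow₀ h0 (by norm_num)
      _ ≤ _ := h
  exact (pow_le_pow_iff_right₀ (by norm_num : (1 : ℝ) < 2)).1 h2

/-- final numbers -/
theorem numbers {P : Finset ℕ} {k m : ℕ} (hk1 : 1 ≤ k) (hmk : m ≤ k)
    (hpr : ∀ p ∈ P, p.Prime) (h : (∏ p ∈ P, (p : ℝ)) ^ 8 ≤ 2 ^ k) :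
    (Fintype.card (Bool × Bool) : ℝ) ^ (m * k) *
      (2 ^ (Fintype.card {x // x ∈ P} * 6) *
        ((∏ i : {x // x ∈ P}, 2 ^ 6 * (i : ℕ) ^ (6 * 6) : ℕ) * (2 ^ k + k * 4 ^ m) +
          ((m : ℝ) ^ m) ^ 3 * (k * (2 * (k : ℝ) ^ (-(20 / 5) + 1 / 10 : ℝ)) ^ m))) ≤
      (2 : ℝ) ^ ((22 : ℝ) * k) * (4 : ℝ) ^ (k * m) := by
  have hkr : (1 : ℝ) ≤ k := by exact_mod_cast hk1
  have hk0 : (0 : ℝ) < k := by linarith
  have hP := card_P_le hpr h
  have h4 : (Fintype.card (Bool × Bool) : ℝ) = 4 := by norm_num [Fintype.card_prod]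
  rw [h4, mul_comm m k, mul_comm]
  refine mul_le_mul_of_nonneg_right ?_ (by positivity)
  have h22 : (2 : ℝ) ^ ((22 : ℝ) * k) = 2 ^ (22 * k) := by
    rw [← Real.rpow_natCast]
    congr 1
    push_cast
    ring
  rw [h22]
  have hN1 : (1 : ℝ) ≤ ∏ p ∈ P, (p : ℝ) := by
    have : (1 : ℝ) = ∏ _p ∈ P, (1 : ℝ) := by simp
    rw [this]
    exact prod_le_prod (fun _ _ => by norm_num) fun p hp => by exact_mod_cast (hpr p hp).one_lt.le
  have hk2 : (k : ℝ) ≤ 2 ^ k := by exact_mod_cast Nat.lt_two_pow_self.le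
  have hcP : Fintype.card {x // x ∈ P} = P.card := Fintype.card_coe P
  -- C₀
  have hC : ((∏ i : {x // x ∈ P}, 2 ^ 6 * (i : ℕ) ^ (6 * 6) : ℕ) : ℝ) ≤ 2 ^ (11 * k) := by
    push_cast
    rw [Finset.prod_coe_sort P (fun p => (64 : ℝ) * (p : ℝ) ^ 36), prod_mul_distrib,
      prod_const, prod_pow, show (64 : ℝ) = 2 ^ 6 by norm_num, ← pow_mul]
    have e1 : (2 : ℝ) ^ (6 * P.card) ≤ 2 ^ (6 * k) :=
      pow_le_pow_right₀ (by norm_num) (Nat.mul_le_mul_left _ hP)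
    have e2 : (∏ p ∈ P, (p : ℝ)) ^ 36 ≤ 2 ^ (5 * k) := by
      calc (∏ p ∈ P, (p : ℝ)) ^ 36 ≤ (∏ p ∈ P, (p : ℝ)) ^ (8 * 5) :=
            pow_le_pow_right₀ hN1 (by norm_num)
        _ = ((∏ p ∈ P, (p : ℝ)) ^ 8) ^ 5 := by rw [pow_mul]
        _ ≤ (2 ^ k) ^ 5 := pow_le_pow_left₀ (by positivity) h 5
        _ = 2 ^ (5 * k) := by rw [← pow_mul, mul_comm]
    calc _ ≤ (2 : ℝ) ^ (6 * k) * 2 ^ (5 * k) :=
          mul_le_mul e1 e2 (by positivity) (by positivity)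
      _ = 2 ^ (11 * k) := by rw [← pow_add]; congr 1; ring
  have hA : (2 : ℝ) ^ k + k * 4 ^ m ≤ 2 ^ (4 * k) := by
    have e1 : (4 : ℝ) ^ m ≤ 2 ^ (2 * k) := by
      have : (4 : ℝ) = 2 ^ 2 := by norm_num
      rw [this, ← pow_mul]
      exact pow_le_pow_right₀ (by norm_num) (by omega)
    have e2 : (k : ℝ) * 4 ^ m ≤ 2 ^ k * 2 ^ (2 * k) := mul_le_mul hk2 e1 (by positivity) (by positivity)
    have e3 : (2 : ℝ) ^ k ≤ 2 ^ k * 2 ^ (2 * k) := le_mul_of_one_le_right (by positivity)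
      (one_le_pow₀ (by norm_num))
    have e4 : (2 : ℝ) ≤ 2 ^ k := by
      calc (2 : ℝ) = 2 ^ 1 := by norm_num
        _ ≤ 2 ^ k := pow_le_pow_right₀ (by norm_num) hk1
    calc (2 : ℝ) ^ k + k * 4 ^ m ≤ 2 * (2 ^ k * 2 ^ (2 * k)) := by linarith
      _ ≤ 2 ^ k * (2 ^ k * 2 ^ (2 * k)) := mul_le_mul_of_nonneg_right e4 (by positivity)
      _ = 2 ^ (4 * k) := by rw [← pow_add, ← pow_add]; congr 1; ring
  have hR : ((m : ℝ) ^ m) ^ 3 * (k * (2 * (k : ℝ) ^ (-(20 / 5) + 1 / 10 : ℝ)) ^ m) ≤ 2 ^ (2 * k) := by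
    have e1 : ((m : ℝ) ^ m) ^ 3 ≤ ((k : ℝ) ^ 3) ^ m := by
      rw [← pow_mul, ← pow_mul, mul_comm 3 m]
      exact pow_le_pow_left₀ (by positivity) (by exact_mod_cast hmk) _
    have e2 : (k : ℝ) ^ 3 * (2 * (k : ℝ) ^ (-(20 / 5) + 1 / 10 : ℝ)) ≤ 2 := by
      have : (k : ℝ) ^ 3 * (2 * (k : ℝ) ^ (-(20 / 5) + 1 / 10 : ℝ)) =
          2 * (k : ℝ) ^ (-(9 / 10) : ℝ) := by
        rw [← Real.rpow_natCast, mul_left_comm, ← Real.rpow_add hk0]
        norm_num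
      rw [this]
      have := Real.rpow_le_one_of_one_le_of_nonpos hkr (by norm_num : (-(9 / 10) : ℝ) ≤ 0)
      linarith
    have h0 : (0 : ℝ) ≤ (k : ℝ) ^ (-(20 / 5) + 1 / 10 : ℝ) := by positivity
    calc _ ≤ ((k : ℝ) ^ 3) ^ m * (k * (2 * (k : ℝ) ^ (-(20 / 5) + 1 / 10 : ℝ)) ^ m) := by gcongr
      _ = k * ((k : ℝ) ^ 3 * (2 * (k : ℝ) ^ (-(20 / 5) + 1 / 10 : ℝ))) ^ m := by
          rw [mul_pow ((k : ℝ) ^ 3)]; ring
      _ ≤ 2 ^ k * 2 ^ m := mul_le_mul hk2 (pow_le_pow_left₀ (by positivity) e2 m)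
          (by positivity) (by positivity)
      _ ≤ 2 ^ k * 2 ^ k := by gcongr; norm_num
      _ = 2 ^ (2 * k) := by rw [← pow_add]; congr 1; ring
  have hc6 : (2 : ℝ) ^ (Fintype.card {x // x ∈ P} * 6) ≤ 2 ^ (6 * k) :=
    pow_le_pow_right₀ (by norm_num) (by rw [hcP]; omega)
  have hA0 : (0 : ℝ) ≤ 2 ^ k + k * 4 ^ m := by positivity
  calc _ ≤ (2 : ℝ) ^ (6 * k) * (2 ^ (11 * k) * 2 ^ (4 * k) + 2 ^ (2 * k)) := by
        refine mul_le_mul hc6 (add_le_add (mul_le_mul hC hA hA0 (by positivity)) hR)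
          (by positivity) (by positivity)
    _ ≤ (2 : ℝ) ^ (6 * k) * (2 ^ (15 * k) + 2 ^ (15 * k)) := by
        have e1 : (2 : ℝ) ^ (11 * k) * 2 ^ (4 * k) = 2 ^ (15 * k) := by
          rw [← pow_add]; congr 1; ring
        have e2 : (2 : ℝ) ^ (2 * k) ≤ 2 ^ (15 * k) := pow_le_pow_right₀ (by norm_num) (by omega)
        rw [e1]
        gcongr
    _ = 2 * 2 ^ (21 * k) := by
        have : (2 : ℝ) ^ (21 * k) = 2 ^ (6 * k) * 2 ^ (15 * k) := by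
          rw [← pow_add]; congr 1; ring
        rw [this]; ring
    _ ≤ 2 ^ k * 2 ^ (21 * k) := by
        refine mul_le_mul_of_nonneg_right ?_ (by positivity)
        calc (2 : ℝ) = 2 ^ 1 := by norm_num
          _ ≤ 2 ^ k := pow_le_pow_right₀ (by norm_num) hk1
    _ = 2 ^ (22 * k) := by rw [← pow_add]; congr 1; ring

open scoped Classical in
/-- **LEMMA M** (`q = 3`, `β = 1/8`). -/
theorem mom : M67.StmtMom 3 (1 / 8) := by
  intro δ b₁ B hδ hδ1 hb hbB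
  obtain ⟨k₁, hcnt⟩ := CountM.countGM Spl.stmtSplit (M := 4) le_rfl (by norm_num) δ (1 / 10) 21 1 hδ
    (by linarith) (by norm_num) (by norm_num) (by norm_num)
  obtain ⟨k₂, hmc⟩ := MC.mc 4 le_rfl (1 / 10) (B + 20) 20 (δ / 4) (by norm_num) (by linarith)
    (by norm_num) (by linarith) (by linarith)
  obtain ⟨k₃, hmin⟩ := MinM67.minC (d := δ / 4) (by linarith) (by linarith)
  obtain ⟨k₄, h20⟩ := ev_lt 20
  obtain ⟨k₅, hB⟩ := ev_lt B
  refine ⟨22, max (max k₁ k₂) (max (max k₃ 1) (max k₄ k₅)), fun k hk m hmk hkm P hP => ?_⟩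
  have hk₁ : k₁ ≤ k := ((le_max_left _ _).trans (le_max_left _ _)).trans hk
  have hk₂ : k₂ ≤ k := ((le_max_right _ _).trans (le_max_left _ _)).trans hk
  have hk₃ : k₃ ≤ k :=
    (((le_max_left _ _).trans (le_max_left _ _)).trans (le_max_right _ _)).trans hk
  have hk1 : 1 ≤ k :=
    (((le_max_right _ _).trans (le_max_left _ _)).trans (le_max_right _ _)).trans hk
  have hk₄ : k₄ ≤ k :=
    (((le_max_left _ _).trans (le_max_right _ _)).trans (le_max_right _ _)).trans hk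
  have hk₅ : k₅ ≤ k :=
    (((le_max_right _ _).trans (le_max_right _ _)).trans (le_max_right _ _)).trans hk
  have hkr : (1 : ℝ) ≤ k := by exact_mod_cast hk1
  have hk0 : (0 : ℝ) < k := by linarith
  have hpF : ∀ i : {x // x ∈ P}, Fact (i : ℕ).Prime := fun i => ⟨hP.pr i i.2⟩
  have hsize := hP.size
  have h8 := size_pow hsize
  have hkp : ∀ p ∈ P, k ≤ p := by
    intro p hp
    have h1 : (k : ℝ) ≤ (k : ℝ) ^ b₁ := by
      calc (k : ℝ) = (k : ℝ) ^ (1 : ℝ) := (Real.rpow_one _).symm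
        _ ≤ _ := Real.rpow_le_rpow_of_exponent_le hkr hb
    exact_mod_cast h1.trans (hP.lo p hp)
  have hkm2 : (k : ℝ) ≤ 2 * m := by
    have : (99 : ℝ) * k ≤ 100 * m := by exact_mod_cast hkm
    linarith
  set GG := (univ : Finset (Fin k → Fin m → Bool × Bool)).filter
    (fun ω => M67.rkQ (M67.mt M67.xi ω) = m ∧
      ¬ M67.Sp P ((k : ℝ) ^ (1 - δ / 4)) (M67.mt M67.xi ω)) with hGG
  have hW : ∑ ω ∈ GG, M67.W P (M67.mt M67.xi ω) ^ 3 =
      ∑ ω ∈ GG, ((Wq M67.xi (fun i : {x // x ∈ P} => (i : ℕ)) 6 ω : ℕ) : ℝ) :=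
    sum_congr rfl fun Y _ => wq_eq P Y
  rw [hW]
  have hs0 : 0 < (k : ℝ) ^ (1 - δ / 4) := Real.rpow_pos_of_pos hk0 _
  refine (LemM203.core M67.xi (fun i : {x // x ∈ P} => (i : ℕ)) (q := 6) (M := 4) (by norm_num)
    domM4 GG (fun S w => NonSp ((k : ℝ) ^ (1 - δ / 4)) w ∧
      MC.MinC ((k : ℝ) ^ (1 - δ / 4)) ((k : ℝ) ^ (-(3 / 2) : ℝ)) w)
    ((k : ℝ) ^ (20 : ℝ)) ((k : ℝ) ^ B) (2 ^ k + k * 4 ^ m)
    (k * (2 * (k : ℝ) ^ (-(20 / 5) + 1 / 10 : ℝ)) ^ m) (((m : ℝ) ^ m) ^ 3)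
    (Real.one_le_rpow hkr (by norm_num)) (fun i => hP.hi i i.2) (by positivity)
    ?_ ?_ ?_ ?_).trans ?_
  · intro Y hY S w hker hind
    have hYG := (mem_filter.1 hY).2
    have hsp : ¬ M67.Sparse P ((k : ℝ) ^ (1 - δ / 4)) (M67.mt M67.xi Y) := fun h => hYG.2 (Or.inl h)
    have hspB : ¬ M67.SpB ((k : ℝ) ^ (1 - δ / 4)) (M67.mt M67.xi Y) := fun h => hYG.2 (Or.inr h)
    have hns : NonSp ((k : ℝ) ^ (1 - δ / 4)) w := by
      refine LemM203.nonsp_slots M67.xi (fun i : {x // x ∈ P} => (i : ℕ)) Subtype.val_injective Y _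
        ?_ S w hker hind
      intro i u hu hu0
      by_contra hlt
      push Not at hlt
      refine hsp ⟨i, i.2, u, hu0, ?_, fun j => ?_⟩
      · convert hlt
      · have h1 := (LemM203.mem_Ker M67.xi).1 hu j
        simp only [zsmul_eq_mul] at h1
        exact h1
    refine ⟨hns, fun ψ hψ F hF => ?_⟩
    refine hmin k hk₃ m hmk (M67.mt M67.xi Y) (fun i c => xi_abs _) hYG.1 hspB _ w hker ψ ?_ F hF
    have h1 := hns ψ hψ
    have h2 : 0 < (univ.filter fun c => ψ (w c) ≠ 1).card := by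
      by_contra h3
      have h4 : (univ.filter fun c => ψ (w c) ≠ 1).card = 0 := by omega
      rw [h4] at h1
      push_cast at h1
      linarith
    obtain ⟨c, hc⟩ := card_pos.1 h2
    exact ⟨c, (mem_filter.1 hc).2⟩
  · intro S
    exact low_gen hmk hk1 hδ1 (h20 k hk₄) _ (fun y hy => hy.1)
      (fun T h1 h2 => hcnt k hk₁ _ m hmk hkm2 (prime_ge hkp S) (barrier hsize hkm S) T h1 h2)
  · intro S
    exact big_gen (C₀ := B + 20) hmk hk1 le_rfl (hB k hk₅) _ (fun y hy => hy.2)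
      (fun T h1 h2 => hmc k hk₂ _ m hmk hkm2 (prime_ge hkp S) (barrier hsize hkm S) T h1 h2)
  · intro Y hY
    have hYG := (mem_filter.1 hY).2
    rw [← wq_eq P Y]
    exact MomGlue539.W_pow_le _ P hP.pr (fun i j => xi_abs _) hYG.1 3
  · exact numbers hk1 hmk hP.pr h8

end Vale.Agent.P160.Half.MomH51
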