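import Vale.Agent.P160.Half.P4Lem7
import Vale.Agent.P160.Half.P4Sum7
import Vale.Agent.P160.Half.MomGlue539
import Vale.Agent.P160.Half.MinM67_628
import Vale.Agent.P160.Half.MC986
import Vale.Agent.P160.Half.FlatZ4

/-! P160-HALF, (M), LEMMA M: final assembly (generic moment `q`, generic `η`) -/

namespace Vale.Agent.P160.Half.MomTop539

open Finset Vale.Agent.P160 Vale.Agent.P160.Half Vale.Agent.P160.Half.Flat
open Vale.Agent.P160.Half.LemM836 (dotp cnt Zp)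
open Vale.Agent.P160.Half.P4L (KerG)

section law

variable {G : Type} [AddCommGroup G]

/-- the law of `xi` has characteristic function `cf 4` -/
lemma Zp_xi {m : ℕ} [Fintype G] (y : Fin m → G) : Zp M67.xi y = gZ 4 y := by
  classical
  let σ : Bool × Bool ≃ Fin 4 :=
    { toFun := fun b => if b.1 then (if b.2 then 2 else 0) else (if b.2 then 1 else 3)
      invFun := fun i => if i = 0 then (true, false) else if i = 1 then (false, true) else
        if i = 2 then (true, true) else (false, false)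
      left_inv := by decide
      right_inv := by decide }
  have hσ : ∀ b, M67.xi b = st (σ b) := by decide
  have h1 : cnt M67.xi y = (univ.filter fun x : Fin m → Fin 4 => gwalk x y = 0).card := by
    unfold LemM836.cnt LemM836.dotp
    refine card_equiv (Equiv.arrowCongr (Equiv.refl _) σ) fun x => ?_
    rw [mem_filter, mem_filter]
    have h6 : ∀ c, M67.xi (x c) = st (Equiv.arrowCongr (Equiv.refl _) σ x c) := fun c => hσ (x c)
    simp only [mem_univ, true_and, h6]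
    rfl
  have h2 : ((univ.filter fun x : Fin m → Fin 4 => gwalk x y = 0).card : ℝ) =
      (4 : ℝ) ^ m * gpr 4 y 0 := by
    unfold gpr
    rw [Fintype.card_fin]
    push_cast
    field_simp
  have h3 : gZ 4 y = Fintype.card G * gpr 4 y 0 := by
    rw [gpr_zero_eq (by norm_num)]
    rfl
  unfold LemM836.Zp
  rw [h1, h2, h3, Nat.card_eq_fintype_card]
  have h4 : (Fintype.card (Bool × Bool) : ℝ) = 4 := by simp
  rw [h4]
  field_simp

lemma Zp_nonneg {m : ℕ} (y : Fin m → G) : 0 ≤ Zp M67.xi y := by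
  unfold LemM836.Zp
  positivity

lemma Zp_le {m : ℕ} (y : Fin m → G) : Zp M67.xi y ≤ Nat.card G := by
  classical
  unfold LemM836.Zp
  have h : (cnt M67.xi y : ℝ) ≤ (Fintype.card (Bool × Bool) : ℝ) ^ m := by
    have h1 : cnt M67.xi y ≤ Fintype.card (Fin m → Bool × Bool) := by
      unfold LemM836.cnt
      exact card_le_univ _
    rw [Fintype.card_fun, Fintype.card_fin] at h1
    exact_mod_cast h1
  have h0 : (0 : ℝ) < (Fintype.card (Bool × Bool) : ℝ) ^ m := by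
    have : 0 < Fintype.card (Bool × Bool) := Fintype.card_pos
    positivity
  rw [div_le_iff₀ h0]
  exact mul_le_mul_of_nonneg_left h (by positivity)

end law

/-- the property of kernel tuples -/
def PP (k : ℕ) (δ : ℝ) {m : ℕ} (G : Type) [AddCommGroup G] (y : Fin m → G) : Prop :=
  NonSp ((k : ℝ) ^ (1 - δ / 4)) y ∧ MC.MinC ((k : ℝ) ^ (1 - δ / 4)) ((k : ℝ) ^ (-(3 / 2) : ℝ)) y

lemma ev_pow (a : ℝ) {b : ℝ} (hb : 1 < b) : ∃ k₀ : ℕ, ∀ k : ℕ, k₀ ≤ k → (k : ℝ) ^ a ≤ b ^ k := by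
  obtain ⟨n, hn⟩ := exists_nat_ge a
  have h3 : ∀ᶠ k : ℕ in Filter.atTop, ‖((k : ℝ) ^ n)‖ ≤ 1 * ‖(b ^ k)‖ :=
    (isLittleO_pow_const_const_pow_of_one_lt n hb).def (by norm_num)
  obtain ⟨k₀, hk₀⟩ := Filter.eventually_atTop.1 (h3.and (Filter.eventually_ge_atTop 1))
  refine ⟨k₀, fun k hk => ?_⟩
  obtain ⟨h4, h5⟩ := hk₀ k hk
  have hkr : (1 : ℝ) ≤ k := by exact_mod_cast h5
  rw [Real.norm_of_nonneg (by positivity), Real.norm_of_nonneg (by positivity), one_mul] at h4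
  refine le_trans ?_ h4
  rw [← Real.rpow_natCast]
  exact Real.rpow_le_rpow_of_exponent_le hkr hn

lemma A_le {k m : ℕ} (hmk : m ≤ k) (hk : 1 ≤ k) {X T : ℝ} (hX0 : 0 ≤ X) (hX : X ≤ 1)
    (hT0 : 0 ≤ T + 1) (hT : T + 1 ≤ 2 * 2 ^ k) : 2 ^ k + (3 * X) ^ m * (T + 1) ≤ 2 ^ (5 * k) := by
  have hm3 : (3 : ℝ) ^ m ≤ 4 ^ k :=
    (pow_le_pow_left₀ (by norm_num) (by norm_num) m).trans (pow_le_pow_right₀ (by norm_num) hmk)
  have h7 : (3 * X) ^ m ≤ 4 ^ k := by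
    refine le_trans ?_ hm3
    exact pow_le_pow_left₀ (by positivity) (by linarith) m
  have h8 : (3 * X) ^ m * (T + 1) ≤ 4 ^ k * (2 * 2 ^ k) :=
    mul_le_mul h7 hT hT0 (by positivity)
  have h9 : (1 : ℝ) ≤ 2 ^ k := one_le_pow₀ (by norm_num)
  have h10 : (2 : ℝ) ≤ 2 ^ k := by
    calc (2 : ℝ) = 2 ^ 1 := by norm_num
      _ ≤ 2 ^ k := pow_le_pow_right₀ (by norm_num) hk
  have e4 : (4 : ℝ) ^ k = 2 ^ k * 2 ^ k := by rw [← mul_pow]; norm_num
  have e5 : (2 : ℝ) ^ (5 * k) = 2 ^ k * 2 ^ k * (2 ^ k * 2 ^ k) * 2 ^ k := by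
    rw [← pow_add, ← pow_add, ← pow_add]
    congr 1
    omega
  rw [e5]
  rw [e4] at h8
  generalize (2 : ℝ) ^ k = t at *
  have t0 : 0 < t := by linarith
  have h11 : t * t * (2 * t) ≤ t * t * (t * t) := by gcongr
  have h12 : t ≤ t * t * (t * t) := by
    calc t = t * 1 * (1 * 1) := by ring
      _ ≤ t * t * (t * t) := by gcongr
  calc t + (3 * X) ^ m * (T + 1) ≤ t * t * (t * t) + t * t * (t * t) := by linarith
    _ = t * t * (t * t) * 2 := by ring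
    _ ≤ t * t * (t * t) * t := by gcongr

lemma RX_le {k m q : ℕ} (hmk : m ≤ k) (hk1 : (1 : ℝ) ≤ k) (hkm : (k : ℝ) ≤ 2 * m) :
    ((m : ℝ) ^ m) ^ q * ((k : ℝ) ^ (-((10 * q + 1 : ℝ) / 5) + 1 / 10)) ^ m ≤ 1 := by
  have hk0 : (0 : ℝ) < k := by linarith
  have hmr : (m : ℝ) ≤ k := by exact_mod_cast hmk
  have h8 : ((m : ℝ) ^ m) ^ q ≤ (k : ℝ) ^ ((q : ℝ) * k) := by
    have h9 : (m : ℝ) ^ m ≤ (k : ℝ) ^ (k : ℝ) := by
      rw [Real.rpow_natCast]
      calc (m : ℝ) ^ m ≤ (k : ℝ) ^ m := pow_le_pow_left₀ (by positivity) hmr m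
        _ ≤ (k : ℝ) ^ k := pow_le_pow_right₀ hk1 hmk
    calc ((m : ℝ) ^ m) ^ q ≤ ((k : ℝ) ^ (k : ℝ)) ^ q := pow_le_pow_left₀ (by positivity) h9 q
      _ = (k : ℝ) ^ ((q : ℝ) * k) := by
          rw [← Real.rpow_natCast, ← Real.rpow_mul hk0.le]
          congr 1
          ring
  have h9 : ((k : ℝ) ^ (-((10 * q + 1 : ℝ) / 5) + 1 / 10)) ^ m =
      (k : ℝ) ^ ((-((10 * q + 1 : ℝ) / 5) + 1 / 10) * m) := by
    rw [← Real.rpow_natCast, ← Real.rpow_mul hk0.le]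
  calc ((m : ℝ) ^ m) ^ q * ((k : ℝ) ^ (-((10 * q + 1 : ℝ) / 5) + 1 / 10)) ^ m
      ≤ (k : ℝ) ^ ((q : ℝ) * k) * (k : ℝ) ^ ((-((10 * q + 1 : ℝ) / 5) + 1 / 10) * m) := by
        rw [h9]
        exact mul_le_mul_of_nonneg_right h8 (by positivity)
    _ = (k : ℝ) ^ ((q : ℝ) * k + (-((10 * q + 1 : ℝ) / 5) + 1 / 10) * m) :=
        (Real.rpow_add hk0 _ _).symm
    _ ≤ 1 := by
        refine Real.rpow_le_one_of_one_le_of_nonpos hk1 ?_
        have hq0 : (0 : ℝ) ≤ q := by positivity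
        have : (q : ℝ) * k ≤ q * (2 * m) := mul_le_mul_of_nonneg_left hkm hq0
        have hm0 : (0 : ℝ) ≤ m := by positivity
        nlinarith

lemma RB_le {k m : ℕ} (hmk : m ≤ k) (hk : 1 ≤ k) {R X U : ℝ} (h7 : R * X ^ m ≤ 1)
    (hU0 : 0 ≤ U) (hU : U ≤ 2 * 2 ^ k) :
    R * ((3 * X) ^ m * U) ≤ 2 ^ (4 * k) := by
  have hm3 : (3 : ℝ) ^ m ≤ 4 ^ k :=
    (pow_le_pow_left₀ (by norm_num) (by norm_num) m).trans (pow_le_pow_right₀ (by norm_num) hmk)
  have h8 : R * ((3 * X) ^ m * U) = R * X ^ m * (3 ^ m * U) := by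
    rw [mul_pow]; ring
  rw [h8]
  have h10 : (2 : ℝ) ≤ 2 ^ k := by
    calc (2 : ℝ) = 2 ^ 1 := by norm_num
      _ ≤ 2 ^ k := pow_le_pow_right₀ (by norm_num) hk
  have e4 : (4 : ℝ) ^ k = 2 ^ k * 2 ^ k := by rw [← mul_pow]; norm_num
  have e5 : (2 : ℝ) ^ (4 * k) = 2 ^ k * 2 ^ k * (2 ^ k * 2 ^ k) := by
    rw [← pow_add, ← pow_add]
    congr 1
    omega
  calc R * X ^ m * (3 ^ m * U) ≤ 1 * (4 ^ k * (2 * 2 ^ k)) := by
        refine mul_le_mul h7 (mul_le_mul hm3 hU hU0 (by positivity)) (by positivity) (by norm_num)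
    _ ≤ 2 ^ (4 * k) := by
        rw [one_mul, e4, e5]
        gcongr

lemma fin_le {k s : ℕ} (hk : 1 ≤ k) {N A RB β : ℝ} (hβ : 0 ≤ β) (hN0 : 0 ≤ N)
    (hN : N ≤ (2 : ℝ) ^ (β * k)) (hA0 : 0 ≤ A) (hRB0 : 0 ≤ RB) (hA : A ≤ 2 ^ (5 * k))
    (hRB : RB ≤ 2 ^ (4 * k)) :
    N ^ (s * s) * A + N ^ (s * s) * N ^ (s * s) * RB ≤ (2 : ℝ) ^ ((2 * β * (s * s) + 8) * k) := by
  have hNs : N ^ (s * s) ≤ (2 : ℝ) ^ (β * (s * s) * k) := by
    calc N ^ (s * s) ≤ ((2 : ℝ) ^ (β * k)) ^ (s * s) := pow_le_pow_left₀ hN0 hN _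
      _ = (2 : ℝ) ^ (β * (s * s) * k) := by
          rw [← Real.rpow_natCast, ← Real.rpow_mul (by norm_num)]
          congr 1
          push_cast
          ring
  have e1 : (2 : ℝ) ^ (2 * β * (s * s) * k) =
      (2 : ℝ) ^ (β * (s * s) * k) * (2 : ℝ) ^ (β * (s * s) * k) := by
    rw [← Real.rpow_add (by norm_num)]
    congr 1
    ring
  have h7 : (1 : ℝ) ≤ (2 : ℝ) ^ (β * (s * s) * k) :=
    Real.one_le_rpow (by norm_num) (by positivity)
  have hNs0 : (0 : ℝ) ≤ N ^ (s * s) := by positivity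
  have e2 : (2 : ℝ) ^ ((2 * β * (s * s) + 8) * k) =
      (2 : ℝ) ^ (2 * β * (s * s) * k) * (2 : ℝ) ^ (8 * k) := by
    rw [← Real.rpow_natCast 2 (8 * k), ← Real.rpow_add (by norm_num)]
    congr 1
    push_cast
    ring
  have e3 : (2 : ℝ) ^ (5 * k) ≤ 2 ^ (6 * k) := pow_le_pow_right₀ (by norm_num) (by omega)
  have e4 : (2 : ℝ) ^ (4 * k) ≤ 2 ^ (6 * k) := pow_le_pow_right₀ (by norm_num) (by omega)
  have e5 : (2 : ℝ) * 2 ^ (6 * k) ≤ 2 ^ (8 * k) := by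
    rw [← pow_succ']
    exact pow_le_pow_right₀ (by norm_num) (by omega)
  rw [e2, e1]
  generalize (2 : ℝ) ^ (β * (s * s) * k) = u at *
  have hu0 : 0 < u := by linarith
  calc N ^ (s * s) * A + N ^ (s * s) * N ^ (s * s) * RB
      ≤ u * 2 ^ (5 * k) + u * u * 2 ^ (4 * k) := by gcongr
    _ ≤ u * u * 2 ^ (5 * k) + u * u * 2 ^ (4 * k) := by
        have : u * 2 ^ (5 * k) ≤ u * u * (2 : ℝ) ^ (5 * k) := by
          gcongr
          exact le_mul_of_one_le_left hu0.le h7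
        linarith
    _ = u * u * (2 ^ (5 * k) + 2 ^ (4 * k)) := by ring
    _ ≤ u * u * 2 ^ (8 * k) := by
        refine mul_le_mul_of_nonneg_left ?_ (by positivity)
        linarith

open Classical in
/-- **LEMMA M**, generic moment and aspect ratio -/
theorem mom_gen (q : ℕ) (β η : ℝ) (hβ : 0 < β) (hη : 0 ≤ η) (hη2 : η ≤ 1 / 2)
    (hq : 2 * q * β < 1 - η) : ∀ δ b₁ B : ℝ, 0 < δ → δ ≤ 1 / 100 → 1 ≤ b₁ → b₁ ≤ B →
    ∃ (C : ℝ) (k₀ : ℕ), ∀ k ≥ k₀, ∀ m : ℕ, m ≤ k → (1 - η) * k ≤ m → ∀ P : Finset ℕ,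
    M67.Adm b₁ β B k P →
    ∑ ω ∈ (univ : Finset (Fin k → Fin m → Bool × Bool)).filter
      (fun ω => M67.rkQ (M67.mt M67.xi ω) = m ∧
        ¬ M67.Sp P ((k : ℝ) ^ (1 - δ / 4)) (M67.mt M67.xi ω)), M67.W P (M67.mt M67.xi ω) ^ q ≤
    (2 : ℝ) ^ (C * k) * (4 : ℝ) ^ (k * m) := by
  intro δ b₁ B hδ hδ1 hb₁ hB
  have hB1 : 1 ≤ B := hb₁.trans hB
  set s : ℕ := 2 * q with hs
  set c : ℝ := (1 - η - s * β) * Real.log 2 with hc
  have hlog2 : 0 < Real.log 2 := Real.log_pos (by norm_num)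
  have hsβ : (s : ℝ) * β < 1 - η := by rw [hs]; push_cast; exact hq
  have hc0 : 0 < c := mul_pos (by linarith) hlog2
  set C₁ : ℝ := 10 * q + 1 with hC₁
  have hC₁0 : 0 < C₁ := by positivity
  set C₀ : ℝ := B + C₁ + 2 with hC₀
  have hC₀0 : 0 < C₀ := by linarith
  obtain ⟨k₁, h₁⟩ := countG4 δ c C₀ hδ (by linarith) hc0 hC₀0
  obtain ⟨k₂, h₂⟩ := MC.mc 4 le_rfl c C₀ C₁ (δ / 4) hc0 hC₀0 hC₁0 (by positivity) (by linarith)
  obtain ⟨k₃, h₃⟩ := Vale.Agent.P160.Half.MinM67.minC (d := δ / 4) (by positivity) (by linarith)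
  obtain ⟨k₄, h₄⟩ := ev_pow (B + C₁ + 2) (b := 2) (by norm_num)
  refine ⟨2 * β * (s * s) + 8, max (max k₁ k₂) (max (max k₃ k₄) 4), ?_⟩
  intro k hk m hmk hm P hP
  have hk1 : k₁ ≤ k := le_trans (le_trans (le_max_left _ _) (le_max_left _ _)) hk
  have hk2 : k₂ ≤ k := le_trans (le_trans (le_max_right _ _) (le_max_left _ _)) hk
  have hk3 : k₃ ≤ k := le_trans (le_trans (le_trans (le_max_left _ _) (le_max_left _ _)) (le_max_right _ _)) hk
  have hk4 : k₄ ≤ k := le_trans (le_trans (le_trans (le_max_right _ _) (le_max_left _ _)) (le_max_right _ _)) hk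
  have hk5 : 4 ≤ k := le_trans (le_trans (le_max_right _ _) (le_max_right _ _)) hk
  have hkr : (4 : ℝ) ≤ k := by exact_mod_cast hk5
  have hk0 : (0 : ℝ) < k := by linarith
  have hk1' : (1 : ℝ) ≤ k := by linarith
  have hmr : (m : ℝ) ≤ k := by exact_mod_cast hmk
  have hkm : (k : ℝ) ≤ 2 * m := by nlinarith
  have hm1 : 1 ≤ m := by
    have : (0 : ℝ) < m := by linarith
    exact_mod_cast this
  set N : ℕ := ∏ p ∈ P, p with hN
  have hNpos : 0 < N := Finset.prod_pos fun p hp => (hP.pr p hp).pos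
  have : NeZero N := ⟨hNpos.ne'⟩
  have hNr : (N : ℝ) ≤ (2 : ℝ) ^ (β * k) := by
    have := hP.size
    rw [hN]; push_cast; exact this
  have hN1 : (1 : ℝ) ≤ N := by exact_mod_cast hNpos
  have hdvd : ∀ p : ℕ, p.Prime → p ∣ N → p ∈ P := by
    intro p hp hpN
    obtain ⟨r, hr, hpr⟩ := (Prime.dvd_finsetProd_iff hp.prime _).1 hpN
    rwa [(Nat.prime_dvd_prime_iff_eq hp (hP.pr r hr)).1 hpr]
  have hXX : (k : ℝ) ≤ (k : ℝ) ^ b₁ := by
    calc (k : ℝ) = (k : ℝ) ^ (1 : ℝ) := (Real.rpow_one _).symm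
      _ ≤ _ := Real.rpow_le_rpow_of_exponent_le hk1' hb₁
  -- facts on the groups
  have hGp : ∀ (G : Type) [AddCommGroup G] [Fintype G], (∀ g : G, N • g = 0) →
      ∀ p : ℕ, p.Prime → p ∣ Fintype.card G → k ≤ p := by
    intro G _ _ hG p hp hpG
    have : Fact p.Prime := ⟨hp⟩
    obtain ⟨g, hg⟩ := exists_prime_addOrderOf_dvd_card p hpG
    have h5 : p ∣ N := by
      rw [← hg]
      exact addOrderOf_dvd_of_nsmul_eq_zero (hG g)
    have h6 := hP.lo p (hdvd p hp h5)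
    exact_mod_cast hXX.trans h6
  have hGc : ∀ (G : Type) [AddCommGroup G] [Fintype G], Nat.card G ≤ N ^ s →
      (Fintype.card G : ℝ) * (1 / 2) ^ m ≤ Real.exp (-c * k) := by
    intro G _ _ hG
    rw [Nat.card_eq_fintype_card] at hG
    have h5 : (Fintype.card G : ℝ) ≤ (N : ℝ) ^ s := by exact_mod_cast hG
    have h6 : (N : ℝ) ^ s ≤ (2 : ℝ) ^ (s * β * k) := by
      calc (N : ℝ) ^ s ≤ ((2 : ℝ) ^ (β * k)) ^ s := pow_le_pow_left₀ (by positivity) hNr s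
        _ = (2 : ℝ) ^ (s * β * k) := by
            rw [← Real.rpow_natCast, ← Real.rpow_mul (by norm_num)]
            congr 1
            ring
    have h7 : ((1 : ℝ) / 2) ^ m ≤ (2 : ℝ) ^ (-((1 - η) * k)) := by
      have : ((1 : ℝ) / 2) ^ m = (2 : ℝ) ^ (-(m : ℝ)) := by
        rw [Real.rpow_neg (by norm_num), Real.rpow_natCast, one_div, inv_pow]
      rw [this]
      exact Real.rpow_le_rpow_of_exponent_le (by norm_num) (by linarith)
    calc (Fintype.card G : ℝ) * (1 / 2) ^ m ≤ (2 : ℝ) ^ (s * β * k) * (2 : ℝ) ^ (-((1 - η) * k)) :=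
          mul_le_mul (h5.trans h6) h7 (by positivity) (by positivity)
      _ = Real.exp (-c * k) := by
          rw [← Real.rpow_add (by norm_num), Real.rpow_def_of_pos (by norm_num), hc]
          congr 1
          ring
  have hG1 : ∀ (G : Type) [AddCommGroup G] [Fintype G], (1 : ℝ) ≤ Nat.card G := by
    intro G _ _
    exact_mod_cast Nat.card_pos (α := G)
  -- parameters
  have hkC₁ : (1 : ℝ) ≤ (k : ℝ) ^ C₁ := Real.one_le_rpow hk1' hC₁0.le
  set T₀ : ℝ := 2 * (k : ℝ) ^ C₁ + 1 with hT₀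
  set Q₀ : ℝ := (k : ℝ) ^ B with hQ₀
  have hQ₀1 : 1 ≤ Q₀ := Real.one_le_rpow hk1' (by linarith)
  have hT₀1 : 1 ≤ T₀ := by linarith
  have hQT : Q₀ * T₀ ≤ (k : ℝ) ^ C₀ := by
    have h5 : T₀ ≤ 3 * (k : ℝ) ^ C₁ := by linarith
    have h6 : (3 : ℝ) ≤ (k : ℝ) ^ (2 : ℝ) := by
      rw [show (2 : ℝ) = ((2 : ℕ) : ℝ) by norm_num, Real.rpow_natCast]
      nlinarith
    calc Q₀ * T₀ ≤ (k : ℝ) ^ B * ((k : ℝ) ^ (2 : ℝ) * (k : ℝ) ^ C₁) := by
          refine mul_le_mul le_rfl (h5.trans ?_) (by positivity) (by positivity)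
          exact mul_le_mul_of_nonneg_right h6 (by positivity)
      _ = (k : ℝ) ^ C₀ := by
          rw [← Real.rpow_add hk0, ← Real.rpow_add hk0, hC₀]
          congr 1
          ring
  have hTQ : T₀ ≤ Q₀ * T₀ := le_mul_of_one_le_left (by linarith) hQ₀1
  have hT₀C : T₀ ≤ (k : ℝ) ^ C₀ := hTQ.trans hQT
  have h2k : (k : ℝ) ^ C₀ ≤ 2 ^ k := by
    have := h₄ k hk4
    rwa [show B + C₁ + 2 = C₀ from rfl] at this
  set X₁ : ℝ := (k : ℝ) ^ (-(1 / 2) + δ) with hX₁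
  have hX₁0 : 0 ≤ X₁ := by positivity
  have hX₁1 : X₁ ≤ 1 := Real.rpow_le_one_of_one_le_of_nonpos hk1' (by linarith)
  set X₂ : ℝ := (k : ℝ) ^ (-(C₁ / 5) + 1 / 10) with hX₂
  have hX₂0 : 0 ≤ X₂ := by positivity
  set A : ℝ := 2 ^ k + (3 * X₁) ^ m * (T₀ + 1) with hA
  set B' : ℝ := (3 * X₂) ^ m * (Q₀ * T₀ + 1) with hB'
  set R : ℝ := ((m : ℝ) ^ m) ^ q with hR
  set YY : Finset (Fin k → Fin m → Bool × Bool) := univ.filter
      (fun ω => M67.rkQ (M67.mt M67.xi ω) = m ∧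
        ¬ M67.Sp P ((k : ℝ) ^ (1 - δ / 4)) (M67.mt M67.xi ω)) with hYY
  have hxi : ∀ (ω : Fin k → Fin m → Bool × Bool) i j, |M67.mt M67.xi ω i j| ≤ 1 := by
    intro ω i j
    have : ∀ b : Bool × Bool, |M67.xi b| ≤ 1 := by decide
    exact this _
  have hcardW : ∀ ω : Fin k → Fin m → Bool × Bool,
      (Nat.card (KerG M67.xi (ZMod N) ω) : ℝ) ^ s = M67.W P (M67.mt M67.xi ω) ^ q := by
    intro ω
    rw [MomGlue539.W_pow _ P hP.pr, MomGlue539.card_pi]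
    push_cast
    rfl
  have hcore := P4L.core (k := k) (m := m) M67.xi N s T₀ Q₀ R A B' hT₀1 (by positivity)
    (by positivity) (by positivity) (by simp) ?_ (PP k δ) YY ?_ ?_ ?_ ?_
  · -- conclusion
    have h5 : ∑ ω ∈ YY, M67.W P (M67.mt M67.xi ω) ^ q =
        ∑ ω ∈ YY, (Nat.card (KerG M67.xi (ZMod N) ω) : ℝ) ^ s :=
      sum_congr rfl fun ω _ => (hcardW ω).symm
    rw [h5]
    refine hcore.trans ?_
    have h6 : (Fintype.card (Bool × Bool) : ℝ) = 4 := by simp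
    rw [h6, mul_comm]
    refine mul_le_mul_of_nonneg_right ?_ (by positivity)
    -- numerics
    have hTT : Q₀ * T₀ + 1 ≤ 2 * 2 ^ k := by
      have : (1 : ℝ) ≤ 2 ^ k := one_le_pow₀ (by norm_num)
      linarith
    have hT2 : T₀ + 1 ≤ 2 * 2 ^ k := by linarith
    have hA2 : A ≤ 2 ^ (5 * k) := A_le hmk (by omega) hX₁0 hX₁1 (by linarith) hT2
    have hRX : R * X₂ ^ m ≤ 1 := by
      rw [hR, hX₂, hC₁]
      exact RX_le hmk hk1' hkm
    have hRB : R * B' ≤ 2 ^ (4 * k) := RB_le hmk (by omega) hRX (by positivity) hTT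
    refine le_trans (le_of_eq ?_) (fin_le (s := s) (by omega) hβ.le (by positivity : (0 : ℝ) ≤ N) hNr
      (by positivity : 0 ≤ A) (by positivity : 0 ≤ R * B') hA2 hRB)
    ring
  · -- primes
    intro p hp hpN
    exact hP.hi p (hdvd p hp hpN)
  · -- PP
    intro Y hY G _ _ hG y hy hz
    rw [hYY, mem_filter] at hY
    obtain ⟨-, hr, hSp⟩ := hY
    have hSp1 : ¬ M67.Sparse P ((k : ℝ) ^ (1 - δ / 4)) (M67.mt M67.xi Y) := fun h => hSp (Or.inl h)
    have hSp2 : ¬ M67.SpB ((k : ℝ) ^ (1 - δ / 4)) (M67.mt M67.xi Y) := fun h => hSp (Or.inr h)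
    have hz' : ∀ i, ∑ j, M67.mt M67.xi Y i j • y j = 0 := hz
    refine ⟨MomGlue539.spread hNpos.ne' P hdvd _ _ hSp1 hG y hy hz', ?_⟩
    intro ψ hψ F hF
    have : Fintype G := Fintype.ofFinite G
    refine h₃ k hk3 m hmk _ (hxi Y) hr hSp2 G y hz' ψ ?_ F hF
    by_contra hcon
    push Not at hcon
    exact hψ (MomGlue539.eq_one_gen y hy ψ hcon)
  · -- Hadamard
    intro Y hY
    rw [hYY, mem_filter] at hY
    rw [hcardW Y]
    exact MomGlue539.W_pow_le _ P hP.pr (hxi Y) hY.2.1 q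
  · -- low
    intro G _ _ hG hGN
    refine P4S.low _ (fun y => Zp M67.xi y) (Nat.card G) X₁ T₀ k m hmk (fun y => Zp_nonneg y)
      (hG1 G) hX₁0 (by linarith) ?_ ?_ (fun y _ => Zp_le y) ?_
    · refine le_trans (Nat.cast_le.2 (card_filter_le _ _)) ?_
      rw [card_univ, Fintype.card_fun, Fintype.card_fin, Nat.card_eq_fintype_card]
      push_cast
      exact le_rfl
    · intro y hy
      have := (mem_filter.1 hy).2.2
      linarith
    · intro T hT1 hT2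
      have h5 := h₁ k hk1 G m hmk hkm (hGp G hG) (hGc G hGN) T ?_ (hT2.trans hT₀C)
      · rw [max_eq_right hT1] at h5
        rw [Nat.card_eq_fintype_card]
        refine le_trans (Nat.cast_le.2 (card_le_card ?_)) h5
        intro y hy
        simp only [mem_filter, mem_univ, true_and] at hy ⊢
        refine ⟨hy.1.1.1, ?_⟩
        rw [← Zp_xi]
        exact hy.2
      · refine le_trans ?_ hT1
        rw [div_le_one (by positivity)]
        exact one_le_pow₀ hk1'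
  · -- big
    intro G _ _ hG hGN
    refine P4S.levels _ (fun y => Zp M67.xi y) (Nat.card G) X₂ ((k : ℝ) ^ C₁) (Q₀ * T₀) k m hmk
      (fun y => Zp_nonneg y) (hG1 G) hX₂0 (by linarith) (by positivity) ?_ ?_ (fun y _ => Zp_le y) ?_
    · intro y hy
      have := (mem_filter.1 hy).2.2.1
      linarith
    · intro y hy
      have := (mem_filter.1 hy).2.2.2
      linarith
    · intro T hT0 hT1 hT2
      have h5 := h₂ k hk2 G m hmk hkm (hGp G hG) ?_ T hT0.le (hT2.trans hQT)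
      · rw [Nat.card_eq_fintype_card]
        refine le_trans (Nat.cast_le.2 (card_le_card ?_)) h5
        intro y hy
        simp only [mem_filter, mem_univ, true_and] at hy ⊢
        refine ⟨hy.1.1.2, ?_⟩
        rw [← Zp_xi]
        linarith [hy.2]
      · have h6 := hGc G hGN
        have e6 : (1 - 2 / ((4 : ℕ) : ℝ)) = 1 / 2 := by norm_num
        rw [e6]
        exact h6

/-- the official form -/
theorem mom (q : ℕ) (β : ℝ) (hβ : 0 < β) (hq : 2 * q * β < 99 / 100) : M67.StmtMom q β := by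
  intro δ b₁ B hδ hδ1 hb₁ hB
  obtain ⟨C, k₀, h⟩ := mom_gen q β (1 / 100) hβ (by norm_num) (by norm_num) (by linarith) δ b₁ B
    hδ hδ1 hb₁ hB
  refine ⟨C, k₀, fun k hk m hmk hm P hP => ?_⟩
  have hm' : (99 : ℝ) * k ≤ 100 * m := by exact_mod_cast hm
  have h2 := h k hk m hmk (by linarith) P hP
  convert h2

end Vale.Agent.P160.Half.MomTop539
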