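import Vale.Agent.P160.Half.MC986
import Vale.Agent.P160.Half.FlatZ743
import Vale.Agent.P160.Half.MomGlue539
import Vale.Agent.P160.Half.P4Lem7
import Vale.Agent.P160.Half.P4Sum7
import Vale.Agent.P160.Half.MinM67_628

/-! # P160-HALF (M): LEMMA M of note 11331, the assembly of `M67.StmtMom` (hedge of helper685)

`stmtMom_of M` : from COUNT and MC for the laziness `M` (`M = 8` : unconditional, `2 q β log 2 <
(99/100) log (4/3)`; `M = 4` : `2 q β < 99/100`). -/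

namespace Vale.Agent.P160.Half.MomTop685

open Finset Vale.Agent.P160 Vale.Agent.P160.Half Vale.Agent.P160.Half.Flat
open Vale.Agent.P160.Half.LemM836 Vale.Agent.P160.Half.M67

open scoped Classical in
/-- COUNT for the laziness `M` -/
def CountM (M : ℕ) : Prop :=
  ∀ δ c C₀ : ℝ, 0 < δ → δ ≤ 1 → 0 < c → 0 < C₀ → ∃ k₀ : ℕ, ∀ k : ℕ, k₀ ≤ k →
    ∀ (G : Type) [AddCommGroup G] [Fintype G] (m : ℕ), m ≤ k → (k : ℝ) ≤ 2 * m →
    (∀ p : ℕ, p.Prime → p ∣ Fintype.card G → k ≤ p) →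
    (Fintype.card G : ℝ) * (1 - 2 / M) ^ m ≤ Real.exp (-c * k) →
    ∀ T : ℝ, 1 / k ≤ T → T ≤ (k : ℝ) ^ C₀ →
    ((univ.filter fun y : Fin m → G =>
      NonSp ((k : ℝ) ^ (1 - δ / 4)) y ∧ 1 + T ≤ gZ M y).card : ℝ) ≤
      (Fintype.card G : ℝ) ^ m * ((k : ℝ) ^ (-(1 / 2) + δ) / max 1 T) ^ m

theorem countM8 : CountM 8 := by
  intro δ c C₀ h1 h2 h3 h4
  obtain ⟨k₀, h⟩ := Flat.C743.countG743 δ c C₀ h1 h2 h3 h4
  refine ⟨k₀, fun k hk G _ _ m hmk hkm hp hG T hT1 hT2 => ?_⟩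
  refine h k hk G m hmk hkm hp ?_ T hT1 hT2
  refine le_trans (le_of_eq ?_) hG
  norm_num

/-- seeds -/
def sd (b : Bool × Bool) : Fin 4 :=
  if b.1 then (if b.2 then 2 else 0) else (if b.2 then 1 else 3)

theorem sd_bij : Function.Bijective sd := by
  rw [Fintype.bijective_iff_injective_and_card]
  constructor
  · intro a b
    revert a b
    decide
  · rfl

theorem st_sd (b : Bool × Bool) : st (sd b) = xi b := by
  revert b
  decide

section one

variable {G : Type} [AddCommGroup G] [Fintype G] {m : ℕ}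

theorem cnt_eq [DecidableEq G] (y : Fin m → G) :
    cnt xi y = (univ.filter (fun ω : Fin m → Fin 4 => gwalk ω y = 0)).card := by
  classical
  unfold cnt
  refine card_bij (fun x _ => fun c => sd (x c)) ?_ ?_ ?_
  · intro x hx
    simp only [mem_filter, mem_univ, true_and] at hx ⊢
    unfold gwalk
    unfold dotp at hx
    simp only [st_sd]
    exact hx
  · intro x _ x' _ h
    funext c
    exact sd_bij.1 (congrFun h c)
  · intro ω hω
    choose f hf using sd_bij.2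
    refine ⟨fun c => f (ω c), ?_, ?_⟩
    · simp only [mem_filter, mem_univ, true_and] at hω ⊢
      unfold gwalk at hω
      unfold dotp
      rw [← hω]
      refine sum_congr rfl fun c _ => ?_
      rw [← st_sd, hf]
    · funext c
      exact hf _

theorem Zp_eq [DecidableEq G] (y : Fin m → G) :
    Zp xi y = (Fintype.card G : ℝ) * gpr 4 y 0 := by
  unfold Zp gpr
  rw [cnt_eq, Nat.card_eq_fintype_card, mul_div_assoc]
  congr 2
  rw [Fintype.card_prod, Fintype.card_bool, Fintype.card_fin]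

theorem Zp_le_gZ {M : ℕ} (hM : 4 ≤ M) (y : Fin m → G) : Zp xi y ≤ gZ M y := by
  classical
  rw [Zp_eq]
  have h1 := gpr_le_gpr (le_refl 4) hM (fun e : Fin m => e) (fun _ _ h => h) y 0
  have h2 : gZ M y = (Fintype.card G : ℝ) * gpr M y 0 := by
    rw [gpr_zero_eq (by omega)]
    rfl
  rw [h2]
  exact mul_le_mul_of_nonneg_left h1 (by positivity)

theorem Zp_nonneg (y : Fin m → G) : 0 ≤ Zp xi y := by
  unfold Zp
  positivity

theorem Zp_le_card (y : Fin m → G) : Zp xi y ≤ (Fintype.card G : ℝ) := by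
  classical
  rw [Zp_eq]
  have h : gpr 4 y 0 ≤ 1 := by
    unfold gpr
    rw [div_le_one (by positivity)]
    have h := card_le_univ (univ.filter (fun ω : Fin m → Fin 4 => gwalk ω y = 0))
    rw [Fintype.card_fun, Fintype.card_fin] at h
    exact_mod_cast h
  have h2 : (0 : ℝ) ≤ Fintype.card G := by positivity
  nlinarith

end one

/-- the numerical hypothesis on `|G|` -/
theorem small_card {M : ℕ} (hM : 4 ≤ M) {q : ℕ} {β : ℝ} {k m : ℕ} (hm : 99 * k ≤ 100 * m)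
    {g N : ℝ} (hN0 : 0 < N) (hN : N ≤ (2 : ℝ) ^ (β * k)) (hg : g ≤ N ^ (2 * q)) :
    g * (1 - 2 / M) ^ m ≤
      Real.exp (-(99 / 100 * (-Real.log (1 - 2 / M)) - 2 * q * β * Real.log 2) * k) := by
  have hM' : (4 : ℝ) ≤ M := by exact_mod_cast hM
  have hM0 : (0 : ℝ) < M := by linarith
  have ha : (1 / 2 : ℝ) ≤ 1 - 2 / M := by
    have : (2 : ℝ) / M ≤ 1 / 2 := by
      rw [div_le_div_iff₀ hM0 (by norm_num)]
      linarith
    linarith
  have ha1 : (1 : ℝ) - 2 / M ≤ 1 := by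
    have : (0 : ℝ) ≤ 2 / M := by positivity
    linarith
  have ha0 : (0 : ℝ) < 1 - 2 / M := by linarith
  have hlog : Real.log (1 - 2 / M) ≤ 0 := Real.log_nonpos ha0.le ha1
  have hk : (99 : ℝ) / 100 * k ≤ m := by
    have : (99 : ℝ) * k ≤ 100 * m := by exact_mod_cast hm
    linarith
  have h1 : (1 - 2 / (M : ℝ)) ^ m = Real.exp (Real.log (1 - 2 / M) * m) := by
    rw [mul_comm, Real.exp_nat_mul, Real.exp_log ha0]
  have h2 : N ^ (2 * q) ≤ Real.exp (2 * q * β * Real.log 2 * k) := by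
    calc N ^ (2 * q) ≤ ((2 : ℝ) ^ (β * k)) ^ (2 * q) := pow_le_pow_left₀ hN0.le hN _
      _ = Real.exp (2 * q * β * Real.log 2 * k) := by
          rw [Real.rpow_def_of_pos (by norm_num), ← Real.exp_nat_mul]
          congr 1
          push_cast
          ring
  calc g * (1 - 2 / M) ^ m ≤ Real.exp (2 * q * β * Real.log 2 * k) *
        Real.exp (Real.log (1 - 2 / M) * m) := by
        rw [h1]
        exact mul_le_mul_of_nonneg_right (hg.trans h2) (Real.exp_pos _).le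
    _ ≤ _ := by
        rw [← Real.exp_add]
        refine Real.exp_le_exp.2 ?_
        have := mul_le_mul_of_nonpos_left hk hlog
        linarith

/-- polynomial against exponential -/
theorem ev_poly (C : ℝ) : ∃ k₀ : ℕ, ∀ k : ℕ, k₀ ≤ k → (k : ℝ) ^ C + 2 ≤ 2 ^ k := by
  obtain ⟨n, hn⟩ := exists_nat_ge C
  have h3 : ∀ᶠ k : ℕ in Filter.atTop, ‖((k : ℝ) ^ n)‖ ≤ (1 / 2) * ‖((2 : ℝ) ^ k)‖ :=
    (isLittleO_pow_const_const_pow_of_one_lt n (by norm_num : (1 : ℝ) < 2)).def (by norm_num)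
  obtain ⟨k₀, hk₀⟩ := Filter.eventually_atTop.1 (h3.and (Filter.eventually_ge_atTop 2))
  refine ⟨k₀, fun k hk => ?_⟩
  obtain ⟨h4, hk2⟩ := hk₀ k hk
  have hkr : (1 : ℝ) ≤ k := by exact_mod_cast (by omega : 1 ≤ k)
  have h5 : (k : ℝ) ^ C ≤ (k : ℝ) ^ n := by
    rw [← Real.rpow_natCast]
    exact Real.rpow_le_rpow_of_exponent_le hkr hn
  rw [Real.norm_of_nonneg (by positivity), Real.norm_of_nonneg (by positivity)] at h4
  have h6 : (4 : ℝ) ≤ 2 ^ k := by
    calc (4 : ℝ) = 2 ^ 2 := by norm_num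
      _ ≤ 2 ^ k := pow_le_pow_right₀ (by norm_num) hk2
  linarith

theorem xi_abs (b : Bool × Bool) : |xi b| ≤ 1 := by
  revert b
  decide

/-- the constant -/
theorem const_bound {k m q N : ℕ} {β T Q X₁ : ℝ} (hk3 : 3 ≤ k) (hmk : m ≤ k)
    (hm : 99 * k ≤ 100 * m) (hNr : (N : ℝ) ≤ (2 : ℝ) ^ (β * k)) (hN0 : 1 ≤ N)
    (hT1 : 1 ≤ T) (hQ1 : 1 ≤ Q) (hpoly : Q * T + 2 ≤ 2 ^ k) (hX₁0 : 0 ≤ X₁) (hX₁1 : X₁ ≤ 1) :
    (N : ℝ) ^ (2 * q * (2 * q)) * (2 ^ k + (3 * X₁) ^ m * (T + 1)) +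
      ((k : ℝ) ^ k) ^ q * ((N : ℝ) ^ (2 * q * (2 * q)) * (N : ℝ) ^ (2 * q * (2 * q))) *
        ((3 * (k : ℝ) ^ (-((10 * (q : ℝ) + 1 / 2) / 5) + 1 / 10)) ^ m * (Q * T + 1)) ≤
      (2 : ℝ) ^ ((2 * ((2 * q : ℕ) : ℝ) ^ 2 * |β| + 4) * k) := by
  have hkr : (3 : ℝ) ≤ k := by exact_mod_cast hk3
  have hk0 : (0 : ℝ) < k := by linarith
  have hk1 : (1 : ℝ) ≤ k := by linarith
  have hkm : (99 : ℝ) * k ≤ 100 * m := by exact_mod_cast hm
  have hNpos : (0 : ℝ) < N := by exact_mod_cast (by omega : 0 < N)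
  set V : ℝ := (N : ℝ) ^ (2 * q * (2 * q)) with hV
  set A : ℝ := 2 ^ k + (3 * X₁) ^ m * (T + 1) with hA
  set X : ℝ := (k : ℝ) ^ (-((10 * (q : ℝ) + 1 / 2) / 5) + 1 / 10) with hX
  set R : ℝ := ((k : ℝ) ^ k) ^ q with hR
  set Bb : ℝ := (3 * X) ^ m * (Q * T + 1) with hBb
  have hX0 : 0 ≤ X := by positivity
  have hR0 : 0 ≤ R := by positivity
  have hA0 : 0 ≤ A := by positivity
  have hBb0 : 0 ≤ Bb := by positivity
  have hNN : V * V ≤ (2 : ℝ) ^ (2 * ((2 * q : ℕ) : ℝ) ^ 2 * |β| * k) := by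
    calc V * V = (N : ℝ) ^ (2 * q * (2 * q) + 2 * q * (2 * q)) := by rw [hV, pow_add]
      _ ≤ ((2 : ℝ) ^ (|β| * k)) ^ (2 * q * (2 * q) + 2 * q * (2 * q)) := by
          refine pow_le_pow_left₀ hNpos.le (hNr.trans ?_) _
          refine Real.rpow_le_rpow_of_exponent_le (by norm_num) ?_
          exact mul_le_mul_of_nonneg_right (le_abs_self β) hk0.le
      _ = _ := by
          rw [← Real.rpow_natCast, ← Real.rpow_mul (by norm_num)]
          congr 1
          push_cast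
          ring
  have hV1 : (1 : ℝ) ≤ V := one_le_pow₀ (by exact_mod_cast hN0)
  have hTQ : T ≤ Q * T := by nlinarith
  have h3X : (3 * X₁) ^ m ≤ 3 ^ k := by
    calc (3 * X₁) ^ m ≤ (3 : ℝ) ^ m := pow_le_pow_left₀ (by positivity) (by linarith) m
      _ ≤ 3 ^ k := pow_le_pow_right₀ (by norm_num) hmk
  have hA' : A ≤ 3 ^ k * 2 ^ k := by
    calc A ≤ 3 ^ k * 1 + 3 ^ k * (T + 1) := by
          rw [hA]
          refine add_le_add ?_ (mul_le_mul_of_nonneg_right h3X (by positivity))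
          rw [mul_one]
          exact pow_le_pow_left₀ (by norm_num) (by norm_num) k
      _ = 3 ^ k * (T + 2) := by ring
      _ ≤ 3 ^ k * 2 ^ k := by
          refine mul_le_mul_of_nonneg_left ?_ (by positivity)
          linarith
  have hRX : R * X ^ m ≤ 1 := by
    have e1 : R = (k : ℝ) ^ ((k : ℝ) * q) := by
      rw [hR, ← pow_mul, ← Real.rpow_natCast]
      push_cast
      rfl
    have e2 : X ^ m = (k : ℝ) ^ (-(2 * (q : ℝ)) * m) := by
      rw [hX, ← Real.rpow_natCast, ← Real.rpow_mul hk0.le]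
      congr 1
      ring
    rw [e1, e2, ← Real.rpow_add hk0]
    refine Real.rpow_le_one_of_one_le_of_nonpos hk1 ?_
    have hq0 : (0 : ℝ) ≤ q := by positivity
    have h5 : (k : ℝ) - 2 * m ≤ 0 := by linarith
    have h6 : (k : ℝ) * q + -(2 * (q : ℝ)) * m = q * (k - 2 * m) := by ring
    rw [h6]
    exact mul_nonpos_of_nonneg_of_nonpos hq0 h5
  have hRB : R * Bb ≤ 3 ^ k * 2 ^ k := by
    calc R * Bb = (R * X ^ m) * (3 ^ m * (Q * T + 1)) := by rw [hBb, mul_pow]; ring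
      _ ≤ 1 * (3 ^ k * 2 ^ k) := by
          refine mul_le_mul hRX ?_ (by positivity) (by norm_num)
          refine mul_le_mul (pow_le_pow_right₀ (by norm_num) hmk) ?_ (by positivity)
            (by positivity)
          linarith
      _ = _ := one_mul _
  have hVV : V ≤ V * V := by nlinarith
  calc V * A + R * (V * V) * Bb
      ≤ (V * V) * (3 ^ k * 2 ^ k) + (V * V) * (3 ^ k * 2 ^ k) := by
        refine add_le_add ?_ ?_
        · exact mul_le_mul hVV hA' hA0 (by positivity)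
        · calc R * (V * V) * Bb = (V * V) * (R * Bb) := by ring
            _ ≤ _ := mul_le_mul_of_nonneg_left hRB (by positivity)
    _ = (V * V) * (2 * 6 ^ k) := by
        have h6 : (3 : ℝ) ^ k * 2 ^ k = 6 ^ k := by rw [← mul_pow]; norm_num
        rw [h6]
        ring
    _ ≤ (2 : ℝ) ^ (2 * ((2 * q : ℕ) : ℝ) ^ 2 * |β| * k) * 16 ^ k := by
        refine mul_le_mul hNN ?_ (by positivity) (by positivity)
        calc (2 : ℝ) * 6 ^ k ≤ 2 ^ k * 6 ^ k := by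
              refine mul_le_mul_of_nonneg_right ?_ (by positivity)
              exact le_self_pow₀ (by norm_num) (by omega)
          _ = 12 ^ k := by rw [← mul_pow]; norm_num
          _ ≤ 16 ^ k := pow_le_pow_left₀ (by norm_num) (by norm_num) k
    _ = (2 : ℝ) ^ ((2 * ((2 * q : ℕ) : ℝ) ^ 2 * |β| + 4) * k) := by
        have h16 : (16 : ℝ) ^ k = (2 : ℝ) ^ ((4 : ℝ) * k) := by
          rw [Real.rpow_mul (by norm_num), Real.rpow_natCast]
          norm_num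
        rw [h16, ← Real.rpow_add (by norm_num)]
        congr 1
        ring

open scoped Classical in
/-- the flat and moderately rich vectors of one group -/
theorem low_part {M : ℕ} (hM : 4 ≤ M) {G : Type} [AddCommGroup G] [Fintype G] {k m : ℕ}
    (hmk : m ≤ k) (s σ T X₁ : ℝ) (hX₁0 : 0 ≤ X₁) (hT1 : 1 ≤ T) (Pp : (Fin m → G) → Prop)
    (hPp : ∀ y, Pp y → NonSp s y ∧ MC.MinC s σ y)
    (h : ∀ T' : ℝ, 1 ≤ T' → T' ≤ T →
      ((univ.filter fun y : Fin m → G => NonSp s y ∧ 1 + T' ≤ gZ M y).card : ℝ) ≤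
        (Fintype.card G : ℝ) ^ m * (X₁ / T') ^ m) :
    ∑ y ∈ univ.filter (fun y : Fin m → G => Pp y ∧ Zp xi y ≤ T), Zp xi y ^ k ≤
      (Nat.card G : ℝ) ^ k * (2 ^ k + (3 * X₁) ^ m * (T + 1)) := by
  have hg1 : (1 : ℝ) ≤ Fintype.card G := by exact_mod_cast Nat.succ_le_of_lt Fintype.card_pos
  rw [Nat.card_eq_fintype_card]
  refine P4S.low _ (fun y => Zp xi y) (Fintype.card G : ℝ) X₁ T k m hmk Zp_nonneg hg1 hX₁0
    (by linarith) ?_ ?_ (fun y _ => Zp_le_card y) ?_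
  · refine (Nat.cast_le.2 (card_le_univ _)).trans ?_
    rw [Fintype.card_fun, Fintype.card_fin]
    push_cast
    exact le_refl _
  · intro y hy
    have := (mem_filter.1 hy).2.2
    linarith
  · intro T' hT'1 hT'2
    refine le_trans (Nat.cast_le.2 (card_le_card ?_)) (h T' hT'1 hT'2)
    intro y hy
    simp only [mem_filter, mem_univ, true_and] at hy ⊢
    exact ⟨(hPp y hy.1.1).1, hy.2.trans (Zp_le_gZ hM y)⟩

open scoped Classical in
/-- the rich vectors of one group -/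
theorem big_part {M : ℕ} (hM : 4 ≤ M) {G : Type} [AddCommGroup G] [Fintype G] {k m : ℕ}
    (hmk : m ≤ k) (s σ T Q X : ℝ) (hX0 : 0 ≤ X) (hT3 : 3 ≤ T) (hQ : 0 ≤ Q)
    (Pp : (Fin m → G) → Prop) (hPp : ∀ y, Pp y → NonSp s y ∧ MC.MinC s σ y)
    (h : ∀ T' : ℝ, (T - 1) / 2 ≤ T' → T' ≤ Q * T →
      ((univ.filter fun y : Fin m → G => MC.MinC s σ y ∧ T' ≤ gZ M y).card : ℝ) ≤
        (Fintype.card G : ℝ) ^ m * (X / T') ^ m) :
    ∑ y ∈ univ.filter (fun y : Fin m → G => Pp y ∧ T < Zp xi y ∧ Zp xi y ≤ Q * T), Zp xi y ^ k ≤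
      (Nat.card G : ℝ) ^ k * ((3 * X) ^ m * (Q * T + 1)) := by
  have hg1 : (1 : ℝ) ≤ Fintype.card G := by exact_mod_cast Nat.succ_le_of_lt Fintype.card_pos
  rw [Nat.card_eq_fintype_card]
  have hQT : 0 ≤ Q * T := mul_nonneg hQ (by linarith)
  refine P4S.levels _ (fun y => Zp xi y) (Fintype.card G : ℝ) X ((T - 1) / 2) (Q * T) k m hmk
    Zp_nonneg hg1 hX0 (by linarith) hQT ?_ ?_ (fun y _ => Zp_le_card y) ?_
  · intro y hy
    have := (mem_filter.1 hy).2.2.1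
    linarith
  · intro y hy
    have := (mem_filter.1 hy).2.2.2
    linarith
  · intro T' hT'0 hT'1 hT'2
    refine le_trans (Nat.cast_le.2 (card_le_card ?_)) (h T' hT'0.le hT'2)
    intro y hy
    simp only [mem_filter, mem_univ, true_and] at hy ⊢
    refine ⟨(hPp y hy.1.1).2, ?_⟩
    have := Zp_le_gZ hM y
    linarith [hy.2]

open scoped Classical in
/-- **LEMMA M** -/
theorem stmtMom_of (M : ℕ) (hM : 4 ≤ M) (hC : CountM M) (q : ℕ) (β : ℝ)
    (hβ : 2 * q * β * Real.log 2 < 99 / 100 * (-Real.log (1 - 2 / M))) : StmtMom q β := by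
  intro δ b₁ B hδ hδ1 hb₁ hbB
  set c : ℝ := 99 / 100 * (-Real.log (1 - 2 / M)) - 2 * q * β * Real.log 2 with hc
  have hc0 : 0 < c := by rw [hc]; linarith
  set C₁ : ℝ := 10 * q + 1 / 2 with hC₁
  have hC₁0 : 0 < C₁ := by positivity
  set C₀ : ℝ := B + C₁ + 1 with hC₀
  have hB1 : 1 ≤ B := hb₁.trans hbB
  have hC₀0 : 0 < C₀ := by rw [hC₀]; linarith
  obtain ⟨k₁, hk₁⟩ := hC δ c C₀ hδ (by linarith) hc0 hC₀0
  obtain ⟨k₂, hk₂⟩ := MC.mc M hM c C₀ C₁ (δ / 4) hc0 hC₀0 hC₁0 (by positivity) (by linarith)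
  obtain ⟨k₃, hk₃⟩ := MinM67.minC (d := δ / 4) (by positivity) (by linarith)
  obtain ⟨k₄, hk₄⟩ := ev_poly C₀
  set D : ℝ := 2 * ((2 * q : ℕ) : ℝ) ^ 2 * |β| + 4 with hD
  refine ⟨D, max (max k₁ k₂) (max (max k₃ k₄) 3), fun k hk m hmk hm P hP => ?_⟩
  have hkk₁ : k₁ ≤ k := ((le_max_left _ _).trans (le_max_left _ _)).trans hk
  have hkk₂ : k₂ ≤ k := ((le_max_right _ _).trans (le_max_left _ _)).trans hk
  have hkk₃ : k₃ ≤ k :=
    ((le_max_left _ _).trans ((le_max_left _ _).trans (le_max_right _ _))).trans hk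
  have hkk₄ : k₄ ≤ k :=
    ((le_max_right _ _).trans ((le_max_left _ _).trans (le_max_right _ _))).trans hk
  have hk3 : 3 ≤ k := ((le_max_right _ _).trans (le_max_right _ _)).trans hk
  have hkr : (3 : ℝ) ≤ k := by exact_mod_cast hk3
  have hk0 : (0 : ℝ) < k := by linarith
  have hk1 : (1 : ℝ) ≤ k := by linarith
  have hpoly := hk₄ k hkk₄
  have hkm : (k : ℝ) ≤ 2 * m := by
    have : (99 : ℝ) * k ≤ 100 * m := by exact_mod_cast hm
    linarith
  -- the modulus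
  set N : ℕ := ∏ p ∈ P, p with hNdef
  have hN0 : N ≠ 0 := prod_ne_zero_iff.2 fun p hp => (hP.pr p hp).ne_zero
  haveI : NeZero N := ⟨hN0⟩
  have hNr : (N : ℝ) ≤ (2 : ℝ) ^ (β * k) := by
    have := hP.size
    rw [hNdef]
    push_cast
    exact this
  have hNpos : (0 : ℝ) < N := by exact_mod_cast Nat.pos_of_ne_zero hN0
  have hNP : ∀ p : ℕ, p.Prime → p ∣ N → p ∈ P := by
    intro p hp hpN
    obtain ⟨p', hp', hd⟩ := (Prime.dvd_finsetProd_iff (Nat.prime_iff.1 hp) _).1 hpN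
    rwa [(Nat.prime_dvd_prime_iff_eq hp (hP.pr p' hp')).1 hd]
  set T : ℝ := (k : ℝ) ^ (C₁ + 1) with hT
  set Q : ℝ := (k : ℝ) ^ B with hQ
  have hT1 : 1 ≤ T := Real.one_le_rpow hk1 (by linarith)
  have hQ1 : 1 ≤ Q := Real.one_le_rpow hk1 (by linarith)
  have hQT : Q * T = (k : ℝ) ^ C₀ := by
    rw [hQ, hT, ← Real.rpow_add hk0, hC₀]
    congr 1
    ring
  set s : ℝ := (k : ℝ) ^ (1 - δ / 4) with hs
  set X : ℝ := (k : ℝ) ^ (-(C₁ / 5) + 1 / 10) with hX
  set X₁ : ℝ := (k : ℝ) ^ (-(1 / 2) + δ) with hX₁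
  have hX0 : 0 ≤ X := by positivity
  have hX₁0 : 0 ≤ X₁ := by positivity
  have hX₁1 : X₁ ≤ 1 := Real.rpow_le_one_of_one_le_of_nonpos hk1 (by linarith)
  set R : ℝ := ((k : ℝ) ^ k) ^ q with hR
  have hR0 : 0 ≤ R := by positivity
  set A : ℝ := 2 ^ k + (3 * X₁) ^ m * (T + 1) with hA
  set Bb : ℝ := (3 * X) ^ m * (Q * T + 1) with hBb
  have hA0 : 0 ≤ A := by positivity
  have hBb0 : 0 ≤ Bb := by positivity
  set YY := (univ : Finset (Fin k → Fin m → Bool × Bool)).filter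
      (fun ω => rkQ (mt xi ω) = m ∧ ¬ Sp P s (mt xi ω)) with hYY
  have hmt : ∀ (Y : Fin k → Fin m → Bool × Bool) (i : Fin k) (c : Fin m), |mt xi Y i c| ≤ 1 :=
    fun Y i c => xi_abs _
  -- group facts
  have hgrp : ∀ (G : Type) [AddCommGroup G] [Fintype G], (∀ g : G, N • g = 0) →
      ∀ p : ℕ, p.Prime → p ∣ Fintype.card G → (k : ℝ) ^ b₁ ≤ p := by
    intro G _ _ hG p hp hpd
    haveI : Fact p.Prime := ⟨hp⟩
    obtain ⟨g, hg⟩ := exists_prime_addOrderOf_dvd_card p hpd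
    have h1 : p ∣ N := by
      rw [← hg]
      exact addOrderOf_dvd_of_nsmul_eq_zero (hG g)
    exact hP.lo p (hNP p hp h1)
  have hgrp' : ∀ (G : Type) [AddCommGroup G] [Fintype G], (∀ g : G, N • g = 0) →
      ∀ p : ℕ, p.Prime → p ∣ Fintype.card G → k ≤ p := by
    intro G _ _ hG p hp hpd
    have h1 := hgrp G hG p hp hpd
    have h2 : (k : ℝ) ≤ (k : ℝ) ^ b₁ := by
      calc (k : ℝ) = (k : ℝ) ^ (1 : ℝ) := (Real.rpow_one _).symm
        _ ≤ _ := Real.rpow_le_rpow_of_exponent_le hk1 hb₁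
    exact_mod_cast h2.trans h1
  have hsmall : ∀ (G : Type) [AddCommGroup G] [Fintype G], Nat.card G ≤ N ^ (2 * q) →
      (Fintype.card G : ℝ) * (1 - 2 / M) ^ m ≤ Real.exp (-c * k) := by
    intro G _ _ hG
    rw [Nat.card_eq_fintype_card] at hG
    exact small_card hM hm hNpos hNr (by exact_mod_cast hG)
  -- the property
  have hcore := P4L.core (k := k) (m := m) xi N (2 * q) T Q R A Bb hT1 hR0 hA0 hBb0
    (by rw [Fintype.card_prod, Fintype.card_bool]; norm_num)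
    (fun p hp hpN => hP.hi p (hNP p hp hpN))
    (fun G _ y => NonSp s y ∧ MC.MinC s ((k : ℝ) ^ (-(3 / 2) : ℝ)) y) YY ?_ ?_ ?_ ?_
  · -- conclusion
    have hW : ∀ Y ∈ YY, W P (mt xi Y) ^ q = (Nat.card (P4L.KerG xi (ZMod N) Y) : ℝ) ^ (2 * q) := by
      intro Y _
      rw [MomGlue539.W_pow (mt xi Y) P hP.pr q, ← Nat.cast_pow, P4L.ker_pow]
      rfl
    rw [sum_congr rfl hW]
    refine hcore.trans ?_
    have hO : (Fintype.card (Bool × Bool) : ℝ) = 4 := by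
      rw [Fintype.card_prod, Fintype.card_bool]; norm_num
    rw [hO, mul_comm]
    refine mul_le_mul_of_nonneg_right ?_ (by positivity)
    exact const_bound hk3 hmk hm hNr (Nat.one_le_iff_ne_zero.2 hN0) hT1 hQ1 (by rw [hQT]; exact hpoly)
      hX₁0 hX₁1
  · -- h1
    intro Y hY G _ _ hG y hy hz
    rw [hYY, mem_filter] at hY
    obtain ⟨-, hr, hSp⟩ := hY
    unfold Sp at hSp
    push Not at hSp
    refine ⟨MomGlue539.spread hN0 P hNP s (mt xi Y) hSp.1 hG y hy hz, ?_⟩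
    intro ψ hψ F hF
    haveI : Fintype G := Fintype.ofFinite G
    have hex : ∃ c, ψ (y c) ≠ 1 := by
      by_contra hcon
      push Not at hcon
      exact hψ (MomGlue539.eq_one_gen y hy ψ hcon)
    exact hk₃ k hkk₃ m hmk (mt xi Y) (hmt Y) hr hSp.2 G y hz ψ hex F hF
  · -- hker
    intro Y hY
    rw [hYY, mem_filter] at hY
    obtain ⟨-, hr, -⟩ := hY
    have h1 : (Nat.card (P4L.KerG xi (ZMod N) Y) : ℝ) ^ (2 * q) = W P (mt xi Y) ^ q := by
      rw [MomGlue539.W_pow (mt xi Y) P hP.pr q, ← Nat.cast_pow, P4L.ker_pow]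
      rfl
    rw [h1]
    refine (MomGlue539.W_pow_le (mt xi Y) P hP.pr (hmt Y) hr q).trans ?_
    rw [hR]
    refine pow_le_pow_left₀ (by positivity) ?_ q
    have hmk' : (m : ℝ) ≤ k := by exact_mod_cast hmk
    calc (m : ℝ) ^ m ≤ (k : ℝ) ^ m := pow_le_pow_left₀ (by positivity) hmk' m
      _ ≤ (k : ℝ) ^ k := pow_le_pow_right₀ hk1 hmk
  · -- low
    intro G _ _ hG hcard
    refine low_part hM hmk s _ T X₁ hX₁0 hT1 _ (fun y hy => hy) ?_
    intro T' hT'1 hT'2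
    have hQT' : T ≤ Q * T := le_mul_of_one_le_left (by linarith) hQ1
    have h1 := hk₁ k hkk₁ G m hmk hkm (hgrp' G hG) (hsmall G hcard) T'
      (by
        refine le_trans ?_ hT'1
        rw [div_le_one hk0]
        exact hk1)
      (by
        refine hT'2.trans ?_
        rw [← hQT]
        exact hQT')
    rw [max_eq_right hT'1] at h1
    exact h1
  · -- big
    intro G _ _ hG hcard
    have h2 : (1 : ℝ) ≤ (k : ℝ) ^ C₁ := Real.one_le_rpow hk1 hC₁0.le
    have h1 : T = (k : ℝ) ^ C₁ * k := by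
      rw [hT, Real.rpow_add hk0, Real.rpow_one]
    have h7 : (1 : ℝ) * 1 ≤ (k : ℝ) ^ C₁ * ((k : ℝ) - 2) :=
      mul_le_mul h2 (by linarith) (by norm_num) (by linarith)
    have h8 : (k : ℝ) ^ C₁ * ((k : ℝ) - 2) = (k : ℝ) ^ C₁ * k - 2 * (k : ℝ) ^ C₁ := by ring
    have hTa : (k : ℝ) ^ C₁ ≤ (T - 1) / 2 := by
      rw [h1]
      linarith
    refine big_part hM hmk s _ T Q X hX0 (by linarith) (by linarith) _ (fun y hy => hy) ?_
    intro T' hT'0 hT'2
    exact hk₂ k hkk₂ G m hmk hkm (hgrp' G hG) (hsmall G hcard) T'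
      (hTa.trans hT'0) (by rw [← hQT]; exact hT'2)

/-- **`StmtMom` with the landed inputs** (`M = 8`). -/
theorem stmtMom8 (q : ℕ) (β : ℝ)
    (hβ : 2 * q * β * Real.log 2 < 99 / 100 * Real.log (4 / 3)) : StmtMom q β := by
  refine stmtMom_of 8 (by norm_num) countM8 q β ?_
  have h : -Real.log (1 - 2 / ((8 : ℕ) : ℝ)) = Real.log (4 / 3) := by
    rw [← Real.log_inv]
    norm_num
  rw [h]
  exact hβ

/-- fourth moment, `β ≤ 1/10` -/
theorem stmtMom2 (β : ℝ) (hβ : β ≤ 1 / 10) : StmtMom 2 β := by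
  refine stmtMom8 2 β ?_
  have h2 : 0 < Real.log 2 := Real.log_pos (by norm_num)
  have h3 : 40 * Real.log 2 < 99 * Real.log (4 / 3) := by
    have h4 : Real.log ((2 : ℝ) ^ 40) < Real.log ((4 / 3 : ℝ) ^ 99) := by
      refine Real.log_lt_log (by positivity) ?_
      norm_num
    rw [Real.log_pow, Real.log_pow] at h4
    exact_mod_cast h4
  push_cast
  nlinarith

/-- `M = 4` : `2 q β < 99/100` -/
theorem stmtMom4 (hC : CountM 4) (q : ℕ) (β : ℝ) (hβ : 2 * q * β < 99 / 100) : StmtMom q β := by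
  refine stmtMom_of 4 (by norm_num) hC q β ?_
  have h : -Real.log (1 - 2 / ((4 : ℕ) : ℝ)) = Real.log 2 := by
    rw [← Real.log_inv]
    norm_num
  rw [h]
  have h2 : 0 < Real.log 2 := Real.log_pos (by norm_num)
  exact mul_lt_mul_of_pos_right hβ h2

end Vale.Agent.P160.Half.MomTop685
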