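import Vale.Agent.P160.Half.N3_838
import Vale.Agent.P160.Half.GAsmStmt

/-! # P160, half rate, gap (G): `N3Stmt` (helper838) -/

open Finset Matrix

namespace Vale.Agent.P160.Half.G13

open A G Labels

theorem n3 : N3Stmt := by
  intro n β _ _ b F L R M' hz hd hL hg hR hmin hM' hdM hM hQ
  have hsym : (matZ b).transpose = matZ b := by
    ext i j
    simp [matZ, Sym2.eq_swap]
  have hO : Over (matZ b) (LFg (matZ b) F) := by
    refine N838.over_LFg _ hsym hd F fun i k => ?_
    exact hL.int _ (hg i) _ (hg k)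
  refine ⟨?_, N838.iso _ F R M' _ hM' hM hO hQ⟩
  ext v
  exact N838.newL_pull _ F R M' _ hR hO hM' hdM hQ v

end Vale.Agent.P160.Half.G13
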