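import Vale.Agent.P160.Half.GStmt4

/-! # P160, half rate, gap (G): the exchanged lattice `newL L_F` (helper838)

`L_F` is an integral overlattice, `newL L_F` contains `ℤ^n`, is integral for `newP`, is the pull-back of its image `Q` in the
cokernel of `M'`, and `Q` is isotropic for `cokPair`. -/

set_option linter.unusedVariables false
set_option linter.unusedSectionVars false

open Finset Matrix

namespace Vale.Agent.P160.Half.G.N838

open A Labels

variable {n : ℕ} {β : Type*} [Fintype β] [DecidableEq β]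

theorem PQ_symm {P : Matrix (Fin n) (Fin n) ℤ} (hP : P.transpose = P) : (PQ P)ᵀ = PQ P := by
  have h : (PQ P)ᵀ = PQ P.transpose := rfl
  rw [h, hP]

theorem det_PQ (P : Matrix (Fin n) (Fin n) ℤ) : (PQ P).det = ((P.det : ℤ) : ℚ) :=
  ((Int.castRingHom ℚ).map_det P).symm

theorem PQ_mulVec_gF (P : Matrix (Fin n) (Fin n) ℤ) (hd : P.det ≠ 0) (F : Matrix (Fin n) β ℤ) (q : β) :
    PQ P *ᵥ gF P F q = fun j => (F j q : ℚ) := by
  have hu : IsUnit (PQ P).det := by
    rw [det_PQ, isUnit_iff_ne_zero]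
    exact_mod_cast hd
  unfold gF dual
  rw [mulVec_mulVec, Matrix.mul_nonsing_inv _ hu, one_mulVec]

/-- bilinearity of the integrality condition over a span -/
theorem span_int (B : Matrix (Fin n) (Fin n) ℚ) (S : Set (Fin n → ℚ))
    (h : ∀ v ∈ S, ∀ w ∈ S, ∃ k : ℤ, v ⬝ᵥ (B *ᵥ w) = k) :
    ∀ v ∈ Submodule.span ℤ S, ∀ w ∈ Submodule.span ℤ S, ∃ k : ℤ, v ⬝ᵥ (B *ᵥ w) = k := by
  intro v hv
  induction hv using Submodule.span_induction with
  | mem v hv =>
    intro w hw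
    induction hw using Submodule.span_induction with
    | mem w hw => exact h v hv w hw
    | zero => exact ⟨0, by simp⟩
    | add x y _ _ hx hy =>
      obtain ⟨a, ha⟩ := hx
      obtain ⟨b, hb⟩ := hy
      exact ⟨a + b, by rw [mulVec_add, dotProduct_add, ha, hb]; push_cast; rfl⟩
    | smul c x _ hx =>
      obtain ⟨a, ha⟩ := hx
      refine ⟨c * a, ?_⟩
      have : B *ᵥ (c • x) = (c : ℚ) • (B *ᵥ x) := by
        have e : (c • x : Fin n → ℚ) = (c : ℚ) • x := by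
          ext i
          simp
        rw [e, mulVec_smul]
      rw [this, dotProduct_smul, ha, smul_eq_mul]
      push_cast
      ring
  | zero => exact fun w _ => ⟨0, by simp⟩
  | add x y _ _ hx hy =>
    intro w hw
    obtain ⟨a, ha⟩ := hx w hw
    obtain ⟨b, hb⟩ := hy w hw
    exact ⟨a + b, by rw [add_dotProduct, ha, hb]; push_cast; rfl⟩
  | smul c x _ hx =>
    intro w hw
    obtain ⟨a, ha⟩ := hx w hw
    refine ⟨c * a, ?_⟩
    have : (c • x : Fin n → ℚ) = (c : ℚ) • x := by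
      ext i
      simp
    rw [this, smul_dotProduct, ha, smul_eq_mul]
    push_cast
    ring

theorem single_mem_LFg (P : Matrix (Fin n) (Fin n) ℤ) (F : Matrix (Fin n) β ℤ) (j : Fin n) :
    (Pi.single j (1 : ℚ) : Fin n → ℚ) ∈ LFg P F :=
  Submodule.subset_span (Or.inl ⟨j, rfl⟩)

theorem gF_mem_LFg (P : Matrix (Fin n) (Fin n) ℤ) (F : Matrix (Fin n) β ℤ) (q : β) : gF P F q ∈ LFg P F :=
  Submodule.subset_span (Or.inr ⟨q, rfl⟩)

theorem int_mem_LFg (P : Matrix (Fin n) (Fin n) ℤ) (F : Matrix (Fin n) β ℤ) (z : Fin n → ℤ) :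
    (fun i => (z i : ℚ)) ∈ LFg P F := by
  have h : (fun i => (z i : ℚ)) = ∑ j, z j • (Pi.single j (1 : ℚ) : Fin n → ℚ) := by
    ext i
    simp [Finset.sum_apply, Pi.single_apply]
  rw [h]
  exact Submodule.sum_mem _ fun j _ => Submodule.smul_mem _ _ (single_mem_LFg P F j)

/-- **`L_F` is an integral overlattice** if the Gram matrix of the `g_q` is integral -/
theorem over_LFg (P : Matrix (Fin n) (Fin n) ℤ) (hP : P.transpose = P) (hd : P.det ≠ 0) (F : Matrix (Fin n) β ℤ)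
    (hg : ∀ i k, ∃ m : ℤ, gF P F i ⬝ᵥ (PQ P *ᵥ gF P F k) = m) : Over P (LFg P F) := by
  refine ⟨int_mem_LFg P F, span_int _ _ ?_⟩
  have hsg : ∀ (j : Fin n) (q : β), (Pi.single j (1 : ℚ) : Fin n → ℚ) ⬝ᵥ (PQ P *ᵥ gF P F q) = (F j q : ℤ) := by
    intro j q
    rw [PQ_mulVec_gF P hd, single_one_dotProduct]
  rintro v (⟨j, rfl⟩ | ⟨q, rfl⟩) w (⟨k, rfl⟩ | ⟨q', rfl⟩)
  · refine ⟨P j k, ?_⟩
    rw [single_one_dotProduct, mulVec_single_one]
    rfl
  · exact ⟨F j q', hsg j q'⟩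
  · refine ⟨F k q, ?_⟩
    rw [dotProduct_mulVec, ← mulVec_transpose, PQ_symm hP, dotProduct_comm, hsg]
  · exact hg q q'

/-- `L_F` is contained in every integral overlattice which contains the `g_q` -/
theorem LFg_le {P : Matrix (Fin n) (Fin n) ℤ} {F : Matrix (Fin n) β ℤ} {L : Submodule ℤ (Fin n → ℚ)} (hL : Over P L)
    (hg : ∀ q, gF P F q ∈ L) : LFg P F ≤ L := by
  refine Submodule.span_le.2 ?_
  rintro v (⟨j, rfl⟩ | ⟨q, rfl⟩)
  · have h := hL.std (Pi.single j 1)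
    have e : (fun i => (((Pi.single j 1 : Fin n → ℤ) i : ℤ) : ℚ)) = (Pi.single j (1 : ℚ) : Fin n → ℚ) := by
      ext i
      rcases eq_or_ne i j with rfl | hij
      · simp
      · simp [hij]
    rw [e] at h
    exact h
  · exact hg q

/-- the columns of `cob` -/
theorem cob_col (R : β → Fin n) (g : β → Fin n → ℚ) (hR : Function.Injective R) (k : Fin n) :
    (fun j => cob R g j k) = (Pi.single k (1 : ℚ) : Fin n → ℚ) ∨ ∃ i, (fun j => cob R g j k) = g i := by
  classical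
  by_cases hk : ∃ i, R i = k
  · obtain ⟨i, rfl⟩ := hk
    right
    refine ⟨i, ?_⟩
    ext j
    unfold cob
    have h1 : ∑ i', (if R i' = R i then g i' j else 0) = g i j := by
      rw [Finset.sum_eq_single i]
      · simp
      · intro b _ hb
        rw [if_neg fun h => hb (hR h)]
      · simp
    rw [h1, if_pos (by simp), add_zero]
  · left
    push Not at hk
    ext j
    unfold cob
    rw [Finset.sum_eq_zero fun i _ => if_neg (hk i), zero_add, if_neg (by simpa using hk), Pi.single_apply]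

theorem cob_mulVec_mem {L : Submodule ℤ (Fin n → ℚ)} (R : β → Fin n) (g : β → Fin n → ℚ) (hR : Function.Injective R)
    (h1 : ∀ j, (Pi.single j (1 : ℚ) : Fin n → ℚ) ∈ L) (h2 : ∀ q, g q ∈ L) (z : Fin n → ℤ) :
    cob R g *ᵥ (fun i => (z i : ℚ)) ∈ L := by
  have h : cob R g *ᵥ (fun i => (z i : ℚ)) = ∑ k, z k • (fun j => cob R g j k) := by
    ext j
    simp [mulVec, dotProduct, Finset.sum_apply, mul_comm]
  rw [h]
  refine Submodule.sum_mem _ fun k _ => Submodule.smul_mem _ _ ?_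
  rcases cob_col R g hR k with e | ⟨i, e⟩
  · rw [e]; exact h1 k
  · rw [e]; exact h2 i

theorem mem_newL {L : Submodule ℤ (Fin n → ℚ)} {R : β → Fin n} {g : β → Fin n → ℚ} {v : Fin n → ℚ} :
    v ∈ newL L R g ↔ cob R g *ᵥ v ∈ L := Iff.rfl

/-- `newL L_F` contains `ℤ^n` -/
theorem newL_std (P : Matrix (Fin n) (Fin n) ℤ) (F : Matrix (Fin n) β ℤ) (R : β → Fin n) (hR : Function.Injective R)
    (z : Fin n → ℤ) : (fun i => (z i : ℚ)) ∈ newL (LFg P F) R (gF P F) :=
  mem_newL.2 (cob_mulVec_mem R _ hR (single_mem_LFg P F) (gF_mem_LFg P F) z)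

/-- `newL L_F` is integral for `newP` -/
theorem newL_int (P : Matrix (Fin n) (Fin n) ℤ) (F : Matrix (Fin n) β ℤ) (R : β → Fin n)
    (hO : Over P (LFg P F)) : ∀ v ∈ newL (LFg P F) R (gF P F), ∀ w ∈ newL (LFg P F) R (gF P F),
      ∃ m : ℤ, v ⬝ᵥ (newP P R (gF P F) *ᵥ w) = m := by
  intro v hv w hw
  obtain ⟨m, hm⟩ := hO.int _ (mem_newL.1 hv) _ (mem_newL.1 hw)
  refine ⟨m, ?_⟩
  rw [← hm]
  unfold newP
  rw [← mulVec_mulVec, ← mulVec_mulVec, dotProduct_mulVec v, ← mulVec_transpose, transpose_transpose]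

/-- `newP v` is integral for `v ∈ newL L_F` -/
theorem newP_mulVec_int (P : Matrix (Fin n) (Fin n) ℤ) (F : Matrix (Fin n) β ℤ) (R : β → Fin n) (hR : Function.Injective R)
    (hO : Over P (LFg P F)) {v : Fin n → ℚ} (hv : v ∈ newL (LFg P F) R (gF P F)) :
    ∃ w : Fin n → ℤ, newP P R (gF P F) *ᵥ v = fun j => (w j : ℚ) := by
  have h : ∀ j, ∃ m : ℤ, (newP P R (gF P F) *ᵥ v) j = m := by
    intro j
    have h1 := newL_std P F R hR (Pi.single j 1)
    obtain ⟨m, hm⟩ := newL_int P F R hO _ h1 _ hv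
    refine ⟨m, ?_⟩
    rw [← hm]
    have e : (fun i => (((Pi.single j 1 : Fin n → ℤ) i : ℤ) : ℚ)) = (Pi.single j (1 : ℚ) : Fin n → ℚ) := by
      ext i
      rcases eq_or_ne i j with rfl | hij
      · simp
      · simp [hij]
    rw [e, single_one_dotProduct]
  choose w hw using h
  exact ⟨w, funext hw⟩

section rel

variable (P : Matrix (Fin n) (Fin n) ℤ) (F : Matrix (Fin n) β ℤ) (R : β → Fin n) (M : Matrix (Fin n) (Fin n) ℤ)
  (Q : AddSubgroup (Coker M))

/-- **the image of `newL L_F` in the cokernel** -/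
theorem QL_newL (hR : Function.Injective R) (hO : Over P (LFg P F))
    (hQ : ∀ w : Fin n → ℤ, (QuotientAddGroup.mk w : Coker M) ∈ Q ↔
      ∃ v ∈ newL (LFg P F) R (gF P F), M.map (Int.cast : ℤ → ℚ) *ᵥ v = fun j => (w j : ℚ)) :
    QL M (newL (LFg P F) R (gF P F)) = Q := by
  ext x
  obtain ⟨w, rfl⟩ := QuotientAddGroup.mk_surjective x
  constructor
  · rintro ⟨w', hw', v, hv, h⟩
    rw [hw']
    exact (hQ w').2 ⟨v, hv, h⟩
  · intro hx
    exact ⟨w, rfl, (hQ w).1 hx⟩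

/-- **`newL L_F` is the pull-back of `Q`** -/
theorem newL_pull (hR : Function.Injective R) (hO : Over P (LFg P F)) (hM : M.map (Int.cast : ℤ → ℚ) = newP P R (gF P F))
    (hd : M.det ≠ 0)
    (hQ : ∀ w : Fin n → ℤ, (QuotientAddGroup.mk w : Coker M) ∈ Q ↔
      ∃ v ∈ newL (LFg P F) R (gF P F), M.map (Int.cast : ℤ → ℚ) *ᵥ v = fun j => (w j : ℚ)) (v : Fin n → ℚ) :
    v ∈ newL (LFg P F) R (gF P F) ↔
      ∃ w : Fin n → ℤ, M.map (Int.cast : ℤ → ℚ) *ᵥ v = (fun j => (w j : ℚ)) ∧ (QuotientAddGroup.mk w : Coker M) ∈ Q := by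
  constructor
  · intro hv
    obtain ⟨w, hw⟩ := newP_mulVec_int P F R hR hO hv
    rw [← hM] at hw
    exact ⟨w, hw, (hQ w).2 ⟨v, hv, hw⟩⟩
  · rintro ⟨w, hw, hx⟩
    obtain ⟨v', hv', h'⟩ := (hQ w).1 hx
    have hu : IsUnit (M.map (Int.cast : ℤ → ℚ)).det := by
      have : (M.map (Int.cast : ℤ → ℚ)).det = ((M.det : ℤ) : ℚ) := ((Int.castRingHom ℚ).map_det M).symm
      rw [this, isUnit_iff_ne_zero]
      exact_mod_cast hd
    have hvv : v = v' := by
      have h1 := hw.trans h'.symm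
      have h2 := congrArg (fun y => (M.map (Int.cast : ℤ → ℚ))⁻¹ *ᵥ y) h1
      simpa [mulVec_mulVec, Matrix.nonsing_inv_mul _ hu] using h2
    rw [hvv]
    exact hv'

/-- **`Q` is isotropic** -/
theorem iso (hM : M.map (Int.cast : ℤ → ℚ) = newP P R (gF P F)) (hs : M.transpose = M) (hO : Over P (LFg P F))
    (hQ : ∀ w : Fin n → ℤ, (QuotientAddGroup.mk w : Coker M) ∈ Q ↔
      ∃ v ∈ newL (LFg P F) R (gF P F), M.map (Int.cast : ℤ → ℚ) *ᵥ v = fun j => (w j : ℚ)) :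
    ∀ x ∈ Q, ∀ y ∈ Q, cokPair M hs x y = 0 := by
  intro x hx y hy
  obtain ⟨w, rfl⟩ := QuotientAddGroup.mk_surjective x
  obtain ⟨w', rfl⟩ := QuotientAddGroup.mk_surjective y
  obtain ⟨v, hv, h⟩ := (hQ w).1 hx
  obtain ⟨v', hv', h'⟩ := (hQ w').1 hy
  obtain ⟨m, hm⟩ := newL_int P F R hO v hv v' hv'
  rw [cokPair_mk, ZMod.intCast_zmod_eq_zero_iff_dvd, Int.natAbs_dvd]
  refine ⟨m, ?_⟩
  -- `w · adj(M) w' = det M * (v · M v')`
  have key : ((w ⬝ᵥ (M.adjugate *ᵥ w') : ℤ) : ℚ) = ((M.det * m : ℤ) : ℚ) := by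
    set MQ := M.map (Int.cast : ℤ → ℚ) with hMQ
    have e1 : ((w ⬝ᵥ (M.adjugate *ᵥ w') : ℤ) : ℚ) = (fun j => (w j : ℚ)) ⬝ᵥ (MQ.adjugate *ᵥ fun j => (w' j : ℚ)) := by
      have e2 : MQ.adjugate = (M.adjugate).map (Int.cast : ℤ → ℚ) := by
        have := (Int.castRingHom ℚ).map_adjugate M
        exact this.symm
      rw [e2]
      simp [dotProduct, mulVec]
    have hdet : MQ.det = ((M.det : ℤ) : ℚ) := ((Int.castRingHom ℚ).map_det M).symm
    rw [e1, ← h, ← h', mulVec_mulVec, adjugate_mul, smul_mulVec, one_mulVec, dotProduct_smul, hdet, smul_eq_mul]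
    push_cast
    congr 1
    rw [← hm, ← hM]
    rw [dotProduct_comm, dotProduct_mulVec, ← mulVec_transpose]
    have hMt : MQᵀ = MQ := by
      have h9 : MQᵀ = M.transpose.map (Int.cast : ℤ → ℚ) := rfl
      rw [h9, hs]
    rw [hMt, dotProduct_comm]
  exact_mod_cast key

end rel

end Vale.Agent.P160.Half.G.N838
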