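import Mathlib

/-! # P160, half rate, block (M), item (C) of the note 11242: the sum over the names of the primes

`Σ_{T ⊆ S, |T| = t} Π_{p ∈ T} f p ≤ (Σ_{p ∈ S} f p)^t / t!`, and the consequence for
`f p = 1/(p-1)`. -/

namespace Vale.Agent.P160.Half.Names178

open Finset

variable {ι : Type*} [DecidableEq ι]

theorem succ_mul_esymm_le (S : Finset ι) (f : ι → ℝ) (hf : ∀ p ∈ S, 0 ≤ f p) (t : ℕ) :
    ((t + 1 : ℕ) : ℝ) * ∑ T ∈ S.powersetCard (t + 1), ∏ p ∈ T, f p ≤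
      (∑ p ∈ S, f p) * ∑ T ∈ S.powersetCard t, ∏ p ∈ T, f p := by
  have h1 : ((t + 1 : ℕ) : ℝ) * ∑ T ∈ S.powersetCard (t + 1), ∏ p ∈ T, f p =
      ∑ T ∈ S.powersetCard (t + 1), ∑ q ∈ T, f q * ∏ p ∈ T.erase q, f p := by
    rw [mul_sum]
    refine sum_congr rfl fun T hT => ?_
    have hc : T.card = t + 1 := (mem_powersetCard.1 hT).2
    rw [sum_congr rfl (fun q hq => mul_prod_erase T f hq), sum_const, hc, nsmul_eq_mul]
  rw [h1, sum_mul_sum]
  have h2 : ∑ T ∈ S.powersetCard (t + 1), ∑ q ∈ T, f q * ∏ p ∈ T.erase q, f p =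
      ∑ x ∈ (S.powersetCard (t + 1)).sigma (fun T => T), f x.2 * ∏ p ∈ x.1.erase x.2, f p := by
    rw [sum_sigma]
  have h3 : ∑ q ∈ S, ∑ T ∈ S.powersetCard t, f q * ∏ p ∈ T, f p =
      ∑ y ∈ S ×ˢ S.powersetCard t, f y.1 * ∏ p ∈ y.2, f p := by
    rw [sum_product]
  rw [h2, h3]
  have hinj : Set.InjOn (fun x : (_ : Finset ι) × ι => (x.2, x.1.erase x.2))
      ((S.powersetCard (t + 1)).sigma (fun T => T) : Finset ((_ : Finset ι) × ι)) := by
    rintro ⟨T, q⟩ hx ⟨T', q'⟩ hx' h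
    simp only [coe_sigma, Set.mem_sigma_iff, mem_coe] at hx hx'
    simp only [Prod.mk.injEq] at h
    obtain ⟨h1, h2⟩ := h
    subst h1
    have : T = T' := by
      rw [← insert_erase hx.2, ← insert_erase hx'.2, h2]
    subst this
    rfl
  have h4 : ∑ x ∈ (S.powersetCard (t + 1)).sigma (fun T => T), f x.2 * ∏ p ∈ x.1.erase x.2, f p =
      ∑ y ∈ ((S.powersetCard (t + 1)).sigma (fun T => T)).image
        (fun x : (_ : Finset ι) × ι => (x.2, x.1.erase x.2)), f y.1 * ∏ p ∈ y.2, f p := by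
    rw [sum_image hinj]
  rw [h4]
  refine sum_le_sum_of_subset_of_nonneg ?_ ?_
  · intro y hy
    rw [mem_image] at hy
    obtain ⟨⟨T, q⟩, hx, rfl⟩ := hy
    simp only [mem_sigma, mem_powersetCard] at hx
    obtain ⟨⟨hTS, hTc⟩, hq⟩ := hx
    simp only [mem_product, mem_powersetCard]
    exact ⟨hTS hq, (erase_subset _ _).trans hTS, by rw [card_erase_of_mem hq, hTc]; rfl⟩
  · intro y hy _
    simp only [mem_product, mem_powersetCard] at hy
    exact mul_nonneg (hf _ hy.1) (prod_nonneg fun p hp => hf p (hy.2.1 hp))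

/-- elementary symmetric functions of nonnegative numbers -/
theorem esymm_le (S : Finset ι) (f : ι → ℝ) (hf : ∀ p ∈ S, 0 ≤ f p) (t : ℕ) :
    (t.factorial : ℝ) * ∑ T ∈ S.powersetCard t, ∏ p ∈ T, f p ≤ (∑ p ∈ S, f p) ^ t := by
  induction t with
  | zero => simp
  | succ t ih =>
    have h := succ_mul_esymm_le S f hf t
    have hs : 0 ≤ ∑ p ∈ S, f p := sum_nonneg hf
    calc ((t + 1).factorial : ℝ) * ∑ T ∈ S.powersetCard (t + 1), ∏ p ∈ T, f p
        = (t.factorial : ℝ) * (((t + 1 : ℕ) : ℝ) * ∑ T ∈ S.powersetCard (t + 1), ∏ p ∈ T, f p) := by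
          rw [Nat.factorial_succ]; push_cast; ring
      _ ≤ (t.factorial : ℝ) * ((∑ p ∈ S, f p) * ∑ T ∈ S.powersetCard t, ∏ p ∈ T, f p) :=
          mul_le_mul_of_nonneg_left h (by positivity)
      _ = (∑ p ∈ S, f p) * ((t.factorial : ℝ) * ∑ T ∈ S.powersetCard t, ∏ p ∈ T, f p) := by ring
      _ ≤ (∑ p ∈ S, f p) * (∑ p ∈ S, f p) ^ t := mul_le_mul_of_nonneg_left ih hs
      _ = (∑ p ∈ S, f p) ^ (t + 1) := by rw [pow_succ]; ring

/-- harmonic bound for a set of integers in `[2, m]` -/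
theorem sum_inv_le (S : Finset ℕ) (m : ℕ) (hS : ∀ p ∈ S, 2 ≤ p ∧ p ≤ m) :
    ∑ p ∈ S, (1 : ℝ) / ((p : ℝ) - 1) ≤ 1 + Real.log m := by
  have h1 : ∑ p ∈ S, (1 : ℝ) / ((p : ℝ) - 1) ≤ ∑ p ∈ Finset.Icc 1 m, (1 : ℝ) / (p : ℝ) := by
    have hinj : Set.InjOn (fun p : ℕ => p - 1) (S : Set ℕ) := by
      intro a ha b hb h
      have h1 := (hS a ha).1
      have h2 := (hS b hb).1
      simp only at h
      omega
    have h2 : ∑ p ∈ S, (1 : ℝ) / ((p : ℝ) - 1) = ∑ q ∈ S.image (fun p : ℕ => p - 1), (1 : ℝ) / ((q : ℕ) : ℝ) := by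
      rw [sum_image hinj]
      refine sum_congr rfl fun p hp => ?_
      rw [Nat.cast_sub (by have := (hS p hp).1; omega)]
      simp
    rw [h2]
    refine sum_le_sum_of_subset_of_nonneg ?_ fun i _ _ => by positivity
    intro q hq
    rw [mem_image] at hq
    obtain ⟨p, hp, rfl⟩ := hq
    have := hS p hp
    rw [mem_Icc]
    omega
  refine h1.trans ?_
  have h3 := harmonic_le_one_add_log m
  have h4 : ((harmonic m : ℚ) : ℝ) = ∑ p ∈ Finset.Icc 1 m, (1 : ℝ) / (p : ℝ) := by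
    rw [harmonic_eq_sum_Icc]
    push_cast
    refine sum_congr rfl fun p _ => by rw [one_div]
  rw [← h4]
  exact h3

/-- **(C) of 11242**: the sum over the sets of `t` names -/
theorem sum_names_le (S : Finset ℕ) (m : ℕ) (hS : ∀ p ∈ S, 2 ≤ p ∧ p ≤ m) (t : ℕ) :
    (t.factorial : ℝ) * ∑ T ∈ S.powersetCard t, ∏ p ∈ T, (1 : ℝ) / ((p : ℝ) - 1) ≤
      (1 + Real.log m) ^ t := by
  have hf : ∀ p ∈ S, 0 ≤ (1 : ℝ) / ((p : ℝ) - 1) := fun p hp => by
    have : (2 : ℝ) ≤ p := by exact_mod_cast (hS p hp).1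
    exact div_nonneg zero_le_one (by linarith)
  refine (esymm_le S _ hf t).trans ?_
  exact pow_le_pow_left₀ (sum_nonneg hf) (sum_inv_le S m hS) t

end Vale.Agent.P160.Half.Names178
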