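import Mathlib

namespace Vale.Agent.P160.Half

open Finset

/-- `k + 1` coordinates on which a subspace of dimension `≤ k` approximates all unit vectors do not
exist. -/
theorem not_approx_units {m k : ℕ} (V : Submodule ℝ (Fin m → ℝ)) (hV : Module.finrank ℝ V ≤ k)
    (D : Finset (Fin m)) (hD : k < D.card) (η : ℝ) (hη : η * (D.card : ℝ) < 1)
    (h : ∀ i ∈ D, ∃ v ∈ V, ∀ j ∈ D, |(if j = i then (1 : ℝ) else 0) - v j| ≤ η) : False := by
  classical
  choose! f hfV hf using h
  -- the matrix `A i j = f i j` on `D` is nonsingular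
  let A : Matrix D D ℝ := fun i j => f i j
  have hdet : A.det ≠ 0 := by
    apply det_ne_zero_of_sum_row_lt_diag
    intro i
    have h1 : ∀ j ∈ (univ.erase i : Finset D), ‖A i j‖ ≤ η := by
      intro j hj
      have := hf i.1 i.2 j.1 j.2
      have hne : (j : Fin m) ≠ i := fun hh => (Finset.ne_of_mem_erase hj) (Subtype.ext hh)
      rw [if_neg hne, zero_sub, abs_neg] at this
      exact this
    have h2 : (∑ j ∈ (univ.erase i : Finset D), ‖A i j‖) ≤ ((D.card : ℝ) - 1) * η := by
      refine (Finset.sum_le_card_nsmul _ _ _ h1).trans ?_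
      rw [Finset.card_erase_of_mem (mem_univ _), Finset.card_univ, Fintype.card_coe, nsmul_eq_mul]
      rw [Nat.cast_sub (by omega)]
      simp
    have h3 : 1 - η ≤ ‖A i i‖ := by
      have := hf i.1 i.2 i.1 i.2
      rw [if_pos rfl] at this
      have h4 := (abs_le.1 this).2
      have : f i i ≤ |f i i| := le_abs_self _
      change 1 - η ≤ |f i i|
      linarith
    calc _ ≤ ((D.card : ℝ) - 1) * η := h2
      _ < 1 - η := by nlinarith
      _ ≤ _ := h3
  have hli : LinearIndependent ℝ (fun i : D => f i) := by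
    rw [Fintype.linearIndependent_iff]
    intro c hc
    have hz : A.transpose.mulVec c = 0 := by
      funext j
      have := congrFun hc j
      simp only [Finset.sum_apply, Pi.smul_apply, smul_eq_mul, Pi.zero_apply] at this
      simp only [Matrix.mulVec, dotProduct, Matrix.transpose_apply, Pi.zero_apply]
      rw [← this]
      exact Finset.sum_congr rfl fun i _ => mul_comm _ _
    have hinj : Function.Injective A.transpose.mulVec := Matrix.mulVec_injective_iff_isUnit.2
      ((Matrix.isUnit_iff_isUnit_det _).2 (by rw [Matrix.det_transpose]; exact hdet.isUnit))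
    have : c = 0 := hinj (by rw [hz, Matrix.mulVec_zero])
    intro i; rw [this]; rfl
  have hsub : LinearIndependent ℝ (fun i : D => (⟨f i, hfV i i.2⟩ : V)) := by
    apply LinearIndependent.of_comp V.subtype
    exact hli
  have := hsub.fintype_card_le_finrank
  rw [Fintype.card_coe] at this
  omega

/-- (N1) few cube points are close to a subspace of small dimension. -/
theorem card_near_le {m k : ℕ} (V : Submodule ℝ (Fin m → ℝ)) (hV : Module.finrank ℝ V ≤ k)
    (A : Finset (Finset (Fin m))) (η : ℝ) (hη : 2 * η * (k + 1) < 1)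
    (h : ∀ s ∈ A, ∃ v ∈ V, ∀ j, |(if j ∈ s then (1 : ℝ) else 0) - v j| ≤ η) :
    A.card ≤ ∑ i ∈ range (k + 1), m.choose i := by
  classical
  have hvc : A.vcDim ≤ k := by
    unfold Finset.vcDim
    refine Finset.sup_le fun D hD => ?_
    by_contra hlt
    push Not at hlt
    obtain ⟨D', hD', hcard⟩ := Finset.exists_subset_card_eq (show k + 1 ≤ D.card by omega)
    have hsh : A.Shatters D' := (Finset.mem_shatterer.1 hD).mono_right hD'
    refine not_approx_units V hV D' (by omega) (2 * η) (by rw [hcard]; push_cast; exact hη) ?_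
    intro i hi
    obtain ⟨s, hs, hs'⟩ := hsh (t := {i}) (by simpa using hi)
    obtain ⟨t, ht, ht'⟩ := hsh (t := ∅) (by simp)
    obtain ⟨v, hv, hv'⟩ := h s hs
    obtain ⟨w, hw, hw'⟩ := h t ht
    refine ⟨v - w, V.sub_mem hv hw, fun j hj => ?_⟩
    have e1 : (j ∈ s ↔ j = i) := by
      have : j ∈ D' ∩ s ↔ j ∈ ({i} : Finset (Fin m)) := by rw [hs']
      simpa [hj] using this
    have e2 : j ∉ t := by
      have : j ∈ D' ∩ t ↔ j ∈ (∅ : Finset (Fin m)) := by rw [ht']
      simpa [hj] using this
    have a1 := hv' j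
    have a2 := hw' j
    rw [if_neg e2] at a2
    simp only [e1] at a1
    have : (if j = i then (1 : ℝ) else 0) - (v - w) j =
        ((if j = i then (1 : ℝ) else 0) - v j) - (0 - w j) := by
      simp [Pi.sub_apply]; ring
    rw [this]
    refine (abs_sub _ _).trans ?_
    linarith
  calc A.card ≤ A.shatterer.card := Finset.card_le_card_shatterer A
    _ ≤ ∑ i ∈ Iic A.vcDim, (Fintype.card (Fin m)).choose i := Finset.card_shatterer_le_sum_vcDim
    _ ≤ ∑ i ∈ range (k + 1), m.choose i := by
      rw [Fintype.card_fin]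
      refine Finset.sum_le_sum_of_subset ?_
      intro i hi
      rw [mem_Iic] at hi
      rw [mem_range]; omega

/-- The `0/1` vector of a set. -/
def ind {m : ℕ} (s : Finset (Fin m)) : Fin m → ℝ := fun j => if j ∈ s then 1 else 0

theorem card_small_sets (m s : ℕ) :
    ((univ : Finset (Finset (Fin m))).filter (fun S => S.card ≤ s)).card ≤
      ∑ i ∈ range (s + 1), m.choose i := by
  classical
  have h : ((univ : Finset (Finset (Fin m))).filter (fun S => S.card ≤ s)) ⊆
      (range (s + 1)).biUnion (fun i => powersetCard i (univ : Finset (Fin m))) := by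
    intro S hS
    rw [mem_filter] at hS
    rw [mem_biUnion]
    exact ⟨S.card, mem_range.2 (by omega), mem_powersetCard_univ.2 rfl⟩
  refine (card_le_card h).trans (card_biUnion_le.trans ?_)
  refine sum_le_sum fun i _ => ?_
  rw [card_powersetCard, card_univ, Fintype.card_fin]

/-- (N2) for a nonsingular matrix `P` most cube points `y` have many large coordinates of
`P⁻¹ (y - w)`, uniformly for `w` in a subspace `U` of small dimension. -/
theorem card_few_large {m s u : ℕ} (P : Matrix (Fin m) (Fin m) ℝ) (hP : IsUnit P.det) (b : ℝ)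
    (hb : ∀ i j, |P i j| ≤ b) (U : Submodule ℝ (Fin m → ℝ)) (hU : Module.finrank ℝ U ≤ u)
    (τ : ℝ) (hτ : 0 ≤ τ) (hsmall : 2 * (m * b * τ) * (s + u + 1) < 1)
    (A : Finset (Finset (Fin m)))
    (h : ∀ y ∈ A, ∃ w ∈ U,
      (univ.filter fun j => τ ≤ |(P⁻¹.mulVec (ind y - w)) j|).card ≤ s) :
    A.card ≤ (∑ i ∈ range (s + 1), m.choose i) * ∑ i ∈ range (s + u + 1), m.choose i := by
  classical
  choose! w hwU hw using h
  let S : Finset (Fin m) → Finset (Fin m) := fun y =>
    univ.filter fun j => τ ≤ |(P⁻¹.mulVec (ind y - w y)) j|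
  let 𝒮 := (univ : Finset (Finset (Fin m))).filter (fun S => S.card ≤ s)
  have hmaps : ∀ y ∈ A, S y ∈ 𝒮 := fun y hy => mem_filter.2 ⟨mem_univ _, hw y hy⟩
  have hcard := card_eq_sum_card_fiberwise hmaps
  rw [hcard]
  have hfib : ∀ T ∈ 𝒮, (A.filter fun y => S y = T).card ≤ ∑ i ∈ range (s + u + 1), m.choose i := by
    intro T hT
    have hTs : T.card ≤ s := (mem_filter.1 hT).2
    let V : Submodule ℝ (Fin m → ℝ) :=
      Submodule.span ℝ ((T.image (fun j => P.col j) : Finset (Fin m → ℝ)) : Set (Fin m → ℝ)) ⊔ U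
    have hV : Module.finrank ℝ V ≤ s + u := by
      refine (Submodule.finrank_add_le_finrank_add_finrank _ _).trans ?_
      refine Nat.add_le_add ?_ hU
      refine (finrank_span_finset_le_card _).trans (card_image_le.trans hTs)
    refine card_near_le V hV (A.filter fun y => S y = T) (m * b * τ) (by push_cast; linarith) ?_
    intro y hy
    obtain ⟨hyA, hyT⟩ := mem_filter.1 hy
    let g := P⁻¹.mulVec (ind y - w y)
    have hPg : P.mulVec g = ind y - w y := by
      change P.mulVec (P⁻¹.mulVec _) = _
      rw [Matrix.mulVec_mulVec, Matrix.mul_nonsing_inv _ hP, Matrix.one_mulVec]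
    have hdec : ∀ i, (ind y - w y) i = (∑ j ∈ T, g j * P i j) + ∑ j ∈ Tᶜ, g j * P i j := by
      intro i
      rw [← hPg, Finset.sum_add_sum_compl]
      simp only [Matrix.mulVec, dotProduct]
      exact sum_congr rfl fun j _ => mul_comm _ _
    refine ⟨(∑ j ∈ T, g j • P.col j) + w y, ?_, ?_⟩
    · refine Submodule.add_mem_sup ?_ (hwU y hyA)
      refine Submodule.sum_mem _ fun j hj => Submodule.smul_mem _ _ ?_
      exact Submodule.subset_span (by
        rw [coe_image]; exact ⟨j, hj, rfl⟩)
    · intro i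
      have h1 : (if i ∈ y then (1 : ℝ) else 0) - ((∑ j ∈ T, g j • P.col j) + w y) i =
          ∑ j ∈ Tᶜ, g j * P i j := by
        have := hdec i
        simp only [Pi.sub_apply, ind] at this
        simp only [Pi.add_apply, Finset.sum_apply, Pi.smul_apply, smul_eq_mul, Matrix.col_apply]
        linarith
      rw [h1]
      refine (Finset.abs_sum_le_sum_abs _ _).trans ?_
      have h2 : ∀ j ∈ Tᶜ, |g j * P i j| ≤ b * τ := by
        intro j hj
        rw [mem_compl] at hj
        have : ¬ (τ ≤ |g j|) := by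
          intro hh
          apply hj
          rw [← hyT]
          exact mem_filter.2 ⟨mem_univ _, hh⟩
        push Not at this
        rw [abs_mul, mul_comm]
        exact mul_le_mul (hb i j) this.le (abs_nonneg _) ((abs_nonneg _).trans (hb i j))
      refine (Finset.sum_le_card_nsmul _ _ _ h2).trans ?_
      rw [nsmul_eq_mul]
      have hb0 : 0 ≤ b := (abs_nonneg _).trans (hb i i)
      have h3 : ((Tᶜ.card : ℕ) : ℝ) ≤ m := by
        have := card_le_univ (Tᶜ : Finset (Fin m))
        rw [Fintype.card_fin] at this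
        exact_mod_cast this
      calc ((Tᶜ.card : ℕ) : ℝ) * (b * τ) ≤ m * (b * τ) :=
            mul_le_mul_of_nonneg_right h3 (mul_nonneg hb0 hτ)
        _ = m * b * τ := by ring
  calc ∑ T ∈ 𝒮, (A.filter fun y => S y = T).card
      ≤ ∑ _T ∈ 𝒮, ∑ i ∈ range (s + u + 1), m.choose i := sum_le_sum hfib
    _ = 𝒮.card * ∑ i ∈ range (s + u + 1), m.choose i := by rw [sum_const, smul_eq_mul]
    _ ≤ _ := Nat.mul_le_mul_right _ (card_small_sets m s)

end Vale.Agent.P160.Half
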