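import Vale.Agent.P160.Half.Near2

namespace Vale.Agent.P160.Half

open Finset

/-- (N4) entries of the inverse of a matrix with bounded entries and a determinant bounded below. -/
theorem inv_entry_le {ρ : ℕ} (A : Matrix (Fin ρ) (Fin ρ) ℝ) (B τ : ℝ) (hB : 1 ≤ B) (hτ : 0 < τ)
    (hA : ∀ i j, |A i j| ≤ B) (hdet : τ ^ ρ ≤ |A.det|) (i j : Fin ρ) :
    |(A⁻¹) i j| ≤ (ρ.factorial : ℝ) * B ^ ρ / τ ^ ρ := by
  classical
  have hpos : 0 < τ ^ ρ := pow_pos hτ ρ
  have hadj : |A.adjugate i j| ≤ (ρ.factorial : ℝ) * B ^ ρ := by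
    rw [Matrix.adjugate_apply]
    have := Matrix.det_le (A := A.updateRow j (Pi.single i 1)) (abv := AbsoluteValue.abs)
      (x := B) (fun k l => ?_)
    · simpa [nsmul_eq_mul] using this
    · rw [Matrix.updateRow_apply]
      split_ifs with h
      · rw [Pi.single_apply]
        split_ifs
        · simpa using hB
        · simpa using le_trans zero_le_one hB
      · exact hA k l
  rw [Matrix.inv_def, Matrix.smul_apply, Ring.inverse_eq_inv', smul_eq_mul, abs_mul, abs_inv]
  rw [div_eq_inv_mul]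
  refine mul_le_mul ?_ hadj (abs_nonneg _) (inv_nonneg.2 hpos.le)
  exact inv_anti₀ hpos hdet

end Vale.Agent.P160.Half
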