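import Vale.Agent.P160.Half.M67Stmt

/-! # P160, half rate: `StmtNice` of `M67Stmt` from `StmtSubgroups`, `StmtCRT`, `StmtSpread` -/

set_option linter.unusedVariables false

namespace Vale.Agent.P160.Half.Nice310

open Finset Vale.Agent.P160 Vale.Agent.P160.Half Vale.Agent.P160.Half.Flat

lemma cfL_le_cf (k : ℕ) (hk : 0 < k) {z : ℂ} (hz : ‖z‖ = 1) :
    cfL (2 * k - 1) (8 * k) z ≤ cf 8 z := by
  have hre : z.re ≤ 1 := by
    have := Complex.abs_re_le_norm z
    rw [hz] at this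
    exact (abs_le.mp this).2
  have hk0 : (0 : ℝ) < k := by exact_mod_cast hk
  have hk1 : (1 : ℝ) ≤ k := by exact_mod_cast hk
  unfold cfL cf
  have hc : ((2 * k - 1 : ℕ) : ℝ) = 2 * k - 1 := by
    rw [Nat.cast_sub (by omega)]; push_cast; ring
  rw [hc]
  push_cast
  have h1 : 2 * (2 * (k : ℝ) - 1) / (8 * k) = 1 / 2 - 1 / (4 * k) := by
    field_simp
    ring
  rw [h1]
  have h2 : 1 / (4 * (k : ℝ)) ≤ 1 / 4 := by
    apply one_div_le_one_div_of_le (by norm_num)
    linarith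
  nlinarith

/-- one row: few seeds annihilate a flat tuple -/
lemma row_count (k : ℕ) (hk : 0 < k) {H : Type} [AddCommGroup H] [Fintype H] (c : Fin k → H)
    (B : ℝ) (hB : gZ 8 c ≤ B) :
    (Nat.card {x : Fin k → Fin (8 * k) // ∑ j, stL (2 * k - 1) (x j) • c j = 0} : ℝ) *
      Fintype.card H ≤ ((8 * k : ℕ) : ℝ) ^ k * B := by
  classical
  have hM : 0 < 8 * k := by omega
  have hLM : 4 * (2 * k - 1) ≤ 8 * k := by omega
  have h := prL_zero_eq (L := 2 * k - 1) (M := 8 * k) hM (by omega) c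
  have h1 : ∑ ψ : AddChar H ℂ, ∏ e, cfL (2 * k - 1) (8 * k) (ψ (c e)) ≤ gZ 8 c := by
    unfold gZ gP
    refine Finset.sum_le_sum fun ψ _ => ?_
    exact Finset.prod_le_prod (fun e _ => cfL_nonneg hM hLM (norm_addChar ψ _))
      fun e _ => cfL_le_cf k hk (norm_addChar ψ _)
  have h2 : (Nat.card {x : Fin k → Fin (8 * k) // ∑ j, stL (2 * k - 1) (x j) • c j = 0} : ℝ) =
      prL (2 * k - 1) (8 * k) c 0 * ((8 * k : ℕ) : ℝ) ^ k := by
    unfold prL
    rw [Nat.card_eq_fintype_card, Fintype.card_subtype, Fintype.card_fin]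
    have : ((8 * k : ℕ) : ℝ) ^ k ≠ 0 := by
      have : (0 : ℝ) < ((8 * k : ℕ) : ℝ) := by exact_mod_cast hM
      positivity
    rw [div_mul_cancel₀ _ this]
    rfl
  rw [h2]
  calc prL (2 * k - 1) (8 * k) c 0 * ((8 * k : ℕ) : ℝ) ^ k * Fintype.card H
      = ((8 * k : ℕ) : ℝ) ^ k * (Fintype.card H * prL (2 * k - 1) (8 * k) c 0) := by ring
    _ ≤ ((8 * k : ℕ) : ℝ) ^ k * B := by
        rw [h]
        exact mul_le_mul_of_nonneg_left (h1.trans hB) (by positivity)

/-- the same with a tuple in an ambient group -/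
lemma row_count' (k : ℕ) (hk : 0 < k) {G : Type} [AddCommGroup G] (z : Fin k → G)
    [Fintype (AddSubgroup.closure (Set.range z))] (B : ℝ) (hB : gZ 8 (M67.toCl z) ≤ B) :
    (Nat.card {x : Fin k → Fin (8 * k) // ∑ j, stL (2 * k - 1) (x j) • z j = 0} : ℝ) *
      Nat.card (AddSubgroup.closure (Set.range z)) ≤ ((8 * k : ℕ) : ℝ) ^ k * B := by
  have h := row_count k hk (M67.toCl z) B hB
  rw [Nat.card_eq_fintype_card (α := AddSubgroup.closure (Set.range z))]
  refine le_trans (le_of_eq ?_) h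
  congr 2
  refine Nat.card_congr (Equiv.subtypeEquivRight fun x => ?_)
  have e1 : ((∑ j, stL (2 * k - 1) (x j) • M67.toCl z j :
      AddSubgroup.closure (Set.range z)) : G) = ∑ j, stL (2 * k - 1) (x j) • z j := by
    rw [← AddSubgroup.coe_subtype, map_sum]
    refine Finset.sum_congr rfl fun j _ => ?_
    rw [map_zsmul]
    rfl
  rw [← e1]
  constructor
  · intro h1
    exact Subtype.ext h1
  · intro h1
    rw [h1]
    rfl

/-- number of seeds of matrices annihilating `z` -/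
lemma mat_count (k : ℕ) {Ω : Type} [Fintype Ω] (e : Ω → ℤ) {G : Type} [AddCommGroup G]
    (z : Fin k → G) :
    Nat.card {ω : Fin k → Fin k → Ω // ∀ i, ∑ j, M67.mt e ω i j • z j = 0} =
      Nat.card {x : Fin k → Ω // ∑ j, e (x j) • z j = 0} ^ k := by
  have h : Nat.card {ω : Fin k → Fin k → Ω // ∀ i, ∑ j, M67.mt e ω i j • z j = 0} =
      Nat.card (Fin k → {x : Fin k → Ω // ∑ j, e (x j) • z j = 0}) :=
    Nat.card_congr
      { toFun := fun ω i => ⟨ω.1 i, ω.2 i⟩
        invFun := fun f => ⟨fun i => (f i).1, fun i => (f i).2⟩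
        left_inv := fun ω => rfl
        right_inv := fun f => rfl }
  rw [h, Nat.card_fun, Nat.card_eq_fintype_card (α := Fin k), Fintype.card_fin]

open scoped Classical in
/-- tuples grouped by the subgroup they generate -/
lemma sum_tuples (k : ℕ) {G : Type} [AddCommGroup G] [Fintype G] (S : Finset (Fin k → G))
    (f : (Fin k → G) → ℝ) (C : ℝ) (hC : 0 ≤ C)
    (hf : ∀ z ∈ S, f z * (Nat.card (AddSubgroup.closure (Set.range z)) : ℝ) ^ k ≤ C) :
    ∑ z ∈ S, f z ≤ (Nat.card (AddSubgroup G) : ℝ) * C := by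
  classical
  have : Fintype (AddSubgroup G) := Fintype.ofFinite _
  rw [← Finset.sum_fiberwise (s := S) (g := fun z => AddSubgroup.closure (Set.range z))]
  rw [Nat.card_eq_fintype_card, ← Finset.card_univ, ← nsmul_eq_mul, ← Finset.sum_const]
  refine Finset.sum_le_sum fun H _ => ?_
  have hHpos : (0 : ℝ) < (Nat.card H : ℝ) := by
    have : 0 < Nat.card H := Nat.card_pos
    exact_mod_cast this
  have h1 : ∀ z ∈ S.filter (fun z => AddSubgroup.closure (Set.range z) = H),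
      f z ≤ C / (Nat.card H : ℝ) ^ k := by
    intro z hz
    rw [Finset.mem_filter] at hz
    have h2 := hf z hz.1
    rw [hz.2] at h2
    rw [le_div_iff₀ (by positivity)]
    exact h2
  have h2 : ((S.filter (fun z => AddSubgroup.closure (Set.range z) = H)).card : ℝ) ≤
      (Nat.card H : ℝ) ^ k := by
    have h3 : (S.filter (fun z => AddSubgroup.closure (Set.range z) = H)).card ≤
        Nat.card (Fin k → H) := by
      rw [Nat.card_eq_fintype_card, ← Finset.card_univ]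
      refine Finset.card_le_card_of_surjOn (fun (w : Fin k → H) => fun j => (w j : G)) ?_
      intro z hz
      rw [Finset.mem_coe, Finset.mem_filter] at hz
      refine ⟨fun j => ⟨z j, ?_⟩, by simp, rfl⟩
      rw [← hz.2]
      exact AddSubgroup.subset_closure ⟨j, rfl⟩
    rw [Nat.card_fun, Nat.card_eq_fintype_card (α := Fin k), Fintype.card_fin] at h3
    exact_mod_cast h3
  calc ∑ z ∈ S.filter (fun z => AddSubgroup.closure (Set.range z) = H), f z
      ≤ ∑ _z ∈ S.filter (fun z => AddSubgroup.closure (Set.range z) = H),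
          C / (Nat.card H : ℝ) ^ k := Finset.sum_le_sum h1
    _ = ((S.filter (fun z => AddSubgroup.closure (Set.range z) = H)).card : ℝ) *
          (C / (Nat.card H : ℝ) ^ k) := by rw [Finset.sum_const, nsmul_eq_mul]
    _ ≤ (Nat.card H : ℝ) ^ k * (C / (Nat.card H : ℝ) ^ k) :=
        mul_le_mul_of_nonneg_right h2 (by positivity)
    _ = C := by field_simp

lemma one_add_pow_le (k : ℕ) (hk : 0 < k) : (1 + 1 / (k : ℝ)) ^ k ≤ 3 := by
  have hk0 : (0 : ℝ) < k := by exact_mod_cast hk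
  have h1 : (1 : ℝ) + 1 / k ≤ Real.exp (1 / k) := by
    have := Real.add_one_le_exp (1 / (k : ℝ))
    linarith
  calc (1 + 1 / (k : ℝ)) ^ k ≤ (Real.exp (1 / k)) ^ k := pow_le_pow_left₀ (by positivity) h1 _
    _ = Real.exp 1 := by
        rw [← Real.exp_nat_mul]
        congr 1
        field_simp
    _ ≤ 3 := by
        have := Real.exp_one_lt_d9
        linarith

open scoped Classical in
/-- `StmtNice` -/
theorem nice (hS : M67.StmtSubgroups) (hCRT : M67.StmtCRT) (hSp : M67.StmtSpread) :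
    M67.StmtNice := by
  intro k hk P hP s
  set N : ℕ := ∏ p ∈ P, p with hN
  have hN0 : N ≠ 0 := Finset.prod_ne_zero_iff.2 fun p hp => (hP p hp).ne_zero
  have : NeZero N := ⟨hN0⟩
  have hk0 : (0 : ℝ) < k := by exact_mod_cast hk
  have hM0 : (0 : ℝ) < ((8 * k : ℕ) : ℝ) := by
    have : 0 < 8 * k := by omega
    exact_mod_cast this
  set e : Fin (8 * k) → ℤ := stL (2 * k - 1) with he
  set T : Finset (Fin k → Fin k → Fin (8 * k)) := univ.filter
    (fun ω => ¬ M67.Sparse P s (M67.mt e ω) ∧ ¬ M67.Bad P s (M67.mt e ω)) with hT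
  set Z : Finset (Fin k → ZMod N × ZMod N) :=
    univ.filter (fun z => gZ 8 (M67.toCl z) ≤ 1 + 1 / k) with hZ
  -- the weight counts kernel tuples, all of them flat
  have h1 : ∀ ω ∈ T, M67.W P (M67.mt e ω) ≤
      ∑ z ∈ Z, (if ∀ i, ∑ j, M67.mt e ω i j • z j = 0 then (1 : ℝ) else 0) := by
    intro ω hω
    rw [hT, Finset.mem_filter] at hω
    rw [(hCRT k P hP _).2, Nat.card_eq_fintype_card, Fintype.card_subtype, Finset.sum_boole]
    have : (univ.filter fun z : Fin k → ZMod N × ZMod N =>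
        ∀ i, ∑ j, M67.mt e ω i j • z j = 0).card ≤
        (Z.filter fun z => ∀ i, ∑ j, M67.mt e ω i j • z j = 0).card := by
      refine Finset.card_le_card fun z hz => ?_
      rw [Finset.mem_filter] at hz
      rw [Finset.mem_filter]
      refine ⟨?_, hz.2⟩
      rw [hZ, Finset.mem_filter]
      refine ⟨Finset.mem_univ _, ?_⟩
      by_contra hcon
      push Not at hcon
      exact hω.2.2 ⟨⟨hN0⟩, z, hz.2, hSp k P hP ⟨hN0⟩ s _ hω.2.1 z hz.2, hcon⟩
    exact_mod_cast this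
  have h2 : ∀ z ∈ Z, (Nat.card {x : Fin k → Fin (8 * k) // ∑ j, e (x j) • z j = 0} : ℝ) ^ k *
      (Nat.card (AddSubgroup.closure (Set.range z)) : ℝ) ^ k ≤
      (((8 * k : ℕ) : ℝ) ^ k * (1 + 1 / k)) ^ k := by
    intro z hz
    rw [hZ, Finset.mem_filter] at hz
    rw [← mul_pow]
    exact pow_le_pow_left₀ (by positivity) (row_count' k hk z _ hz.2) _
  have h3 := sum_tuples k Z
    (fun z => (Nat.card {x : Fin k → Fin (8 * k) // ∑ j, e (x j) • z j = 0} : ℝ) ^ k)
    ((((8 * k : ℕ) : ℝ) ^ k * (1 + 1 / k)) ^ k) (by positivity) h2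
  calc ∑ ω ∈ T, M67.W P (M67.mt e ω)
      ≤ ∑ ω ∈ T, ∑ z ∈ Z, (if ∀ i, ∑ j, M67.mt e ω i j • z j = 0 then (1 : ℝ) else 0) :=
        Finset.sum_le_sum h1
    _ ≤ ∑ ω : Fin k → Fin k → Fin (8 * k),
          ∑ z ∈ Z, (if ∀ i, ∑ j, M67.mt e ω i j • z j = 0 then (1 : ℝ) else 0) :=
        Finset.sum_le_sum_of_subset_of_nonneg (Finset.subset_univ _)
          (fun ω _ _ => Finset.sum_nonneg fun z _ => by split_ifs <;> norm_num)
    _ = ∑ z ∈ Z, ∑ ω : Fin k → Fin k → Fin (8 * k),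
          (if ∀ i, ∑ j, M67.mt e ω i j • z j = 0 then (1 : ℝ) else 0) := Finset.sum_comm
    _ = ∑ z ∈ Z, (Nat.card {x : Fin k → Fin (8 * k) // ∑ j, e (x j) • z j = 0} : ℝ) ^ k := by
        refine Finset.sum_congr rfl fun z _ => ?_
        rw [Finset.sum_boole, ← Nat.cast_pow, ← mat_count k e z, Nat.card_eq_fintype_card,
          Fintype.card_subtype]
    _ ≤ (Nat.card (AddSubgroup (ZMod N × ZMod N)) : ℝ) *
          (((8 * k : ℕ) : ℝ) ^ k * (1 + 1 / k)) ^ k := h3
    _ ≤ (N : ℝ) ^ 3 * (((8 * k : ℕ) : ℝ) ^ k * (1 + 1 / k)) ^ k := by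
        refine mul_le_mul_of_nonneg_right ?_ (by positivity)
        exact_mod_cast hS N
    _ = (1 + 1 / (k : ℝ)) ^ k * (N : ℝ) ^ 3 * ((8 * k : ℕ) : ℝ) ^ (k * k) := by
        rw [mul_pow, ← pow_mul]
        ring
    _ ≤ 3 * (N : ℝ) ^ 3 * ((8 * k : ℕ) : ℝ) ^ (k * k) := by
        have := one_add_pow_le k hk
        gcongr
    _ = 3 * (∏ p ∈ P, (p : ℝ)) ^ 3 * ((8 * k : ℕ) : ℝ) ^ (k * k) := by
        rw [hN]
        push_cast
        rfl

end Vale.Agent.P160.Half.Nice310
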