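import Vale.Agent.P160.Half.M67Stmt2
import Vale.Agent.P160.Half.SubG416

/-! # P160, half rate, M67: (7) NICE, from the leaves (9a), (9b), (3b). -/

set_option linter.unusedSectionVars false

namespace Vale.Agent.P160.Half.M67.N520

open Finset Vale.Agent.P160 Vale.Agent.P160.Half Vale.Agent.P160.Half.Flat

section group

variable {G : Type} [AddCommGroup G]

open scoped Classical in
/-- number of rows orthogonal to `z` -/
noncomputable def cnt (k : ℕ) (z : Fin k → G) : ℕ :=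
  (univ.filter (fun ω : Fin k → Fin (8 * k) => gwL (2 * k - 1) ω z = 0)).card

theorem cnt_toCl (k : ℕ) (z : Fin k → G) : cnt k (toCl z) = cnt k z := by
  unfold cnt
  congr 1
  refine Finset.ext fun ω => ?_
  simp only [mem_filter]
  refine and_congr_right fun _ => ?_
  have h : ((gwL (2 * k - 1) ω (toCl z) : AddSubgroup.closure (Set.range z)) : G) =
      gwL (2 * k - 1) ω z := by
    unfold gwL toCl
    rw [AddSubgroup.val_finsetSum]
    rfl
  rw [← h, ZeroMemClass.coe_eq_zero]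

theorem cfL_le {k : ℕ} (hk : 0 < k) {z : ℂ} (hz : ‖z‖ = 1) :
    cfL (2 * k - 1) (8 * k) z ≤ cf 8 z := by
  unfold cfL cf
  have h1 : z.re ≤ 1 := by rw [← hz]; exact Complex.re_le_norm z
  have h2 : ((2 * k - 1 : ℕ) : ℝ) = 2 * k - 1 := by
    rw [Nat.cast_sub (by omega)]
    push_cast
    ring
  have hk0 : (1 : ℝ) ≤ k := by exact_mod_cast hk
  rw [h2]
  push_cast
  have h3 : (2 : ℝ) / 8 ≤ 2 * (2 * (k : ℝ) - 1) / (8 * k) := by
    rw [div_le_div_iff₀ (by norm_num) (by linarith)]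
    nlinarith
  nlinarith [mul_nonneg (sub_nonneg.2 h3) (sub_nonneg.2 h1)]

theorem cnt_le {H : Type} [AddCommGroup H] [Fintype H] {k : ℕ} (hk : 0 < k) (y : Fin k → H) :
    (Fintype.card H : ℝ) * cnt k y ≤ ((8 * k : ℕ) : ℝ) ^ k * gZ 8 y := by
  classical
  have h := prL_zero_eq (L := 2 * k - 1) (M := 8 * k) (by omega) (by omega) y
  have h1 : prL (2 * k - 1) (8 * k) y 0 = (cnt k y : ℝ) / ((8 * k : ℕ) : ℝ) ^ k := by
    unfold prL cnt
    rw [Fintype.card_fin]
  have h2 : ∑ ψ : AddChar H ℂ, ∏ e, cfL (2 * k - 1) (8 * k) (ψ (y e)) ≤ gZ 8 y := by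
    unfold gZ gP
    exact sum_le_sum fun ψ _ => prod_le_prod
      (fun e _ => cfL_nonneg (by omega) (by omega) (norm_addChar _ _))
      (fun e _ => cfL_le hk (norm_addChar _ _))
  rw [h1] at h
  have h8 : (0 : ℝ) < ((8 * k : ℕ) : ℝ) ^ k := by
    have : (0 : ℝ) < ((8 * k : ℕ) : ℝ) := by exact_mod_cast (by omega : 0 < 8 * k)
    positivity
  calc (Fintype.card H : ℝ) * cnt k y = ((8 * k : ℕ) : ℝ) ^ k *
        (Fintype.card H * ((cnt k y : ℝ) / ((8 * k : ℕ) : ℝ) ^ k)) := by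
        field_simp
    _ ≤ _ := by
        rw [h]
        exact mul_le_mul_of_nonneg_left h2 h8.le

variable [Fintype G]

theorem card_fib (k : ℕ) (H : AddSubgroup G) [DecidableEq G]
    [DecidablePred fun z : Fin k → G => AddSubgroup.closure (Set.range z) = H] :
    (univ.filter (fun z : Fin k → G => AddSubgroup.closure (Set.range z) = H)).card ≤
      Nat.card H ^ k := by
  classical
  have h1 : univ.filter (fun z : Fin k → G => AddSubgroup.closure (Set.range z) = H) ⊆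
      (univ : Finset (Fin k → H)).image (fun w j => (w j : G)) := by
    intro z hz
    rw [mem_filter] at hz
    rw [mem_image]
    refine ⟨fun j => ⟨z j, ?_⟩, mem_univ _, rfl⟩
    rw [← hz.2]
    exact AddSubgroup.subset_closure ⟨j, rfl⟩
  refine (card_le_card h1).trans (card_image_le.trans ?_)
  rw [card_univ, Fintype.card_fun, Fintype.card_fin, Nat.card_eq_fintype_card]

theorem sum_inv (k : ℕ) : ∑ z : Fin k → G,
    ((Nat.card (AddSubgroup.closure (Set.range z)) : ℝ) ^ k)⁻¹ ≤ Nat.card (AddSubgroup G) := by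
  classical
  have : Fintype (AddSubgroup G) := Fintype.ofFinite _
  rw [← sum_fiberwise (univ : Finset (Fin k → G)) (fun z => AddSubgroup.closure (Set.range z)),
    Nat.card_eq_fintype_card, ← card_univ (α := AddSubgroup G), card_eq_sum_ones, Nat.cast_sum]
  refine sum_le_sum fun H _ => ?_
  have h1 : ∑ z ∈ univ.filter (fun z : Fin k → G => AddSubgroup.closure (Set.range z) = H),
      ((Nat.card (AddSubgroup.closure (Set.range z)) : ℝ) ^ k)⁻¹ =
      ∑ _z ∈ univ.filter (fun z : Fin k → G => AddSubgroup.closure (Set.range z) = H),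
        ((Nat.card H : ℝ) ^ k)⁻¹ := by
    refine sum_congr rfl fun z hz => ?_
    rw [mem_filter] at hz
    rw [hz.2]
  rw [h1, sum_const, nsmul_eq_mul, Nat.cast_one]
  have h2 : (0 : ℝ) < (Nat.card H : ℝ) ^ k := by
    have : (0 : ℝ) < Nat.card H := by exact_mod_cast Nat.card_pos
    positivity
  rw [← div_eq_mul_inv, div_le_one h2]
  exact_mod_cast card_fib k H

end group

theorem e_le {k : ℕ} (hk : 0 < k) : (1 + 1 / (k : ℝ)) ^ k ≤ 3 := by
  have hk0 : (0 : ℝ) < k := by exact_mod_cast hk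
  have h1 : 1 + 1 / (k : ℝ) ≤ Real.exp (1 / k) := by
    have := Real.add_one_le_exp (1 / (k : ℝ))
    linarith
  have h2 : (1 + 1 / (k : ℝ)) ^ k ≤ Real.exp (1 / k) ^ k :=
    pow_le_pow_left₀ (by positivity) h1 k
  rw [← Real.exp_nat_mul, mul_one_div_cancel hk0.ne'] at h2
  have := Real.exp_one_lt_d9
  linarith

theorem card_rows {G : Type} [AddCommGroup G] [DecidableEq G] (k : ℕ) (z : Fin k → G) :
    (univ.filter (fun ω : Fin k → Fin k → Fin (8 * k) =>
      ∀ i, ∑ j, mt (stL (2 * k - 1)) ω i j • z j = 0)).card = cnt k z ^ k := by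
  classical
  have h : univ.filter (fun ω : Fin k → Fin k → Fin (8 * k) =>
      ∀ i, ∑ j, mt (stL (2 * k - 1)) ω i j • z j = 0) =
      Fintype.piFinset (fun _ : Fin k =>
        univ.filter (fun r : Fin k → Fin (8 * k) => gwL (2 * k - 1) r z = 0)) := by
    ext ω
    rw [mem_filter, Fintype.mem_piFinset]
    simp only [mem_univ, true_and, mem_filter]
    rfl
  rw [h, Fintype.card_piFinset, prod_const, card_univ, Fintype.card_fin]
  unfold cnt
  congr!

open scoped Classical in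
theorem nice_gen (h1 : StmtCRT) (h2 : StmtSpread) (k : ℕ) (hk : 0 < k) (P : Finset ℕ)
    (hP : ∀ p ∈ P, p.Prime) (s : ℝ) :
    ∑ ω ∈ (univ : Finset (Fin k → Fin k → Fin (8 * k))).filter
      (fun ω => ¬ Sparse P s (mt (stL (2 * k - 1)) ω) ∧ ¬ Bad P s (mt (stL (2 * k - 1)) ω)),
      W P (mt (stL (2 * k - 1)) ω) ≤
    3 * ((8 * k : ℕ) : ℝ) ^ (k * k) *
      Nat.card (AddSubgroup (ZMod (∏ p ∈ P, p) × ZMod (∏ p ∈ P, p))) := by
  have hk0 : (0 : ℝ) < k := by exact_mod_cast hk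
  have hN : NeZero (∏ p ∈ P, p) := ⟨prod_ne_zero_iff.2 fun p hp => (hP p hp).ne_zero⟩
  have h8 : (0 : ℝ) < ((8 * k : ℕ) : ℝ) := by exact_mod_cast (by omega : 0 < 8 * k)
  let K : (Fin k → Fin k → Fin (8 * k)) →
      (Fin k → ZMod (∏ p ∈ P, p) × ZMod (∏ p ∈ P, p)) → Prop :=
    fun ω z => ∀ i, ∑ j, mt (stL (2 * k - 1)) ω i j • z j = 0
  let Z : Finset (Fin k → ZMod (∏ p ∈ P, p) × ZMod (∏ p ∈ P, p)) :=
    univ.filter fun z => (Nat.card (AddSubgroup.closure (Set.range z)) : ℝ) * cnt k z ≤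
      ((8 * k : ℕ) : ℝ) ^ k * (1 + 1 / k)
  have key : ∀ ω, (¬ Sparse P s (mt (stL (2 * k - 1)) ω) ∧ ¬ Bad P s (mt (stL (2 * k - 1)) ω)) →
      W P (mt (stL (2 * k - 1)) ω) ≤ ((Z.filter (K ω)).card : ℝ) := by
    rintro ω ⟨hs, hb⟩
    rw [(h1 k P hP _).2]
    have h5 : Nat.card {z : Fin k → ZMod (∏ p ∈ P, p) × ZMod (∏ p ∈ P, p) //
        ∀ i, ∑ j, mt (stL (2 * k - 1)) ω i j • z j = 0} = (univ.filter (K ω)).card := by
      rw [Nat.card_eq_fintype_card, Fintype.card_subtype]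
    rw [h5]
    norm_cast
    refine card_le_card fun z hz => ?_
    rw [mem_filter] at hz ⊢
    refine ⟨?_, hz.2⟩
    rw [mem_filter]
    refine ⟨mem_univ _, ?_⟩
    have hsp := h2 k P hP hN s _ hs z hz.2
    have hcl : ∀ (i : Fintype (AddSubgroup.closure (Set.range z))),
        @gZ _ _ i _ 8 (toCl z) ≤ 1 + 1 / k →
        (Nat.card (AddSubgroup.closure (Set.range z)) : ℝ) * cnt k z ≤
          ((8 * k : ℕ) : ℝ) ^ k * (1 + 1 / k) := by
      intro i hi
      rw [← cnt_toCl, @Nat.card_eq_fintype_card _ i]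
      exact (@cnt_le _ _ i k hk (toCl z)).trans
        (mul_le_mul_of_nonneg_left hi (pow_nonneg h8.le k))
    by_contra hcon
    exact hb ⟨hN, z, hz.2, hsp, lt_of_not_ge fun hge => hcon (hcl _ hge)⟩
  calc ∑ ω ∈ (univ : Finset (Fin k → Fin k → Fin (8 * k))).filter
        (fun ω => ¬ Sparse P s (mt (stL (2 * k - 1)) ω) ∧ ¬ Bad P s (mt (stL (2 * k - 1)) ω)),
        W P (mt (stL (2 * k - 1)) ω)
      ≤ ∑ ω ∈ (univ : Finset (Fin k → Fin k → Fin (8 * k))).filter
        (fun ω => ¬ Sparse P s (mt (stL (2 * k - 1)) ω) ∧ ¬ Bad P s (mt (stL (2 * k - 1)) ω)),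
        ((Z.filter (K ω)).card : ℝ) := by
        refine sum_le_sum fun ω hω => key ω ?_
        exact (mem_filter.1 hω).2
    _ ≤ ∑ ω : Fin k → Fin k → Fin (8 * k), ((Z.filter (K ω)).card : ℝ) :=
        sum_le_sum_of_subset_of_nonneg (subset_univ _) fun _ _ _ => Nat.cast_nonneg _
    _ = ∑ z ∈ Z, ((univ.filter (fun ω => K ω z)).card : ℝ) := by
        simp only [card_filter, Nat.cast_sum]
        rw [sum_comm]
    _ = ∑ z ∈ Z, (cnt k z : ℝ) ^ k := by
        refine sum_congr rfl fun z _ => ?_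
        have := card_rows k z
        rw [← Nat.cast_pow, ← this]
    _ ≤ ∑ z ∈ Z, 3 * ((8 * k : ℕ) : ℝ) ^ (k * k) *
          ((Nat.card (AddSubgroup.closure (Set.range z)) : ℝ) ^ k)⁻¹ := by
        refine sum_le_sum fun z hz => ?_
        have hz2 := (mem_filter.1 hz).2
        have hc : (0 : ℝ) < Nat.card (AddSubgroup.closure (Set.range z)) := by
          exact_mod_cast Nat.card_pos
        rw [← div_eq_mul_inv, le_div_iff₀ (pow_pos hc k), ← mul_pow, mul_comm (cnt k z : ℝ)]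
        refine (pow_le_pow_left₀ (mul_nonneg hc.le (Nat.cast_nonneg _)) hz2 k).trans ?_
        rw [mul_pow, ← pow_mul, mul_comm (3 : ℝ)]
        exact mul_le_mul_of_nonneg_left (e_le hk) (pow_nonneg h8.le _)
    _ ≤ ∑ z, 3 * ((8 * k : ℕ) : ℝ) ^ (k * k) *
          ((Nat.card (AddSubgroup.closure (Set.range z)) : ℝ) ^ k)⁻¹ :=
        sum_le_sum_of_subset_of_nonneg (subset_univ _) fun _ _ _ => by positivity
    _ ≤ 3 * ((8 * k : ℕ) : ℝ) ^ (k * k) *
          Nat.card (AddSubgroup (ZMod (∏ p ∈ P, p) × ZMod (∏ p ∈ P, p))) := by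
        rw [← mul_sum]
        exact mul_le_mul_of_nonneg_left (sum_inv k) (by positivity)

/-- (7) -/
theorem nice_of (h1 : StmtCRT) (h2 : StmtSpread) (h3 : StmtSubgroups) : StmtNice := by
  intro k hk P hP s
  have hN : NeZero (∏ p ∈ P, p) := ⟨prod_ne_zero_iff.2 fun p hp => (hP p hp).ne_zero⟩
  refine (nice_gen h1 h2 k hk P hP s).trans ?_
  have h4 : (Nat.card (AddSubgroup (ZMod (∏ p ∈ P, p) × ZMod (∏ p ∈ P, p))) : ℝ) ≤
      (∏ p ∈ P, (p : ℝ)) ^ 3 := by
    rw [← Nat.cast_prod]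
    exact_mod_cast h3 (∏ p ∈ P, p)
  calc 3 * ((8 * k : ℕ) : ℝ) ^ (k * k) *
        Nat.card (AddSubgroup (ZMod (∏ p ∈ P, p) × ZMod (∏ p ∈ P, p)))
      ≤ 3 * ((8 * k : ℕ) : ℝ) ^ (k * k) * (∏ p ∈ P, (p : ℝ)) ^ 3 :=
        mul_le_mul_of_nonneg_left h4 (by positivity)
    _ = _ := by ring

theorem sqf {P : Finset ℕ} (hP : ∀ p ∈ P, p.Prime) : Squarefree (∏ p ∈ P, p) := by
  classical
  induction P using Finset.induction_on with
  | empty => simp
  | insert a s ha ih =>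
    rw [prod_insert ha]
    have ha' := hP a (mem_insert_self a s)
    have hs' := fun p hp => hP p (mem_insert_of_mem hp)
    have hco : Nat.Coprime a (∏ p ∈ s, p) := Nat.Coprime.prod_right fun p hp =>
      (Nat.coprime_primes ha' (hs' p hp)).2 fun h => ha (h ▸ hp)
    exact (Nat.squarefree_mul hco).2 ⟨ha'.prime.squarefree, ih hs'⟩

/-- (7') -/
theorem nice'_of (h1 : StmtCRT) (h2 : StmtSpread) : StmtNice' := by
  intro k hk P hP hPk hsz s
  have hN : NeZero (∏ p ∈ P, p) := ⟨prod_ne_zero_iff.2 fun p hp => (hP p hp).ne_zero⟩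
  refine (nice_gen h1 h2 k hk P hP s).trans ?_
  have h4 : (Nat.card (AddSubgroup (ZMod (∏ p ∈ P, p) × ZMod (∏ p ∈ P, p))) : ℝ) ≤
      (∏ p ∈ P, (p : ℝ)) * Real.exp 3 := by
    rw [← Nat.cast_prod] at hsz ⊢
    exact SubG416.card_le_exp (∏ p ∈ P, p) k hk (sqf hP)
      (by rw [Nat.primeFactors_prod hP]; exact hPk) (by exact_mod_cast hsz)
  calc 3 * ((8 * k : ℕ) : ℝ) ^ (k * k) *
        Nat.card (AddSubgroup (ZMod (∏ p ∈ P, p) × ZMod (∏ p ∈ P, p)))
      ≤ 3 * ((8 * k : ℕ) : ℝ) ^ (k * k) * ((∏ p ∈ P, (p : ℝ)) * Real.exp 3) :=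
        mul_le_mul_of_nonneg_left h4 (by positivity)
    _ = _ := by ring

end Vale.Agent.P160.Half.M67.N520
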