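import Vale.Agent.P160.Half.M67Stmt

/-! # P160/Half: leaf (9a) of `M67Stmt`: not sparse gives spread -/

namespace Vale.Agent.P160.Half.Spread296

open Finset Vale.Agent.P160 Vale.Agent.P160.Half Vale.Agent.P160.Half.M67
  Vale.Agent.P160.Half.Flat

/-- **(9a)** -/
theorem spread : StmtSpread := by
  intro k P hP hN0' s M hS z hz ψ hψ
  classical
  by_contra hlt
  apply hS
  have hN : ψ ^ (∏ p ∈ P, p) = 1 := by
    apply DFunLike.ext
    intro h
    rw [AddChar.pow_apply, AddChar.one_apply, ← AddChar.map_nsmul_eq_pow]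
    have h0 : (∏ p ∈ P, p) • h = 0 := by
      apply Subtype.ext
      rw [AddSubgroup.coe_nsmul, AddSubgroup.coe_zero]
      apply Prod.ext
      · rw [Prod.smul_fst, nsmul_eq_mul, ZMod.natCast_self, zero_mul, Prod.fst_zero]
      · rw [Prod.smul_snd, nsmul_eq_mul, ZMod.natCast_self, zero_mul, Prod.snd_zero]
    rw [h0, AddChar.map_zero_eq_one]
  have hfin : orderOf ψ ∣ ∏ p ∈ P, p := orderOf_dvd_of_pow_eq_one hN
  have hm : orderOf ψ ≠ 1 := fun h => hψ (orderOf_eq_one_iff.1 h)
  have hpos : 0 < orderOf ψ := Nat.pos_of_dvd_of_pos hfin (Nat.pos_of_ne_zero hN0'.ne)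
  obtain ⟨p, hp, hpm⟩ := Nat.exists_prime_and_dvd hm
  have hpP : p ∈ P := by
    obtain ⟨q, hq, hpq⟩ := (Prime.dvd_finsetProd_iff (Nat.prime_iff.1 hp) _).1 (hpm.trans hfin)
    rwa [(Nat.prime_dvd_prime_iff_eq hp (hP q hq)).1 hpq]
  have : Fact p.Prime := ⟨hp⟩
  obtain ⟨φ, hφ⟩ : ∃ φ, φ = ψ ^ (orderOf ψ / p) := ⟨_, rfl⟩
  have hφp : φ ^ p = 1 := by
    rw [hφ, ← pow_mul, Nat.div_mul_cancel hpm, pow_orderOf_eq_one]
  have hφ1 : φ ≠ 1 := by
    intro h
    rw [hφ] at h
    have h1 := orderOf_dvd_of_pow_eq_one h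
    have h2 := Nat.le_of_dvd (Nat.div_pos (Nat.le_of_dvd hpos hpm) hp.pos) h1
    have h3 := Nat.div_lt_self hpos hp.one_lt
    omega
  have hζ : IsPrimitiveRoot (Complex.exp (2 * Real.pi * Complex.I / p)) p :=
    Complex.isPrimitiveRoot_exp p hp.ne_zero
  generalize Complex.exp (2 * Real.pi * Complex.I / p) = ζ at hζ
  have hex : ∀ j, ∃ n : ℕ, ζ ^ n = φ (toCl z j) := fun j => by
    have h : (φ (toCl z j)) ^ p = 1 := by
      rw [← AddChar.pow_apply, hφp, AddChar.one_apply]
    obtain ⟨i, _, hi⟩ := hζ.eq_pow_of_pow_eq_one h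
    exact ⟨i, hi⟩
  choose n hn using hex
  have hcast : ∀ j, ((n j : ℕ) : ZMod p) = 0 ↔ φ (toCl z j) = 1 := by
    intro j
    rw [← hn j, hζ.pow_eq_one_iff_dvd, ZMod.natCast_eq_zero_iff]
  refine ⟨p, hpP, fun j => ((n j : ℕ) : ZMod p), ?_, ?_, ?_⟩
  · intro h0
    apply hφ1
    have h1 : ∀ j, φ (toCl z j) = 1 := fun j => (hcast j).1 (congrFun h0 j)
    apply DFunLike.ext
    rintro ⟨x, hx⟩
    rw [AddChar.one_apply]
    induction hx using AddSubgroup.closure_induction with
    | mem x hx =>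
      obtain ⟨j, rfl⟩ := hx
      exact h1 j
    | zero => exact AddChar.map_zero_eq_one φ
    | add x y hx hy ihx ihy =>
      have := AddChar.map_add_eq_mul φ ⟨x, hx⟩ ⟨y, hy⟩
      rw [ihx, ihy, mul_one] at this
      exact this
    | neg x hx ih =>
      have := AddChar.map_neg_eq_inv φ ⟨x, hx⟩
      rw [ih, inv_one] at this
      exact this
  · push Not at hlt
    refine lt_of_le_of_lt ?_ hlt
    exact_mod_cast card_le_card (fun j hj => by
      rw [mem_filter] at hj ⊢
      refine ⟨mem_univ _, fun h => hj.2 ?_⟩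
      rw [hcast, hφ, AddChar.pow_apply, h, one_pow])
  · intro i
    have h1 : ∑ j, M i j • toCl z j = 0 := by
      apply Subtype.ext
      have h2 := hz i
      rw [AddSubgroup.coe_zero, ← h2, AddSubgroup.val_finsetSum]
      rfl
    have h2 : φ (∑ j, M i j • toCl z j) = ∏ j, φ (M i j • toCl z j) := by
      generalize (univ : Finset (Fin k)) = S
      induction S using Finset.induction_on with
      | empty => simp
      | insert a S ha ih => rw [sum_insert ha, prod_insert ha, AddChar.map_add_eq_mul, ih]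
    rw [h1, AddChar.map_zero_eq_one] at h2
    have h3 : ∀ j, φ (M i j • toCl z j) = ζ ^ (M i j * (n j : ℤ)) := by
      intro j
      rw [AddChar.map_zsmul_eq_zpow, ← hn j, ← zpow_natCast, ← zpow_mul, mul_comm]
    simp only [h3] at h2
    have hζ0 : ζ ≠ 0 := hζ.ne_zero hp.ne_zero
    have h4 : ζ ^ (∑ j, M i j * (n j : ℤ)) = 1 := by
      rw [h2]
      generalize (univ : Finset (Fin k)) = S
      induction S using Finset.induction_on with
      | empty => simp
      | insert a S ha ih => rw [sum_insert ha, prod_insert ha, zpow_add₀ hζ0, ih]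
    rw [hζ.zpow_eq_one_iff_dvd] at h4
    have h5 := (ZMod.intCast_zmod_eq_zero_iff_dvd _ _).2 h4
    push_cast at h5
    exact h5

end Vale.Agent.P160.Half.Spread296
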