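import Vale.Agent.P160.Half.M67Stmt
import Vale.Agent.P160.Half.CRT964
import Vale.Agent.P160.Half.Spread296
import Vale.Agent.P160.Half.SubG416

/-! # P160, half rate, block (M): leaf (7) of `M67Stmt.lean`: the nice part of the weight. -/

set_option linter.unusedSectionVars false

namespace Vale.Agent.P160.Half.Nice678

open Finset Vale.Agent.P160 Vale.Agent.P160.Half Vale.Agent.P160.Half.Flat
  Vale.Agent.P160.Half.M67

section row

variable {G : Type} [AddCommGroup G] [Fintype G] [DecidableEq G]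

lemma cfL_le {k : ℕ} (hk : 0 < k) {z : ℂ} (hz : ‖z‖ = 1) :
    cfL (2 * k - 1) (8 * k) z ≤ cf 8 z := by
  have hre : z.re ≤ 1 := by
    have := Complex.abs_re_le_norm z
    rw [hz] at this
    exact (abs_le.mp this).2
  have hk0 : (0 : ℝ) < k := by exact_mod_cast hk
  have hk1 : (1 : ℝ) ≤ k := by exact_mod_cast hk
  have hc : ((2 * k - 1 : ℕ) : ℝ) = 2 * k - 1 := by
    rw [Nat.cast_sub (by omega)]
    push_cast
    ring
  unfold cfL cf
  rw [hc]
  push_cast
  have e : (2 : ℝ) * (2 * k - 1) / (8 * k) = 1 / 4 + (k - 1) / (4 * k) := by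
    field_simp
    ring
  rw [e]
  have h1 : 0 ≤ (k - 1 : ℝ) / (4 * k) := div_nonneg (by linarith) (by positivity)
  nlinarith

/-- number of rows orthogonal to a flat tuple -/
lemma row_count {k : ℕ} (hk : 0 < k) (y : Fin k → G) (hy : gZ 8 y ≤ 1 + 1 / k) :
    ((univ.filter fun r : Fin k → Fin (8 * k) => gwL (2 * k - 1) r y = 0).card : ℝ) *
      Fintype.card G ≤ ((8 * k : ℕ) : ℝ) ^ k * (1 + 1 / k) := by
  have h8 : 0 < 8 * k := by omega
  have h := prL_zero_eq (L := 2 * k - 1) (M := 8 * k) h8 (by omega) y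
  have h2 : ∑ ψ : AddChar G ℂ, ∏ e, cfL (2 * k - 1) (8 * k) (ψ (y e)) ≤ gZ 8 y := by
    unfold gZ gP
    refine sum_le_sum fun ψ _ => prod_le_prod (fun e _ => ?_) fun e _ => ?_
    · exact cfL_nonneg h8 (by omega) (norm_addChar ψ _)
    · exact cfL_le hk (norm_addChar ψ _)
  rw [← h] at h2
  have h3 : ((8 * k : ℕ) : ℝ) ^ k ≠ 0 := by positivity
  unfold prL at h2
  rw [Fintype.card_fin] at h2
  have h4 : (Fintype.card G : ℝ) *
      (((univ.filter fun r : Fin k → Fin (8 * k) => gwL (2 * k - 1) r y = 0).card : ℝ) /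
        ((8 * k : ℕ) : ℝ) ^ k) ≤ 1 + 1 / k := h2.trans hy
  have hp : (0 : ℝ) < ((8 * k : ℕ) : ℝ) ^ k := by positivity
  calc ((univ.filter fun r : Fin k → Fin (8 * k) => gwL (2 * k - 1) r y = 0).card : ℝ) *
      Fintype.card G = ((8 * k : ℕ) : ℝ) ^ k * ((Fintype.card G : ℝ) *
      (((univ.filter fun r : Fin k → Fin (8 * k) => gwL (2 * k - 1) r y = 0).card : ℝ) /
        ((8 * k : ℕ) : ℝ) ^ k)) := by field_simp
    _ ≤ _ := mul_le_mul_of_nonneg_left h4 hp.le

/-- number of matrices orthogonal to a flat tuple -/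
lemma mat_count {k : ℕ} (hk : 0 < k) (y : Fin k → G) (hy : gZ 8 y ≤ 1 + 1 / k) :
    ((univ.filter fun ω : Fin k → Fin k → Fin (8 * k) =>
      ∀ i, gwL (2 * k - 1) (ω i) y = 0).card : ℝ) ≤
      3 * ((8 * k : ℕ) : ℝ) ^ (k * k) * ((Fintype.card G : ℝ) ^ k)⁻¹ := by
  have e1 : (univ.filter fun ω : Fin k → Fin k → Fin (8 * k) =>
      ∀ i, gwL (2 * k - 1) (ω i) y = 0).card =
      (univ.filter fun r : Fin k → Fin (8 * k) => gwL (2 * k - 1) r y = 0).card ^ k := by
    have : (univ.filter fun ω : Fin k → Fin k → Fin (8 * k) =>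
        ∀ i, gwL (2 * k - 1) (ω i) y = 0) = Fintype.piFinset fun _ : Fin k =>
        (univ.filter fun r : Fin k → Fin (8 * k) => gwL (2 * k - 1) r y = 0) := by
      ext ω
      simp
    rw [this, Fintype.card_piFinset_const]
  have hG : (0 : ℝ) < Fintype.card G := by
    have : 0 < Fintype.card G := Fintype.card_pos
    exact_mod_cast this
  have hk0 : (0 : ℝ) < k := by exact_mod_cast hk
  have h1 := row_count hk y hy
  have h2 := pow_le_pow_left₀ (by positivity) h1 k
  rw [mul_pow, mul_pow, ← pow_mul] at h2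
  have h3 : (1 + 1 / (k : ℝ)) ^ k ≤ 3 := by
    have h4 : (1 + 1 / (k : ℝ)) ≤ Real.exp (1 / k) := by
      have := Real.add_one_le_exp (1 / (k : ℝ))
      linarith
    refine (pow_le_pow_left₀ (by positivity) h4 k).trans ?_
    rw [← Real.exp_nat_mul, mul_one_div_cancel hk0.ne']
    exact (Real.exp_one_lt_d9.trans (by norm_num)).le
  rw [e1, Nat.cast_pow, ← div_eq_mul_inv, le_div_iff₀ (pow_pos hG k)]
  refine h2.trans ?_
  have h5 : (0 : ℝ) ≤ ((8 * k : ℕ) : ℝ) ^ (k * k) := by positivity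
  nlinarith [mul_le_mul_of_nonneg_left h3 h5]

end row

section sub

variable {G : Type} [AddCommGroup G] [Fintype G]

open scoped Classical in
/-- sum over the tuples of `|H_z|^(-k)` -/
lemma sum_cl {k : ℕ} :
    ∑ z : Fin k → G, ((Nat.card (AddSubgroup.closure (Set.range z)) : ℝ) ^ k)⁻¹ ≤
      Nat.card (AddSubgroup G) := by
  have : Finite (AddSubgroup G) := inferInstance
  have : Fintype (AddSubgroup G) := Fintype.ofFinite _
  rw [← Finset.sum_fiberwise (s := univ) (g := fun z : Fin k → G => AddSubgroup.closure (Set.range z)),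
    Nat.card_eq_fintype_card]
  have h1 : ∀ H : AddSubgroup G, ∑ z ∈ univ.filter (fun z : Fin k → G =>
      AddSubgroup.closure (Set.range z) = H),
      ((Nat.card (AddSubgroup.closure (Set.range z)) : ℝ) ^ k)⁻¹ ≤ 1 := by
    intro H
    have e1 : ∑ z ∈ univ.filter (fun z : Fin k → G =>
      AddSubgroup.closure (Set.range z) = H),
      ((Nat.card (AddSubgroup.closure (Set.range z)) : ℝ) ^ k)⁻¹ =
      ∑ z ∈ univ.filter (fun z : Fin k → G =>
      AddSubgroup.closure (Set.range z) = H), ((Nat.card H : ℝ) ^ k)⁻¹ := by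
      refine sum_congr rfl fun z hz => ?_
      rw [(mem_filter.1 hz).2]
    rw [e1, sum_const, nsmul_eq_mul]
    have h2 : (univ.filter (fun z : Fin k → G =>
        AddSubgroup.closure (Set.range z) = H)).card ≤ Nat.card H ^ k := by
      have h3 : Nat.card (Fin k → H) = Nat.card H ^ k := by
        rw [Nat.card_fun, Nat.card_eq_fintype_card (α := Fin k), Fintype.card_fin]
      rw [← h3, Nat.card_eq_fintype_card, ← Finset.card_univ]
      refine card_le_card_of_surjOn (fun w : Fin k → H => fun j => (w j : G)) ?_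
      intro z hz
      have hz' := (mem_filter.1 (mem_coe.1 hz)).2
      refine ⟨fun j => ⟨z j, by rw [← hz']; exact AddSubgroup.subset_closure ⟨j, rfl⟩⟩, by simp,
        rfl⟩
    have h4 : (0 : ℝ) < (Nat.card H : ℝ) ^ k := by
      have : 0 < Nat.card H := Nat.card_pos
      positivity
    rw [← div_eq_mul_inv, div_le_one h4]
    exact_mod_cast h2
  refine (sum_le_sum fun H _ => h1 H).trans ?_
  simp

end sub

theorem sub_le (P : Finset ℕ) (hP : ∀ p ∈ P, p.Prime) [NeZero (∏ p ∈ P, p)] :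
    (Nat.card (AddSubgroup (ZMod (∏ p ∈ P, p) × ZMod (∏ p ∈ P, p))) : ℝ) ≤
      (∏ p ∈ P, (p : ℝ)) ^ 3 := by
  have hsq : Squarefree (∏ p ∈ P, p) := by
    refine Finset.squarefree_prod_of_pairwise_isCoprime ?_ fun p hp => (hP p hp).squarefree
    intro p hp q hq hpq
    exact Nat.coprime_iff_isRelPrime.1 ((Nat.coprime_primes (hP p hp) (hP q hq)).2 hpq)
  have h1 := SubG416.card_le (∏ p ∈ P, p) hsq
  have h2 : ∏ p ∈ (∏ p ∈ P, p).primeFactors, (p + 3) ≤ (∏ p ∈ P, p) ^ 3 := by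
    conv_rhs => rw [← Nat.prod_primeFactors_of_squarefree hsq]
    rw [← prod_pow]
    refine prod_le_prod' fun p hp => ?_
    have : 2 ≤ p := (Nat.prime_of_mem_primeFactors hp).two_le
    nlinarith [sq_nonneg (p - 2 : ℤ), Nat.mul_le_mul this this, Nat.mul_le_mul (Nat.mul_le_mul this this) this]
  have h3 : (Nat.card (AddSubgroup (ZMod (∏ p ∈ P, p) × ZMod (∏ p ∈ P, p))) : ℝ) ≤
      (((∏ p ∈ P, p) ^ 3 : ℕ) : ℝ) := Nat.cast_le.2 (h1.trans h2)
  rw [Nat.cast_pow, Nat.cast_prod] at h3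
  exact h3

open scoped Classical in
theorem nice_of (hC : StmtCRT) (hS : StmtSpread) : StmtNice := by
  intro k hk P hP s
  have hN0 : ∏ p ∈ P, p ≠ 0 := prod_ne_zero_iff.2 fun p hp => (hP p hp).ne_zero
  have : NeZero (∏ p ∈ P, p) := ⟨hN0⟩
  set N := ∏ p ∈ P, p with hN
  set G := ZMod N × ZMod N with hG
  -- the nice tuples
  have key : ∀ ω : Fin k → Fin k → Fin (8 * k), ¬ Sparse P s (mt (stL (2 * k - 1)) ω) →
      ¬ Bad P s (mt (stL (2 * k - 1)) ω) → W P (mt (stL (2 * k - 1)) ω) ≤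
      ((univ.filter fun z : Fin k → G => gZ 8 (toCl z) ≤ 1 + 1 / k ∧
        ∀ i, gwL (2 * k - 1) (ω i) (toCl z) = 0).card : ℝ) := by
    intro ω h1 h2
    rw [(hC k P hP _).2, Nat.card_eq_fintype_card, Fintype.card_subtype]
    refine Nat.cast_le.2 (card_le_card ?_)
    intro z hz
    have hz' := (mem_filter.1 hz).2
    refine mem_filter.2 ⟨mem_univ _, ?_, ?_⟩
    · by_contra hcon
      refine h2 ⟨inferInstance, z, hz', ?_, not_le.1 hcon⟩
      exact hS k P hP inferInstance s _ h1 z hz'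
    · intro i
      apply Subtype.ext
      have : ((gwL (2 * k - 1) (ω i) (toCl z) : AddSubgroup.closure (Set.range z)) : G) =
          ∑ j, mt (stL (2 * k - 1)) ω i j • z j := by
        unfold gwL
        rw [AddSubgroup.val_finsetSum]
        rfl
      rw [this, hz' i]
      rfl
  calc ∑ ω ∈ (univ : Finset (Fin k → Fin k → Fin (8 * k))).filter
        (fun ω => ¬ Sparse P s (mt (stL (2 * k - 1)) ω) ∧ ¬ Bad P s (mt (stL (2 * k - 1)) ω)),
        W P (mt (stL (2 * k - 1)) ω)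
      ≤ ∑ ω ∈ (univ : Finset (Fin k → Fin k → Fin (8 * k))).filter
        (fun ω => ¬ Sparse P s (mt (stL (2 * k - 1)) ω) ∧ ¬ Bad P s (mt (stL (2 * k - 1)) ω)),
        ((univ.filter fun z : Fin k → G => gZ 8 (toCl z) ≤ 1 + 1 / k ∧
        ∀ i, gwL (2 * k - 1) (ω i) (toCl z) = 0).card : ℝ) :=
        sum_le_sum fun ω hω => key ω (mem_filter.1 hω).2.1 (mem_filter.1 hω).2.2
    _ ≤ ∑ ω : Fin k → Fin k → Fin (8 * k),
        ((univ.filter fun z : Fin k → G => gZ 8 (toCl z) ≤ 1 + 1 / k ∧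
        ∀ i, gwL (2 * k - 1) (ω i) (toCl z) = 0).card : ℝ) :=
        sum_le_sum_of_subset_of_nonneg (filter_subset _ _) fun _ _ _ => Nat.cast_nonneg _
    _ = ∑ z : Fin k → G, ∑ ω : Fin k → Fin k → Fin (8 * k),
        (if gZ 8 (toCl z) ≤ 1 + 1 / k ∧
          ∀ i, gwL (2 * k - 1) (ω i) (toCl z) = 0 then (1 : ℝ) else 0) := by
        rw [sum_comm]
        refine sum_congr rfl fun ω _ => ?_
        rw [← sum_boole]
    _ ≤ ∑ z : Fin k → G, 3 * ((8 * k : ℕ) : ℝ) ^ (k * k) *
        ((Nat.card (AddSubgroup.closure (Set.range z)) : ℝ) ^ k)⁻¹ := by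
        refine sum_le_sum fun z _ => ?_
        by_cases hz : gZ 8 (toCl z) ≤ 1 + 1 / k
        · have := mat_count hk (toCl z) hz
          rw [Nat.card_eq_fintype_card]
          refine le_trans (le_of_eq ?_) this
          rw [sum_boole]
          exact congrArg (fun t : Finset (Fin k → Fin k → Fin (8 * k)) => ((t.card : ℕ) : ℝ))
            (filter_congr fun ω _ => and_iff_right hz)
        · have : ∀ ω : Fin k → Fin k → Fin (8 * k), ¬ (gZ 8 (toCl z) ≤ 1 + 1 / k ∧
              ∀ i, gwL (2 * k - 1) (ω i) (toCl z) = 0) := fun ω h => hz h.1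
          rw [sum_eq_zero fun ω _ => if_neg (this ω)]
          positivity
    _ ≤ 3 * ((8 * k : ℕ) : ℝ) ^ (k * k) * Nat.card (AddSubgroup G) := by
        rw [← mul_sum]
        exact mul_le_mul_of_nonneg_left sum_cl (by positivity)
    _ ≤ 3 * ((8 * k : ℕ) : ℝ) ^ (k * k) * (∏ p ∈ P, (p : ℝ)) ^ 3 :=
        mul_le_mul_of_nonneg_left (sub_le P hP) (by positivity)
    _ = _ := by ring

/-- leaf (7) of `M67Stmt.lean` -/
theorem nice : StmtNice := nice_of CRT964.crt Spread296.spread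

end Vale.Agent.P160.Half.Nice678
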