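import Vale.Agent.P160.Half.M67Stmt
import Vale.Agent.P160.Half.SubG416

/-! # P160, half rate, (M): (7) NICE (hedge of helper828) -/

namespace Vale.Agent.P160.Half.Nice828

open Finset Vale.Agent.P160 Vale.Agent.P160.Half Vale.Agent.P160.Half.Flat
open Vale.Agent.P160.Half.M67

/-- number of rows of law 505 which kill the tuple `z` -/
noncomputable def rows {G : Type} [AddCommGroup G] {k : ℕ} (z : Fin k → G) : ℕ :=
  Nat.card {x : Fin k → Fin (8 * k) // gwL (2 * k - 1) x z = 0}

lemma cfL_le {k : ℕ} (hk : 0 < k) {w : ℂ} (hw : ‖w‖ = 1) :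
    cfL (2 * k - 1) (8 * k) w ≤ cf 8 w := by
  have hre : w.re ≤ 1 := by
    have := Complex.abs_re_le_norm w
    rw [hw] at this
    exact (abs_le.mp this).2
  have hk0 : (0 : ℝ) < k := by exact_mod_cast hk
  have hk1 : (1 : ℝ) ≤ k := by exact_mod_cast hk
  have h1 : (1 : ℝ) / 4 ≤ 2 * ((2 * k - 1 : ℕ) : ℝ) / ((8 * k : ℕ) : ℝ) := by
    rw [Nat.cast_sub (by omega)]
    push_cast
    rw [div_le_div_iff₀ (by norm_num) (by positivity)]
    linarith
  unfold cfL cf
  push_cast at h1 ⊢
  nlinarith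

lemma rows_le {H : Type} [AddCommGroup H] [Fintype H] {k : ℕ} (hk : 0 < k) (z : Fin k → H) :
    (rows z : ℝ) * Nat.card H ≤ ((8 * k : ℕ) : ℝ) ^ k * gZ 8 z := by
  classical
  have h := prL_zero_eq (G := H) (L := 2 * k - 1) (M := 8 * k) (by omega) (by omega) z
  have h2 : prL (2 * k - 1) (8 * k) z 0 = (rows z : ℝ) / ((8 * k : ℕ) : ℝ) ^ k := by
    unfold prL rows
    rw [Nat.card_eq_fintype_card, Fintype.card_subtype, Fintype.card_fin]
  have h3 : ∑ ψ : AddChar H ℂ, ∏ e, cfL (2 * k - 1) (8 * k) (ψ (z e)) ≤ gZ 8 z := by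
    unfold gZ gP
    apply Finset.sum_le_sum
    intro ψ _
    apply Finset.prod_le_prod
    · intro e _
      exact cfL_nonneg (by omega) (by omega) (norm_addChar ψ _)
    · intro e _
      exact cfL_le hk (norm_addChar ψ _)
  have h8 : (0 : ℝ) < ((8 * k : ℕ) : ℝ) ^ k := by
    have : (0 : ℝ) < ((8 * k : ℕ) : ℝ) := by exact_mod_cast (by omega : 0 < 8 * k)
    positivity
  rw [← h, h2] at h3
  rw [Nat.card_eq_fintype_card]
  have h4 := mul_le_mul_of_nonneg_left h3 h8.le
  calc (rows z : ℝ) * Fintype.card H = ((8 * k : ℕ) : ℝ) ^ k *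
        (Fintype.card H * ((rows z : ℝ) / ((8 * k : ℕ) : ℝ) ^ k)) := by
        field_simp
    _ ≤ _ := h4

lemma coe_gwL {G : Type} [AddCommGroup G] {k : ℕ} (z : Fin k → G) (L : ℕ) {M : ℕ}
    (x : Fin k → Fin M) : ((gwL L x (toCl z) : AddSubgroup.closure (Set.range z)) : G) =
      gwL L x z := by
  unfold gwL
  rw [AddSubgroup.val_finsetSum]
  rfl

lemma rows_toCl {G : Type} [AddCommGroup G] {k : ℕ} (z : Fin k → G) :
    rows (toCl z) = rows z := by
  unfold rows
  refine Nat.card_congr (Equiv.subtypeEquivRight fun x => ?_)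
  rw [← coe_gwL z (2 * k - 1) x, ZeroMemClass.coe_eq_zero]

open scoped Classical in
/-- the tuple is flat in the group it generates -/
def Sm {G : Type} [AddCommGroup G] [Fintype G] {k : ℕ} (z : Fin k → G) : Prop :=
  ¬ 1 + 1 / (k : ℝ) < gZ 8 (toCl z)

lemma rows_sm {G : Type} [AddCommGroup G] [Fintype G] {k : ℕ} (hk : 0 < k) (z : Fin k → G)
    (hz : Sm z) : (rows z : ℝ) ≤ ((8 * k : ℕ) : ℝ) ^ k * (1 + 1 / k) /
      Nat.card (AddSubgroup.closure (Set.range z)) := by
  classical
  unfold Sm at hz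
  push Not at hz
  have h := rows_le hk (toCl z)
  rw [rows_toCl] at h
  have h8 : (0 : ℝ) < ((8 * k : ℕ) : ℝ) ^ k := by
    have : (0 : ℝ) < ((8 * k : ℕ) : ℝ) := by exact_mod_cast (by omega : 0 < 8 * k)
    positivity
  have hc : (0 : ℝ) < Nat.card (AddSubgroup.closure (Set.range z)) := by
    exact_mod_cast Nat.card_pos
  rw [le_div_iff₀ hc]
  refine h.trans ?_
  apply mul_le_mul_of_nonneg_left _ h8.le
  convert hz

open scoped Classical in
theorem sum_tuples {G : Type} [AddCommGroup G] [Fintype G] {k : ℕ} (hk : 0 < k) :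
    ∑ z ∈ (univ : Finset (Fin k → G)).filter (fun z => Sm z), (rows z : ℝ) ^ k ≤
      3 * Nat.card (AddSubgroup G) * ((8 * k : ℕ) : ℝ) ^ (k * k) := by
  have h8 : (0 : ℝ) < ((8 * k : ℕ) : ℝ) := by exact_mod_cast (by omega : 0 < 8 * k)
  have hk0 : (0 : ℝ) < k := by exact_mod_cast hk
  have : Fintype (AddSubgroup G) := Fintype.ofFinite _
  calc ∑ z ∈ (univ : Finset (Fin k → G)).filter (fun z => Sm z), (rows z : ℝ) ^ k
      ≤ ∑ z ∈ (univ : Finset (Fin k → G)).filter (fun z => Sm z),
          (((8 * k : ℕ) : ℝ) ^ k * (1 + 1 / k) /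
            Nat.card (AddSubgroup.closure (Set.range z))) ^ k := by
        apply Finset.sum_le_sum
        intro z hz
        exact pow_le_pow_left₀ (by positivity) (rows_sm hk z (mem_filter.1 hz).2) _
    _ ≤ ∑ z : Fin k → G, (((8 * k : ℕ) : ℝ) ^ k * (1 + 1 / k) /
            Nat.card (AddSubgroup.closure (Set.range z))) ^ k := by
        apply Finset.sum_le_sum_of_subset_of_nonneg (filter_subset _ _)
        intro z _ _
        positivity
    _ = ∑ H : AddSubgroup G, ∑ z ∈ univ.filter (fun z : Fin k → G =>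
          AddSubgroup.closure (Set.range z) = H),
          (((8 * k : ℕ) : ℝ) ^ k * (1 + 1 / k) /
            Nat.card (AddSubgroup.closure (Set.range z))) ^ k :=
        (Finset.sum_fiberwise univ _ _).symm
    _ ≤ ∑ H : AddSubgroup G, 3 * ((8 * k : ℕ) : ℝ) ^ (k * k) := by
        apply Finset.sum_le_sum
        intro H _
        have h1 : ∑ z ∈ univ.filter (fun z : Fin k → G =>
            AddSubgroup.closure (Set.range z) = H),
            (((8 * k : ℕ) : ℝ) ^ k * (1 + 1 / k) /
              Nat.card (AddSubgroup.closure (Set.range z))) ^ k =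
            ((univ.filter (fun z : Fin k → G =>
              AddSubgroup.closure (Set.range z) = H)).card : ℝ) *
              (((8 * k : ℕ) : ℝ) ^ k * (1 + 1 / k) / Nat.card H) ^ k := by
          rw [← nsmul_eq_mul, ← Finset.sum_const]
          apply Finset.sum_congr rfl
          intro z hz
          rw [(mem_filter.1 hz).2]
        have h2 : (univ.filter (fun z : Fin k → G =>
            AddSubgroup.closure (Set.range z) = H)).card ≤ Nat.card H ^ k := by
          have h3 : (univ.filter (fun z : Fin k → G =>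
            AddSubgroup.closure (Set.range z) = H)).card ≤
              (univ : Finset (Fin k → H)).card := by
            apply Finset.card_le_card_of_surjOn (fun z : Fin k → H => fun i => (z i : G))
            intro z hz
            have hz' : AddSubgroup.closure (Set.range z) = H := by simpa using hz
            refine ⟨fun i => ⟨z i, ?_⟩, by simp, rfl⟩
            rw [← hz']
            exact AddSubgroup.subset_closure ⟨i, rfl⟩
          rw [card_univ, Fintype.card_fun, Fintype.card_fin, ← Nat.card_eq_fintype_card] at h3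
          exact h3
        have hc : (0 : ℝ) < Nat.card H := by exact_mod_cast Nat.card_pos
        rw [h1]
        calc ((univ.filter (fun z : Fin k → G =>
              AddSubgroup.closure (Set.range z) = H)).card : ℝ) *
              (((8 * k : ℕ) : ℝ) ^ k * (1 + 1 / k) / Nat.card H) ^ k
            ≤ (Nat.card H : ℝ) ^ k *
              (((8 * k : ℕ) : ℝ) ^ k * (1 + 1 / k) / Nat.card H) ^ k := by
              apply mul_le_mul_of_nonneg_right _ (by positivity)
              exact_mod_cast h2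
          _ = ((8 * k : ℕ) : ℝ) ^ (k * k) * (1 + 1 / (k : ℝ)) ^ k := by
              rw [← mul_pow, mul_div_cancel₀ _ hc.ne', mul_pow, ← pow_mul]
          _ ≤ ((8 * k : ℕ) : ℝ) ^ (k * k) * 3 := by
              apply mul_le_mul_of_nonneg_left _ (by positivity)
              have h5 : 1 + 1 / (k : ℝ) ≤ Real.exp (1 / k) := by
                have := Real.add_one_le_exp (1 / (k : ℝ))
                linarith
              calc (1 + 1 / (k : ℝ)) ^ k ≤ Real.exp (1 / k) ^ k :=
                    pow_le_pow_left₀ (by positivity) h5 _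
                _ = Real.exp 1 := by
                    rw [← Real.exp_nat_mul]
                    congr 1
                    field_simp
                _ ≤ 3 := by
                    have := Real.exp_one_lt_d9
                    linarith
          _ = 3 * ((8 * k : ℕ) : ℝ) ^ (k * k) := by ring
    _ = 3 * Nat.card (AddSubgroup G) * ((8 * k : ℕ) : ℝ) ^ (k * k) := by
        rw [Finset.sum_const, card_univ, nsmul_eq_mul, ← Nat.card_eq_fintype_card]
        ring

open scoped Classical in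
theorem nice_gen (hsp : StmtSpread) (hcrt : StmtCRT) (k : ℕ) (hk : 0 < k) (P : Finset ℕ)
    (hP : ∀ p ∈ P, p.Prime) (s : ℝ) :
    ∑ ω ∈ (univ : Finset (Fin k → Fin k → Fin (8 * k))).filter
      (fun ω => ¬ Sparse P s (mt (stL (2 * k - 1)) ω) ∧ ¬ Bad P s (mt (stL (2 * k - 1)) ω)),
      W P (mt (stL (2 * k - 1)) ω) ≤
    3 * Nat.card (AddSubgroup (ZMod (∏ p ∈ P, p) × ZMod (∏ p ∈ P, p))) *
      ((8 * k : ℕ) : ℝ) ^ (k * k) := by
  have hN0 : (∏ p ∈ P, p) ≠ 0 := Finset.prod_ne_zero_iff.2 fun p hp => (hP p hp).ne_zero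
  have : NeZero (∏ p ∈ P, p) := ⟨hN0⟩
  refine le_trans ?_ (sum_tuples (G := ZMod (∏ p ∈ P, p) × ZMod (∏ p ∈ P, p)) hk)
  -- weights as sums over tuples
  have h1 : ∀ ω : Fin k → Fin k → Fin (8 * k), ¬ Sparse P s (mt (stL (2 * k - 1)) ω) ∧
      ¬ Bad P s (mt (stL (2 * k - 1)) ω) → W P (mt (stL (2 * k - 1)) ω) ≤
        ∑ z ∈ (univ : Finset (Fin k → ZMod (∏ p ∈ P, p) × ZMod (∏ p ∈ P, p))).filter
          (fun z => Sm z), (if ∀ i, gwL (2 * k - 1) (ω i) z = 0 then (1 : ℝ) else 0) := by
    rintro ω ⟨hns, hnb⟩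
    rw [(hcrt k P hP (mt (stL (2 * k - 1)) ω)).2, Nat.card_eq_fintype_card,
      Fintype.card_subtype, ← Finset.sum_boole, ← Finset.sum_filter, ← Finset.sum_filter]
    apply Finset.sum_le_sum_of_subset_of_nonneg
    · intro z hz
      rw [mem_filter] at hz
      have hz2 : ∀ i, ∑ j, mt (stL (2 * k - 1)) ω i j • z j = 0 := hz.2
      rw [mem_filter, mem_filter]
      refine ⟨⟨mem_univ _, ?_⟩, fun i => hz2 i⟩
      intro hlt
      apply hnb
      exact ⟨this, z, hz2, hsp k P hP this s _ hns z hz2, hlt⟩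
    · intro z _ _
      exact zero_le_one
  refine (Finset.sum_le_sum fun ω hω => h1 ω (mem_filter.1 hω).2).trans ?_
  rw [Finset.sum_comm]
  apply Finset.sum_le_sum
  intro z _
  calc
    _ ≤ ∑ ω : Fin k → Fin k → Fin (8 * k),
        (if ∀ i, gwL (2 * k - 1) (ω i) z = 0 then (1 : ℝ) else 0) := by
        apply Finset.sum_le_sum_of_subset_of_nonneg (filter_subset _ _)
        intro ω _ _
        split_ifs
        · exact zero_le_one
        · exact le_rfl
    _ = (rows z : ℝ) ^ k := by
        rw [Finset.sum_boole]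
        have h2 : (univ.filter fun ω : Fin k → Fin k → Fin (8 * k) =>
            ∀ i, gwL (2 * k - 1) (ω i) z = 0) =
            Fintype.piFinset fun _ : Fin k => univ.filter fun x : Fin k → Fin (8 * k) =>
              gwL (2 * k - 1) x z = 0 := by
          ext ω
          simp [Fintype.mem_piFinset]
        rw [h2, Fintype.card_piFinset_const]
        unfold rows
        rw [Nat.card_eq_fintype_card, Fintype.card_subtype]
        push_cast
        rfl
    _ ≤ (rows z : ℝ) ^ k := le_rfl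

open scoped Classical in
/-- (7) with the sharp number of subgroups -/
theorem nice' (hsp : StmtSpread) (hcrt : StmtCRT) (k : ℕ) (hk : 0 < k) (P : Finset ℕ)
    (hP : ∀ p ∈ P, p.Prime) (hPk : ∀ p ∈ P, k ≤ p) (hN : (∏ p ∈ P, p) ≤ 2 ^ k) (s : ℝ) :
    ∑ ω ∈ (univ : Finset (Fin k → Fin k → Fin (8 * k))).filter
      (fun ω => ¬ Sparse P s (mt (stL (2 * k - 1)) ω) ∧ ¬ Bad P s (mt (stL (2 * k - 1)) ω)),
      W P (mt (stL (2 * k - 1)) ω) ≤
    3 * Real.exp 3 * (∏ p ∈ P, (p : ℝ)) * ((8 * k : ℕ) : ℝ) ^ (k * k) := by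
  have hN0 : (∏ p ∈ P, p) ≠ 0 := Finset.prod_ne_zero_iff.2 fun p hp => (hP p hp).ne_zero
  have : NeZero (∏ p ∈ P, p) := ⟨hN0⟩
  have hsq : Squarefree (∏ p ∈ P, p) := by
    have h := Finset.squarefree_prod_of_pairwise_isCoprime (s := P) (f := fun p => p) ?_ ?_
    · exact h
    · intro p hp q hq hpq
      exact Nat.coprime_iff_isRelPrime.1 ((Nat.coprime_primes (hP p hp) (hP q hq)).2 hpq)
    · intro p hp
      exact (hP p hp).squarefree
  have hpf : ∀ p ∈ (∏ p ∈ P, p).primeFactors, k ≤ p := by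
    intro p hp
    obtain ⟨hpp, hdvd, -⟩ := Nat.mem_primeFactors.1 hp
    obtain ⟨q, hq, hpq⟩ := (Prime.dvd_finsetProd_iff hpp.prime _).1 hdvd
    rw [(Nat.prime_dvd_prime_iff_eq hpp (hP q hq)).1 hpq]
    exact hPk q hq
  have h1 := SubG416.card_le_exp (∏ p ∈ P, p) k hk hsq hpf hN
  refine (nice_gen hsp hcrt k hk P hP s).trans ?_
  apply mul_le_mul_of_nonneg_right _ (by positivity)
  push_cast at h1
  nlinarith

/-- (7) -/
theorem nice (hsp : StmtSpread) (hcrt : StmtCRT) (hsub : StmtSubgroups) : StmtNice := by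
  intro k hk P hP s
  have hN0 : (∏ p ∈ P, p) ≠ 0 := Finset.prod_ne_zero_iff.2 fun p hp => (hP p hp).ne_zero
  have : NeZero (∏ p ∈ P, p) := ⟨hN0⟩
  refine (nice_gen hsp hcrt k hk P hP s).trans ?_
  apply mul_le_mul_of_nonneg_right _ (by positivity)
  have h := hsub (∏ p ∈ P, p)
  have h2 : (Nat.card (AddSubgroup (ZMod (∏ p ∈ P, p) × ZMod (∏ p ∈ P, p))) : ℝ) ≤
      (∏ p ∈ P, (p : ℝ)) ^ 3 := by
    rw [← Nat.cast_prod, ← Nat.cast_pow]
    exact Nat.cast_le.2 h
  linarith

end Vale.Agent.P160.Half.Nice828
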