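import Mathlib

/-! # P160, half rate, gap (G): a sparse kernel vector modulo a large prime makes the integer
matrix singular (the case `s ≤ s₀` of G3). -/

open Finset Matrix

namespace Vale.Agent.P160.Half.G

/-- If the square integer matrix `P`, entries of absolute value at most `1`, has a kernel vector
modulo a prime `p > |S|!` which is supported on `S`, then `det P = 0`. -/
theorem det_zero_of_sparse {α : Type*} [Fintype α] [DecidableEq α] (P : Matrix α α ℤ)
    (h01 : ∀ i j, |P i j| ≤ 1) {p : ℕ} (hp : p.Prime) (S : Finset α) (g : α → ZMod p)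
    (hg : g ≠ 0) (hS : ∀ i, i ∉ S → g i = 0)
    (hk : P.map (Int.cast : ℤ → ZMod p) *ᵥ g = 0) (hs : S.card.factorial < p) : P.det = 0 := by
  classical
  have : Fact p.Prime := ⟨hp⟩
  by_contra hdet
  set PQ : Matrix α α ℚ := P.map (Int.cast : ℤ → ℚ) with hPQ
  have hdetQ : PQ.det ≠ 0 := by
    have h1 : PQ.det = ((P.det : ℤ) : ℚ) := by
      have := (Int.castRingHom ℚ).map_det P
      simpa [RingHom.mapMatrix_apply] using this.symm
    rw [h1]
    exact_mod_cast hdet
  have hunit : IsUnit PQ := (Matrix.isUnit_iff_isUnit_det _).2 (isUnit_iff_ne_zero.2 hdetQ)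
  let B : Matrix α S ℚ := PQ.submatrix id (fun j : S => (j : α))
  have hcol : LinearIndependent ℚ B.col := by
    have h1 : LinearIndependent ℚ PQ.col := Matrix.linearIndependent_cols_of_isUnit hunit
    exact h1.comp (fun j : S => (j : α)) Subtype.val_injective
  have hrank : B.rank = S.card := by
    rw [Matrix.rank_eq_finrank_span_cols, finrank_span_eq_card hcol, Fintype.card_coe]
  obtain ⟨κ, a, ha, hspan, hli⟩ := exists_linearIndependent' ℚ B.row
  have : Finite κ := Finite.of_injective a ha
  have : Fintype κ := Fintype.ofFinite κ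
  have hcard : Fintype.card κ = Fintype.card S := by
    rw [Fintype.card_coe, ← hrank, Matrix.rank_eq_finrank_span_row, ← hspan,
      finrank_span_eq_card hli]
  let e : κ ≃ S := Fintype.equivOfCardEq hcard
  let N : Matrix S S ℤ := fun i j => P (a (e.symm i)) j
  have hN : N.det ≠ 0 := by
    intro h0
    have hQ : (N.map (Int.cast : ℤ → ℚ)).det = 0 := by
      have := (Int.castRingHom ℚ).map_det N
      rw [h0, map_zero] at this
      simpa [RingHom.mapMatrix_apply] using this.symm
    have hrow : LinearIndependent ℚ (N.map (Int.cast : ℤ → ℚ)).row :=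
      hli.comp e.symm e.symm.injective
    have := (Matrix.linearIndependent_rows_iff_isUnit).1 hrow
    rw [Matrix.isUnit_iff_isUnit_det, hQ] at this
    exact not_isUnit_zero this
  have hNp : (N.map (Int.cast : ℤ → ZMod p)).det = 0 := by
    apply Matrix.exists_mulVec_eq_zero_iff.1
    refine ⟨fun j => g j, ?_, ?_⟩
    · intro h0
      apply hg
      funext i
      by_cases hi : i ∈ S
      · exact congrFun h0 ⟨i, hi⟩
      · exact hS i hi
    · funext i
      have h1 : ∑ j, ((P (a (e.symm i)) j : ℤ) : ZMod p) * g j = 0 :=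
        congrFun hk (a (e.symm i))
      show ∑ j : S, ((P (a (e.symm i)) j : ℤ) : ZMod p) * g j = 0
      rw [Finset.sum_coe_sort S (fun j => ((P (a (e.symm i)) j : ℤ) : ZMod p) * g j), ← h1]
      exact Finset.sum_subset (Finset.subset_univ S) fun j _ hj => by rw [hS j hj, mul_zero]
  have hdvd : (p : ℤ) ∣ N.det := by
    rw [← ZMod.intCast_zmod_eq_zero_iff_dvd]
    have := (Int.castRingHom (ZMod p)).map_det N
    rw [RingHom.mapMatrix_apply] at this
    exact this.trans hNp
  have hle : |N.det| ≤ (S.card.factorial : ℤ) := by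
    have h := Matrix.det_le (A := N) (abv := AbsoluteValue.abs) (x := (1 : ℤ))
      (fun i j => h01 _ _)
    simpa using h
  have h3 := Int.le_of_dvd (abs_pos.2 hN) ((dvd_abs _ _).2 hdvd)
  have : (p : ℤ) ≤ S.card.factorial := h3.trans hle
  have : p ≤ S.card.factorial := by exact_mod_cast this
  omega

end Vale.Agent.P160.Half.G
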