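import Vale.Agent.P160.Half.GStmt4

/-! # P160, half rate: (G), `Num2` (helper289) -/

open Filter

namespace Vale.Agent.P160.Half.Num2_289

open Vale.Agent.P160.Half.G

theorem py_pos (n : ℕ) : 1 ≤ py n := Nat.one_le_two_pow

theorem py_pow_le {n : ℕ} (hn : n ≠ 0) : py n ^ 10 ≤ n := by
  unfold py pv
  rw [← pow_mul]
  calc 2 ^ (Nat.log 2 n / 10 * 10) ≤ 2 ^ Nat.log 2 n :=
        Nat.pow_le_pow_right (by norm_num) (Nat.div_mul_le_self _ _)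
    _ ≤ n := Nat.pow_log_le_self 2 hn

theorem n_le (n : ℕ) : n ≤ 2 ^ (10 * pv n + 10) := by
  have h1 : n < 2 ^ (Nat.log 2 n + 1) := Nat.lt_pow_succ_log_self (by norm_num) n
  have h2 : Nat.log 2 n + 1 ≤ 10 * pv n + 10 := by unfold pv; omega
  exact h1.le.trans (Nat.pow_le_pow_right (by norm_num) h2)

theorem pv_le (n : ℕ) : pv n ≤ py n := by
  unfold py
  exact (Nat.lt_two_pow_self).le

theorem ev_pv (m : ℕ) : ∀ᶠ n : ℕ in atTop, m ≤ pv n := by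
  filter_upwards [eventually_ge_atTop (2 ^ (10 * m))] with n hn
  have h : 10 * m ≤ Nat.log 2 n := by
    have := Nat.log_mono_right (b := 2) hn
    rwa [Nat.log_pow (by norm_num)] at this
  unfold pv
  omega

theorem nat_bound (J n : ℕ) :
    ((2 ^ pa n + 1) * (n * (2 ^ pa n + 1)) ^ pt n * (2 ^ pa n + 1) ^ J + 1) ^ J ≤
      2 ^ (J * (25 + 2 * J) * py n ^ 6) := by
  set y := py n with hy
  have hy1 : 1 ≤ y := py_pos n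
  have hv : pv n ≤ y := pv_le n
  have hpa : pa n = y ^ 3 := rfl
  have hpt : pt n = pv n * y ^ 2 := rfl
  rw [hpa, hpt]
  have h3 : 1 ≤ y ^ 3 := Nat.one_le_pow _ _ hy1
  have hyy : y ≤ y ^ 3 := by nlinarith [Nat.one_le_pow 2 y hy1]
  have e36 : y ^ 3 ≤ y ^ 6 := Nat.pow_le_pow_right hy1 (by norm_num)
  have e6 : 1 ≤ y ^ 6 := Nat.one_le_pow _ _ hy1
  have ha : 2 ^ (y ^ 3) + 1 ≤ 2 ^ (y ^ 3 + 1) := by
    have h0 : 1 ≤ 2 ^ (y ^ 3) := Nat.one_le_two_pow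
    have h00 : 2 ^ (y ^ 3 + 1) = 2 ^ (y ^ 3) * 2 := pow_succ 2 (y ^ 3)
    rw [h00]; omega
  have h1 : n * (2 ^ (y ^ 3) + 1) ≤ 2 ^ (22 * y ^ 3) := by
    calc n * (2 ^ (y ^ 3) + 1) ≤ 2 ^ (10 * pv n + 10) * 2 ^ (y ^ 3 + 1) := Nat.mul_le_mul (n_le n) ha
      _ = 2 ^ (10 * pv n + 10 + (y ^ 3 + 1)) := by rw [← pow_add]
      _ ≤ 2 ^ (22 * y ^ 3) := Nat.pow_le_pow_right (by norm_num) (by omega)
  have ht : pv n * y ^ 2 ≤ y ^ 3 := by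
    calc pv n * y ^ 2 ≤ y * y ^ 2 := Nat.mul_le_mul_right _ hv
      _ = y ^ 3 := by ring
  have h2 : (n * (2 ^ (y ^ 3) + 1)) ^ (pv n * y ^ 2) ≤ 2 ^ (22 * y ^ 6) := by
    calc (n * (2 ^ (y ^ 3) + 1)) ^ (pv n * y ^ 2) ≤ (2 ^ (22 * y ^ 3)) ^ (pv n * y ^ 2) :=
          Nat.pow_le_pow_left h1 _
      _ = 2 ^ (22 * y ^ 3 * (pv n * y ^ 2)) := by rw [← pow_mul]
      _ ≤ 2 ^ (22 * y ^ 6) := by
          refine Nat.pow_le_pow_right (by norm_num) ?_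
          calc 22 * y ^ 3 * (pv n * y ^ 2) ≤ 22 * y ^ 3 * y ^ 3 := Nat.mul_le_mul_left _ ht
            _ = 22 * y ^ 6 := by ring
  have h4 : 2 ^ (y ^ 3) + 1 ≤ 2 ^ (2 * y ^ 6) :=
    ha.trans (Nat.pow_le_pow_right (by norm_num) (by omega))
  have h5 : (2 ^ (y ^ 3) + 1) ^ J ≤ 2 ^ (2 * J * y ^ 6) := by
    calc (2 ^ (y ^ 3) + 1) ^ J ≤ (2 ^ (2 * y ^ 6)) ^ J := Nat.pow_le_pow_left h4 _
      _ = 2 ^ (2 * J * y ^ 6) := by rw [← pow_mul]; congr 1; ring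
  have h6 : (2 ^ (y ^ 3) + 1) * (n * (2 ^ (y ^ 3) + 1)) ^ (pv n * y ^ 2) * (2 ^ (y ^ 3) + 1) ^ J ≤
      2 ^ ((24 + 2 * J) * y ^ 6) := by
    calc _ ≤ 2 ^ (2 * y ^ 6) * 2 ^ (22 * y ^ 6) * 2 ^ (2 * J * y ^ 6) :=
          Nat.mul_le_mul (Nat.mul_le_mul h4 h2) h5
      _ = 2 ^ ((24 + 2 * J) * y ^ 6) := by
          rw [← pow_add, ← pow_add]; congr 1; ring
  have h7 : (2 ^ (y ^ 3) + 1) * (n * (2 ^ (y ^ 3) + 1)) ^ (pv n * y ^ 2) * (2 ^ (y ^ 3) + 1) ^ J + 1 ≤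
      2 ^ ((25 + 2 * J) * y ^ 6) := by
    have h8 : 1 ≤ 2 ^ ((24 + 2 * J) * y ^ 6) := Nat.one_le_two_pow
    calc _ ≤ 2 ^ ((24 + 2 * J) * y ^ 6) + 2 ^ ((24 + 2 * J) * y ^ 6) := by omega
      _ = 2 ^ ((24 + 2 * J) * y ^ 6 + 1) := by rw [pow_succ]; ring
      _ ≤ 2 ^ ((25 + 2 * J) * y ^ 6) := by
          refine Nat.pow_le_pow_right (by norm_num) ?_
          have : (25 + 2 * J) * y ^ 6 = (24 + 2 * J) * y ^ 6 + y ^ 6 := by ring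
          omega
  calc _ ≤ (2 ^ ((25 + 2 * J) * y ^ 6)) ^ J := Nat.pow_le_pow_left h7 _
    _ = 2 ^ (J * (25 + 2 * J) * y ^ 6) := by rw [← pow_mul]; congr 1; ring

theorem num2 : Num2 := by
  intro J ε hε
  obtain ⟨m, hm⟩ := exists_nat_ge ((J * (25 + 2 * J) : ℝ) / ε)
  filter_upwards [ev_pv m, eventually_ge_atTop 1] with n hv hn
  have hb := nat_bound J n
  have hy1 : 1 ≤ py n := py_pos n
  have hmy : m ≤ py n := hv.trans (pv_le n)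
  have hyn : py n ^ 10 ≤ n := py_pow_le (by omega)
  have hyR : (1 : ℝ) ≤ (py n : ℝ) := by exact_mod_cast hy1
  have hmR : (m : ℝ) ≤ (py n : ℝ) := by exact_mod_cast hmy
  have hnR : ((py n : ℝ)) ^ 10 ≤ (n : ℝ) := by exact_mod_cast hyn
  have h1 : (J * (25 + 2 * J) : ℝ) ≤ ε * py n ^ 4 := by
    have h2 : (J * (25 + 2 * J) : ℝ) ≤ ε * m := by
      rw [div_le_iff₀ hε] at hm; linarith
    have h3 : (py n : ℝ) ≤ (py n : ℝ) ^ 4 := by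
      have : (1 : ℝ) ≤ (py n : ℝ) ^ 3 := one_le_pow₀ hyR
      nlinarith
    have h4 : ε * (m : ℝ) ≤ ε * (py n : ℝ) ^ 4 := mul_le_mul_of_nonneg_left (hmR.trans h3) hε.le
    linarith
  have h5 : ((J * (25 + 2 * J) * py n ^ 6 : ℕ) : ℝ) ≤ ε * n := by
    push_cast
    have hp : (0 : ℝ) ≤ (py n : ℝ) ^ 6 := by positivity
    calc (J : ℝ) * (25 + 2 * J) * (py n : ℝ) ^ 6 ≤ ε * (py n : ℝ) ^ 4 * (py n : ℝ) ^ 6 :=
          mul_le_mul_of_nonneg_right h1 hp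
      _ = ε * (py n : ℝ) ^ 10 := by ring
      _ ≤ ε * n := mul_le_mul_of_nonneg_left hnR hε.le
  calc ((((2 ^ pa n + 1) * (n * (2 ^ pa n + 1)) ^ pt n * (2 ^ pa n + 1) ^ J + 1) ^ J : ℕ) : ℝ)
      ≤ ((2 ^ (J * (25 + 2 * J) * py n ^ 6) : ℕ) : ℝ) := by exact_mod_cast hb
    _ = (2 : ℝ) ^ ((J * (25 + 2 * J) * py n ^ 6 : ℕ) : ℝ) := by
        rw [Real.rpow_natCast]; push_cast; ring
    _ ≤ 2 ^ (ε * n) := Real.rpow_le_rpow_of_exponent_le (by norm_num) h5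

end Vale.Agent.P160.Half.Num2_289
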