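import Vale.Agent.P160.Half.GStmt4

/-! # P160, half rate: number leaf N3 (helper661) -/

namespace Vale.Agent.P160.Half.G.N3H661

open Filter

theorem py_pow_le {n : ℕ} (hn : n ≠ 0) : py n ^ 10 ≤ n := by
  unfold py pv
  rw [← pow_mul]
  calc 2 ^ (Nat.log 2 n / 10 * 10) ≤ 2 ^ Nat.log 2 n :=
        Nat.pow_le_pow_right (by norm_num) (Nat.div_mul_le_self _ _)
    _ ≤ n := Nat.pow_log_le_self 2 hn

theorem pt_le (n : ℕ) : pt n ≤ py n ^ 3 := by
  unfold pt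
  have h : pv n ≤ py n := by
    unfold py
    exact Nat.lt_two_pow_self.le
  calc pv n * py n ^ 2 ≤ py n * py n ^ 2 := Nat.mul_le_mul_right _ h
    _ = py n ^ 3 := by ring

theorem pv_ge (m : ℕ) : ∀ᶠ n : ℕ in atTop, m ≤ pv n := by
  filter_upwards [eventually_ge_atTop (2 ^ (10 * m))] with n hn
  unfold pv
  have h1 : 10 * m ≤ Nat.log 2 n := by
    have := Nat.log_mono_right (b := 2) hn
    rwa [Nat.log_pow (by norm_num)] at this
  omega

theorem num3 : Num3 := by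
  intro C
  obtain ⟨D, hD⟩ : ∃ D : ℕ, D = 2 * (C + 5) := ⟨_, rfl⟩
  refine ⟨(3 * 2 ^ D) ^ 2, ?_⟩
  filter_upwards [pv_ge (D + 4), eventually_ge_atTop 1] with n hv hn1
  have hn0 : n ≠ 0 := by omega
  have hy : 2 ^ (D + 4) ≤ py n := by
    unfold py
    exact Nat.pow_le_pow_right (by norm_num) hv
  have hy16 : 16 ≤ py n := by
    have : 2 ^ 4 ≤ 2 ^ (D + 4) := Nat.pow_le_pow_right (by norm_num) (by omega)
    omega
  have hpt : 6 * pt n ≤ n := by
    have h1 := pt_le n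
    have h2 := py_pow_le hn0
    have h3 : 6 * py n ^ 3 ≤ py n ^ 10 := by
      calc 6 * py n ^ 3 ≤ py n * py n ^ 3 := Nat.mul_le_mul_right _ (by omega)
        _ = py n ^ 4 := by ring
        _ ≤ py n ^ 10 := Nat.pow_le_pow_right (by omega) (by norm_num)
    omega
  have hn16 : 16 ≤ n := by
    have h2 := py_pow_le hn0
    have : py n ≤ py n ^ 10 := Nat.le_self_pow (by norm_num) _
    omega
  -- the base
  set x : ℝ := 1 / (py n : ℝ) + 3 / 2 / Real.sqrt (((3 * 2 ^ D) ^ 2 : ℕ) + 1) with hx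
  have hx0 : 0 ≤ x := by positivity
  have hpos : (0 : ℝ) < 2 ^ D := by positivity
  have hxa : 1 / (py n : ℝ) ≤ 1 / (2 * 2 ^ D) := by
    apply one_div_le_one_div_of_le (by positivity)
    have : (2 ^ (D + 4) : ℝ) ≤ py n := by exact_mod_cast hy
    have h2 : (2 ^ (D + 4) : ℝ) = 16 * 2 ^ D := by ring
    nlinarith
  have hxb : 3 / 2 / Real.sqrt (((3 * 2 ^ D) ^ 2 : ℕ) + 1) ≤ 1 / (2 * 2 ^ D) := by
    have hs : (3 * 2 ^ D : ℝ) ≤ Real.sqrt (((3 * 2 ^ D) ^ 2 : ℕ) + 1) := by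
      apply Real.le_sqrt_of_sq_le
      push_cast
      linarith
    calc 3 / 2 / Real.sqrt (((3 * 2 ^ D) ^ 2 : ℕ) + 1) ≤ 3 / 2 / (3 * 2 ^ D : ℝ) :=
          div_le_div_of_nonneg_left (by norm_num) (by positivity) hs
      _ = 1 / (2 * 2 ^ D) := by field_simp
  have hx1 : x ≤ 1 / 2 ^ D := by
    calc x ≤ 1 / (2 * 2 ^ D) + 1 / (2 * 2 ^ D) := add_le_add hxa hxb
      _ = 1 / 2 ^ D := by field_simp; norm_num
  have hxle : x ≤ 1 := hx1.trans (by
    rw [div_le_one hpos]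
    exact one_le_pow₀ (by norm_num))
  refine ⟨hxle, ?_⟩
  -- powers
  have hexp : n ≤ 2 * (n - 3 * pt n) := by omega
  have hp1 : x ^ (n - 3 * pt n) ≤ (1 / 2 ^ D : ℝ) ^ (n - 3 * pt n) :=
    pow_le_pow_left₀ hx0 hx1 _
  have hp2 : (1 / 2 ^ D : ℝ) ^ (n - 3 * pt n) ≤ (1 / 2 : ℝ) ^ ((C + 5) * n) := by
    have e1 : (1 / 2 ^ D : ℝ) = (1 / 2) ^ D := by simp
    rw [e1, ← pow_mul]
    apply pow_le_pow_of_le_one (by norm_num) (by norm_num)
    rw [hD]
    calc (C + 5) * n ≤ (C + 5) * (2 * (n - 3 * pt n)) := Nat.mul_le_mul_left _ hexp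
      _ = 2 * (C + 5) * (n - 3 * pt n) := by ring
  have hq : ((pt n : ℝ) + 1) ^ 2 ≤ 4 ^ n := by
    have h1 : (pt n + 1 : ℝ) ≤ 2 ^ n := by
      have h2 : pt n + 1 ≤ 2 ^ n := by
        have := Nat.lt_two_pow_self (n := n)
        omega
      exact_mod_cast h2
    calc ((pt n : ℝ) + 1) ^ 2 ≤ (2 ^ n) ^ 2 := pow_le_pow_left₀ (by positivity) h1 2
      _ = 4 ^ n := by rw [← pow_mul, mul_comm, pow_mul]; norm_num
  have hfin : (2 : ℝ) ^ (-(C * n : ℝ)) = (1 / 2) ^ (C * n) := by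
    rw [Real.rpow_neg (by norm_num)]
    have : (C * n : ℝ) = ((C * n : ℕ) : ℝ) := by push_cast; ring
    rw [this, Real.rpow_natCast]
    simp
  rw [hfin]
  calc ((pt n : ℝ) + 1) ^ 2 * 8 ^ n * x ^ (n - 3 * pt n)
      ≤ 4 ^ n * 8 ^ n * (1 / 2 : ℝ) ^ ((C + 5) * n) := by
        apply mul_le_mul _ (hp1.trans hp2) (by positivity) (by positivity)
        exact mul_le_mul_of_nonneg_right hq (by positivity)
    _ = (1 / 2) ^ (C * n) := by
        rw [← mul_pow, pow_mul, pow_mul, ← mul_pow]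
        congr 1
        rw [pow_add]
        ring_nf

end Vale.Agent.P160.Half.G.N3H661
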