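import Vale.Agent.P160.Half.GStmt4

/-! # P160, gap (G): `Num3` of `GStmt4.lean`. -/

open Finset Filter

namespace Vale.Agent.P160.Half.G.H693

theorem pyten {n : ℕ} (hn : n ≠ 0) : py n ^ 10 ≤ n := by
  unfold py pv
  rw [← pow_mul]
  calc 2 ^ (Nat.log 2 n / 10 * 10) ≤ 2 ^ Nat.log 2 n :=
        Nat.pow_le_pow_right (by norm_num) (Nat.div_mul_le_self _ _)
    _ ≤ n := Nat.pow_log_le_self 2 hn

theorem pt_le (n : ℕ) : pt n ≤ py n ^ 3 := by
  unfold pt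
  have h : pv n ≤ py n := by
    unfold py
    exact (Nat.lt_two_pow_self).le
  calc pv n * py n ^ 2 ≤ py n * py n ^ 2 := Nat.mul_le_mul_right _ h
    _ = py n ^ 3 := by ring

theorem num3 : Num3 := by
  intro C
  refine ⟨(3 * 2 ^ (2 * C + 8)) ^ 2 - 1, ?_⟩
  filter_upwards [eventually_ge_atTop (2 ^ (10 * (2 * C + 10)))] with n hn
  have hn0 : n ≠ 0 := by
    have : 0 < 2 ^ (10 * (2 * C + 10)) := by positivity
    omega
  have hlog : 10 * (2 * C + 10) ≤ Nat.log 2 n := Nat.le_log_of_pow_le (by norm_num) hn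
  have hv : 2 * C + 10 ≤ pv n := by
    unfold pv
    omega
  have hpy : (py n : ℝ) = 2 ^ pv n := by
    unfold py
    push_cast
    rfl
  have hK : (1 : ℕ) ≤ (3 * 2 ^ (2 * C + 8)) ^ 2 := Nat.one_le_iff_ne_zero.2 (by positivity)
  have hs : Real.sqrt ((((3 * 2 ^ (2 * C + 8)) ^ 2 - 1 : ℕ) : ℝ) + 1) = 3 * 2 ^ (2 * C + 8) := by
    have h1 : (((3 * 2 ^ (2 * C + 8)) ^ 2 - 1 : ℕ) : ℝ) + 1 = (3 * 2 ^ (2 * C + 8)) ^ 2 := by
      rw [Nat.cast_sub hK]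
      push_cast
      ring
    rw [h1]
    exact Real.sqrt_sq (by positivity)
  have hq2 : 3 / 2 / Real.sqrt ((((3 * 2 ^ (2 * C + 8)) ^ 2 - 1 : ℕ) : ℝ) + 1) = (1 / 2) ^ (2 * C + 9) := by
    rw [hs, one_div, inv_pow, pow_succ (2 : ℝ) (2 * C + 8)]
    field_simp
  have hq1 : 1 / (py n : ℝ) ≤ (1 / 2) ^ (2 * C + 9) := by
    rw [hpy, ← one_div_pow]
    exact pow_le_pow_of_le_one (by norm_num) (by norm_num) (by omega)
  set q : ℝ := 1 / (py n : ℝ) + 3 / 2 / Real.sqrt ((((3 * 2 ^ (2 * C + 8)) ^ 2 - 1 : ℕ) : ℝ) + 1) with hq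
  have hq0 : 0 ≤ q := by positivity
  have hqle : q ≤ (1 / 2) ^ (2 * C + 8) := by
    have h2 : (1 / 2 : ℝ) ^ (2 * C + 8) = (1 / 2) ^ (2 * C + 9) + (1 / 2) ^ (2 * C + 9) := by
      rw [pow_succ (1 / 2 : ℝ) (2 * C + 8)]
      ring
    rw [hq, hq2, h2]
    linarith
  clear_value q
  clear hq hq2 hq1 hs hK
  have hpy2 : 2 ≤ py n := by
    unfold py
    calc 2 = 2 ^ 1 := by norm_num
      _ ≤ 2 ^ pv n := Nat.pow_le_pow_right (by norm_num) (by omega)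
  have h10 := pyten hn0
  have hpt := pt_le n
  have hy3 : 1 ≤ py n ^ 3 := Nat.one_le_pow _ _ (by omega)
  have h7 : 128 ≤ py n ^ 7 := by
    calc 128 = 2 ^ 7 := by norm_num
      _ ≤ py n ^ 7 := Nat.pow_le_pow_left hpy2 7
  have h103 : 128 * py n ^ 3 ≤ py n ^ 10 := by
    calc 128 * py n ^ 3 ≤ py n ^ 7 * py n ^ 3 := Nat.mul_le_mul_right _ h7
      _ = py n ^ 10 := by ring
  have h6 : 6 * pt n ≤ n := by omega
  have h4 : 16 ≤ py n ^ 4 := by
    calc 16 = 2 ^ 4 := by norm_num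
      _ ≤ py n ^ 4 := Nat.pow_le_pow_left hpy2 4
  have hsq : (pt n + 1) ^ 2 ≤ n := by
    calc (pt n + 1) ^ 2 ≤ (2 * py n ^ 3) ^ 2 := Nat.pow_le_pow_left (by omega) 2
      _ = 4 * py n ^ 6 := by ring
      _ ≤ py n ^ 4 * py n ^ 6 := Nat.mul_le_mul_right _ (by omega)
      _ = py n ^ 10 := by ring
      _ ≤ n := h10
  refine ⟨?_, ?_⟩
  · refine hqle.trans ?_
    exact pow_le_one₀ (by norm_num) (by norm_num)
  · have hA : ((pt n : ℝ) + 1) ^ 2 ≤ 2 ^ n := by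
      have h1 : (pt n + 1) ^ 2 ≤ 2 ^ n := hsq.trans (Nat.lt_two_pow_self).le
      exact_mod_cast h1
    have hB : q ^ (n - 3 * pt n) ≤ (1 / 2) ^ ((C + 4) * n) := by
      calc q ^ (n - 3 * pt n) ≤ ((1 / 2) ^ (2 * C + 8)) ^ (n - 3 * pt n) :=
            pow_le_pow_left₀ hq0 hqle _
        _ = (1 / 2) ^ ((2 * C + 8) * (n - 3 * pt n)) := (pow_mul _ _ _).symm
        _ ≤ (1 / 2) ^ ((C + 4) * n) := by
            refine pow_le_pow_of_le_one (by norm_num) (by norm_num) ?_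
            have h8 : n ≤ 2 * (n - 3 * pt n) := by omega
            calc (C + 4) * n ≤ (C + 4) * (2 * (n - 3 * pt n)) := Nat.mul_le_mul_left _ h8
              _ = (2 * C + 8) * (n - 3 * pt n) := by ring
    have hC : (2 : ℝ) ^ (-(C * n : ℝ)) = (1 / 2) ^ (C * n) := by
      rw [Real.rpow_neg (by norm_num), ← Nat.cast_mul, Real.rpow_natCast, one_div, inv_pow]
    rw [hC]
    calc ((pt n : ℝ) + 1) ^ 2 * 8 ^ n * q ^ (n - 3 * pt n)
        ≤ 2 ^ n * 8 ^ n * (1 / 2) ^ ((C + 4) * n) := by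
          have g1 : (0 : ℝ) ≤ 8 ^ n := by positivity
          have g2 : ((pt n : ℝ) + 1) ^ 2 * 8 ^ n ≤ 2 ^ n * 8 ^ n := mul_le_mul_of_nonneg_right hA g1
          have g3 : (0 : ℝ) ≤ q ^ (n - 3 * pt n) := pow_nonneg hq0 _
          have g4 : (0 : ℝ) ≤ 2 ^ n * 8 ^ n := by positivity
          exact mul_le_mul g2 hB g3 g4
      _ = (1 / 2) ^ (C * n) := by
          have h1 : (1 / 2 : ℝ) ^ ((C + 4) * n) = (1 / 2) ^ (C * n) * ((1 / 16) ^ n) := by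
            rw [add_mul, pow_add, pow_mul (1 / 2 : ℝ) 4 n]
            norm_num
          rw [h1, ← mul_pow]
          have h2 : (2 * 8 : ℝ) ^ n * (1 / 16) ^ n = 1 := by
            rw [← mul_pow]
            norm_num
          calc (2 * 8 : ℝ) ^ n * ((1 / 2) ^ (C * n) * (1 / 16) ^ n)
              = (1 / 2) ^ (C * n) * ((2 * 8 : ℝ) ^ n * (1 / 16) ^ n) := by ring
            _ = _ := by rw [h2, mul_one]

end Vale.Agent.P160.Half.G.H693
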