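import Vale.Agent.P160.Half.GStmt4

/-! # P160, half rate: gap (G), number N4 (helper540) -/

namespace Vale.Agent.P160.Half.G.N540

open Filter

theorem ev_pv (v₀ : ℕ) : ∀ᶠ n : ℕ in atTop, v₀ ≤ pv n := by
  filter_upwards [eventually_ge_atTop (2 ^ (10 * v₀))] with n hn
  have h1 : 10 * v₀ ≤ Nat.log 2 n := by
    have hn0 : n ≠ 0 := by
      have : 0 < 2 ^ (10 * v₀) := by positivity
      omega
    exact (Nat.le_log_iff_pow_le (by norm_num) hn0).2 hn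
  unfold pv
  omega

theorem pow_pv_le {n : ℕ} (hn : n ≠ 0) : 2 ^ (10 * pv n) ≤ n := by
  have h1 : 10 * pv n ≤ Nat.log 2 n := by
    unfold pv
    omega
  exact (Nat.pow_le_pow_right (by norm_num) h1).trans (Nat.pow_log_le_self 2 hn)

theorem base_le {n : ℕ} (hv : 3 ≤ pv n) :
    1 / (py n : ℝ) + 3 / 2 / Real.sqrt (pt n + 1) ≤ 2 / 2 ^ pv n := by
  have hy : (py n : ℝ) = 2 ^ pv n := by unfold py; push_cast; rfl
  have hy0 : (0 : ℝ) < 2 ^ pv n := by positivity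
  have ht : (pt n : ℝ) = pv n * (2 ^ pv n) ^ 2 := by unfold pt py; push_cast; rfl
  have hv' : (3 : ℝ) ≤ pv n := by exact_mod_cast hv
  have h1 : 3 / 2 * (2 : ℝ) ^ pv n ≤ Real.sqrt (pt n + 1) := by
    apply Real.le_sqrt_of_sq_le
    rw [ht]
    nlinarith [sq_nonneg ((2 : ℝ) ^ pv n), mul_le_mul_of_nonneg_right hv' (sq_nonneg ((2 : ℝ) ^ pv n))]
  have h2 : 3 / 2 / Real.sqrt (pt n + 1) ≤ 1 / 2 ^ pv n := by
    rw [div_le_div_iff₀ (by linarith [mul_pos (by norm_num : (0:ℝ) < 3 / 2) hy0]) hy0]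
    linarith
  rw [hy]
  calc 1 / (2 : ℝ) ^ pv n + 3 / 2 / Real.sqrt (pt n + 1) ≤ 1 / 2 ^ pv n + 1 / 2 ^ pv n := by linarith
    _ = 2 / 2 ^ pv n := by ring

theorem base_nonneg (n : ℕ) : 0 ≤ 1 / (py n : ℝ) + 3 / 2 / Real.sqrt (pt n + 1) := by positivity

theorem expo {C ρ n : ℕ} (hn : n ≠ 0) (hv : 4 ≤ pv n)
    (hc : 16 * (C + 12) + 2 * (2 * ρ + 3) ^ 2 ≤ pv n) :
    (C + 4) * n ≤ (pv n - 1) * (pz (4 * (C + 10)) n - 2 * (pk C n + ρ)) := by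
  set v := pv n with hvd
  set c := 16 * (C + 12) + 2 * (2 * ρ + 3) ^ 2 with hcd
  have h2v : 2 ^ (10 * v) ≤ n := pow_pv_le hn
  have hlt : v < 2 ^ v := Nat.lt_two_pow_self
  have hv3 : v ^ 3 ≤ n := by
    calc v ^ 3 ≤ (2 ^ v) ^ 3 := Nat.pow_le_pow_left hlt.le 3
      _ = 2 ^ (3 * v) := by rw [← pow_mul, mul_comm]
      _ ≤ 2 ^ (10 * v) := Nat.pow_le_pow_right (by norm_num) (by omega)
      _ ≤ n := h2v
  set r := Nat.sqrt (2 * (C + 12) * n) with hr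
  have hr2 : r * r ≤ 2 * (C + 12) * n := Nat.sqrt_le _
  have hn1 : 1 ≤ n := Nat.one_le_iff_ne_zero.2 hn
  have hK : v * (2 * (r + 1 + ρ) + 1) ≤ n := by
    have h3 : (2 * (r + 1 + ρ) + 1) ^ 2 ≤ c * n := by
      have h4 : (2 * (r + 1 + ρ) + 1) ^ 2 ≤ 8 * (r * r) + 2 * (2 * ρ + 3) ^ 2 := by
        zify
        nlinarith [sq_nonneg ((2 * r : ℤ) - (2 * ρ + 3))]
      have h5 : 2 * (2 * ρ + 3) ^ 2 ≤ 2 * (2 * ρ + 3) ^ 2 * n := Nat.le_mul_of_pos_right _ hn1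
      rw [hcd, Nat.add_mul]
      calc (2 * (r + 1 + ρ) + 1) ^ 2 ≤ 8 * (r * r) + 2 * (2 * ρ + 3) ^ 2 := h4
        _ ≤ 8 * (2 * (C + 12) * n) + 2 * (2 * ρ + 3) ^ 2 * n := Nat.add_le_add (Nat.mul_le_mul_left _ hr2) h5
        _ = 16 * (C + 12) * n + 2 * (2 * ρ + 3) ^ 2 * n := by ring
    have h6 : (v * (2 * (r + 1 + ρ) + 1)) ^ 2 ≤ n ^ 2 := by
      calc (v * (2 * (r + 1 + ρ) + 1)) ^ 2 = v ^ 2 * (2 * (r + 1 + ρ) + 1) ^ 2 := by ring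
        _ ≤ v ^ 2 * (c * n) := Nat.mul_le_mul_left _ h3
        _ ≤ v ^ 2 * (v * n) := Nat.mul_le_mul_left _ (Nat.mul_le_mul_right _ hc)
        _ = v ^ 3 * n := by ring
        _ ≤ n * n := Nat.mul_le_mul_right _ hv3
        _ = n ^ 2 := by ring
    exact (Nat.pow_le_pow_iff_left (by norm_num)).1 h6
  have hN : 4 * (C + 10) * n < (pz (4 * (C + 10)) n + 1) * v := by
    unfold pz
    rw [← hvd, mul_comm _ v]
    exact Nat.lt_mul_div_succ _ (by omega)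
  have hk : pk C n = r + 1 := rfl
  rw [hk]
  set N := pz (4 * (C + 10)) n with hNd
  set K := 2 * (r + 1 + ρ) with hKd
  have hKN : K ≤ N := by
    by_contra hcon
    push Not at hcon
    have h7 : (N + 1) * v ≤ K * v := Nat.mul_le_mul_right _ hcon
    nlinarith
  obtain ⟨E, hNE⟩ := Nat.exists_eq_add_of_le hKN
  rw [hNE, Nat.add_sub_cancel_left]
  rw [hNE] at hN
  obtain ⟨w, hw⟩ : ∃ w, v = w + 1 := ⟨v - 1, by omega⟩
  have hw3 : 3 ≤ w := by omega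
  rw [hw, Nat.add_sub_cancel]
  rw [hw] at hN hK
  -- 4 (C+10) n < (K + E + 1)(w+1), (w+1)(K+1) ≤ n
  have h8 : 4 * (C + 10) * n < n + E * (w + 1) := by nlinarith
  have h9 : E * (w + 1) ≤ 2 * (w * E) := by nlinarith
  nlinarith

theorem ev_pow (A ρ : ℕ) : ∀ᶠ n : ℕ in atTop, 3 * ((n ^ A : ℕ) : ℝ) * ((n : ℝ) + ρ) ^ 2 ≤ 2 ^ n := by
  have h1 := tendsto_pow_const_div_const_pow_of_one_lt (A + 3) (r := (2 : ℝ)) (by norm_num)
  filter_upwards [h1.eventually_le_const (by norm_num : (0 : ℝ) < 1), eventually_ge_atTop (max ρ 12)] with n h2 h3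
  have hρ : (ρ : ℝ) ≤ n := by exact_mod_cast (le_max_left _ _).trans h3
  have h12 : (12 : ℝ) ≤ n := by exact_mod_cast (le_max_right _ _).trans h3
  have h4 : (n : ℝ) ^ (A + 3) ≤ 2 ^ n := by
    rw [div_le_one (by positivity)] at h2
    exact h2
  have hρ0 : (0 : ℝ) ≤ ρ := Nat.cast_nonneg _
  have h5 : ((n : ℝ) + ρ) ^ 2 ≤ 4 * n ^ 2 := by nlinarith
  have h6 : (0 : ℝ) ≤ (n : ℝ) ^ A := by positivity
  calc 3 * ((n ^ A : ℕ) : ℝ) * ((n : ℝ) + ρ) ^ 2 = 3 * (n : ℝ) ^ A * ((n : ℝ) + ρ) ^ 2 := by push_cast; rfl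
    _ ≤ 3 * (n : ℝ) ^ A * (4 * n ^ 2) := by gcongr
    _ = 12 * ((n : ℝ) ^ (A + 2)) := by ring
    _ ≤ n * ((n : ℝ) ^ (A + 2)) := by gcongr
    _ = (n : ℝ) ^ (A + 3) := by ring
    _ ≤ 2 ^ n := h4

theorem num4 : Num4 := by
  intro C J A ρ _
  filter_upwards [ev_pv 4, ev_pv (16 * (C + 12) + 2 * (2 * ρ + 3) ^ 2), ev_pow A ρ, eventually_ge_atTop 1] with n hv hc hp hn
  have hb := base_le (n := n) (by omega)
  have hb0 := base_nonneg n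
  have he := expo (C := C) (ρ := ρ) (n := n) (by omega) hv hc
  set q := 1 / (py n : ℝ) + 3 / 2 / Real.sqrt (pt n + 1) with hq
  set E := pz (4 * (C + 10)) n - 2 * (pk C n + ρ) with hE
  have hb' : q ≤ (1 / 2) ^ (pv n - 1) := by
    refine hb.trans (le_of_eq ?_)
    obtain ⟨w, hw⟩ : ∃ w, pv n = w + 1 := ⟨pv n - 1, by omega⟩
    rw [hw, Nat.add_sub_cancel, pow_succ, one_div, inv_pow]
    field_simp
  refine ⟨hb'.trans (pow_le_one₀ (by norm_num) (by norm_num)), ?_⟩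
  have h1 : q ^ E ≤ (1 / 2) ^ ((C + 4) * n) := by
    calc q ^ E ≤ ((1 / 2) ^ (pv n - 1)) ^ E := pow_le_pow_left₀ hb0 hb' _
      _ = (1 / 2 : ℝ) ^ ((pv n - 1) * E) := by rw [← pow_mul]
      _ ≤ (1 / 2) ^ ((C + 4) * n) := pow_le_pow_of_le_one (by norm_num) (by norm_num) he
  have h2 : (2 : ℝ) ^ (-(C * n : ℝ)) = (1 / 2) ^ (C * n) := by
    rw [Real.rpow_neg (by norm_num), one_div, inv_pow]
    congr 1
    exact_mod_cast Real.rpow_natCast 2 (C * n)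
  rw [h2]
  calc 3 * ((n ^ A : ℕ) : ℝ) * ((n : ℝ) + ρ) ^ 2 * 8 ^ n * q ^ E
      ≤ 2 ^ n * 8 ^ n * (1 / 2) ^ ((C + 4) * n) := by gcongr
    _ = (1 / 2) ^ (C * n) * (2 * 8 * (1 / 2) ^ 4) ^ n := by
        rw [Nat.add_mul, pow_add, pow_mul (1 / 2 : ℝ) 4 n, mul_pow, mul_pow]
        ring
    _ = (1 / 2) ^ (C * n) := by norm_num

end Vale.Agent.P160.Half.G.N540
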