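import Vale.Agent.P160.Half.GStmt4

/-! # P160, half rate: N5 (helper925) -/

namespace Vale.Agent.P160.Half.G.N925

open Filter

theorem tendsto_pv : Tendsto (fun n : ℕ => pv n) atTop atTop := by
  refine tendsto_atTop.2 fun b => ?_
  filter_upwards [eventually_ge_atTop (2 ^ (10 * b))] with n hn
  have h1 : 10 * b ≤ Nat.log 2 n := Nat.le_log_of_pow_le (by norm_num) hn
  unfold pv
  omega

theorem num5 : Num5 := by
  intro C J ρ hρ
  filter_upwards [tendsto_pv.eventually_ge_atTop (4 * (C + 12) + 2 * (1 + J) ^ 2 + 4), eventually_ge_atTop 1] with n hv hn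
  obtain ⟨v, hvd⟩ : ∃ v, pv n = v := ⟨_, rfl⟩
  rw [hvd] at hv
  have hyd : py n = 2 ^ v := by rw [py, hvd]
  obtain ⟨y, hy⟩ : ∃ y, (2 : ℕ) ^ v = y := ⟨_, rfl⟩
  have hvy : v ≤ y := hy ▸ (Nat.lt_two_pow_self).le
  have hy10 : y ^ 10 ≤ n := by
    rw [← hy, ← pow_mul]
    refine le_trans (Nat.pow_le_pow_right (by norm_num) ?_) (Nat.pow_log_le_self 2 (by omega : n ≠ 0))
    have h1 : v = Nat.log 2 n / 10 := hvd.symm
    omega
  have hy1 : 1 ≤ y := hy ▸ Nat.one_le_two_pow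
  have hyn : y ≤ n := le_trans (by simpa using Nat.pow_le_pow_right hy1 (show 1 ≤ 10 by norm_num)) hy10
  have hvn : v ≤ n := hvy.trans hyn
  have hA : v * (pa n * (pk C n + ρ)) ≤ n := by
    have h1 : pa n = y ^ 3 := by rw [pa, hyd, hy]
    rw [h1, pk]
    obtain ⟨s, hs⟩ : ∃ s, Nat.sqrt (2 * (C + 12) * n) = s := ⟨_, rfl⟩
    have hs2 : s * s ≤ 2 * (C + 12) * n := hs ▸ Nat.sqrt_le _
    rw [hs]
    have h2 : (s + 1 + ρ) ^ 2 ≤ y ^ 2 * n := by
      have e1 : (s + 1 + ρ) ^ 2 ≤ 2 * (s * s) + 2 * (1 + J) ^ 2 := by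
        have e0 : 1 + ρ ≤ 1 + J := by omega
        have e2 : (1 + ρ) ^ 2 ≤ (1 + J) ^ 2 := Nat.pow_le_pow_left e0 2
        have e6 := two_mul_le_add_sq s (1 + ρ)
        calc (s + 1 + ρ) ^ 2 = s ^ 2 + (1 + ρ) ^ 2 + 2 * s * (1 + ρ) := by ring
          _ ≤ s ^ 2 + (1 + ρ) ^ 2 + (s ^ 2 + (1 + ρ) ^ 2) := Nat.add_le_add_left e6 _
          _ = 2 * (s * s) + 2 * (1 + ρ) ^ 2 := by ring
          _ ≤ 2 * (s * s) + 2 * (1 + J) ^ 2 := Nat.add_le_add_left (Nat.mul_le_mul_left _ e2) _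
      have e3 : 2 * (1 + J) ^ 2 ≤ 2 * (1 + J) ^ 2 * n := Nat.le_mul_of_pos_right _ hn
      have e4 : 4 * (C + 12) + 2 * (1 + J) ^ 2 ≤ y ^ 2 := by
        have e5 : y ≤ y ^ 2 := by
          rw [pow_two]
          exact Nat.le_mul_of_pos_right _ hy1
        omega
      calc (s + 1 + ρ) ^ 2 ≤ 2 * (s * s) + 2 * (1 + J) ^ 2 := e1
        _ ≤ 2 * (2 * (C + 12) * n) + 2 * (1 + J) ^ 2 * n := Nat.add_le_add (Nat.mul_le_mul_left _ hs2) e3
        _ = (4 * (C + 12) + 2 * (1 + J) ^ 2) * n := by ring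
        _ ≤ y ^ 2 * n := Nat.mul_le_mul_right _ e4
    have h3 : (y ^ 4 * (s + 1 + ρ)) ^ 2 ≤ n ^ 2 := by
      calc (y ^ 4 * (s + 1 + ρ)) ^ 2 = y ^ 8 * (s + 1 + ρ) ^ 2 := by ring
        _ ≤ y ^ 8 * (y ^ 2 * n) := Nat.mul_le_mul_left _ h2
        _ = y ^ 10 * n := by ring
        _ ≤ n * n := Nat.mul_le_mul_right _ hy10
        _ = n ^ 2 := by ring
    have h4 : y ^ 4 * (s + 1 + ρ) ≤ n := (Nat.pow_le_pow_iff_left (by norm_num)).1 h3
    calc v * (y ^ 3 * (s + 1 + ρ)) ≤ y * (y ^ 3 * (s + 1 + ρ)) := Nat.mul_le_mul_right _ hvy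
      _ = y ^ 4 * (s + 1 + ρ) := by ring
      _ ≤ n := h4
  have hv3 : 4 ≤ v := by omega
  obtain ⟨m, hm⟩ : ∃ m, pz (4 * (C + 10)) n - pa n * (pk C n + ρ) = m := ⟨_, rfl⟩
  have hvm : (4 * C + 38) * n ≤ v * m := by
    have h1 : pz (4 * (C + 10)) n ≤ m + pa n * (pk C n + ρ) := by omega
    have h2 : 4 * (C + 10) * n < v * (4 * (C + 10) * n / v) + v := by
      have e1 := Nat.div_add_mod (4 * (C + 10) * n) v
      have e2 := Nat.mod_lt (4 * (C + 10) * n) (show 0 < v by omega)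
      omega
    have h3 : v * pz (4 * (C + 10)) n ≤ v * m + v * (pa n * (pk C n + ρ)) := by
      rw [← mul_add]
      exact Nat.mul_le_mul_left _ h1
    rw [pz, hvd] at h3
    have h4 : (4 * C + 38) * n + 2 * n = 4 * (C + 10) * n := by ring
    omega
  have hyr : (py n : ℝ) = 2 ^ v := by rw [hyd]; push_cast; rfl
  have hsq : Real.sqrt ((pt n : ℝ) / (pv n : ℝ)) = 2 ^ v := by
    have hv0 : (v : ℝ) ≠ 0 := by positivity
    rw [pt, hvd, hyd]
    push_cast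
    rw [mul_div_cancel_left₀ _ hv0, Real.sqrt_sq (by positivity)]
  have h2v : (16 : ℝ) ≤ 2 ^ v := by
    calc (16 : ℝ) = 2 ^ 4 := by norm_num
      _ ≤ 2 ^ v := pow_le_pow_right₀ (by norm_num) hv3
  have hmax : max (((1 : ℝ) / 2) ^ pv n) (1 / (2 : ℝ) ^ pv n + 3 / 2 / Real.sqrt ((pt n : ℝ) / (pv n : ℝ))) =
      5 / 2 / 2 ^ v := by
    rw [hsq, hvd, one_div_pow, max_eq_right]
    · ring
    · have : (0 : ℝ) ≤ 3 / 2 / 2 ^ v := by positivity
      linarith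
  rw [hmax, hm, hyr]
  constructor
  · rw [div_le_one (by positivity)]
    linarith
  · have hx : (5 / 2 / 2 ^ v : ℝ) ≤ (2 : ℝ) ^ (-(v : ℝ) / 2) := by
      have h1 : (5 / 2 / 2 ^ v : ℝ) ^ 2 ≤ ((2 : ℝ) ^ (-(v : ℝ) / 2)) ^ 2 := by
        rw [← Real.rpow_natCast ((2 : ℝ) ^ (-(v : ℝ) / 2)), ← Real.rpow_mul (by norm_num),
          show -(v : ℝ) / 2 * ((2 : ℕ) : ℝ) = -(v : ℝ) by push_cast; ring, Real.rpow_neg (by norm_num),
          Real.rpow_natCast, div_pow, div_le_iff₀ (by positivity)]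
        rw [show ((2 : ℝ) ^ v)⁻¹ * (2 ^ v) ^ 2 = 2 ^ v by field_simp]
        linarith
      exact (pow_le_pow_iff_left₀ (by positivity) (by positivity) (by norm_num)).1 h1
    have hxm : (5 / 2 / 2 ^ v : ℝ) ^ m ≤ (2 : ℝ) ^ (-((2 * C + 19) * n : ℝ)) := by
      calc (5 / 2 / 2 ^ v : ℝ) ^ m ≤ ((2 : ℝ) ^ (-(v : ℝ) / 2)) ^ m := pow_le_pow_left₀ (by positivity) hx m
        _ = (2 : ℝ) ^ (-(v : ℝ) / 2 * m) := by rw [← Real.rpow_natCast, ← Real.rpow_mul (by norm_num)]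
        _ ≤ (2 : ℝ) ^ (-((2 * C + 19) * n : ℝ)) := by
          refine Real.rpow_le_rpow_of_exponent_le (by norm_num) ?_
          have h1 : (((4 * C + 38) * n : ℕ) : ℝ) ≤ ((v * m : ℕ) : ℝ) := by exact_mod_cast hvm
          push_cast at h1
          linarith
    have hn1 : (1 : ℝ) ≤ n := by exact_mod_cast hn
    calc (2 : ℝ) ^ v * 4 ^ n * (5 / 2 / 2 ^ v) ^ m ≤ (2 : ℝ) ^ v * 4 ^ n * (2 : ℝ) ^ (-((2 * C + 19) * n : ℝ)) :=
          mul_le_mul_of_nonneg_left hxm (by positivity)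
      _ = (2 : ℝ) ^ ((v : ℝ) + 2 * n + -((2 * C + 19) * n : ℝ)) := by
          rw [Real.rpow_add (by norm_num), Real.rpow_add (by norm_num), Real.rpow_natCast, Real.rpow_mul (by norm_num),
            Real.rpow_natCast]
          norm_num
      _ ≤ (2 : ℝ) ^ (-(C * n : ℝ)) := by
          refine Real.rpow_le_rpow_of_exponent_le (by norm_num) ?_
          have h1 : (v : ℝ) ≤ n := by exact_mod_cast hvn
          have h2 : (0 : ℝ) ≤ C * n := by positivity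
          have h3 : ((2 * C + 19) * n : ℝ) = 2 * (C * n) + 19 * n := by ring
          rw [h3]
          linarith

end Vale.Agent.P160.Half.G.N925
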