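import Vale.Agent.P160.Half.Num7H183

/-! # P160, half rate: numeric leaf `Num6` (helper183, hedge) -/

set_option linter.unusedVariables false

open Filter

namespace Vale.Agent.P160.Half.G.Num6H183

open Num7H183

theorem alg1 (J ρ n L u h A : ℝ) (hρ0 : 0 ≤ ρ) (hρ : ρ ≤ J) (hn : 0 < n) (hL : 0 ≤ L) (hu0 : 0 ≤ u)
    (hh : 0 ≤ h) (hA0 : 0 ≤ A) (hA : A ≤ 2 * n * L) :
    (ρ + 1) * (A * (h * (ρ * u) + (ρ * u) ^ 2) + 2 * (ρ * (2 * (J + 2) * n * L)) * (h * (ρ * u) + ρ * (ρ * u) ^ 2)) ≤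
    n * ((J + 1) * ((2 * J + 4 * J ^ 2 * (J + 2)) * h * (u * L) + (2 * J ^ 2 + 4 * J ^ 4 * (J + 2)) * u * (u * L))) := by
  have hJ : 0 ≤ J := hρ0.trans hρ
  have h1 : A * (h * (ρ * u) + (ρ * u) ^ 2) ≤ (2 * n * L) * (h * (J * u) + (J * u) ^ 2) := by gcongr
  have h2 : h * (ρ * u) + ρ * (ρ * u) ^ 2 ≤ h * (J * u) + J * (J * u) ^ 2 := by gcongr
  have h3 : 2 * (ρ * (2 * (J + 2) * n * L)) ≤ 2 * (J * (2 * (J + 2) * n * L)) := by gcongr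
  have h4 : 2 * (ρ * (2 * (J + 2) * n * L)) * (h * (ρ * u) + ρ * (ρ * u) ^ 2) ≤
      2 * (J * (2 * (J + 2) * n * L)) * (h * (J * u) + J * (J * u) ^ 2) :=
    mul_le_mul h3 h2 (by positivity) (by positivity)
  calc _ ≤ (J + 1) * ((2 * n * L) * (h * (J * u) + (J * u) ^ 2) +
        2 * (J * (2 * (J + 2) * n * L)) * (h * (J * u) + J * (J * u) ^ 2)) := by
        apply mul_le_mul (by linarith) (add_le_add h1 h4) (by positivity) (by positivity)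
    _ = _ := by ring

theorem alg2 (J u D h v x : ℝ) (hJ : 0 ≤ J) (hu0 : 0 ≤ u) (hx0 : 0 ≤ x) (hx : x ≤ 44 * D) (hu1 : u ≤ 4 * D / v) (hD : 0 ≤ D)
    (hh : 0 ≤ h) (hv : 0 < v) (hhD : h * (10 ^ 6 * D * (J + 2) ^ 4) ≤ 1)
    (hK : (J + 1) * (2 * J ^ 2 + 4 * J ^ 4 * (J + 2)) * 44 * D * (4 * D) * 4 ≤ v) :
    (J + 1) * ((2 * J + 4 * J ^ 2 * (J + 2)) * h * x + (2 * J ^ 2 + 4 * J ^ 4 * (J + 2)) * u * x) ≤ 1 / 2 := by
  have c1 : (J + 1) * (2 * J + 4 * J ^ 2 * (J + 2)) ≤ 6 * (J + 2) ^ 4 := by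
    have d2 : 0 ≤ J ^ 2 := by positivity
    have d3 : 0 ≤ J ^ 3 := by positivity
    have d4 : 0 ≤ J ^ 4 := by positivity
    nlinarith
  have b1 : (J + 1) * ((2 * J + 4 * J ^ 2 * (J + 2)) * h * x) ≤ 1 / 4 := by
    calc (J + 1) * ((2 * J + 4 * J ^ 2 * (J + 2)) * h * x)
        = ((J + 1) * (2 * J + 4 * J ^ 2 * (J + 2))) * (h * x) := by ring
      _ ≤ (6 * (J + 2) ^ 4) * (h * (44 * D)) := by
          apply mul_le_mul c1 (mul_le_mul_of_nonneg_left hx hh) (by positivity) (by positivity)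
      _ = (h * (10 ^ 6 * D * (J + 2) ^ 4)) * (264 / 10 ^ 6) := by ring
      _ ≤ 1 * (264 / 10 ^ 6) := by gcongr
      _ ≤ 1 / 4 := by norm_num
  have b2 : (J + 1) * ((2 * J ^ 2 + 4 * J ^ 4 * (J + 2)) * u * x) ≤ 1 / 4 := by
    have e : (J + 1) * ((2 * J ^ 2 + 4 * J ^ 4 * (J + 2)) * (4 * D / v) * (44 * D)) =
        ((J + 1) * (2 * J ^ 2 + 4 * J ^ 4 * (J + 2)) * 44 * D * (4 * D) * 4) / 4 / v := by ring
    calc (J + 1) * ((2 * J ^ 2 + 4 * J ^ 4 * (J + 2)) * u * x)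
        ≤ (J + 1) * ((2 * J ^ 2 + 4 * J ^ 4 * (J + 2)) * (4 * D / v) * (44 * D)) := by
          have : (2 * J ^ 2 + 4 * J ^ 4 * (J + 2)) * u ≤ (2 * J ^ 2 + 4 * J ^ 4 * (J + 2)) * (4 * D / v) :=
            mul_le_mul_of_nonneg_left hu1 (by positivity)
          exact mul_le_mul_of_nonneg_left (mul_le_mul this hx hx0 (by positivity)) (by positivity)
      _ ≤ 1 / 4 := by
          rw [e, div_le_iff₀ hv]
          linarith
  have : (J + 1) * ((2 * J + 4 * J ^ 2 * (J + 2)) * h * x + (2 * J ^ 2 + 4 * J ^ 4 * (J + 2)) * u * x) =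
      (J + 1) * ((2 * J + 4 * J ^ 2 * (J + 2)) * h * x) + (J + 1) * ((2 * J ^ 2 + 4 * J ^ 4 * (J + 2)) * u * x) := by ring
  rw [this]
  linarith

theorem partA (J ρ n : ℕ) (hρ : ρ ≤ J) (hn0 : n ≠ 0) (hL1 : 1 ≤ Real.logb 2 (n : ℝ)) (hlin : 2 * (J : ℝ) ^ 2 * (pv n + 1) ≤ py n) :
    0 ≤ Real.logb 2 (n.factorial : ℝ) + 2 * ρ * (ρ * pa n) * py n * Real.logb 2 (py n + 1) ∧
    Real.logb 2 (n.factorial : ℝ) + 2 * ρ * (ρ * pa n) * py n * Real.logb 2 (py n + 1) ≤ 2 * n * Real.logb 2 (n : ℝ) := by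
  have hpy : (1 : ℝ) ≤ (py n : ℝ) := by
    have : 1 ≤ py n := by unfold py; exact Nat.one_le_two_pow
    exact_mod_cast this
  have hpy0 : (0 : ℝ) < (py n : ℝ) := by linarith
  have hy10 : ((py n : ℝ)) ^ 10 ≤ (n : ℝ) := by exact_mod_cast py_pow_le hn0
  have hρ' : (ρ : ℝ) ≤ J := by exact_mod_cast hρ
  have hf := logb_fact hn0
  have hpa : (pa n : ℝ) = (py n : ℝ) ^ 3 := by unfold pa; push_cast; rfl
  have h1 : Real.logb 2 ((py n : ℝ) + 1) ≤ pv n + 1 := by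
    have : (py n : ℝ) + 1 ≤ 2 * py n := by linarith
    have := Real.logb_le_logb_of_le (b := 2) (by norm_num) (by positivity) this
    rw [Real.logb_mul (by norm_num) hpy0.ne', logb_py, Real.logb_self_eq_one (by norm_num)] at this
    linarith
  have h1' : 0 ≤ Real.logb 2 ((py n : ℝ) + 1) := Real.logb_nonneg (by norm_num) (by linarith)
  have hf0 : 0 ≤ Real.logb 2 (n.factorial : ℝ) := Real.logb_nonneg (by norm_num) (by exact_mod_cast Nat.factorial_pos n)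
  have h2 : 2 * (ρ : ℝ) * (ρ * pa n) * py n * Real.logb 2 (py n + 1) ≤ n := by
    rw [hpa]
    have e1 : 2 * (ρ : ℝ) * (ρ * (py n : ℝ) ^ 3) * py n = 2 * ρ ^ 2 * (py n : ℝ) ^ 4 := by ring
    rw [e1]
    have e2 : 2 * (ρ : ℝ) ^ 2 * (py n : ℝ) ^ 4 ≤ 2 * (J : ℝ) ^ 2 * (py n : ℝ) ^ 4 := by gcongr
    calc 2 * (ρ : ℝ) ^ 2 * (py n : ℝ) ^ 4 * Real.logb 2 (py n + 1)
        ≤ 2 * (J : ℝ) ^ 2 * (py n : ℝ) ^ 4 * (pv n + 1) := mul_le_mul e2 h1 h1' (by positivity)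
      _ = (py n : ℝ) ^ 4 * (2 * J ^ 2 * (pv n + 1)) := by ring
      _ ≤ (py n : ℝ) ^ 4 * py n := mul_le_mul_of_nonneg_left hlin (by positivity)
      _ = (py n : ℝ) ^ 5 := by ring
      _ ≤ (py n : ℝ) ^ 10 := pow_le_pow_right₀ hpy (by norm_num)
      _ ≤ n := hy10
  have h3 : 0 ≤ 2 * (ρ : ℝ) * (ρ * pa n) * py n * Real.logb 2 (py n + 1) := mul_nonneg (by positivity) h1'
  have hnp : (0 : ℝ) ≤ n := by positivity
  exact ⟨by linarith, by nlinarith⟩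

theorem num6 : Num6 := by
  intro C J s₁ hs ρ hρ
  set D : ℝ := (C : ℝ) + 10 with hD
  set h : ℝ := (1 / 2 : ℝ) ^ s₁ with hh
  have hD0 : 0 ≤ D := by rw [hD]; positivity
  have hJ0 : (0 : ℝ) ≤ J := by positivity
  have hh0 : 0 ≤ h := by rw [hh]; positivity
  have hhD : h * (10 ^ 6 * D * ((J : ℝ) + 2) ^ 4) ≤ 1 := by
    have h1 : (10 ^ 6 * D * ((J : ℝ) + 2) ^ 4) ≤ 2 ^ s₁ := by
      rw [hD]
      exact_mod_cast hs
    calc h * (10 ^ 6 * D * ((J : ℝ) + 2) ^ 4) ≤ h * 2 ^ s₁ := mul_le_mul_of_nonneg_left h1 hh0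
      _ = 1 := by rw [hh, ← mul_pow]; norm_num
  obtain ⟨k₂, hk₂⟩ := exists_nat_ge (((J : ℝ) + 1) * (2 * J ^ 2 + 4 * J ^ 4 * (J + 2)) * 44 * D * (4 * D) * 4)
  filter_upwards [eventually_ge_atTop 3, pv_ge 10, pv_ge k₂, ev_lin (2 * J ^ 2)] with n hn3 hv hvK hlin
  have hn0 : n ≠ 0 := by omega
  have hnp : (0 : ℝ) < n := by exact_mod_cast Nat.pos_of_ne_zero hn0
  have hv' : (10 : ℝ) ≤ pv n := by exact_mod_cast hv
  have hvp : (0 : ℝ) < pv n := by linarith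
  have hvK' : ((J : ℝ) + 1) * (2 * J ^ 2 + 4 * J ^ 4 * (J + 2)) * 44 * D * (4 * D) * 4 ≤ pv n := hk₂.trans (by exact_mod_cast hvK)
  have hρ' : (ρ : ℝ) ≤ J := by exact_mod_cast hρ
  have hL := logb_le hn0
  have hL1 : 1 ≤ Real.logb 2 (n : ℝ) := by
    have := ten_pv_le hn0
    linarith
  obtain ⟨hA0, hA⟩ := partA J ρ n hρ hn0 hL1 hlin
  set A := Real.logb 2 (n.factorial : ℝ) + 2 * ρ * (ρ * pa n) * py n * Real.logb 2 (py n + 1) with hAdef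
  set L := Real.logb 2 (n : ℝ) with hLdef
  have hL11 : L ≤ 11 * pv n := by linarith
  set z : ℝ := (pz (4 * (C + 10)) n : ℝ) with hz
  set u : ℝ := z / n with hu
  have hz0 : 0 ≤ z := by rw [hz]; positivity
  have hu0 : 0 ≤ u := by rw [hu]; positivity
  have hz1 : z ≤ 4 * D * n / pv n := by
    rw [hz, hD]
    unfold pz
    refine Nat.cast_div_le.trans (le_of_eq ?_)
    push_cast
    ring
  have hu1 : u ≤ 4 * D / pv n := by
    rw [hu, div_le_iff₀ hnp]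
    calc z ≤ 4 * D * n / pv n := hz1
      _ = 4 * D / pv n * n := by ring
  have huL : u * L ≤ 44 * D := by
    calc u * L ≤ (4 * D / pv n) * (11 * pv n) := mul_le_mul hu1 hL11 (by linarith) (by positivity)
      _ = 44 * D := by field_simp; ring
  have eu : (ρ : ℝ) * z / n = ρ * u := by rw [hu]; ring
  rw [eu]
  have r1 := alg1 J ρ n L u h A (by positivity) hρ' hnp (by linarith) hu0 hh0 hA0 hA
  have r2 := alg2 J u D h (pv n) (u * L) hJ0 hu0 (mul_nonneg hu0 (by linarith)) huL hu1 hD0 hh0 hvp hhD hvK'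
  calc _ ≤ _ := r1
    _ ≤ (n : ℝ) * (1 / 2) := mul_le_mul_of_nonneg_left r2 hnp.le
    _ = n / 2 := by ring

end Vale.Agent.P160.Half.G.Num6H183
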