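import Vale.Agent.P160.Half.GStmt4

/-! # P160, half rate, gap (G): the numeric leaf `Num6` (hedge, helper186) -/

open Finset Filter

namespace Vale.Agent.P160.Half.Num6H186

open Vale.Agent.P160.Half.G

theorem pv_ev (b : ℕ) : ∀ᶠ n : ℕ in atTop, b ≤ pv n := by
  refine eventually_atTop.2 ⟨2 ^ (10 * b), fun n hn => ?_⟩
  have h1 : 10 * b ≤ Nat.log 2 n := Nat.le_log_of_pow_le (by norm_num) hn
  unfold pv
  omega

theorem py_pow_le {n : ℕ} (hn : n ≠ 0) : py n ^ 10 ≤ n := by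
  have h1 : 2 ^ Nat.log 2 n ≤ n := Nat.pow_log_le_self 2 hn
  have h2 : py n ^ 10 = 2 ^ (pv n * 10) := by
    unfold py
    rw [← pow_mul]
  have h3 : pv n * 10 ≤ Nat.log 2 n := by
    unfold pv
    omega
  calc py n ^ 10 = 2 ^ (pv n * 10) := h2
    _ ≤ 2 ^ Nat.log 2 n := Nat.pow_le_pow_right (by norm_num) h3
    _ ≤ n := h1

theorem lt_pow (n : ℕ) : n < 2 ^ (10 * pv n + 10) := by
  have h1 : n < 2 ^ (Nat.log 2 n + 1) := Nat.lt_pow_succ_log_self (by norm_num) n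
  have h3 : Nat.log 2 n + 1 ≤ 10 * pv n + 10 := by
    unfold pv
    omega
  exact lt_of_lt_of_le h1 (Nat.pow_le_pow_right (by norm_num) h3)

theorem logb_le {n : ℕ} (hn : 1 ≤ n) : Real.logb 2 n ≤ 10 * (pv n : ℝ) + 10 := by
  have h1 : (n : ℝ) ≤ (2 : ℝ) ^ (10 * (pv n : ℝ) + 10) := by
    have h2 : (n : ℝ) < ((2 ^ (10 * pv n + 10) : ℕ) : ℝ) := by exact_mod_cast lt_pow n
    have h3 : (((2 ^ (10 * pv n + 10) : ℕ) : ℝ)) = (2 : ℝ) ^ (10 * (pv n : ℝ) + 10) := by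
      rw [show (10 * (pv n : ℝ) + 10) = ((10 * pv n + 10 : ℕ) : ℝ) by push_cast; ring, Real.rpow_natCast]
      push_cast
      rfl
    rw [← h3]
    exact h2.le
  have h0 : (0 : ℝ) < n := by exact_mod_cast hn
  rw [Real.logb_le_iff_le_rpow (by norm_num) h0]
  exact h1

theorem logb_fact_le {n : ℕ} (hn : 1 ≤ n) : Real.logb 2 n.factorial ≤ n * Real.logb 2 n := by
  have h0 : (0 : ℝ) < n := by exact_mod_cast hn
  have h1 : (n.factorial : ℝ) ≤ (n : ℝ) ^ n := by exact_mod_cast Nat.factorial_le_pow n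
  have h2 : Real.logb 2 n.factorial ≤ Real.logb 2 ((n : ℝ) ^ n) :=
    Real.logb_le_logb_of_le (by norm_num) (by exact_mod_cast n.factorial_pos) h1
  rwa [Real.logb_pow] at h2

theorem fin_bound {n K D v e : ℝ} (hn : 0 ≤ n) (hK : 1 ≤ K) (hD : 0 < D) (hv : 0 < v) (he : 0 < e)
    (heK : e * (10 ^ 6 * K ^ 4 * D) ≤ 4) (hvK : 1000 * K ^ 6 * D ^ 2 ≤ v) :
    K * ((22 * n * v) * (e * (K * D / v) + (K * D / v) ^ 2) +
        2 * (K * (2 * K * n * (11 * v))) * (e * (K * D / v) + K * (K * D / v) ^ 2)) ≤ n / 2 := by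
  have h9 : K * ((22 * n * v) * (e * (K * D / v) + (K * D / v) ^ 2) +
        2 * (K * (2 * K * n * (11 * v))) * (e * (K * D / v) + K * (K * D / v) ^ 2)) =
      n * (22 * (e * K ^ 2 * D) + 22 * (K ^ 3 * D ^ 2 / v) + 44 * (e * K ^ 4 * D) + 44 * (K ^ 6 * D ^ 2 / v)) := by
    field_simp
    ring
  rw [h9]
  have hK24 : K ^ 2 ≤ K ^ 4 := pow_le_pow_right₀ hK (by norm_num)
  have hK36 : K ^ 3 ≤ K ^ 6 := pow_le_pow_right₀ hK (by norm_num)
  have h10 : e * K ^ 4 * D ≤ 1 / 1000 := by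
    have : e * (10 ^ 6 * K ^ 4 * D) = 10 ^ 6 * (e * K ^ 4 * D) := by ring
    linarith
  have h11 : e * K ^ 2 * D ≤ 1 / 1000 := by
    refine le_trans ?_ h10
    gcongr
  have h12 : K ^ 6 * D ^ 2 / v ≤ 1 / 1000 := by
    rw [div_le_iff₀ hv]
    linarith
  have h13 : K ^ 3 * D ^ 2 / v ≤ 1 / 1000 := by
    refine le_trans ?_ h12
    gcongr
  have h14 : 22 * (e * K ^ 2 * D) + 22 * (K ^ 3 * D ^ 2 / v) + 44 * (e * K ^ 4 * D) + 44 * (K ^ 6 * D ^ 2 / v) ≤ 1 / 2 := by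
    linarith
  calc n * _ ≤ n * (1 / 2) := mul_le_mul_of_nonneg_left h14 hn
    _ = n / 2 := by ring

theorem term_le {n ρ K : ℕ} {L : ℝ} (hn0 : (0 : ℝ) < n) (hL1 : 1 ≤ L) (hr0 : (0 : ℝ) ≤ ρ) (hrK' : (ρ : ℝ) ≤ K) (hvy : pv n + 1 ≤ py n)
    (hy10 : py n ^ 10 ≤ n) (hKy : 2 * K ^ 2 ≤ py n) :
    2 * (ρ : ℝ) * (ρ * pa n) * py n * Real.logb 2 (py n + 1) ≤ n * L := by
  have hy1 : 1 ≤ py n := Nat.one_le_two_pow
  have hyR : (1 : ℝ) ≤ py n := by exact_mod_cast hy1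
  have h1 : Real.logb 2 ((py n : ℝ) + 1) ≤ py n := by
    have h2 : ((py n : ℝ) + 1) ≤ (2 : ℝ) ^ ((pv n : ℝ) + 1) := by
      rw [Real.rpow_add (by norm_num), Real.rpow_natCast, Real.rpow_one]
      have : (py n : ℝ) = (2 : ℝ) ^ pv n := by unfold py; push_cast; rfl
      rw [← this]
      linarith
    have h3 : Real.logb 2 ((py n : ℝ) + 1) ≤ (pv n : ℝ) + 1 := by
      rw [Real.logb_le_iff_le_rpow (by norm_num) (by linarith)]
      exact h2
    have h4 : (pv n : ℝ) + 1 ≤ py n := by exact_mod_cast hvy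
    linarith
  have h5 : (pa n : ℝ) = (py n : ℝ) ^ 3 := by unfold pa; push_cast; rfl
  have h6 : 2 * (K : ℝ) ^ 2 ≤ py n := by
    have : 2 * K ^ 2 ≤ py n := hKy
    exact_mod_cast this
  have h7 : (py n : ℝ) ^ 10 ≤ n := by exact_mod_cast hy10
  have h8 : (0 : ℝ) ≤ Real.logb 2 ((py n : ℝ) + 1) := Real.logb_nonneg (by norm_num) (by linarith)
  rw [h5]
  calc 2 * (ρ : ℝ) * (ρ * (py n : ℝ) ^ 3) * py n * Real.logb 2 (py n + 1)
      = (2 * (ρ : ℝ) ^ 2) * ((py n : ℝ) ^ 4 * Real.logb 2 (py n + 1)) := by ring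
    _ ≤ (2 * (K : ℝ) ^ 2) * ((py n : ℝ) ^ 4 * py n) := by gcongr
    _ ≤ py n * ((py n : ℝ) ^ 4 * py n) := by gcongr
    _ = (py n : ℝ) ^ 6 := by ring
    _ ≤ (py n : ℝ) ^ 10 := pow_le_pow_right₀ hyR (by norm_num)
    _ ≤ n := h7
    _ ≤ n * L := by nlinarith

theorem num6 : Num6 := by
  intro C J s₁ hs ρ hρ
  obtain ⟨K, hK⟩ : ∃ K : ℕ, K = J + 2 := ⟨_, rfl⟩
  obtain ⟨D, hD⟩ : ∃ D : ℕ, D = 4 * (C + 10) := ⟨_, rfl⟩
  filter_upwards [pv_ev (1000 * K ^ 6 * D ^ 2 + 100), eventually_ge_atTop 2] with n hv hn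
  have hv0 : (0 : ℝ) < pv n := by
    have : 0 < pv n := by omega
    exact_mod_cast this
  have hn0 : (0 : ℝ) < n := by
    have : 0 < n := by omega
    exact_mod_cast this
  have hn1 : (1 : ℝ) ≤ n := by
    have : 1 ≤ n := by omega
    exact_mod_cast this
  set L := Real.logb 2 n with hL
  have hL10 : L ≤ 10 * (pv n : ℝ) + 10 := logb_le (by omega)
  have hv100 : (100 : ℝ) ≤ pv n := by
    have : 100 ≤ pv n := by omega
    exact_mod_cast this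
  have hL11 : L ≤ 11 * (pv n : ℝ) := by linarith
  have hL1 : 1 ≤ L := by
    have h2 : Real.logb 2 2 ≤ L := Real.logb_le_logb_of_le (by norm_num) (by norm_num) (by exact_mod_cast hn)
    rwa [Real.logb_self_eq_one (by norm_num)] at h2
  have hr0 : (0 : ℝ) ≤ ρ := Nat.cast_nonneg _
  have hrK : (ρ : ℝ) + 1 ≤ K := by
    have : ρ + 1 ≤ K := by omega
    exact_mod_cast this
  have hrK' : (ρ : ℝ) ≤ K := by linarith
  have hK2 : (2 : ℝ) ≤ K := by
    have : 2 ≤ K := by omega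
    exact_mod_cast this
  have hK0 : (0 : ℝ) < K := by linarith
  have hD0 : (0 : ℝ) < D := by
    have : 0 < D := by omega
    exact_mod_cast this
  -- `y`
  have hy1 : 1 ≤ py n := Nat.one_le_two_pow
  have hvy : pv n + 1 ≤ py n := Nat.lt_two_pow_self
  have hy10 : py n ^ 10 ≤ n := py_pow_le (by omega)
  have hKv : 2 * K ^ 2 ≤ pv n := by
    have h1 : K ^ 2 ≤ K ^ 6 := Nat.pow_le_pow_right (by omega) (by norm_num)
    have h2 : 1 ≤ D ^ 2 := Nat.one_le_pow _ _ (by omega)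
    have h3 : K ^ 6 * 1 ≤ K ^ 6 * D ^ 2 := Nat.mul_le_mul_left _ h2
    nlinarith
  have hterm : 2 * (ρ : ℝ) * (ρ * pa n) * py n * Real.logb 2 (py n + 1) ≤ n * L :=
    term_le hn0 hL1 hr0 hrK' hvy hy10 (by omega)
  have hF1 : Real.logb 2 n.factorial + 2 * (ρ : ℝ) * (ρ * pa n) * py n * Real.logb 2 (py n + 1) ≤ 22 * n * pv n := by
    have := logb_fact_le (n := n) (by omega)
    have h2 : n * L ≤ n * (11 * (pv n : ℝ)) := by gcongr
    linarith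
  have hF0 : 0 ≤ Real.logb 2 n.factorial + 2 * (ρ : ℝ) * (ρ * pa n) * py n * Real.logb 2 (py n + 1) := by
    have h1 : 0 ≤ Real.logb 2 n.factorial :=
      Real.logb_nonneg (by norm_num) (by exact_mod_cast n.factorial_pos)
    have h2 : 0 ≤ Real.logb 2 ((py n : ℝ) + 1) := Real.logb_nonneg (by norm_num) (by linarith [(Nat.cast_nonneg (py n) : (0:ℝ) ≤ py n)])
    positivity
  -- `z / n`
  rw [← hD]
  set W : ℝ := ρ * pz D n / n with hW
  have hz : (pz D n : ℝ) ≤ D * n / pv n := by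
    unfold pz
    refine le_trans Nat.cast_div_le ?_
    push_cast
    exact le_refl _
  have hW0 : 0 ≤ W := by positivity
  have hWK : W ≤ K * D / pv n := by
    rw [hW]
    calc (ρ : ℝ) * pz D n / n ≤ K * (D * n / pv n) / n := by gcongr
      _ = K * D / pv n := by field_simp
  set e : ℝ := (1 / 2) ^ s₁ with he
  have he0 : 0 < e := by positivity
  have heK : e * (10 ^ 6 * (K : ℝ) ^ 4 * D) ≤ 4 := by
    have h1 : ((10 ^ 6 * (C + 10) * (J + 2) ^ 4 : ℕ) : ℝ) ≤ ((2 ^ s₁ : ℕ) : ℝ) := by exact_mod_cast hs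
    have h2 : (e : ℝ) * (2 : ℝ) ^ s₁ = 1 := by
      rw [he, ← mul_pow]; norm_num
    have h3 : (10 ^ 6 * (K : ℝ) ^ 4 * D) = 4 * ((10 ^ 6 * (C + 10) * (J + 2) ^ 4 : ℕ) : ℝ) := by
      rw [hK, hD]; push_cast; ring
    rw [h3]
    calc e * (4 * ((10 ^ 6 * (C + 10) * (J + 2) ^ 4 : ℕ) : ℝ)) ≤ e * (4 * ((2 ^ s₁ : ℕ) : ℝ)) := by gcongr
      _ = 4 * (e * (2 : ℝ) ^ s₁) := by push_cast; ring
      _ = 4 := by rw [h2]; norm_num
  have hvK : 1000 * (K : ℝ) ^ 6 * D ^ 2 ≤ pv n := by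
    have : 1000 * K ^ 6 * D ^ 2 ≤ pv n := by omega
    exact_mod_cast this
  have hB1 : e * W + W ^ 2 ≤ e * (K * D / pv n) + (K * D / pv n) ^ 2 := by gcongr
  have hB2 : e * W + ρ * W ^ 2 ≤ e * (K * D / pv n) + K * (K * D / pv n) ^ 2 := by gcongr
  have hJK : ((J : ℝ) + 2) = K := by rw [hK]; push_cast; rfl
  have hmain : ((ρ : ℝ) + 1) *
      ((Real.logb 2 n.factorial + 2 * ρ * (ρ * pa n) * py n * Real.logb 2 (py n + 1)) * (e * W + W ^ 2) +
        2 * (ρ * (2 * (J + 2) * n * L)) * (e * W + ρ * W ^ 2)) ≤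
      K * ((22 * n * pv n) * (e * (K * D / pv n) + (K * D / pv n) ^ 2) +
        2 * (K * (2 * K * n * (11 * pv n))) * (e * (K * D / pv n) + K * (K * D / pv n) ^ 2)) := by
    rw [hJK]
    have hL0 : 0 ≤ L := by linarith
    have hX : 0 ≤ e * W + W ^ 2 := by positivity
    have hY : 0 ≤ e * W + ρ * W ^ 2 := by positivity
    refine mul_le_mul hrK ?_ (by positivity) hK0.le
    refine add_le_add (mul_le_mul hF1 hB1 hX (by positivity)) (mul_le_mul ?_ hB2 hY (by positivity))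
    gcongr
  exact le_trans hmain (fin_bound hn0.le (by linarith) hD0 hv0 he0 heK hvK)

end Vale.Agent.P160.Half.Num6H186
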