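import Vale.Agent.P160.Half.GStmt4

/-! # P160, half rate: number leaf N6 (helper379) -/

set_option autoImplicit false

open Filter

namespace Vale.Agent.P160.Half.G.N6H

theorem pv_ge (m : ℕ) : ∀ᶠ n : ℕ in atTop, m ≤ pv n := by
  filter_upwards [eventually_ge_atTop (2 ^ (10 * m))] with n hn
  have h1 : 10 * m ≤ Nat.log 2 n := Nat.le_log_of_pow_le (by norm_num) hn
  unfold pv
  omega

theorem logb_le {n : ℕ} (hn : 0 < n) (h : 10 ≤ pv n) : Real.logb 2 n ≤ 11 * pv n := by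
  have h1 : n < 2 ^ (Nat.log 2 n + 1) := Nat.lt_pow_succ_log_self (by norm_num) n
  have h2 : Nat.log 2 n + 1 ≤ 11 * pv n := by
    unfold pv at *
    omega
  have h3 : (n : ℝ) ≤ (2 : ℝ) ^ (11 * pv n) := by
    have h4 : n ≤ 2 ^ (11 * pv n) := h1.le.trans (Nat.pow_le_pow_right (by norm_num) h2)
    exact_mod_cast h4
  have hn' : (0 : ℝ) < n := by exact_mod_cast hn
  calc Real.logb 2 n ≤ Real.logb 2 ((2 : ℝ) ^ (11 * pv n)) :=
        Real.logb_le_logb_of_le (by norm_num) hn' h3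
    _ = ((11 * pv n : ℕ) : ℝ) := by
        rw [Real.logb_pow]
        simp
    _ = 11 * pv n := by push_cast; ring

theorem logb_nonneg' {n : ℕ} (hn : 0 < n) : 0 ≤ Real.logb 2 n :=
  Real.logb_nonneg (by norm_num) (by exact_mod_cast hn)

theorem logb_fact {n : ℕ} (hn : 0 < n) (h : 10 ≤ pv n) : Real.logb 2 n.factorial ≤ 11 * (n * pv n) := by
  have hn' : (0 : ℝ) < n := by exact_mod_cast hn
  have h1 : (n.factorial : ℝ) ≤ (n : ℝ) ^ n := by exact_mod_cast Nat.factorial_le_pow n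
  calc Real.logb 2 n.factorial ≤ Real.logb 2 ((n : ℝ) ^ n) :=
        Real.logb_le_logb_of_le (by norm_num) (by exact_mod_cast n.factorial_pos) h1
    _ = n * Real.logb 2 n := by rw [Real.logb_pow]
    _ ≤ n * (11 * pv n) := mul_le_mul_of_nonneg_left (logb_le hn h) hn'.le
    _ = 11 * (n * pv n) := by ring

theorem py_pow {n : ℕ} (hn : 0 < n) : py n ^ 10 ≤ n := by
  unfold py
  rw [← pow_mul]
  have h1 : pv n * 10 ≤ Nat.log 2 n := Nat.div_mul_le_self _ _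
  exact (Nat.pow_le_pow_right (by norm_num) h1).trans (Nat.pow_log_le_self 2 hn.ne')

theorem pz_div {n : ℕ} (D : ℕ) (hn : 0 < n) (h : 10 ≤ pv n) : (pz D n : ℝ) / n ≤ D / pv n := by
  have hn' : (0 : ℝ) < n := by exact_mod_cast hn
  have hp : (0 : ℝ) < pv n := by exact_mod_cast (by omega : 0 < pv n)
  have h1 : (pz D n : ℝ) ≤ (D * n : ℕ) / (pv n : ℝ) := by
    unfold pz
    exact Nat.cast_div_le
  rw [div_le_iff₀ hn']
  calc (pz D n : ℝ) ≤ (D * n : ℕ) / (pv n : ℝ) := h1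
    _ = D / pv n * n := by push_cast; ring

/-- the middle term `2 ρ (ρ a) y log2 (y+1) ≤ n` -/
theorem mid_le (ρ : ℕ) : ∀ᶠ n : ℕ in atTop,
    2 * (ρ : ℝ) * (ρ * pa n) * py n * Real.logb 2 (py n + 1) ≤ n := by
  filter_upwards [pv_ge (2 * ρ ^ 2 + 10), eventually_ge_atTop 1] with n hn h1
  have hy : 2 * ρ ^ 2 + 10 ≤ py n := hn.trans (Nat.lt_two_pow_self).le
  have hlog : Real.logb 2 ((py n : ℝ) + 1) ≤ py n := by
    have h2 : ((py n : ℝ) + 1) ≤ (2 : ℝ) ^ (py n) := by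
      have : py n + 1 ≤ 2 ^ (py n) := Nat.lt_two_pow_self
      exact_mod_cast this
    calc Real.logb 2 ((py n : ℝ) + 1) ≤ Real.logb 2 ((2 : ℝ) ^ (py n)) :=
          Real.logb_le_logb_of_le (by norm_num) (by positivity) h2
      _ = py n := by rw [Real.logb_pow]; simp
  have h10 : py n ^ 10 ≤ n := py_pow h1
  have h6 : 2 * ρ ^ 2 * (py n ^ 3) * py n * py n ≤ n := by
    calc 2 * ρ ^ 2 * (py n ^ 3) * py n * py n ≤ py n * (py n ^ 3) * py n * py n := by gcongr; omega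
      _ = py n ^ 6 := by ring
      _ ≤ py n ^ 10 := Nat.pow_le_pow_right (by omega) (by norm_num)
      _ ≤ n := h10
  have h7 : ((2 * ρ ^ 2 * (py n ^ 3) * py n * py n : ℕ) : ℝ) ≤ n := by exact_mod_cast h6
  calc 2 * (ρ : ℝ) * (ρ * pa n) * py n * Real.logb 2 (py n + 1)
      ≤ 2 * (ρ : ℝ) * (ρ * pa n) * py n * py n := by gcongr
    _ = ((2 * ρ ^ 2 * (py n ^ 3) * py n * py n : ℕ) : ℝ) := by unfold pa; push_cast; ring
    _ ≤ n := h7

theorem num6 : Num6 := by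
  intro C J s₁ hs ρ hρ
  filter_upwards [pv_ge (10 + 4 * ((ρ + 1) * (12 + 44 * ρ ^ 2 * (J + 2)) * (4 * ρ * (C + 10)) ^ 2)),
    eventually_ge_atTop 1, mid_le ρ] with n hpv h1 hmid
  have hn' : (0 : ℝ) < n := by exact_mod_cast h1
  have h10 : 10 ≤ pv n := by omega
  have hp : (0 : ℝ) < pv n := by exact_mod_cast (by omega : 0 < pv n)
  set v : ℝ := (pv n : ℝ) with hv
  have hv1 : 1 ≤ v := by rw [hv]; exact_mod_cast (by omega : 1 ≤ pv n)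
  set D : ℝ := 4 * ((C : ℝ) + 10) with hD
  have hD0 : 0 < D := by positivity
  have hq : (ρ : ℝ) * pz (4 * (C + 10)) n / n ≤ ρ * D / v := by
    have h2 := pz_div (4 * (C + 10)) h1 h10
    push_cast at h2
    calc (ρ : ℝ) * pz (4 * (C + 10)) n / n = ρ * (pz (4 * (C + 10)) n / n) := by ring
      _ ≤ ρ * (4 * ((C : ℝ) + 10) / pv n) := mul_le_mul_of_nonneg_left h2 (Nat.cast_nonneg _)
      _ = ρ * D / v := by rw [hD, hv]; ring
  set q : ℝ := (ρ : ℝ) * pz (4 * (C + 10)) n / n with hqd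
  have hq0 : 0 ≤ q := by positivity
  set e : ℝ := (1 / 2 : ℝ) ^ s₁ with he
  have he0 : 0 < e := by positivity
  have hρ' : (ρ : ℝ) ≤ J := by exact_mod_cast hρ
  have hes : 10 ^ 6 * ((C : ℝ) + 10) * ((J : ℝ) + 2) ^ 4 * e ≤ 1 := by
    have h3 : (10 : ℝ) ^ 6 * ((C : ℝ) + 10) * ((J : ℝ) + 2) ^ 4 ≤ 2 ^ s₁ := by exact_mod_cast hs
    calc 10 ^ 6 * ((C : ℝ) + 10) * ((J : ℝ) + 2) ^ 4 * e ≤ 2 ^ s₁ * e := by gcongr
      _ = 1 := by rw [he, ← mul_pow]; norm_num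
  have hL : Real.logb 2 n ≤ 11 * v := logb_le h1 h10
  have hL0 : 0 ≤ Real.logb 2 n := logb_nonneg' h1
  have hF : Real.logb 2 n.factorial ≤ 11 * (n * v) := logb_fact h1 h10
  -- first bracket
  have hA : Real.logb 2 n.factorial + 2 * (ρ : ℝ) * (ρ * pa n) * py n * Real.logb 2 (py n + 1) ≤ 12 * (n * v) := by
    have : (n : ℝ) ≤ n * v := le_mul_of_one_le_right hn'.le hv1
    linarith
  have hB : 2 * ((ρ : ℝ) * (2 * (J + 2) * n * Real.logb 2 n)) ≤ 44 * (ρ * (J + 2)) * (n * v) := by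
    calc 2 * ((ρ : ℝ) * (2 * (J + 2) * n * Real.logb 2 n)) ≤ 2 * ((ρ : ℝ) * (2 * (J + 2) * n * (11 * v))) := by gcongr
      _ = 44 * (ρ * (J + 2)) * (n * v) := by ring
  have hqv : v * q ≤ ρ * D := by
    calc v * q ≤ v * (ρ * D / v) := mul_le_mul_of_nonneg_left hq hp.le
      _ = ρ * D := by field_simp
  have hqq : v * q ^ 2 ≤ (ρ * D) ^ 2 / v := by
    rw [le_div_iff₀ hp]
    calc v * q ^ 2 * v = (v * q) ^ 2 := by ring
      _ ≤ (ρ * D) ^ 2 := by gcongr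
  have hm1 : v * (e * q + q ^ 2) ≤ e * (ρ * D) + (ρ * D) ^ 2 / v := by
    have : v * (e * q + q ^ 2) = e * (v * q) + v * q ^ 2 := by ring
    rw [this]
    exact add_le_add (mul_le_mul_of_nonneg_left hqv he0.le) hqq
  have hm2 : v * (e * q + ρ * q ^ 2) ≤ e * (ρ * D) + ρ * ((ρ * D) ^ 2 / v) := by
    have : v * (e * q + ρ * q ^ 2) = e * (v * q) + ρ * (v * q ^ 2) := by ring
    rw [this]
    exact add_le_add (mul_le_mul_of_nonneg_left hqv he0.le) (mul_le_mul_of_nonneg_left hqq (Nat.cast_nonneg _))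
  have hv4 : ((ρ : ℝ) + 1) * (12 + 44 * ρ ^ 2 * (J + 2)) * (ρ * D) ^ 2 / v ≤ 1 / 4 := by
    rw [div_le_iff₀ hp]
    have h5 : 4 * ((ρ + 1) * (12 + 44 * ρ ^ 2 * (J + 2)) * (4 * ρ * (C + 10)) ^ 2) ≤ pv n := by omega
    have h6 : (4 : ℝ) * (((ρ : ℝ) + 1) * (12 + 44 * ρ ^ 2 * (J + 2)) * (4 * ρ * (C + 10)) ^ 2) ≤ v := by
      rw [hv]; exact_mod_cast h5
    have h7 : (ρ * D) ^ 2 = (4 * (ρ : ℝ) * (C + 10)) ^ 2 := by rw [hD]; ring
    rw [h7]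
    linarith
  have hfirst : ((ρ : ℝ) + 1) * (12 + 44 * (ρ * (J + 2))) * (e * (ρ * D)) ≤ 1 / 4 := by
    have hJ : (0 : ℝ) ≤ J := Nat.cast_nonneg _
    have hρ0 : (0 : ℝ) ≤ ρ := Nat.cast_nonneg _
    have g1 : (ρ : ℝ) + 1 ≤ J + 2 := by linarith
    have g2 : 12 + 44 * ((ρ : ℝ) * (J + 2)) ≤ 56 * (J + 2) ^ 2 := by nlinarith
    have g3 : (ρ : ℝ) * D ≤ 4 * (J + 2) * (C + 10) := by
      rw [hD]
      have : (ρ : ℝ) * (4 * (C + 10)) ≤ (J + 2) * (4 * (C + 10)) := by gcongr; linarith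
      linarith
    calc ((ρ : ℝ) + 1) * (12 + 44 * (ρ * (J + 2))) * (e * (ρ * D))
        ≤ (J + 2) * (56 * (J + 2) ^ 2) * (e * (4 * (J + 2) * (C + 10))) := by gcongr
      _ = 224 / 10 ^ 6 * (10 ^ 6 * ((C : ℝ) + 10) * ((J : ℝ) + 2) ^ 4 * e) := by ring
      _ ≤ 224 / 10 ^ 6 * 1 := by gcongr
      _ ≤ 1 / 4 := by norm_num
  have hρ0 : (0 : ℝ) ≤ ρ := Nat.cast_nonneg _
  have hJ0 : (0 : ℝ) ≤ J := Nat.cast_nonneg _
  calc ((ρ : ℝ) + 1) *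
      ((Real.logb 2 n.factorial + 2 * ρ * (ρ * pa n) * py n * Real.logb 2 (py n + 1)) * (e * q + q ^ 2) +
        2 * (ρ * (2 * (J + 2) * n * Real.logb 2 n)) * (e * q + ρ * q ^ 2))
      ≤ ((ρ : ℝ) + 1) * (12 * (n * v) * (e * q + q ^ 2) + 44 * (ρ * (J + 2)) * (n * v) * (e * q + ρ * q ^ 2)) := by
        gcongr
    _ = ((ρ : ℝ) + 1) * n * (12 * (v * (e * q + q ^ 2)) + 44 * (ρ * (J + 2)) * (v * (e * q + ρ * q ^ 2))) := by ring
    _ ≤ ((ρ : ℝ) + 1) * n * (12 * (e * (ρ * D) + (ρ * D) ^ 2 / v) + 44 * (ρ * (J + 2)) * (e * (ρ * D) + ρ * ((ρ * D) ^ 2 / v))) := by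
        gcongr
    _ = n * (((ρ : ℝ) + 1) * (12 + 44 * (ρ * (J + 2))) * (e * (ρ * D)) + ((ρ : ℝ) + 1) * (12 + 44 * ρ ^ 2 * (J + 2)) * (ρ * D) ^ 2 / v) := by
        ring
    _ ≤ n * (1 / 4 + 1 / 4) := by gcongr
    _ = (n : ℝ) / 2 := by ring

end Vale.Agent.P160.Half.G.N6H
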