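import Vale.Agent.P160.Half.GStmt4

/-! # P160, half rate: number facts, `Num6` (helper525) -/

open Finset Filter

namespace Vale.Agent.P160.Half.G.N525

/-- basic facts about `pv`, `py` -/
theorem base (n : ℕ) (h : 80 ≤ Real.logb 2 n) :
    Real.logb 2 n / 20 ≤ pv n ∧ (py n) ^ 10 ≤ n ∧ 0 < n ∧ Real.logb 2 n / 20 ≤ py n ∧ 1 ≤ pv n ∧ (pv n : ℝ) ≤ Real.logb 2 n / 10 := by
  have hn : 0 < n := by
    rcases Nat.eq_zero_or_pos n with h0 | h0
    · rw [h0, Nat.cast_zero, Real.logb_zero] at h; linarith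
    · exact h0
  have h1 : Real.logb 2 n < (Nat.log 2 n : ℝ) + 1 := by
    rw [Real.logb_lt_iff_lt_rpow (by norm_num) (by exact_mod_cast hn)]
    have := Nat.lt_pow_succ_log_self (b := 2) (by norm_num) n
    have h2 : (n : ℝ) < (2 : ℝ) ^ (Nat.log 2 n + 1) := by exact_mod_cast this
    rwa [← Nat.cast_succ, Real.rpow_natCast]
  have h1' : (Nat.log 2 n : ℝ) ≤ Real.logb 2 n := by
    rw [Real.le_logb_iff_rpow_le (by norm_num) (by exact_mod_cast hn), Real.rpow_natCast]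
    exact_mod_cast Nat.pow_log_le_self 2 hn.ne'
  have h2 : Nat.log 2 n < 10 * pv n + 10 := by
    unfold pv; omega
  have h3 : 10 * pv n ≤ Nat.log 2 n := by
    unfold pv; omega
  have h2' : (Nat.log 2 n : ℝ) < 10 * pv n + 10 := by exact_mod_cast h2
  have h3' : (10 * pv n : ℝ) ≤ Nat.log 2 n := by exact_mod_cast h3
  have hv : Real.logb 2 n / 20 ≤ pv n := by
    have h4 : (Nat.log 2 n : ℝ) + 1 ≤ 10 * pv n + 10 := by
      have : Nat.log 2 n + 1 ≤ 10 * pv n + 10 := h2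
      exact_mod_cast this
    linarith
  refine ⟨hv, ?_, hn, ?_, ?_, ?_⟩
  · unfold py
    rw [← pow_mul]
    exact (Nat.pow_le_pow_right (by norm_num) (by omega)).trans (Nat.pow_log_le_self 2 hn.ne')
  · refine hv.trans ?_
    have : pv n < py n := Nat.lt_two_pow_self
    exact_mod_cast this.le
  · have : (0 : ℝ) < pv n := lt_of_lt_of_le (by linarith) hv
    exact_mod_cast this
  · linarith

theorem logb_factorial (n : ℕ) (_hn : 0 < n) : Real.logb 2 n.factorial ≤ n * Real.logb 2 n := by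
  have h1 : (n.factorial : ℝ) ≤ (n : ℝ) ^ n := by exact_mod_cast Nat.factorial_le_pow n
  have h2 : Real.logb 2 n.factorial ≤ Real.logb 2 ((n : ℝ) ^ n) :=
    Real.logb_le_logb_of_le (by norm_num) (by exact_mod_cast n.factorial_pos) h1
  rwa [Real.logb_pow] at h2

theorem arith (J C S n ℓ ρ w A : ℝ) (hJ : 0 ≤ J) (hC : 0 ≤ C) (hS0 : 0 ≤ S) (hn : 0 < n) (hℓ : 0 < ℓ) (hρ0 : 0 ≤ ρ) (hρJ : ρ ≤ J)
    (hw0 : 0 ≤ w) (hw : w ≤ 80 * J * (C + 10) / ℓ) (hA0 : 0 ≤ A) (hA : A ≤ 2 * n * ℓ) (hS1 : 10 ^ 6 * (C + 10) * (J + 2) ^ 4 * S ≤ 1)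
    (hL : 4 * ((J + 1) * (2 + 4 * J ^ 2 * (J + 2))) * (80 * J * (C + 10)) ^ 2 ≤ ℓ) :
    (ρ + 1) * (A * (S * w + w ^ 2) + 2 * (ρ * (2 * (J + 2) * n * ℓ)) * (S * w + ρ * w ^ 2)) ≤ n / 2 := by
  obtain ⟨K, hK⟩ : ∃ K, K = 80 * J * (C + 10) := ⟨_, rfl⟩
  obtain ⟨c, hc⟩ : ∃ c, c = (J + 1) * (2 + 4 * J ^ 2 * (J + 2)) := ⟨_, rfl⟩
  obtain ⟨W, hW⟩ : ∃ W, W = K / ℓ := ⟨_, rfl⟩
  rw [← hK] at hw hL
  rw [← hc] at hL
  rw [← hW] at hw
  have hK0 : 0 ≤ K := by rw [hK]; positivity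
  have hc0 : 0 ≤ c := by rw [hc]; positivity
  have hW0 : 0 ≤ W := by rw [hW]; positivity
  have hℓW : ℓ * W = K := by rw [hW]; field_simp
  have hww : w ^ 2 ≤ W ^ 2 := pow_le_pow_left₀ hw0 hw 2
  have h1 : A * (S * w + w ^ 2) ≤ 2 * n * (S * K + K * W) := by
    calc A * (S * w + w ^ 2) ≤ (2 * n * ℓ) * (S * W + W ^ 2) :=
          mul_le_mul hA (add_le_add (mul_le_mul_of_nonneg_left hw hS0) hww) (by positivity) (by positivity)
      _ = 2 * n * (S * (ℓ * W) + (ℓ * W) * W) := by ring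
      _ = _ := by rw [hℓW]
  have h2 : 2 * (ρ * (2 * (J + 2) * n * ℓ)) * (S * w + ρ * w ^ 2) ≤ 4 * J * (J + 2) * n * (S * K + J * K * W) := by
    calc 2 * (ρ * (2 * (J + 2) * n * ℓ)) * (S * w + ρ * w ^ 2) ≤ 2 * (J * (2 * (J + 2) * n * ℓ)) * (S * W + J * W ^ 2) := by
          refine mul_le_mul ?_ ?_ (by positivity) (by positivity)
          · exact mul_le_mul_of_nonneg_left (mul_le_mul_of_nonneg_right hρJ (by positivity)) (by norm_num)
          · exact add_le_add (mul_le_mul_of_nonneg_left hw hS0) (mul_le_mul hρJ hww (by positivity) hJ)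
      _ = 4 * J * (J + 2) * n * (S * (ℓ * W) + J * (ℓ * W) * W) := by ring
      _ = _ := by rw [hℓW]
  have h3 : c * (K * W) ≤ 1 / 4 := by
    rw [hW]
    have : c * (K * (K / ℓ)) = c * K ^ 2 / ℓ := by ring
    rw [this, div_le_iff₀ hℓ]
    linarith
  have h4 : (J + 1) * (2 + 4 * J * (J + 2)) * (S * K) ≤ 1 / 4 := by
    have h5 : (J + 1) * (2 + 4 * J * (J + 2)) * J ≤ 4 * (J + 2) ^ 4 := by
      have e1 : J + 1 ≤ J + 2 := by linarith
      have e2 : 2 + 4 * J * (J + 2) ≤ 4 * (J + 2) ^ 2 := by nlinarith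
      have e3 : J ≤ J + 2 := by linarith
      calc (J + 1) * (2 + 4 * J * (J + 2)) * J ≤ (J + 2) * (4 * (J + 2) ^ 2) * (J + 2) :=
            mul_le_mul (mul_le_mul e1 e2 (by positivity) (by positivity)) e3 hJ (by positivity)
        _ = _ := by ring
    calc (J + 1) * (2 + 4 * J * (J + 2)) * (S * K) =
          80 * (((J + 1) * (2 + 4 * J * (J + 2)) * J) * ((C + 10) * S)) := by rw [hK]; ring
      _ ≤ 80 * ((4 * (J + 2) ^ 4) * ((C + 10) * S)) :=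
          mul_le_mul_of_nonneg_left (mul_le_mul_of_nonneg_right h5 (by positivity)) (by norm_num)
      _ = 320 / 10 ^ 6 * (10 ^ 6 * (C + 10) * (J + 2) ^ 4 * S) := by ring
      _ ≤ 320 / 10 ^ 6 * 1 := mul_le_mul_of_nonneg_left hS1 (by norm_num)
      _ ≤ 1 / 4 := by norm_num
  calc (ρ + 1) * (A * (S * w + w ^ 2) + 2 * (ρ * (2 * (J + 2) * n * ℓ)) * (S * w + ρ * w ^ 2)) ≤
        (J + 1) * (2 * n * (S * K + K * W) + 4 * J * (J + 2) * n * (S * K + J * K * W)) :=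
        mul_le_mul (by linarith) (add_le_add h1 h2) (by positivity) (by positivity)
    _ = n * ((J + 1) * (2 + 4 * J * (J + 2)) * (S * K) + c * (K * W)) := by rw [hc]; ring
    _ ≤ n * (1 / 4 + 1 / 4) := mul_le_mul_of_nonneg_left (add_le_add h4 h3) hn.le
    _ = n / 2 := by ring

theorem num6 : Num6 := by
  intro C J s₁ hs ρ hρ
  have hlog : Tendsto (fun n : ℕ => Real.logb 2 (n : ℝ)) atTop atTop :=
    (Real.tendsto_logb_atTop (by norm_num)).comp tendsto_natCast_atTop_atTop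
  have hc0 : (0 : ℝ) ≤ 4 * (((J : ℝ) + 1) * (2 + 4 * J ^ 2 * (J + 2))) * (80 * J * (C + 10)) ^ 2 := by positivity
  filter_upwards [hlog.eventually_ge_atTop (80 + 40 * J ^ 2 + 4 * (((J : ℝ) + 1) * (2 + 4 * J ^ 2 * (J + 2))) * (80 * J * (C + 10)) ^ 2)]
    with n hn
  have hJ2 : (0 : ℝ) ≤ 40 * (J : ℝ) ^ 2 := by positivity
  have hℓ80 : 80 ≤ Real.logb 2 (n : ℝ) := by linarith
  obtain ⟨hv, hy10, hn0, hy, hv1, -⟩ := base n hℓ80
  have hℓ0 : 0 < Real.logb 2 (n : ℝ) := by linarith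
  have hnR : (0 : ℝ) < n := by exact_mod_cast hn0
  have hρJ : (ρ : ℝ) ≤ J := by exact_mod_cast hρ
  have hρ0 : (0 : ℝ) ≤ ρ := Nat.cast_nonneg _
  have hy1 : 2 * (J : ℝ) ^ 2 ≤ (py n : ℝ) := by linarith
  have hy4 : (4 : ℝ) ≤ (py n : ℝ) := by linarith
  have hyn : (py n : ℝ) ^ 10 ≤ n := by exact_mod_cast hy10
  have hy5 : (py n : ℝ) ^ 5 ≤ n := le_trans (pow_le_pow_right₀ (by linarith) (by norm_num)) hyn
  have hlogy : Real.logb 2 ((py n : ℝ) + 1) ≤ Real.logb 2 (n : ℝ) := by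
    refine Real.logb_le_logb_of_le (by norm_num) (by linarith) ?_
    have h1 : (py n : ℝ) + 1 ≤ (py n : ℝ) ^ 5 := by
      have h2 : (py n : ℝ) ^ 2 ≤ (py n : ℝ) ^ 5 := pow_le_pow_right₀ (by linarith) (by norm_num)
      nlinarith
    exact h1.trans hy5
  have hlogy0 : 0 ≤ Real.logb 2 ((py n : ℝ) + 1) := Real.logb_nonneg (by norm_num) (by linarith)
  have ha : (pa n : ℝ) = (py n : ℝ) ^ 3 := by unfold pa; push_cast; rfl
  have h3 : 2 * (ρ : ℝ) * (ρ * (py n : ℝ) ^ 3) * (py n : ℝ) ≤ n := by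
    have h4 : (ρ : ℝ) * ρ ≤ J * J := mul_le_mul hρJ hρJ hρ0 (by positivity)
    calc 2 * (ρ : ℝ) * (ρ * (py n : ℝ) ^ 3) * (py n : ℝ) = (ρ * ρ) * (2 * (py n : ℝ) ^ 4) := by ring
      _ ≤ (J * J) * (2 * (py n : ℝ) ^ 4) := mul_le_mul_of_nonneg_right h4 (by positivity)
      _ = (2 * (J : ℝ) ^ 2) * (py n : ℝ) ^ 4 := by ring
      _ ≤ (py n : ℝ) * (py n : ℝ) ^ 4 := mul_le_mul_of_nonneg_right hy1 (by positivity)
      _ = (py n : ℝ) ^ 5 := by ring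
      _ ≤ n := hy5
  have hf0 : 0 ≤ Real.logb 2 (n.factorial : ℝ) := Real.logb_nonneg (by norm_num) (by exact_mod_cast n.factorial_pos)
  refine arith J C ((1 / 2) ^ s₁) n (Real.logb 2 (n : ℝ)) ρ (ρ * pz (4 * (C + 10)) n / n)
    (Real.logb 2 n.factorial + 2 * ρ * (ρ * pa n) * py n * Real.logb 2 (py n + 1)) (Nat.cast_nonneg _) (Nat.cast_nonneg _) (by positivity)
    hnR hℓ0 hρ0 hρJ (by positivity) ?_ (add_nonneg hf0 (by positivity)) ?_ ?_ (by linarith)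
  · -- density of zeros
    have hvp : (0 : ℝ) < pv n := by exact_mod_cast hv1
    have h1 : (pz (4 * (C + 10)) n : ℝ) ≤ ((4 * (C + 10) * n : ℕ) : ℝ) / (pv n : ℝ) := by
      unfold pz; exact Nat.cast_div_le
    have hz0 : (0 : ℝ) ≤ (pz (4 * (C + 10)) n : ℝ) := Nat.cast_nonneg _
    have h2 : (pz (4 * (C + 10)) n : ℝ) * pv n ≤ 4 * (C + 10) * n := by
      rw [le_div_iff₀ hvp] at h1
      push_cast at h1
      exact h1
    have hz1 : (pz (4 * (C + 10)) n : ℝ) / n ≤ 80 * (C + 10) / Real.logb 2 (n : ℝ) := by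
      rw [div_le_div_iff₀ hnR hℓ0]
      have h3 : (pz (4 * (C + 10)) n : ℝ) * (Real.logb 2 (n : ℝ) / 20) ≤ (pz (4 * (C + 10)) n : ℝ) * pv n :=
        mul_le_mul_of_nonneg_left hv hz0
      linarith
    calc (ρ : ℝ) * (pz (4 * (C + 10)) n : ℝ) / n = ρ * ((pz (4 * (C + 10)) n : ℝ) / n) := by ring
      _ ≤ J * (80 * (C + 10) / Real.logb 2 (n : ℝ)) := mul_le_mul hρJ hz1 (by positivity) (by positivity)
      _ = _ := by ring
  · have h1 := logb_factorial n hn0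
    have h2 : 2 * (ρ : ℝ) * (ρ * pa n) * py n * Real.logb 2 (py n + 1) ≤ n * Real.logb 2 (n : ℝ) := by
      rw [ha]
      exact mul_le_mul h3 hlogy hlogy0 hnR.le
    linarith
  · have h1 : (10 ^ 6 * ((C : ℝ) + 10) * (J + 2) ^ 4) ≤ 2 ^ s₁ := by exact_mod_cast hs
    rw [one_div, inv_pow, ← div_eq_mul_inv, div_le_one (by positivity)]
    exact h1

end Vale.Agent.P160.Half.G.N525
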