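import Vale.Agent.P160.Half.GStmt4

/-! # P160, gap (G): `Num8` of `GStmt4.lean`. -/

open Finset Filter

namespace Vale.Agent.P160.Half.G.H693

theorem num8_aux (k : ℕ) : 16 * ((233 + 10 * k) * (43 + 2 * k)) ≤ 2 ^ (19 + k) := by
  induction k with
  | zero => norm_num
  | succ k ih =>
    have h : 2 ^ (19 + (k + 1)) = 2 * 2 ^ (19 + k) := by
      rw [← add_assoc, pow_succ]
      ring
    rw [h]
    nlinarith [Nat.zero_le k, Nat.zero_le (k * k)]

theorem num8 : Num8 := by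
  intro M hM
  refine ⟨max M (2 ^ 19), ?_⟩
  intro l hl
  have hlM : M ≤ l := (le_max_left _ _).trans hl
  have hl2 : 2 ^ 19 ≤ l := (le_max_right _ _).trans hl
  have hl0 : l ≠ 0 := by omega
  have hlog : 19 ≤ Nat.log 2 l := Nat.le_log_of_pow_le (by norm_num) hl2
  obtain ⟨k, hk⟩ : ∃ k, Nat.log 2 l = 19 + k := ⟨Nat.log 2 l - 19, by omega⟩
  have hlo : 2 ^ (19 + k) ≤ l := by
    rw [← hk]
    exact Nat.pow_log_le_self 2 hl0
  have hhi : l < 2 ^ (20 + k) := by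
    have h := Nat.lt_pow_succ_log_self (b := 2) (by norm_num) l
    rw [hk] at h
    have h2 : (19 + k).succ = 20 + k := by omega
    rwa [h2] at h
  have haux := num8_aux k
  refine ⟨33 + 10 * (20 + k), ?_, ?_⟩
  · have hlR : (0 : ℝ) < l := by
      have : 0 < l := by omega
      exact_mod_cast this
    have h1 : (4 * (l : ℝ) * M + 1) ≤ 2 ^ (43 + 2 * k) := by
      have h2 : 4 * l * M + 1 ≤ 2 ^ (43 + 2 * k) := by
        have h3 : 4 * l * M + 1 ≤ 8 * (l * l) := by nlinarith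
        have h4 : l * l ≤ 2 ^ (20 + k) * 2 ^ (20 + k) := Nat.mul_le_mul hhi.le hhi.le
        calc 4 * l * M + 1 ≤ 8 * (l * l) := h3
          _ ≤ 8 * (2 ^ (20 + k) * 2 ^ (20 + k)) := Nat.mul_le_mul_left _ h4
          _ = 2 ^ (43 + 2 * k) := by
            have : 43 + 2 * k = 3 + (20 + k) + (20 + k) := by ring
            rw [this, pow_add, pow_add]
            ring
      exact_mod_cast h2
    have h5 : Real.logb 2 (4 * (l : ℝ) * M + 1) ≤ (43 + 2 * k : ℕ) := by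
      have hpos : (0 : ℝ) < 4 * (l : ℝ) * M + 1 := by positivity
      rw [Real.logb_le_iff_le_rpow (by norm_num) hpos, Real.rpow_natCast]
      exact h1
    have h6 : (((33 + 10 * (20 + k) : ℕ)) : ℝ) * Real.logb 2 (4 * (l : ℝ) * M + 1) ≤
        ((33 + 10 * (20 + k) : ℕ) : ℝ) * ((43 + 2 * k : ℕ) : ℝ) :=
      mul_le_mul_of_nonneg_left h5 (Nat.cast_nonneg _)
    refine h6.trans ?_
    rw [le_div_iff₀ (by norm_num)]
    have h7 : (33 + 10 * (20 + k)) * (43 + 2 * k) * 16 ≤ l := by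
      calc (33 + 10 * (20 + k)) * (43 + 2 * k) * 16 = 16 * ((233 + 10 * k) * (43 + 2 * k)) := by ring
        _ ≤ 2 ^ (19 + k) := haux
        _ ≤ l := hlo
    exact_mod_cast h7
  · have hM1 : 1 ≤ l * M := Nat.one_le_iff_ne_zero.2 (by positivity)
    have h1 : l * M ≤ l * l := Nat.mul_le_mul_left _ hlM
    have h2 : l * l ≤ 2 ^ (20 + k) * 2 ^ (20 + k) := Nat.mul_le_mul hhi.le hhi.le
    have h3 : 10 * l * M + 10 ≤ 20 * (l * M) := by nlinarith
    have h4 : 2 * l * M + 2 ≤ 4 * (l * M) := by nlinarith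
    have h5 : l * M ≤ 2 ^ (20 + k) * 2 ^ (20 + k) := h1.trans h2
    have h6 : (2 * l * M + 2) ^ 4 ≤ (4 * (2 ^ (20 + k) * 2 ^ (20 + k))) ^ 4 :=
      Nat.pow_le_pow_left (h4.trans (Nat.mul_le_mul_left _ h5)) 4
    calc 10 ^ 6 * (10 * l * M + 10) * (2 * l * M + 2) ^ 4
        ≤ 10 ^ 6 * (20 * (2 ^ (20 + k) * 2 ^ (20 + k))) * (4 * (2 ^ (20 + k) * 2 ^ (20 + k))) ^ 4 :=
          Nat.mul_le_mul (Nat.mul_le_mul_left _ (h3.trans (Nat.mul_le_mul_left _ h5))) h6
      _ = (10 ^ 6 * 20 * 256) * (2 ^ (20 + k)) ^ 10 := by ring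
      _ ≤ 2 ^ 33 * (2 ^ (20 + k)) ^ 10 := Nat.mul_le_mul_right _ (by norm_num)
      _ = 2 ^ (33 + 10 * (20 + k)) := by
          rw [← pow_mul, ← pow_add]
          congr 1
          ring

end Vale.Agent.P160.Half.G.H693
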