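import Mathlib

/-!
Random order of the columns (P160 (M), note 11350).
`card_perm_avoid`: permutations which map a given set `T` of positions outside `S`.
`card_bad_order`: a subspace whose nonzero words have at least `s` nonzero coordinates: for all but a
small part of the permutations no nonzero permuted word vanishes on the last `M` positions.
`sum_le_two_late`: symmetrisation, a permutation invariant sum is at most twice the sum over the column
families for which, for every prime of a finite set, all dependent columns are late.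
-/

namespace Vale.Agent.P160.Half.Ord805

open Finset

/-- permutations which map `T` into the complement of `S` -/
def av {k : ℕ} (S T : Finset (Fin k)) : Finset (Equiv.Perm (Fin k)) :=
  univ.filter fun σ => ∀ j ∈ T, σ j ∉ S

theorem card_av_insert {k : ℕ} (S T : Finset (Fin k)) (j0 : Fin k) (hj : j0 ∉ T) :
    (av S (insert j0 T)).card * (k - T.card) = (av S T).card * (k - S.card - T.card) := by
  classical
  have h1 : ∀ i ∈ Tᶜ, ((av S T).filter fun σ => σ i ∉ S).card = (av S (insert j0 T)).card := by
    intro i hi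
    have hiT : i ∉ T := by simpa using hi
    refine Finset.card_bij' (fun σ _ => Equiv.swap j0 i |>.trans σ)
      (fun σ _ => Equiv.swap j0 i |>.trans σ) ?_ ?_ ?_ ?_
    · intro σ hσ
      simp only [av, mem_filter, mem_univ, true_and, mem_insert] at hσ ⊢
      intro j hj'
      rcases hj' with rfl | hjT
      · simpa using hσ.2
      · have e1 : j ≠ j0 := fun h => hj (h ▸ hjT)
        have e2 : j ≠ i := fun h => hiT (h ▸ hjT)
        simpa [Equiv.swap_apply_of_ne_of_ne e1 e2] using hσ.1 j hjT
    · intro σ hσ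
      simp only [av, mem_filter, mem_univ, true_and, mem_insert] at hσ ⊢
      refine ⟨fun j hjT => ?_, ?_⟩
      · have e1 : j ≠ j0 := fun h => hj (h ▸ hjT)
        have e2 : j ≠ i := fun h => hiT (h ▸ hjT)
        simpa [Equiv.swap_apply_of_ne_of_ne e1 e2] using hσ j (Or.inr hjT)
      · simpa using hσ j0 (Or.inl rfl)
    · intro σ _
      ext x
      simp
    · intro σ _
      ext x
      simp
  have h2 : ∀ σ ∈ av S T, ((Tᶜ).filter fun i => σ i ∉ S).card = k - S.card - T.card := by
    intro σ hσ
    simp only [av, mem_filter, mem_univ, true_and] at hσ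
    have e : ((Tᶜ).filter fun i => σ i ∉ S) = (Sᶜ.map σ.symm.toEmbedding) \ T := by
      ext i
      simp only [mem_filter, mem_compl, mem_sdiff, mem_map, Equiv.coe_toEmbedding]
      constructor
      · rintro ⟨a, b⟩
        exact ⟨⟨σ i, b, by simp⟩, a⟩
      · rintro ⟨⟨x, hx, rfl⟩, b⟩
        exact ⟨b, by simpa using hx⟩
    rw [e, Finset.card_sdiff_of_subset, card_map, card_compl, Fintype.card_fin]
    intro i hi
    simp only [mem_map, Equiv.coe_toEmbedding, mem_compl]
    exact ⟨σ i, hσ i hi, by simp⟩
  have h3 : ∑ i ∈ Tᶜ, ((av S T).filter fun σ => σ i ∉ S).card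
      = ∑ σ ∈ av S T, ((Tᶜ).filter fun i => σ i ∉ S).card := by
    simp only [card_filter]
    exact Finset.sum_comm
  rw [Finset.sum_congr rfl h1, Finset.sum_congr rfl h2] at h3
  simp only [sum_const, smul_eq_mul, card_compl, Fintype.card_fin] at h3
  rw [mul_comm, h3]

theorem card_perm_avoid {k : ℕ} (S T : Finset (Fin k)) :
    (av S T).card * k ^ T.card ≤ (k - S.card) ^ T.card * Nat.factorial k := by
  classical
  induction T using Finset.induction_on with
  | empty =>
    simp only [card_empty, pow_zero, mul_one, one_mul]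
    calc (av S ∅).card ≤ (univ : Finset (Equiv.Perm (Fin k))).card := card_le_card (filter_subset _ _)
      _ = Nat.factorial k := by rw [card_univ, Fintype.card_perm, Fintype.card_fin]
  | insert j0 T hj ih =>
    rw [card_insert_of_notMem hj]
    have hT : T.card < k := by
      have := card_lt_univ_of_notMem hj
      simpa using this
    have e := card_av_insert S T j0 hj
    have hpos : 0 < k - T.card := by omega
    -- (k - s - t) * k ≤ (k - s) * (k - t)
    have hk : (k - S.card - T.card) * k ≤ (k - S.card) * (k - T.card) := by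
      rcases le_total (k - S.card) T.card with h | h
      · have : k - S.card - T.card = 0 := by omega
        rw [this]; simp
      · obtain ⟨u, hu⟩ := Nat.exists_eq_add_of_le h
        obtain ⟨v, hv⟩ := Nat.exists_eq_add_of_le hT.le
        have h1 : k - S.card - T.card = u := by omega
        have h2 : k - T.card = v := by omega
        have h3 : u ≤ v := by omega
        rw [h1, h2, hu]
        nlinarith [Nat.zero_le T.card, Nat.mul_le_mul_left T.card h3]
    refine Nat.le_of_mul_le_mul_right (c := k - T.card) ?_ hpos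
    calc (av S (insert j0 T)).card * k ^ (T.card + 1) * (k - T.card)
        = ((av S (insert j0 T)).card * (k - T.card)) * k ^ (T.card + 1) := by ring
      _ = (av S T).card * (k - S.card - T.card) * k ^ (T.card + 1) := by rw [e]
      _ = ((av S T).card * k ^ T.card) * ((k - S.card - T.card) * k) := by ring
      _ ≤ ((k - S.card) ^ T.card * Nat.factorial k) * ((k - S.card) * (k - T.card)) :=
          Nat.mul_le_mul ih hk
      _ = (k - S.card) ^ (T.card + 1) * Nat.factorial k * (k - T.card) := by ring

/-- last `M` positions -/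
def lastM (k M : ℕ) : Finset (Fin k) := univ.filter fun j => k - M ≤ j.val

theorem card_lastM (k M : ℕ) (h : M ≤ k) : (lastM k M).card = M := by
  classical
  have e : lastM k M = univ.filter fun j : Fin k => ¬ (j.val < k - M) := by
    ext j; simp [lastM]
  have h1 : (univ.filter fun j : Fin k => j.val < k - M).card = k - M := by
    rw [Fin.card_filter_val_lt]; omega
  have h2 := Finset.card_filter_add_card_filter_not (s := (univ : Finset (Fin k)))
    (fun j : Fin k => j.val < k - M)
  rw [h1, card_univ, Fintype.card_fin] at h2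
  rw [e]
  omega

variable {k : ℕ}

/-- all nonzero words of `K`, permuted by `σ`, meet the last `M` positions -/
def LateSet {F : Type*} [Zero F] (K : Set (Fin k → F)) (M : ℕ) (σ : Equiv.Perm (Fin k)) : Prop :=
  ∀ v ∈ K, v ≠ 0 → ∃ j : Fin k, k - M ≤ j.val ∧ v (σ j) ≠ 0

open Classical in
theorem card_bad_order {F : Type*} [Zero F] [Fintype F] (K : Finset (Fin k → F)) (s M : ℕ)
    (hM : M ≤ k) (hs : ∀ v ∈ K, v ≠ 0 → s ≤ (univ.filter fun j => v j ≠ 0).card) :
    (univ.filter fun σ : Equiv.Perm (Fin k) => ¬ LateSet (K : Set (Fin k → F)) M σ).card * k ^ M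
      ≤ K.card * ((k - s) ^ M * Nat.factorial k) := by
  have h1 : (univ.filter fun σ : Equiv.Perm (Fin k) => ¬ LateSet (K : Set (Fin k → F)) M σ)
      ⊆ (K.filter fun v => v ≠ 0).biUnion fun v => av (univ.filter fun j => v j ≠ 0) (lastM k M) := by
    intro σ hσ
    simp only [mem_filter, mem_univ, true_and, LateSet, not_forall] at hσ
    obtain ⟨v, hv, hv0, hn⟩ := hσ
    simp only [mem_biUnion, mem_filter]
    refine ⟨v, ⟨by simpa using hv, hv0⟩, ?_⟩
    simp only [av, mem_filter, mem_univ, true_and, lastM]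
    intro j hj hne
    exact hn ⟨j, hj, hne⟩
  calc (univ.filter fun σ : Equiv.Perm (Fin k) => ¬ LateSet (K : Set (Fin k → F)) M σ).card * k ^ M
      ≤ (∑ v ∈ K.filter fun v => v ≠ 0,
          (av (univ.filter fun j => v j ≠ 0) (lastM k M)).card) * k ^ M :=
        Nat.mul_le_mul_right _ ((card_le_card h1).trans card_biUnion_le)
    _ = ∑ v ∈ K.filter fun v => v ≠ 0,
          (av (univ.filter fun j => v j ≠ 0) (lastM k M)).card * k ^ M := by rw [sum_mul]
    _ ≤ ∑ _v ∈ K.filter fun v => v ≠ 0, (k - s) ^ M * Nat.factorial k := by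
        refine sum_le_sum fun v hv => ?_
        rw [mem_filter] at hv
        have := card_perm_avoid (univ.filter fun j => v j ≠ 0) (lastM k M)
        rw [card_lastM k M hM] at this
        refine this.trans (Nat.mul_le_mul_right _ (Nat.pow_le_pow_left ?_ _))
        have := hs v hv.1 hv.2
        omega
    _ = (K.filter fun v => v ≠ 0).card * ((k - s) ^ M * Nat.factorial k) := by
        rw [sum_const, smul_eq_mul]
    _ ≤ K.card * ((k - s) ^ M * Nat.factorial k) :=
        Nat.mul_le_mul_right _ (card_le_card (filter_subset _ _))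

open Classical in
/-- symmetrisation -/
theorem sum_le_two {X : Type*} [Fintype X] (f : (Fin k → X) → ℝ) (hf0 : ∀ w, 0 ≤ f w)
    (hinv : ∀ w (σ : Equiv.Perm (Fin k)), f (w ∘ σ) = f w) (G : (Fin k → X) → Prop)
    (hG : ∀ w, f w ≠ 0 →
      2 * (univ.filter fun σ : Equiv.Perm (Fin k) => ¬ G (w ∘ σ)).card ≤ Nat.factorial k) :
    ∑ w, f w ≤ 2 * ∑ w ∈ univ.filter fun w => G w, f w := by
  have hk : (0:ℝ) < (Nat.factorial k : ℝ) := by exact_mod_cast Nat.factorial_pos k
  have h1 : ∀ w, (Nat.factorial k : ℝ) * f w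
      ≤ 2 * ∑ σ : Equiv.Perm (Fin k), if G (w ∘ σ) then f (w ∘ σ) else 0 := by
    intro w
    have e : ∑ σ : Equiv.Perm (Fin k), (if G (w ∘ σ) then f (w ∘ σ) else 0)
        = ((univ.filter fun σ : Equiv.Perm (Fin k) => G (w ∘ σ)).card : ℝ) * f w := by
      rw [← sum_filter]
      rw [sum_congr rfl fun σ _ => hinv w σ, sum_const, nsmul_eq_mul]
    rw [e]
    by_cases hw : f w = 0
    · rw [hw]; simp
    · have h := hG w hw
      have h2 := Finset.card_filter_add_card_filter_not (s := (univ : Finset (Equiv.Perm (Fin k))))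
        (fun σ : Equiv.Perm (Fin k) => G (w ∘ σ))
      rw [card_univ, Fintype.card_perm, Fintype.card_fin] at h2
      have h3 : Nat.factorial k ≤ 2 * (univ.filter fun σ : Equiv.Perm (Fin k) => G (w ∘ σ)).card := by
        omega
      have h4 : (Nat.factorial k : ℝ)
          ≤ 2 * ((univ.filter fun σ : Equiv.Perm (Fin k) => G (w ∘ σ)).card : ℝ) := by
        exact_mod_cast h3
      have := mul_le_mul_of_nonneg_right h4 (hf0 w)
      linarith
  have h2 : ∀ σ : Equiv.Perm (Fin k), ∑ w : Fin k → X, (if G (w ∘ σ) then f (w ∘ σ) else 0)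
      = ∑ w : Fin k → X, if G w then f w else 0 := by
    intro σ
    exact Fintype.sum_bijective (fun w : Fin k → X => w ∘ σ)
      ((Equiv.arrowCongr σ.symm (Equiv.refl X)).bijective) _ _ (fun w => rfl)
  have h3 : (Nat.factorial k : ℝ) * ∑ w, f w
      ≤ 2 * ((Nat.factorial k : ℝ) * ∑ w : Fin k → X, if G w then f w else 0) := by
    calc (Nat.factorial k : ℝ) * ∑ w, f w = ∑ w, (Nat.factorial k : ℝ) * f w := by rw [mul_sum]
      _ ≤ ∑ w, 2 * ∑ σ : Equiv.Perm (Fin k), if G (w ∘ σ) then f (w ∘ σ) else 0 :=
          sum_le_sum fun w _ => h1 w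
      _ = 2 * ∑ σ : Equiv.Perm (Fin k), ∑ w : Fin k → X, (if G (w ∘ σ) then f (w ∘ σ) else 0) := by
          rw [← mul_sum, sum_comm]
      _ = 2 * ∑ _σ : Equiv.Perm (Fin k), ∑ w : Fin k → X, (if G w then f w else 0) := by
          rw [sum_congr rfl fun σ _ => h2 σ]
      _ = 2 * ((Nat.factorial k : ℝ) * ∑ w : Fin k → X, if G w then f w else 0) := by
          rw [sum_const, nsmul_eq_mul, card_univ, Fintype.card_perm, Fintype.card_fin]
  rw [sum_filter]
  have h4 : (Nat.factorial k : ℝ) * ∑ w, f w
      ≤ (Nat.factorial k : ℝ) * (2 * ∑ w : Fin k → X, if G w then f w else 0) := by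
    calc _ ≤ _ := h3
      _ = _ := by ring
  exact le_of_mul_le_mul_left h4 hk


/-- linear relations between the vectors `x 0, .., x (k-1)` -/
def ker {F V : Type*} [Field F] [AddCommGroup V] [Module F V] (x : Fin k → V) :
    Submodule F (Fin k → F) := LinearMap.ker (Fintype.linearCombination F x)

theorem mem_ker {F V : Type*} [Field F] [AddCommGroup V] [Module F V] (x : Fin k → V)
    (v : Fin k → F) : v ∈ ker x ↔ ∑ j, v j • x j = 0 := by
  simp [ker, Fintype.linearCombination_apply]

/-- all dependent vectors are among the last `M` -/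
def Late {F V : Type*} [Field F] [AddCommGroup V] [Module F V] (M : ℕ) (x : Fin k → V) : Prop :=
  ∀ v : Fin k → F, ∑ j, v j • x j = 0 → v ≠ 0 → ∃ j : Fin k, k - M ≤ j.val ∧ v j ≠ 0

/-- corank = dimension of the space of relations -/
noncomputable def cork (F : Type*) {V : Type*} [Field F] [AddCommGroup V] [Module F V]
    (x : Fin k → V) : ℕ := Module.finrank F (ker (F := F) x)

theorem cork_add_rank {F V : Type*} [Field F] [AddCommGroup V] [Module F V] (x : Fin k → V) :
    Module.finrank F (Submodule.span F (Set.range x)) + cork F x = k := by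
  have h := LinearMap.finrank_range_add_finrank_ker (Fintype.linearCombination F x)
  rw [Module.finrank_fin_fun] at h
  rw [Fintype.range_linearCombination] at h
  exact h

theorem ker_comp {F V : Type*} [Field F] [AddCommGroup V] [Module F V] (x : Fin k → V)
    (σ : Equiv.Perm (Fin k)) (v : Fin k → F) :
    ∑ j, v j • x (σ j) = 0 ↔ (fun i => v (σ.symm i)) ∈ ker (F := F) x := by
  rw [mem_ker]
  have : ∑ i, v (σ.symm i) • x i = ∑ j, v j • x (σ j) := by
    rw [← Equiv.sum_comp σ (fun i => v (σ.symm i) • x i)]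
    simp
  rw [this]

theorem cork_comp {F V : Type*} [Field F] [AddCommGroup V] [Module F V] (x : Fin k → V)
    (σ : Equiv.Perm (Fin k)) : cork F (x ∘ σ) = cork F x := by
  have h1 := cork_add_rank (F := F) x
  have h2 := cork_add_rank (F := F) (x ∘ σ)
  rw [σ.surjective.range_comp x] at h2
  omega

/-- the first `k - M` vectors are linearly independent -/
theorem Late.linearIndependent {F V : Type*} [Field F] [AddCommGroup V] [Module F V] {M : ℕ}
    {x : Fin k → V} (h : Late (F := F) M x) :
    LinearIndependent F (fun j : {j : Fin k // j.val < k - M} => x j.1) := by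
  classical
  rw [Fintype.linearIndependent_iff]
  intro g hg i
  by_contra hne
  have hv : ∑ j, (if hj : j.val < k - M then g ⟨j, hj⟩ else 0) • x j = 0 := by
    rw [← Fintype.sum_subtype_add_sum_subtype (fun j : Fin k => j.val < k - M)]
    have e1 : ∑ i : {j : Fin k // j.val < k - M},
        (if hj : i.1.val < k - M then g ⟨i.1, hj⟩ else 0) • x i.1 = 0 := by
      rw [← hg]
      refine sum_congr rfl fun i _ => ?_
      rw [dif_pos i.2]
    have e2 : ∑ i : {j : Fin k // ¬ j.val < k - M},
        (if hj : i.1.val < k - M then g ⟨i.1, hj⟩ else 0) • x i.1 = 0 := by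
      refine sum_eq_zero fun i _ => ?_
      rw [dif_neg i.2, zero_smul]
    rw [e1, e2, add_zero]
  obtain ⟨j, hj, hj2⟩ := h _ hv (by
    intro h0
    have := congrFun h0 i.1
    simp only [i.2, dite_true, Pi.zero_apply] at this
    exact hne this)
  have : ¬ j.val < k - M := by omega
  simp [this] at hj2

open Classical in
/-- one prime: permutations for which a dependent vector is not among the last `M` -/
theorem card_not_late {F V : Type*} [Field F] [Fintype F] [AddCommGroup V] [Module F V]
    (x : Fin k → V) (s M : ℕ) (hM : M ≤ k)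
    (hs : ∀ v : Fin k → F, ∑ j, v j • x j = 0 → v ≠ 0 → s ≤ (univ.filter fun j => v j ≠ 0).card) :
    (univ.filter fun σ : Equiv.Perm (Fin k) => ¬ Late (F := F) M (x ∘ σ)).card * k ^ M
      ≤ Fintype.card F ^ cork F x * ((k - s) ^ M * Nat.factorial k) := by
  set K : Finset (Fin k → F) := univ.filter fun v => v ∈ ker (F := F) x with hK
  have hKc : K.card = Fintype.card F ^ cork F x := by
    rw [cork, ← Module.card_eq_pow_finrank (K := F) (V := ker (F := F) x), hK]
    rw [Fintype.card_subtype]
  have h := card_bad_order K s M hM (fun v hv hv0 => hs v (by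
    rw [hK, mem_filter] at hv
    exact (mem_ker x v).1 hv.2) hv0)
  rw [hKc] at h
  refine le_trans (Nat.mul_le_mul_right _ (card_le_card ?_)) h
  intro σ hσ
  simp only [mem_filter, mem_univ, true_and] at hσ ⊢
  intro hL
  refine hσ ?_
  intro v hv hv0
  have hv' := (ker_comp x σ v).1 (by simpa using hv)
  obtain ⟨j, hj, hj2⟩ := hL (fun i => v (σ.symm i)) (by simpa [hK] using hv') (by
    intro h0
    apply hv0
    ext j
    have := congrFun h0 (σ j)
    simpa using this)
  exact ⟨j, hj, by simpa using hj2⟩

/-- for every prime of `PP` all dependent columns are among the last `M p c` ones -/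
def GoodOrd {X : Type*} {a : Type*} (PP : Finset ℕ) (φ : ∀ p : ℕ, X → a → ZMod p)
    (M : ℕ → ℕ → ℕ) (w : Fin k → X) : Prop :=
  ∀ p ∈ PP, ∀ _hp : Fact p.Prime,
    Late (F := ZMod p) (M p (cork (ZMod p) fun j => φ p (w j))) fun j => φ p (w j)

open Classical in
/-- MAIN: symmetric nonnegative weight `f` on column families, zero on the families which have, for
some prime of `PP`, a nonzero relation with less than `s` nonzero coefficients; `M p c` positions for a
prime `p` with corank `c`. -/
theorem sum_le_two_late {X : Type*} [Fintype X] {a : Type*} [Fintype a] (PP : Finset ℕ)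
    (hP : ∀ p ∈ PP, p.Prime) (φ : ∀ p : ℕ, X → a → ZMod p) (f : (Fin k → X) → ℝ)
    (hf0 : ∀ w, 0 ≤ f w) (hinv : ∀ w (σ : Equiv.Perm (Fin k)), f (w ∘ σ) = f w) (s : ℕ)
    (hs : ∀ w, f w ≠ 0 → ∀ p ∈ PP, ∀ v : Fin k → ZMod p, ∑ j, v j • φ p (w j) = 0 → v ≠ 0 →
      s ≤ (univ.filter fun j => v j ≠ 0).card)
    (M : ℕ → ℕ → ℕ)
    (hnum : ∀ p ∈ PP, ∀ c ≤ k, M p c < k →
      2 * PP.card * (p ^ c * (k - s) ^ M p c) ≤ k ^ M p c) :
    ∑ w, f w ≤ 2 * ∑ w ∈ univ.filter (fun w : Fin k → X => GoodOrd PP φ M w), f w := by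
  refine sum_le_two f hf0 hinv (GoodOrd PP φ M) ?_
  intro w hw
  unfold GoodOrd
  rcases Nat.eq_zero_or_pos k with hk | hk
  · subst hk
    have h0 : 2 * (univ.filter fun σ : Equiv.Perm (Fin 0) =>
        ¬ ∀ p ∈ PP, ∀ _hp : Fact p.Prime,
          Late (F := ZMod p) (M p (cork (ZMod p) fun j => φ p ((w ∘ σ) j)))
            fun j => φ p ((w ∘ σ) j)).card ≤ Nat.factorial 0 := by
      rw [card_eq_zero.2 (filter_eq_empty_iff.2 ?_)]
      · simp
      · intro σ _ h
        apply h
        intro p _ hp v _ hv0
        exact absurd (Subsingleton.elim v 0) hv0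
    convert h0
  -- union over the primes
  have hone : ∀ p ∈ PP, ∀ hp : Fact p.Prime,
      2 * PP.card * (univ.filter fun σ : Equiv.Perm (Fin k) =>
        ¬ Late (F := ZMod p) (M p (cork (ZMod p) fun j => φ p ((w ∘ σ) j)))
            fun j => φ p ((w ∘ σ) j)).card ≤ Nat.factorial k := by
    intro p hpP hp
    set x : Fin k → a → ZMod p := fun j => φ p (w j) with hx
    have hcx : ∀ σ : Equiv.Perm (Fin k), (fun j => φ p ((w ∘ σ) j)) = x ∘ σ := fun σ => rfl
    simp only [hcx, cork_comp]
    by_cases hM : M p (cork (ZMod p) x) < k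
    · have h1 := card_not_late (F := ZMod p) x s (M p (cork (ZMod p) x)) hM.le
        (fun v hv hv0 => by convert hs w hw p hpP v hv hv0)
      rw [ZMod.card] at h1
      have hck : cork (ZMod p) x ≤ k := by
        have := cork_add_rank (F := ZMod p) x
        omega
      have h2 := hnum p hpP _ hck hM
      have hkp : 0 < k ^ M p (cork (ZMod p) x) := Nat.pow_pos hk
      refine Nat.le_of_mul_le_mul_right (c := k ^ M p (cork (ZMod p) x)) ?_ hkp
      calc _ = 2 * PP.card * ((univ.filter fun σ : Equiv.Perm (Fin k) =>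
              ¬ Late (F := ZMod p) (M p (cork (ZMod p) x)) (x ∘ σ)).card
                * k ^ M p (cork (ZMod p) x)) := by ring
        _ ≤ 2 * PP.card * (p ^ cork (ZMod p) x
              * ((k - s) ^ M p (cork (ZMod p) x) * Nat.factorial k)) := Nat.mul_le_mul_left _ h1
        _ = (2 * PP.card * (p ^ cork (ZMod p) x * (k - s) ^ M p (cork (ZMod p) x)))
              * Nat.factorial k := by ring
        _ ≤ k ^ M p (cork (ZMod p) x) * Nat.factorial k := Nat.mul_le_mul_right _ h2
        _ = _ := by ring
    · have : (univ.filter fun σ : Equiv.Perm (Fin k) =>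
          ¬ Late (F := ZMod p) (M p (cork (ZMod p) x)) (x ∘ σ)) = ∅ := by
        rw [filter_eq_empty_iff]
        intro σ _ h
        apply h
        intro v _ hv0
        obtain ⟨j, hj⟩ := Function.ne_iff.1 hv0
        exact ⟨j, by omega, hj⟩
      rw [this]
      simp
  have hsub : (univ.filter fun σ : Equiv.Perm (Fin k) =>
        ¬ ∀ p ∈ PP, ∀ _hp : Fact p.Prime,
          Late (F := ZMod p) (M p (cork (ZMod p) fun j => φ p ((w ∘ σ) j)))
            fun j => φ p ((w ∘ σ) j))
      ⊆ PP.biUnion fun p => univ.filter fun σ : Equiv.Perm (Fin k) => ∃ hp : Fact p.Prime,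
        ¬ Late (F := ZMod p) (M p (cork (ZMod p) fun j => φ p ((w ∘ σ) j)))
            fun j => φ p ((w ∘ σ) j) := by
    intro σ hσ
    simp only [mem_filter, mem_univ, true_and, not_forall] at hσ
    obtain ⟨p, hpP, hp, h⟩ := hσ
    simp only [mem_biUnion, mem_filter, mem_univ, true_and]
    exact ⟨p, hpP, hp, h⟩
  have hc : (univ.filter fun σ : Equiv.Perm (Fin k) =>
        ¬ ∀ p ∈ PP, ∀ _hp : Fact p.Prime,
          Late (F := ZMod p) (M p (cork (ZMod p) fun j => φ p ((w ∘ σ) j)))
            fun j => φ p ((w ∘ σ) j)).card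
      ≤ ∑ p ∈ PP, (univ.filter fun σ : Equiv.Perm (Fin k) => ∃ hp : Fact p.Prime,
        ¬ Late (F := ZMod p) (M p (cork (ZMod p) fun j => φ p ((w ∘ σ) j)))
            fun j => φ p ((w ∘ σ) j)).card := (card_le_card hsub).trans card_biUnion_le
  rcases Nat.eq_zero_or_pos PP.card with h0 | h0
  · rw [card_eq_zero] at h0
    rw [h0] at hc ⊢
    simp at hc ⊢
  have hfin : ∑ p ∈ PP, 2 * PP.card * (univ.filter fun σ : Equiv.Perm (Fin k) => ∃ hp : Fact p.Prime,
        ¬ Late (F := ZMod p) (M p (cork (ZMod p) fun j => φ p ((w ∘ σ) j)))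
            fun j => φ p ((w ∘ σ) j)).card ≤ PP.card * Nat.factorial k := by
    have ec : ∑ _p ∈ PP, Nat.factorial k = PP.card * Nat.factorial k := by
      rw [sum_const, smul_eq_mul]
    rw [← ec]
    refine sum_le_sum fun p hpP => ?_
    have hp : Fact p.Prime := ⟨hP p hpP⟩
    refine le_trans (Nat.mul_le_mul_left _ (card_le_card ?_)) (hone p hpP hp)
    intro σ hσ
    simp only [mem_filter, mem_univ, true_and] at hσ ⊢
    exact hσ.2
  rw [← mul_sum] at hfin
  have h5 := Nat.mul_le_mul_left (2 * PP.card) hc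
  have h6 := h5.trans hfin
  refine (Nat.mul_le_mul_left_iff h0).1 ?_
  rw [← mul_assoc, mul_comm PP.card 2]
  refine le_trans ?_ h6
  refine Nat.mul_le_mul_left _ (le_of_eq ?_)
  congr!

end Vale.Agent.P160.Half.Ord805
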