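import Mathlib

/-!
# P160 (M), note 11331 (B): the weight on the bad event

`K` = number of kernel vectors modulo `N`, `cQ` = rational corank.  Cauchy-Schwarz with the fourth
moment for `cQ < R₁ ~ C log k`, Hadamard for larger `cQ`.
-/

namespace Vale.Agent.P160.Half.P5B61

open Finset Real

/-- Cauchy-Schwarz on a subset -/
theorem cs {Ω : Type*} [Fintype Ω] [DecidableEq Ω] (s : Finset Ω) (K : Ω → ℝ) (M P : ℝ)
    (hM0 : 0 ≤ M) (hP0 : 0 ≤ P)
    (hM : ∑ ω ∈ s, K ω ^ 4 ≤ M) (hP : (s.card : ℝ) ≤ P) :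
    ∑ ω ∈ s, K ω ^ 2 ≤ M ^ (1 / 2 : ℝ) * P ^ (1 / 2 : ℝ) := by
  have h1 : (∑ ω ∈ s, K ω ^ 2) ^ 2 ≤ (s.card : ℝ) * ∑ ω ∈ s, (K ω ^ 2) ^ 2 :=
    sq_sum_le_card_mul_sum_sq
  have h2 : ∑ ω ∈ s, (K ω ^ 2) ^ 2 = ∑ ω ∈ s, K ω ^ 4 :=
    Finset.sum_congr rfl fun ω _ => by ring
  rw [h2] at h1
  have h0 : 0 ≤ ∑ ω ∈ s, K ω ^ 4 := Finset.sum_nonneg fun ω _ => by positivity
  have h3 : (∑ ω ∈ s, K ω ^ 2) ^ 2 ≤ P * M := h1.trans (mul_le_mul hP hM h0 hP0)
  have h4 : 0 ≤ ∑ ω ∈ s, K ω ^ 2 := Finset.sum_nonneg fun ω _ => by positivity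
  rw [← Real.sqrt_eq_rpow, ← Real.sqrt_eq_rpow, ← Real.sqrt_mul hM0]
  refine Real.le_sqrt_of_sq_le ?_
  linarith [h3, mul_comm P M]

theorem big (M : ℝ) {δ : ℝ} (hδ : 0 < δ) : ∃ k0 : ℕ, ∀ k : ℕ, k0 ≤ k →
    M ≤ logb 2 k ∧ logb 2 k + 2 ≤ δ * k ∧ 1 ≤ k := by
  have h1 : ∀ᶠ k : ℕ in Filter.atTop, M ≤ logb 2 (k : ℝ) :=
    ((Real.tendsto_logb_atTop (by norm_num : (1 : ℝ) < 2)).comp
      tendsto_natCast_atTop_atTop).eventually_ge_atTop M
  have h2 : ∀ᶠ k : ℕ in Filter.atTop, logb 2 (k : ℝ) + 2 ≤ δ * k := by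
    have h3 := (Real.isLittleO_log_id_atTop.comp_tendsto
      (tendsto_natCast_atTop_atTop (R := ℝ))).def (c := δ / 2 * Real.log 2)
      (by have := Real.log_pos (by norm_num : (1 : ℝ) < 2); positivity)
    have h4 : ∀ᶠ k : ℕ in Filter.atTop, 4 / δ ≤ (k : ℝ) :=
      tendsto_natCast_atTop_atTop.eventually_ge_atTop _
    filter_upwards [h3, h4] with k h3 h4
    have hl2 := Real.log_pos (by norm_num : (1 : ℝ) < 2)
    simp only [Function.comp_apply, id_eq, Real.norm_eq_abs] at h3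
    have h5 : Real.log k ≤ δ / 2 * Real.log 2 * k := by
      refine (le_abs_self _).trans (h3.trans (le_of_eq ?_))
      rw [abs_of_nonneg (Nat.cast_nonneg k)]
    have h6 : logb 2 (k : ℝ) ≤ δ / 2 * k := by
      rw [Real.logb, div_le_iff₀ hl2]
      linarith
    have h7 : 2 ≤ δ / 2 * k := by
      rw [div_le_iff₀ hδ] at h4
      linarith
    linarith
  obtain ⟨a, ha⟩ := Filter.eventually_atTop.1 (h1.and h2)
  exact ⟨max a 1, fun k hk => ⟨(ha k (le_trans (le_max_left _ _) hk)).1,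
    (ha k (le_trans (le_max_left _ _) hk)).2, le_trans (le_max_right _ _) hk⟩⟩

/-- **The weight on the bad event** (11331 (B), fourth moment form). -/
theorem bad_sum {c C1 C2 A β : ℝ} (hc : 0 < c) (hC1 : 0 ≤ C1) (hC2 : 0 ≤ C2) (hA : 0 ≤ A)
    (hβ0 : 0 ≤ β) (hβ : β < 1 / 12) :
    ∃ k0 : ℕ, ∀ k : ℕ, k0 ≤ k → ∀ (Ω : Type) [Fintype Ω] [DecidableEq Ω] (K : Ω → ℝ)
      (cQ : Ω → ℕ) (_ : ∀ ω, cQ ω ≤ k) (Bd : Finset Ω) (Nm : ℝ) (_ : 1 ≤ Nm)
      (_ : Nm ≤ (2 : ℝ) ^ (β * k))
      (_ : ∀ r : ℕ, (r : ℝ) ≤ 10 * logb 2 k →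
        ∑ ω ∈ Bd.filter (fun ω => cQ ω = r), K ω ^ 4 ≤
          (k : ℝ) ^ r * Nm ^ (4 * r) * (2 : ℝ) ^ (C1 * k) * Fintype.card Ω)
      (_ : ∀ r : ℕ, 1 ≤ r → (((univ : Finset Ω).filter (fun ω => cQ ω = r)).card : ℝ) ≤
        (2 : ℝ) ^ (C2 * k + 2 * r - r * k / 3) * Fintype.card Ω)
      (_ : ∀ ω, K ω ^ 2 ≤ (k : ℝ) ^ k * Nm ^ (2 * cQ ω))
      (_ : (Bd.card : ℝ) ≤ (2 : ℝ) ^ (-(c * k * logb 2 k)) * Fintype.card Ω),
      ∑ ω ∈ Bd, K ω ^ 2 ≤ (2 : ℝ) ^ (-(A * k)) * Fintype.card Ω := by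
  set δ : ℝ := 1 / 6 - 2 * β with hδ
  have hδ0 : 0 < δ := by rw [hδ]; linarith
  have hδ1 : δ ≤ 1 / 6 := by rw [hδ]; linarith
  set r0 : ℝ := ((C1 + C2) / 2 + A + 1) / (δ / 2) with hr0
  have hr00 : 0 ≤ r0 := by rw [hr0]; positivity
  have hr0' : r0 * (δ / 2) = (C1 + C2) / 2 + A + 1 := by
    rw [hr0]; field_simp
  obtain ⟨k0, hk0⟩ := big (max ((r0 + 4 * r0 * β + C1 + 2 * (A + 1)) / c) (3 * (C2 + A + 1)))
    (show 0 < δ by exact hδ0)
  obtain ⟨k1, hk1⟩ := big 0 (show (0 : ℝ) < 1 / 30 by norm_num)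
  refine ⟨max k0 k1, ?_⟩
  intro k hk Ω _ _ K cQ hcQ Bd Nm hN1 hN H1 H2 H3 H4
  obtain ⟨hL, hLk, hk1'⟩ := hk0 k (le_trans (le_max_left _ _) hk)
  obtain ⟨hL0, hLk', -⟩ := hk1 k (le_trans (le_max_right _ _) hk)
  set L : ℝ := logb 2 k with hLdef
  have hkpos : (0 : ℝ) < k := by exact_mod_cast hk1'
  have hkL : (k : ℝ) = (2 : ℝ) ^ L := by
    rw [hLdef, Real.rpow_logb (by norm_num) (by norm_num) hkpos]
  have hT0 : (0 : ℝ) ≤ Fintype.card Ω := Nat.cast_nonneg _
  have hN0 : 0 ≤ Nm := by linarith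
  have hpow : ∀ r : ℕ, Nm ^ r ≤ (2 : ℝ) ^ (β * k * r) := by
    intro r
    rw [Real.rpow_mul (by norm_num), Real.rpow_natCast]
    exact pow_le_pow_left₀ hN0 hN r
  have hkr : ∀ r : ℕ, (k : ℝ) ^ r = (2 : ℝ) ^ (L * r) := by
    intro r
    rw [Real.rpow_mul (by norm_num), Real.rpow_natCast, ← hkL]
  -- every `r`
  have hmain : ∀ r ∈ Finset.range (k + 1), ∑ ω ∈ Bd.filter (fun ω => cQ ω = r), K ω ^ 2 ≤
      (2 : ℝ) ^ (-((A + 1) * k)) * Fintype.card Ω := by
    intro r hr
    rcases le_or_gt (r : ℝ) (10 * L) with hrL | hrL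
    · have hM : ∑ ω ∈ Bd.filter (fun ω => cQ ω = r), K ω ^ 4 ≤
          (2 : ℝ) ^ (L * r + 4 * β * k * r + C1 * k) * Fintype.card Ω := by
        refine (H1 r hrL).trans (mul_le_mul_of_nonneg_right ?_ hT0)
        rw [Real.rpow_add (by norm_num), Real.rpow_add (by norm_num), hkr r]
        refine mul_le_mul_of_nonneg_right (mul_le_mul_of_nonneg_left ?_ (by positivity))
          (by positivity)
        refine (hpow (4 * r)).trans (le_of_eq ?_)
        congr 1
        push_cast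
        ring
      rcases le_or_gt (r : ℝ) r0 with hrr | hrr
      · -- small `r`: probability of the bad event
        have hP : ((Bd.filter (fun ω => cQ ω = r)).card : ℝ) ≤
            (2 : ℝ) ^ (-(c * k * L)) * Fintype.card Ω :=
          le_trans (by exact_mod_cast Finset.card_le_card (Finset.filter_subset _ _)) H4
        have h1 := cs (Bd.filter (fun ω => cQ ω = r)) K _ _ (by positivity) (by positivity) hM hP
        refine h1.trans ?_
        rw [Real.mul_rpow (by positivity) hT0, Real.mul_rpow (by positivity) hT0,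
          ← Real.rpow_mul (by norm_num), ← Real.rpow_mul (by norm_num)]
        have h2 : ((Fintype.card Ω : ℝ) ^ (1 / 2 : ℝ)) * ((Fintype.card Ω : ℝ) ^ (1 / 2 : ℝ)) =
            Fintype.card Ω := by
          rw [← Real.sqrt_eq_rpow, Real.mul_self_sqrt hT0]
        calc _ = (2 : ℝ) ^ ((L * r + 4 * β * k * r + C1 * k) * (1 / 2) +
              -(c * k * L) * (1 / 2)) * (((Fintype.card Ω : ℝ) ^ (1 / 2 : ℝ)) *
              ((Fintype.card Ω : ℝ) ^ (1 / 2 : ℝ))) := by
              rw [Real.rpow_add (by norm_num)]; ring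
          _ = (2 : ℝ) ^ ((L * r + 4 * β * k * r + C1 * k) * (1 / 2) +
              -(c * k * L) * (1 / 2)) * Fintype.card Ω := by rw [h2]
          _ ≤ _ := by
              refine mul_le_mul_of_nonneg_right ?_ hT0
              refine Real.rpow_le_rpow_of_exponent_le (by norm_num) ?_
              have h3 : (r0 + 4 * r0 * β + C1 + 2 * (A + 1)) ≤ c * L := by
                have := (le_max_left _ _).trans hL
                rw [div_le_iff₀ hc] at this
                linarith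
              have h4 : L * r ≤ k * r0 := by
                have h50 : δ * k ≤ 1 / 6 * k := mul_le_mul_of_nonneg_right hδ1 hkpos.le
                have h5 : L ≤ k := by linarith
                have h6 : (0 : ℝ) ≤ r := Nat.cast_nonneg r
                exact (mul_le_mul_of_nonneg_right h5 h6).trans
                  (mul_le_mul_of_nonneg_left hrr hkpos.le)
              have h7 : 4 * β * k * r ≤ 4 * β * k * r0 :=
                mul_le_mul_of_nonneg_left hrr (by positivity)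
              have h8 : k * (r0 + 4 * r0 * β + C1 + 2 * (A + 1)) ≤ k * (c * L) :=
                mul_le_mul_of_nonneg_left h3 hkpos.le
              linarith
      · -- middle `r`: rank deficiency
        have hr1 : 1 ≤ r := by
          by_contra h
          have : r = 0 := by omega
          rw [this] at hrr
          simp at hrr
          linarith
        have hP : ((Bd.filter (fun ω => cQ ω = r)).card : ℝ) ≤
            (2 : ℝ) ^ (C2 * k + 2 * r - r * k / 3) * Fintype.card Ω := by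
          refine le_trans ?_ (H2 r hr1)
          exact_mod_cast Finset.card_le_card (Finset.filter_subset_filter _ (Finset.subset_univ _))
        have h1 := cs (Bd.filter (fun ω => cQ ω = r)) K _ _ (by positivity) (by positivity) hM hP
        refine h1.trans ?_
        rw [Real.mul_rpow (by positivity) hT0, Real.mul_rpow (by positivity) hT0,
          ← Real.rpow_mul (by norm_num), ← Real.rpow_mul (by norm_num)]
        have h2 : ((Fintype.card Ω : ℝ) ^ (1 / 2 : ℝ)) * ((Fintype.card Ω : ℝ) ^ (1 / 2 : ℝ)) =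
            Fintype.card Ω := by
          rw [← Real.sqrt_eq_rpow, Real.mul_self_sqrt hT0]
        calc _ = (2 : ℝ) ^ ((L * r + 4 * β * k * r + C1 * k) * (1 / 2) +
              (C2 * k + 2 * r - r * k / 3) * (1 / 2)) * (((Fintype.card Ω : ℝ) ^ (1 / 2 : ℝ)) *
              ((Fintype.card Ω : ℝ) ^ (1 / 2 : ℝ))) := by
              rw [Real.rpow_add (by norm_num)]; ring
          _ = (2 : ℝ) ^ ((L * r + 4 * β * k * r + C1 * k) * (1 / 2) +
              (C2 * k + 2 * r - r * k / 3) * (1 / 2)) * Fintype.card Ω := by rw [h2]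
          _ ≤ _ := by
              refine mul_le_mul_of_nonneg_right ?_ hT0
              refine Real.rpow_le_rpow_of_exponent_le (by norm_num) ?_
              have h6 : (0 : ℝ) ≤ r := Nat.cast_nonneg r
              -- (L + 2) r ≤ δ k r
              have h7 : (L + 2) * r ≤ δ * k * r := mul_le_mul_of_nonneg_right hLk h6
              have h8 : k * (r0 * (δ / 2)) ≤ k * (r * (δ / 2)) :=
                mul_le_mul_of_nonneg_left
                  (mul_le_mul_of_nonneg_right hrr.le (by positivity)) hkpos.le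
              rw [hr0'] at h8
              have h9 : k * r * (2 * β) = k * r * (1 / 6 - δ) := by rw [hδ]; ring
              linarith
    · -- large `r`: Hadamard
      have hr1 : 1 ≤ r := by
        by_contra h
        have : r = 0 := by omega
        rw [this] at hrL
        simp at hrL
        linarith
      have hP : ((Bd.filter (fun ω => cQ ω = r)).card : ℝ) ≤
          (2 : ℝ) ^ (C2 * k + 2 * r - r * k / 3) * Fintype.card Ω := by
        refine le_trans ?_ (H2 r hr1)
        exact_mod_cast Finset.card_le_card (Finset.filter_subset_filter _ (Finset.subset_univ _))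
      calc ∑ ω ∈ Bd.filter (fun ω => cQ ω = r), K ω ^ 2
          ≤ ∑ ω ∈ Bd.filter (fun ω => cQ ω = r), (2 : ℝ) ^ (L * k + 2 * β * k * r) := by
            refine Finset.sum_le_sum fun ω hω => ?_
            refine (H3 ω).trans ?_
            rw [(Finset.mem_filter.1 hω).2, Real.rpow_add (by norm_num), ← hkr k]
            refine mul_le_mul_of_nonneg_left ?_ (by positivity)
            refine (hpow (2 * r)).trans (le_of_eq ?_)
            congr 1
            push_cast
            ring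
        _ = ((Bd.filter (fun ω => cQ ω = r)).card : ℝ) * (2 : ℝ) ^ (L * k + 2 * β * k * r) := by
            rw [Finset.sum_const, nsmul_eq_mul]
        _ ≤ ((2 : ℝ) ^ (C2 * k + 2 * r - r * k / 3) * Fintype.card Ω) *
            (2 : ℝ) ^ (L * k + 2 * β * k * r) := mul_le_mul_of_nonneg_right hP (by positivity)
        _ = (2 : ℝ) ^ ((C2 * k + 2 * r - r * k / 3) + (L * k + 2 * β * k * r)) *
            Fintype.card Ω := by
            rw [Real.rpow_add (by norm_num) (C2 * k + 2 * r - r * k / 3) (L * k + 2 * β * k * r)]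
            ring
        _ ≤ _ := by
            refine mul_le_mul_of_nonneg_right ?_ hT0
            refine Real.rpow_le_rpow_of_exponent_le (by norm_num) ?_
            have h6 : (0 : ℝ) ≤ r := Nat.cast_nonneg r
            have h7 : 3 * (C2 + A + 1) ≤ L := (le_max_right _ _).trans hL
            have h8 : 2 ≤ 1 / 30 * (k : ℝ) := by linarith
            have h9 : 2 * (r : ℝ) ≤ 1 / 30 * k * r := mul_le_mul_of_nonneg_right h8 h6
            have h10 : k * (10 * L) ≤ k * r := mul_le_mul_of_nonneg_left hrL.le hkpos.le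
            have h11 : 2 * β * k * r ≤ 1 / 6 * k * r := by
              have h13 : 2 * β ≤ 1 / 6 := by linarith
              exact mul_le_mul_of_nonneg_right (mul_le_mul_of_nonneg_right h13 hkpos.le) h6
            have h12 : k * (3 * (C2 + A + 1)) ≤ k * L := mul_le_mul_of_nonneg_left h7 hkpos.le
            linarith
  have hsum : ∑ ω ∈ Bd, K ω ^ 2 =
      ∑ r ∈ Finset.range (k + 1), ∑ ω ∈ Bd.filter (fun ω => cQ ω = r), K ω ^ 2 := by
    rw [Finset.sum_fiberwise_of_maps_to]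
    intro ω _
    exact Finset.mem_range.2 (Nat.lt_succ_of_le (hcQ ω))
  rw [hsum]
  refine (Finset.sum_le_sum hmain).trans ?_
  rw [Finset.sum_const, Finset.card_range, nsmul_eq_mul, ← mul_assoc]
  refine mul_le_mul_of_nonneg_right ?_ hT0
  have h1 : ((k + 1 : ℕ) : ℝ) ≤ (2 : ℝ) ^ (k : ℝ) := by
    rw [Real.rpow_natCast]
    have : k + 1 ≤ 2 ^ k := Nat.lt_two_pow_self
    exact_mod_cast this
  calc ((k + 1 : ℕ) : ℝ) * (2 : ℝ) ^ (-((A + 1) * k))
      ≤ (2 : ℝ) ^ (k : ℝ) * (2 : ℝ) ^ (-((A + 1) * k)) :=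
        mul_le_mul_of_nonneg_right h1 (by positivity)
    _ = (2 : ℝ) ^ (-(A * k)) := by
        rw [← Real.rpow_add (by norm_num)]
        congr 1
        ring

end Vale.Agent.P160.Half.P5B61
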