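import Vale.Agent.P160.Half.Pack502b

/-!
# Packing growth, numeric form (P160 (M), leaf P1 for P2)
-/

namespace Vale.Agent.P160.Half.Pack502

open Finset Filter
open scoped Real Topology

theorem ee_le (a q : ℕ) : ∀ i ≤ 5, ee a q i ≤ (15 * a + 1) ^ i * q := by
  intro i
  induction i with
  | zero => intro _; simp [ee]
  | succ i ih =>
    intro hi
    have h1 := ih (by omega)
    have h2 : 1 ≤ (15 * a + 1) ^ i := Nat.one_le_pow _ _ (by omega)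
    have h3 : q ≤ (15 * a + 1) ^ i * q := Nat.le_mul_of_pos_left _ h2
    calc ee a q (i + 1) = a * (i + 1) * (ee a q i + ee a q i + q) := rfl
      _ ≤ a * 5 * ((15 * a + 1) ^ i * q + (15 * a + 1) ^ i * q + (15 * a + 1) ^ i * q) := by
          refine Nat.mul_le_mul (Nat.mul_le_mul_left _ hi) ?_
          omega
      _ = (15 * a) * ((15 * a + 1) ^ i * q) := by ring
      _ ≤ (15 * a + 1) * ((15 * a + 1) ^ i * q) := Nat.mul_le_mul_right _ (by omega)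
      _ = (15 * a + 1) ^ (i + 1) * q := by ring

/-- eventually: constants and logarithms are small powers -/
theorem ev_small (K η : ℝ) (hη : 0 < η) :
    ∀ᶠ k : ℕ in atTop, K ≤ (k : ℝ) ^ η := by
  have h1 : Tendsto (fun k : ℕ => (k : ℝ) ^ η) atTop atTop :=
    (tendsto_rpow_atTop hη).comp tendsto_natCast_atTop_atTop
  exact h1.eventually_ge_atTop K

theorem ev_log (η : ℝ) (hη : 0 < η) :
    ∀ᶠ k : ℕ in atTop, Real.log k ≤ (k : ℝ) ^ η := by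
  have h1 := (isLittleO_log_rpow_atTop hη).bound one_pos
  have h2 := tendsto_natCast_atTop_atTop (R := ℝ) |>.eventually h1
  filter_upwards [h2, eventually_ge_atTop 1] with k hk hk1
  have hk1' : (1 : ℝ) ≤ k := by exact_mod_cast hk1
  rw [one_mul, Real.norm_of_nonneg (Real.log_nonneg hk1'),
    Real.norm_of_nonneg (Real.rpow_nonneg (by linarith) _)] at hk
  exact hk

/-- the numeric data: `k ≥ 1`, `log k ≤ k ^ η`, `2 ^ a ≤ x < 2 ^ (a + 1)` -/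
theorem sqrt_le_pow {C L κ t : ℝ} (hC : 0 < C) (hκ : 1 ≤ κ) (hL0 : 0 ≤ L)
    (hL : L ≤ κ ^ (t + t)) : Real.sqrt (C * L) ≤ (C + 1) * κ ^ t := by
  have hκ0 : 0 < κ := by linarith
  have h0 : 0 ≤ (C + 1) * κ ^ t := by positivity
  rw [Real.sqrt_le_left h0, mul_pow]
  have h1 : (κ ^ t) ^ 2 = κ ^ (t + t) := by
    rw [Real.rpow_add hκ0, sq]
  rw [h1]
  have h8 : C ≤ (C + 1) ^ 2 := by nlinarith
  exact mul_le_mul h8 hL hL0 (by positivity)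

theorem a_le {κ η θ x : ℝ} {a : ℕ} (hκ : 1 ≤ κ) (hlog : Real.log κ ≤ κ ^ η)
    (hθ : θ ≤ 1 / 2) (hx : x = κ ^ θ) (ha : (2 : ℝ) ^ a ≤ x) : (a : ℝ) ≤ κ ^ η := by
  have hκ0 : 0 < κ := by linarith
  have hL0 : 0 ≤ Real.log κ := Real.log_nonneg hκ
  have h1 : (a : ℝ) * Real.log 2 ≤ θ * Real.log κ := by
    have h2 := Real.log_le_log (by positivity) ha
    rwa [Real.log_pow, hx, Real.log_rpow hκ0] at h2
  have h3 : (1 / 2 : ℝ) < Real.log 2 := by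
    have := Real.log_two_gt_d9
    linarith
  have h5 : θ * Real.log κ ≤ 1 / 2 * Real.log κ := mul_le_mul_of_nonneg_right hθ hL0
  have h6 : (a : ℝ) * (1 / 2) ≤ a * Real.log 2 :=
    mul_le_mul_of_nonneg_left h3.le (Nat.cast_nonneg _)
  linarith

theorem q_le {C κ η d x R : ℝ} {a q : ℕ} (hC : 0 < C) (hκ : 1 ≤ κ) (hη : 0 ≤ η)
    (hlog : Real.log κ ≤ κ ^ η) (hd4 : d ≤ 1 / 4) (hx : x = κ ^ (1 / 2 - 3 * d / 5))
    (ha : (2 : ℝ) ^ a ≤ x) (hR2 : R ^ 2 = C * Real.log κ)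
    (hq : (q : ℝ) < 16 * (2 ^ a * R) ^ 2 + 1) :
    (q : ℝ) ≤ 17 * (C + 1) * κ ^ (1 - 6 * d / 5 + η) := by
  have hκ0 : 0 < κ := by linarith
  have hL0 : 0 ≤ Real.log κ := Real.log_nonneg hκ
  have hx0 : 0 < x := by rw [hx]; positivity
  have h2 : (2 ^ a * R) ^ 2 ≤ C * κ ^ (1 - 6 * d / 5 + η) := by
    calc (2 ^ a * R) ^ 2 = (2 ^ a) ^ 2 * R ^ 2 := by ring
      _ ≤ x ^ 2 * (C * κ ^ η) := by
          rw [hR2]
          exact mul_le_mul (pow_le_pow_left₀ (by positivity) ha 2)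
            (mul_le_mul_of_nonneg_left hlog hC.le) (by positivity) (by positivity)
      _ = C * κ ^ (1 - 6 * d / 5 + η) := by
          have h3 : x ^ 2 = κ ^ (1 - 6 * d / 5) := by
            rw [hx, ← Real.rpow_natCast, ← Real.rpow_mul hκ0.le]
            congr 1
            push_cast
            ring
          rw [h3, Real.rpow_add hκ0]
          ring
  have h3 : 1 ≤ κ ^ (1 - 6 * d / 5 + η) :=
    Real.one_le_rpow hκ (by linarith)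
  nlinarith

theorem ee_le_pow {C κ η d : ℝ} {a q i : ℕ} (hκ : 1 ≤ κ) (hd : 0 < d)
    (hη : η = d / 60) (hC : 0 < C) (ha : (a : ℝ) ≤ κ ^ η)
    (hq : (q : ℝ) ≤ 17 * (C + 1) * κ ^ (1 - 6 * d / 5 + η))
    (hc1 : 16 ^ 5 * (17 * (C + 1)) ≤ κ ^ (d / 10)) (hi : i ≤ 5) :
    (ee a q i : ℝ) ≤ κ ^ (1 - d) := by
  have hκ0 : 0 < κ := by linarith
  have hη0 : 0 < η := by rw [hη]; positivity
  have hkη1 : 1 ≤ κ ^ η := Real.one_le_rpow hκ hη0.le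
  have h1 : (ee a q i : ℝ) ≤ (15 * a + 1 : ℝ) ^ i * q := by exact_mod_cast ee_le a q i hi
  have h2 : (15 * a + 1 : ℝ) ^ i ≤ (16 * κ ^ η) ^ 5 := by
    calc (15 * a + 1 : ℝ) ^ i ≤ (16 * κ ^ η) ^ i :=
          pow_le_pow_left₀ (by positivity) (by linarith) i
      _ ≤ (16 * κ ^ η) ^ 5 := pow_le_pow_right₀ (by linarith) hi
  have h3 : (κ ^ η) ^ 5 = κ ^ (5 * η) := by
    rw [← Real.rpow_natCast, ← Real.rpow_mul hκ0.le]
    congr 1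
    push_cast
    ring
  calc (ee a q i : ℝ) ≤ (15 * a + 1 : ℝ) ^ i * q := h1
    _ ≤ (16 * κ ^ η) ^ 5 * (17 * (C + 1) * κ ^ (1 - 6 * d / 5 + η)) :=
        mul_le_mul h2 hq (by positivity) (by positivity)
    _ = (16 ^ 5 * (17 * (C + 1))) * (κ ^ (5 * η) * κ ^ (1 - 6 * d / 5 + η)) := by
        rw [mul_pow, h3]
        ring
    _ ≤ κ ^ (d / 10) * (κ ^ (5 * η) * κ ^ (1 - 6 * d / 5 + η)) :=
        mul_le_mul_of_nonneg_right hc1 (by positivity)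
    _ = κ ^ (1 - d) := by
        rw [← Real.rpow_add hκ0, ← Real.rpow_add hκ0]
        congr 1
        rw [hη]
        ring

theorem min_le {C κ d x R : ℝ} {a : ℕ} (hκ : 1 ≤ κ) (hd4 : d ≤ 1 / 4)
    (hx : x = κ ^ (1 / 2 - 3 * d / 5)) (ha2 : x < 2 ^ (a + 1))
    (hR : R ≤ (C + 1) * κ ^ (1 / 8 : ℝ)) (hc2 : 32 * π * (C + 1) ≤ κ ^ (1 / 8 : ℝ)) :
    π * R / 2 ^ (a * 5) ≤ κ ^ (-(3 / 2) : ℝ) := by
  have hκ0 : 0 < κ := by linarith
  have hx0 : 0 < x := by rw [hx]; positivity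
  rw [div_le_iff₀ (by positivity)]
  have h2 : x ^ 5 / 32 ≤ (2 : ℝ) ^ (a * 5) := by
    have h3 : x ^ 5 ≤ (2 ^ (a + 1)) ^ 5 := pow_le_pow_left₀ hx0.le ha2.le 5
    rw [div_le_iff₀ (by norm_num)]
    calc x ^ 5 ≤ (2 ^ (a + 1)) ^ 5 := h3
      _ = 2 ^ (a * 5) * 32 := by rw [← pow_mul, add_mul, pow_add]; norm_num
  have h4 : κ ^ (7 / 4 : ℝ) ≤ x ^ 5 := by
    rw [hx, ← Real.rpow_natCast, ← Real.rpow_mul hκ0.le]
    refine Real.rpow_le_rpow_of_exponent_le hκ ?_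
    push_cast
    linarith
  have h9 : κ ^ (-(3 / 2) : ℝ) * κ ^ (7 / 4 : ℝ) = κ ^ (1 / 8 : ℝ) * κ ^ (1 / 8 : ℝ) := by
    rw [← Real.rpow_add hκ0, ← Real.rpow_add hκ0]
    norm_num
  calc π * R ≤ π * ((C + 1) * κ ^ (1 / 8 : ℝ)) :=
        mul_le_mul_of_nonneg_left hR Real.pi_pos.le
    _ = (32 * π * (C + 1)) * κ ^ (1 / 8 : ℝ) / 32 := by ring
    _ ≤ κ ^ (1 / 8 : ℝ) * κ ^ (1 / 8 : ℝ) / 32 := by
        refine div_le_div_of_nonneg_right ?_ (by norm_num)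
        exact mul_le_mul_of_nonneg_right hc2 (by positivity)
    _ = κ ^ (-(3 / 2) : ℝ) * (κ ^ (7 / 4 : ℝ) / 32) := by rw [← h9]; ring
    _ ≤ κ ^ (-(3 / 2) : ℝ) * 2 ^ (a * 5) := by
        refine mul_le_mul_of_nonneg_left ?_ (by positivity)
        exact le_trans (div_le_div_of_nonneg_right h4 (by norm_num)) h2

theorem out_le {C κ d x R : ℝ} {a : ℕ} (hκ : 1 ≤ κ) (hC : 0 < C) (hR0 : 0 ≤ R)
    (hx : x = κ ^ (1 / 2 - 3 * d / 5)) (hx1 : 1 ≤ x) (ha1 : (2 : ℝ) ^ a ≤ x)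
    (hR : R ≤ (C + 1) * κ ^ (d / 20)) (hc3 : 5 * (C + 1) ≤ κ ^ (d / 20)) :
    π * (2 ^ a + 1 / 2) * R ≤ κ ^ (1 / 2 - d / 2) := by
  have hκ0 : 0 < κ := by linarith
  have hx0 : 0 < x := by linarith
  have hpi : π < 3.15 := Real.pi_lt_d2
  have h4 : π * (2 ^ a + 1 / 2) ≤ 5 * x := by
    have h5 : (2 : ℝ) ^ a + 1 / 2 ≤ 3 / 2 * x := by linarith
    have h6 : π * (2 ^ a + 1 / 2) ≤ 3.15 * (3 / 2 * x) :=
      mul_le_mul hpi.le h5 (by positivity) (by norm_num)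
    linarith
  calc π * (2 ^ a + 1 / 2) * R ≤ (5 * x) * ((C + 1) * κ ^ (d / 20)) :=
        mul_le_mul h4 hR hR0 (by positivity)
    _ = (5 * (C + 1)) * κ ^ (d / 20) * x := by ring
    _ ≤ κ ^ (d / 20) * κ ^ (d / 20) * x := by
        refine mul_le_mul_of_nonneg_right ?_ (by positivity)
        exact mul_le_mul_of_nonneg_right hc3 (by positivity)
    _ = κ ^ (1 / 2 - d / 2) := by
        rw [hx, ← Real.rpow_add hκ0, ← Real.rpow_add hκ0]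
        congr 1
        ring

/-- **Packing growth, numeric form.** -/
theorem grow_k (C d : ℝ) (hC : 0 < C) (hd : 0 < d) (hd4 : d ≤ 1 / 4) :
    ∃ k0 : ℕ, ∀ k : ℕ, k0 ≤ k → ∀ (G : Type) [AddCommGroup G] [Fintype G] (m : ℕ)
      (y : Fin m → G),
      (∀ ψ : AddChar G ℂ, ψ ≠ 1 → ∀ F : Finset (Fin m), (Fᶜ.card : ℝ) ≤ (k : ℝ) ^ (1 - d) →
        ((k : ℝ) ^ (-(3 / 2) : ℝ)) ^ 2 < ∑ c ∈ F, ‖ψ (y c) - 1‖ ^ 2) →
      NC y (Real.sqrt (C * Real.log k)) 0 ^ 6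
        ≤ NC y ((k : ℝ) ^ (1 / 2 - d / 2)) ⌊(k : ℝ) ^ (1 - d)⌋₊ ^ 5 := by
  have hη0 : 0 < d / 60 := by positivity
  have hev : ∀ᶠ k : ℕ in atTop, (1 ≤ k ∧ Real.log k ≤ (k : ℝ) ^ (d / 60)) ∧
      (16 ^ 5 * (17 * (C + 1)) ≤ (k : ℝ) ^ (d / 10) ∧ 32 * π * (C + 1) ≤ (k : ℝ) ^ (1 / 8 : ℝ) ∧
        5 * (C + 1) ≤ (k : ℝ) ^ (d / 20)) :=
    ((eventually_ge_atTop 1).and (ev_log _ hη0)).and
      ((ev_small _ _ (by positivity)).and ((ev_small _ _ (by norm_num)).and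
        (ev_small _ _ (by positivity))))
  obtain ⟨k0, hk0⟩ := eventually_atTop.1 hev
  refine ⟨k0, fun k hk G _ _ m y hmin => ?_⟩
  obtain ⟨⟨hk1, hlog⟩, hc1, hc2, hc3⟩ := hk0 k hk
  have hκ : (1 : ℝ) ≤ k := by exact_mod_cast hk1
  have hL0 : 0 ≤ Real.log k := Real.log_nonneg hκ
  have hR0 : 0 ≤ Real.sqrt (C * Real.log k) := Real.sqrt_nonneg _
  have hR2 : Real.sqrt (C * Real.log k) ^ 2 = C * Real.log k := Real.sq_sqrt (by positivity)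
  have hθ0 : 0 < 1 / 2 - 3 * d / 5 := by linarith
  have hx1 : 1 ≤ (k : ℝ) ^ (1 / 2 - 3 * d / 5) := Real.one_le_rpow hκ hθ0.le
  obtain ⟨a, ha1, ha2⟩ : ∃ a : ℕ, (2 : ℝ) ^ a ≤ (k : ℝ) ^ (1 / 2 - 3 * d / 5) ∧
      (k : ℝ) ^ (1 / 2 - 3 * d / 5) < 2 ^ (a + 1) :=
    exists_nat_pow_near hx1 (by norm_num : (1 : ℝ) < 2)
  have haL : (a : ℝ) ≤ (k : ℝ) ^ (d / 60) := a_le hκ hlog (by linarith) rfl ha1
  have hq1 : 16 * (2 ^ a * Real.sqrt (C * Real.log k)) ^ 2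
      ≤ ((⌈16 * (2 ^ a * Real.sqrt (C * Real.log k)) ^ 2⌉₊ : ℕ) : ℝ) := Nat.le_ceil _
  have hq2 := q_le (q := ⌈16 * (2 ^ a * Real.sqrt (C * Real.log k)) ^ 2⌉₊) hC hκ hη0.le hlog
    hd4 rfl ha1 hR2 (Nat.ceil_lt_add_one (by positivity))
  have hee := fun (i : ℕ) (hi : i ≤ 5) => ee_le_pow hκ hd rfl hC haL hq2 hc1 hi
  have hRa : Real.sqrt (C * Real.log k) ≤ (C + 1) * (k : ℝ) ^ (1 / 8 : ℝ) :=
    sqrt_le_pow hC hκ hL0 (hlog.trans (Real.rpow_le_rpow_of_exponent_le hκ (by linarith)))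
  have hRb : Real.sqrt (C * Real.log k) ≤ (C + 1) * (k : ℝ) ^ (d / 20) :=
    sqrt_le_pow hC hκ hL0 (hlog.trans (Real.rpow_le_rpow_of_exponent_le hκ (by linarith)))
  have hm1 := min_le hκ hd4 rfl ha2 hRa hc2
  have h1 := growthC y (a := a) (E := ⌊(k : ℝ) ^ (1 - d)⌋₊) (r := 5) hR0 hq1
    (fun i hi => Nat.le_floor (hee i (le_of_lt hi))) (fun ψ hψ F hF =>
      lt_of_le_of_lt (pow_le_pow_left₀ (by positivity) hm1 2)
        (hmin ψ hψ F (le_trans (by exact_mod_cast hF) (hee 5 le_rfl))))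
  refine h1.trans (Nat.pow_le_pow_left ?_ 5)
  have h2 := out_le hκ hC hR0 rfl hx1 ha1 hRb hc3
  classical
  unfold NC
  refine Finset.card_le_card fun ψ hψ => ?_
  refine Finset.mem_filter.2 ⟨Finset.mem_univ _, ?_⟩
  obtain ⟨F, hF, h⟩ := (Finset.mem_filter.1 hψ).2
  exact ⟨F, hF, h.trans (pow_le_pow_left₀ (by positivity) h2 2)⟩

end Vale.Agent.P160.Half.Pack502
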