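import Mathlib

/-!
# P160: the potential lemma of the column exposure

Words `M : Fin l → Ω` of columns; `e i M` the excess of the prime number `i` after `l` columns;
`inc i M w` the event that the column `w` raises it.  If a set `B` of primes is raised with
probability at most `∏_{i ∈ B} q i (e i M)`, and `F' i x + q i x * F' i (x + 1) ≤ F i x`, then
the sum of the products of the `F'` over the words of length `l + 1` is at most `|Ω|` times the
sum of the products of the `F` over the words of length `l`.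
-/

set_option linter.unusedSectionVars false

namespace Vale.Agent.P160.Half.Pot226

open Finset

open scoped Classical in
/-- The pointwise form: one column after a fixed word. -/
theorem step_pt {Ω ι : Type*} [Fintype Ω] (P : Finset ι) (x : ι → ℕ) (x' : ι → Ω → ℕ)
    (inc : ι → Ω → Prop) (q : ι → ℝ) (F F' : ι → ℕ → ℝ)
    (hx : ∀ i ∈ P, ∀ w, x' i w ≤ x i + if inc i w then 1 else 0)
    (hq : ∀ B ⊆ P, ((univ.filter fun w => ∀ i ∈ B, inc i w).card : ℝ) ≤
      (∏ i ∈ B, q i) * Fintype.card Ω)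
    (hF0 : ∀ i ∈ P, ∀ y, 0 ≤ F' i y) (hFm : ∀ i ∈ P, Monotone (F' i))
    (hrec : ∀ i ∈ P, F' i (x i) + q i * F' i (x i + 1) ≤ F i (x i))
    (hq0 : ∀ i ∈ P, 0 ≤ q i) :
    ∑ w, ∏ i ∈ P, F' i (x' i w) ≤ Fintype.card Ω * ∏ i ∈ P, F i (x i) := by
  have h1 : ∀ w, ∏ i ∈ P, F' i (x' i w) ≤
      ∑ t ∈ P.powerset, (if ∀ i ∈ t, inc i w then ∏ i ∈ t, F' i (x i + 1) else 0) *
        ∏ i ∈ P \ t, F' i (x i) := by
    intro w
    have h2 : ∏ i ∈ P, F' i (x' i w) ≤
        ∏ i ∈ P, ((if inc i w then F' i (x i + 1) else 0) + F' i (x i)) := by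
      refine Finset.prod_le_prod (fun i hi => hF0 i hi _) fun i hi => ?_
      have h3 := hx i hi w
      by_cases hi' : inc i w
      · rw [if_pos hi'] at h3 ⊢
        have := hFm i hi h3
        have := hF0 i hi (x i)
        linarith
      · rw [if_neg hi'] at h3 ⊢
        have := hFm i hi h3
        simpa using this
    refine h2.trans (le_of_eq ?_)
    rw [Finset.prod_add]
    refine Finset.sum_congr rfl fun t _ => ?_
    congr 1
    exact Finset.prod_ite_zero
  calc ∑ w, ∏ i ∈ P, F' i (x' i w)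
      ≤ ∑ w, ∑ t ∈ P.powerset, (if ∀ i ∈ t, inc i w then ∏ i ∈ t, F' i (x i + 1) else 0) *
        ∏ i ∈ P \ t, F' i (x i) := Finset.sum_le_sum fun w _ => h1 w
    _ = ∑ t ∈ P.powerset, ((univ.filter fun w => ∀ i ∈ t, inc i w).card : ℝ) *
        (∏ i ∈ t, F' i (x i + 1)) * ∏ i ∈ P \ t, F' i (x i) := by
        rw [Finset.sum_comm]
        refine Finset.sum_congr rfl fun t _ => ?_
        rw [← Finset.sum_mul]
        congr 1
        rw [← Finset.sum_filter, Finset.sum_const, nsmul_eq_mul]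
    _ ≤ ∑ t ∈ P.powerset, (((∏ i ∈ t, q i) * Fintype.card Ω) *
        (∏ i ∈ t, F' i (x i + 1))) * ∏ i ∈ P \ t, F' i (x i) := by
        refine Finset.sum_le_sum fun t ht => ?_
        have htP : t ⊆ P := Finset.mem_powerset.1 ht
        refine mul_le_mul_of_nonneg_right (mul_le_mul_of_nonneg_right (hq t htP) ?_) ?_
        · exact Finset.prod_nonneg fun i hi => hF0 i (htP hi) _
        · exact Finset.prod_nonneg fun i hi => hF0 i (Finset.mem_sdiff.1 hi).1 _
    _ = Fintype.card Ω * ∏ i ∈ P, (q i * F' i (x i + 1) + F' i (x i)) := by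
        rw [Finset.prod_add, Finset.mul_sum]
        refine Finset.sum_congr rfl fun t _ => ?_
        rw [Finset.prod_mul_distrib]
        ring
    _ ≤ Fintype.card Ω * ∏ i ∈ P, F i (x i) := by
        refine mul_le_mul_of_nonneg_left ?_ (Nat.cast_nonneg _)
        refine Finset.prod_le_prod (fun i hi => ?_) fun i hi => ?_
        · exact add_nonneg (mul_nonneg (hq0 i hi) (hF0 i hi _)) (hF0 i hi _)
        · have := hrec i hi
          linarith

/-- Sum over words of length `l + 1`: last letter last. -/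
theorem sum_snoc {Ω : Type*} [Fintype Ω] (l : ℕ) (f : (Fin (l + 1) → Ω) → ℝ) :
    ∑ M, f M = ∑ M : Fin l → Ω, ∑ w, f (Fin.snoc M w) := by
  rw [← Fintype.sum_prod_type']
  refine (Fintype.sum_equiv ((Equiv.prodComm _ _).trans (Fin.snocEquiv fun _ => Ω)) _ _ ?_).symm
  rintro ⟨M, w⟩
  rfl

open scoped Classical in
/-- **The potential lemma**, one column. -/
theorem step {Ω ι : Type*} [Fintype Ω] (P : Finset ι) (l : ℕ)
    (R : (Fin l → Ω) → Prop) (R' : (Fin (l + 1) → Ω) → Prop)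
    (hR : ∀ M w, R' (Fin.snoc M w) → R M)
    (e : ι → (Fin l → Ω) → ℕ) (e' : ι → (Fin (l + 1) → Ω) → ℕ)
    (inc : ι → (Fin l → Ω) → Ω → Prop) (q : ι → ℕ → ℝ) (F F' : ι → ℕ → ℝ)
    (he : ∀ i ∈ P, ∀ M w, R M → e' i (Fin.snoc M w) ≤ e i M + if inc i M w then 1 else 0)
    (hq : ∀ M, R M → ∀ B ⊆ P, ((univ.filter fun w => ∀ i ∈ B, inc i M w).card : ℝ) ≤
      (∏ i ∈ B, q i (e i M)) * Fintype.card Ω)
    (hF0 : ∀ i ∈ P, ∀ y, 0 ≤ F' i y) (hFm : ∀ i ∈ P, Monotone (F' i))
    (hrec : ∀ M, R M → ∀ i ∈ P, F' i (e i M) + q i (e i M) * F' i (e i M + 1) ≤ F i (e i M))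
    (hq0 : ∀ i ∈ P, ∀ y, 0 ≤ q i y) :
    ∑ M ∈ univ.filter R', ∏ i ∈ P, F' i (e' i M) ≤
      Fintype.card Ω * ∑ M ∈ univ.filter R, ∏ i ∈ P, F i (e i M) := by
  rw [Finset.sum_filter, sum_snoc, Finset.mul_sum, Finset.sum_filter]
  refine Finset.sum_le_sum fun M _ => ?_
  by_cases hM : R M
  · rw [if_pos hM]
    refine le_trans (Finset.sum_le_sum fun w _ => ?_)
      (step_pt P (fun i => e i M) (fun i w => e' i (Fin.snoc M w)) (fun i w => inc i M w)
        (fun i => q i (e i M)) F F' (fun i hi w => he i hi M w hM) (hq M hM) hF0 hFm (hrec M hM)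
        (fun i hi => hq0 i hi _))
    by_cases hw : R' (Fin.snoc M w)
    · rw [if_pos hw]
    · rw [if_neg hw]
      exact Finset.prod_nonneg fun i hi => hF0 i hi _
  · rw [if_neg hM]
    refine le_of_eq (Finset.sum_eq_zero fun w _ => ?_)
    rw [if_neg fun h => hM (hR M w h)]

open scoped Classical in
/-- **The potential lemma**, from the column `j` to the column `n`. -/
theorem iter {Ω ι : Type*} [Fintype Ω] (P : Finset ι) (j n : ℕ) (hjn : j ≤ n)
    (R : (l : ℕ) → (Fin l → Ω) → Prop)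
    (hR : ∀ l, j ≤ l → l < n → ∀ M w, R (l + 1) (Fin.snoc M w) → R l M)
    (e : (l : ℕ) → ι → (Fin l → Ω) → ℕ)
    (inc : (l : ℕ) → ι → (Fin l → Ω) → Ω → Prop) (q F : ℕ → ι → ℕ → ℝ)
    (he : ∀ l, j ≤ l → l < n → ∀ i ∈ P, ∀ M w, R l M →
      e (l + 1) i (Fin.snoc M w) ≤ e l i M + if inc l i M w then 1 else 0)
    (hq : ∀ l, j ≤ l → l < n → ∀ M, R l M → ∀ B ⊆ P,
      ((univ.filter fun w => ∀ i ∈ B, inc l i M w).card : ℝ) ≤
      (∏ i ∈ B, q l i (e l i M)) * Fintype.card Ω)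
    (hF0 : ∀ l, j < l → l ≤ n → ∀ i ∈ P, ∀ y, 0 ≤ F l i y)
    (hFm : ∀ l, j < l → l ≤ n → ∀ i ∈ P, Monotone (F l i))
    (hrec : ∀ l, j ≤ l → l < n → ∀ M, R l M → ∀ i ∈ P,
      F (l + 1) i (e l i M) + q l i (e l i M) * F (l + 1) i (e l i M + 1) ≤ F l i (e l i M))
    (hq0 : ∀ l, j ≤ l → l < n → ∀ i ∈ P, ∀ y, 0 ≤ q l i y) :
    ∑ M ∈ univ.filter (R n), ∏ i ∈ P, F n i (e n i M) ≤
      (Fintype.card Ω : ℝ) ^ (n - j) * ∑ M ∈ univ.filter (R j), ∏ i ∈ P, F j i (e j i M) := by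
  induction n, hjn using Nat.le_induction with
  | base => simp
  | succ n hjn ih =>
    have h1 := ih (fun l h1 h2 => hR l h1 (h2.trans n.lt_succ_self))
      (fun l h1 h2 => he l h1 (h2.trans n.lt_succ_self))
      (fun l h1 h2 => hq l h1 (h2.trans n.lt_succ_self))
      (fun l h1 h2 => hF0 l h1 (h2.trans n.le_succ))
      (fun l h1 h2 => hFm l h1 (h2.trans n.le_succ))
      (fun l h1 h2 => hrec l h1 (h2.trans n.lt_succ_self))
      (fun l h1 h2 => hq0 l h1 (h2.trans n.lt_succ_self))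
    have h2 := step P n (R n) (R (n + 1)) (hR n hjn n.lt_succ_self) (e n) (e (n + 1)) (inc n)
      (q n) (F n) (F (n + 1)) (he n hjn n.lt_succ_self) (hq n hjn n.lt_succ_self)
      (hF0 (n + 1) (by omega) le_rfl) (hFm (n + 1) (by omega) le_rfl)
      (hrec n hjn n.lt_succ_self) (hq0 n hjn n.lt_succ_self)
    refine h2.trans ?_
    rw [show n + 1 - j = (n - j) + 1 by omega, pow_succ]
    calc (Fintype.card Ω : ℝ) * ∑ M ∈ univ.filter (R n), ∏ i ∈ P, F n i (e n i M)
        ≤ (Fintype.card Ω : ℝ) * ((Fintype.card Ω : ℝ) ^ (n - j) *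
          ∑ M ∈ univ.filter (R j), ∏ i ∈ P, F j i (e j i M)) :=
          mul_le_mul_of_nonneg_left h1 (Nat.cast_nonneg _)
      _ = _ := by ring

end Vale.Agent.P160.Half.Pot226
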