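import Mathlib

/-! # P160, half rate: the potential function of the column exposure (helper762)

Columns `y : Fin k → Ω` are read one after the other (head first). `e s p` is the excess of the
prime `p` in the state `s`; it increases by one exactly when `inc s y p`. If at every column the
probability that all `p ∈ B` increase is at most `K ∏_{p ∈ B} x p i (e s p)` (`i` = number of
columns which remain after this one) then the expectation of `∏ f p (e_final p)` on this event is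
at most `∏ v p (e p)`, `v_0 = f`, `v_{i+1}(e) = v_i(e) + K x_i(e) v_i(e+1)`. -/

set_option autoImplicit false

namespace Vale.Agent.P160.Half.Pot762

open Finset

/-- the potential with `i` columns to go -/
noncomputable def pv {ι : Type*} (f : ι → ℕ → ℝ) (K : ℝ) (x : ι → ℕ → ℕ → ℝ) (p : ι) :
    ℕ → ℕ → ℝ
  | 0, e => f p e
  | i + 1, e => pv f K x p i e + K * x p i e * pv f K x p i (e + 1)

/-- the final state -/
def run {σ Ω : Type*} (step : σ → Ω → σ) : (k : ℕ) → σ → (Fin k → Ω) → σ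
  | 0, s, _ => s
  | k + 1, s, y => run step k (step s (y 0)) (Fin.tail y)

/-- `good i s` at every state where `i + 1` columns remain -/
def AllGood {σ Ω : Type*} (step : σ → Ω → σ) (good : ℕ → σ → Prop) :
    (k : ℕ) → σ → (Fin k → Ω) → Prop
  | 0, _, _ => True
  | k + 1, s, y => good k s ∧ AllGood step good k (step s (y 0)) (Fin.tail y)

lemma pv_nonneg {ι : Type*} {f : ι → ℕ → ℝ} {K : ℝ} {x : ι → ℕ → ℕ → ℝ}
    (hf : ∀ p e, 0 ≤ f p e) (hK : 0 ≤ K) (hx : ∀ p i e, 0 ≤ x p i e) (p : ι) :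
    ∀ i e, 0 ≤ pv f K x p i e := by
  intro i
  induction i with
  | zero => exact fun e => hf p e
  | succ i ih =>
    intro e
    have := ih e
    have := ih (e + 1)
    have := hx p i e
    simp only [pv]
    positivity

lemma sum_cons {Ω : Type*} [Fintype Ω] (k : ℕ) (g : (Fin (k + 1) → Ω) → ℝ) :
    ∑ y, g y = ∑ a, ∑ t : Fin k → Ω, g (Fin.cons a t) := by
  rw [← Fintype.sum_prod_type']
  exact Fintype.sum_equiv (Fin.consEquiv (fun _ => Ω)).symm _ _ (fun y => by
    simp [Fin.consEquiv])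

/-- **the potential function lemma** -/
theorem pot_le {σ Ω ι : Type*} [Fintype Ω] (S : Finset ι) (step : σ → Ω → σ)
    (e : σ → ι → ℕ) (inc : σ → Ω → ι → Prop) (good : ℕ → σ → Prop) (f : ι → ℕ → ℝ) (K : ℝ)
    (x : ι → ℕ → ℕ → ℝ) (hK : 1 ≤ K) (hf : ∀ p e, 0 ≤ f p e) (hx : ∀ p i e, 0 ≤ x p i e)
    (hinc : ∀ s y, ∀ p ∈ S, inc s y p → e (step s y) p = e s p + 1)
    (hnot : ∀ s y, ∀ p ∈ S, ¬ inc s y p → e (step s y) p = e s p)
    (hgood : ∀ i s, good i s → ∀ B ⊆ S, B.Nonempty →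
      (Nat.card {y // ∀ p ∈ B, inc s y p} : ℝ) ≤
        K * (∏ p ∈ B, x p i (e s p)) * Fintype.card Ω) (k : ℕ) :
    ∀ s, (∑ y : Fin k → Ω, (open Classical in if AllGood step good k s y then
        ∏ p ∈ S, f p (e (run step k s y) p) else 0)) ≤
      (Fintype.card Ω : ℝ) ^ k * ∏ p ∈ S, pv f K x p k (e s p) := by
  classical
  have hK0 : 0 ≤ K := by linarith
  induction k with
  | zero =>
    intro s
    simp [AllGood, run, pv]
  | succ k ih =>
    intro s
    rw [sum_cons]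
    have hv := fun p => pv_nonneg hf hK0 hx p
    by_cases hg : good k s
    · have h1 : ∀ a : Ω, (∑ t : Fin k → Ω, (if AllGood step good (k + 1) s (Fin.cons a t) then
          ∏ p ∈ S, f p (e (run step (k + 1) s (Fin.cons a t)) p) else 0)) ≤
          (Fintype.card Ω : ℝ) ^ k * ∏ p ∈ S, ((if inc s a p then pv f K x p k (e s p + 1)
            else 0) + pv f K x p k (e s p)) := by
        intro a
        have h2 : (∑ t : Fin k → Ω, (if AllGood step good (k + 1) s (Fin.cons a t) then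
          ∏ p ∈ S, f p (e (run step (k + 1) s (Fin.cons a t)) p) else 0)) =
          ∑ t : Fin k → Ω, (if AllGood step good k (step s a) t then
          ∏ p ∈ S, f p (e (run step k (step s a) t) p) else 0) := by
          refine Finset.sum_congr rfl fun t _ => ?_
          simp [AllGood, run, hg]
        rw [h2]
        refine (ih (step s a)).trans ?_
        refine mul_le_mul_of_nonneg_left ?_ (by positivity)
        refine Finset.prod_le_prod (fun p _ => hv p _ _) fun p hp => ?_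
        by_cases hi : inc s a p
        · rw [hinc s a p hp hi, if_pos hi]
          linarith [hv p k (e s p)]
        · rw [hnot s a p hp hi, if_neg hi]
          linarith
      refine (Finset.sum_le_sum fun a _ => h1 a).trans ?_
      rw [← Finset.mul_sum, pow_succ, mul_assoc]
      refine mul_le_mul_of_nonneg_left ?_ (by positivity)
      have h3 : ∀ a : Ω, ∏ p ∈ S, ((if inc s a p then pv f K x p k (e s p + 1) else 0) +
          pv f K x p k (e s p)) = ∑ B ∈ S.powerset,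
            (if ∀ p ∈ B, inc s a p then ∏ p ∈ B, pv f K x p k (e s p + 1) else 0) *
              ∏ p ∈ S \ B, pv f K x p k (e s p) := by
        intro a
        rw [Finset.prod_add]
        refine Finset.sum_congr rfl fun B _ => ?_
        rw [Finset.prod_ite_zero]
      rw [Finset.sum_congr rfl fun a _ => h3 a, Finset.sum_comm]
      have h4 : ∏ p ∈ S, pv f K x p (k + 1) (e s p) = ∑ B ∈ S.powerset,
          (∏ p ∈ B, (K * x p k (e s p) * pv f K x p k (e s p + 1))) *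
            ∏ p ∈ S \ B, pv f K x p k (e s p) := by
        rw [← Finset.prod_add]
        refine Finset.prod_congr rfl fun p _ => ?_
        simp only [pv]
        ring
      rw [h4, Finset.mul_sum]
      refine Finset.sum_le_sum fun B hB => ?_
      rw [← Finset.sum_mul, ← mul_assoc]
      refine mul_le_mul_of_nonneg_right ?_ (Finset.prod_nonneg fun p _ => hv p _ _)
      rw [Finset.sum_ite, Finset.sum_const_zero, add_zero, Finset.sum_const, nsmul_eq_mul]
      have h5 : ((Finset.univ.filter fun a => ∀ p ∈ B, inc s a p).card : ℝ) =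
          (Nat.card {y // ∀ p ∈ B, inc s y p} : ℝ) := by
        rw [Nat.card_eq_fintype_card, Fintype.card_subtype]
      rw [h5, Finset.prod_mul_distrib, Finset.prod_mul_distrib, Finset.prod_const]
      have hpv : 0 ≤ ∏ p ∈ B, pv f K x p k (e s p + 1) := Finset.prod_nonneg fun p _ => hv p _ _
      have hxx : 0 ≤ ∏ p ∈ B, x p k (e s p) := Finset.prod_nonneg fun p _ => hx p _ _
      rcases B.eq_empty_or_nonempty with hB0 | hB0
      · subst hB0
        simp
      · have h6 := hgood k s hg B (Finset.mem_powerset.1 hB) hB0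
        have h7 : K ≤ K ^ B.card := by
          have := pow_le_pow_right₀ hK (Finset.card_pos.2 hB0)
          rwa [Nat.succ_eq_add_one, zero_add, pow_one] at this
        calc (Nat.card {y // ∀ p ∈ B, inc s y p} : ℝ) * ∏ p ∈ B, pv f K x p k (e s p + 1)
            ≤ (K * (∏ p ∈ B, x p k (e s p)) * Fintype.card Ω) *
              ∏ p ∈ B, pv f K x p k (e s p + 1) := mul_le_mul_of_nonneg_right h6 hpv
          _ ≤ (K ^ B.card * (∏ p ∈ B, x p k (e s p)) * Fintype.card Ω) *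
              ∏ p ∈ B, pv f K x p k (e s p + 1) := by gcongr
          _ = _ := by ring
    · have h1 : ∀ a : Ω, (∑ t : Fin k → Ω, (if AllGood step good (k + 1) s (Fin.cons a t) then
          ∏ p ∈ S, f p (e (run step (k + 1) s (Fin.cons a t)) p) else 0)) = 0 := by
        intro a
        refine Finset.sum_eq_zero fun t _ => ?_
        simp [AllGood, hg]
      rw [Finset.sum_eq_zero fun a _ => h1 a]
      exact mul_nonneg (by positivity) (Finset.prod_nonneg fun p _ => hv p _ _)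

lemma pv_sum {ι : Type*} (f : ι → ℕ → ℝ) (K : ℝ) (x : ι → ℕ → ℕ → ℝ) (p : ι) (i e : ℕ) :
    pv f K x p i e = f p e + ∑ m ∈ range i, K * x p m e * pv f K x p m (e + 1) := by
  induction i with
  | zero => simp [pv]
  | succ i ih =>
    rw [Finset.sum_range_succ, ← add_assoc, ← ih]
    simp only [pv]

/-! ### numerics in the good period -/

/-- cost of an increment: `p ^ (-min (dim, R))`, `dim = i + 1 + e` -/
noncomputable def xg (R : ℕ) (p i e : ℕ) : ℝ := ((p : ℝ) ^ min (i + 1 + e) R)⁻¹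

/-- the weight `p ^ (2 e)` -/
noncomputable def fg (p e : ℕ) : ℝ := (p : ℝ) ^ (2 * e)

lemma xg_nonneg (R p i e : ℕ) : 0 ≤ xg R p i e := by unfold xg; positivity

lemma sum_xg {R p : ℕ} (hp : 16 ≤ p) (hR : 5 ≤ R) {i : ℕ} (hi : i ≤ p) (e : ℕ) :
    ∑ m ∈ range i, xg R p m e ≤ 16 / 15 * ((p : ℝ) ^ (e + 1))⁻¹ + ((p : ℝ) ^ 4)⁻¹ := by
  have hp' : (16 : ℝ) ≤ p := by exact_mod_cast hp
  have hp0 : (0 : ℝ) < p := by linarith
  have h1 : ∀ m ∈ range i, xg R p m e ≤ ((p : ℝ) ^ (e + 1))⁻¹ * ((p : ℝ)⁻¹) ^ m +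
      ((p : ℝ) ^ 5)⁻¹ := by
    intro m _
    unfold xg
    rcases le_total (m + 1 + e) R with h | h
    · rw [min_eq_left h]
      have : ((p : ℝ) ^ (m + 1 + e))⁻¹ = ((p : ℝ) ^ (e + 1))⁻¹ * ((p : ℝ)⁻¹) ^ m := by
        rw [inv_pow, ← mul_inv, ← pow_add]
        congr 2
        ring
      rw [this]
      have : (0 : ℝ) ≤ ((p : ℝ) ^ 5)⁻¹ := by positivity
      linarith
    · rw [min_eq_right h]
      have h2 : ((p : ℝ) ^ R)⁻¹ ≤ ((p : ℝ) ^ 5)⁻¹ := by
        refine inv_anti₀ (by positivity) (pow_le_pow_right₀ (by linarith) hR)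
      have : (0 : ℝ) ≤ ((p : ℝ) ^ (e + 1))⁻¹ * ((p : ℝ)⁻¹) ^ m := by positivity
      linarith
  refine (Finset.sum_le_sum h1).trans ?_
  rw [Finset.sum_add_distrib, ← Finset.mul_sum, Finset.sum_const, Finset.card_range, nsmul_eq_mul]
  have h2 : ∑ m ∈ range i, ((p : ℝ)⁻¹) ^ m ≤ 16 / 15 := by
    have h3 : (p : ℝ)⁻¹ ≤ 1 / 16 := by
      rw [inv_le_comm₀ hp0 (by norm_num)]
      linarith
    have h4 : ∑ m ∈ range i, ((p : ℝ)⁻¹) ^ m ≤ ∑ m ∈ range i, (1 / 16 : ℝ) ^ m :=
      Finset.sum_le_sum fun m _ => pow_le_pow_left₀ (by positivity) h3 m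
    refine h4.trans ?_
    have h5 := geom_sum_eq (show (1 / 16 : ℝ) ≠ 1 by norm_num) i
    rw [h5]
    have : (0 : ℝ) ≤ (1 / 16) ^ i := by positivity
    rw [div_le_iff_of_neg (by norm_num)]
    linarith
  have h6 : (i : ℝ) * ((p : ℝ) ^ 5)⁻¹ ≤ ((p : ℝ) ^ 4)⁻¹ := by
    have h7 : ((p : ℝ) ^ 4)⁻¹ = p * ((p : ℝ) ^ 5)⁻¹ := by
      field_simp
    rw [h7]
    exact mul_le_mul_of_nonneg_right (by exact_mod_cast hi) (by positivity)
  have h8 : (0 : ℝ) ≤ ((p : ℝ) ^ (e + 1))⁻¹ := by positivity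
  nlinarith [mul_le_mul_of_nonneg_left h2 h8]

/-- `e ≥ 2` -/
lemma pv_two {R p : ℕ} (hp : 16 ≤ p) (hR : 5 ≤ R) (i : ℕ) (hi : i ≤ p) :
    ∀ e, 2 ≤ e → pv fg 2 (xg R) p i e ≤ 2 * (p : ℝ) ^ (2 * e) := by
  induction i using Nat.strong_induction_on with
  | _ i ih =>
    intro e he
    have hp' : (16 : ℝ) ≤ p := by exact_mod_cast hp
    have hp0 : (0 : ℝ) < p := by linarith
    rw [pv_sum, fg]
    have h1 : ∑ m ∈ range i, 2 * xg R p m e * pv fg 2 (xg R) p m (e + 1) ≤
        ∑ m ∈ range i, xg R p m e * (4 * (p : ℝ) ^ (2 * (e + 1))) := by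
      refine Finset.sum_le_sum fun m hm => ?_
      have hmi : m < i := Finset.mem_range.1 hm
      have := ih m hmi (by omega) (e + 1) (by omega)
      have hx := xg_nonneg R p m e
      nlinarith
    rw [← Finset.sum_mul] at h1
    have h2 := sum_xg hp hR hi e
    have h3 : ((p : ℝ) ^ (e + 1))⁻¹ ≤ ((p : ℝ) ^ 3)⁻¹ :=
      inv_anti₀ (by positivity) (pow_le_pow_right₀ (by linarith) (by omega))
    have h4 : (∑ m ∈ range i, xg R p m e) * (4 * (p : ℝ) ^ (2 * (e + 1))) ≤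
        (16 / 15 * ((p : ℝ) ^ 3)⁻¹ + ((p : ℝ) ^ 4)⁻¹) * (4 * (p : ℝ) ^ (2 * (e + 1))) := by
      refine mul_le_mul_of_nonneg_right ?_ (by positivity)
      linarith
    have h5 : (16 / 15 * ((p : ℝ) ^ 3)⁻¹ + ((p : ℝ) ^ 4)⁻¹) * (4 * (p : ℝ) ^ (2 * (e + 1))) =
        (p : ℝ) ^ (2 * e) * (4 * (16 / 15 * (p : ℝ)⁻¹ + ((p : ℝ)⁻¹) ^ 2)) := by
      have : (p : ℝ) ^ (2 * (e + 1)) = (p : ℝ) ^ (2 * e) * (p : ℝ) ^ 2 := by ring
      rw [this]
      field_simp
    have h6 : (p : ℝ)⁻¹ ≤ 1 / 16 := by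
      rw [inv_le_comm₀ hp0 (by norm_num)]
      linarith
    have h6' : 0 < (p : ℝ)⁻¹ := by positivity
    have h7 : 4 * (16 / 15 * (p : ℝ)⁻¹ + ((p : ℝ)⁻¹) ^ 2) ≤ 1 := by nlinarith
    have h8 : 0 ≤ (p : ℝ) ^ (2 * e) := by positivity
    have h9 := mul_le_mul_of_nonneg_left h7 h8
    linarith

/-- `e = 1` -/
lemma pv_one {R p : ℕ} (hp : 16 ≤ p) (hR : 5 ≤ R) (i : ℕ) (hi : i ≤ p) :
    pv fg 2 (xg R) p i 1 ≤ 6 * (p : ℝ) ^ 2 := by
  have hp' : (16 : ℝ) ≤ p := by exact_mod_cast hp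
  have hp0 : (0 : ℝ) < p := by linarith
  rw [pv_sum, fg]
  have h1 : ∑ m ∈ range i, 2 * xg R p m 1 * pv fg 2 (xg R) p m (1 + 1) ≤
      ∑ m ∈ range i, xg R p m 1 * (4 * (p : ℝ) ^ 4) := by
    refine Finset.sum_le_sum fun m hm => ?_
    have hmi : m < i := Finset.mem_range.1 hm
    have := pv_two hp hR m (by omega) 2 le_rfl
    have hx := xg_nonneg R p m 1
    norm_num at this ⊢
    nlinarith
  rw [← Finset.sum_mul] at h1
  have h2 := sum_xg hp hR hi 1
  have h4 := mul_le_mul_of_nonneg_right h2 (show (0 : ℝ) ≤ 4 * (p : ℝ) ^ 4 by positivity)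
  have h5 : (16 / 15 * ((p : ℝ) ^ (1 + 1))⁻¹ + ((p : ℝ) ^ 4)⁻¹) * (4 * (p : ℝ) ^ 4) =
      64 / 15 * (p : ℝ) ^ 2 + 4 := by
    field_simp
    ring
  have h6 : (p : ℝ) ^ (2 * 1) = (p : ℝ) ^ 2 := by norm_num
  simp only [h6]
  nlinarith

/-- **the potential at the start, good period** -/
theorem pv_zero {R p : ℕ} (hp : 16 ≤ p) (hR : 5 ≤ R) (i : ℕ) (hi : i ≤ p) :
    pv fg 2 (xg R) p i 0 ≤ 14 * p := by
  have hp' : (16 : ℝ) ≤ p := by exact_mod_cast hp
  have hp0 : (0 : ℝ) < p := by linarith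
  rw [pv_sum, fg]
  have h1 : ∑ m ∈ range i, 2 * xg R p m 0 * pv fg 2 (xg R) p m (0 + 1) ≤
      ∑ m ∈ range i, xg R p m 0 * (12 * (p : ℝ) ^ 2) := by
    refine Finset.sum_le_sum fun m hm => ?_
    have hmi : m < i := Finset.mem_range.1 hm
    have := pv_one hp hR m (by omega)
    have hx := xg_nonneg R p m 0
    norm_num at this ⊢
    nlinarith
  rw [← Finset.sum_mul] at h1
  have h2 := sum_xg hp hR hi 0
  have h4 := mul_le_mul_of_nonneg_right h2 (show (0 : ℝ) ≤ 12 * (p : ℝ) ^ 2 by positivity)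
  have h5 : (16 / 15 * ((p : ℝ) ^ (0 + 1))⁻¹ + ((p : ℝ) ^ 4)⁻¹) * (12 * (p : ℝ) ^ 2) =
      64 / 5 * (p : ℝ) + 12 * ((p : ℝ) ^ 2)⁻¹ := by
    field_simp
    ring
  have h6 : ((p : ℝ) ^ 2)⁻¹ ≤ 1 := inv_le_one_of_one_le₀ (one_le_pow₀ (by linarith))
  simp only [mul_zero, pow_zero]
  nlinarith

end Vale.Agent.P160.Half.Pot762
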