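import Mathlib

/-! # P160, rate 1/2, part (M): abstract potential lemma for the column exposure. -/

namespace Vale.Agent.P160.Half.Pot995

open Finset

variable {S Y P : Type*} [Fintype Y] [Fintype P] [DecidableEq P]

/-- the state after the columns `y` -/
def run (step : S → Y → S) : (k : ℕ) → S → (Fin k → Y) → S
  | 0, s, _ => s
  | k + 1, s, y => run step k (step s (y 0)) (fun i => y i.succ)

/-- every state before the last one is good -/
def allGood (step : S → Y → S) (good : S → Prop) : (k : ℕ) → S → (Fin k → Y) → Prop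
  | 0, _, _ => True
  | k + 1, s, y => good s ∧ allGood step good k (step s (y 0)) (fun i => y i.succ)

lemma sum_cons {α : Type*} [AddCommMonoid α] (k : ℕ) (f : (Fin (k + 1) → Y) → α) :
    ∑ y : Fin (k + 1) → Y, f y = ∑ y₀ : Y, ∑ y' : Fin k → Y, f (Fin.cons y₀ y') := by
  rw [← (Fin.consEquiv (fun _ : Fin (k + 1) => Y)).sum_comp, Fintype.sum_prod_type]
  rfl

open Classical in
/-- one column -/
theorem one_step (step : S → Y → S) (dim : S → P → ℕ) (stay : S → Y → P → Prop)
    (hstay : ∀ s y p, stay s y p → dim (step s y) p = dim s p)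
    (hdrop : ∀ s y p, ¬ stay s y p → dim (step s y) p + 1 = dim s p)
    (x : P → ℕ → ℝ) (hx : ∀ p d, 0 ≤ x p d) (hx0 : ∀ p, x p 0 ≤ 1)
    (F G : P → ℕ → ℝ) (hF : ∀ p d, 0 ≤ F p d) (h0 : ∀ p, F p 0 ≤ G p 0)
    (hrec : ∀ p d, F p d + x p (d + 1) * F p (d + 1) ≤ G p (d + 1))
    (s : S) (hgood : ∀ B : Finset P,
      ((univ.filter fun y : Y => ∀ p ∈ B, stay s y p).card : ℝ) ≤
        (∏ p ∈ B, x p (dim s p)) * Fintype.card Y) :
    ∑ y : Y, ∏ p, F p (dim (step s y) p) ≤ Fintype.card Y * ∏ p, G p (dim s p) := by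
  set b : P → ℝ := fun p => if dim s p = 0 then 0 else F p (dim s p - 1) with hb
  have hb0 : ∀ p, 0 ≤ b p := by
    intro p; simp only [hb]; split_ifs
    · exact le_rfl
    · exact hF _ _
  set St : Y → Finset P := fun y => univ.filter fun p => stay s y p with hSt
  have h1 : ∀ y, ∏ p, F p (dim (step s y) p) =
      (∏ p ∈ St y, F p (dim s p)) * ∏ p ∈ univ \ St y, b p := by
    intro y
    rw [← prod_sdiff (subset_univ (St y)), mul_comm]
    congr 1
    · refine prod_congr rfl fun p hp => ?_
      rw [hstay s y p (by simpa [hSt] using hp)]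
    · refine prod_congr rfl fun p hp => ?_
      have hns : ¬ stay s y p := by simpa [hSt] using hp
      have hd := hdrop s y p hns
      simp only [hb]
      rw [if_neg (by omega), ← hd, Nat.add_sub_cancel]
  calc ∑ y : Y, ∏ p, F p (dim (step s y) p)
      = ∑ y : Y, (∏ p ∈ St y, F p (dim s p)) * ∏ p ∈ univ \ St y, b p :=
        sum_congr rfl fun y _ => h1 y
    _ = ∑ B ∈ (univ : Finset P).powerset, ∑ y ∈ univ.filter (fun y => St y = B),
          (∏ p ∈ St y, F p (dim s p)) * ∏ p ∈ univ \ St y, b p := by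
        rw [sum_fiberwise_of_maps_to]
        intro y _; simp
    _ ≤ ∑ B ∈ (univ : Finset P).powerset, Fintype.card Y *
          ((∏ p ∈ B, x p (dim s p) * F p (dim s p)) * ∏ p ∈ univ \ B, b p) := by
        refine sum_le_sum fun B _ => ?_
        have h2 : ∑ y ∈ univ.filter (fun y => St y = B),
            (∏ p ∈ St y, F p (dim s p)) * ∏ p ∈ univ \ St y, b p =
            ((univ.filter (fun y => St y = B)).card : ℝ) *
              ((∏ p ∈ B, F p (dim s p)) * ∏ p ∈ univ \ B, b p) := by
          rw [← nsmul_eq_mul, ← sum_const]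
          refine sum_congr rfl fun y hy => ?_
          rw [(mem_filter.mp hy).2]
        rw [h2]
        have h3 : ((univ.filter (fun y => St y = B)).card : ℝ) ≤
            (∏ p ∈ B, x p (dim s p)) * Fintype.card Y := by
          refine le_trans ?_ (hgood B)
          exact_mod_cast card_le_card (fun y hy => by
            simp only [mem_filter, mem_univ, true_and] at hy ⊢
            intro p hp
            rw [← hy] at hp
            simpa [hSt] using hp)
        have h4 : 0 ≤ (∏ p ∈ B, F p (dim s p)) * ∏ p ∈ univ \ B, b p :=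
          mul_nonneg (prod_nonneg fun p _ => hF _ _) (prod_nonneg fun p _ => hb0 p)
        calc _ ≤ ((∏ p ∈ B, x p (dim s p)) * Fintype.card Y) *
              ((∏ p ∈ B, F p (dim s p)) * ∏ p ∈ univ \ B, b p) :=
              mul_le_mul_of_nonneg_right h3 h4
          _ = _ := by rw [prod_mul_distrib]; ring
    _ = Fintype.card Y * ∏ p, (x p (dim s p) * F p (dim s p) + b p) := by
        rw [← mul_sum, prod_add]
    _ ≤ Fintype.card Y * ∏ p, G p (dim s p) := by
        refine mul_le_mul_of_nonneg_left ?_ (Nat.cast_nonneg _)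
        refine prod_le_prod (fun p _ => add_nonneg (mul_nonneg (hx _ _) (hF _ _)) (hb0 p)) ?_
        intro p _
        simp only [hb]
        split_ifs with h
        · rw [h, add_zero]
          calc x p 0 * F p 0 ≤ 1 * F p 0 := mul_le_mul_of_nonneg_right (hx0 p) (hF _ _)
            _ ≤ G p 0 := by rw [one_mul]; exact h0 p
        · obtain ⟨d, hd⟩ := Nat.exists_eq_succ_of_ne_zero h
          rw [hd, Nat.succ_eq_add_one, Nat.add_sub_cancel, add_comm]
          exact hrec p d

open Classical in
/-- **Potential lemma.** -/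
theorem pot (step : S → Y → S) (dim : S → P → ℕ) (stay : S → Y → P → Prop)
    (hstay : ∀ s y p, stay s y p → dim (step s y) p = dim s p)
    (hdrop : ∀ s y p, ¬ stay s y p → dim (step s y) p + 1 = dim s p)
    (x : P → ℕ → ℝ) (hx : ∀ p d, 0 ≤ x p d) (hx0 : ∀ p, x p 0 ≤ 1)
    (good : S → Prop)
    (hgood : ∀ s, good s → ∀ B : Finset P,
      ((univ.filter fun y : Y => ∀ p ∈ B, stay s y p).card : ℝ) ≤
        (∏ p ∈ B, x p (dim s p)) * Fintype.card Y)
    (F : ℕ → P → ℕ → ℝ) (hF : ∀ m p d, 0 ≤ F m p d)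
    (h0 : ∀ m p, F m p 0 ≤ F (m + 1) p 0)
    (hrec : ∀ m p d, F m p d + x p (d + 1) * F m p (d + 1) ≤ F (m + 1) p (d + 1))
    (k : ℕ) : ∀ s : S, ∑ y : Fin k → Y, (if allGood step good k s y then
        ∏ p, F 0 p (dim (run step k s y) p) else 0) ≤
      (Fintype.card Y : ℝ) ^ k * ∏ p, F k p (dim s p) := by
  induction k with
  | zero => intro s; simp [allGood, run]
  | succ k ih =>
    intro s
    rw [sum_cons]
    by_cases hs : good s
    · have h1 : ∀ y₀ : Y, ∑ y' : Fin k → Y, (if allGood step good (k + 1) s (Fin.cons y₀ y') then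
          ∏ p, F 0 p (dim (run step (k + 1) s (Fin.cons y₀ y' : Fin (k + 1) → Y)) p) else 0) ≤
          (Fintype.card Y : ℝ) ^ k * ∏ p, F k p (dim (step s y₀) p) := by
        intro y₀
        refine le_trans (le_of_eq ?_) (ih (step s y₀))
        refine sum_congr rfl fun y' _ => ?_
        simp [allGood, run, hs]
      calc _ ≤ ∑ y₀ : Y, (Fintype.card Y : ℝ) ^ k * ∏ p, F k p (dim (step s y₀) p) :=
            sum_le_sum fun y₀ _ => h1 y₀
        _ = (Fintype.card Y : ℝ) ^ k * ∑ y₀ : Y, ∏ p, F k p (dim (step s y₀) p) := by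
            rw [mul_sum]
        _ ≤ (Fintype.card Y : ℝ) ^ k * (Fintype.card Y * ∏ p, F (k + 1) p (dim s p)) :=
            mul_le_mul_of_nonneg_left (one_step step dim stay hstay hdrop x hx hx0 (F k) (F (k + 1))
              (hF k) (h0 k) (hrec k) s (hgood s hs)) (by positivity)
        _ = _ := by ring
    · have h1 : ∀ (y₀ : Y) (y' : Fin k → Y), ¬ allGood step good (k + 1) s (Fin.cons y₀ y') := by
        intro y₀ y' h
        exact hs h.1
      simp only [h1, if_false, sum_const_zero]
      exact mul_nonneg (by positivity) (prod_nonneg fun p _ => hF _ _ _)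

end Vale.Agent.P160.Half.Pot995
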