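import Vale.Agent.P160.Half.LOMin
import Vale.Agent.P160.Half.Pot226

/-!
# P160: column exposure with the minor Littlewood-Offord inequality

`mt cv M` is the integer matrix with the columns `cv (M j)`; `ex cv p M` its excess
`rank_ℚ - rank_p`.  The hypotheses of the potential lemma (`Pot226.iter`) hold with
`q p x = p ^ (- θ x)`.
-/

set_option linter.unusedSectionVars false

namespace Vale.Agent.P160.Half.PotLO226

open Finset Matrix

section Rank

variable {ρ Ω : Type*} [Fintype ρ] [DecidableEq ρ]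

/-- the matrix of a word of columns -/
def mt (cv : Ω → ρ → ℤ) {l : ℕ} (M : Fin l → Ω) : Matrix ρ (Fin l) ℤ := fun i j => cv (M j) i

/-- the rank over the field `F` -/
noncomputable def rkF (cv : Ω → ρ → ℤ) (F : Type*) [Field F] {l : ℕ} (M : Fin l → Ω) : ℕ :=
  ((mt cv M).map (Int.cast : ℤ → F)).rank

/-- the rank modulo `p` -/
noncomputable def rkp (cv : Ω → ρ → ℤ) (p : ℕ) {l : ℕ} (M : Fin l → Ω) : ℕ :=
  ((mt cv M).map (Int.cast : ℤ → ZMod p)).rank

/-- the excess -/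
noncomputable def ex (cv : Ω → ρ → ℤ) (p : ℕ) {l : ℕ} (M : Fin l → Ω) : ℕ :=
  rkF cv ℚ M - rkp cv p M

theorem rank_zero_cols (cv : Ω → ρ → ℤ) (F : Type*) [Field F] (M : Fin 0 → Ω) :
    rkF cv F M = 0 := by
  have := Matrix.rank_le_card_width ((mt cv M).map (Int.cast : ℤ → F))
  rw [Fintype.card_fin] at this
  exact Nat.le_zero.1 this

theorem rank_le_snoc (cv : Ω → ρ → ℤ) (F : Type*) [Field F] {l : ℕ} (M : Fin l → Ω) (w : Ω) :
    rkF cv F M ≤ rkF cv F (Fin.snoc M w : Fin (l + 1) → Ω) := by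
  have h : (mt cv M).map (Int.cast : ℤ → F) =
      ((mt cv (Fin.snoc M w : Fin (l + 1) → Ω)).map (Int.cast : ℤ → F)).submatrix id
        Fin.castSucc := by
    ext i j
    simp [mt]
  unfold rkF
  rw [h]
  exact rank_submatrix_le _ _ _

theorem rank_snoc_le (cv : Ω → ρ → ℤ) (F : Type*) [Field F] {l : ℕ} (M : Fin l → Ω) (w : Ω) :
    rkF cv F (Fin.snoc M w : Fin (l + 1) → Ω) ≤ rkF cv F M + 1 := by
  unfold rkF
  rw [rank_eq_finrank_span_cols, rank_eq_finrank_span_cols]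
  have h : ((mt cv (Fin.snoc M w : Fin (l + 1) → Ω)).map (Int.cast : ℤ → F)).col =
      (Fin.snoc (α := fun _ => ρ → F) ((mt cv M).map (Int.cast : ℤ → F)).col
        (fun i => ((cv w i : ℤ) : F)) : Fin (l + 1) → ρ → F) := by
    funext j
    refine Fin.lastCases ?_ (fun j => ?_) j
    · rw [Fin.snoc_last]
      funext i
      simp [mt, Matrix.col]
    · rw [Fin.snoc_castSucc]
      funext i
      simp [mt, Matrix.col]
  rw [h, Fin.range_snoc, Submodule.span_insert, add_comm]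
  refine (Submodule.finrank_add_le_finrank_add_finrank _ _).trans ?_
  refine Nat.add_le_add_right ?_ _
  exact (finrank_span_le_card _).trans (by simp)

/-- A column which does not raise the rank is orthogonal to the left kernel. -/
theorem lker_of_rank (cv : Ω → ρ → ℤ) (F : Type*) [Field F] {l : ℕ} (M : Fin l → Ω) (w : Ω)
    (h : rkF cv F (Fin.snoc M w : Fin (l + 1) → Ω) ≤ rkF cv F M) (u : ρ → F)
    (hu : u ᵥ* (mt cv M).map (Int.cast : ℤ → F) = 0) : ∑ i, u i * ((cv w i : ℤ) : F) = 0 := by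
  have h1 := LOMin.finrank_lker ((mt cv M).map (Int.cast : ℤ → F))
  have h2 := LOMin.finrank_lker
    ((mt cv (Fin.snoc M w : Fin (l + 1) → Ω)).map (Int.cast : ℤ → F))
  have hle : LinearMap.ker
      ((mt cv (Fin.snoc M w : Fin (l + 1) → Ω)).map (Int.cast : ℤ → F)).vecMulLinear ≤
      LinearMap.ker ((mt cv M).map (Int.cast : ℤ → F)).vecMulLinear := by
    intro v hv
    have hv' : v ᵥ* (mt cv (Fin.snoc M w : Fin (l + 1) → Ω)).map (Int.cast : ℤ → F) = 0 := hv
    show v ᵥ* (mt cv M).map (Int.cast : ℤ → F) = 0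
    funext j
    have := congrFun hv' j.castSucc
    simpa [Matrix.vecMul, dotProduct, mt] using this
  have heq := Submodule.eq_of_le_of_finrank_le hle (by
    unfold rkF at h
    omega)
  have hu' : u ∈ LinearMap.ker ((mt cv M).map (Int.cast : ℤ → F)).vecMulLinear := hu
  rw [← heq] at hu'
  have hu2 : u ᵥ* (mt cv (Fin.snoc M w : Fin (l + 1) → Ω)).map (Int.cast : ℤ → F) = 0 := hu'
  have := congrFun hu2 (Fin.last l)
  simpa [Matrix.vecMul, dotProduct, mt] using this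

/-- The rank modulo `p` is at most the rational rank. -/
theorem rkp_le (cv : Ω → ρ → ℤ) {p : ℕ} (hp : p.Prime) {l : ℕ} (M : Fin l → Ω) :
    rkp cv p M ≤ rkF cv ℚ M := by
  have := Fact.mk hp
  obtain ⟨r, f, g, hr, hdet⟩ := LOMin.exists_minor ((mt cv M).map (Int.cast : ℤ → ZMod p))
  have h1 : ((mt cv M).submatrix f g).det ≠ 0 := by
    intro h0
    apply hdet
    have h2 := (Int.castRingHom (ZMod p)).map_det ((mt cv M).submatrix f g)
    rw [h0, map_zero] at h2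
    exact h2.symm
  have h3 : (((mt cv M).map (Int.cast : ℤ → ℚ)).submatrix f g).det ≠ 0 := by
    have h2 := (Int.castRingHom ℚ).map_det ((mt cv M).submatrix f g)
    have h4 : ((Int.castRingHom ℚ) ((mt cv M).submatrix f g).det) ≠ 0 := by
      rw [eq_intCast]
      exact_mod_cast h1
    rw [h2] at h4
    exact h4
  have h5 : (((mt cv M).map (Int.cast : ℤ → ℚ)).submatrix f g).rank = r := by
    rw [Matrix.rank_of_isUnit _ ((Matrix.isUnit_iff_isUnit_det _).2 h3.isUnit), Fintype.card_fin]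
  have h6 := rank_submatrix_le ((mt cv M).map (Int.cast : ℤ → ℚ)) f g
  unfold rkp rkF
  omega

/-- The excess after one more column. -/
theorem ex_snoc_le (cv : Ω → ρ → ℤ) {p : ℕ} (hp : p.Prime) {l : ℕ} (M : Fin l → Ω) (w : Ω)
    [Decidable (rkp cv p (Fin.snoc M w : Fin (l + 1) → Ω) ≤ rkp cv p M)] :
    ex cv p (Fin.snoc M w : Fin (l + 1) → Ω) ≤ ex cv p M +
      if rkp cv p (Fin.snoc M w : Fin (l + 1) → Ω) ≤ rkp cv p M then 1 else 0 := by
  have := Fact.mk hp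
  have h1 := rank_snoc_le cv ℚ M w
  have h2 : rkp cv p M ≤ rkp cv p (Fin.snoc M w : Fin (l + 1) → Ω) :=
    rank_le_snoc cv (ZMod p) M w
  have h3 := rkp_le cv hp M
  unfold ex
  split_ifs with h <;> omega

end Rank

/-! ### the lazy law -/

section Lazy

variable {ρ : Type*} [Fintype ρ] [DecidableEq ρ]

/-- the lazy column `x - x'` -/
def lz (w : (ρ → Bool) × (ρ → Bool)) : ρ → ℤ := fun i =>
  (if w.1 i then 1 else 0) - (if w.2 i then 1 else 0)

theorem abs_lz_le (w : (ρ → Bool) × (ρ → Bool)) (i : ρ) : |lz w i| ≤ 1 := by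
  unfold lz
  split_ifs <;> simp

open scoped Classical in
/-- The Littlewood-Offord inequality with the exponent `θ`. -/
def LOc (ρ : Type*) [Fintype ρ] [DecidableEq ρ] (θ : ℝ) : Prop :=
  ∀ (l : ℕ) (Y : Matrix ρ (Fin l) ℤ), (∀ i j, |Y i j| ≤ 1) → ∀ B : Finset ℕ,
    (∀ p ∈ B, p.Prime) → ∀ e : ℕ → ℕ,
    (∀ p ∈ B, (Y.map (Int.cast : ℤ → ZMod p)).rank + e p ≤ (Y.map (Int.cast : ℤ → ℚ)).rank) →
    ((((univ : Finset ((ρ → Bool) × (ρ → Bool))).filter
      (fun x : (ρ → Bool) × (ρ → Bool) => ∀ p ∈ B, ∀ u : ρ → ZMod p,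
        u ᵥ* Y.map (Int.cast : ℤ → ZMod p) = 0 →
          ∑ i, u i * ((lz x i : ℤ) : ZMod p) = 0)).card : ℕ) : ℝ) ≤
      (∏ p ∈ B, (p : ℝ) ^ (-(θ * e p))) * 4 ^ Fintype.card ρ

/-- `LOc` from the minor inequality: any `θ` with `(a ^ (3 / 2)) ^ θ ≤ 2`. -/
theorem loc_of_min {θ : ℝ} (hθ : 0 ≤ θ)
    (hθ2 : 3 / 2 * θ * Real.log (Fintype.card ρ) ≤ Real.log 2) : LOc ρ θ := by
  classical
  intro l Y hY B hB e he
  obtain ⟨d, -, hd, -, hc⟩ := LOMin.lo_min Y hY B hB e he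
  have h1 := hc fun _ _ => 0
  have h2 : ((univ : Finset ((ρ → Bool) × (ρ → Bool))).filter
      (fun x : (ρ → Bool) × (ρ → Bool) => ∀ p ∈ B, ∀ u : ρ → ZMod p,
        u ᵥ* Y.map (Int.cast : ℤ → ZMod p) = 0 →
          ∑ i, u i * ((lz x i : ℤ) : ZMod p) = 0)).card * 2 ^ d ≤ 4 ^ Fintype.card ρ := by
    refine le_trans (Nat.mul_le_mul_right _ (Finset.card_le_card ?_)) h1
    intro x hx
    rw [Finset.mem_filter] at hx ⊢
    refine ⟨Finset.mem_univ _, fun p hp u hu => ?_⟩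
    rw [← Finset.sum_sub_distrib]
    refine Eq.trans (Finset.sum_congr rfl fun i _ => ?_) (hx.2 p hp u hu)
    unfold lz
    split_ifs <;> simp
  have hP1 : (1 : ℝ) ≤ ∏ p ∈ B, (p : ℝ) ^ e p := by
    have : (1 : ℕ) ≤ ∏ p ∈ B, p ^ e p :=
      Nat.one_le_iff_ne_zero.2 (Finset.prod_ne_zero_iff.2 fun p hp =>
        pow_ne_zero _ (hB p hp).ne_zero)
    exact_mod_cast this
  have hd' : (∏ p ∈ B, (p : ℝ) ^ e p) ^ 2 ≤ (Fintype.card ρ : ℝ) ^ (3 * d) := by
    exact_mod_cast hd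
  have h3 : (∏ p ∈ B, (p : ℝ) ^ e p) ^ θ ≤ 2 ^ d := by
    have h4 : 2 * Real.log (∏ p ∈ B, (p : ℝ) ^ e p) ≤
        (3 * d) * Real.log (Fintype.card ρ) := by
      have h5 := Real.log_le_log (by positivity) hd'
      rw [Real.log_pow, Real.log_pow] at h5
      push_cast at h5
      exact h5
    rw [Real.rpow_def_of_pos (by linarith), ← Real.exp_log (show (0 : ℝ) < 2 ^ d by positivity),
      Real.log_pow]
    apply Real.exp_le_exp.2
    have h6 := mul_le_mul_of_nonneg_right h4 hθ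
    have h7 := mul_le_mul_of_nonneg_left hθ2 (Nat.cast_nonneg (α := ℝ) d)
    nlinarith
  have h8 : (∏ p ∈ B, (p : ℝ) ^ (-(θ * e p))) = ((∏ p ∈ B, (p : ℝ) ^ e p) ^ θ)⁻¹ := by
    rw [← Real.rpow_neg (by linarith), ← Real.finsetProd_rpow _ _ (fun p _ => by positivity)]
    refine Finset.prod_congr rfl fun p _ => ?_
    rw [← Real.rpow_natCast, ← Real.rpow_mul (Nat.cast_nonneg _)]
    congr 1
    ring
  have h9 : (0 : ℝ) < (∏ p ∈ B, (p : ℝ) ^ e p) ^ θ := Real.rpow_pos_of_pos (by linarith) _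
  rw [h8, inv_mul_eq_div, le_div_iff₀ h9]
  have h10 : ((((univ : Finset ((ρ → Bool) × (ρ → Bool))).filter
      (fun x : (ρ → Bool) × (ρ → Bool) => ∀ p ∈ B, ∀ u : ρ → ZMod p,
        u ᵥ* Y.map (Int.cast : ℤ → ZMod p) = 0 →
          ∑ i, u i * ((lz x i : ℤ) : ZMod p) = 0)).card : ℕ) : ℝ) * 2 ^ d ≤
      4 ^ Fintype.card ρ := by
    exact_mod_cast h2
  refine le_trans (mul_le_mul_of_nonneg_left h3 (Nat.cast_nonneg _)) h10

open scoped Classical in
/-- The hypothesis `hq` of the potential lemma. -/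
theorem hq_lo {θ : ℝ} (hLO : LOc ρ θ) {l : ℕ} (M : Fin l → (ρ → Bool) × (ρ → Bool))
    (B : Finset ℕ) (hB : ∀ p ∈ B, p.Prime) :
    ((univ.filter fun w => ∀ p ∈ B,
      rkp lz p (Fin.snoc M w : Fin (l + 1) → (ρ → Bool) × (ρ → Bool)) ≤ rkp lz p M).card : ℝ) ≤
      (∏ p ∈ B, (p : ℝ) ^ (-(θ * ex lz p M))) *
        Fintype.card ((ρ → Bool) × (ρ → Bool)) := by
  have h1 := hLO l (mt lz M) (fun i j => abs_lz_le _ _) B hB (fun p => ex lz p M) (by
    intro p hp
    have := rkp_le lz (hB p hp) M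
    unfold ex
    show rkp lz p M + (rkF lz ℚ M - rkp lz p M) ≤ rkF lz ℚ M
    omega)
  have hcard : (Fintype.card ((ρ → Bool) × (ρ → Bool)) : ℝ) = 4 ^ Fintype.card ρ := by
    rw [Fintype.card_prod, Fintype.card_fun, Fintype.card_bool, ← mul_pow]
    norm_num
  rw [hcard]
  refine le_trans (Nat.cast_le.2 (Finset.card_le_card ?_)) h1
  intro w hw
  rw [Finset.mem_filter] at hw ⊢
  refine ⟨mem_univ _, fun p hp u hu => ?_⟩
  have := Fact.mk (hB p hp)
  exact lker_of_rank lz (ZMod p) M w (hw.2 p hp) u hu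

end Lazy

end Vale.Agent.P160.Half.PotLO226
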