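import Mathlib

/-! # P160, block (M), (b) of note 11163: the profile bound

Columns are revealed one at a time; for every prime `p` the excess `rank_ℚ - rank_p` has to climb
through all levels `0, 1, …, e p - 1`, and the step from level `i` costs `(g p) ^ i`. -/

set_option linter.unusedVariables false
set_option linter.unusedSectionVars false

namespace Vale.Agent.P160.Half.Prof

open Finset Matrix

/-! ## Rank of a matrix with one more column -/

section field

variable {F : Type*} [Field F] {ι n : Type*} [Fintype ι] [Fintype n] [DecidableEq n]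

theorem step (A : Matrix ι n F) (c : n) (y : ι → F) (hc : ∀ i, A i c = 0) :
    A.rank ≤ (A.updateCol c y).rank ∧ (A.updateCol c y).rank ≤ A.rank + 1 ∧
      ((A.updateCol c y).rank = A.rank → ∀ u : ι → F, u ᵥ* A = 0 → u ⬝ᵥ y = 0) := by
  classical
  set A' := A.updateCol c y with hA'
  set S : Submodule F (ι → F) := Submodule.span F (Set.range A.col) with hS
  set S' : Submodule F (ι → F) := Submodule.span F (Set.range A'.col) with hS'
  have hy : y ∈ S' := by
    apply Submodule.subset_span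
    refine ⟨c, ?_⟩
    funext i
    simp [Matrix.col, hA']
  have h1 : S ≤ S' := by
    rw [hS, Submodule.span_le]
    rintro _ ⟨j, rfl⟩
    by_cases hj : j = c
    · subst hj
      have : A.col j = 0 := by
        funext i
        exact hc i
      rw [this]
      exact S'.zero_mem
    · apply Submodule.subset_span
      refine ⟨j, ?_⟩
      funext i
      simp [Matrix.col, hA', Matrix.updateCol_ne hj]
  have h2 : S' ≤ S ⊔ Submodule.span F {y} := by
    rw [hS', Submodule.span_le]
    rintro _ ⟨j, rfl⟩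
    by_cases hj : j = c
    · subst hj
      apply Submodule.mem_sup_right
      have : A'.col j = y := by
        funext i
        simp [Matrix.col, hA']
      rw [this]
      exact Submodule.mem_span_singleton_self y
    · apply Submodule.mem_sup_left
      apply Submodule.subset_span
      refine ⟨j, ?_⟩
      funext i
      simp [Matrix.col, hA', Matrix.updateCol_ne hj]
  have hr : A.rank = Module.finrank F S := Matrix.rank_eq_finrank_span_cols A
  have hr' : A'.rank = Module.finrank F S' := Matrix.rank_eq_finrank_span_cols A'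
  refine ⟨?_, ?_, ?_⟩
  · rw [hr, hr']
    exact Submodule.finrank_mono h1
  · rw [hr, hr']
    refine (Submodule.finrank_mono h2).trans ?_
    refine (Submodule.finrank_add_le_finrank_add_finrank S (Submodule.span F {y})).trans ?_
    have : Module.finrank F (Submodule.span F ({y} : Set (ι → F))) ≤ 1 :=
      (finrank_span_le_card (R := F) ({y} : Set (ι → F))).trans (by simp)
    omega
  · intro he u hu
    have hSS : S = S' := Submodule.eq_of_le_of_finrank_eq h1 (by rw [← hr, ← hr', he])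
    rw [← hSS] at hy
    have : ∀ z ∈ S, u ⬝ᵥ z = 0 := by
      intro z hz
      induction hz using Submodule.span_induction with
      | mem x hx =>
        obtain ⟨j, rfl⟩ := hx
        exact congrFun hu j
      | zero => simp
      | add x y _ _ hx hy => rw [dotProduct_add, hx, hy, add_zero]
      | smul a x _ hx => rw [dotProduct_smul, hx, smul_zero]
    exact this y hy

end field

variable {C : Type*} [Fintype C] {ι : Type*} [Fintype ι] {k : ℕ}

/-- the matrix whose columns are `vec (Y l)` for `l < j` and zero afterwards -/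
def tr (vec : C → ι → ℤ) (j : ℕ) (Y : Fin k → C) : Matrix ι (Fin k) ℤ :=
  fun i l => if (l : ℕ) < j then vec (Y l) i else 0

/-- rank modulo `p` -/
noncomputable def rp (p : ℕ) (M : Matrix ι (Fin k) ℤ) : ℕ := (M.map (Int.cast : ℤ → ZMod p)).rank

/-- rational rank -/
noncomputable def rq (M : Matrix ι (Fin k) ℤ) : ℕ := (M.map (Int.cast : ℤ → ℚ)).rank

theorem tr_succ {F : Type*} [Field F] (vec : C → ι → ℤ) (j : ℕ) (hj : j < k) (Y : Fin k → C) :
    (tr vec (j + 1) Y).map (Int.cast : ℤ → F) =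
      ((tr vec j Y).map (Int.cast : ℤ → F)).updateCol ⟨j, hj⟩
        (fun i => ((vec (Y ⟨j, hj⟩) i : ℤ) : F)) := by
  classical
  ext i l
  by_cases hl : l = ⟨j, hj⟩
  · subst hl
    simp [tr]
  · rw [Matrix.updateCol_ne hl]
    have hne : (l : ℕ) ≠ j := fun h => hl (Fin.ext h)
    have : ((l : ℕ) < j + 1) ↔ ((l : ℕ) < j) := by omega
    simp [tr, this]

theorem tr_col {F : Type*} [Field F] (vec : C → ι → ℤ) (j : ℕ) (hj : j < k) (Y : Fin k → C) (i : ι) :
    (tr vec j Y).map (Int.cast : ℤ → F) i ⟨j, hj⟩ = 0 := by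
  simp [tr]

theorem rank_step {F : Type*} [Field F] (vec : C → ι → ℤ) (j : ℕ) (hj : j < k) (Y : Fin k → C) :
    ((tr vec j Y).map (Int.cast : ℤ → F)).rank ≤ ((tr vec (j + 1) Y).map (Int.cast : ℤ → F)).rank ∧
    ((tr vec (j + 1) Y).map (Int.cast : ℤ → F)).rank ≤
      ((tr vec j Y).map (Int.cast : ℤ → F)).rank + 1 ∧
    (((tr vec (j + 1) Y).map (Int.cast : ℤ → F)).rank = ((tr vec j Y).map (Int.cast : ℤ → F)).rank →
      ∀ u : ι → F, u ᵥ* (tr vec j Y).map (Int.cast : ℤ → F) = 0 →
        ∑ i, u i * ((vec (Y ⟨j, hj⟩) i : ℤ) : F) = 0) := by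
  rw [tr_succ vec j hj Y]
  exact step _ _ _ (tr_col vec j hj Y)

theorem tr_zero {F : Type*} [Field F] (vec : C → ι → ℤ) (Y : Fin k → C) :
    ((tr vec 0 Y).map (Int.cast : ℤ → F)).rank = 0 := by
  have : (tr vec 0 Y).map (Int.cast : ℤ → F) = 0 := by
    ext i l
    simp [tr]
  rw [this, Matrix.rank_zero]

/-- the level `i` of the excess modulo `p` is left upwards at some column -/
theorem exists_level (vec : C → ι → ℤ) (Y : Fin k → C) (p : ℕ) (hp : p.Prime) (e : ℕ)
    (h : rp p (tr vec k Y) + e ≤ rq (tr vec k Y)) (i : ℕ) (hi : i < e) :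
    ∃ j : Fin k, rp p (tr vec j Y) + i = rq (tr vec j Y) ∧
      ∀ u : ι → ZMod p, u ᵥ* (tr vec j Y).map (Int.cast : ℤ → ZMod p) = 0 →
        ∑ t, u t * ((vec (Y j) t : ℤ) : ZMod p) = 0 := by
  classical
  have : Fact p.Prime := ⟨hp⟩
  have hex : ∃ j, j ≤ k ∧ rp p (tr vec j Y) + (i + 1) ≤ rq (tr vec j Y) := ⟨k, le_rfl, by omega⟩
  set j₀ := Nat.find hex with hj₀
  obtain ⟨h1, h2⟩ := Nat.find_spec hex
  have h0 : j₀ ≠ 0 := by
    intro h0
    rw [← hj₀, h0] at h2
    have e2 : rq (tr vec 0 Y) = 0 := tr_zero vec Y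
    omega
  obtain ⟨j, hj⟩ := Nat.exists_eq_succ_of_ne_zero h0
  have hjk : j < k := by omega
  have h3 := Nat.find_min hex (m := j) (by omega)
  rw [← hj₀, hj] at h1 h2
  obtain ⟨a1, a2, a3⟩ := rank_step (F := ZMod p) vec j hjk Y
  obtain ⟨b1, b2, b3⟩ := rank_step (F := ℚ) vec j hjk Y
  have h4 : ¬ rp p (tr vec j Y) + (i + 1) ≤ rq (tr vec j Y) := fun h => h3 ⟨hjk.le, h⟩
  unfold rp rq at h2 h4
  rw [Nat.succ_eq_add_one] at h2
  refine ⟨⟨j, hjk⟩, ?_, ?_⟩
  · show rp p (tr vec j Y) + i = rq (tr vec j Y)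
    unfold rp rq
    omega
  · exact a3 (by omega)

/-! ## Counting -/

section count

variable [DecidableEq C]

open Classical in
theorem sum_update (F : (Fin k → C) → ℝ) (j : Fin k) :
    ∑ Y : Fin k → C, ∑ y : C, F (Function.update Y j y) = Fintype.card C * ∑ Y, F Y := by
  let e : (Fin k → C) × C ≃ (Fin k → C) × C :=
    { toFun := fun q => (Function.update q.1 j q.2, q.1 j)
      invFun := fun q => (Function.update q.1 j q.2, q.1 j)
      left_inv := fun q => by simp
      right_inv := fun q => by simp }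
  have h1 : ∑ Y : Fin k → C, ∑ y : C, F (Function.update Y j y) =
      ∑ q : (Fin k → C) × C, F (e q).1 := by
    rw [Fintype.sum_prod_type]
    rfl
  rw [h1, Equiv.sum_comp e (fun q => F q.1), Fintype.sum_prod_type, Finset.mul_sum]
  refine Finset.sum_congr rfl fun Y _ => ?_
  simp

theorem tr_update (vec : C → ι → ℤ) (Y : Fin k → C) (c : Fin k) (y : C) (j : ℕ) (hj : j ≤ c) :
    tr vec j (Function.update Y c y) = tr vec j Y := by
  ext i l
  unfold tr
  by_cases h : (l : ℕ) < j
  · rw [if_pos h, if_pos h, Function.update_of_ne]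
    intro hl
    subst hl
    omega
  · rw [if_neg h, if_neg h]

/-- the event that the prescribed steps of the excesses happen in the first `n` columns -/
def Ev (vec : C → ι → ℤ) (PP : Finset ℕ) (e : ℕ → ℕ) (J : (p : {p // p ∈ PP}) → Fin (e p) → Fin k)
    (n : ℕ) (Y : Fin k → C) : Prop :=
  ∀ (p : {p // p ∈ PP}) (i : Fin (e p)), (J p i : ℕ) < n →
    rp p (tr vec (J p i) Y) + i = rq (tr vec (J p i) Y) ∧
    ∀ u : ι → ZMod p, u ᵥ* (tr vec (J p i) Y).map (Int.cast : ℤ → ZMod p) = 0 →
      ∑ t, u t * ((vec (Y (J p i)) t : ℤ) : ZMod p) = 0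

theorem Ev_update (vec : C → ι → ℤ) (PP : Finset ℕ) (e : ℕ → ℕ)
    (J : (p : {p // p ∈ PP}) → Fin (e p) → Fin k) (c : Fin k) (Y : Fin k → C) (y : C) :
    Ev vec PP e J c (Function.update Y c y) ↔ Ev vec PP e J c Y := by
  unfold Ev
  refine forall_congr' fun p => forall_congr' fun i => ?_
  refine forall_congr' fun h => ?_
  have hne : J p i ≠ c := fun h' => by rw [h'] at h; exact lt_irrefl _ h
  rw [tr_update vec Y c y (J p i) h.le, Function.update_of_ne hne]

/-- the exponent of `g q` at column `n` -/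
def ex (PP : Finset ℕ) (e : ℕ → ℕ) (J : (p : {p // p ∈ PP}) → Fin (e p) → Fin k) (n : ℕ) (q : ℕ) : ℕ :=
  if h : q ∈ PP then ∑ i : Fin (e q), if (J ⟨q, h⟩ i : ℕ) = n then (i : ℕ) else 0 else 0

/-- Littlewood-Offord hypothesis for one column (`S`: any set of columns) -/
def LOHyp (vec : C → ι → ℤ) (k : ℕ) (g : ℕ → ℝ) : Prop :=
  ∀ Y₀ : Matrix ι (Fin k) ℤ, (∀ i l, |Y₀ i l| ≤ 1) → ∀ B : Finset ℕ, (∀ p ∈ B, p.Prime) →
    ∀ e : ℕ → ℕ, (∀ p ∈ B, (Y₀.map (Int.cast : ℤ → ZMod p)).rank + e p ≤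
      (Y₀.map (Int.cast : ℤ → ℚ)).rank) →
    ∀ S : Finset C, (∀ x ∈ S, ∀ p ∈ B, ∀ u : ι → ZMod p,
      u ᵥ* Y₀.map (Int.cast : ℤ → ZMod p) = 0 → ∑ t, u t * ((vec x t : ℤ) : ZMod p) = 0) →
    (S.card : ℝ) ≤ Fintype.card C * ∏ p ∈ B, g p ^ e p

theorem tr_abs (vec : C → ι → ℤ) (hvec : ∀ x i, |vec x i| ≤ 1) (j : ℕ) (Y : Fin k → C) (i : ι)
    (l : Fin k) : |tr vec j Y i l| ≤ 1 := by
  unfold tr
  split_ifs
  · exact hvec _ _
  · simp

open Classical in
/-- one column -/
theorem col_bound (vec : C → ι → ℤ) (hvec : ∀ x i, |vec x i| ≤ 1) (g : ℕ → ℝ) (hg : ∀ p, 0 ≤ g p)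
    (hLO : LOHyp vec k g) (PP : Finset ℕ) (hPP : ∀ p ∈ PP, p.Prime) (e : ℕ → ℕ)
    (J : (p : {p // p ∈ PP}) → Fin (e p) → Fin k) (c : Fin k) (Y : Fin k → C) :
    (((univ : Finset C).filter fun y => Ev vec PP e J (c + 1) (Function.update Y c y)).card : ℝ) ≤
      if Ev vec PP e J c Y then Fintype.card C * ∏ p ∈ PP, g p ^ ex PP e J c p else 0 := by
  split_ifs with hE
  · by_cases hne : ∃ y, Ev vec PP e J (c + 1) (Function.update Y c y)
    · obtain ⟨y₀, hy₀⟩ := hne
      -- the levels at this column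
      have hlev : ∀ (p : {p // p ∈ PP}) (i : Fin (e p)), (J p i : ℕ) = c →
          rp p (tr vec c Y) + i = rq (tr vec c Y) := by
        intro p i hi
        have hi' : J p i = c := Fin.ext hi
        have := (hy₀ p i (by omega)).1
        rw [hi', tr_update vec Y c y₀ c le_rfl] at this
        exact this
      set B := PP.filter fun q => ∃ (h : q ∈ PP) (i : Fin (e q)), (J ⟨q, h⟩ i : ℕ) = c with hB
      have hex : ∀ q ∈ B, rp q (tr vec c Y) + ex PP e J c q ≤ rq (tr vec c Y) := by
        intro q hq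
        obtain ⟨hq1, hq2, i₀, hi₀⟩ := Finset.mem_filter.1 hq
        have h1 : ex PP e J c q = i₀ := by
          unfold ex
          rw [dif_pos hq2, Finset.sum_eq_single i₀]
          · rw [if_pos hi₀]
          · intro i _ hi
            rw [if_neg]
            intro hJ
            apply hi
            have e1 := hlev ⟨q, hq2⟩ i hJ
            have e2 := hlev ⟨q, hq2⟩ i₀ hi₀
            apply Fin.ext
            have e3 : rp (↑(⟨q, hq2⟩ : {p // p ∈ PP})) (tr vec c Y) + (i : ℕ) =
              rp (↑(⟨q, hq2⟩ : {p // p ∈ PP})) (tr vec c Y) + (i₀ : ℕ) := e1.trans e2.symm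
            omega
          · intro h
            exact absurd (Finset.mem_univ _) h
        rw [h1]
        exact (hlev ⟨q, hq2⟩ i₀ hi₀).le
      have hL := hLO (tr vec c Y) (tr_abs vec hvec c Y) B
        (fun p hp => hPP p (Finset.mem_filter.1 hp).1) (ex PP e J c) hex
        ((univ : Finset C).filter fun y => Ev vec PP e J (c + 1) (Function.update Y c y)) (by
          intro y hy
          rw [Finset.mem_filter] at hy
          intro p hp u hu
          obtain ⟨hq1, hq2, i₀, hi₀⟩ := Finset.mem_filter.1 hp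
          have hi' : J ⟨p, hq2⟩ i₀ = c := Fin.ext hi₀
          have := (hy.2 ⟨p, hq2⟩ i₀ (by omega)).2
          rw [hi', tr_update vec Y c y c le_rfl, Function.update_self] at this
          exact this u hu)
      have hprod : ∏ p ∈ B, g p ^ ex PP e J c p = ∏ p ∈ PP, g p ^ ex PP e J c p := by
        refine Finset.prod_subset (Finset.filter_subset _ _) ?_
        intro q hq hqB
        have : ex PP e J c q = 0 := by
          unfold ex
          rw [dif_pos hq]
          refine Finset.sum_eq_zero fun i _ => ?_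
          rw [if_neg]
          intro hJ
          exact hqB (Finset.mem_filter.2 ⟨hq, hq, i, hJ⟩)
        rw [this, pow_zero]
      rw [hprod] at hL
      exact hL
    · have : ((univ : Finset C).filter fun y => Ev vec PP e J (c + 1) (Function.update Y c y)) = ∅ := by
        rw [Finset.filter_eq_empty_iff]
        intro y _ hy
        exact hne ⟨y, hy⟩
      rw [this, Finset.card_empty, Nat.cast_zero]
      exact mul_nonneg (Nat.cast_nonneg _) (Finset.prod_nonneg fun p _ => pow_nonneg (hg p) _)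
  · have : ((univ : Finset C).filter fun y => Ev vec PP e J (c + 1) (Function.update Y c y)) = ∅ := by
      rw [Finset.filter_eq_empty_iff]
      intro y _ hy
      apply hE
      rw [← Ev_update vec PP e J c Y y]
      intro p i hi
      exact hy p i (by omega)
    rw [this, Finset.card_empty, Nat.cast_zero]

open Classical in
theorem step_bound (vec : C → ι → ℤ) (hvec : ∀ x i, |vec x i| ≤ 1) (g : ℕ → ℝ) (hg : ∀ p, 0 ≤ g p)
    (hLO : LOHyp vec k g) (PP : Finset ℕ) (hPP : ∀ p ∈ PP, p.Prime) (e : ℕ → ℕ)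
    (J : (p : {p // p ∈ PP}) → Fin (e p) → Fin k) (c : Fin k) :
    (((univ : Finset (Fin k → C)).filter fun Y => Ev vec PP e J (c + 1) Y).card : ℝ) ≤
      (∏ p ∈ PP, g p ^ ex PP e J c p) *
        (((univ : Finset (Fin k → C)).filter fun Y => Ev vec PP e J c Y).card : ℝ) := by
  have h1 := sum_update (C := C) (fun Y : Fin k → C => if Ev vec PP e J (c + 1) Y then (1 : ℝ) else 0) c
  have h2 : ∑ Y : Fin k → C, ∑ y : C,
      (if Ev vec PP e J (c + 1) (Function.update Y c y) then (1 : ℝ) else 0) ≤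
      ∑ Y : Fin k → C, if Ev vec PP e J c Y then
        Fintype.card C * ∏ p ∈ PP, g p ^ ex PP e J c p else 0 := by
    refine Finset.sum_le_sum fun Y _ => ?_
    have := col_bound vec hvec g hg hLO PP hPP e J c Y
    rw [Finset.sum_boole]
    exact this
  rw [h1, Finset.sum_boole] at h2
  rw [← Finset.sum_filter, Finset.sum_const, nsmul_eq_mul] at h2
  rcases Nat.eq_zero_or_pos (Fintype.card C) with h0 | h0
  · have hem : IsEmpty C := Fintype.card_eq_zero_iff.1 h0
    have : IsEmpty (Fin k → C) := ⟨fun Y => hem.false (Y c)⟩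
    rw [Finset.univ_eq_empty]
    simp
  · have h0' : (0 : ℝ) < Fintype.card C := by exact_mod_cast h0
    have h3 : (Fintype.card C : ℝ) *
        (((univ : Finset (Fin k → C)).filter fun Y => Ev vec PP e J (c + 1) Y).card : ℝ) ≤
        Fintype.card C * ((∏ p ∈ PP, g p ^ ex PP e J c p) *
        (((univ : Finset (Fin k → C)).filter fun Y => Ev vec PP e J c Y).card : ℝ)) := by
      refine h2.trans (le_of_eq ?_)
      ring
    exact le_of_mul_le_mul_left h3 h0'

open Classical in
theorem all_bound (vec : C → ι → ℤ) (hvec : ∀ x i, |vec x i| ≤ 1) (g : ℕ → ℝ) (hg : ∀ p, 0 ≤ g p)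
    (hLO : LOHyp vec k g) (PP : Finset ℕ) (hPP : ∀ p ∈ PP, p.Prime) (e : ℕ → ℕ)
    (J : (p : {p // p ∈ PP}) → Fin (e p) → Fin k) (n : ℕ) (hn : n ≤ k) :
    (((univ : Finset (Fin k → C)).filter fun Y => Ev vec PP e J n Y).card : ℝ) ≤
      (Fintype.card C : ℝ) ^ k * ∏ m ∈ range n, ∏ p ∈ PP, g p ^ ex PP e J m p := by
  induction n with
  | zero =>
    rw [Finset.range_zero, Finset.prod_empty, mul_one]
    refine le_trans (Nat.cast_le.2 (Finset.card_filter_le _ _)) ?_
    rw [Finset.card_univ, Fintype.card_fun, Fintype.card_fin, Nat.cast_pow]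
  | succ n ih =>
    have hb := step_bound vec hvec g hg hLO PP hPP e J ⟨n, by omega⟩
    refine hb.trans ?_
    rw [Finset.prod_range_succ]
    have hw : 0 ≤ ∏ p ∈ PP, g p ^ ex PP e J n p :=
      Finset.prod_nonneg fun p _ => pow_nonneg (hg p) _
    calc (∏ p ∈ PP, g p ^ ex PP e J n p) *
          (((univ : Finset (Fin k → C)).filter fun Y => Ev vec PP e J n Y).card : ℝ)
        ≤ (∏ p ∈ PP, g p ^ ex PP e J n p) * ((Fintype.card C : ℝ) ^ k *
            ∏ m ∈ range n, ∏ p ∈ PP, g p ^ ex PP e J m p) :=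
          mul_le_mul_of_nonneg_left (ih (by omega)) hw
      _ = _ := by ring

theorem sum_ex (PP : Finset ℕ) (e : ℕ → ℕ) (J : (p : {p // p ∈ PP}) → Fin (e p) → Fin k) (q : ℕ)
    (hq : q ∈ PP) : ∑ m ∈ range k, ex PP e J m q = e q * (e q - 1) / 2 := by
  unfold ex
  simp only [dif_pos hq]
  rw [Finset.sum_comm]
  have h1 : ∀ i : Fin (e q), ∑ m ∈ range k, (if (J ⟨q, hq⟩ i : ℕ) = m then (i : ℕ) else 0) = i := by
    intro i
    rw [Finset.sum_ite_eq]
    rw [if_pos (Finset.mem_range.2 (J ⟨q, hq⟩ i).2)]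
  rw [Finset.sum_congr rfl fun i _ => h1 i, Fin.sum_univ_eq_sum_range (fun i => i) (e q),
    Finset.sum_range_id]

/-- **Profile bound.** -/
theorem profile (vec : C → ι → ℤ) (hvec : ∀ x i, |vec x i| ≤ 1) (g : ℕ → ℝ) (hg : ∀ p, 0 ≤ g p)
    (hLO : LOHyp vec k g) (PP : Finset ℕ) (hPP : ∀ p ∈ PP, p.Prime) (e : ℕ → ℕ)
    (S : Finset (Fin k → C)) (hS : ∀ Y ∈ S, ∀ p ∈ PP,
      ((Matrix.of fun i l => vec (Y l) i).map (Int.cast : ℤ → ZMod p)).rank + e p ≤
        ((Matrix.of fun i l => vec (Y l) i).map (Int.cast : ℤ → ℚ)).rank) :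
    (S.card : ℝ) ≤
      (Fintype.card C : ℝ) ^ k * ∏ p ∈ PP, (k : ℝ) ^ e p * g p ^ (e p * (e p - 1) / 2) := by
  classical
  have htr : ∀ Y : Fin k → C, tr vec k Y = Matrix.of fun i l => vec (Y l) i := by
    intro Y
    ext i l
    simp [tr, l.2]
  refine le_trans (Nat.cast_le.2 ((Finset.card_le_card (t :=
      (univ : Finset ((p : {p // p ∈ PP}) → Fin (e p) → Fin k)).biUnion fun J =>
        (univ : Finset (Fin k → C)).filter fun Y => Ev vec PP e J k Y) ?_).trans
      Finset.card_biUnion_le)) ?_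
  · intro Y hY
    have hex : ∀ (p : {p // p ∈ PP}) (i : Fin (e p)), ∃ j : Fin k,
        rp p (tr vec j Y) + i = rq (tr vec j Y) ∧
        ∀ u : ι → ZMod p, u ᵥ* (tr vec j Y).map (Int.cast : ℤ → ZMod p) = 0 →
          ∑ t, u t * ((vec (Y j) t : ℤ) : ZMod p) = 0 := by
      intro p i
      refine exists_level vec Y p (hPP p p.2) (e p) ?_ i i.2
      rw [htr]
      exact hS Y hY p p.2
    choose J hJ using hex
    rw [Finset.mem_biUnion]
    refine ⟨J, Finset.mem_univ _, ?_⟩
    rw [Finset.mem_filter]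
    exact ⟨Finset.mem_univ _, fun p i _ => hJ p i⟩
  rw [Nat.cast_sum]
  have hJb : ∀ J : (p : {p // p ∈ PP}) → Fin (e p) → Fin k,
      (((univ : Finset (Fin k → C)).filter fun Y => Ev vec PP e J k Y).card : ℝ) ≤
      (Fintype.card C : ℝ) ^ k * ∏ p ∈ PP, g p ^ (e p * (e p - 1) / 2) := by
    intro J
    refine (all_bound vec hvec g hg hLO PP hPP e J k le_rfl).trans (le_of_eq ?_)
    rw [Finset.prod_comm]
    congr 1
    refine Finset.prod_congr rfl fun p hp => ?_
    rw [Finset.prod_pow_eq_pow_sum, sum_ex PP e J p hp]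
  refine (Finset.sum_le_card_nsmul _ _ _ fun J _ => hJb J).trans (le_of_eq ?_)
  rw [Finset.card_univ, nsmul_eq_mul, Fintype.card_pi, Finset.prod_mul_distrib]
  have : (((∏ p : {p // p ∈ PP}, Fintype.card (Fin (e p) → Fin k) : ℕ)) : ℝ) =
      ∏ p ∈ PP, (k : ℝ) ^ e p := by
    rw [Nat.cast_prod, ← Finset.prod_coe_sort PP]
    refine Finset.prod_congr rfl fun p _ => ?_
    simp
  rw [this]
  ring

end count

end Vale.Agent.P160.Half.Prof
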