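import Mathlib

/-!
# P160: sequential product bound and a marking lemma
-/

namespace Vale.Agent.P160.Half.Seq61

open Finset

/-! ### sequential product bound -/

section Seq

variable {α : Type*} [Fintype α]

/-- the first `j` letters of `w` -/
def pre {n : ℕ} (w : Fin n → α) (j : ℕ) (hj : j ≤ n) : Fin j → α := fun i => w ⟨i, by omega⟩

theorem seq_bound (g : (j : ℕ) → (Fin j → α) → α → ℝ) (hg : ∀ j η x, 0 ≤ g j η x)
    (q : ℕ → ℝ) (hq0 : ∀ j, 0 ≤ q j) (hq : ∀ j η, ∑ x, g j η x ≤ q j) (n : ℕ) :
    ∑ w : Fin n → α, ∏ j : Fin n, g j (pre w j j.2.le) (w j) ≤ ∏ j : Fin n, q j := by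
  induction n with
  | zero => simp
  | succ n ih =>
    rw [Fin.prod_univ_castSucc]
    rw [← (Fin.snocEquiv (fun _ : Fin (n + 1) => α)).sum_comp, Fintype.sum_prod_type,
      Finset.sum_comm]
    have h1 : ∀ (η : Fin n → α) (x : α),
        ∏ j : Fin (n + 1), g j (pre ((Fin.snocEquiv (fun _ : Fin (n + 1) => α)) (x, η)) j j.2.le)
          (((Fin.snocEquiv (fun _ : Fin (n + 1) => α)) (x, η)) j) =
        (∏ j : Fin n, g j (pre η j j.2.le) (η j)) * g n η x := by
      intro η x
      rw [Fin.prod_univ_castSucc]
      congr 1
      · refine Finset.prod_congr rfl fun j _ => ?_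
        have h2 : ((Fin.snocEquiv (fun _ : Fin (n + 1) => α)) (x, η)) (Fin.castSucc j) = η j := by
          simp [Fin.snocEquiv]
        have h3 : pre ((Fin.snocEquiv (fun _ : Fin (n + 1) => α)) (x, η)) (Fin.castSucc j : ℕ)
            (Fin.castSucc j).2.le = pre η j j.2.le := by
          funext i
          have := Fin.snoc_castSucc (α := fun _ => α) x η ⟨i, lt_trans i.2 j.2⟩
          exact this
        rw [h2]
        exact congrArg (fun z => g (j : ℕ) z (η j)) h3
      · have h2 : ((Fin.snocEquiv (fun _ : Fin (n + 1) => α)) (x, η)) (Fin.last n) = x := by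
          simp [Fin.snocEquiv]
        have h3 : pre ((Fin.snocEquiv (fun _ : Fin (n + 1) => α)) (x, η)) (Fin.last n : ℕ)
            (Fin.last n).2.le = η := by
          funext i
          have := Fin.snoc_castSucc (α := fun _ => α) x η ⟨i, i.2⟩
          exact this
        rw [h2]
        exact congrArg (fun z => g n z x) h3
    simp_rw [h1]
    calc ∑ η : Fin n → α, ∑ x, (∏ j : Fin n, g j (pre η j j.2.le) (η j)) * g n η x
        = ∑ η : Fin n → α, (∏ j : Fin n, g j (pre η j j.2.le) (η j)) * ∑ x, g n η x := by
          simp_rw [Finset.mul_sum]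
      _ ≤ ∑ η : Fin n → α, (∏ j : Fin n, g j (pre η j j.2.le) (η j)) * q n := by
          refine Finset.sum_le_sum fun η _ => mul_le_mul_of_nonneg_left (hq n η)
            (Finset.prod_nonneg fun j _ => hg _ _ _)
      _ = (∑ η : Fin n → α, ∏ j : Fin n, g j (pre η j j.2.le) (η j)) * q n := by
          rw [Finset.sum_mul]
      _ ≤ (∏ j : Fin n, q j) * q n := mul_le_mul_of_nonneg_right ih (hq0 n)

end Seq

/-! ### marks -/

/-- `h 0 = 0`, steps at most `+1`: there are `h n` marked steps `j < n`, at each of which `h` goes
up by one and the number of earlier marks is `h j`. -/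
theorem exists_marks (h : ℕ → ℕ) (h0 : h 0 = 0) (hs : ∀ j, h (j + 1) ≤ h j + 1) (n : ℕ) :
    ∃ J : Finset ℕ, (∀ j ∈ J, j < n) ∧ J.card = h n ∧
      ∀ j ∈ J, h (j + 1) = h j + 1 ∧ (J.filter (· < j)).card = h j := by
  -- strengthened: J = last passage times
  induction n using Nat.strong_induction_on with
  | _ n ih =>
    rcases Nat.eq_zero_or_pos (h n) with hn | hn
    · exact ⟨∅, by simp, by simp [hn], by simp⟩
    · -- the last j < n with h j < h n
      have hex : ∃ j, j < n ∧ h j < h n := by
        refine ⟨0, ?_, by omega⟩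
        rcases Nat.eq_zero_or_pos n with h1 | h1
        · subst h1; omega
        · exact h1
      obtain ⟨j, ⟨hj1, hj2⟩, hmax⟩ : ∃ j, (j < n ∧ h j < h n) ∧ ∀ i, (i < n ∧ h i < h n) → i ≤ j := by
        have hfin : ((Finset.range n).filter (fun i => h i < h n)).Nonempty := by
          obtain ⟨j, h1, h2⟩ := hex
          exact ⟨j, by simp [h1, h2]⟩
        refine ⟨((Finset.range n).filter (fun i => h i < h n)).max' hfin, ?_, ?_⟩
        · have := Finset.max'_mem _ hfin
          simpa using this
        · intro i hi
          exact Finset.le_max' _ _ (by simpa using hi)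
      have hj3 : h (j + 1) = h n := by
        have h1 := hs j
        rcases Nat.lt_or_ge (j + 1) n with h2 | h2
        · have h3 : ¬ (h (j + 1) < h n) := fun h4 => by
            have := hmax (j + 1) ⟨h2, h4⟩
            omega
          omega
        · have : j + 1 = n := by omega
          rw [this]
      have hj4 : h n = h j + 1 := by
        have := hs j
        omega
      obtain ⟨J, hJ1, hJ2, hJ3⟩ := ih j hj1
      have hnj : j ∉ J := fun h => absurd (hJ1 j h) (lt_irrefl _)
      refine ⟨insert j J, ?_, ?_, ?_⟩
      · intro i hi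
        rcases Finset.mem_insert.1 hi with rfl | hi
        · exact hj1
        · exact (hJ1 i hi).trans hj1
      · rw [Finset.card_insert_of_notMem hnj, hJ2, hj4]
      · intro i hi
        rcases Finset.mem_insert.1 hi with rfl | hi
        · refine ⟨by omega, ?_⟩
          rw [← hJ2]
          congr 1
          ext l
          simp only [Finset.mem_filter, Finset.mem_insert]
          constructor
          · rintro ⟨rfl | hl, hlt⟩
            · exact absurd hlt (lt_irrefl _)
            · exact hl
          · intro hl
            exact ⟨Or.inr hl, hJ1 l hl⟩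
        · refine ⟨(hJ3 i hi).1, ?_⟩
          rw [← (hJ3 i hi).2]
          congr 1
          ext l
          simp only [Finset.mem_filter, Finset.mem_insert]
          constructor
          · rintro ⟨h5 | hl, hlt⟩
            · have h6 := hJ1 i hi
              omega
            · exact ⟨hl, hlt⟩
          · rintro ⟨hl, hlt⟩
            exact ⟨Or.inr hl, hlt⟩

/-- the sum of the levels of the marks -/
theorem sum_levels (J : Finset ℕ) : 2 * ∑ j ∈ J, (J.filter (· < j)).card = J.card * (J.card - 1) := by
  induction J using Finset.induction_on_max with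
  | empty => simp
  | insert a s hs ih =>
    have hna : a ∉ s := fun h => absurd (hs a h) (lt_irrefl _)
    rw [Finset.sum_insert hna, Finset.card_insert_of_notMem hna]
    have h1 : ((insert a s).filter (· < a)) = s := by
      ext l
      simp only [Finset.mem_filter, Finset.mem_insert]
      constructor
      · rintro ⟨rfl | hl, hlt⟩
        · exact absurd hlt (lt_irrefl _)
        · exact hl
      · intro hl
        exact ⟨Or.inr hl, hs l hl⟩
    have h2 : ∀ j ∈ s, ((insert a s).filter (· < j)).card = (s.filter (· < j)).card := by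
      intro j hj
      congr 1
      ext l
      simp only [Finset.mem_filter, Finset.mem_insert]
      constructor
      · rintro ⟨rfl | hl, hlt⟩
        · exact absurd (hs j hj) (by omega)
        · exact ⟨hl, hlt⟩
      · rintro ⟨hl, hlt⟩
        exact ⟨Or.inr hl, hlt⟩
    rw [h1, Finset.sum_congr rfl h2, mul_add, ih]
    rcases Nat.eq_zero_or_pos s.card with h3 | h3
    · rw [h3]
    · obtain ⟨m, hm⟩ : ∃ m, s.card = m + 1 := ⟨s.card - 1, by omega⟩
      rw [hm]
      simp only [Nat.add_sub_cancel]
      ring

end Vale.Agent.P160.Half.Seq61
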