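import Vale.Agent.P160.Half.LOMin
import Vale.Agent.P160.Half.Seq61

/-!
# P160: the column process for the excess `rank_ℚ - rank_p`

The columns of an `ι × n` matrix with i.i.d. entries of law `(1/4, 1/2, 1/4)` on `{-1, 0, 1}`
are pairs of 0/1 vectors.  `card_profile_le`: the number of matrices whose excess profile
`p ↦ rank_ℚ - rank_p` on a finite set `S` of primes is `e` is at most
`4 ^ (a n) * ∏ (n ^ e_p * p ^ (- θ e_p (e_p - 1) / 2))`, `θ` from the Littlewood-Offord inequality
with excess.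
-/

namespace Vale.Agent.P160.Half.Prof61

set_option linter.unusedSectionVars false

open Finset Matrix Seq61

variable {ι : Type*} [Fintype ι] [DecidableEq ι]

/-- the column of a pair of 0/1 vectors -/
def col (x : (ι → Bool) × (ι → Bool)) : ι → ℤ :=
  fun i => (if x.1 i then 1 else 0) - (if x.2 i then 1 else 0)

/-- the matrix of a list of columns -/
def mat {n : ℕ} (w : Fin n → (ι → Bool) × (ι → Bool)) : Matrix ι (Fin n) ℤ :=
  Matrix.of fun i j => col (w j) i

/-- the rank over `F` -/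
noncomputable def rk (F : Type*) [Field F] {n : ℕ} (w : Fin n → (ι → Bool) × (ι → Bool)) : ℕ :=
  ((mat w).map (Int.cast : ℤ → F)).rank

theorem rank_mod_le {κ : Type*} [Fintype κ] [DecidableEq κ] (Y : Matrix ι κ ℤ) (p : ℕ)
    [Fact p.Prime] : (Y.map (Int.cast : ℤ → ZMod p)).rank ≤ (Y.map (Int.cast : ℤ → ℚ)).rank := by
  obtain ⟨r, f, g, hr, hdet⟩ := LOMin.exists_minor (Y.map (Int.cast : ℤ → ZMod p))
  have h1 : (((Y.submatrix f g).det : ℤ) : ZMod p) =
      ((Y.map (Int.cast : ℤ → ZMod p)).submatrix f g).det := by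
    have := (Int.castRingHom (ZMod p)).map_det (Y.submatrix f g)
    exact this
  have h2 : (Y.submatrix f g).det ≠ 0 := by
    intro h0
    rw [h0, Int.cast_zero] at h1
    exact hdet h1.symm
  have h3 : (((Y.submatrix f g).det : ℤ) : ℚ) =
      ((Y.map (Int.cast : ℤ → ℚ)).submatrix f g).det := by
    have := (Int.castRingHom ℚ).map_det (Y.submatrix f g)
    exact this
  have h4 : ((Y.map (Int.cast : ℤ → ℚ)).submatrix f g).det ≠ 0 := by
    rw [← h3]
    exact_mod_cast h2
  have h5 : ((Y.map (Int.cast : ℤ → ℚ)).submatrix f g).rank = r := by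
    have := Matrix.rank_of_isUnit _ ((Matrix.isUnit_iff_isUnit_det _).2 (isUnit_iff_ne_zero.2 h4))
    rw [this, Fintype.card_fin]
  rw [← hr, ← h5]
  exact Matrix.rank_submatrix_le _ _ _

theorem rank_castSucc_le {F : Type*} [Field F] {j : ℕ} (Y : Matrix ι (Fin (j + 1)) F) :
    (Y.submatrix id Fin.castSucc).rank ≤ Y.rank := Matrix.rank_submatrix_le _ _ _

theorem rank_le_castSucc {F : Type*} [Field F] {j : ℕ} (Y : Matrix ι (Fin (j + 1)) F) :
    Y.rank ≤ (Y.submatrix id Fin.castSucc).rank + 1 := by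
  rw [Matrix.rank_eq_finrank_span_cols, Matrix.rank_eq_finrank_span_cols]
  have h1 : Set.range Y.col ⊆ insert (Y.col (Fin.last j))
      (Set.range (Y.submatrix id Fin.castSucc).col) := by
    rintro _ ⟨i, rfl⟩
    refine Fin.lastCases ?_ (fun i => ?_) i
    · exact Set.mem_insert _ _
    · exact Set.mem_insert_of_mem _ ⟨i, rfl⟩
  have h2 : Submodule.span F (Set.range Y.col) ≤ Submodule.span F {Y.col (Fin.last j)} ⊔
      Submodule.span F (Set.range (Y.submatrix id Fin.castSucc).col) := by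
    rw [← Submodule.span_insert]
    exact Submodule.span_mono h1
  have h3 := Submodule.finrank_mono h2
  have h4 := Submodule.finrank_add_le_finrank_add_finrank (Submodule.span F {Y.col (Fin.last j)})
    (Submodule.span F (Set.range (Y.submatrix id Fin.castSucc).col))
  have h5 : Module.finrank F (Submodule.span F {Y.col (Fin.last j)}) ≤ 1 := by
    have := finrank_span_le_card (R := F) ({Y.col (Fin.last j)} : Set (ι → F))
    exact this.trans (by simp)
  omega

/-- if the last column does not increase the rank, the left kernel does not change -/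
theorem lker_of_rank_eq {F : Type*} [Field F] {j : ℕ} (Y : Matrix ι (Fin (j + 1)) F)
    (h : Y.rank = (Y.submatrix id Fin.castSucc).rank) (u : ι → F)
    (hu : u ᵥ* (Y.submatrix id Fin.castSucc) = 0) : ∑ i, u i * Y i (Fin.last j) = 0 := by
  have h1 := LOMin.finrank_lker Y
  have h2 := LOMin.finrank_lker (Y.submatrix id Fin.castSucc)
  have hle : LinearMap.ker Y.vecMulLinear ≤
      LinearMap.ker (Y.submatrix id Fin.castSucc).vecMulLinear := by
    intro v hv
    have hv' : v ᵥ* Y = 0 := hv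
    show v ᵥ* (Y.submatrix id Fin.castSucc) = 0
    funext i
    exact congrFun hv' (Fin.castSucc i)
  have h3 := Submodule.eq_of_le_of_finrank_eq hle (by omega)
  have h4 : u ∈ LinearMap.ker Y.vecMulLinear := by
    rw [h3]; exact hu
  have h5 : u ᵥ* Y = 0 := h4
  exact congrFun h5 (Fin.last j)

variable {n : ℕ}

/-- the excess of the first `j` columns -/
noncomputable def ex (p : ℕ) [Fact p.Prime] (w : Fin n → (ι → Bool) × (ι → Bool)) : ℕ :=
  rk ℚ w - rk (ZMod p) w

theorem mat_pre_castSucc (w : Fin n → (ι → Bool) × (ι → Bool)) (j : ℕ) (hj : j + 1 ≤ n) :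
    (mat (pre w (j + 1) hj)).submatrix id Fin.castSucc = mat (pre w j (by omega)) := rfl

theorem rk_pre_le (F : Type*) [Field F] (w : Fin n → (ι → Bool) × (ι → Bool)) (j : ℕ)
    (hj : j + 1 ≤ n) : rk F (pre w j (by omega)) ≤ rk F (pre w (j + 1) hj) :=
  rank_castSucc_le ((mat (pre w (j + 1) hj)).map (Int.cast : ℤ → F))

theorem rk_pre_succ_le (F : Type*) [Field F] (w : Fin n → (ι → Bool) × (ι → Bool)) (j : ℕ)
    (hj : j + 1 ≤ n) : rk F (pre w (j + 1) hj) ≤ rk F (pre w j (by omega)) + 1 :=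
  rank_le_castSucc ((mat (pre w (j + 1) hj)).map (Int.cast : ℤ → F))

theorem ex_succ_le (p : ℕ) [Fact p.Prime] (w : Fin n → (ι → Bool) × (ι → Bool)) (j : ℕ)
    (hj : j + 1 ≤ n) : ex p (pre w (j + 1) hj) ≤ ex p (pre w j (by omega)) + 1 := by
  have h1 := rk_pre_succ_le ℚ w j hj
  have h2 := rk_pre_le (ZMod p) w j hj
  unfold ex
  omega

theorem lker_of_ex (p : ℕ) [Fact p.Prime] (w : Fin n → (ι → Bool) × (ι → Bool)) (j : ℕ)
    (hj : j + 1 ≤ n) (h : ex p (pre w (j + 1) hj) = ex p (pre w j (by omega)) + 1)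
    (u : ι → ZMod p) (hu : u ᵥ* (mat (pre w j (by omega))).map (Int.cast : ℤ → ZMod p) = 0) :
    ∑ i, u i * ((col (w ⟨j, by omega⟩) i : ℤ) : ZMod p) = 0 := by
  have h1 := rk_pre_succ_le ℚ w j hj
  have h2 := rk_pre_le (ZMod p) w j hj
  have h3 := rk_pre_succ_le (ZMod p) w j hj
  have h4 : rk (ZMod p) (pre w (j + 1) hj) = rk (ZMod p) (pre w j (by omega)) := by
    unfold ex at h
    omega
  exact lker_of_rank_eq ((mat (pre w (j + 1) hj)).map (Int.cast : ℤ → ZMod p)) h4 u hu

/-- marks of the excess process, up to level `e` -/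
theorem exists_marks (p : ℕ) [Fact p.Prime] (w : Fin n → (ι → Bool) × (ι → Bool)) (e : ℕ)
    (he : e ≤ ex p w) :
    ∃ J : Finset ℕ, J ∈ (range n).powersetCard e ∧ ∀ j ∈ J, ∀ hj : j < n,
      (J.filter (· < j)).card = ex p (pre w j hj.le) ∧
      ∀ u : ι → ZMod p, u ᵥ* (mat (pre w j hj.le)).map (Int.cast : ℤ → ZMod p) = 0 →
        ∑ i, u i * ((col (w ⟨j, hj⟩) i : ℤ) : ZMod p) = 0 := by
  let h : ℕ → ℕ := fun j => if hj : j ≤ n then ex p (pre w j hj) else ex p w
  have hn : h n = ex p w := by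
    simp only [h, le_refl, dif_pos]
    rfl
  have h0 : h 0 = 0 := by
    simp only [h, Nat.zero_le, dif_pos]
    have : rk ℚ (pre w 0 (Nat.zero_le n)) = 0 := by
      unfold rk
      have := Matrix.rank_le_card_width ((mat (pre w 0 (Nat.zero_le n))).map (Int.cast : ℤ → ℚ))
      simpa using this
    unfold ex
    omega
  have hs : ∀ j, h (j + 1) ≤ h j + 1 := by
    intro j
    rcases Nat.lt_or_ge j n with hj | hj
    · have h1 : h (j + 1) = ex p (pre w (j + 1) hj) := dif_pos hj
      have h2 : h j = ex p (pre w j hj.le) := dif_pos hj.le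
      rw [h1, h2]
      exact ex_succ_le p w j hj
    · have h1 : h (j + 1) = ex p w := dif_neg (by omega)
      have h2 : h j = ex p w := by
        rcases Nat.lt_or_ge n j with h3 | h3
        · exact dif_neg (by omega)
        · have : j = n := by omega
          rw [this, hn]
      omega
  obtain ⟨J, hJ1, hJ2, hJ3⟩ := Seq61.exists_marks (fun j => min (h j) e) (by simp [h0])
    (fun j => by have := hs j; omega) n
  refine ⟨J, ?_, ?_⟩
  · rw [Finset.mem_powersetCard]
    exact ⟨fun j hj => Finset.mem_range.2 (hJ1 j hj), by rw [hJ2, hn]; omega⟩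
  · intro j hjJ hj
    obtain ⟨h1, h2⟩ := hJ3 j hjJ
    have h3 : h (j + 1) = ex p (pre w (j + 1) hj) := dif_pos hj
    have h4 : h j = ex p (pre w j hj.le) := dif_pos hj.le
    have h5 := hs j
    have h6 : h (j + 1) = h j + 1 := by omega
    have h7 : min (h j) e = h j := by omega
    refine ⟨by rw [h2, h7, h4], ?_⟩
    rw [h3, h4] at h6
    exact lker_of_ex p w j hj h6

/-! ### the count for a family of positions -/

/-- **Littlewood-Offord with excess, exponent `θ`** (as a hypothesis) -/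
def LOHyp (ι : Type*) [Fintype ι] [DecidableEq ι] (θ : ℝ) : Prop :=
  ∀ (j : ℕ) (w : Fin j → (ι → Bool) × (ι → Bool)) (B : Finset ℕ) (_ : ∀ p ∈ B, p.Prime) (e : ℕ → ℕ)
    (_ : ∀ p ∈ B, ((mat w).map (Int.cast : ℤ → ZMod p)).rank + e p ≤
      ((mat w).map (Int.cast : ℤ → ℚ)).rank),
    (Nat.card {x : (ι → Bool) × (ι → Bool) // ∀ p ∈ B, ∀ u : ι → ZMod p,
      u ᵥ* (mat w).map (Int.cast : ℤ → ZMod p) = 0 →
        ∑ i, u i * ((col x i : ℤ) : ZMod p) = 0} : ℝ) ≤
      (∏ p ∈ B, (p : ℝ) ^ (-(θ * e p))) * 4 ^ Fintype.card ι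

/-- the event that at step `j` (after `η`) all primes with `j ∈ J p` are marked -/
def Step (S : Finset ℕ) (J : ℕ → Finset ℕ) (j : ℕ) (η : Fin j → (ι → Bool) × (ι → Bool))
    (x : (ι → Bool) × (ι → Bool)) : Prop :=
  ∀ p ∈ S.filter (fun p => j ∈ J p),
    (((mat η).map (Int.cast : ℤ → ZMod p)).rank + ((J p).filter (· < j)).card ≤
      ((mat η).map (Int.cast : ℤ → ℚ)).rank) ∧
    ∀ u : ι → ZMod p, u ᵥ* (mat η).map (Int.cast : ℤ → ZMod p) = 0 →
        ∑ i, u i * ((col x i : ℤ) : ZMod p) = 0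

open scoped Classical in
theorem card_steps_le {θ : ℝ} (hLO : LOHyp ι θ) (S : Finset ℕ) (hS : ∀ p ∈ S, p.Prime)
    (J : ℕ → Finset ℕ) (hJ : ∀ p ∈ S, J p ⊆ range n) :
    (((univ : Finset (Fin n → (ι → Bool) × (ι → Bool))).filter
      (fun w => ∀ j : Fin n, Step S J j (pre w j j.2.le) (w j))).card : ℝ) ≤
      (∏ p ∈ S, (p : ℝ) ^ (-(θ * ((J p).card * ((J p).card - 1) / 2 : ℝ)))) *
        4 ^ (Fintype.card ι * n) := by
  have h1 := Seq61.seq_bound (α := (ι → Bool) × (ι → Bool))
    (fun j η x => if Step S J j η x then (1 : ℝ) else 0)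
    (fun j η x => by positivity)
    (fun j => (∏ p ∈ S.filter (fun p => j ∈ J p),
      (p : ℝ) ^ (-(θ * ((J p).filter (· < j)).card))) * 4 ^ Fintype.card ι)
    (fun j => by positivity)
    (fun j η => by
      by_cases hr : ∀ p ∈ S.filter (fun p => j ∈ J p),
        (((mat η).map (Int.cast : ℤ → ZMod p)).rank + ((J p).filter (· < j)).card ≤
          ((mat η).map (Int.cast : ℤ → ℚ)).rank)
      · refine le_trans (le_of_eq ?_) (hLO j η (S.filter (fun p => j ∈ J p))
          (fun p hp => hS p (Finset.mem_filter.1 hp).1)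
          (fun p => ((J p).filter (· < j)).card) hr)
        rw [Finset.sum_boole, Nat.card_eq_fintype_card, Fintype.card_subtype]
        congr 2
        ext x
        simp only [Finset.mem_filter, Finset.mem_univ, true_and]
        constructor
        · intro h p hp
          exact (h p (Finset.mem_filter.2 hp)).2
        · intro h p hp
          exact ⟨hr p hp, h p (Finset.mem_filter.1 hp)⟩
      · have h2 : ∀ x, ¬ Step S J j η x := fun x hx => hr fun p hp => (hx p hp).1
        simp only [h2, if_false, Finset.sum_const_zero]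
        positivity) n
  have h2 : (((univ : Finset (Fin n → (ι → Bool) × (ι → Bool))).filter
      (fun w => ∀ j : Fin n, Step S J j (pre w j j.2.le) (w j))).card : ℝ) =
      ∑ w : Fin n → (ι → Bool) × (ι → Bool), ∏ j : Fin n,
        (if Step S J j (pre w j j.2.le) (w j) then (1 : ℝ) else 0) := by
    rw [← Finset.sum_boole]
    refine Finset.sum_congr rfl fun w _ => ?_
    by_cases h : ∀ j : Fin n, Step S J j (pre w j j.2.le) (w j)
    · rw [if_pos h]
      symm
      exact Finset.prod_eq_one fun j _ => if_pos (h j)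
    · rw [if_neg h]
      push Not at h
      obtain ⟨j, hj⟩ := h
      symm
      exact Finset.prod_eq_zero (Finset.mem_univ j) (if_neg hj)
  rw [h2]
  refine h1.trans (le_of_eq ?_)
  rw [Finset.prod_mul_distrib, Finset.prod_const, Finset.card_univ, Fintype.card_fin, ← pow_mul]
  congr 1
  have h3 : ∀ j : ℕ, (∏ p ∈ S.filter (fun p => j ∈ J p),
      (p : ℝ) ^ (-(θ * ((J p).filter (· < j)).card))) =
      ∏ p ∈ S, (if j ∈ J p then (p : ℝ) ^ (-(θ * ((J p).filter (· < j)).card)) else 1) :=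
    fun j => Finset.prod_filter _ _
  simp_rw [h3]
  rw [Finset.prod_comm]
  refine Finset.prod_congr rfl fun p hp => ?_
  have hp0 : (0 : ℝ) < p := by exact_mod_cast (hS p hp).pos
  rw [Fin.prod_univ_eq_prod_range
    (fun j => if j ∈ J p then (p : ℝ) ^ (-(θ * ((J p).filter (· < j)).card)) else 1) n,
    ← Finset.prod_filter]
  have h4 : (range n).filter (fun j => j ∈ J p) = J p := by
    ext j
    simp only [Finset.mem_filter]
    exact ⟨fun h => h.2, fun h => ⟨hJ p hp h, h⟩⟩
  rw [h4, ← Real.rpow_sum_of_pos hp0]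
  congr 1
  rw [Finset.sum_neg_distrib, ← Finset.mul_sum]
  congr 2
  have h5 := Seq61.sum_levels (J p)
  have h6 : (2 : ℝ) * ∑ j ∈ J p, (((J p).filter (· < j)).card : ℝ) =
      (J p).card * ((J p).card - 1) := by
    rcases Nat.eq_zero_or_pos (J p).card with h7 | h7
    · have h8 : J p = ∅ := Finset.card_eq_zero.1 h7
      rw [h8]; simp
    · have h9 : ((((J p).card - 1 : ℕ)) : ℝ) = ((J p).card : ℝ) - 1 := by
        rw [Nat.cast_sub h7]; simp
      rw [← h9]
      exact_mod_cast h5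
  linarith

open scoped Classical in
/-- **The profile bound.** -/
theorem card_profile_le {θ : ℝ} (hLO : LOHyp ι θ) (S : Finset ℕ) (hS : ∀ p ∈ S, p.Prime)
    (e : ℕ → ℕ) :
    (((univ : Finset (Fin n → (ι → Bool) × (ι → Bool))).filter
      (fun w => ∀ p ∈ S, ((mat w).map (Int.cast : ℤ → ZMod p)).rank + e p ≤
        ((mat w).map (Int.cast : ℤ → ℚ)).rank)).card : ℝ) ≤
      (∏ p ∈ S, ((n : ℝ) ^ e p * (p : ℝ) ^ (-(θ * (e p * (e p - 1) / 2 : ℝ))))) *
        4 ^ (Fintype.card ι * n) := by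
  let Js : ((p : ℕ) → p ∈ S → Finset ℕ) → ℕ → Finset ℕ := fun f p =>
    if h : p ∈ S then f p h else ∅
  let T : Finset ((p : ℕ) → p ∈ S → Finset ℕ) := S.pi fun p => (range n).powersetCard (e p)
  have hsub : ((univ : Finset (Fin n → (ι → Bool) × (ι → Bool))).filter
      (fun w => ∀ p ∈ S, ((mat w).map (Int.cast : ℤ → ZMod p)).rank + e p ≤
        ((mat w).map (Int.cast : ℤ → ℚ)).rank)) ⊆
      T.biUnion fun f => (univ : Finset (Fin n → (ι → Bool) × (ι → Bool))).filter
        (fun w => ∀ j : Fin n, Step S (Js f) j (pre w j j.2.le) (w j)) := by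
    intro w hw
    have hw' := (Finset.mem_filter.1 hw).2
    have hch : ∀ p, p ∈ S → ∃ J : Finset ℕ, J ∈ (range n).powersetCard (e p) ∧
        ∀ j ∈ J, ∀ hj : j < n,
        (((mat (pre w j hj.le)).map (Int.cast : ℤ → ZMod p)).rank + (J.filter (· < j)).card ≤
          ((mat (pre w j hj.le)).map (Int.cast : ℤ → ℚ)).rank) ∧
        ∀ u : ι → ZMod p, u ᵥ* (mat (pre w j hj.le)).map (Int.cast : ℤ → ZMod p) = 0 →
          ∑ i, u i * ((col (w ⟨j, hj⟩) i : ℤ) : ZMod p) = 0 := by
      intro p hp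
      have := Fact.mk (hS p hp)
      have h1 := hw' p hp
      obtain ⟨J, hJ1, hJ2⟩ := exists_marks p w (e p) (by unfold ex rk; omega)
      refine ⟨J, hJ1, fun j hjJ hj => ⟨?_, (hJ2 j hjJ hj).2⟩⟩
      have h2 := (hJ2 j hjJ hj).1
      have h3 := rank_mod_le (mat (pre w j hj.le)) p
      unfold ex rk at h2
      omega
    choose! J hJ1 hJ2 using hch
    rw [Finset.mem_biUnion]
    refine ⟨fun p _ => J p, Finset.mem_pi.2 fun p hp => hJ1 p hp, Finset.mem_filter.2
      ⟨mem_univ _, fun j p hp => ?_⟩⟩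
    obtain ⟨hpS, hjp⟩ := Finset.mem_filter.1 hp
    have h4 : Js (fun p _ => J p) p = J p := dif_pos hpS
    rw [h4] at hjp
    have h5 := hJ2 p hpS j hjp j.2
    rw [h4]
    exact h5
  have h1 : ∀ f ∈ T, (((univ : Finset (Fin n → (ι → Bool) × (ι → Bool))).filter
        (fun w => ∀ j : Fin n, Step S (Js f) j (pre w j j.2.le) (w j))).card : ℝ) ≤
      (∏ p ∈ S, (p : ℝ) ^ (-(θ * (e p * (e p - 1) / 2 : ℝ)))) * 4 ^ (Fintype.card ι * n) := by
    intro f hf
    have hf' := Finset.mem_pi.1 hf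
    have hJ : ∀ p ∈ S, Js f p ∈ (range n).powersetCard (e p) := by
      intro p hp
      have h4 : Js f p = f p hp := dif_pos hp
      rw [h4]
      exact hf' p hp
    refine (card_steps_le hLO S hS (Js f) fun p hp => (Finset.mem_powersetCard.1 (hJ p hp)).1).trans
      (le_of_eq ?_)
    congr 1
    refine Finset.prod_congr rfl fun p hp => ?_
    rw [(Finset.mem_powersetCard.1 (hJ p hp)).2]
  calc (((univ : Finset (Fin n → (ι → Bool) × (ι → Bool))).filter
      (fun w => ∀ p ∈ S, ((mat w).map (Int.cast : ℤ → ZMod p)).rank + e p ≤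
        ((mat w).map (Int.cast : ℤ → ℚ)).rank)).card : ℝ)
      ≤ ((T.biUnion fun f => (univ : Finset (Fin n → (ι → Bool) × (ι → Bool))).filter
        (fun w => ∀ j : Fin n, Step S (Js f) j (pre w j j.2.le) (w j))).card : ℝ) := by
        exact_mod_cast Finset.card_le_card hsub
    _ ≤ ∑ f ∈ T, (((univ : Finset (Fin n → (ι → Bool) × (ι → Bool))).filter
        (fun w => ∀ j : Fin n, Step S (Js f) j (pre w j j.2.le) (w j))).card : ℝ) := by
        exact_mod_cast Finset.card_biUnion_le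
    _ ≤ ∑ f ∈ T, (∏ p ∈ S, (p : ℝ) ^ (-(θ * (e p * (e p - 1) / 2 : ℝ)))) *
          4 ^ (Fintype.card ι * n) := Finset.sum_le_sum h1
    _ = (T.card : ℝ) * ((∏ p ∈ S, (p : ℝ) ^ (-(θ * (e p * (e p - 1) / 2 : ℝ)))) *
          4 ^ (Fintype.card ι * n)) := by rw [Finset.sum_const, nsmul_eq_mul]
    _ ≤ (∏ p ∈ S, (n : ℝ) ^ e p) * ((∏ p ∈ S, (p : ℝ) ^ (-(θ * (e p * (e p - 1) / 2 : ℝ)))) *
          4 ^ (Fintype.card ι * n)) := by
        refine mul_le_mul_of_nonneg_right ?_ (by positivity)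
        rw [Finset.card_pi, Nat.cast_prod]
        refine Finset.prod_le_prod (fun p _ => by positivity) fun p _ => ?_
        rw [Finset.card_powersetCard, Finset.card_range]
        exact_mod_cast Nat.choose_le_pow n (e p)
    _ = _ := by rw [← mul_assoc, ← Finset.prod_mul_distrib]

end Vale.Agent.P160.Half.Prof61
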