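import Mathlib

/-!
# P160: the profile bound (abstract form)

`X_0, X_1, …` are exposed one by one (`X : Fin k → α`, `α` finite), `E p X` is the excess at `p`
of a history; it starts at `0` and grows by at most `1` per step.  Hypothesis (LO): given the
history `X`, at most `card α / ∏_{p ∈ B} (L p) ^ (E p X)` values of the next variable make the
excess grow at all `p ∈ B`.  Conclusion:
`#{X | ∀ p ∈ P, x p ≤ E p X} * ∏_p (L p) ^ (x p choose 2) ≤ (card α) ^ k * ∏_p (k choose x p)`.
-/

namespace Vale.Agent.P160.Half.Prof629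

open Finset

section abstract_form

variable {α : Type*} [Fintype α] {π : Type*} [DecidableEq π]

open scoped Classical in
/-- The profile bound. `R` is a condition on histories which passes to prefixes
(take `R = True` if not needed). -/
theorem profile (P : Finset π) (E : π → (j : ℕ) → (Fin j → α) → ℕ) (L : π → ℝ)
    (hL : ∀ p ∈ P, 0 < L p) (R : (j : ℕ) → (Fin j → α) → Prop)
    (hR : ∀ j (X : Fin j → α) (y : α), R (j + 1) (Fin.snoc X y) → R j X)
    (h0 : ∀ p ∈ P, ∀ X : Fin 0 → α, E p 0 X = 0)
    (h1 : ∀ p ∈ P, ∀ j (X : Fin j → α) (y : α), E p (j + 1) (Fin.snoc X y) ≤ E p j X + 1)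
    (hLO : ∀ j (X : Fin j → α) (B : Finset π), R j X → B ⊆ P →
      ((univ.filter fun y : α => R (j + 1) (Fin.snoc X y) ∧
        ∀ p ∈ B, E p (j + 1) (Fin.snoc X y) = E p j X + 1).card : ℝ) *
        ∏ p ∈ B, L p ^ (E p j X) ≤ Fintype.card α) :
    ∀ (k : ℕ) (x : π → ℕ),
      ((univ.filter fun X : Fin k → α => R k X ∧ ∀ p ∈ P, x p ≤ E p k X).card : ℝ) *
        ∏ p ∈ P, L p ^ ((x p).choose 2) ≤
      (Fintype.card α : ℝ) ^ k * ∏ p ∈ P, (k.choose (x p) : ℝ) := by
  intro k
  induction k with
  | zero =>
    intro x
    by_cases hx : ∀ p ∈ P, x p = 0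
    · have h2 : ∏ p ∈ P, L p ^ ((x p).choose 2) = 1 :=
        Finset.prod_eq_one fun p hp => by rw [hx p hp]; simp
      have h3 : ∏ p ∈ P, ((0 : ℕ).choose (x p) : ℝ) = 1 :=
        Finset.prod_eq_one fun p hp => by rw [hx p hp]; simp
      rw [h2, h3, mul_one, mul_one, pow_zero]
      have h4 : (univ.filter fun X : Fin 0 → α => R 0 X ∧ ∀ p ∈ P, x p ≤ E p 0 X).card ≤ 1 := by
        refine (Finset.card_le_univ _).trans ?_
        simp
      exact_mod_cast h4
    · have h2 : (univ.filter fun X : Fin 0 → α => R 0 X ∧ ∀ p ∈ P, x p ≤ E p 0 X) = ∅ := by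
        rw [Finset.filter_eq_empty_iff]
        rintro X - ⟨-, h⟩
        exact hx fun p hp => by have := h p hp; rw [h0 p hp X] at this; omega
      rw [h2, Finset.card_empty, Nat.cast_zero, zero_mul]
      positivity
  | succ k ih =>
    intro x
    -- split according to the set `B` of primes which are missing one before the last step
    set N : Finset (Fin (k + 1) → α) :=
      univ.filter fun X => R (k + 1) X ∧ ∀ p ∈ P, x p ≤ E p (k + 1) X with hN
    have hfib : (N.card : ℝ) ≤ ∑ B ∈ P.powerset,
        ∑ X ∈ (univ.filter fun X : Fin k → α => (R k X ∧ ∀ p ∈ P,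
            (if p ∈ B then x p - 1 else x p) ≤ E p k X) ∧ ∀ p ∈ B, E p k X + 1 = x p),
          ((univ.filter fun y : α => R (k + 1) (Fin.snoc X y) ∧
            ∀ p ∈ B, E p (k + 1) (Fin.snoc X y) = E p k X + 1).card : ℝ) := by
      have h5 : N.card ≤ ∑ B ∈ P.powerset,
        ∑ X ∈ (univ.filter fun X : Fin k → α => (R k X ∧ ∀ p ∈ P,
            (if p ∈ B then x p - 1 else x p) ≤ E p k X) ∧ ∀ p ∈ B, E p k X + 1 = x p),
          (univ.filter fun y : α => R (k + 1) (Fin.snoc X y) ∧
            ∀ p ∈ B, E p (k + 1) (Fin.snoc X y) = E p k X + 1).card := by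
        simp_rw [← Finset.card_sigma]
        refine Finset.card_le_card_of_injOn
          (fun X => ⟨P.filter fun p => E p k (Fin.init X) < x p, ⟨Fin.init X, X (Fin.last k)⟩⟩)
          ?_ ?_
        · intro X hX
          rw [hN, Finset.coe_filter] at hX
          obtain ⟨-, hRX, hX⟩ := hX
          have hs : (Fin.snoc (Fin.init X) (X (Fin.last k)) : Fin (k + 1) → α) = X :=
            Fin.snoc_init_self X
          have hRi : R k (Fin.init X) := by
            apply hR k (Fin.init X) (X (Fin.last k))
            rw [hs]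
            exact hRX
          have hE : ∀ p ∈ P, E p k (Fin.init X) < x p →
              E p k (Fin.init X) + 1 = x p ∧ E p (k + 1) X = E p k (Fin.init X) + 1 := by
            intro p hp hlt
            have h6 := h1 p hp k (Fin.init X) (X (Fin.last k))
            rw [hs] at h6
            have h7 := hX p hp
            omega
          rw [Finset.mem_coe, Finset.mem_sigma]
          refine ⟨Finset.mem_powerset.2 (Finset.filter_subset _ _), ?_⟩
          rw [Finset.mem_sigma]
          refine ⟨?_, ?_⟩
          · rw [Finset.mem_filter]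
            refine ⟨mem_univ _, ⟨hRi, ?_⟩, ?_⟩
            · intro p hp
              dsimp only
              by_cases hlt : E p k (Fin.init X) < x p
              · have := (hE p hp hlt).1
                rw [if_pos (Finset.mem_filter.2 ⟨hp, hlt⟩)]
                omega
              · have hnot : p ∉ P.filter fun p => E p k (Fin.init X) < x p :=
                  fun h => hlt (Finset.mem_filter.1 h).2
                rw [if_neg hnot]
                omega
            · intro p hp
              exact (hE p (Finset.mem_filter.1 hp).1 (Finset.mem_filter.1 hp).2).1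
          · rw [Finset.mem_filter]
            refine ⟨mem_univ _, ?_⟩
            dsimp only
            rw [hs]
            exact ⟨hRX, fun p hp =>
              (hE p (Finset.mem_filter.1 hp).1 (Finset.mem_filter.1 hp).2).2⟩
        · intro X _ X' _ h
          simp only [Sigma.mk.injEq] at h
          obtain ⟨-, h⟩ := h
          have h8 := eq_of_heq h
          simp only [Sigma.mk.injEq] at h8
          rw [← Fin.snoc_init_self X, ← Fin.snoc_init_self X', h8.1, eq_of_heq h8.2]
      exact_mod_cast h5
    have hterm : ∀ B ∈ P.powerset,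
        (∑ X ∈ (univ.filter fun X : Fin k → α => (R k X ∧ ∀ p ∈ P,
            (if p ∈ B then x p - 1 else x p) ≤ E p k X) ∧ ∀ p ∈ B, E p k X + 1 = x p),
          ((univ.filter fun y : α => R (k + 1) (Fin.snoc X y) ∧
            ∀ p ∈ B, E p (k + 1) (Fin.snoc X y) = E p k X + 1).card : ℝ)) *
          ∏ p ∈ P, L p ^ ((x p).choose 2) ≤
        (Fintype.card α : ℝ) ^ (k + 1) *
          ((∏ p ∈ B, (if x p = 0 then (0 : ℝ) else (k.choose (x p - 1) : ℝ))) *
            ∏ p ∈ P \ B, (k.choose (x p) : ℝ)) := by
      intro B hB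
      rw [Finset.mem_powerset] at hB
      have hpos : ∀ p ∈ B, 0 < L p := fun p hp => hL p (hB hp)
      by_cases hx0 : ∃ p ∈ B, x p = 0
      · obtain ⟨p, hp, hxp⟩ := hx0
        have h9 : (univ.filter fun X : Fin k → α => (R k X ∧ ∀ p ∈ P,
            (if p ∈ B then x p - 1 else x p) ≤ E p k X) ∧ ∀ p ∈ B, E p k X + 1 = x p) = ∅ := by
          rw [Finset.filter_eq_empty_iff]
          rintro X - ⟨-, h⟩
          have := h p hp
          omega
        rw [h9, Finset.sum_empty, zero_mul]
        refine mul_nonneg (by positivity) (mul_nonneg (Finset.prod_nonneg fun p _ => ?_)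
          (by positivity))
        split_ifs
        · exact le_refl _
        · positivity
      · push Not at hx0
        have h10 : ∏ p ∈ B, (if x p = 0 then (0 : ℝ) else (k.choose (x p - 1) : ℝ)) =
            ∏ p ∈ B, (k.choose (x p - 1) : ℝ) :=
          Finset.prod_congr rfl fun p hp => if_neg (hx0 p hp)
        rw [h10]
        -- the exponents
        have h11 : ∏ p ∈ P, L p ^ ((x p).choose 2) =
            (∏ p ∈ B, L p ^ (x p - 1)) *
              ∏ p ∈ P, L p ^ ((if p ∈ B then x p - 1 else x p).choose 2) := by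
          rw [← Finset.prod_sdiff hB, ← Finset.prod_sdiff hB (f := fun p =>
            L p ^ ((if p ∈ B then x p - 1 else x p).choose 2))]
          have h12 : ∏ p ∈ P \ B, L p ^ ((if p ∈ B then x p - 1 else x p).choose 2) =
              ∏ p ∈ P \ B, L p ^ ((x p).choose 2) :=
            Finset.prod_congr rfl fun p hp => by rw [if_neg (Finset.mem_sdiff.1 hp).2]
          have h13 : ∏ p ∈ B, L p ^ ((if p ∈ B then x p - 1 else x p).choose 2) =
              ∏ p ∈ B, L p ^ ((x p - 1).choose 2) :=
            Finset.prod_congr rfl fun p hp => by rw [if_pos hp]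
          have h14 : ∏ p ∈ B, L p ^ ((x p).choose 2) =
              (∏ p ∈ B, L p ^ (x p - 1)) * ∏ p ∈ B, L p ^ ((x p - 1).choose 2) := by
            rw [← Finset.prod_mul_distrib]
            refine Finset.prod_congr rfl fun p hp => ?_
            rw [← pow_add]
            congr 1
            obtain ⟨t, ht⟩ : ∃ t, x p = t + 1 := ⟨x p - 1, by have := hx0 p hp; omega⟩
            rw [ht, Nat.choose_succ_succ' t 1, Nat.choose_one_right]
            simp
          rw [h12, h13, h14]
          ring
        -- the count of `y` for each `X`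
        have h15 : (∑ X ∈ (univ.filter fun X : Fin k → α => (R k X ∧ ∀ p ∈ P,
            (if p ∈ B then x p - 1 else x p) ≤ E p k X) ∧ ∀ p ∈ B, E p k X + 1 = x p),
          ((univ.filter fun y : α => R (k + 1) (Fin.snoc X y) ∧
            ∀ p ∈ B, E p (k + 1) (Fin.snoc X y) = E p k X + 1).card : ℝ)) *
            (∏ p ∈ B, L p ^ (x p - 1)) ≤
            ((univ.filter fun X : Fin k → α => R k X ∧ ∀ p ∈ P,
              (if p ∈ B then x p - 1 else x p) ≤ E p k X).card : ℝ) * Fintype.card α := by
          rw [Finset.sum_mul]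
          calc _ ≤ ∑ X ∈ (univ.filter fun X : Fin k → α => (R k X ∧ ∀ p ∈ P,
            (if p ∈ B then x p - 1 else x p) ≤ E p k X) ∧ ∀ p ∈ B, E p k X + 1 = x p),
                (Fintype.card α : ℝ) := by
                refine Finset.sum_le_sum fun X hX => ?_
                rw [Finset.mem_filter] at hX
                obtain ⟨-, ⟨hRX, -⟩, hX⟩ := hX
                have h16 := hLO k X B hRX hB
                have h17 : ∏ p ∈ B, L p ^ (x p - 1) = ∏ p ∈ B, L p ^ (E p k X) := by
                  refine Finset.prod_congr rfl fun p hp => ?_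
                  rw [← hX p hp]
                  simp
                rw [h17]
                exact h16
            _ ≤ ∑ X ∈ (univ.filter fun X : Fin k → α => R k X ∧ ∀ p ∈ P,
              (if p ∈ B then x p - 1 else x p) ≤ E p k X), (Fintype.card α : ℝ) := by
                refine Finset.sum_le_sum_of_subset_of_nonneg ?_ (fun _ _ _ => by positivity)
                intro X hX
                rw [Finset.mem_filter] at hX ⊢
                exact ⟨hX.1, hX.2.1⟩
            _ = _ := by
                rw [Finset.sum_const, nsmul_eq_mul]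
        have h18 := ih (fun p => if p ∈ B then x p - 1 else x p)
        have h19 : ∏ p ∈ P, (k.choose (if p ∈ B then x p - 1 else x p) : ℝ) =
            (∏ p ∈ B, (k.choose (x p - 1) : ℝ)) * ∏ p ∈ P \ B, (k.choose (x p) : ℝ) := by
          rw [← Finset.prod_sdiff hB, mul_comm]
          congr 1
          · exact Finset.prod_congr rfl fun p hp => by rw [if_pos hp]
          · exact Finset.prod_congr rfl fun p hp => by rw [if_neg (Finset.mem_sdiff.1 hp).2]
        rw [← h19, h11, ← mul_assoc]
        have hP0 : 0 ≤ ∏ p ∈ P, L p ^ ((if p ∈ B then x p - 1 else x p).choose 2) :=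
          Finset.prod_nonneg fun p hp => (pow_pos (hL p hp) _).le
        calc _ ≤ ((univ.filter fun X : Fin k → α => R k X ∧ ∀ p ∈ P,
              (if p ∈ B then x p - 1 else x p) ≤ E p k X).card : ℝ) * Fintype.card α *
              ∏ p ∈ P, L p ^ ((if p ∈ B then x p - 1 else x p).choose 2) :=
                mul_le_mul_of_nonneg_right h15 hP0
          _ = (((univ.filter fun X : Fin k → α => R k X ∧ ∀ p ∈ P,
              (if p ∈ B then x p - 1 else x p) ≤ E p k X).card : ℝ) *
              ∏ p ∈ P, L p ^ ((if p ∈ B then x p - 1 else x p).choose 2)) *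
                Fintype.card α := by ring
          _ ≤ ((Fintype.card α : ℝ) ^ k *
              ∏ p ∈ P, (k.choose (if p ∈ B then x p - 1 else x p) : ℝ)) * Fintype.card α :=
                mul_le_mul_of_nonneg_right h18 (Nat.cast_nonneg _)
          _ = _ := by ring
    have hPL : 0 ≤ ∏ p ∈ P, L p ^ ((x p).choose 2) :=
      Finset.prod_nonneg fun p hp => (pow_pos (hL p hp) _).le
    calc (N.card : ℝ) * ∏ p ∈ P, L p ^ ((x p).choose 2)
        ≤ (∑ B ∈ P.powerset,
        ∑ X ∈ (univ.filter fun X : Fin k → α => (R k X ∧ ∀ p ∈ P,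
            (if p ∈ B then x p - 1 else x p) ≤ E p k X) ∧ ∀ p ∈ B, E p k X + 1 = x p),
          ((univ.filter fun y : α => R (k + 1) (Fin.snoc X y) ∧
            ∀ p ∈ B, E p (k + 1) (Fin.snoc X y) = E p k X + 1).card : ℝ)) *
            ∏ p ∈ P, L p ^ ((x p).choose 2) := mul_le_mul_of_nonneg_right hfib hPL
      _ = ∑ B ∈ P.powerset, (∑ X ∈ (univ.filter fun X : Fin k → α => (R k X ∧ ∀ p ∈ P,
            (if p ∈ B then x p - 1 else x p) ≤ E p k X) ∧ ∀ p ∈ B, E p k X + 1 = x p),
          ((univ.filter fun y : α => R (k + 1) (Fin.snoc X y) ∧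
            ∀ p ∈ B, E p (k + 1) (Fin.snoc X y) = E p k X + 1).card : ℝ)) *
            ∏ p ∈ P, L p ^ ((x p).choose 2) := by rw [Finset.sum_mul]
      _ ≤ ∑ B ∈ P.powerset, (Fintype.card α : ℝ) ^ (k + 1) *
          ((∏ p ∈ B, (if x p = 0 then (0 : ℝ) else (k.choose (x p - 1) : ℝ))) *
            ∏ p ∈ P \ B, (k.choose (x p) : ℝ)) := Finset.sum_le_sum hterm
      _ = (Fintype.card α : ℝ) ^ (k + 1) * ∏ p ∈ P,
          ((if x p = 0 then (0 : ℝ) else (k.choose (x p - 1) : ℝ)) + (k.choose (x p) : ℝ)) := by
            rw [Finset.prod_add, Finset.mul_sum]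
      _ = _ := by
            congr 1
            refine Finset.prod_congr rfl fun p _ => ?_
            by_cases hxp : x p = 0
            · rw [if_pos hxp, hxp]; simp
            · obtain ⟨t, ht⟩ : ∃ t, x p = t + 1 := ⟨x p - 1, by omega⟩
              rw [if_neg hxp, ht, Nat.choose_succ_succ' k t]
              push_cast
              simp

end abstract_form

end Vale.Agent.P160.Half.Prof629
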