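import Vale.Agent.P160.Half.LOMinOne
import Vale.Agent.P160.Half.Prof61

/-!
# P160: the profile bound with the minor Littlewood-Offord inequality of exponent one
-/

namespace Vale.Agent.P160.Half.Prof61

set_option linter.unusedSectionVars false

open Finset Matrix

variable {ι : Type*} [Fintype ι] [DecidableEq ι]

theorem loHyp_one (hι : 2 ≤ Fintype.card ι) : LOHyp ι (Real.log 2 / Real.log (Fintype.card ι)) := by
  classical
  intro j w B hB e he
  have hY : ∀ i l, |(mat w) i l| ≤ 1 := by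
    intro i l
    show |(if (w l).1 i then (1 : ℤ) else 0) - (if (w l).2 i then 1 else 0)| ≤ 1
    split_ifs <;> simp
  obtain ⟨d, -, hd, -, hcount⟩ := LOMinOne.lo_min_one (mat w) hY B hB e he
  have hc := hcount (fun _ _ => 0)
  have hcard : Nat.card {x : (ι → Bool) × (ι → Bool) // ∀ p ∈ B, ∀ u : ι → ZMod p,
      u ᵥ* (mat w).map (Int.cast : ℤ → ZMod p) = 0 →
        ∑ i, u i * ((col x i : ℤ) : ZMod p) = 0} =
      ((univ : Finset ((ι → Bool) × (ι → Bool))).filter
          (fun x : (ι → Bool) × (ι → Bool) => ∀ p ∈ B, ∀ u : ι → ZMod p,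
          u ᵥ* (mat w).map (Int.cast : ℤ → ZMod p) = 0 →
            ∑ i, (if x.1 i then u i else 0) - ∑ i, (if x.2 i then u i else 0) = 0)).card := by
    rw [Nat.card_eq_fintype_card, Fintype.card_subtype]
    congr 1
    refine Finset.filter_congr fun x _ => forall_congr' fun p => forall_congr' fun _ =>
      forall_congr' fun u => forall_congr' fun _ => ?_
    have : ∑ i, u i * ((col x i : ℤ) : ZMod p) =
        ∑ i, (if x.1 i then u i else 0) - ∑ i, (if x.2 i then u i else 0) := by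
      rw [← Finset.sum_sub_distrib]
      refine Finset.sum_congr rfl fun i _ => ?_
      by_cases h1 : x.1 i <;> by_cases h2 : x.2 i <;> simp [col, h1, h2]
    rw [this]
  rw [hcard]
  have ha : (1 : ℝ) < Fintype.card ι := by exact_mod_cast (by omega : 1 < Fintype.card ι)
  have hla : 0 < Real.log (Fintype.card ι) := Real.log_pos ha
  set θ := Real.log 2 / Real.log (Fintype.card ι) with hθ
  have hθ0 : 0 < θ := div_pos (Real.log_pos (by norm_num)) hla
  -- `∏ p ^ (- θ e_p) ≥ 2 ^ (- d)`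
  have hP : (∏ p ∈ B, (p : ℝ) ^ (-(θ * e p))) = (∏ p ∈ B, (p : ℝ) ^ e p) ^ (-θ) := by
    rw [← Real.finsetProd_rpow _ _ (fun p _ => by positivity)]
    refine Finset.prod_congr rfl fun p _ => ?_
    rw [← Real.rpow_natCast, ← Real.rpow_mul (by positivity)]
    congr 1
    ring
  have hpos : (0 : ℝ) < ∏ p ∈ B, (p : ℝ) ^ e p :=
    Finset.prod_pos fun p hp => pow_pos (by exact_mod_cast (hB p hp).pos) _
  have hd' : (∏ p ∈ B, (p : ℝ) ^ e p) ≤ (Fintype.card ι : ℝ) ^ d := by exact_mod_cast hd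
  have h2 : ((2 : ℝ) ^ d)⁻¹ ≤ (∏ p ∈ B, (p : ℝ) ^ e p) ^ (-θ) := by
    rw [Real.rpow_neg hpos.le]
    refine inv_anti₀ (Real.rpow_pos_of_pos hpos _) ?_
    calc (∏ p ∈ B, (p : ℝ) ^ e p) ^ θ ≤ ((Fintype.card ι : ℝ) ^ d) ^ θ :=
          Real.rpow_le_rpow hpos.le hd' hθ0.le
      _ = (2 : ℝ) ^ d := by
          rw [← Real.rpow_natCast, ← Real.rpow_mul (by positivity), mul_comm (d : ℝ) θ,
            Real.rpow_mul (by positivity), Real.rpow_natCast]
          congr 1
          rw [Real.rpow_def_of_pos (by linarith), hθ, mul_div_cancel₀ _ hla.ne',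
            Real.exp_log (by norm_num)]
  rw [hP]
  have h3 : (((univ : Finset ((ι → Bool) × (ι → Bool))).filter
          (fun x : (ι → Bool) × (ι → Bool) => ∀ p ∈ B, ∀ u : ι → ZMod p,
          u ᵥ* (mat w).map (Int.cast : ℤ → ZMod p) = 0 →
            ∑ i, (if x.1 i then u i else 0) - ∑ i, (if x.2 i then u i else 0) = 0)).card : ℝ)
              * 2 ^ d ≤ 4 ^ Fintype.card ι := by
    exact_mod_cast hc
  calc _ ≤ ((2 : ℝ) ^ d)⁻¹ * 4 ^ Fintype.card ι := by
        rw [inv_mul_eq_div, le_div_iff₀ (by positivity)]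
        exact h3
    _ ≤ _ := mul_le_mul_of_nonneg_right h2 (by positivity)

open scoped Classical in
/-- **The profile bound, exponent one** (`θ = log 2 / log a = 1 / log2 a`): for `a = |ι| ≥ 2` rows
and `n` columns with i.i.d. entries of law `(1/4, 1/2, 1/4)` on `{-1, 0, 1}` -/
theorem card_profile_one_le (hι : 2 ≤ Fintype.card ι) (n : ℕ) (S : Finset ℕ)
    (hS : ∀ p ∈ S, p.Prime) (e : ℕ → ℕ) :
    (((univ : Finset (Fin n → (ι → Bool) × (ι → Bool))).filter
      (fun w => ∀ p ∈ S, ((mat w).map (Int.cast : ℤ → ZMod p)).rank + e p ≤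
        ((mat w).map (Int.cast : ℤ → ℚ)).rank)).card : ℝ) ≤
      (∏ p ∈ S, ((n : ℝ) ^ e p * (p : ℝ) ^ (-(Real.log 2 / Real.log (Fintype.card ι) *
        (e p * (e p - 1) / 2 : ℝ))))) * 4 ^ (Fintype.card ι * n) :=
  card_profile_le (loHyp_one hι) S hS e

end Vale.Agent.P160.Half.Prof61
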