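import Vale.Agent.P160.Half.Prof629
import Vale.Agent.P160.Half.LOMin

/-!
# P160: the profile bound for random integer matrices, columns exposed one by one

`Om` a finite sample space, `e : Om → ℤ`, `X : Fin k → ι → Om` (columns), `mt e X` the integer
matrix.  `rkF F e X` is its rank over the field `F`.  Excess at `p`: `rank_ℚ - rank_{F_p}`.
* `profile_rk`: from a Littlewood-Offord input `(L p)`;
* `profile_lazy`: entries `β - β'` (`Om = Bool × Bool`), with the minor Littlewood-Offord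
  inequality `LOMin.lo_min`: `L p = p ^ (2 log 2 / (3 log card ι))`.
-/

set_option linter.unusedSectionVars false

namespace Vale.Agent.P160.Half.Prof629

open Finset Matrix Module

section fieldrank

variable {F : Type*} [Field F] {V : Type*} [AddCommGroup V] [Module F V] [Module.Finite F V]

theorem span_snoc {j : ℕ} (v : Fin j → V) (w : V) :
    Submodule.span F (Set.range (Fin.snoc v w : Fin (j + 1) → V)) =
      Submodule.span F {w} ⊔ Submodule.span F (Set.range v) := by
  rw [Fin.range_snoc, Submodule.span_insert]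

theorem fr_snoc_le {j : ℕ} (v : Fin j → V) (w : V) :
    finrank F (Submodule.span F (Set.range (Fin.snoc v w : Fin (j + 1) → V))) ≤
      finrank F (Submodule.span F (Set.range v)) + 1 := by
  rw [span_snoc]
  refine (Submodule.finrank_add_le_finrank_add_finrank _ _).trans ?_
  have h : finrank F (Submodule.span F ({w} : Set V)) ≤ 1 := by
    refine (finrank_span_le_card (R := F) ({w} : Set V)).trans ?_
    simp
  omega

theorem le_fr_snoc {j : ℕ} (v : Fin j → V) (w : V) :
    finrank F (Submodule.span F (Set.range v)) ≤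
      finrank F (Submodule.span F (Set.range (Fin.snoc v w : Fin (j + 1) → V))) := by
  rw [span_snoc]
  exact Submodule.finrank_mono le_sup_right

theorem mem_of_fr_snoc {j : ℕ} (v : Fin j → V) (w : V)
    (h : finrank F (Submodule.span F (Set.range (Fin.snoc v w : Fin (j + 1) → V))) =
      finrank F (Submodule.span F (Set.range v))) :
    w ∈ Submodule.span F (Set.range v) := by
  rw [span_snoc] at h
  have h1 : Submodule.span F (Set.range v) = Submodule.span F {w} ⊔ Submodule.span F (Set.range v) :=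
    Submodule.eq_of_le_of_finrank_eq le_sup_right h.symm
  rw [h1]
  exact Submodule.mem_sup_left (Submodule.mem_span_singleton_self w)

end fieldrank

section mats

variable {ι : Type*} [Fintype ι] [DecidableEq ι] {Om : Type*}

/-- the integer matrix with columns `X` -/
def mt (e : Om → ℤ) {j : ℕ} (X : Fin j → ι → Om) : Matrix ι (Fin j) ℤ :=
  Matrix.of fun i l => e (X l i)

/-- the rank over a field -/
noncomputable def rkF (F : Type*) [CommRing F] (e : Om → ℤ) {j : ℕ} (X : Fin j → ι → Om) : ℕ :=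
  ((mt e X).map (Int.cast : ℤ → F)).rank

/-- the columns over a field -/
def cl (F : Type*) [Field F] (e : Om → ℤ) {j : ℕ} (X : Fin j → ι → Om) : Fin j → ι → F :=
  fun l i => ((e (X l i) : ℤ) : F)

omit [DecidableEq ι] in
theorem rkF_eq (F : Type*) [Field F] (e : Om → ℤ) {j : ℕ} (X : Fin j → ι → Om) :
    rkF F e X = finrank F (Submodule.span F (Set.range (cl F e X))) := by
  rw [rkF, rank_eq_finrank_span_cols]
  rfl

omit [Fintype ι] [DecidableEq ι] in
theorem cl_snoc (F : Type*) [Field F] (e : Om → ℤ) {j : ℕ} (X : Fin j → ι → Om) (y : ι → Om) :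
    cl F e (Fin.snoc X y : Fin (j + 1) → ι → Om) =
      Fin.snoc (cl F e X) (fun i => ((e (y i) : ℤ) : F)) := by
  funext l
  refine Fin.lastCases ?_ (fun l => ?_) l
  · rw [Fin.snoc_last]
    funext i
    rw [cl, Fin.snoc_last]
  · rw [Fin.snoc_castSucc]
    funext i
    rw [cl, cl, Fin.snoc_castSucc]

omit [DecidableEq ι] in
theorem rkF_snoc_le (F : Type*) [Field F] (e : Om → ℤ) {j : ℕ} (X : Fin j → ι → Om)
    (y : ι → Om) : rkF F e (Fin.snoc X y : Fin (j + 1) → ι → Om) ≤ rkF F e X + 1 := by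
  rw [rkF_eq, rkF_eq, cl_snoc]
  exact fr_snoc_le _ _

omit [DecidableEq ι] in
theorem le_rkF_snoc (F : Type*) [Field F] (e : Om → ℤ) {j : ℕ} (X : Fin j → ι → Om)
    (y : ι → Om) : rkF F e X ≤ rkF F e (Fin.snoc X y : Fin (j + 1) → ι → Om) := by
  rw [rkF_eq, rkF_eq, cl_snoc]
  exact le_fr_snoc _ _

omit [DecidableEq ι] in
/-- if the rank does not grow, the new column is orthogonal to the left kernel -/
theorem orth_of_rkF_snoc (F : Type*) [Field F] (e : Om → ℤ) {j : ℕ} (X : Fin j → ι → Om)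
    (y : ι → Om) (h : rkF F e (Fin.snoc X y : Fin (j + 1) → ι → Om) = rkF F e X)
    (u : ι → F) (hu : u ᵥ* (mt e X).map (Int.cast : ℤ → F) = 0) :
    ∑ i, u i * ((e (y i) : ℤ) : F) = 0 := by
  rw [rkF_eq, rkF_eq, cl_snoc] at h
  have h1 := mem_of_fr_snoc _ _ h
  have h2 : Submodule.span F (Set.range (cl F e X)) ≤
      LinearMap.ker (∑ i, u i • (LinearMap.proj i : (ι → F) →ₗ[F] F)) := by
    rw [Submodule.span_le]
    rintro _ ⟨l, rfl⟩
    rw [SetLike.mem_coe, LinearMap.mem_ker]
    have h3 := congrFun hu l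
    simp only [Matrix.vecMul, dotProduct, Matrix.map_apply, mt, Matrix.of_apply,
      Pi.zero_apply] at h3
    simp only [LinearMap.coe_sum, LinearMap.coe_smul, Finset.sum_apply, Pi.smul_apply,
      LinearMap.coe_proj, Function.eval, smul_eq_mul, cl]
    exact h3
  have h4 := h2 h1
  rw [LinearMap.mem_ker] at h4
  simpa only [LinearMap.coe_sum, LinearMap.coe_smul, Finset.sum_apply, Pi.smul_apply,
      LinearMap.coe_proj, Function.eval, smul_eq_mul] using h4

/-- the rank modulo a prime is at most the rational rank -/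
theorem rank_map_le {m n : Type*} [Fintype m] [Fintype n] [DecidableEq m] [DecidableEq n]
    {p : ℕ} [Fact p.Prime] (Y : Matrix m n ℤ) :
    (Y.map (Int.cast : ℤ → ZMod p)).rank ≤ (Y.map (Int.cast : ℤ → ℚ)).rank := by
  obtain ⟨r, f, g, hr, hdet⟩ := LOMin.exists_minor (Y.map (Int.cast : ℤ → ZMod p))
  have h1 : ((Y.map (Int.cast : ℤ → ZMod p)).submatrix f g).det =
      (((Y.submatrix f g).det : ℤ) : ZMod p) := by
    have := (Int.castRingHom (ZMod p)).map_det (Y.submatrix f g)
    rw [eq_intCast] at this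
    rw [this]
    rfl
  have h2 : (Y.submatrix f g).det ≠ 0 := by
    intro h0
    rw [h1, h0, Int.cast_zero] at hdet
    exact hdet rfl
  have h3 : ((Y.map (Int.cast : ℤ → ℚ)).submatrix f g).det ≠ 0 := by
    have h4 : ((Y.map (Int.cast : ℤ → ℚ)).submatrix f g).det =
        (((Y.submatrix f g).det : ℤ) : ℚ) := by
      have := (Int.castRingHom ℚ).map_det (Y.submatrix f g)
      rw [eq_intCast] at this
      rw [this]
      rfl
    rw [h4]
    exact_mod_cast h2
  have h5 : ((Y.map (Int.cast : ℤ → ℚ)).submatrix f g).rank = r := by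
    rw [Matrix.rank_of_isUnit _ ((Matrix.isUnit_iff_isUnit_det _).2 (isUnit_iff_ne_zero.2 h3)),
      Fintype.card_fin]
  rw [← hr, ← h5]
  exact Matrix.rank_submatrix_le _ _ _

open scoped Classical in
/-- **Profile bound** for integer matrices with independent columns. -/
theorem profile_rk [Fintype Om] (e : Om → ℤ) (P : Finset ℕ) (hP : ∀ p ∈ P, p.Prime)
    (L : ℕ → ℝ) (hL : ∀ p ∈ P, 0 < L p)
    (R : (j : ℕ) → (Fin j → ι → Om) → Prop)
    (hR : ∀ j (X : Fin j → ι → Om) (y : ι → Om), R (j + 1) (Fin.snoc X y) → R j X)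
    (hLO : ∀ j (X : Fin j → ι → Om) (B : Finset ℕ), R j X → B ⊆ P →
      ((univ.filter fun y : ι → Om => ∀ p ∈ B, ∀ u : ι → ZMod p,
        u ᵥ* (mt e X).map (Int.cast : ℤ → ZMod p) = 0 → ∑ i, u i * ((e (y i) : ℤ) : ZMod p) = 0).card : ℝ) *
        ∏ p ∈ B, L p ^ (rkF ℚ e X - rkF (ZMod p) e X) ≤ Fintype.card (ι → Om))
    (k : ℕ) (x : ℕ → ℕ) :
      ((univ.filter fun X : Fin k → ι → Om => R k X ∧
          ∀ p ∈ P, x p + rkF (ZMod p) e X ≤ rkF ℚ e X).card : ℝ) *
        ∏ p ∈ P, L p ^ ((x p).choose 2) ≤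
      (Fintype.card (ι → Om) : ℝ) ^ k * ∏ p ∈ P, (k.choose (x p) : ℝ) := by
  have h := profile (α := ι → Om) P (fun p j X => rkF ℚ e X - rkF (ZMod p) e X) L hL R hR ?_ ?_ ?_ k x
  · refine le_trans (le_of_eq ?_) h
    congr 3
    ext X
    rw [Finset.mem_filter, Finset.mem_filter]
    constructor
    · rintro ⟨h1, h2, h3⟩
      exact ⟨h1, h2, fun p hp => by have := h3 p hp; omega⟩
    · rintro ⟨h1, h2, h3⟩
      refine ⟨h1, h2, fun p hp => ?_⟩
      have h4 := h3 p hp
      have : Fact p.Prime := ⟨hP p hp⟩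
      have h5 : rkF (ZMod p) e X ≤ rkF ℚ e X := rank_map_le (p := p) (mt e X)
      omega
  · intro p hp X
    have h1 : rkF ℚ e X = 0 := by
      rw [rkF_eq, Set.range_eq_empty, Submodule.span_empty, finrank_bot]
    rw [h1, Nat.zero_sub]
  · intro p hp j X y
    have : Fact p.Prime := ⟨hP p hp⟩
    have h1 := rkF_snoc_le ℚ e X y
    have h2 := le_rkF_snoc (ZMod p) e X y
    omega
  · intro j X B hRX hB
    refine le_trans ?_ (hLO j X B hRX hB)
    refine mul_le_mul_of_nonneg_right ?_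
      (Finset.prod_nonneg fun p hp => (pow_pos (hL p (hB hp)) _).le)
    refine Nat.cast_le.2 (Finset.card_le_card fun y hy => ?_)
    rw [Finset.mem_filter] at hy ⊢
    refine ⟨mem_univ _, fun p hp u hu => ?_⟩
    obtain ⟨-, -, hy⟩ := hy
    have h3 := hy p hp
    have : Fact p.Prime := ⟨hP p (hB hp)⟩
    have h1 := rkF_snoc_le ℚ e X y
    have h2 := le_rkF_snoc (ZMod p) e X y
    have h4 : rkF (ZMod p) e X ≤ rkF ℚ e X := rank_map_le (p := p) (mt e X)
    exact orth_of_rkF_snoc (ZMod p) e X y (by omega) u hu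

/-! ### the lazy law -/

/-- value of a pair of bits -/
def lz (w : Bool × Bool) : ℤ := (if w.1 then 1 else 0) - (if w.2 then 1 else 0)

theorem lz_le (w : Bool × Bool) : |lz w| ≤ 1 := by
  rcases w with ⟨_ | _, _ | _⟩ <;> simp [lz]

theorem lz_mul {R : Type*} [CommRing R] (w : Bool × Bool) (c : R) :
    c * ((lz w : ℤ) : R) = (if w.1 then c else 0) - (if w.2 then c else 0) := by
  rcases w with ⟨_ | _, _ | _⟩ <;> simp [lz]

open scoped Classical in
/-- Littlewood-Offord for the lazy column, from `LOMin.lo_min`, form with `L`. -/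
theorem lo_lazy (hι : 2 ≤ Fintype.card ι) {j : ℕ} (X : Fin j → ι → Bool × Bool) (B : Finset ℕ)
    (hB : ∀ p ∈ B, p.Prime) (e : ℕ → ℕ)
    (he : ∀ p ∈ B, rkF (ZMod p) lz X + e p ≤ rkF ℚ lz X) :
    ((univ.filter fun y : ι → Bool × Bool => ∀ p ∈ B, ∀ u : ι → ZMod p,
        u ᵥ* (mt lz X).map (Int.cast : ℤ → ZMod p) = 0 →
          ∑ i, u i * ((lz (y i) : ℤ) : ZMod p) = 0).card : ℝ) *
      ∏ p ∈ B, ((p : ℝ) ^ (2 * Real.log 2 / (3 * Real.log (Fintype.card ι)))) ^ (e p) ≤
      Fintype.card (ι → Bool × Bool) := by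
  obtain ⟨d, -, hd, -, h2⟩ := LOMin.lo_min (mt lz X) (fun i l => lz_le _) B hB e he
  have h3 := h2 (fun _ _ => 0)
  -- the count
  have h4 : (univ.filter fun y : ι → Bool × Bool => ∀ p ∈ B, ∀ u : ι → ZMod p,
        u ᵥ* (mt lz X).map (Int.cast : ℤ → ZMod p) = 0 →
          ∑ i, u i * ((lz (y i) : ℤ) : ZMod p) = 0).card ≤
      ((univ : Finset ((ι → Bool) × (ι → Bool))).filter
          (fun x : (ι → Bool) × (ι → Bool) => ∀ p ∈ B, ∀ u : ι → ZMod p,
          u ᵥ* (mt lz X).map (Int.cast : ℤ → ZMod p) = 0 →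
            ∑ i, (if x.1 i then u i else 0) - ∑ i, (if x.2 i then u i else 0) =
              (fun _ _ => 0 : (p : ℕ) → (ι → ZMod p) → ZMod p) p u)).card := by
    refine Finset.card_le_card_of_injOn (fun y => (fun i => (y i).1, fun i => (y i).2)) ?_ ?_
    · intro y hy
      rw [Finset.mem_coe, Finset.mem_filter] at hy ⊢
      refine ⟨mem_univ _, fun p hp u hu => ?_⟩
      have h5 := hy.2 p hp u hu
      refine Eq.trans ?_ h5
      dsimp only
      rw [← Finset.sum_sub_distrib]
      refine Finset.sum_congr rfl fun i _ => ?_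
      exact (lz_mul (y i) (u i)).symm
    · intro y _ y' _ h
      simp only [Prod.mk.injEq] at h
      funext i
      exact Prod.ext (congrFun h.1 i) (congrFun h.2 i)
  set N : ℕ := (univ.filter fun y : ι → Bool × Bool => ∀ p ∈ B, ∀ u : ι → ZMod p,
        u ᵥ* (mt lz X).map (Int.cast : ℤ → ZMod p) = 0 →
          ∑ i, u i * ((lz (y i) : ℤ) : ZMod p) = 0).card with hN
  have h6 : N * 2 ^ d ≤ 4 ^ Fintype.card ι := (Nat.mul_le_mul_right _ h4).trans h3
  have hcard : (Fintype.card (ι → Bool × Bool) : ℝ) = 4 ^ Fintype.card ι := by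
    rw [Fintype.card_fun, Fintype.card_prod, Fintype.card_bool]
    push_cast
    norm_num
  rw [hcard]
  set a : ℕ := Fintype.card ι with ha
  have ha1 : (1 : ℝ) < a := by exact_mod_cast (by omega : 1 < a)
  have hlog : 0 < Real.log a := Real.log_pos ha1
  set θ : ℝ := 2 * Real.log 2 / (3 * Real.log a) with hθ
  have hθ0 : 0 ≤ θ := by positivity
  have h7 : ∏ p ∈ B, ((p : ℝ) ^ θ) ^ (e p) = ((∏ p ∈ B, p ^ e p : ℕ) : ℝ) ^ θ := by
    push_cast
    rw [← Real.finsetProd_rpow _ _ (fun p _ => by positivity)]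
    refine Finset.prod_congr rfl fun p _ => ?_
    rw [← Real.rpow_natCast, ← Real.rpow_mul (Nat.cast_nonneg p), mul_comm θ,
      Real.rpow_mul (Nat.cast_nonneg p), Real.rpow_natCast]
  have h8 : ((∏ p ∈ B, p ^ e p : ℕ) : ℝ) ^ θ ≤ 2 ^ d := by
    set Q : ℝ := ((∏ p ∈ B, p ^ e p : ℕ) : ℝ) with hQ
    have hQ0 : 0 ≤ Q := Nat.cast_nonneg _
    have h9 : Q ^ 2 ≤ (a : ℝ) ^ (3 * d) := by rw [hQ]; exact_mod_cast hd
    have h10 : (Q ^ 2) ^ (θ / 2) ≤ ((a : ℝ) ^ (3 * d)) ^ (θ / 2) :=
      Real.rpow_le_rpow (by positivity) h9 (by positivity)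
    have h11 : (Q ^ 2) ^ (θ / 2) = Q ^ θ := by
      rw [← Real.rpow_natCast, ← Real.rpow_mul hQ0]
      congr 1
      push_cast
      ring
    have h12 : ((a : ℝ) ^ (3 * d)) ^ (θ / 2) = 2 ^ d := by
      rw [← Real.rpow_natCast, ← Real.rpow_mul (by positivity)]
      have h13 : (a : ℝ) = Real.exp (Real.log a) := (Real.exp_log (by positivity)).symm
      rw [h13, ← Real.exp_mul]
      have h14 : (2 : ℝ) ^ d = Real.exp (d * Real.log 2) := by
        rw [Real.exp_nat_mul, Real.exp_log (by norm_num)]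
      rw [h14]
      congr 1
      rw [hθ]
      push_cast
      field_simp
    rw [← h11, ← h12]
    exact h10
  rw [h7]
  calc (N : ℝ) * ((∏ p ∈ B, p ^ e p : ℕ) : ℝ) ^ θ ≤ N * 2 ^ d :=
        mul_le_mul_of_nonneg_left h8 (Nat.cast_nonneg _)
    _ ≤ 4 ^ a := by exact_mod_cast h6

open scoped Classical in
/-- **Profile bound for the lazy law**, `lam = 2/3`. -/
theorem profile_lazy (hι : 2 ≤ Fintype.card ι) (P : Finset ℕ) (hP : ∀ p ∈ P, p.Prime) (k : ℕ)
    (x : ℕ → ℕ) :
    ((univ.filter fun X : Fin k → ι → Bool × Bool =>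
          ∀ p ∈ P, x p + rkF (ZMod p) lz X ≤ rkF ℚ lz X).card : ℝ) *
        ∏ p ∈ P, ((p : ℝ) ^ (2 * Real.log 2 / (3 * Real.log (Fintype.card ι)))) ^
          ((x p).choose 2) ≤
      ((4 : ℝ) ^ Fintype.card ι) ^ k * ∏ p ∈ P, (k.choose (x p) : ℝ) := by
  have h := profile_rk (ι := ι) lz P hP
    (fun p => (p : ℝ) ^ (2 * Real.log 2 / (3 * Real.log (Fintype.card ι))))
    (fun p hp => Real.rpow_pos_of_pos (by exact_mod_cast (hP p hp).pos) _)
    (fun _ _ => True) (fun _ _ _ _ => trivial) (fun j X B _ hB => ?_) k x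
  · have hcard : (Fintype.card (ι → Bool × Bool) : ℝ) = 4 ^ Fintype.card ι := by
      rw [Fintype.card_fun, Fintype.card_prod, Fintype.card_bool]
      push_cast
      norm_num
    rw [hcard] at h
    simpa only [true_and] using h
  · refine lo_lazy hι X B (fun p hp => hP p (hB hp)) _ fun p hp => ?_
    have : Fact p.Prime := ⟨hP p (hB hp)⟩
    have h5 : rkF (ZMod p) lz X ≤ rkF ℚ lz X := rank_map_le (p := p) (mt lz X)
    omega

end mats

end Vale.Agent.P160.Half.Prof629
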