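import Vale.Agent.P160.Half.LOMin1

/-!
# P160-HALF, block (M): the profile bound

Integer columns `col (w 0), ..., col (w (j-1))` of height `a`, the `w l` independent and uniform
on a finite set `Om`.  If one new column lies in the column space modulo `p` for all `p` in `D`
with probability at most `∏_{p ∈ D} W p ^ (-e p)` whenever `rank_p + e p ≤ rank_ℚ` for `p ∈ D`,
then the probability that `rank_p + e p ≤ rank_ℚ` for all `p` in `PP` is at most
`j ^ (∑ e p) * ∏ W p ^ (- e p (e p - 1) / 2)`.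
-/

namespace Vale.Agent.P160.Half.Prof427

open Finset Matrix

/-- the matrix with the columns `col (w l)` -/
def mt {Om : Type*} {a : ℕ} (col : Om → Fin a → ℤ) {j : ℕ} (w : Fin j → Om) :
    Matrix (Fin a) (Fin j) ℤ :=
  Matrix.of fun i l => col (w l) i

/-- the rank over `F` of an integer matrix -/
noncomputable def rk (F : Type*) [CommRing F] {a j : ℕ} (Y : Matrix (Fin a) (Fin j) ℤ) : ℕ :=
  (Y.map (Int.cast : ℤ → F)).rank

/-! ### adding a column -/

section Cons

variable {Om : Type*} {a : ℕ} (col : Om → Fin a → ℤ) {F : Type*} [Field F]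

theorem range_cons {j : ℕ} (x : Om) (w : Fin j → Om) :
    Set.range ((mt col (Fin.cons x w : Fin (j + 1) → Om)).map (Int.cast : ℤ → F)).col =
      insert (fun i => ((col x i : ℤ) : F))
        (Set.range ((mt col w).map (Int.cast : ℤ → F)).col) := by
  ext v
  constructor
  · rintro ⟨l, rfl⟩
    refine Fin.cases ?_ (fun l => ?_) l
    · left
      ext i
      simp [mt]
    · right
      refine ⟨l, ?_⟩
      ext i
      simp [mt]
  · rintro (rfl | ⟨l, rfl⟩)
    · refine ⟨0, ?_⟩
      ext i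
      simp [mt]
    · refine ⟨l.succ, ?_⟩
      ext i
      simp [mt]

theorem rk_eq {j : ℕ} (w : Fin j → Om) :
    rk F (mt col w) = Module.finrank F
      (Submodule.span F (Set.range ((mt col w).map (Int.cast : ℤ → F)).col)) := by
  unfold rk
  rw [rank_eq_finrank_span_cols]

theorem rk_le_cons {j : ℕ} (x : Om) (w : Fin j → Om) :
    rk F (mt col w) ≤ rk F (mt col (Fin.cons x w : Fin (j + 1) → Om)) := by
  rw [rk_eq, rk_eq, range_cons]
  exact Submodule.finrank_mono (Submodule.span_mono (Set.subset_insert _ _))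

theorem rk_cons_le {j : ℕ} (x : Om) (w : Fin j → Om) :
    rk F (mt col (Fin.cons x w : Fin (j + 1) → Om)) ≤ rk F (mt col w) + 1 := by
  rw [rk_eq, rk_eq, range_cons, Submodule.span_insert]
  have h1 := Submodule.finrank_add_le_finrank_add_finrank
    (Submodule.span F {(fun i => ((col x i : ℤ) : F) : Fin a → F)})
    (Submodule.span F (Set.range ((mt col w).map (Int.cast : ℤ → F)).col))
  have h2 : Module.finrank F
      (Submodule.span F {(fun i => ((col x i : ℤ) : F) : Fin a → F)}) ≤ 1 := by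
    refine (finrank_span_le_card _).trans ?_
    simp
  omega

theorem dot_eq_zero {j : ℕ} (x : Om) (w : Fin j → Om)
    (h : rk F (mt col (Fin.cons x w : Fin (j + 1) → Om)) ≤ rk F (mt col w)) (u : Fin a → F)
    (hu : u ᵥ* (mt col w).map (Int.cast : ℤ → F) = 0) :
    ∑ i, u i * ((col x i : ℤ) : F) = 0 := by
  rw [rk_eq, rk_eq, range_cons] at h
  have h1 := Submodule.eq_of_le_of_finrank_le
    (Submodule.span_mono (Set.subset_insert (fun i => ((col x i : ℤ) : F))
      (Set.range ((mt col w).map (Int.cast : ℤ → F)).col))) h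
  have h2 : (fun i => ((col x i : ℤ) : F)) ∈
      Submodule.span F (Set.range ((mt col w).map (Int.cast : ℤ → F)).col) := by
    rw [h1]
    exact Submodule.subset_span (Set.mem_insert _ _)
  have h3 : ∀ c ∈ Submodule.span F (Set.range ((mt col w).map (Int.cast : ℤ → F)).col),
      u ⬝ᵥ c = 0 := by
    intro c hc
    induction hc using Submodule.span_induction with
    | mem c hc =>
      obtain ⟨l, rfl⟩ := hc
      exact congrFun hu l
    | zero => simp
    | add c d _ _ hc hd => rw [dotProduct_add, hc, hd, add_zero]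
    | smul t c _ hc => rw [dotProduct_smul, hc, smul_zero]
  exact h3 _ h2

end Cons

/-! ### the rank modulo `p` is at most the rational rank -/

theorem rk_le_rat {a j : ℕ} (Y : Matrix (Fin a) (Fin j) ℤ) (p : ℕ) (hp : p.Prime) :
    rk (ZMod p) Y ≤ rk ℚ Y := by
  have := Fact.mk hp
  obtain ⟨r, f, g, hr, hdet⟩ := LOMin.exists_minor (Y.map (Int.cast : ℤ → ZMod p))
  have h1 : ((Y.submatrix f g).det : ℤ) ≠ 0 := by
    intro h0
    apply hdet
    have h2 : (((Y.submatrix f g).det : ℤ) : ZMod p) =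
        ((Y.map (Int.cast : ℤ → ZMod p)).submatrix f g).det :=
      (Int.castRingHom (ZMod p)).map_det (Y.submatrix f g)
    rw [← h2, h0, Int.cast_zero]
  have h3 : ((Y.map (Int.cast : ℤ → ℚ)).submatrix f g).det ≠ 0 := by
    have h2 : (((Y.submatrix f g).det : ℤ) : ℚ) =
        ((Y.map (Int.cast : ℤ → ℚ)).submatrix f g).det :=
      (Int.castRingHom ℚ).map_det (Y.submatrix f g)
    rw [← h2]
    exact_mod_cast h1
  have h4 : ((Y.map (Int.cast : ℤ → ℚ)).submatrix f g).rank = r := by
    rw [Matrix.rank_of_isUnit _ ((isUnit_iff_isUnit_det _).2 (isUnit_iff_ne_zero.2 h3)),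
      Fintype.card_fin]
  have h5 : (Y.map (Int.cast : ℤ → ℚ)).submatrix f g =
      (1 : Matrix (Fin a) (Fin a) ℚ).submatrix f id * (Y.map (Int.cast : ℤ → ℚ) *
        (1 : Matrix (Fin j) (Fin j) ℚ).submatrix id g) := by
    ext s t
    simp [Matrix.mul_apply, Matrix.one_apply]
  have h6 : ((Y.map (Int.cast : ℤ → ℚ)).submatrix f g).rank ≤ (Y.map (Int.cast : ℤ → ℚ)).rank := by
    rw [h5]
    exact (Matrix.rank_mul_le_right _ _).trans (Matrix.rank_mul_le_left _ _)
  show (Y.map (Int.cast : ℤ → ZMod p)).rank ≤ (Y.map (Int.cast : ℤ → ℚ)).rank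
  omega

/-! ### the profile bound -/

section Main

variable {Om : Type*} [Fintype Om] {a : ℕ} (col : Om → Fin a → ℤ) (PP : Finset ℕ)

open scoped Classical in
/-- columns which lie in the column space modulo every `p ∈ D` (left kernel form) -/
noncomputable def incSet {j : ℕ} (w : Fin j → Om) (D : Finset ℕ) : Finset Om :=
  univ.filter fun x => ∀ p ∈ D, ∀ u : Fin a → ZMod p,
    u ᵥ* (mt col w).map (Int.cast : ℤ → ZMod p) = 0 → ∑ i, u i * ((col x i : ℤ) : ZMod p) = 0

open scoped Classical in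
/-- tuples of columns with the profile at least `e` -/
noncomputable def profSet (j : ℕ) (e : ℕ → ℕ) : Finset (Fin j → Om) :=
  univ.filter fun w => ∀ p ∈ PP, rk (ZMod p) (mt col w) + e p ≤ rk ℚ (mt col w)

/-- the one-column hypothesis -/
def ColHyp (W : ℕ → ℝ) : Prop :=
  ∀ (j : ℕ) (w : Fin j → Om) (D : Finset ℕ) (e : ℕ → ℕ), D ⊆ PP →
    (∀ p ∈ D, rk (ZMod p) (mt col w) + e p ≤ rk ℚ (mt col w)) →
    ((incSet col w D).card : ℝ) * ∏ p ∈ D, W p ^ e p ≤ Fintype.card Om

/-- one step down at the elements of `D` -/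
def dec (e : ℕ → ℕ) (D : Finset ℕ) (p : ℕ) : ℕ := if p ∈ D then e p - 1 else e p

theorem sum_pow_dec_le (e : ℕ → ℕ) (j : ℕ) :
    ∑ D ∈ (PP.filter fun p => 1 ≤ e p).powerset, (j : ℝ) ^ (∑ p ∈ PP, dec e D p) ≤
      ((j : ℝ) + 1) ^ (∑ p ∈ PP, e p) := by
  have h1 : ∀ D ∈ (PP.filter fun p => 1 ≤ e p).powerset,
      (j : ℝ) ^ (∑ p ∈ PP, dec e D p) = (∏ p ∈ D, (j : ℝ) ^ (e p - 1)) *
        ∏ p ∈ (PP.filter fun p => 1 ≤ e p) \ D, (j : ℝ) ^ e p := by
    intro D hD
    rw [Finset.mem_powerset] at hD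
    rw [← Finset.prod_pow_eq_pow_sum]
    have h2 : ∏ p ∈ PP, (j : ℝ) ^ dec e D p =
        ∏ p ∈ PP.filter (fun p => 1 ≤ e p), (j : ℝ) ^ dec e D p := by
      symm
      refine Finset.prod_subset (Finset.filter_subset _ _) ?_
      intro p hp hp'
      have h3 : e p = 0 := by
        by_contra h0
        exact hp' (Finset.mem_filter.2 ⟨hp, by omega⟩)
      simp [dec, h3]
    rw [h2, ← Finset.prod_sdiff hD, mul_comm]
    congr 1
    · refine Finset.prod_congr rfl ?_
      intro p hp
      simp [dec, hp]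
    · refine Finset.prod_congr rfl ?_
      intro p hp
      simp [dec, (Finset.mem_sdiff.1 hp).2]
  rw [Finset.sum_congr rfl h1, ← Finset.prod_add, ← Finset.prod_pow_eq_pow_sum]
  have h4 : ∏ p ∈ PP, ((j : ℝ) + 1) ^ e p =
      ∏ p ∈ PP.filter (fun p => 1 ≤ e p), ((j : ℝ) + 1) ^ e p := by
    symm
    refine Finset.prod_subset (Finset.filter_subset _ _) ?_
    intro p hp hp'
    have h3 : e p = 0 := by
      by_contra h0
      exact hp' (Finset.mem_filter.2 ⟨hp, by omega⟩)
    simp [h3]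
  rw [h4]
  refine Finset.prod_le_prod (fun p _ => by positivity) ?_
  intro p hp
  obtain ⟨n, hn⟩ : ∃ n, e p = n + 1 := ⟨e p - 1, by have := (Finset.mem_filter.1 hp).2; omega⟩
  rw [hn, Nat.add_sub_cancel]
  have h5 : (j : ℝ) ^ n ≤ ((j : ℝ) + 1) ^ n :=
    pow_le_pow_left₀ (by positivity) (by linarith) n
  calc (j : ℝ) ^ n + (j : ℝ) ^ (n + 1) = (j : ℝ) ^ n * (j + 1) := by ring
    _ ≤ ((j : ℝ) + 1) ^ n * (j + 1) := mul_le_mul_of_nonneg_right h5 (by positivity)
    _ = ((j : ℝ) + 1) ^ (n + 1) := by ring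

/-- the last column: either it increments the excess of `p` or the excess was already there -/
theorem card_step (hPP : ∀ p ∈ PP, p.Prime) (j : ℕ) (e : ℕ → ℕ) :
    (profSet col PP (j + 1) e).card ≤
      ∑ D ∈ (PP.filter fun p => 1 ≤ e p).powerset, ∑ w ∈ profSet col PP j (dec e D),
        (incSet col w D).card := by
  classical
  have hsub : profSet col PP (j + 1) e ⊆
      (PP.filter fun p => 1 ≤ e p).powerset.biUnion fun D =>
        (profSet col PP j (dec e D)).biUnion fun w =>
          (incSet col w D).image fun x => (Fin.cons x w : Fin (j + 1) → Om) := by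
    intro w hw
    have hw' : ∀ p ∈ PP, rk (ZMod p) (mt col w) + e p ≤ rk ℚ (mt col w) :=
      (Finset.mem_filter.1 hw).2
    obtain ⟨x, v, rfl⟩ : ∃ (x : Om) (v : Fin j → Om), w = Fin.cons x v :=
      ⟨w 0, Fin.tail w, (Fin.cons_self_tail w).symm⟩
    have key : ∀ p ∈ PP, rk ℚ (mt col v) < rk (ZMod p) (mt col v) + e p → 1 ≤ e p ∧
        rk (ZMod p) (mt col v) + (e p - 1) ≤ rk ℚ (mt col v) ∧
        rk (ZMod p) (mt col (Fin.cons x v : Fin (j + 1) → Om)) ≤ rk (ZMod p) (mt col v) := by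
      intro p hp hlt
      have := Fact.mk (hPP p hp)
      have h1 := hw' p hp
      have h2 := rk_le_cons (F := ZMod p) col x v
      have h3 := rk_cons_le (F := ℚ) col x v
      have h4 := rk_le_rat (mt col v) p (hPP p hp)
      refine ⟨by omega, by omega, by omega⟩
    rw [Finset.mem_biUnion]
    refine ⟨PP.filter fun p => rk ℚ (mt col v) < rk (ZMod p) (mt col v) + e p, ?_, ?_⟩
    · rw [Finset.mem_powerset]
      intro p hp
      rw [Finset.mem_filter] at hp ⊢
      exact ⟨hp.1, (key p hp.1 hp.2).1⟩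
    · rw [Finset.mem_biUnion]
      refine ⟨v, ?_, ?_⟩
      · refine Finset.mem_filter.2 ⟨Finset.mem_univ _, ?_⟩
        intro p hp
        unfold dec
        split_ifs with h
        · exact (key p hp (Finset.mem_filter.1 h).2).2.1
        · by_contra h0
          exact h (Finset.mem_filter.2 ⟨hp, by omega⟩)
      · refine Finset.mem_image.2 ⟨x, ?_, rfl⟩
        refine Finset.mem_filter.2 ⟨Finset.mem_univ _, ?_⟩
        intro p hp u hu
        have hp' := Finset.mem_filter.1 hp
        have := Fact.mk (hPP p hp'.1)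
        exact dot_eq_zero col x v (key p hp'.1 hp'.2).2.2 u hu
  refine (Finset.card_le_card hsub).trans ?_
  refine Finset.card_biUnion_le.trans ?_
  refine Finset.sum_le_sum fun D _ => ?_
  refine Finset.card_biUnion_le.trans ?_
  exact Finset.sum_le_sum fun w _ => Finset.card_image_le

/-- **The profile bound** ((b) of note 11163). -/
theorem profile (W : ℕ → ℝ) (hPP : ∀ p ∈ PP, p.Prime) (hW : ∀ p ∈ PP, 1 ≤ W p)
    (h : ColHyp col PP W) (j : ℕ) (e : ℕ → ℕ) :
    ((profSet col PP j e).card : ℝ) * ∏ p ∈ PP, W p ^ (e p).choose 2 ≤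
      (Fintype.card Om : ℝ) ^ j * (j : ℝ) ^ (∑ p ∈ PP, e p) := by
  induction j generalizing e with
  | zero =>
    by_cases he : ∀ p ∈ PP, e p = 0
    · have h1 : ∏ p ∈ PP, W p ^ (e p).choose 2 = 1 :=
        Finset.prod_eq_one fun p hp => by rw [he p hp]; simp
      have h2 : ∑ p ∈ PP, e p = 0 := Finset.sum_eq_zero he
      have h3 : (profSet col PP 0 e).card ≤ 1 := by
        refine (Finset.card_le_univ _).trans ?_
        simp
      rw [h1, h2, mul_one, pow_zero, pow_zero, mul_one]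
      exact_mod_cast h3
    · push Not at he
      obtain ⟨p, hp, hep⟩ := he
      have h1 : profSet col PP 0 e = ∅ := by
        rw [Finset.eq_empty_iff_forall_notMem]
        intro w hw
        have h2 := (Finset.mem_filter.1 hw).2 p hp
        have h3 : rk ℚ (mt col w) ≤ 0 := Matrix.rank_le_width _
        omega
      rw [h1]
      simp only [Finset.card_empty, Nat.cast_zero, zero_mul]
      positivity
  | succ j ih =>
    have h1 : ((profSet col PP (j + 1) e).card : ℝ) ≤
        ∑ D ∈ (PP.filter fun p => 1 ≤ e p).powerset, ∑ w ∈ profSet col PP j (dec e D),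
          ((incSet col w D).card : ℝ) := by
      exact_mod_cast card_step col PP hPP j e
    have hprod : ∀ D ∈ (PP.filter fun p => 1 ≤ e p).powerset,
        ∏ p ∈ PP, W p ^ (e p).choose 2 =
          (∏ p ∈ PP, W p ^ (dec e D p).choose 2) * ∏ p ∈ D, W p ^ dec e D p := by
      intro D hD
      rw [Finset.mem_powerset] at hD
      have hD' : D ⊆ PP := hD.trans (Finset.filter_subset _ _)
      have h2 : ∏ p ∈ D, W p ^ dec e D p =
          ∏ p ∈ PP, (if p ∈ D then W p ^ dec e D p else 1) := by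
        rw [← Finset.prod_filter]
        congr 1
        ext p
        simp only [Finset.mem_filter]
        exact ⟨fun hp => ⟨hD' hp, hp⟩, fun hp => hp.2⟩
      rw [h2, ← Finset.prod_mul_distrib]
      refine Finset.prod_congr rfl fun p _ => ?_
      by_cases hp : p ∈ D
      · obtain ⟨n, hn⟩ : ∃ n, e p = n + 1 :=
          ⟨e p - 1, by have := (Finset.mem_filter.1 (hD hp)).2; omega⟩
        have h3 : dec e D p = n := by simp [dec, hp, hn]
        rw [if_pos hp, h3, hn, Nat.choose_succ_succ' n 1, Nat.choose_one_right, add_comm, pow_add]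
      · have h3 : dec e D p = e p := by simp [dec, hp]
        rw [if_neg hp, h3, mul_one]
    have hpos : ∀ e' : ℕ → ℕ, (0 : ℝ) ≤ ∏ p ∈ PP, W p ^ (e' p).choose 2 := fun e' =>
      Finset.prod_nonneg fun p hp => pow_nonneg (by linarith [hW p hp]) _
    have hterm : ∀ D ∈ (PP.filter fun p => 1 ≤ e p).powerset,
        (∑ w ∈ profSet col PP j (dec e D), ((incSet col w D).card : ℝ)) *
          ∏ p ∈ PP, W p ^ (e p).choose 2 ≤
        (Fintype.card Om : ℝ) ^ (j + 1) * (j : ℝ) ^ (∑ p ∈ PP, dec e D p) := by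
      intro D hD
      have hD' : D ⊆ PP := (Finset.mem_powerset.1 hD).trans (Finset.filter_subset _ _)
      have hDn : (0 : ℝ) ≤ ∏ p ∈ D, W p ^ dec e D p :=
        Finset.prod_nonneg fun p hp => pow_nonneg (by linarith [hW p (hD' hp)]) _
      rw [hprod D hD]
      have h2 : (∑ w ∈ profSet col PP j (dec e D), ((incSet col w D).card : ℝ)) *
          ∏ p ∈ D, W p ^ dec e D p ≤ ((profSet col PP j (dec e D)).card : ℝ) *
            Fintype.card Om := by
        rw [Finset.sum_mul, ← nsmul_eq_mul]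
        refine Finset.sum_le_card_nsmul _ _ _ ?_
        intro w hw
        exact h j w D (dec e D) hD' fun p hp => (Finset.mem_filter.1 hw).2 p (hD' hp)
      calc (∑ w ∈ profSet col PP j (dec e D), ((incSet col w D).card : ℝ)) *
            ((∏ p ∈ PP, W p ^ (dec e D p).choose 2) * ∏ p ∈ D, W p ^ dec e D p)
          = ((∑ w ∈ profSet col PP j (dec e D), ((incSet col w D).card : ℝ)) *
            ∏ p ∈ D, W p ^ dec e D p) * ∏ p ∈ PP, W p ^ (dec e D p).choose 2 := by ring
        _ ≤ (((profSet col PP j (dec e D)).card : ℝ) * Fintype.card Om) *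
            ∏ p ∈ PP, W p ^ (dec e D p).choose 2 :=
            mul_le_mul_of_nonneg_right h2 (hpos _)
        _ = (((profSet col PP j (dec e D)).card : ℝ) *
            ∏ p ∈ PP, W p ^ (dec e D p).choose 2) * Fintype.card Om := by ring
        _ ≤ ((Fintype.card Om : ℝ) ^ j * (j : ℝ) ^ (∑ p ∈ PP, dec e D p)) *
            Fintype.card Om := mul_le_mul_of_nonneg_right (ih (dec e D)) (by positivity)
        _ = (Fintype.card Om : ℝ) ^ (j + 1) * (j : ℝ) ^ (∑ p ∈ PP, dec e D p) := by ring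
    calc ((profSet col PP (j + 1) e).card : ℝ) * ∏ p ∈ PP, W p ^ (e p).choose 2
        ≤ (∑ D ∈ (PP.filter fun p => 1 ≤ e p).powerset, ∑ w ∈ profSet col PP j (dec e D),
          ((incSet col w D).card : ℝ)) * ∏ p ∈ PP, W p ^ (e p).choose 2 :=
          mul_le_mul_of_nonneg_right h1 (hpos _)
      _ ≤ ∑ D ∈ (PP.filter fun p => 1 ≤ e p).powerset,
          (Fintype.card Om : ℝ) ^ (j + 1) * (j : ℝ) ^ (∑ p ∈ PP, dec e D p) := by
          rw [Finset.sum_mul]
          exact Finset.sum_le_sum hterm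
      _ = (Fintype.card Om : ℝ) ^ (j + 1) * ∑ D ∈ (PP.filter fun p => 1 ≤ e p).powerset,
          (j : ℝ) ^ (∑ p ∈ PP, dec e D p) := by rw [Finset.mul_sum]
      _ ≤ (Fintype.card Om : ℝ) ^ (j + 1) * (((j + 1 : ℕ) : ℝ)) ^ (∑ p ∈ PP, e p) := by
          push_cast
          exact mul_le_mul_of_nonneg_left (sum_pow_dec_le PP e j) (by positivity)

end Main

/-! ### the lazy law (1/4, 1/2, 1/4) -/

section Lazy

variable {a : ℕ}

/-- the difference of two bit vectors -/
def colD (x : (Fin a → Bool) × (Fin a → Bool)) (i : Fin a) : ℤ :=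
  (if x.1 i then 1 else 0) - (if x.2 i then 1 else 0)

theorem abs_colD (x : (Fin a → Bool) × (Fin a → Bool)) (i : Fin a) : |colD x i| ≤ 1 := by
  unfold colD
  cases x.1 i <;> cases x.2 i <;> norm_num

theorem card_lazy : Fintype.card ((Fin a → Bool) × (Fin a → Bool)) = 4 ^ a := by
  rw [Fintype.card_prod, Fintype.card_fun, Fintype.card_bool, Fintype.card_fin, ← mul_pow]
  norm_num

theorem sum_colD {R : Type*} [CommRing R] (u : Fin a → R)
    (x : (Fin a → Bool) × (Fin a → Bool)) :
    ∑ i, u i * ((colD x i : ℤ) : R) =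
      ∑ i, (if x.1 i then u i else 0) - ∑ i, (if x.2 i then u i else 0) := by
  rw [← Finset.sum_sub_distrib]
  refine Finset.sum_congr rfl fun i _ => ?_
  unfold colD
  cases x.1 i <;> cases x.2 i <;> simp

/-- the one-column hypothesis for the lazy law, `W p = p ^ (log_a 2)` -/
theorem colHyp_lazy (ha : 2 ≤ a) (PP : Finset ℕ) (hPP : ∀ p ∈ PP, p.Prime) :
    ColHyp (colD (a := a)) PP fun p => (p : ℝ) ^ Real.logb a 2 := by
  classical
  intro j w D e hD he
  obtain ⟨d, -, h1, -, h3⟩ := LOMin.lo_min1 (mt (colD (a := a)) w)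
    (fun i l => abs_colD (w l) i) D (fun p hp => hPP p (hD hp)) e he
  rw [Fintype.card_fin] at h1 h3
  have h4 := h3 fun _ _ => 0
  have h5 : (incSet (colD (a := a)) w D).card * 2 ^ d ≤ 4 ^ a := by
    refine le_trans (Nat.mul_le_mul_right _ (Finset.card_le_card ?_)) h4
    intro x hx
    rw [Finset.mem_filter]
    refine ⟨Finset.mem_univ _, ?_⟩
    intro p hp u hu
    rw [← sum_colD]
    exact (Finset.mem_filter.1 hx).2 p hp u hu
  have ha1 : (1 : ℝ) < a := by exact_mod_cast ha
  have ha0 : (0 : ℝ) < a := by linarith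
  have hlog : 0 ≤ Real.logb a 2 := Real.logb_nonneg ha1 (by norm_num)
  have h6 : ∏ p ∈ D, ((p : ℝ) ^ Real.logb a 2) ^ e p ≤ 2 ^ d := by
    have h7 : ∏ p ∈ D, ((p : ℝ) ^ Real.logb a 2) ^ e p =
        (((∏ p ∈ D, p ^ e p : ℕ) : ℝ)) ^ Real.logb a 2 := by
      push_cast
      rw [← Real.finsetProd_rpow _ _ (fun p _ => by positivity)]
      refine Finset.prod_congr rfl fun p _ => ?_
      rw [← Real.rpow_natCast, ← Real.rpow_mul (Nat.cast_nonneg p), mul_comm,
        Real.rpow_mul (Nat.cast_nonneg p), Real.rpow_natCast]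
    have h8 : ((∏ p ∈ D, p ^ e p : ℕ) : ℝ) ≤ (a : ℝ) ^ d := by exact_mod_cast h1
    rw [h7]
    refine (Real.rpow_le_rpow (Nat.cast_nonneg _) h8 hlog).trans ?_
    rw [← Real.rpow_natCast, ← Real.rpow_mul ha0.le, mul_comm, Real.rpow_mul ha0.le,
      Real.rpow_logb ha0 ha1.ne' (by norm_num), Real.rpow_natCast]
  rw [card_lazy]
  calc ((incSet (colD (a := a)) w D).card : ℝ) * ∏ p ∈ D, ((p : ℝ) ^ Real.logb a 2) ^ e p
      ≤ ((incSet (colD (a := a)) w D).card : ℝ) * 2 ^ d :=
        mul_le_mul_of_nonneg_left h6 (Nat.cast_nonneg _)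
    _ ≤ ((4 ^ a : ℕ) : ℝ) := by exact_mod_cast h5

/-- **The profile bound for the lazy law**: `k` columns of height `a`, law (1/4, 1/2, 1/4). -/
theorem profile_lazy (ha : 2 ≤ a) (PP : Finset ℕ) (hPP : ∀ p ∈ PP, p.Prime) (k : ℕ)
    (e : ℕ → ℕ) :
    ((profSet (colD (a := a)) PP k e).card : ℝ) *
        ((∏ p ∈ PP, (p : ℝ) ^ (e p).choose 2) ^ Real.logb a 2) ≤
      ((4 : ℝ) ^ a) ^ k * (k : ℝ) ^ (∑ p ∈ PP, e p) := by
  have ha1 : (1 : ℝ) < a := by exact_mod_cast ha
  have hlog : 0 ≤ Real.logb a 2 := Real.logb_nonneg ha1 (by norm_num)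
  have h := profile (colD (a := a)) PP (fun p => (p : ℝ) ^ Real.logb a 2) hPP
    (fun p hp => Real.one_le_rpow (by exact_mod_cast (hPP p hp).one_lt.le) hlog)
    (colHyp_lazy ha PP hPP) k e
  have h1 : ∏ p ∈ PP, ((p : ℝ) ^ Real.logb a 2) ^ (e p).choose 2 =
      (∏ p ∈ PP, (p : ℝ) ^ (e p).choose 2) ^ Real.logb a 2 := by
    rw [← Real.finsetProd_rpow _ _ (fun p _ => by positivity)]
    refine Finset.prod_congr rfl fun p _ => ?_
    rw [← Real.rpow_natCast, ← Real.rpow_mul (Nat.cast_nonneg p), mul_comm,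
      Real.rpow_mul (Nat.cast_nonneg p), Real.rpow_natCast]
  rw [h1, card_lazy] at h
  push_cast at h
  exact h

end Lazy

end Vale.Agent.P160.Half.Prof427
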