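import Mathlib

/-!
# P160, half rate, block (M): the 4.5-th moment

`split` : a set of primes `≤ Q` splits into two parts with products equal up to a factor `Q`.
`holder45` : `∑ X ^ 2 ≤ (∑ X ^ 4 X₁) ^ (2/9) (∑ X ^ 4 X₂) ^ (2/9) |A| ^ (5/9)` for `X = X₁ X₂`.
-/

namespace Vale.Agent.P160.Half.Q45

open Finset

theorem split (P : Finset ℕ) (Q : ℝ) (hQ : 1 ≤ Q) (h : ∀ p ∈ P, 1 ≤ p ∧ (p : ℝ) ≤ Q) :
    ∃ P₁ ⊆ P, ∏ p ∈ P₁, (p : ℝ) ≤ Q * ∏ p ∈ P \ P₁, (p : ℝ) ∧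
      ∏ p ∈ P \ P₁, (p : ℝ) ≤ Q * ∏ p ∈ P₁, (p : ℝ) := by
  classical
  induction P using Finset.induction_on with
  | empty => exact ⟨∅, subset_rfl, by simpa using hQ, by simpa using hQ⟩
  | insert q S hq ih =>
    obtain ⟨P₁, hP₁, h1, h2⟩ := ih fun p hp => h p (mem_insert_of_mem hp)
    have hqS : q ∉ P₁ := fun hh => hq (hP₁ hh)
    obtain ⟨hq1, hqQ⟩ := h q (mem_insert_self _ _)
    have hq1' : (1 : ℝ) ≤ q := by exact_mod_cast hq1
    have hpos : ∀ T ⊆ S, (0 : ℝ) < ∏ p ∈ T, (p : ℝ) := fun T hT =>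
      prod_pos fun p hp => by
        have := (h p (mem_insert_of_mem (hT hp))).1
        exact_mod_cast this
    set a := ∏ p ∈ P₁, (p : ℝ) with ha
    set b := ∏ p ∈ S \ P₁, (p : ℝ) with hb
    have hapos : 0 < a := hpos _ hP₁
    have hbpos : 0 < b := hpos _ sdiff_subset
    rcases le_total a b with hab | hab
    · -- add `q` to the first part
      refine ⟨insert q P₁, insert_subset_insert _ hP₁, ?_, ?_⟩
      · have e1 : insert q S \ insert q P₁ = S \ P₁ := by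
          ext x
          simp only [mem_sdiff, mem_insert]
          constructor
          · rintro ⟨hx1 | hx1, hx2⟩
            · exact absurd (Or.inl hx1) hx2
            · exact ⟨hx1, fun hx3 => hx2 (Or.inr hx3)⟩
          · rintro ⟨hx1, hx2⟩
            refine ⟨Or.inr hx1, ?_⟩
            rintro (hx3 | hx3)
            · exact hq (hx3 ▸ hx1)
            · exact hx2 hx3
        rw [e1, prod_insert hqS, ← hb, ← ha]
        exact mul_le_mul hqQ hab hapos.le (by linarith)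
      · have e1 : insert q S \ insert q P₁ = S \ P₁ := by
          ext x
          simp only [mem_sdiff, mem_insert]
          constructor
          · rintro ⟨hx1 | hx1, hx2⟩
            · exact absurd (Or.inl hx1) hx2
            · exact ⟨hx1, fun hx3 => hx2 (Or.inr hx3)⟩
          · rintro ⟨hx1, hx2⟩
            refine ⟨Or.inr hx1, ?_⟩
            rintro (hx3 | hx3)
            · exact hq (hx3 ▸ hx1)
            · exact hx2 hx3
        rw [e1, prod_insert hqS, ← hb, ← ha]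
        calc b ≤ Q * a := h2
          _ ≤ Q * (q * a) := by
            refine mul_le_mul_of_nonneg_left ?_ (by linarith)
            nlinarith
    · refine ⟨P₁, hP₁.trans (subset_insert _ _), ?_, ?_⟩
      · have e1 : insert q S \ P₁ = insert q (S \ P₁) := insert_sdiff_of_notMem _ hqS
        have e2 : q ∉ S \ P₁ := fun hh => hq (mem_sdiff.1 hh).1
        rw [e1, prod_insert e2, ← hb, ← ha]
        calc a ≤ Q * b := h1
          _ ≤ Q * (q * b) := by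
            refine mul_le_mul_of_nonneg_left ?_ (by linarith)
            nlinarith
      · have e1 : insert q S \ P₁ = insert q (S \ P₁) := insert_sdiff_of_notMem _ hqS
        have e2 : q ∉ S \ P₁ := fun hh => hq (mem_sdiff.1 hh).1
        rw [e1, prod_insert e2, ← hb, ← ha]
        exact mul_le_mul hqQ hab hbpos.le (by linarith)

/-- the two halves have product at most `(Q N) ^ (1/2)` -/
theorem split_sq (P : Finset ℕ) (Q : ℝ) (hQ : 1 ≤ Q) (h : ∀ p ∈ P, 1 ≤ p ∧ (p : ℝ) ≤ Q) :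
    ∃ P₁ ⊆ P, (∏ p ∈ P₁, (p : ℝ)) ^ 2 ≤ Q * ∏ p ∈ P, (p : ℝ) ∧
      (∏ p ∈ P \ P₁, (p : ℝ)) ^ 2 ≤ Q * ∏ p ∈ P, (p : ℝ) := by
  classical
  obtain ⟨P₁, hP₁, h1, h2⟩ := split P Q hQ h
  have hpos : ∀ T ⊆ P, (0 : ℝ) < ∏ p ∈ T, (p : ℝ) := fun T hT =>
    prod_pos fun p hp => by
      have := (h p (hT hp)).1
      exact_mod_cast this
  have h3 : (∏ p ∈ P \ P₁, (p : ℝ)) * ∏ p ∈ P₁, (p : ℝ) = ∏ p ∈ P, (p : ℝ) :=
    prod_sdiff hP₁
  have ha := hpos _ hP₁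
  have hb := hpos (P \ P₁) sdiff_subset
  refine ⟨P₁, hP₁, ?_, ?_⟩
  · rw [← h3, sq]
    nlinarith
  · rw [← h3, sq]
    nlinarith

/-- three-term Hölder -/
theorem holder3 {Ω : Type*} (A : Finset Ω) (a b : Ω → ℝ) (ha : ∀ ω, 0 ≤ a ω) (hb : ∀ ω, 0 ≤ b ω) :
    ∑ ω ∈ A, a ω ^ (2 / 9 : ℝ) * b ω ^ (2 / 9 : ℝ) ≤
      (∑ ω ∈ A, a ω) ^ (2 / 9 : ℝ) * (∑ ω ∈ A, b ω) ^ (2 / 9 : ℝ) *
        (A.card : ℝ) ^ (5 / 9 : ℝ) := by
  classical
  set SA := ∑ ω ∈ A, a ω with hSA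
  set SB := ∑ ω ∈ A, b ω with hSB
  have hSA0 : 0 ≤ SA := sum_nonneg fun ω _ => ha ω
  have hSB0 : 0 ≤ SB := sum_nonneg fun ω _ => hb ω
  rcases hSA0.eq_or_lt with h0 | hApos
  · have : ∀ ω ∈ A, a ω = 0 := (sum_eq_zero_iff_of_nonneg fun ω _ => ha ω).1 h0.symm
    rw [← h0, Real.zero_rpow (by norm_num), zero_mul, zero_mul]
    refine le_of_eq (sum_eq_zero fun ω hω => ?_)
    rw [this ω hω, Real.zero_rpow (by norm_num), zero_mul]
  rcases hSB0.eq_or_lt with h0 | hBpos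
  · have : ∀ ω ∈ A, b ω = 0 := (sum_eq_zero_iff_of_nonneg fun ω _ => hb ω).1 h0.symm
    rw [← h0, Real.zero_rpow (by norm_num), mul_zero, zero_mul]
    refine le_of_eq (sum_eq_zero fun ω hω => ?_)
    rw [this ω hω, Real.zero_rpow (by norm_num), mul_zero]
  rcases A.eq_empty_or_nonempty with hE | hE
  · rw [hSA, hE, sum_empty] at hApos
    exact absurd hApos (lt_irrefl _)
  have hC : (0 : ℝ) < A.card := by exact_mod_cast hE.card_pos
  have key : ∀ ω ∈ A, (a ω / SA) ^ (2 / 9 : ℝ) * (b ω / SB) ^ (2 / 9 : ℝ) *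
      (1 / (A.card : ℝ)) ^ (5 / 9 : ℝ) ≤
        2 / 9 * (a ω / SA) + 2 / 9 * (b ω / SB) + 5 / 9 * (1 / (A.card : ℝ)) := by
    intro ω _
    exact Real.geom_mean_le_arith_mean3_weighted (by norm_num) (by norm_num) (by norm_num)
      (div_nonneg (ha ω) hSA0) (div_nonneg (hb ω) hSB0) (by positivity) (by norm_num)
  have hsum := sum_le_sum key
  have hr : ∑ ω ∈ A, (2 / 9 * (a ω / SA) + 2 / 9 * (b ω / SB) + 5 / 9 * (1 / (A.card : ℝ))) = 1 := by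
    rw [sum_add_distrib, sum_add_distrib, ← mul_sum, ← mul_sum, ← sum_div, ← sum_div, ← hSA, ← hSB,
      div_self hApos.ne', div_self hBpos.ne', sum_const, nsmul_eq_mul]
    field_simp
    norm_num
  rw [hr] at hsum
  have hl : ∀ ω ∈ A, (a ω / SA) ^ (2 / 9 : ℝ) * (b ω / SB) ^ (2 / 9 : ℝ) *
      (1 / (A.card : ℝ)) ^ (5 / 9 : ℝ) = (a ω ^ (2 / 9 : ℝ) * b ω ^ (2 / 9 : ℝ)) /
        (SA ^ (2 / 9 : ℝ) * SB ^ (2 / 9 : ℝ) * (A.card : ℝ) ^ (5 / 9 : ℝ)) := by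
    intro ω _
    rw [Real.div_rpow (ha ω) hSA0, Real.div_rpow (hb ω) hSB0,
      Real.div_rpow zero_le_one hC.le, Real.one_rpow]
    field_simp
  rw [sum_congr rfl hl, ← sum_div, div_le_one (by positivity)] at hsum
  exact hsum

/-- second moment from the 4.5-th moment -/
theorem holder45 {Ω : Type*} (A : Finset Ω) (X X₁ X₂ : Ω → ℝ) (h₁ : ∀ ω, 0 ≤ X₁ ω)
    (h₂ : ∀ ω, 0 ≤ X₂ ω) (hX : ∀ ω ∈ A, X ω = X₁ ω * X₂ ω) :
    ∑ ω ∈ A, X ω ^ 2 ≤ (∑ ω ∈ A, X ω ^ 4 * X₁ ω) ^ (2 / 9 : ℝ) *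
      (∑ ω ∈ A, X ω ^ 4 * X₂ ω) ^ (2 / 9 : ℝ) * (A.card : ℝ) ^ (5 / 9 : ℝ) := by
  have h := holder3 A (fun ω => X ω ^ 4 * X₁ ω) (fun ω => X ω ^ 4 * X₂ ω)
    (fun ω => mul_nonneg (by positivity) (h₁ ω)) (fun ω => mul_nonneg (by positivity) (h₂ ω))
  refine le_trans (le_of_eq (sum_congr rfl fun ω hω => ?_)) h
  have hx : 0 ≤ X ω := by rw [hX ω hω]; exact mul_nonneg (h₁ ω) (h₂ ω)
  show X ω ^ 2 = (X ω ^ 4 * X₁ ω) ^ (2 / 9 : ℝ) * (X ω ^ 4 * X₂ ω) ^ (2 / 9 : ℝ)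
  rw [← Real.mul_rpow (mul_nonneg (by positivity) (h₁ ω)) (mul_nonneg (by positivity) (h₂ ω))]
  have e : X ω ^ 4 * X₁ ω * (X ω ^ 4 * X₂ ω) = X ω ^ 9 := by
    have : X₁ ω * X₂ ω = X ω := (hX ω hω).symm
    calc X ω ^ 4 * X₁ ω * (X ω ^ 4 * X₂ ω) = X ω ^ 8 * (X₁ ω * X₂ ω) := by ring
      _ = X ω ^ 9 := by rw [this]; ring
  rw [e, ← Real.rpow_natCast (X ω) 9, ← Real.rpow_mul hx, ← Real.rpow_natCast (X ω) 2]
  norm_num

end Vale.Agent.P160.Half.Q45
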