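import Vale.Agent.P160.Half.RichAll661
import Vale.Agent.P160.Half.Fin.Top
import Vale.Agent.P160.Half.Fin.CntMain276
import Vale.Agent.P160.Half.End.Adapt116

/-! # P160, rate `2^(-3/4)`, integration (helper661). -/

namespace Vale.Agent.P160.Half.Quart661

open Filter

theorem cor1 : F.Cor1 (1 / 4) :=
  F.Top.cor1_quarter RichAll661.richSmall F.CntMain276.cnt

theorem rate :
    (∀ x : ℝ, (2 : ℝ) ^ (-(1 - 1 / 4 : ℝ)) < x → ∀ᶠ n : ℕ in atTop, Shell.q n ≤ x ^ n) ∧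
    limsup (fun n : ℕ => Shell.q n ^ (1 / (n : ℝ))) atTop ≤ (2 : ℝ) ^ (-(1 - 1 / 4 : ℝ)) :=
  Shell.lam_of_F (by norm_num) cor1

end Vale.Agent.P160.Half.Quart661
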