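import Vale.Agent.P160.Half.GStmt
import Vale.Agent.P160.Half.LOMin

/-! # P160, half rate, (RC) real conditioning: the deterministic part (helper150)

If the real vector `v` with `P v = F c` has at most `t` coordinates of absolute value `≥ h`, and there is no
sparse integral word, then `h` cannot be small (a nonzero maximal minor is an integer). -/

set_option linter.unusedVariables false
set_option linter.unusedSectionVars false

namespace Vale.Agent.P160.Half.RC150

open Finset Matrix

/-- a rational kernel vector gives an integral one -/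
theorem rat_ker {α κ : Type*} [Fintype α] [Fintype κ] [DecidableEq κ] (N : Matrix α κ ℤ)
    (hN : ∀ w : κ → ℤ, N *ᵥ w = 0 → w = 0) (w : κ → ℚ)
    (hw : N.map (Int.cast : ℤ → ℚ) *ᵥ w = 0) : w = 0 := by
  classical
  set D : ℕ := ∏ j, (w j).den with hD
  have hdvd : ∀ i, (w i).den ∣ D := fun i => Finset.dvd_prod_of_mem _ (mem_univ i)
  choose q hq using hdvd
  set z : κ → ℤ := fun i => (w i).num * q i with hz
  have hD0 : (D : ℚ) ≠ 0 := by
    have : D ≠ 0 := Finset.prod_ne_zero_iff.2 fun j _ => (w j).den_nz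
    exact_mod_cast this
  have hzw : ∀ i, (z i : ℚ) = w i * D := by
    intro i
    rw [hz]
    push_cast
    have h1 : (D : ℚ) = (w i).den * q i := by exact_mod_cast hq i
    rw [h1, ← mul_assoc, Rat.mul_den_eq_num]
  have hz0 : N *ᵥ z = 0 := by
    funext a
    have h2 := congrFun hw a
    simp only [Matrix.mulVec, dotProduct, Matrix.map_apply, Pi.zero_apply] at h2 ⊢
    have h3 : ((∑ x, N a x * z x : ℤ) : ℚ) = 0 := by
      push_cast
      calc ∑ x, (N a x : ℚ) * (z x : ℚ) = ∑ x, ((N a x : ℚ) * w x) * D := by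
            refine sum_congr rfl fun x _ => ?_
            rw [hzw]; ring
        _ = (∑ x, (N a x : ℚ) * w x) * D := by rw [sum_mul]
        _ = 0 := by rw [h2, zero_mul]
    exact_mod_cast h3
  have hz1 := hN z hz0
  funext i
  have h4 : (z i : ℚ) = 0 := by rw [hz1]; simp
  rw [hzw] at h4
  rcases mul_eq_zero.1 h4 with h | h
  · exact h
  · exact absurd h hD0

theorem full_minor {α κ : Type*} [Fintype α] [DecidableEq α] [Fintype κ] [DecidableEq κ] (N : Matrix α κ ℤ)
    (hN : ∀ w : κ → ℤ, N *ᵥ w = 0 → w = 0) :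
    ∃ (f : Fin (Fintype.card κ) → α) (g : Fin (Fintype.card κ) ≃ κ), (N.submatrix f g).det ≠ 0 := by
  classical
  set A : Matrix α κ ℚ := N.map (Int.cast : ℤ → ℚ) with hA
  have hker : ∀ w : κ → ℚ, A *ᵥ w = 0 → w = 0 := fun w hw => rat_ker N hN w hw
  have hrank : A.rank = Fintype.card κ := by
    have h1 : LinearMap.ker A.mulVecLin = ⊥ := by
      rw [LinearMap.ker_eq_bot']
      intro w hw
      exact hker w (by simpa using hw)
    have h2 := LinearMap.finrank_range_add_finrank_ker A.mulVecLin
    rw [h1, finrank_bot, add_zero, Module.finrank_fintype_fun_eq_card] at h2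
    exact h2
  obtain ⟨r, f, g, hr, hdet⟩ := LOMin.exists_minor A
  rw [hrank] at hr
  subst hr
  have hg : Function.Injective g := by
    intro i j hij
    by_contra hne
    exact hdet (Matrix.det_zero_of_column_eq hne fun k => by simp [hij])
  have hgb : Function.Bijective g := by
    rw [Fintype.bijective_iff_injective_and_card]
    exact ⟨hg, by simp⟩
  refine ⟨f, Equiv.ofBijective g hgb, ?_⟩
  intro h0
  apply hdet
  have h3 : A.submatrix f g = (N.submatrix f (Equiv.ofBijective g hgb)).map (Int.cast : ℤ → ℚ) := by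
    ext i j; simp [hA]
  rw [h3]
  have h4 := RingHom.map_det (Int.castRingHom ℚ) (N.submatrix f (Equiv.ofBijective g hgb))
  have h5 : ((N.submatrix f (Equiv.ofBijective g hgb)).map (Int.cast : ℤ → ℚ)).det =
      (((N.submatrix f (Equiv.ofBijective g hgb)).det : ℤ) : ℚ) := by
    simpa [RingHom.mapMatrix_apply] using h4.symm
  rw [h5, h0]
  simp

/-- **deterministic bound**: trivial integral kernel, entries `≤ X`, image `≤ η` -/
theorem det_bound {α κ : Type*} [Fintype α] [DecidableEq α] [Fintype κ] [DecidableEq κ] (N : Matrix α κ ℤ)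
    (hN : ∀ w : κ → ℤ, N *ᵥ w = 0 → w = 0) {X η : ℝ} (hX : 1 ≤ X) (hη : 0 ≤ η)
    (hent : ∀ i k, |(N i k : ℝ)| ≤ X) (w : κ → ℝ) (hw : ∀ i, |∑ k, (N i k : ℝ) * w k| ≤ η) (k : κ) :
    |w k| ≤ (Fintype.card κ + 1).factorial * X ^ Fintype.card κ * η := by
  classical
  have hfm := full_minor N hN
  set r := Fintype.card κ with hr
  obtain ⟨f, g, hdet⟩ := hfm
  set B : Matrix (Fin r) (Fin r) ℝ := (N.submatrix f g).map (Int.cast : ℤ → ℝ) with hB
  have hBdet : B.det = (((N.submatrix f g).det : ℤ) : ℝ) := by
    have h4 := RingHom.map_det (Int.castRingHom ℝ) (N.submatrix f g)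
    simpa [hB, RingHom.mapMatrix_apply] using h4.symm
  have h1 : 1 ≤ |B.det| := by
    rw [hBdet]
    have : (1 : ℤ) ≤ |(N.submatrix f g).det| := Int.one_le_abs hdet
    exact_mod_cast this
  set w' : Fin r → ℝ := fun i => w (g i) with hw'
  have h2 : ∀ i, (B *ᵥ w') i = ∑ k, (N (f i) k : ℝ) * w k := by
    intro i
    simp only [Matrix.mulVec, dotProduct, hB, Matrix.map_apply, Matrix.submatrix_apply, hw']
    exact g.sum_comp (fun k => (N (f i) k : ℝ) * w k)
  have h3 : B.det • w' = B.adjugate *ᵥ (B *ᵥ w') := by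
    rw [Matrix.mulVec_mulVec, Matrix.adjugate_mul, Matrix.smul_mulVec, Matrix.one_mulVec]
  have hadj : ∀ i j, |B.adjugate i j| ≤ r.factorial * X ^ r := by
    intro i j
    rw [Matrix.adjugate_apply]
    have h5 := Matrix.det_le (A := B.updateRow j (Pi.single i 1)) (abv := AbsoluteValue.abs) (x := X)
      (by
        intro a b
        by_cases ha : a = j
        · subst ha
          rw [Matrix.updateRow_self]
          by_cases hb : b = i
          · subst hb; simp; exact hX
          · rw [Pi.single_eq_of_ne hb]; simp; linarith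
        · rw [Matrix.updateRow_ne ha]
          exact hent _ _)
    simpa [nsmul_eq_mul] using h5
  have h6 : ∀ i, |B.det| * |w' i| ≤ r * (r.factorial * X ^ r * η) := by
    intro i
    have h7 := congrFun h3 i
    rw [Pi.smul_apply, smul_eq_mul] at h7
    rw [← abs_mul, h7]
    simp only [Matrix.mulVec, dotProduct]
    refine (abs_sum_le_sum_abs _ _).trans ?_
    have h8 : ∀ j ∈ (univ : Finset (Fin r)), |B.adjugate i j * ∑ x, B j x * w' x| ≤
        r.factorial * X ^ r * η := by
      intro j _
      rw [abs_mul]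
      have h9 := h2 j
      simp only [Matrix.mulVec, dotProduct] at h9
      rw [h9]
      exact mul_le_mul (hadj i j) (hw (f j)) (abs_nonneg _) (by positivity)
    refine (sum_le_card_nsmul _ _ _ h8).trans ?_
    rw [nsmul_eq_mul, card_univ, Fintype.card_fin]
  have h10 : |w k| ≤ r * (r.factorial * X ^ r * η) := by
    have h11 := h6 (g.symm k)
    have h12 : w' (g.symm k) = w k := by rw [hw']; simp
    rw [h12] at h11
    have h13 : |w k| ≤ |B.det| * |w k| := le_mul_of_one_le_left (abs_nonneg _) h1
    linarith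
  refine h10.trans ?_
  have h14 : (r : ℝ) * r.factorial ≤ ((r + 1).factorial : ℕ) := by
    rw [Nat.factorial_succ]
    push_cast
    have : (0 : ℝ) ≤ r.factorial := Nat.cast_nonneg _
    nlinarith
  have h15 : 0 ≤ X ^ r * η := by positivity
  calc (r : ℝ) * (r.factorial * X ^ r * η) = (r * r.factorial) * (X ^ r * η) := by ring
    _ ≤ ((r + 1).factorial : ℕ) * (X ^ r * η) := mul_le_mul_of_nonneg_right h14 h15
    _ = _ := by ring

/-- **(RC), sparse exception**: no sparse integral word and `P v = F c`, `|c_q| ≥ 1` for some `q`: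
if at most `t` coordinates of `v` are `≥ h` in absolute value then `h` is not small. -/
theorem sparse_exc {α β : Type*} [Fintype α] [DecidableEq α] [Fintype β] [DecidableEq β]
    (P : Matrix α α ℤ) (F : Matrix α β ℤ) {X h : ℝ} {t : ℕ} (hX : 1 ≤ X) (hh : 0 ≤ h)
    (hP : ∀ i j, |(P i j : ℝ)| ≤ X) (hF : ∀ i q, |(F i q : ℝ)| ≤ X) (hns : G.NoSparseZ P F t)
    (v : α → ℝ) (c : β → ℝ) (hv : ∀ i, ∑ j, (P i j : ℝ) * v j = ∑ q, (F i q : ℝ) * c q)
    (hcard : (univ.filter fun j => h ≤ |v j|).card ≤ t) (q : β) :
    |c q| ≤ (t + Fintype.card β + 1).factorial * X ^ (t + Fintype.card β) *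
      (Fintype.card α * (X * h)) := by
  classical
  set S := univ.filter fun j => h ≤ |v j| with hS
  let N : Matrix α (S ⊕ β) ℤ := fun i k => Sum.elim (fun j : S => P i j) (fun q => - F i q) k
  have hker : ∀ w : S ⊕ β → ℤ, N *ᵥ w = 0 → w = 0 := by
    intro w hw
    by_contra hne
    set g : α → ℤ := fun j => if hj : j ∈ S then w (Sum.inl ⟨j, hj⟩) else 0 with hg
    set c' : β → ℤ := fun q => - w (Sum.inr q) with hc'
    have hword : G.Word ℤ P F g c' := by
      unfold G.Word
      funext i
      have h1 := congrFun hw i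
      simp only [Matrix.mulVec, dotProduct, Fintype.sum_sum_type, N, Sum.elim_inl, Sum.elim_inr,
        Pi.zero_apply] at h1
      simp only [Pi.add_apply, Matrix.mulVec, dotProduct, Matrix.map_apply, Int.cast_id, Pi.zero_apply]
      have h2 : ∑ x, P i x * g x = ∑ x : S, P i x * w (Sum.inl x) := by
        rw [← Finset.sum_subset (subset_univ S) (fun x _ hx => by rw [hg]; simp only; rw [dif_neg hx, mul_zero]),
          ← Finset.sum_coe_sort]
        refine sum_congr rfl fun x _ => ?_
        rw [hg]; simp only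
        rw [dif_pos x.2]
      rw [h2]
      have h3 : ∑ x, F i x * c' x = ∑ x, - F i x * w (Sum.inr x) := by
        refine sum_congr rfl fun x _ => ?_
        rw [hc']; ring
      rw [h3]
      exact h1
    have hnz : g ≠ 0 ∨ c' ≠ 0 := by
      by_contra hcon
      push Not at hcon
      apply hne
      funext k
      rcases k with j | q
      · have h4 := congrFun hcon.1 (j : α)
        rw [hg] at h4
        simp only [Pi.zero_apply] at h4
        rw [dif_pos j.2] at h4
        exact h4
      · have h4 := congrFun hcon.2 q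
        rw [hc'] at h4
        simp only [Pi.zero_apply, neg_eq_zero] at h4
        exact h4
    have h5 := hns g c' hword hnz
    have h6 : (univ.filter fun i => g i ≠ 0).card ≤ S.card := by
      apply card_le_card
      intro i hi
      rw [mem_filter] at hi
      by_contra hiS
      apply hi.2
      rw [hg]; simp only
      rw [dif_neg hiS]
    omega
  have hent : ∀ i k, |(N i k : ℝ)| ≤ X := by
    intro i k
    rcases k with j | q
    · exact hP i j
    · simp only [N, Sum.elim_inr]
      push_cast
      rw [abs_neg]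
      exact hF i q
  have hbd : ∀ i, |∑ k, (N i k : ℝ) * (Sum.elim (fun j : S => v j) c k)| ≤ Fintype.card α * (X * h) := by
    intro i
    rw [Fintype.sum_sum_type]
    simp only [Sum.elim_inl, Sum.elim_inr, N]
    have h1 : ∑ x : S, (P i x : ℝ) * v x = ∑ x ∈ S, (P i x : ℝ) * v x :=
      Finset.sum_coe_sort S (fun x => (P i x : ℝ) * v x)
    have h2 : ∑ x, ((-F i x : ℤ) : ℝ) * c x = - ∑ x, (P i x : ℝ) * v x := by
      rw [hv i, ← sum_neg_distrib]
      refine sum_congr rfl fun x _ => ?_
      push_cast; ring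
    rw [h1, h2]
    have h3 : ∑ x ∈ S, (P i x : ℝ) * v x + -∑ x, (P i x : ℝ) * v x = - ∑ x ∈ Sᶜ, (P i x : ℝ) * v x := by
      rw [← sum_add_sum_compl S (fun x => (P i x : ℝ) * v x)]
      ring
    rw [h3, abs_neg]
    refine (abs_sum_le_sum_abs _ _).trans ?_
    have h4 : ∀ x ∈ Sᶜ, |(P i x : ℝ) * v x| ≤ X * h := by
      intro x hx
      rw [mem_compl, hS, mem_filter] at hx
      have h5 : |v x| ≤ h := by
        by_contra hcon
        exact hx ⟨mem_univ _, (not_le.1 hcon).le⟩
      rw [abs_mul]
      exact mul_le_mul (hP i x) h5 (abs_nonneg _) (by linarith)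
    refine (sum_le_card_nsmul _ _ _ h4).trans ?_
    rw [nsmul_eq_mul]
    refine mul_le_mul_of_nonneg_right ?_ (by positivity)
    exact_mod_cast card_le_univ Sᶜ
  have hfin := det_bound N hker hX (by positivity) hent (Sum.elim (fun j : S => v j) c) hbd (Sum.inr q)
  simp only [Sum.elim_inr] at hfin
  refine hfin.trans ?_
  have hcκ : Fintype.card (S ⊕ β) ≤ t + Fintype.card β := by
    rw [Fintype.card_sum, Fintype.card_coe]
    omega
  have h7 : ((Fintype.card (S ⊕ β) + 1).factorial : ℝ) ≤ ((t + Fintype.card β + 1).factorial : ℝ) := by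
    exact_mod_cast Nat.factorial_le (by omega)
  have h8 : X ^ Fintype.card (S ⊕ β) ≤ X ^ (t + Fintype.card β) := pow_le_pow_right₀ hX hcκ
  gcongr

end Vale.Agent.P160.Half.RC150
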