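import Vale.Agent.P160.Half.GStmt3
import Vale.Agent.P160.Half.RCdet150

/-! # P160, half rate, (RC) real conditioning: glue (helper116)

`rc_of : RCProb → RCStmt`, from the deterministic part `RC150.sparse_exc`. -/

set_option linter.unusedVariables false

namespace Vale.Agent.P160.Half.RCG

open Finset Matrix Vale.Agent.P160.Half Vale.Agent.P160.Half.A Vale.Agent.P160.Half.G Filter

open Classical in
/-- the event of the probabilistic half: an approximate relation `P v = F c` with at least `t₀`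
coordinates above `n ^ (-D₁)` and at least `δ n` coordinates below `n ^ (-D)` -/
noncomputable def evRC (n : ℕ) (β : Type) [Fintype β] (F : Matrix (Fin n) β ℤ) (A D₁ D δ : ℝ)
    (t₀ : ℕ) : Finset (Sym2 (Fin n) → Bool) :=
  univ.filter fun b => ∃ (v : Fin n → ℝ) (c : β → ℝ), (∀ q, |c q| ≤ 1) ∧
    (∀ i, |v i| ≤ (n : ℝ) ^ A) ∧
    (∀ i, ∑ j, (if b s(i, j) then v j else 0) = ∑ q, (F i q : ℝ) * c q) ∧
    t₀ ≤ (univ.filter fun j => (n : ℝ) ^ (-D₁) ≤ |v j|).card ∧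
    δ * n ≤ ((univ.filter fun j => |v j| < (n : ℝ) ^ (-D)).card : ℝ)

theorem mem_evRC {n : ℕ} {β : Type} [Fintype β] {F : Matrix (Fin n) β ℤ} {A D₁ D δ : ℝ}
    {t₀ : ℕ} {b : Sym2 (Fin n) → Bool} : b ∈ evRC n β F A D₁ D δ t₀ ↔
    ∃ (v : Fin n → ℝ) (c : β → ℝ), (∀ q, |c q| ≤ 1) ∧
    (∀ i, |v i| ≤ (n : ℝ) ^ A) ∧
    (∀ i, ∑ j, (if b s(i, j) then v j else 0) = ∑ q, (F i q : ℝ) * c q) ∧
    t₀ ≤ (univ.filter fun j => (n : ℝ) ^ (-D₁) ≤ |v j|).card ∧
    δ * n ≤ ((univ.filter fun j => |v j| < (n : ℝ) ^ (-D)).card : ℝ) := by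
  classical
  unfold evRC
  rw [mem_filter]
  constructor
  · rintro ⟨-, v, c, h1, h2, h3, h4, h5⟩
    exact ⟨v, c, h1, h2, h3, by convert h4, by convert h5⟩
  · rintro ⟨v, c, h1, h2, h3, h4, h5⟩
    exact ⟨mem_univ _, v, c, h1, h2, h3, by convert h4, by convert h5⟩

/-- **probabilistic half of (RC)** (helper133): `t₀` depends only on `C` and `δ` -/
def RCProb : Prop := ∀ (C δ : ℝ), 0 < δ → ∃ t₀ : ℕ, ∀ (J : ℕ) (A D₁ : ℝ), ∃ (D : ℝ) (n₀ : ℕ),
  ∀ n ≥ n₀, ∀ (β : Type) [Fintype β] [DecidableEq β], Fintype.card β ≤ J →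
  ∀ F : Matrix (Fin n) β ℤ, (∀ j q, |(F j q : ℝ)| ≤ (n : ℝ) ^ A) →
    ((evRC n β F A D₁ D δ t₀).card : ℝ) ≤
      (2 : ℝ) ^ (-(C * n)) * 2 ^ Fintype.card (Sym2 (Fin n))

theorem matZ_cast {n : ℕ} (b : Sym2 (Fin n) → Bool) (i j : Fin n) :
    ((matZ b i j : ℤ) : ℝ) = if b s(i, j) then 1 else 0 := by
  unfold matZ
  split_ifs <;> simp

/-- real form of `P g_q = F_q` -/
theorem gF_eq {n : ℕ} {β : Type} [Fintype β] [DecidableEq β] (b : Sym2 (Fin n) → Bool)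
    (hdet : (matZ b).det ≠ 0) (F : Matrix (Fin n) β ℤ) (q : β) (i : Fin n) :
    ∑ j, ((matZ b i j : ℤ) : ℝ) * ((gF (matZ b) F q j : ℚ) : ℝ) = (F i q : ℝ) := by
  have h1 : PQ (matZ b) *ᵥ gF (matZ b) F q = fun j => ((F j q : ℤ) : ℚ) := by
    unfold gF dual
    rw [Matrix.mulVec_mulVec, Matrix.mul_nonsing_inv, Matrix.one_mulVec]
    apply isUnit_iff_ne_zero.2
    have h2 := RingHom.map_det (Int.castRingHom ℚ) (matZ b)
    have h3 : (PQ (matZ b)).det = ((matZ b).det : ℚ) := by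
      simpa [PQ, RingHom.mapMatrix_apply] using h2.symm
    rw [h3]
    exact_mod_cast hdet
  have h2 := congrFun h1 i
  simp only [Matrix.mulVec, dotProduct, PQ, Matrix.map_apply] at h2
  have h3 : ((∑ j, ((matZ b i j : ℤ) : ℚ) * gF (matZ b) F q j : ℚ) : ℝ) = (F i q : ℝ) := by
    rw [h2]; push_cast; rfl
  push_cast at h3
  exact h3

theorem rc_of (h : RCProb) : RCStmt := by
  intro J A C δ hδ
  obtain ⟨t₀, ht₀⟩ := h C δ hδ
  -- enlarged exponent
  obtain ⟨A', hA'⟩ : ∃ A' : ℝ, A' = max A 0 + 1 := ⟨_, rfl⟩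
  have hA'1 : 1 ≤ A' := by rw [hA']; linarith [le_max_right A 0]
  have hAA : A ≤ A' := by rw [hA']; linarith [le_max_left A 0]
  obtain ⟨D₁, hD₁⟩ : ∃ D₁ : ℝ, D₁ = A' * (t₀ + J + 1) + 3 := ⟨_, rfl⟩
  obtain ⟨D, n₀, hn₀⟩ := ht₀ J A' D₁
  refine ⟨t₀, D, max n₀ (max (J + 2) ((t₀ + J + 1).factorial + 1)), fun n hn β _ _ hβ F hF => ?_⟩
  have hnn₀ : n₀ ≤ n := le_trans (le_max_left _ _) hn
  have hnJ : J + 2 ≤ n := le_trans (le_trans (le_max_left _ _) (le_max_right _ _)) hn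
  have hnf : (t₀ + J + 1).factorial + 1 ≤ n :=
    le_trans (le_trans (le_max_right _ _) (le_max_right _ _)) hn
  have hn1 : (1 : ℝ) ≤ n := by exact_mod_cast (by omega : 1 ≤ n)
  have hn0 : (0 : ℝ) < n := by linarith
  have hF' : ∀ j q, |(F j q : ℝ)| ≤ (n : ℝ) ^ A' := fun j q =>
    (hF j q).trans (Real.rpow_le_rpow_of_exponent_le hn1 hAA)
  refine ⟨evRC n β F A' D₁ D δ t₀, hn₀ n hnn₀ β hβ F hF', ?_⟩
  intro b hb hdet hns hbd c hc hc1
  by_contra hcon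
  push Not at hcon
  apply hb
  set v : Fin n → ℝ := fun j => ∑ q, c q * ((gF (matZ b) F q j : ℚ) : ℝ) with hv
  have hPv : ∀ i, ∑ j, ((matZ b i j : ℤ) : ℝ) * v j = ∑ q, (F i q : ℝ) * c q := by
    intro i
    have h1 : ∀ j, ((matZ b i j : ℤ) : ℝ) * v j =
        ∑ q, c q * (((matZ b i j : ℤ) : ℝ) * ((gF (matZ b) F q j : ℚ) : ℝ)) := by
      intro j
      rw [hv]
      simp only
      rw [mul_sum]
      exact sum_congr rfl fun q _ => by ring
    rw [sum_congr rfl fun j _ => h1 j, sum_comm]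
    refine sum_congr rfl fun q _ => ?_
    rw [← mul_sum, gF_eq b hdet F q i]
    ring
  refine mem_evRC.2 ⟨v, c, hc, ?_, ?_, ?_, ?_⟩
  · -- `|v i| ≤ n ^ A'`
    intro i
    have h1 : |v i| ≤ ∑ q : β, (n : ℝ) ^ (max A 0) := by
      rw [hv]
      refine (abs_sum_le_sum_abs _ _).trans (sum_le_sum fun q _ => ?_)
      rw [abs_mul]
      calc |c q| * |((gF (matZ b) F q i : ℚ) : ℝ)| ≤ 1 * (n : ℝ) ^ A :=
            mul_le_mul (hc q) (hbd q i) (abs_nonneg _) zero_le_one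
        _ = (n : ℝ) ^ A := one_mul _
        _ ≤ (n : ℝ) ^ (max A 0) := Real.rpow_le_rpow_of_exponent_le hn1 (le_max_left _ _)
    rw [sum_const, card_univ, nsmul_eq_mul] at h1
    refine h1.trans ?_
    rw [hA', Real.rpow_add hn0, Real.rpow_one, mul_comm]
    refine mul_le_mul_of_nonneg_left ?_ (by positivity)
    have h2 : Fintype.card β ≤ n := by omega
    exact_mod_cast h2
  · intro i
    rw [← hPv i]
    refine sum_congr rfl fun j _ => ?_
    rw [matZ_cast]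
    split_ifs <;> simp
  · -- many large coordinates
    by_contra hlt
    push Not at hlt
    obtain ⟨q, hq⟩ := hc1
    have h1 := RC150.sparse_exc (matZ b) F (X := (n : ℝ) ^ A') (h := (n : ℝ) ^ (-D₁)) (t := t₀)
      (Real.one_le_rpow hn1 (by linarith)) (by positivity)
      (fun i j => by
        rw [matZ_cast]
        have : (1 : ℝ) ≤ (n : ℝ) ^ A' := Real.one_le_rpow hn1 (by linarith)
        split_ifs
        · simpa using this
        · simp; positivity)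
      hF' hns v c hPv hlt.le q
    rw [hq, Fintype.card_fin] at h1
    set r := Fintype.card β with hr
    have hXr : ((n : ℝ) ^ A') ^ (t₀ + r) = (n : ℝ) ^ (A' * (t₀ + r : ℕ)) := by
      rw [Real.rpow_mul hn0.le, Real.rpow_natCast]
    have h2 : (((t₀ + r + 1).factorial : ℕ) : ℝ) ≤ n := by
      have h3 : (t₀ + r + 1).factorial ≤ (t₀ + J + 1).factorial :=
        Nat.factorial_le (by omega)
      exact_mod_cast (by omega : (t₀ + r + 1).factorial ≤ n)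
    have h4 : (((t₀ + r + 1).factorial : ℕ) : ℝ) * ((n : ℝ) ^ A') ^ (t₀ + r) *
        (n * ((n : ℝ) ^ A' * (n : ℝ) ^ (-D₁))) ≤
        n * (n : ℝ) ^ (A' * (t₀ + r : ℕ)) * (n * ((n : ℝ) ^ A' * (n : ℝ) ^ (-D₁))) := by
      rw [hXr]
      gcongr
    have h5 : (n : ℝ) * (n : ℝ) ^ (A' * (t₀ + r : ℕ)) * (n * ((n : ℝ) ^ A' * (n : ℝ) ^ (-D₁))) =
        (n : ℝ) ^ (1 + A' * (t₀ + r : ℕ) + (1 + (A' + -D₁))) := by
      rw [Real.rpow_add hn0, Real.rpow_add hn0 1, Real.rpow_one, Real.rpow_add hn0 1,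
        Real.rpow_one, Real.rpow_add hn0]
    have h6 : (n : ℝ) ^ (1 + A' * (t₀ + r : ℕ) + (1 + (A' + -D₁))) < 1 := by
      apply Real.rpow_lt_one_of_one_lt_of_neg
      · exact_mod_cast (by omega : 1 < n)
      · have h7 : (r : ℝ) ≤ J := by exact_mod_cast hβ
        rw [hD₁]
        push_cast
        nlinarith
    linarith [h1, h4, h5 ▸ h4]
  · have h8 : (Set.ncard {j : Fin n | |∑ q, c q * ((gF (matZ b) F q j : ℚ) : ℝ)| <
        (n : ℝ) ^ (-D)} : ℕ) = (univ.filter fun j => |v j| < (n : ℝ) ^ (-D)).card := by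
      rw [← Set.ncard_coe_finset]
      congr 1
      ext j
      simp [hv]
    rw [h8] at hcon
    convert hcon.le

end Vale.Agent.P160.Half.RCG
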