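import Mathlib

/-! # P160, half rate: numerics of the real conditioning (statement of helper133) -/

namespace Vale.Agent.P160.Half.RCNum

open Filter Topology

theorem two_rpow (x : ℝ) : (2 : ℝ) ^ x = Real.exp (x * Real.log 2) := by
  rw [Real.rpow_def_of_pos (by norm_num), mul_comm]

theorem two_pow (m : ℕ) : (2 : ℝ) ^ m = Real.exp (m * Real.log 2) := by
  rw [Real.exp_nat_mul, Real.exp_log (by norm_num)]

theorem half : (1 / 2 : ℝ) = Real.exp (-Real.log 2) := by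
  rw [Real.exp_neg, Real.exp_log (by norm_num)]; norm_num

theorem part_b {n k t : ℕ} {C y L : ℝ} (hn3 : (3 : ℝ) ≤ n) (hexpn : Real.exp L = n)
    (hy3 : y ^ 3 = n) (hL2 : L ≤ y) (hyb : 4096 ≤ y) (hyC : 1024 * (|C| + 2) ≤ y)
    (hkl : y ^ 2 / 2 ≤ k) (hk4 : 4 ≤ k) (ht : t ≤ n) :
    256 * (t : ℝ) ≤ (k : ℝ) ^ 2 ∧
      (2 : ℝ) ^ n * (t * Real.exp (-((k : ℝ) / 32))) ^ (k / 2) ≤ (1 / 2) * (2 : ℝ) ^ (-(C * n)) := by
  have hlog2 : Real.log 2 < 0.6931471808 := Real.log_two_lt_d9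
  have hlog2' : 0.6931471803 < Real.log 2 := Real.log_two_gt_d9
  have hk4r : (4 : ℝ) ≤ k := by exact_mod_cast hk4
  have hnpos : (0 : ℝ) < n := by linarith
  have hypos : 0 < y := by linarith
  have ht' : (t : ℝ) ≤ n := by exact_mod_cast ht
  have hy2big : 4096 * y ≤ y ^ 2 := by
    rw [sq]; exact mul_le_mul_of_nonneg_right hyb hypos.le
  have hk2 : y ^ 4 / 4 ≤ (k : ℝ) ^ 2 := by
    have h := pow_le_pow_left₀ (by positivity) hkl 2
    have : (y ^ 2 / 2) ^ 2 = y ^ 4 / 4 := by ring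
    rwa [this] at h
  have hy4 : y ^ 4 = y * n := by rw [← hy3]; ring
  have hyn : 4096 * (n : ℝ) ≤ y * n := mul_le_mul_of_nonneg_right hyb hnpos.le
  rw [hy4] at hk2
  refine ⟨by linarith, ?_⟩
  have d1 : (t : ℝ) * Real.exp (-((k : ℝ) / 32)) ≤ Real.exp (-((k : ℝ) / 64)) := by
    refine (mul_le_mul_of_nonneg_right ht' (Real.exp_pos _).le).trans ?_
    rw [← hexpn, ← Real.exp_add]
    refine Real.exp_le_exp.2 ?_
    linarith
  have d2 := pow_le_pow_left₀ (by positivity) d1 (k / 2)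
  have d3 : (k : ℝ) / 4 ≤ ((k / 2 : ℕ) : ℝ) := by
    have : k ≤ 2 * (k / 2) + 1 := by omega
    have h' : (k : ℝ) ≤ 2 * ((k / 2 : ℕ) : ℝ) + 1 := by exact_mod_cast this
    linarith
  have d4 : Real.exp (-((k : ℝ) / 64)) ^ (k / 2) ≤ Real.exp (-((k : ℝ) ^ 2 / 256)) := by
    rw [← Real.exp_nat_mul]
    refine Real.exp_le_exp.2 ?_
    have h5 := mul_le_mul_of_nonneg_right d3 (show (0 : ℝ) ≤ (k : ℝ) / 64 by positivity)
    have h6 : (k : ℝ) / 4 * ((k : ℝ) / 64) = (k : ℝ) ^ 2 / 256 := by ring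
    rw [h6] at h5
    linarith
  rw [half, two_rpow, two_pow, ← Real.exp_add]
  refine (mul_le_mul_of_nonneg_left (d2.trans d4) (Real.exp_pos _).le).trans ?_
  rw [← Real.exp_add]
  refine Real.exp_le_exp.2 ?_
  have h7 : (n : ℝ) * Real.log 2 ≤ n * 1 := mul_le_mul_of_nonneg_left (by linarith) hnpos.le
  have h8 : -(C * (n : ℝ)) * Real.log 2 = -(C * (n * Real.log 2)) := by ring
  have h9 : 1024 * (|C| + 2) * n ≤ y * n := mul_le_mul_of_nonneg_right hyC hnpos.le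
  have h10 : C * (n * Real.log 2) ≤ |C| * (n * 1) :=
    (mul_le_mul_of_nonneg_right (le_abs_self C) (by positivity)).trans
      (mul_le_mul_of_nonneg_left h7 (abs_nonneg C))
  have h11 : 1024 * (|C| + 2) * n = 1024 * (|C| * (n * 1)) + 2048 * n := by ring
  rw [h8]
  rw [h11] at h9
  linarith

theorem part_c {n k s J kap t0 : ℕ} {C d y L : ℝ} (hn3 : (3 : ℝ) ≤ n) (hexpn : Real.exp L = n)
    (hy3 : y ^ 3 = n) (hL3 : 0 ≤ L) (hyb : 4096 ≤ y)
    (hLc : L * (2 * (J + 1) * (kap + 2)) ≤ y) (ht0 : 2 * (|C| + 4) / d ≤ Real.log t0)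
    (ht0p : 1 ≤ t0) (hd : 0 < d) (hku : (k : ℝ) ≤ y ^ 2) (hs : d * n ≤ s) :
    (2 : ℝ) ^ n * (2 * (n : ℝ) ^ kap + 1) ^ (k + J) * (1 / Real.sqrt t0) ^ s ≤
        (1 / 2) * (2 : ℝ) ^ (-(C * n)) := by
  have hlog2 : Real.log 2 < 0.6931471808 := Real.log_two_lt_d9
  have hlog2' : 0.6931471803 < Real.log 2 := Real.log_two_gt_d9
  have hn1 : (1 : ℝ) ≤ n := by linarith
  have hnpos : (0 : ℝ) < n := by linarith
  have hypos : 0 < y := by linarith
  have ht0r : (0 : ℝ) < t0 := by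
    have : 0 < t0 := by omega
    exact_mod_cast this
  have hJ : (0 : ℝ) ≤ J := Nat.cast_nonneg J
  have hkap : (0 : ℝ) ≤ kap := Nat.cast_nonneg kap
  have hk0 : (0 : ℝ) ≤ k := Nat.cast_nonneg k
  have f1 : 2 * (n : ℝ) ^ kap + 1 ≤ Real.exp ((kap + 2) * L) := by
    have h10 : Real.exp ((kap + 2) * L) = (n : ℝ) ^ (kap + 2) := by
      rw [show ((kap : ℝ) + 2) * L = ((kap + 2 : ℕ) : ℝ) * L by push_cast; ring, Real.exp_nat_mul,
        hexpn]
    rw [h10]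
    have p9 : (1 : ℝ) ≤ (n : ℝ) ^ kap := one_le_pow₀ hn1
    rw [pow_add]
    have h9 : (3 : ℝ) ≤ (n : ℝ) ^ 2 := by
      have : (3 : ℝ) * 1 ≤ n * n := mul_le_mul hn3 hn1 (by norm_num) hnpos.le
      rw [sq]; linarith
    have : (n : ℝ) ^ kap * 3 ≤ n ^ kap * n ^ 2 := mul_le_mul_of_nonneg_left h9 (by positivity)
    linarith
  have f2 : (2 * (n : ℝ) ^ kap + 1) ^ (k + J) ≤ Real.exp ((kap + 2) * L * (k + J)) := by
    have := pow_le_pow_left₀ (by positivity) f1 (k + J)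
    refine this.trans (le_of_eq ?_)
    rw [← Real.exp_nat_mul, mul_comm]
    push_cast
    rfl
  have f3 : 1 / Real.sqrt t0 = Real.exp (-(Real.log t0 / 2)) := by
    rw [Real.exp_neg, one_div, Real.sqrt_eq_rpow, Real.rpow_def_of_pos ht0r]
    congr 2
    ring
  have hC4 : 0 ≤ |C| + 4 := by positivity
  have f5 : (1 / Real.sqrt t0) ^ s ≤ Real.exp (-((|C| + 4) * n)) := by
    rw [f3, ← Real.exp_nat_mul]
    refine Real.exp_le_exp.2 ?_
    have h1 : d * n * (2 * (|C| + 4) / d / 2) ≤ s * (Real.log t0 / 2) :=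
      mul_le_mul hs (by linarith) (by positivity) (Nat.cast_nonneg s)
    have h2 : d * n * (2 * (|C| + 4) / d / 2) = (|C| + 4) * n := by
      field_simp
    linarith
  rw [half, two_rpow, two_pow, ← Real.exp_add]
  have f6 : Real.exp (n * Real.log 2) * (2 * (n : ℝ) ^ kap + 1) ^ (k + J) * (1 / Real.sqrt t0) ^ s ≤
      Real.exp (n * Real.log 2) * Real.exp ((kap + 2) * L * (k + J)) * Real.exp (-((|C| + 4) * n)) :=
    mul_le_mul (mul_le_mul_of_nonneg_left f2 (Real.exp_pos _).le) f5 (by positivity) (by positivity)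
  refine f6.trans ?_
  rw [← Real.exp_add, ← Real.exp_add]
  refine Real.exp_le_exp.2 ?_
  have hy1 : (1 : ℝ) ≤ y ^ 2 := by
    have : (1 : ℝ) * 1 ≤ y * y := mul_le_mul (by linarith) (by linarith) (by norm_num) hypos.le
    rw [sq]; linarith
  have g1 : (k : ℝ) + J ≤ (J + 1) * y ^ 2 := by
    have : (J : ℝ) * 1 ≤ J * y ^ 2 := mul_le_mul_of_nonneg_left hy1 hJ
    linarith
  have g2 : (kap + 2) * L * (k + J) ≤ n / 2 := by
    have h1 : (kap + 2) * L * (k + J) ≤ (kap + 2) * L * ((J + 1) * y ^ 2) :=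
      mul_le_mul_of_nonneg_left g1 (by positivity)
    have h2 : (kap + 2) * L * ((J + 1) * y ^ 2) = (L * (2 * (J + 1) * (kap + 2))) * y ^ 2 / 2 := by
      ring
    have h3 : (L * (2 * (J + 1) * (kap + 2))) * y ^ 2 ≤ y * y ^ 2 :=
      mul_le_mul_of_nonneg_right hLc (by positivity)
    have h4 : y * y ^ 2 = n := by rw [← hy3]; ring
    rw [h2] at h1
    linarith
  have h7 : (n : ℝ) * Real.log 2 ≤ n * 1 := mul_le_mul_of_nonneg_left (by linarith) hnpos.le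
  have h8 : -(C * (n : ℝ)) * Real.log 2 = -(C * (n * Real.log 2)) := by ring
  have h10 : C * (n * Real.log 2) ≤ |C| * (n * 1) :=
    (mul_le_mul_of_nonneg_right (le_abs_self C) (by positivity)).trans
      (mul_le_mul_of_nonneg_left h7 (abs_nonneg C))
  have h11 : (|C| + 4) * (n : ℝ) = |C| * (n * 1) + 4 * n := by ring
  rw [h8, h11]
  linarith

theorem rc_num (C d : ℝ) (hd : 0 < d) : ∃ t0 : ℕ, 1 ≤ t0 ∧ ∀ kap J : ℕ, ∃ n0 : ℕ, ∀ n ≥ n0,
    ∀ k : ℕ, k = ⌊(n : ℝ) ^ (2 / 3 : ℝ)⌋₊ →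
    (4 ≤ k ∧ k ≤ n) ∧
    (∀ t ≤ n, 256 * (t : ℝ) ≤ (k : ℝ) ^ 2 ∧
      (2 : ℝ) ^ n * (t * Real.exp (-((k : ℝ) / 32))) ^ (k / 2) ≤ 1 / 2 * (2 : ℝ) ^ (-(C * n))) ∧
    (∀ s : ℕ, d * n ≤ s →
      (2 : ℝ) ^ n * (2 * (n : ℝ) ^ kap + 1) ^ (k + J) * (1 / Real.sqrt t0) ^ s ≤
        1 / 2 * (2 : ℝ) ^ (-(C * n))) := by
  have hpos0 : 0 < 2 * (|C| + 4) / d := by positivity
  obtain ⟨t0, ht0⟩ : ∃ t0 : ℕ, t0 = ⌈Real.exp (2 * (|C| + 4) / d)⌉₊ := ⟨_, rfl⟩
  have ht0l : Real.exp (2 * (|C| + 4) / d) ≤ t0 := by rw [ht0]; exact Nat.le_ceil _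
  have ht0p : 1 ≤ t0 := by
    have h1 : (1 : ℝ) < Real.exp (2 * (|C| + 4) / d) := Real.one_lt_exp_iff.2 hpos0
    have : (1 : ℝ) < t0 := h1.trans_le ht0l
    have : 1 < t0 := by exact_mod_cast this
    omega
  have ht0log : 2 * (|C| + 4) / d ≤ Real.log t0 := by
    rw [Real.le_log_iff_exp_le (lt_of_lt_of_le (Real.exp_pos _) ht0l)]
    exact ht0l
  refine ⟨t0, ht0p, fun kap J => ?_⟩
  have hJ : (0 : ℝ) ≤ J := Nat.cast_nonneg J
  have hkap : (0 : ℝ) ≤ kap := Nat.cast_nonneg kap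
  have hKpos : 0 < 2 * ((J : ℝ) + 1) * (kap + 2) := by positivity
  have hc : 0 < min (1 / (2 * ((J : ℝ) + 1) * (kap + 2))) 1 := by positivity
  have h1 : ∀ᶠ x : ℝ in atTop, Real.log x ≤
      min (1 / (2 * ((J : ℝ) + 1) * (kap + 2))) 1 * x ^ (1 / 3 : ℝ) := by
    have h := (isLittleO_log_rpow_atTop (show (0 : ℝ) < 1 / 3 by norm_num)).bound hc
    filter_upwards [h, eventually_ge_atTop 1] with x hx hx1
    rw [Real.norm_of_nonneg (Real.log_nonneg hx1), Real.norm_of_nonneg (by positivity)] at hx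
    exact hx
  have h3 : ∀ᶠ x : ℝ in atTop, 1024 * (|C| + 2) + 4096 ≤ x ^ (1 / 3 : ℝ) :=
    (tendsto_rpow_atTop (by norm_num)).eventually_ge_atTop _
  have hev := (tendsto_natCast_atTop_atTop (R := ℝ)).eventually (h1.and (h3.and
    (eventually_ge_atTop 10)))
  obtain ⟨n0, hn0⟩ := eventually_atTop.1 hev
  refine ⟨n0, fun n hn k hk => ?_⟩
  obtain ⟨e1, e3, e4⟩ := hn0 n hn
  have hnpos : (0 : ℝ) < n := by linarith
  obtain ⟨y, hy⟩ : ∃ y : ℝ, y = (n : ℝ) ^ (1 / 3 : ℝ) := ⟨_, rfl⟩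
  obtain ⟨L, hL⟩ : ∃ L : ℝ, L = Real.log n := ⟨_, rfl⟩
  rw [← hy] at e1 e3
  rw [← hL] at e1
  have hy3 : y ^ 3 = n := by
    rw [hy, ← Real.rpow_natCast, ← Real.rpow_mul hnpos.le]; norm_num
  have hy2 : y ^ 2 = (n : ℝ) ^ (2 / 3 : ℝ) := by
    rw [hy, ← Real.rpow_natCast, ← Real.rpow_mul hnpos.le]; norm_num
  have hC0 := abs_nonneg C
  have hyb : 4096 ≤ y := by linarith
  have hyC : 1024 * (|C| + 2) ≤ y := by linarith
  have hypos : 0 < y := by linarith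
  have hL0 : 0 ≤ L := by rw [hL]; exact Real.log_nonneg (by linarith)
  have hL1 : L ≤ 1 / (2 * ((J : ℝ) + 1) * (kap + 2)) * y :=
    e1.trans (mul_le_mul_of_nonneg_right (min_le_left _ _) hypos.le)
  have hL2 : L ≤ y := by
    have := e1.trans (mul_le_mul_of_nonneg_right (min_le_right _ _) hypos.le)
    linarith
  have hLc : L * (2 * (J + 1) * (kap + 2)) ≤ y := by
    have h5 := mul_le_mul_of_nonneg_right hL1 hKpos.le
    have h6 : 1 / (2 * ((J : ℝ) + 1) * (kap + 2)) * y * (2 * (J + 1) * (kap + 2)) = y := by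
      field_simp
    rw [h6] at h5
    exact h5
  have hku : (k : ℝ) ≤ y ^ 2 := by
    rw [hk, hy2]; exact Nat.floor_le (by positivity)
  have hkl1 : y ^ 2 < k + 1 := by
    rw [hk, hy2]; exact Nat.lt_floor_add_one _
  have hy2big : 4096 * y ≤ y ^ 2 := by
    rw [sq]; exact mul_le_mul_of_nonneg_right hyb hypos.le
  have hkl : y ^ 2 / 2 ≤ k := by linarith
  have hk4' : 4 ≤ k := by
    have : (4 : ℝ) ≤ k := by linarith
    exact_mod_cast this
  have hkn' : k ≤ n := by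
    have h5 : y ^ 2 ≤ y * y ^ 2 := by
      have h6 : 1 * y ^ 2 ≤ y * y ^ 2 := mul_le_mul_of_nonneg_right (by linarith) (by positivity)
      linarith
    have h7 : y * y ^ 2 = y ^ 3 := by ring
    have : (k : ℝ) ≤ n := by rw [← hy3, ← h7]; exact hku.trans h5
    exact_mod_cast this
  have hexpn : Real.exp L = n := by rw [hL]; exact Real.exp_log hnpos
  refine ⟨⟨hk4', hkn'⟩, ?_, ?_⟩
  · intro t ht
    exact part_b (by linarith) hexpn hy3 hL2 hyb hyC hkl hk4' ht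
  · intro s hs
    exact part_c (by linarith) hexpn hy3 hL0 hyb hLc ht0log ht0p hd hku hs

end Vale.Agent.P160.Half.RCNum
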