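import Vale.Agent.P160.Half.Tame4

/-! # P160: real conditioning, probabilistic part -/

namespace Vale.Agent.P160.Half.RCp

open Finset Vale.Agent.P160.Half.Spec Vale.Agent.P160.Half.Tame

/-- Littlewood-Offord with a centre -/
theorem lo_shift {ι : Type*} [Fintype ι] [DecidableEq ι] (w : ι → ℝ) (r c0 : ℝ) (hr : 0 ≤ r)
    (G : Finset ι) (hG : ∀ j ∈ G, 2 * r < |w j|) :
    ((univ : Finset (ι → Bool)).filter fun x => |∑ j, (if x j then w j else 0) - c0| ≤ r).card ≤
      2 ^ (Fintype.card ι - G.card) * (G.card).choose (G.card / 2) := by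
  classical
  let e := Equiv.piEquivPiSubtypeProd (fun j => j ∈ G) (fun _ : ι => Bool)
  let F : (ι → Bool) → ({j // j ∉ G} → Bool) := fun x => (e x).2
  have hmaps : ∀ x ∈ ((univ : Finset (ι → Bool)).filter fun x =>
      |∑ j, (if x j then w j else 0) - c0| ≤ r), F x ∈ (univ : Finset ({j // j ∉ G} → Bool)) :=
    fun _ _ => mem_univ _
  rw [card_eq_sum_card_fiberwise hmaps]
  have hcardG : Fintype.card {j // j ∈ G} = G.card := Fintype.card_coe G
  have hcardN : Fintype.card {j // j ∉ G} = Fintype.card ι - G.card := by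
    rw [Fintype.card_subtype_compl, hcardG]
  have hfib : ∀ y ∈ (univ : Finset ({j // j ∉ G} → Bool)),
      (((univ : Finset (ι → Bool)).filter fun x =>
      |∑ j, (if x j then w j else 0) - c0| ≤ r).filter fun x => F x = y).card ≤
      (G.card).choose (G.card / 2) := by
    intro y _
    let c : ℝ := c0 - ∑ j : {j // j ∉ G}, (if y j then w j else 0)
    let g : (ι → Bool) → Finset {j // j ∈ G} := fun x => univ.filter fun j => x j = true
    set B := ((univ : Finset (ι → Bool)).filter fun x =>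
      |∑ j, (if x j then w j else 0) - c0| ≤ r).filter fun x => F x = y with hB
    have hinj : Set.InjOn g (B : Set (ι → Bool)) := by
      intro x hx x' hx' h
      have hx1 := (mem_filter.1 (mem_coe.1 hx)).2
      have hx1' := (mem_filter.1 (mem_coe.1 hx')).2
      funext j
      by_cases hj : j ∈ G
      · have := congrArg (fun S => (⟨j, hj⟩ : {j // j ∈ G}) ∈ S) h
        simp only [g, mem_filter, mem_univ, true_and, eq_iff_iff] at this
        cases hxj : x j <;> cases hxj' : x' j <;> simp_all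
      · have h1 : F x ⟨j, hj⟩ = x j := rfl
        have h2 : F x' ⟨j, hj⟩ = x' j := rfl
        rw [← h1, ← h2, hx1, hx1']
    rw [← Finset.card_image_of_injOn hinj, ← hcardG]
    refine card_int_le (fun j : {j // j ∈ G} => w j) r c hr (fun a => hG a a.2) _ ?_
    intro t ht
    obtain ⟨x, hx, rfl⟩ := Finset.mem_image.1 ht
    have hx1 := (mem_filter.1 hx).2
    have hx2 := (mem_filter.1 (mem_filter.1 hx).1).2
    have h1 : ∑ j, (if x j then w j else 0) =
        ∑ j : {j // j ∈ G}, (if x j then w j else 0) +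
        ∑ j : {j // j ∉ G}, (if x j then w j else 0) := by
      rw [← Fintype.sum_subtype_add_sum_subtype (fun j => j ∈ G)
        (fun j => if x j = true then w j else 0)]
      refine congrArg₂ (· + ·) ?_ ?_
      · exact Finset.sum_congr (by ext x; simp only [Finset.mem_univ]) (fun _ _ => rfl)
      · exact Finset.sum_congr (by ext x; simp only [Finset.mem_univ]) (fun _ _ => rfl)
    have h2 : ∑ a ∈ g x, w a = ∑ j : {j // j ∈ G}, (if x j then w j else 0) := by
      simp only [g]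
      rw [Finset.sum_filter]
    have h3 : ∑ j : {j // j ∉ G}, (if y j then w j else 0) =
        ∑ j : {j // j ∉ G}, (if x j then w j else 0) := by
      refine Finset.sum_congr rfl fun j _ => ?_
      have : y j = x j := by rw [← hx1]; rfl
      rw [this]
    have h4 : ∑ a ∈ g x, w a - c = ∑ j, (if x j then w j else 0) - c0 := by
      rw [h2, h1]
      simp only [c]
      rw [h3]; ring
    rw [h4]
    exact hx2
  refine (sum_le_sum hfib).trans ?_
  rw [sum_const, card_univ, Fintype.card_fun, Fintype.card_bool, hcardN, smul_eq_mul]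

theorem lo_sqrt_shift {ι : Type*} [Fintype ι] [DecidableEq ι] (w : ι → ℝ) (r c0 : ℝ) (hr : 0 ≤ r)
    (k : ℕ) (hk : 1 ≤ k) (G : Finset ι) (hkG : k ≤ G.card) (hG : ∀ j ∈ G, 2 * r < |w j|) :
    ((((univ : Finset (ι → Bool)).filter fun x =>
      |∑ j, (if x j then w j else 0) - c0| ≤ r).card : ℕ) : ℝ) ≤
      1 / Real.sqrt k * 2 ^ Fintype.card ι := by
  obtain ⟨G', hG', hcard⟩ := Finset.exists_subset_card_eq hkG
  have h1 := lo_shift w r c0 hr G' (fun j hj => hG j (hG' hj))
  rw [hcard] at h1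
  have hkι : k ≤ Fintype.card ι := by
    rw [← hcard]; exact G'.card_le_univ
  have hkR : (0 : ℝ) < k := by exact_mod_cast hk
  have hs : 0 < Real.sqrt k := Real.sqrt_pos.2 hkR
  have h2 : ((k.choose (k / 2) : ℕ) : ℝ) * Real.sqrt k ≤ 2 ^ k := by
    have h3 : (((k.choose (k / 2)) ^ 2 * k : ℕ) : ℝ) ≤ ((4 ^ k : ℕ) : ℝ) := by
      exact_mod_cast choose_half_sq_le k
    push_cast at h3
    apply le_of_sq_le_sq _ (by positivity)
    rw [mul_pow, Real.sq_sqrt hkR.le]
    refine h3.trans (le_of_eq ?_)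
    rw [← pow_mul, mul_comm k 2, pow_mul]
    norm_num
  have h3 : ((k.choose (k / 2) : ℕ) : ℝ) ≤ 2 ^ k / Real.sqrt k := by
    rw [le_div_iff₀ hs]; exact h2
  calc ((((univ : Finset (ι → Bool)).filter fun x =>
      |∑ j, (if x j then w j else 0) - c0| ≤ r).card : ℕ) : ℝ)
      ≤ ((2 ^ (Fintype.card ι - k) * k.choose (k / 2) : ℕ) : ℝ) := by exact_mod_cast h1
    _ = 2 ^ (Fintype.card ι - k) * ((k.choose (k / 2) : ℕ) : ℝ) := by push_cast; ring
    _ ≤ 2 ^ (Fintype.card ι - k) * (2 ^ k / Real.sqrt k) :=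
        mul_le_mul_of_nonneg_left h3 (by positivity)
    _ = 1 / Real.sqrt k * (2 ^ (Fintype.card ι - k) * 2 ^ k) := by ring
    _ = 1 / Real.sqrt k * 2 ^ Fintype.card ι := by
        rw [← pow_add, Nat.sub_add_cancel hkι]

variable {n : ℕ}

open Classical in
/-- rows in prescribed sets, depending on the row index and the principal block -/
theorem card_rows_le' (T : Finset (Fin n))
    (X : {j // j ∉ T} → (Sym2 {j // j ∈ T} → Bool) → Finset ({j // j ∈ T} → Bool)) (q : ℝ)
    (hX : ∀ s c, ((X s c).card : ℝ) ≤ q * 2 ^ T.card) :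
    (((univ : Finset (Sym2 (Fin n) → Bool)).filter fun b =>
      ∀ s, rows T b s ∈ X s (res T b)).card : ℝ) ≤
      q ^ (n - T.card) * 2 ^ Fintype.card (Sym2 (Fin n)) := by
  let Y : Finset ((_ : Sym2 {j // j ∈ T} → Bool) × (({j // j ∉ T} → {j // j ∈ T} → Bool) ×
      (Sym2 {j // j ∉ T} → Bool))) :=
    (univ : Finset (Sym2 {j // j ∈ T} → Bool)).sigma fun c =>
      (Fintype.piFinset fun s : {j // j ∉ T} => X s c) ×ˢ
        (univ : Finset (Sym2 {j // j ∉ T} → Bool))
  have h1 : ((univ : Finset (Sym2 (Fin n) → Bool)).filter fun b =>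
      ∀ s, rows T b s ∈ X s (res T b)).card ≤ Y.card := by
    refine Finset.card_le_card_of_injOn (fun b => ⟨res T b, (rows T b, rest T b)⟩) ?_ ?_
    · intro b hb
      have hb' := (mem_filter.1 (mem_coe.1 hb)).2
      simp only [Y, coe_sigma, Set.mem_sigma_iff, mem_coe, mem_univ, true_and, mem_product,
        Fintype.mem_piFinset, and_true]
      exact hb'
    · intro b _ b' _ h
      apply block_inj T
      simp only [Sigma.mk.injEq, heq_eq_eq, Prod.mk.injEq] at h
      simp only [Prod.mk.injEq]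
      exact h
  have h2 : (Y.card : ℝ) = ∑ c : Sym2 {j // j ∈ T} → Bool,
      (∏ s : {j // j ∉ T}, ((X s c).card : ℝ)) * 2 ^ Fintype.card (Sym2 {j // j ∉ T}) := by
    simp only [Y, card_sigma, card_product, Fintype.card_piFinset, card_univ,
      Fintype.card_fun, Fintype.card_bool]
    push_cast
    rfl
  have h3 : ∀ c ∈ (univ : Finset (Sym2 {j // j ∈ T} → Bool)),
      (∏ s : {j // j ∉ T}, ((X s c).card : ℝ)) * 2 ^ Fintype.card (Sym2 {j // j ∉ T}) ≤
      (q * 2 ^ T.card) ^ (n - T.card) * 2 ^ Fintype.card (Sym2 {j // j ∉ T}) := by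
    intro c _
    refine mul_le_mul_of_nonneg_right ?_ (by positivity)
    refine (Finset.prod_le_prod (fun s _ => Nat.cast_nonneg _) fun s _ => hX s c).trans ?_
    rw [prod_const, card_univ, card_nmem]
  calc (((univ : Finset (Sym2 (Fin n) → Bool)).filter fun b =>
      ∀ s, rows T b s ∈ X s (res T b)).card : ℝ) ≤ (Y.card : ℝ) := by exact_mod_cast h1
    _ ≤ _ := by
      rw [h2]
      refine (sum_le_sum h3).trans ?_
      rw [sum_const, card_univ, Fintype.card_fun, Fintype.card_bool, nsmul_eq_mul,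
        card_block_id T, mul_pow, ← pow_mul]
      push_cast
      rw [pow_add, pow_add]
      apply le_of_eq
      ring

/-- real word of `[P F]` up to small errors with `t0` coordinates above the level -/
def RW {β : Type} [Fintype β] (T : Finset (Fin n)) (F : Matrix (Fin n) β ℤ) (t0 a d1 : ℕ)
    (b : Sym2 (Fin n) → Bool) : Prop :=
  ∃ (v : Fin n → ℝ) (c : β → ℝ), (∀ q, |c q| ≤ 1) ∧ (∀ i, |v i| ≤ (n : ℝ) ^ a) ∧
    (∀ i, |∑ j ∈ T, (if b s(i, j) then v j else 0) - ∑ q, (F i q : ℝ) * c q| ≤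
      1 / (n : ℝ) ^ (a + d1 + 7)) ∧
    t0 ≤ (T.filter fun j => 1 / (n : ℝ) ^ d1 ≤ |v j|).card

open Classical in
theorem rw_card {β : Type} [Fintype β] (T : Finset (Fin n)) (F : Matrix (Fin n) β ℤ)
    (k t0 a d1 : ℕ) (hn : 16 ≤ n) (hk : 1 ≤ k) (ht0 : 1 ≤ t0) (hβ : Fintype.card β ≤ n)
    (h256 : 256 * (T.card : ℝ) ≤ (k : ℝ) ^ 2)
    (hF : ∀ i q, |(F i q : ℝ)| ≤ (n : ℝ) ^ a) :
    (((univ : Finset (Sym2 (Fin n) → Bool)).filter fun b => RW T F t0 a d1 b).card : ℝ) ≤
      ((T.card * Real.exp (-((k : ℝ) / 32))) ^ (k / 2) +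
        (2 * (n : ℝ) ^ (a + d1 + 8) + 1) ^ (k + Fintype.card β) *
        (1 / Real.sqrt t0) ^ (n - T.card)) * 2 ^ Fintype.card (Sym2 (Fin n)) := by
  have hnR : (16 : ℝ) ≤ n := by exact_mod_cast hn
  have hn0 : (0 : ℝ) < n := by linarith
  have hn1 : (1 : ℝ) ≤ n := by linarith
  have htn : T.card ≤ n := by simpa using T.card_le_univ
  have htR : (T.card : ℝ) ≤ n := by exact_mod_cast htn
  have hβR : (Fintype.card β : ℝ) ≤ n := by exact_mod_cast hβ
  set K : ℤ := (n : ℤ) ^ (a + d1 + 8) with hKdef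
  have hK : 0 < K := by rw [hKdef]; have : 0 < (n : ℤ) := by omega
                        positivity
  have hKR : (K : ℝ) = (n : ℝ) ^ (a + d1 + 8) := by rw [hKdef]; push_cast; rfl
  -- powers of `n`
  have pw : ∀ x y : ℕ, x ≤ y → 1 / (n : ℝ) ^ y ≤ 1 / (n : ℝ) ^ x := fun x y h =>
    one_div_le_one_div_of_le (by positivity) (pow_le_pow_right₀ hn1 h)
  let Bd : Finset (Sym2 {j // j ∈ T} → Bool) :=
    univ.filter fun c => k ≤ sm (mat_herm (blk T c)) 1
  have hBd : (Bd.card : ℝ) ≤ (T.card * Real.exp (-((k : ℝ) / 32))) ^ (k / 2) *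
      2 ^ Fintype.card (Sym2 {j // j ∈ T}) := by
    have h1 : Bd.card ≤ (bad 1 T.card k).card := by
      refine Finset.card_le_card_of_injOn (blk T) ?_ ((blk_inj T).injOn)
      intro c hc
      have hc' := (mem_filter.1 (mem_coe.1 hc)).2
      exact mem_coe.2 (mem_filter.2 ⟨mem_univ _, hc'⟩)
    have h2 := count_small 1 zero_le_one T.card k hk (by rw [one_pow, mul_one]; exact h256)
    have h3 : Fintype.card (Sym2 (Fin T.card)) = Fintype.card (Sym2 {j // j ∈ T}) := by
      rw [Sym2.card, Sym2.card, card_mem, Fintype.card_fin]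
    rw [h3] at h2
    calc (Bd.card : ℝ) ≤ ((bad 1 T.card k).card : ℝ) := by exact_mod_cast h1
      _ ≤ _ := h2
      _ = _ := mul_comm _ _
  -- canonical particular solution
  let good : (Sym2 {j // j ∈ T} → Bool) → (β → ℤ) → (Fin T.card → ℝ) → Prop := fun c z' y =>
    (∀ l, |y l| ≤ (n : ℝ) ^ a) ∧ ∀ l, |∑ l', mat (blk T c) l l' * y l' -
      ∑ q, (F (en T l) q : ℝ) * ((z' q : ℝ) / K)| ≤ 2 / (n : ℝ) ^ (d1 + 7)
  let y0 : (Sym2 {j // j ∈ T} → Bool) → (β → ℤ) → Fin T.card → ℝ := fun c z' =>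
    if h : ∃ y, good c z' y then h.choose else 0
  let v' : (Sym2 {j // j ∈ T} → Bool) → (Fin k → ℤ) → (β → ℤ) → {j // j ∈ T} → ℝ :=
    fun c z z' j => y0 c z' ((en T).symm j) +
      (n : ℝ) ^ (a + 2) * netVec (mat_herm (blk T c)) K z ((en T).symm j)
  let X : (Fin k → ℤ) → (β → ℤ) → {j // j ∉ T} → (Sym2 {j // j ∈ T} → Bool) →
      Finset ({j // j ∈ T} → Bool) := fun z z' s c =>
    if t0 ≤ (univ.filter fun j => 8 / (n : ℝ) ^ (d1 + 4) < |v' c z z' j|).card then
      univ.filter fun x => |∑ j, (if x j then v' c z z' j else 0) -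
        ∑ q, (F s q : ℝ) * ((z' q : ℝ) / K)| ≤ 4 / (n : ℝ) ^ (d1 + 4) else ∅
  have hX : ∀ z z' s c, ((X z z' s c).card : ℝ) ≤ 1 / Real.sqrt t0 * 2 ^ T.card := by
    intro z z' s c
    by_cases h : t0 ≤ (univ.filter fun j => 8 / (n : ℝ) ^ (d1 + 4) < |v' c z z' j|).card
    · simp only [X, if_pos h]
      have h1 := lo_sqrt_shift (v' c z z') (4 / (n : ℝ) ^ (d1 + 4))
        (∑ q, (F s q : ℝ) * ((z' q : ℝ) / K)) (by positivity) t0 ht0 _ h (by
        intro j hj
        have := (mem_filter.1 hj).2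
        have e : 2 * (4 / (n : ℝ) ^ (d1 + 4)) = 8 / (n : ℝ) ^ (d1 + 4) := by ring
        rw [e]; exact this)
      rw [card_mem] at h1
      exact h1
    · simp only [X, if_neg h, card_empty]
      have : 0 ≤ Real.sqrt t0 := Real.sqrt_nonneg _
      push_cast
      positivity
  let E : (Fin k → ℤ) × (β → ℤ) → Finset (Sym2 (Fin n) → Bool) := fun zz =>
    univ.filter fun b => ∀ s, rows T b s ∈ X zz.1 zz.2 s (res T b)
  have hE : ∀ zz, ((E zz).card : ℝ) ≤ (1 / Real.sqrt t0) ^ (n - T.card) *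
      2 ^ Fintype.card (Sym2 (Fin n)) := fun zz => card_rows_le' T (X zz.1 zz.2) _ (hX zz.1 zz.2)
  set 𝒵 : Finset ((Fin k → ℤ) × (β → ℤ)) := (Fintype.piFinset fun _ : Fin k => Icc (-K) K) ×ˢ
    (Fintype.piFinset fun _ : β => Icc (-K) K) with h𝒵
  have hsub : ((univ : Finset (Sym2 (Fin n) → Bool)).filter fun b => RW T F t0 a d1 b) ⊆
      (univ.filter fun b => res T b ∈ Bd) ∪ 𝒵.biUnion E := by
    intro b hb
    obtain ⟨v, c, hc1, hv1, hrow, hlarge⟩ := (mem_filter.1 hb).2
    rw [mem_union]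
    by_cases hbad : res T b ∈ Bd
    · exact Or.inl (mem_filter.2 ⟨mem_univ _, hbad⟩)
    right
    rw [mem_biUnion]
    have hsm : sm (mat_herm (blk T (res T b))) 1 ≤ k := by
      by_contra h
      exact hbad (mem_filter.2 ⟨mem_univ _, by omega⟩)
    have hsumT : ∀ (f : Fin n → ℝ), ∑ l, f (en T l) = ∑ j ∈ T, f j := by
      intro f
      rw [← Finset.sum_coe_sort T]
      exact (en T).sum_comp (fun j : {j // j ∈ T} => f j)
    have hA : ∀ l, ∑ l', mat (blk T (res T b)) l l' * v (en T l') =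
        ∑ j ∈ T, (if b s((en T l : Fin n), j) then v j else 0) := by
      intro l
      rw [← hsumT (fun j => if b s((en T l : Fin n), j) then v j else 0)]
      refine Finset.sum_congr rfl fun l' _ => ?_
      rw [mat, bit_mul]
      rfl
    -- rounding of `c`
    let z' : β → ℤ := fun q => ⌊c q * K⌋
    have hz' : z' ∈ Fintype.piFinset (fun _ : β => Icc (-K) K) :=
      Fintype.mem_piFinset.2 fun q => (round_spec K hK _ (hc1 q)).1
    have hcF : ∀ i, |∑ q, (F i q : ℝ) * c q - ∑ q, (F i q : ℝ) * ((z' q : ℝ) / K)| ≤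
        1 / (n : ℝ) ^ (d1 + 7) := by
      intro i
      rw [← Finset.sum_sub_distrib]
      refine (Finset.abs_sum_le_sum_abs _ _).trans ?_
      have h1 : ∀ q ∈ (univ : Finset β), |(F i q : ℝ) * c q - (F i q : ℝ) * ((z' q : ℝ) / K)| ≤
          (n : ℝ) ^ a * (1 / (n : ℝ) ^ (a + d1 + 8)) := by
        intro q _
        rw [← mul_sub, abs_mul, ← hKR]
        exact mul_le_mul (hF i q) (round_spec K hK _ (hc1 q)).2 (abs_nonneg _) (by positivity)
      refine (Finset.sum_le_card_nsmul _ _ _ h1).trans ?_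
      rw [nsmul_eq_mul, card_univ]
      calc (Fintype.card β : ℝ) * ((n : ℝ) ^ a * (1 / (n : ℝ) ^ (a + d1 + 8)))
          ≤ n * ((n : ℝ) ^ a * (1 / (n : ℝ) ^ (a + d1 + 8))) :=
            mul_le_mul_of_nonneg_right hβR (by positivity)
        _ = 1 / (n : ℝ) ^ (d1 + 7) := by
            rw [show a + d1 + 8 = a + (d1 + 7) + 1 by ring, pow_succ, pow_add]
            field_simp
    have hAy : ∀ l, |∑ l', mat (blk T (res T b)) l l' * v (en T l') -
        ∑ q, (F (en T l) q : ℝ) * ((z' q : ℝ) / K)| ≤ 2 / (n : ℝ) ^ (d1 + 7) := by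
      intro l
      rw [hA l]
      have h1 := hrow (en T l)
      have h2 := hcF (en T l)
      have h3 := pw (d1 + 7) (a + d1 + 7) (by omega)
      have h4 : ∑ j ∈ T, (if b s((en T l : Fin n), j) then v j else 0) -
          ∑ q, (F (en T l) q : ℝ) * ((z' q : ℝ) / K) =
          (∑ j ∈ T, (if b s((en T l : Fin n), j) then v j else 0) - ∑ q, (F (en T l) q : ℝ) * c q) +
          (∑ q, (F (en T l) q : ℝ) * c q - ∑ q, (F (en T l) q : ℝ) * ((z' q : ℝ) / K)) := by ring
      rw [h4]
      refine (abs_add_le _ _).trans ?_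
      calc _ ≤ 1 / (n : ℝ) ^ (d1 + 7) + 1 / (n : ℝ) ^ (d1 + 7) := add_le_add (h1.trans h3) h2
        _ = _ := by ring
    have hgood : good (res T b) z' (fun l => v (en T l)) := ⟨fun l => hv1 _, hAy⟩
    have hex : ∃ y, good (res T b) z' y := ⟨_, hgood⟩
    have hy0 : good (res T b) z' (y0 (res T b) z') := by
      simp only [y0]
      rw [dif_pos hex]
      exact hex.choose_spec
    set Y := y0 (res T b) z' with hY
    set M : ℝ := (n : ℝ) ^ (a + 2) with hM
    have hM0 : 0 < M := by rw [hM]; positivity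
    have hMe : M = (n : ℝ) ^ a * (n : ℝ) ^ 2 := by rw [hM, pow_add]
    have hna : 0 < (n : ℝ) ^ a := by positivity
    have hw1 : ∑ l, ((v (en T l) - Y l) / M) ^ 2 ≤ 1 := by
      have h1 : ∀ l ∈ (univ : Finset (Fin T.card)), ((v (en T l) - Y l) / M) ^ 2 ≤
          4 / (n : ℝ) ^ 4 := by
        intro l _
        have h2 : |v (en T l) - Y l| ≤ 2 * (n : ℝ) ^ a := by
          refine (abs_sub _ _).trans ?_
          have := hv1 (en T l)
          have := hy0.1 l
          linarith
        rw [← sq_abs, abs_div, abs_of_pos hM0]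
        calc (|v (en T l) - Y l| / M) ^ 2 ≤ (2 * (n : ℝ) ^ a / M) ^ 2 := by
              apply pow_le_pow_left₀ (by positivity)
              exact div_le_div_of_nonneg_right h2 hM0.le
          _ = 4 / (n : ℝ) ^ 4 := by
              rw [hMe]; field_simp; norm_num
      refine (Finset.sum_le_card_nsmul _ _ _ h1).trans ?_
      rw [nsmul_eq_mul, card_univ, Fintype.card_fin]
      calc (T.card : ℝ) * (4 / (n : ℝ) ^ 4) ≤ n * (4 / (n : ℝ) ^ 4) :=
            mul_le_mul_of_nonneg_right htR (by positivity)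
        _ = 4 / (n : ℝ) ^ 3 := by field_simp
        _ ≤ 1 := by
            rw [div_le_one (by positivity)]
            have : (16 : ℝ) ≤ (n : ℝ) ^ 1 := by rw [pow_one]; exact hnR
            calc (4 : ℝ) ≤ 16 := by norm_num
              _ ≤ (n : ℝ) ^ 1 := this
              _ ≤ (n : ℝ) ^ 3 := pow_le_pow_right₀ hn1 (by norm_num)
    have hAw : ∑ l, (∑ l', mat (blk T (res T b)) l l' * ((v (en T l') - Y l') / M)) ^ 2 ≤
        (1 / (n : ℝ) ^ (a + d1 + 8)) ^ 2 := by
      have h1 : ∀ l ∈ (univ : Finset (Fin T.card)),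
          (∑ l', mat (blk T (res T b)) l l' * ((v (en T l') - Y l') / M)) ^ 2 ≤
          (4 / (n : ℝ) ^ (a + d1 + 9)) ^ 2 := by
        intro l _
        have h2 : ∑ l', mat (blk T (res T b)) l l' * ((v (en T l') - Y l') / M) =
            ((∑ l', mat (blk T (res T b)) l l' * v (en T l') -
              ∑ q, (F (en T l) q : ℝ) * ((z' q : ℝ) / K)) -
            (∑ l', mat (blk T (res T b)) l l' * Y l' -
              ∑ q, (F (en T l) q : ℝ) * ((z' q : ℝ) / K))) / M := by
          rw [sub_sub_sub_cancel_right, ← Finset.sum_sub_distrib, Finset.sum_div]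
          refine Finset.sum_congr rfl fun l' _ => ?_
          ring
        rw [h2, ← sq_abs, abs_div, abs_of_pos hM0]
        apply pow_le_pow_left₀ (by positivity)
        have h3 : |(∑ l', mat (blk T (res T b)) l l' * v (en T l') -
              ∑ q, (F (en T l) q : ℝ) * ((z' q : ℝ) / K)) -
            (∑ l', mat (blk T (res T b)) l l' * Y l' -
              ∑ q, (F (en T l) q : ℝ) * ((z' q : ℝ) / K))| ≤ 4 / (n : ℝ) ^ (d1 + 7) := by
          refine (abs_sub _ _).trans ?_
          have h4 := hAy l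
          have h5 := hy0.2 l
          calc _ ≤ 2 / (n : ℝ) ^ (d1 + 7) + 2 / (n : ℝ) ^ (d1 + 7) := add_le_add h4 h5
            _ = _ := by ring
        calc _ ≤ 4 / (n : ℝ) ^ (d1 + 7) / M := div_le_div_of_nonneg_right h3 hM0.le
          _ = 4 / (n : ℝ) ^ (a + d1 + 9) := by
            rw [hM, div_div, ← pow_add]
            congr 2
            ring
      refine (Finset.sum_le_card_nsmul _ _ _ h1).trans ?_
      rw [nsmul_eq_mul, card_univ, Fintype.card_fin]
      calc (T.card : ℝ) * (4 / (n : ℝ) ^ (a + d1 + 9)) ^ 2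
          ≤ n * (4 / (n : ℝ) ^ (a + d1 + 9)) ^ 2 :=
            mul_le_mul_of_nonneg_right htR (by positivity)
        _ = 16 / n * (1 / (n : ℝ) ^ (a + d1 + 8)) ^ 2 := by
            rw [show a + d1 + 9 = (a + d1 + 8) + 1 by ring, pow_succ (n : ℝ) (a + d1 + 8)]
            field_simp
            norm_num
        _ ≤ 1 * (1 / (n : ℝ) ^ (a + d1 + 8)) ^ 2 := by
            apply mul_le_mul_of_nonneg_right _ (by positivity)
            rw [div_le_one hn0]; exact hnR
        _ = _ := one_mul _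
    obtain ⟨z, hz, hclose⟩ := exists_netVec (mat_herm (blk T (res T b))) K hK k hsm
      (fun l => (v (en T l) - Y l) / M) hw1 (1 / (n : ℝ) ^ (a + d1 + 8)) (by positivity) hAw
    refine ⟨(z, z'), mem_product.2 ⟨hz, hz'⟩, mem_filter.2 ⟨mem_univ _, fun s => ?_⟩⟩
    have hρ : 1 / (n : ℝ) ^ (a + d1 + 8) + Real.sqrt (T.card : ℝ) / K ≤
        2 / (n : ℝ) ^ (a + d1 + 7) := by
      have h1 : Real.sqrt (T.card : ℝ) ≤ n := by
        rw [Real.sqrt_le_left (by positivity)]
        nlinarith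
      have h2 : Real.sqrt (T.card : ℝ) / K ≤ n / (n : ℝ) ^ (a + d1 + 8) := by
        rw [hKR]
        exact div_le_div_of_nonneg_right h1 (by positivity)
      have h3 : n / (n : ℝ) ^ (a + d1 + 8) = 1 / (n : ℝ) ^ (a + d1 + 7) := by
        rw [show a + d1 + 8 = (a + d1 + 7) + 1 by ring, pow_succ]
        field_simp
      have h4 := pw (a + d1 + 7) (a + d1 + 8) (by omega)
      calc _ ≤ 1 / (n : ℝ) ^ (a + d1 + 7) + 1 / (n : ℝ) ^ (a + d1 + 7) := by
            rw [← h3]; rw [h3]; exact add_le_add h4 (h2.trans (le_of_eq h3))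
        _ = _ := by ring
    have hdist : ∀ j : {j // j ∈ T}, |v j - v' (res T b) z z' j| ≤ 2 / (n : ℝ) ^ (d1 + 5) := by
      intro j
      have h1 := (hclose ((en T).symm j)).trans hρ
      simp only [Equiv.apply_symm_apply] at h1
      have h2 : v j - v' (res T b) z z' j =
          M * ((v j - Y ((en T).symm j)) / M -
            netVec (mat_herm (blk T (res T b))) K z ((en T).symm j)) := by
        simp only [v']
        rw [← hY, ← hM]
        field_simp
        ring
      rw [h2, abs_mul, abs_of_pos hM0]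
      calc _ ≤ M * (2 / (n : ℝ) ^ (a + d1 + 7)) := mul_le_mul_of_nonneg_left h1 hM0.le
        _ = 2 / (n : ℝ) ^ (d1 + 5) := by
          rw [hM, show a + d1 + 7 = (a + 2) + (d1 + 5) by ring, pow_add (n : ℝ) (a + 2)]
          field_simp
    have hcond : t0 ≤ (univ.filter fun j =>
        8 / (n : ℝ) ^ (d1 + 4) < |v' (res T b) z z' j|).card := by
      refine hlarge.trans ?_
      have h1 : (T.filter fun j => 1 / (n : ℝ) ^ d1 ≤ |v j|) ⊆
          (univ.filter fun j => 8 / (n : ℝ) ^ (d1 + 4) < |v' (res T b) z z' j|).image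
            Subtype.val := by
        intro j hj
        obtain ⟨hjT, hj1⟩ := mem_filter.1 hj
        refine mem_image.2 ⟨⟨j, hjT⟩, mem_filter.2 ⟨mem_univ _, ?_⟩, rfl⟩
        have h2 := hdist ⟨j, hjT⟩
        have h3 := abs_sub_abs_le_abs_sub (v j) (v' (res T b) z z' ⟨j, hjT⟩)
        have h4 : 8 / (n : ℝ) ^ (d1 + 4) < 1 / (n : ℝ) ^ d1 - 2 / (n : ℝ) ^ (d1 + 5) := by
          have h6 : 1 / (n : ℝ) ^ d1 - 2 / (n : ℝ) ^ (d1 + 5) - 8 / (n : ℝ) ^ (d1 + 4) =
              ((n : ℝ) ^ 5 - 2 - 8 * n) / (n : ℝ) ^ (d1 + 5) := by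
            rw [show d1 + 5 = d1 + 4 + 1 by ring, pow_succ (n : ℝ) (d1 + 4), pow_add (n : ℝ) d1 4]
            field_simp
          have h7 : 0 < ((n : ℝ) ^ 5 - 2 - 8 * n) / (n : ℝ) ^ (d1 + 5) := by
            apply div_pos _ (by positivity)
            have h8 : (256 : ℝ) ≤ (n : ℝ) ^ 2 := by nlinarith
            have h9 : (n : ℝ) ^ 5 = (n : ℝ) ^ 2 * (n : ℝ) ^ 2 * n := by ring
            rw [h9]
            nlinarith [mul_le_mul h8 h8 (by norm_num) (by positivity)]
          linarith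
        change |v j - v' (res T b) z z' ⟨j, hjT⟩| ≤ _ at h2
        linarith
      exact (card_le_card h1).trans card_image_le
    simp only [X]
    rw [if_pos hcond]
    refine mem_filter.2 ⟨mem_univ _, ?_⟩
    have h2 : ∑ j : {j // j ∈ T}, (if rows T b s j then v j else 0) =
        ∑ j ∈ T, (if b s(s, j) then v j else 0) := by
      rw [← Finset.sum_coe_sort T]
      exact Finset.sum_congr rfl fun _ _ => rfl
    have h3 := hrow s
    have h4 := hcF s
    have h5 : |∑ j : {j // j ∈ T}, (if rows T b s j then v j else 0) -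
        ∑ j : {j // j ∈ T}, (if rows T b s j then v' (res T b) z z' j else 0)| ≤
        2 / (n : ℝ) ^ (d1 + 4) := by
      rw [← Finset.sum_sub_distrib]
      refine (Finset.abs_sum_le_sum_abs _ _).trans ?_
      have h6 : ∀ j ∈ (univ : Finset {j // j ∈ T}), |(if rows T b s j then v j else 0) -
          (if rows T b s j then v' (res T b) z z' j else 0)| ≤ 2 / (n : ℝ) ^ (d1 + 5) := by
        intro j _
        split_ifs
        · exact hdist j
        · rw [sub_zero, abs_zero]; positivity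
      refine (Finset.sum_le_card_nsmul _ _ _ h6).trans ?_
      rw [nsmul_eq_mul, card_univ, card_mem]
      calc (T.card : ℝ) * (2 / (n : ℝ) ^ (d1 + 5)) ≤ n * (2 / (n : ℝ) ^ (d1 + 5)) :=
            mul_le_mul_of_nonneg_right htR (by positivity)
        _ = 2 / (n : ℝ) ^ (d1 + 4) := by
            rw [show d1 + 5 = d1 + 4 + 1 by ring, pow_succ]
            field_simp
    have h7 : ∑ j : {j // j ∈ T}, (if rows T b s j then v' (res T b) z z' j else 0) -
        ∑ q, (F s q : ℝ) * ((z' q : ℝ) / K) =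
        (∑ j ∈ T, (if b s(s, j) then v j else 0) - ∑ q, (F s q : ℝ) * c q) +
        (∑ q, (F s q : ℝ) * c q - ∑ q, (F s q : ℝ) * ((z' q : ℝ) / K)) -
        (∑ j : {j // j ∈ T}, (if rows T b s j then v j else 0) -
        ∑ j : {j // j ∈ T}, (if rows T b s j then v' (res T b) z z' j else 0)) := by
      rw [h2]; ring
    change |∑ j : {j // j ∈ T}, (if rows T b s j then v' (res T b) z z' j else 0) -
        ∑ q, (F s q : ℝ) * ((z' q : ℝ) / K)| ≤ _
    rw [h7]
    refine (abs_sub _ _).trans ((add_le_add ((abs_add_le _ _).trans (add_le_add h3 h4)) h5).trans ?_)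
    have e1 := pw (d1 + 4) (a + d1 + 7) (by omega)
    have e2 := pw (d1 + 4) (d1 + 7) (by omega)
    calc _ ≤ 1 / (n : ℝ) ^ (d1 + 4) + 1 / (n : ℝ) ^ (d1 + 4) + 2 / (n : ℝ) ^ (d1 + 4) :=
          add_le_add (add_le_add e1 e2) le_rfl
      _ = _ := by ring
  have hu : (((𝒵.biUnion E).card : ℕ) : ℝ) ≤
      (2 * (n : ℝ) ^ (a + d1 + 8) + 1) ^ (k + Fintype.card β) *
        ((1 / Real.sqrt t0) ^ (n - T.card) * 2 ^ Fintype.card (Sym2 (Fin n))) := by
    have h1 : (((𝒵.biUnion E).card : ℕ) : ℝ) ≤ ∑ zz ∈ 𝒵, ((E zz).card : ℝ) := by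
      exact_mod_cast card_biUnion_le
    refine h1.trans ((sum_le_sum fun z _ => hE z).trans ?_)
    rw [sum_const, nsmul_eq_mul, h𝒵, card_product, Fintype.card_piFinset, Fintype.card_piFinset,
      prod_const, prod_const, card_univ, card_univ, Fintype.card_fin, Int.card_Icc]
    have h2 : (((K + 1 - -K).toNat : ℕ) : ℝ) = 2 * (n : ℝ) ^ (a + d1 + 8) + 1 := by
      have h3 : ((K + 1 - -K).toNat : ℤ) = 2 * K + 1 := by
        rw [Int.toNat_of_nonneg (by linarith)]; ring
      have h4 : (((K + 1 - -K).toNat : ℤ) : ℝ) = 2 * (K : ℝ) + 1 := by rw [h3]; push_cast; ring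
      rw [← hKR, ← h4]
      push_cast
      rfl
    push_cast
    rw [h2, pow_add (2 * (n : ℝ) ^ (a + d1 + 8) + 1) k]
  have hb1 := card_res_le T Bd _ hBd
  have hfin : ((((univ : Finset (Sym2 (Fin n) → Bool)).filter fun b => RW T F t0 a d1 b).card :
      ℕ) : ℝ) ≤
      (((univ : Finset (Sym2 (Fin n) → Bool)).filter fun b => res T b ∈ Bd).card : ℝ) +
      (((𝒵.biUnion E).card : ℕ) : ℝ) := by
    exact_mod_cast (card_le_card hsub).trans (card_union_le _ _)
  calc _ ≤ _ := hfin
    _ ≤ _ := add_le_add hb1 hu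
    _ = _ := by ring

end Vale.Agent.P160.Half.RCp
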