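import Vale.Agent.P160.Half.RCGlue116
import Vale.Agent.P160.Half.RCNum
import Vale.Agent.P160.Half.RCprob133

/-! # P160, half rate: real conditioning, probabilistic half and the final statement -/

namespace Vale.Agent.P160.Half.RC682

open Finset Vale.Agent.P160.Half.Tame Vale.Agent.P160.Half.Spec

theorem natpow_of_rpow {n : ℕ} (hn : 1 ≤ n) {A : ℝ} {a : ℕ} (h : A ≤ a) :
    (n : ℝ) ^ A ≤ (n : ℝ) ^ a := by
  rw [← Real.rpow_natCast]
  exact Real.rpow_le_rpow_of_exponent_le (by exact_mod_cast hn) h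

open Classical in
theorem rcProb : RCG.RCProb := by
  intro C δ hδ
  obtain ⟨t₀, ht1, hnum⟩ := RCNum.rc_num C δ hδ
  refine ⟨t₀, fun J A D₁ => ?_⟩
  obtain ⟨a, ha⟩ := exists_nat_ge A
  obtain ⟨d1, hd1⟩ := exists_nat_ge D₁
  obtain ⟨n0, hn0⟩ := hnum (a + d1 + 8) J
  refine ⟨((a + d1 + 8 : ℕ) : ℝ), max (max n0 16) J, fun n hn β _ _ hβ F hF => ?_⟩
  have hnn0 : n0 ≤ n := (le_max_left _ _).trans ((le_max_left _ _).trans hn)
  have hn16 : 16 ≤ n := (le_max_right _ _).trans ((le_max_left _ _).trans hn)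
  have hnJ : J ≤ n := (le_max_right _ _).trans hn
  have hn1 : 1 ≤ n := by omega
  have hnR : (1 : ℝ) ≤ n := by exact_mod_cast hn1
  have hnpos : (0 : ℝ) < n := by linarith
  obtain ⟨⟨hk4, hkn⟩, hX, hY⟩ := hn0 n hnn0 ⌊(n : ℝ) ^ (2 / 3 : ℝ)⌋₊ rfl
  set k : ℕ := ⌊(n : ℝ) ^ (2 / 3 : ℝ)⌋₊ with hk
  have hFa : ∀ i q, |(F i q : ℝ)| ≤ (n : ℝ) ^ a := fun i q => (hF i q).trans (natpow_of_rpow hn1 ha)
  -- the union
  let TT : Finset (Finset (Fin n)) := univ.filter fun T => δ * n ≤ ((n - T.card : ℕ) : ℝ)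
  have hsub : RCG.evRC n β F A D₁ ((a + d1 + 8 : ℕ) : ℝ) δ t₀ ⊆
      TT.biUnion fun T => univ.filter fun b => RCp.RW T F t₀ a d1 b := by
    intro b hb
    obtain ⟨v, c, hc, hv, hrow, ht, hs⟩ := RCG.mem_evRC.1 hb
    have hD : (n : ℝ) ^ (-((a + d1 + 8 : ℕ) : ℝ)) = 1 / (n : ℝ) ^ (a + d1 + 8) := by
      rw [Real.rpow_neg hnpos.le, Real.rpow_natCast, one_div]
    have hD1 : 1 / (n : ℝ) ^ d1 ≤ (n : ℝ) ^ (-D₁) := by
      rw [Real.rpow_neg hnpos.le, one_div]
      exact inv_anti₀ (Real.rpow_pos_of_pos hnpos _) (natpow_of_rpow hn1 hd1)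
    set S : Finset (Fin n) := univ.filter fun j => |v j| < (n : ℝ) ^ (-((a + d1 + 8 : ℕ) : ℝ))
      with hS
    have hcardT : n - (Sᶜ).card = S.card := by
      have h1 := Finset.card_compl_add_card S
      rw [Fintype.card_fin] at h1
      omega
    rw [mem_biUnion]
    refine ⟨Sᶜ, mem_filter.2 ⟨mem_univ _, ?_⟩, mem_filter.2 ⟨mem_univ _, v, c, hc, ?_, ?_, ?_⟩⟩
    · rw [hcardT]
      convert hs
    · exact fun i => (hv i).trans (natpow_of_rpow hn1 ha)
    · intro i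
      have h1 : ∑ j ∈ S, (if b s(i, j) then v j else 0) +
          ∑ j ∈ Sᶜ, (if b s(i, j) then v j else 0) = ∑ q, (F i q : ℝ) * c q := by
        rw [Finset.sum_add_sum_compl]
        exact hrow i
      have h2 : ∑ j ∈ Sᶜ, (if b s(i, j) then v j else 0) - ∑ q, (F i q : ℝ) * c q =
          -∑ j ∈ S, (if b s(i, j) then v j else 0) := by linarith
      rw [h2, abs_neg]
      refine (Finset.abs_sum_le_sum_abs _ _).trans ?_
      have h3 : ∀ j ∈ S, |if b s(i, j) then v j else 0| ≤ 1 / (n : ℝ) ^ (a + d1 + 8) := by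
        intro j hj
        have h4 := (mem_filter.1 hj).2
        rw [hD] at h4
        split_ifs
        · exact h4.le
        · rw [abs_zero]; positivity
      refine (Finset.sum_le_card_nsmul _ _ _ h3).trans ?_
      rw [nsmul_eq_mul]
      have h5 : (S.card : ℝ) ≤ n := by
        have := S.card_le_univ
        rw [Fintype.card_fin] at this
        exact_mod_cast this
      calc (S.card : ℝ) * (1 / (n : ℝ) ^ (a + d1 + 8)) ≤ n * (1 / (n : ℝ) ^ (a + d1 + 8)) :=
            mul_le_mul_of_nonneg_right h5 (by positivity)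
        _ = 1 / (n : ℝ) ^ (a + d1 + 7) := by
            rw [show a + d1 + 8 = (a + d1 + 7) + 1 by ring, pow_succ (n : ℝ) (a + d1 + 7)]
            field_simp
    · refine ht.trans (card_le_card fun j hj => ?_)
      have h1 := (mem_filter.1 hj).2
      have h2 : 1 / (n : ℝ) ^ d1 ≤ |v j| := hD1.trans h1
      refine mem_filter.2 ⟨?_, h2⟩
      rw [mem_compl]
      intro hjS
      have h3 := (mem_filter.1 hjS).2
      rw [hD] at h3
      have h4 : 1 / (n : ℝ) ^ (a + d1 + 8) ≤ 1 / (n : ℝ) ^ d1 := by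
        apply one_div_le_one_div_of_le (by positivity)
        exact pow_le_pow_right₀ hnR (by omega)
      linarith
  have hone : ∀ T ∈ TT, (((univ.filter fun b => RCp.RW T F t₀ a d1 b) :
      Finset (Sym2 (Fin n) → Bool)).card : ℝ) ≤
      ((2 : ℝ) ^ (-(C * n)) / 2 ^ n) * 2 ^ Fintype.card (Sym2 (Fin n)) := by
    intro T hT
    have hTs := (mem_filter.1 hT).2
    have hTn : T.card ≤ n := by simpa using T.card_le_univ
    have h1 := RCp.rw_card T F k t₀ a d1 hn16 (by omega) ht1 (hβ.trans hnJ) (hX _ hTn).1 hFa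
    refine h1.trans (mul_le_mul_of_nonneg_right ?_ (by positivity))
    have h2 := (hX _ hTn).2
    have h3 := hY _ hTs
    have h4 : (2 * (n : ℝ) ^ (a + d1 + 8) + 1) ^ (k + Fintype.card β) ≤
        (2 * (n : ℝ) ^ (a + d1 + 8) + 1) ^ (k + J) := by
      apply pow_le_pow_right₀
      · have : (0 : ℝ) ≤ (n : ℝ) ^ (a + d1 + 8) := by positivity
        linarith
      · omega
    have h5 : (0 : ℝ) ≤ (1 / Real.sqrt t₀) ^ (n - T.card) := by positivity
    rw [le_div_iff₀ (by positivity)]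
    have h6 := mul_le_mul_of_nonneg_right h4 h5
    have h7 : (0 : ℝ) < 2 ^ n := by positivity
    nlinarith [mul_le_mul_of_nonneg_left h6 h7.le]
  calc ((RCG.evRC n β F A D₁ ((a + d1 + 8 : ℕ) : ℝ) δ t₀).card : ℝ)
      ≤ ((TT.biUnion fun T => univ.filter fun b => RCp.RW T F t₀ a d1 b).card : ℝ) := by
        exact_mod_cast card_le_card hsub
    _ ≤ ∑ T ∈ TT, (((univ.filter fun b => RCp.RW T F t₀ a d1 b) :
      Finset (Sym2 (Fin n) → Bool)).card : ℝ) := by exact_mod_cast card_biUnion_le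
    _ ≤ ∑ T ∈ TT, ((2 : ℝ) ^ (-(C * n)) / 2 ^ n) * 2 ^ Fintype.card (Sym2 (Fin n)) :=
        Finset.sum_le_sum hone
    _ = (TT.card : ℝ) * (((2 : ℝ) ^ (-(C * n)) / 2 ^ n) * 2 ^ Fintype.card (Sym2 (Fin n))) := by
        rw [sum_const, nsmul_eq_mul]
    _ ≤ (2 : ℝ) ^ n * (((2 : ℝ) ^ (-(C * n)) / 2 ^ n) * 2 ^ Fintype.card (Sym2 (Fin n))) := by
        refine mul_le_mul_of_nonneg_right ?_ (by positivity)
        have h1 : TT.card ≤ 2 ^ n := by
          have := TT.card_le_univ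
          rwa [Fintype.card_finset, Fintype.card_fin] at this
        exact_mod_cast h1
    _ = _ := by field_simp

/-- **RC** -/
theorem rc : G.RCStmt := RCG.rc_of rcProb

end Vale.Agent.P160.Half.RC682
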