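import Vale.Agent.P160.Half.RCprob133
import Vale.Agent.P160.Half.RCNum
import Vale.Agent.P160.Half.RCGlue116

/-! # P160: real conditioning, probabilistic half `RCProb` -/

namespace Vale.Agent.P160.Half.RCp

open Finset Vale.Agent.P160.Half.Spec Vale.Agent.P160.Half.Tame

theorem rcProb : RCG.RCProb := by
  classical
  intro C δ hδ
  obtain ⟨t0, ht0, hnum⟩ := RCNum.rc_num C δ hδ
  refine ⟨t0, fun J A D1 => ?_⟩
  set a : ℕ := ⌈A⌉₊ with ha
  set d1 : ℕ := ⌈D1⌉₊ with hd1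
  obtain ⟨n0, hn0⟩ := hnum (a + d1 + 8) J
  refine ⟨((a + d1 + 8 : ℕ) : ℝ), max n0 (max 16 J), fun n hn β _ _ hβ F hF => ?_⟩
  have hn1 : n0 ≤ n := le_trans (le_max_left _ _) hn
  have hn2 : 16 ≤ n := le_trans (le_trans (le_max_left _ _) (le_max_right _ _)) hn
  have hn3 : J ≤ n := le_trans (le_trans (le_max_right _ _) (le_max_right _ _)) hn
  have hnR : (16 : ℝ) ≤ n := by exact_mod_cast hn2
  have hnpos : (0 : ℝ) < n := by linarith
  have hnone : (1 : ℝ) ≤ n := by linarith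
  obtain ⟨⟨hk4, hkn⟩, hb, hc⟩ := hn0 n hn1 _ rfl
  set k : ℕ := ⌊(n : ℝ) ^ (2 / 3 : ℝ)⌋₊ with hk
  have hpA : (n : ℝ) ^ A ≤ (n : ℝ) ^ a := by
    rw [← Real.rpow_natCast]
    exact Real.rpow_le_rpow_of_exponent_le hnone (Nat.le_ceil A)
  have hpD : (n : ℝ) ^ (-((a + d1 + 8 : ℕ) : ℝ)) = 1 / (n : ℝ) ^ (a + d1 + 8) := by
    rw [Real.rpow_neg hnpos.le, Real.rpow_natCast, one_div]
  have hpD1 : 1 / (n : ℝ) ^ d1 ≤ (n : ℝ) ^ (-D1) := by
    have h1 : 1 / (n : ℝ) ^ d1 = (n : ℝ) ^ (-(d1 : ℝ)) := by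
      rw [Real.rpow_neg hnpos.le, Real.rpow_natCast, one_div]
    rw [h1]
    apply Real.rpow_le_rpow_of_exponent_le hnone
    have := Nat.le_ceil D1
    linarith
  let 𝒯 : Finset (Finset (Fin n)) := univ.filter fun T => δ * n ≤ ((n - T.card : ℕ) : ℝ)
  have hsub : RCG.evRC n β F A D1 ((a + d1 + 8 : ℕ) : ℝ) δ t0 ⊆
      𝒯.biUnion fun T => univ.filter fun b => RW T F t0 a d1 b := by
    intro b hb
    obtain ⟨v, c, hc1, hv, heq, hlarge, hsmall⟩ := RCG.mem_evRC.1 hb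
    rw [hpD] at hsmall
    set S := (univ.filter fun j => |v j| < 1 / (n : ℝ) ^ (a + d1 + 8)) with hS
    rw [mem_biUnion]
    refine ⟨Sᶜ, mem_filter.2 ⟨mem_univ _, ?_⟩, mem_filter.2 ⟨mem_univ _, v, c, hc1,
      fun i => (hv i).trans hpA, fun i => ?_, ?_⟩⟩
    · have h1 : n - (Sᶜ).card = S.card := by
        rw [card_compl, Fintype.card_fin]
        have := S.card_le_univ
        rw [Fintype.card_fin] at this
        omega
      rw [h1]
      exact hsmall
    · have h2 := Finset.sum_add_sum_compl S (fun j => if b s(i, j) then v j else 0)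
      have h3 : ∑ j ∈ Sᶜ, (if b s(i, j) then v j else 0) - ∑ q, (F i q : ℝ) * c q =
          -∑ j ∈ S, (if b s(i, j) then v j else 0) := by
        rw [← heq i, ← h2]; ring
      rw [h3, abs_neg]
      refine (Finset.abs_sum_le_sum_abs _ _).trans ?_
      have h4 : ∀ j ∈ S, |if b s(i, j) then v j else 0| ≤ 1 / (n : ℝ) ^ (a + d1 + 8) := by
        intro j hj
        have h5 : |v j| ≤ 1 / (n : ℝ) ^ (a + d1 + 8) := (mem_filter.1 hj).2.le
        split_ifs
        · exact h5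
        · rw [abs_zero]; positivity
      refine (Finset.sum_le_card_nsmul _ _ _ h4).trans ?_
      rw [nsmul_eq_mul]
      have h6 : (S.card : ℝ) ≤ n := by
        have := S.card_le_univ
        rw [Fintype.card_fin] at this
        exact_mod_cast this
      calc (S.card : ℝ) * (1 / (n : ℝ) ^ (a + d1 + 8)) ≤ n * (1 / (n : ℝ) ^ (a + d1 + 8)) :=
            mul_le_mul_of_nonneg_right h6 (by positivity)
        _ = 1 / (n : ℝ) ^ (a + d1 + 7) := by
          rw [show a + d1 + 8 = (a + d1 + 7) + 1 by ring, pow_succ (n : ℝ) (a + d1 + 7)]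
          field_simp
    · refine hlarge.trans (card_le_card fun j hj => ?_)
      have h1 := (mem_filter.1 hj).2
      have h2 : 1 / (n : ℝ) ^ d1 ≤ |v j| := hpD1.trans h1
      refine mem_filter.2 ⟨mem_compl.2 fun hjS => ?_, h2⟩
      have h3 := (mem_filter.1 hjS).2
      have h4 : 1 / (n : ℝ) ^ (a + d1 + 8) ≤ 1 / (n : ℝ) ^ d1 :=
        one_div_le_one_div_of_le (by positivity) (pow_le_pow_right₀ hnone (by omega))
      linarith
  set Z : ℝ := 2 ^ Fintype.card (Sym2 (Fin n)) with hZ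
  have hZ0 : 0 < Z := by rw [hZ]; positivity
  have h2n : (0 : ℝ) < (2 : ℝ) ^ n := by positivity
  have hinc : ∀ T ∈ 𝒯, (((univ : Finset (Sym2 (Fin n) → Bool)).filter
      fun b => RW T F t0 a d1 b).card : ℝ) ≤ ((2 : ℝ) ^ (-(C * n)) / 2 ^ n) * Z := by
    intro T hT
    have hT' := (mem_filter.1 hT).2
    have htn : T.card ≤ n := by simpa using T.card_le_univ
    have h1 := hb T.card htn
    have h2 := hc (n - T.card) hT'
    refine (rw_card T F k t0 a d1 hn2 (by omega) ht0 (hβ.trans hn3) h1.1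
      (fun i q => (hF i q).trans hpA)).trans (mul_le_mul_of_nonneg_right ?_ hZ0.le)
    rw [le_div_iff₀ h2n]
    have hmono : (2 * (n : ℝ) ^ (a + d1 + 8) + 1) ^ (k + Fintype.card β) ≤
        (2 * (n : ℝ) ^ (a + d1 + 8) + 1) ^ (k + J) := by
      apply pow_le_pow_right₀ _ (by omega)
      have : 0 ≤ (n : ℝ) ^ (a + d1 + 8) := by positivity
      linarith
    have hq0 : 0 ≤ (1 / Real.sqrt t0) ^ (n - T.card) := by positivity
    calc _ = (2 : ℝ) ^ n * (T.card * Real.exp (-((k : ℝ) / 32))) ^ (k / 2) +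
          (2 : ℝ) ^ n * (2 * (n : ℝ) ^ (a + d1 + 8) + 1) ^ (k + Fintype.card β) *
            (1 / Real.sqrt t0) ^ (n - T.card) := by ring
      _ ≤ (2 : ℝ) ^ n * (T.card * Real.exp (-((k : ℝ) / 32))) ^ (k / 2) +
          (2 : ℝ) ^ n * (2 * (n : ℝ) ^ (a + d1 + 8) + 1) ^ (k + J) *
            (1 / Real.sqrt t0) ^ (n - T.card) := by
          refine add_le_add le_rfl (mul_le_mul_of_nonneg_right ?_ hq0)
          exact mul_le_mul_of_nonneg_left hmono h2n.le
      _ ≤ 1 / 2 * (2 : ℝ) ^ (-(C * n)) + 1 / 2 * (2 : ℝ) ^ (-(C * n)) := add_le_add h1.2 h2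
      _ = _ := by ring
  have hU : (((𝒯.biUnion fun T => (univ : Finset (Sym2 (Fin n) → Bool)).filter
      fun b => RW T F t0 a d1 b).card : ℕ) : ℝ) ≤ (2 : ℝ) ^ (-(C * n)) * Z := by
    have h1 : (((𝒯.biUnion fun T => (univ : Finset (Sym2 (Fin n) → Bool)).filter
        fun b => RW T F t0 a d1 b).card : ℕ) : ℝ) ≤
        ∑ T ∈ 𝒯, (((univ : Finset (Sym2 (Fin n) → Bool)).filter
          fun b => RW T F t0 a d1 b).card : ℝ) := by
      exact_mod_cast card_biUnion_le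
    refine h1.trans ((sum_le_sum hinc).trans ?_)
    rw [sum_const, nsmul_eq_mul]
    have h2 : (𝒯.card : ℝ) ≤ 2 ^ n := by
      have := 𝒯.card_le_univ
      rw [Fintype.card_finset, Fintype.card_fin] at this
      exact_mod_cast this
    calc (𝒯.card : ℝ) * (((2 : ℝ) ^ (-(C * n)) / 2 ^ n) * Z)
        ≤ 2 ^ n * (((2 : ℝ) ^ (-(C * n)) / 2 ^ n) * Z) :=
          mul_le_mul_of_nonneg_right h2 (by positivity)
      _ = _ := by field_simp
  have hfin : ((RCG.evRC n β F A D1 ((a + d1 + 8 : ℕ) : ℝ) δ t0).card : ℝ) ≤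
      (((𝒯.biUnion fun T => (univ : Finset (Sym2 (Fin n) → Bool)).filter
      fun b => RW T F t0 a d1 b).card : ℕ) : ℝ) := by
    exact_mod_cast card_le_card hsub
  exact hfin.trans hU

end Vale.Agent.P160.Half.RCp
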