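import Vale.Agent.P160.Half.RankQ
import Vale.Agent.P160.RD.Growth304

/-!
# P160, block (M): rational rank of iid matrices, rate `log2 (4/3)`

`rank_countD`: seeds `e : Ω → {0, 1, -1}` with `#{e = 0} ≤ D/2 |Ω|`, `#{e = ±1} ≤ D/4 |Ω|` (`D = 1` is
the law `(1/4,1/2,1/4)`). The number of `X : Matrix κ κ' Ω` (`|κ| = |κ'| = k`) with rational rank of
`e ∘ X` equal to `k - r` is at most `k 2^(2k+2r) (3/4)^(rk) (D |Ω|)^(k²)` (`1 ≤ r ≤ k`).
`rank_countD_le`: the same for rank at most `k - r`, with one more factor `k`.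
`rank_count2`, `rank_count2_le`: the exact law.
-/

namespace Vale.Agent.P160.Half.RankQ304

open Finset Module Vale.Agent.P160.RD Vale.Agent.P160.RD.Swap304

open Classical in
/-- weighted form -/
theorem rank_wt2 {k r : ℕ} (hr : 1 ≤ r) (hrk : r ≤ k) :
    (∑ X : Fin k → (Fin k → Fin 3),
      if finrank ℚ (Submodule.span ℚ (Set.range fun i => vec (X i))) = k - r
      then wt u X else 0) ≤ k * (2 : ℝ) ^ (2 * k + 2 * r) * (3 / 4 : ℝ) ^ (r * k) :=
  rank_swap (Om := Fin k → Fin 3) (k := k) (u := u) (v := v) u_nonneg v_nonneg (sum_u k)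
    (sum_v k) (vec := vec) (t := 3 / 4) (le_refl _) (by norm_num) (fun U => by
      have h1 := odlyzko U
      rw [sum_filter] at h1
      exact h1) (fun U => by
      have h1 := Vale.Agent.P160.RD.Growth304.growth U
      rw [sum_filter, sum_filter] at h1
      exact h1) hr hrk

open Classical in
/-- push forward of the counting measure, dominated law -/
theorem count_push_le {k : ℕ} {Ω : Type*} [Fintype Ω] (φ : Ω → Fin 3) {D : ℝ}
    (hφ : ∀ b, ((univ.filter fun ω => φ ω = b).card : ℝ) ≤ D * Fintype.card Ω * w4 b)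
    (P : (Fin k → Fin k → Fin 3) → Prop) :
    ((univ.filter fun X : Fin k → Fin k → Ω => P (fun i j => φ (X i j))).card : ℝ) ≤
      (D * Fintype.card Ω : ℝ) ^ (k * k) *
        ∑ Y : Fin k → Fin k → Fin 3, if P Y then wt u Y else 0 := by
  have h1 : ((univ.filter fun X : Fin k → Fin k → Ω => P (fun i j => φ (X i j))).card : ℝ) =
      ∑ Y : Fin k → Fin k → Fin 3, if P Y then
        (((univ.filter fun X : Fin k → Fin k → Ω => (fun i j => φ (X i j)) = Y).card : ℕ) : ℝ)
        else 0 := by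
    rw [card_eq_sum_card_fiberwise (f := fun X : Fin k → Fin k → Ω => (fun i j => φ (X i j)))
      (t := univ) (fun _ _ => mem_coe.2 (mem_univ _))]
    push_cast
    refine sum_congr rfl fun Y _ => ?_
    rw [filter_filter]
    by_cases hY : P Y
    · rw [if_pos hY]
      congr 2
      ext X
      simp only [mem_filter, mem_univ, true_and]
      constructor
      · exact fun h => h.2
      · intro h
        exact ⟨by rw [h]; exact hY, h⟩
    · rw [if_neg hY]
      rw [filter_false_of_mem]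
      · simp
      · intro X _ h
        exact hY (h.2 ▸ h.1)
  rw [h1, mul_sum]
  refine sum_le_sum fun Y _ => ?_
  by_cases hY : P Y
  · rw [if_pos hY, if_pos hY]
    have h2 : (univ.filter fun X : Fin k → Fin k → Ω => (fun i j => φ (X i j)) = Y) =
        Fintype.piFinset fun i => Fintype.piFinset fun j => univ.filter fun ω => φ ω = Y i j := by
      ext X
      simp only [mem_filter, mem_univ, true_and, Fintype.mem_piFinset]
      constructor
      · intro h i j
        exact congrFun (congrFun h i) j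
      · intro h
        funext i j
        exact h i j
    rw [h2, Fintype.card_piFinset]
    simp only [Fintype.card_piFinset]
    push_cast
    have h3 : (D * Fintype.card Ω : ℝ) ^ (k * k) =
        ∏ _i : Fin k, ∏ _j : Fin k, (D * Fintype.card Ω : ℝ) := by
      simp [pow_mul]
    rw [h3]
    unfold wt u
    rw [← prod_mul_distrib]
    refine prod_le_prod (fun i _ => prod_nonneg fun j _ => Nat.cast_nonneg _) fun i _ => ?_
    rw [← prod_mul_distrib]
    exact prod_le_prod (fun j _ => Nat.cast_nonneg _) fun j _ => hφ _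
  · rw [if_neg hY, if_neg hY, mul_zero]

section count2

variable {Ω : Type*} [Fintype Ω] {e : Ω → ℤ} {D : ℝ}

open Classical in
/-- counting form, matrices indexed by `Fin k`, dominated law -/
theorem rank_countD_fin (hv : ∀ ω, e ω = 0 ∨ e ω = 1 ∨ e ω = -1) (hD : 0 ≤ D)
    (h0 : ((univ.filter fun ω => e ω = 0).card : ℝ) ≤ D / 2 * Fintype.card Ω)
    (h1 : ((univ.filter fun ω => e ω = 1).card : ℝ) ≤ D / 4 * Fintype.card Ω)
    (h2 : ((univ.filter fun ω => e ω = -1).card : ℝ) ≤ D / 4 * Fintype.card Ω)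
    {k r : ℕ} (hr : 1 ≤ r) (hrk : r ≤ k) :
    ((univ.filter fun X : Matrix (Fin k) (Fin k) Ω =>
      ((X.map e).map (Int.cast : ℤ → ℚ)).rank = k - r).card : ℝ) ≤
      k * (2 : ℝ) ^ (2 * k + 2 * r) * (3 / 4 : ℝ) ^ (r * k) *
        (D * Fintype.card Ω : ℝ) ^ (k * k) := by
  let φ : Ω → Fin 3 := fun ω => if e ω = 0 then 0 else if e ω = 1 then 1 else 2
  have hφv : ∀ ω, Swap304.val (φ ω) = e ω := by
    intro ω
    rcases hv ω with h | h | h <;> simp [φ, h, val_0, val_1, val_2]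
  have hf0 : (univ.filter fun ω => φ ω = 0) = univ.filter fun ω => e ω = 0 := by
    ext ω
    simp only [mem_filter, mem_univ, true_and]
    rcases hv ω with h | h | h <;> simp [φ, h]
  have hf1 : (univ.filter fun ω => φ ω = 1) = univ.filter fun ω => e ω = 1 := by
    ext ω
    simp only [mem_filter, mem_univ, true_and]
    rcases hv ω with h | h | h <;> simp [φ, h]
  have hf2 : (univ.filter fun ω => φ ω = 2) = univ.filter fun ω => e ω = -1 := by
    ext ω
    simp only [mem_filter, mem_univ, true_and]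
    rcases hv ω with h | h | h <;> simp [φ, h]
  have hφ : ∀ b, ((univ.filter fun ω => φ ω = b).card : ℝ) ≤ D * Fintype.card Ω * w4 b := by
    intro b
    fin_cases b
    · show ((univ.filter fun ω => φ ω = 0).card : ℝ) ≤ _ * w4 0
      rw [hf0, w4_0]; linarith
    · show ((univ.filter fun ω => φ ω = 1).card : ℝ) ≤ _ * w4 1
      rw [hf1, w4_1]; linarith
    · show ((univ.filter fun ω => φ ω = 2).card : ℝ) ≤ _ * w4 2
      rw [hf2, w4_2]; linarith
  have h := count_push_le φ hφ (fun Y : Fin k → Fin k → Fin 3 =>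
    finrank ℚ (Submodule.span ℚ (Set.range fun i => vec (Y i))) = k - r)
  have hrow : ∀ X : Matrix (Fin k) (Fin k) Ω, ((X.map e).map (Int.cast : ℤ → ℚ)).rank =
      finrank ℚ (Submodule.span ℚ (Set.range fun i => vec (fun j => φ (X i j)))) := by
    intro X
    rw [Matrix.rank_eq_finrank_span_row]
    have : (((X.map e).map (Int.cast : ℤ → ℚ)) : Matrix (Fin k) (Fin k) ℚ).row =
        fun i => vec (fun j => φ (X i j)) := by
      funext i j
      show ((e (X i j) : ℤ) : ℚ) = ((Swap304.val (φ (X i j)) : ℤ) : ℚ)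
      rw [hφv]
    rw [this]
  have hset : (univ.filter fun X : Matrix (Fin k) (Fin k) Ω =>
      ((X.map e).map (Int.cast : ℤ → ℚ)).rank = k - r).card =
      (univ.filter fun X : Fin k → Fin k → Ω =>
        finrank ℚ (Submodule.span ℚ (Set.range fun i => vec (fun j => φ (X i j)))) = k - r).card := by
    apply card_bij (fun (X : Matrix (Fin k) (Fin k) Ω) _ => (fun i j => X i j : Fin k → Fin k → Ω))
    · intro X hX
      simp only [mem_filter, mem_univ, true_and] at hX ⊢
      rw [← hX, hrow X]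
    · intro X _ Y _ h
      ext i j
      exact congrFun (congrFun h i) j
    · intro Y hY
      refine ⟨Matrix.of Y, ?_, rfl⟩
      simp only [mem_filter, mem_univ, true_and] at hY ⊢
      rw [← hY, hrow (Matrix.of Y)]
      rfl
  rw [hset]
  have hle : (D * Fintype.card Ω : ℝ) ^ (k * k) * (∑ Y : Fin k → Fin k → Fin 3,
      if finrank ℚ (Submodule.span ℚ (Set.range fun i => vec (Y i))) = k - r then wt u Y else 0) ≤
      k * (2 : ℝ) ^ (2 * k + 2 * r) * (3 / 4 : ℝ) ^ (r * k) *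
        (D * Fintype.card Ω : ℝ) ^ (k * k) := by
    rw [mul_comm]
    exact mul_le_mul_of_nonneg_right (rank_wt2 hr hrk) (by positivity)
  have hle2 : (D * Fintype.card Ω : ℝ) ^ (k * k) * (∑ Y : Fin k → Fin k → Fin 3,
      @ite ℝ (finrank ℚ (Submodule.span ℚ (Set.range fun i => vec (Y i))) = k - r)
        (Classical.propDecidable _) (wt u Y) 0) ≤
      k * (2 : ℝ) ^ (2 * k + 2 * r) * (3 / 4 : ℝ) ^ (r * k) *
        (D * Fintype.card Ω : ℝ) ^ (k * k) := by
    convert hle
  refine le_trans (le_of_eq ?_) (h.trans hle2)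
  congr!

open Classical in
/-- **counting form**, arbitrary index types, dominated law -/
theorem rank_countD (hv : ∀ ω, e ω = 0 ∨ e ω = 1 ∨ e ω = -1) (hD : 0 ≤ D)
    (h0 : ((univ.filter fun ω => e ω = 0).card : ℝ) ≤ D / 2 * Fintype.card Ω)
    (h1 : ((univ.filter fun ω => e ω = 1).card : ℝ) ≤ D / 4 * Fintype.card Ω)
    (h2 : ((univ.filter fun ω => e ω = -1).card : ℝ) ≤ D / 4 * Fintype.card Ω)
    {κ κ' : Type*} [Fintype κ] [Fintype κ']
    {k r : ℕ} (hκ : Fintype.card κ = k) (hκ' : Fintype.card κ' = k) (hr : 1 ≤ r) (hrk : r ≤ k) :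
    ((univ.filter fun X : Matrix κ κ' Ω =>
      ((X.map e).map (Int.cast : ℤ → ℚ)).rank = k - r).card : ℝ) ≤
      k * (2 : ℝ) ^ (2 * k + 2 * r) * (3 / 4 : ℝ) ^ (r * k) *
        (D * Fintype.card Ω : ℝ) ^ (k * k) := by
  let f : κ ≃ Fin k := (Fintype.equivFin κ).trans (finCongr hκ)
  let g : κ' ≃ Fin k := (Fintype.equivFin κ').trans (finCongr hκ')
  have hcard : (univ.filter fun X : Matrix κ κ' Ω =>
      ((X.map e).map (Int.cast : ℤ → ℚ)).rank = k - r).card =
      (univ.filter fun X : Matrix (Fin k) (Fin k) Ω =>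
      ((X.map e).map (Int.cast : ℤ → ℚ)).rank = k - r).card := by
    apply card_bij (fun X _ => Matrix.reindex f g X)
    · intro X hX
      simp only [mem_filter, mem_univ, true_and] at hX ⊢
      rw [← hX]
      exact Matrix.rank_submatrix ((X.map e).map (Int.cast : ℤ → ℚ)) f.symm g.symm
    · intro X _ Y _ h
      exact (Matrix.reindex f g).injective h
    · intro Y hY
      refine ⟨(Matrix.reindex f g).symm Y, ?_, by simp⟩
      simp only [mem_filter, mem_univ, true_and] at hY ⊢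
      rw [← hY]
      exact Matrix.rank_submatrix ((Y.map e).map (Int.cast : ℤ → ℚ)) f g
  rw [hcard]
  exact rank_countD_fin hv hD h0 h1 h2 hr hrk

open Classical in
/-- rank at most `k - r`, dominated law -/
theorem rank_countD_le (hv : ∀ ω, e ω = 0 ∨ e ω = 1 ∨ e ω = -1) (hD : 1 ≤ D)
    (h0 : ((univ.filter fun ω => e ω = 0).card : ℝ) ≤ D / 2 * Fintype.card Ω)
    (h1 : ((univ.filter fun ω => e ω = 1).card : ℝ) ≤ D / 4 * Fintype.card Ω)
    (h2 : ((univ.filter fun ω => e ω = -1).card : ℝ) ≤ D / 4 * Fintype.card Ω)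
    {κ κ' : Type*} [Fintype κ] [Fintype κ']
    {k r : ℕ} (hκ : Fintype.card κ = k) (hκ' : Fintype.card κ' = k) (hr : 1 ≤ r) (hrk : r ≤ k) :
    ((univ.filter fun X : Matrix κ κ' Ω =>
      r ≤ k - ((X.map e).map (Int.cast : ℤ → ℚ)).rank).card : ℝ) ≤
      (k : ℝ) ^ 2 * (2 : ℝ) ^ (2 * k + 2 * r) * (3 / 4 : ℝ) ^ (r * k) *
        (D * Fintype.card Ω : ℝ) ^ (k * k) := by
  have hk1 : (1 : ℝ) ≤ k := by exact_mod_cast hr.trans hrk
  have hD0 : 0 ≤ D := by linarith
  have hallcard : (Fintype.card (Matrix κ κ' Ω) : ℝ) ≤ (D * Fintype.card Ω : ℝ) ^ (k * k) := by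
    have h7 : Fintype.card (Matrix κ κ' Ω) = Fintype.card (κ → κ' → Ω) :=
      Fintype.card_congr (Equiv.refl _)
    have h8 : Fintype.card (κ → κ' → Ω) = Fintype.card Ω ^ (k * k) := by
      rw [Fintype.card_fun, Fintype.card_fun, hκ, hκ', ← pow_mul]
    rw [h7, h8]
    push_cast
    apply pow_le_pow_left₀ (Nat.cast_nonneg _)
    have : (0 : ℝ) ≤ Fintype.card Ω := Nat.cast_nonneg _
    nlinarith
  by_cases hk5 : k < 5
  · have htriv : ((univ.filter fun X : Matrix κ κ' Ω =>
        r ≤ k - ((X.map e).map (Int.cast : ℤ → ℚ)).rank).card : ℝ) ≤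
        (D * Fintype.card Ω : ℝ) ^ (k * k) := by
      refine le_trans ?_ hallcard
      exact_mod_cast card_filter_le _ _
    refine htriv.trans ?_
    have h3 : (1 : ℝ) ≤ (k : ℝ) ^ 2 * ((2 : ℝ) ^ (2 * k + 2 * r) * (3 / 4 : ℝ) ^ (r * k)) := by
      have h4 : (1 : ℝ) ≤ (k : ℝ) ^ 2 := one_le_pow₀ hk1
      have h5 : (1 : ℝ) ≤ (2 : ℝ) ^ (2 * k + 2 * r) * (3 / 4 : ℝ) ^ (r * k) := by
        have h6 : (3 / 4 : ℝ) ^ (r * 4) ≤ (3 / 4 : ℝ) ^ (r * k) :=
          pow_le_pow_of_le_one (by norm_num) (by norm_num) (Nat.mul_le_mul_left r (by omega))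
        have h7 : (2 : ℝ) ^ (2 * r) ≤ (2 : ℝ) ^ (2 * k + 2 * r) :=
          pow_le_pow_right₀ (by norm_num) (by omega)
        have h8 : (1 : ℝ) ≤ (2 : ℝ) ^ (2 * r) * (3 / 4 : ℝ) ^ (r * 4) := by
          rw [mul_comm 2 r, pow_mul', pow_mul', ← mul_pow]
          apply one_le_pow₀
          norm_num
        calc (1 : ℝ) ≤ (2 : ℝ) ^ (2 * r) * (3 / 4 : ℝ) ^ (r * 4) := h8
          _ ≤ _ := mul_le_mul h7 h6 (by positivity) (by positivity)
      nlinarith
    calc (D * Fintype.card Ω : ℝ) ^ (k * k) = 1 * (D * Fintype.card Ω : ℝ) ^ (k * k) :=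
          (one_mul _).symm
      _ ≤ ((k : ℝ) ^ 2 * ((2 : ℝ) ^ (2 * k + 2 * r) * (3 / 4 : ℝ) ^ (r * k))) *
          (D * Fintype.card Ω : ℝ) ^ (k * k) := mul_le_mul_of_nonneg_right h3 (by positivity)
      _ = _ := by ring
  · push Not at hk5
    have hsub : (univ.filter fun X : Matrix κ κ' Ω =>
        r ≤ k - ((X.map e).map (Int.cast : ℤ → ℚ)).rank) ⊆
        (Icc r k).biUnion fun s => univ.filter fun X : Matrix κ κ' Ω =>
          ((X.map e).map (Int.cast : ℤ → ℚ)).rank = k - s := by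
      intro X hX
      simp only [mem_filter, mem_univ, true_and] at hX
      simp only [mem_biUnion, mem_filter, mem_univ, true_and, mem_Icc]
      have hle : ((X.map e).map (Int.cast : ℤ → ℚ)).rank ≤ k := by
        rw [← hκ]
        exact Matrix.rank_le_card_height _
      exact ⟨k - ((X.map e).map (Int.cast : ℤ → ℚ)).rank, ⟨hX, by omega⟩, by omega⟩
    have hterm : ∀ s ∈ Icc r k, ((univ.filter fun X : Matrix κ κ' Ω =>
          ((X.map e).map (Int.cast : ℤ → ℚ)).rank = k - s).card : ℝ) ≤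
        k * (2 : ℝ) ^ (2 * k + 2 * r) * (3 / 4 : ℝ) ^ (r * k) *
        (D * Fintype.card Ω : ℝ) ^ (k * k) := by
      intro s hs
      rw [mem_Icc] at hs
      refine (rank_countD hv hD0 h0 h1 h2 hκ hκ' (hr.trans hs.1) hs.2).trans ?_
      apply mul_le_mul_of_nonneg_right _ (by positivity)
      rw [mul_assoc, mul_assoc]
      apply mul_le_mul_of_nonneg_left _ (by positivity)
      obtain ⟨d, rfl⟩ := Nat.exists_eq_add_of_le hs.1
      have e1 : (2 : ℝ) ^ (2 * k + 2 * (r + d)) * (3 / 4 : ℝ) ^ ((r + d) * k) =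
          ((2 : ℝ) ^ (2 * k + 2 * r) * (3 / 4 : ℝ) ^ (r * k)) *
            ((2 : ℝ) ^ (2 * d) * (3 / 4 : ℝ) ^ (d * k)) := by
        rw [mul_add 2 r d, ← add_assoc, pow_add (2 : ℝ) (2 * k + 2 * r), add_mul, pow_add (3 / 4 : ℝ)]
        ring
      have e2 : (2 : ℝ) ^ (2 * d) * (3 / 4 : ℝ) ^ (d * k) ≤ 1 := by
        have h6 : (3 / 4 : ℝ) ^ (d * k) ≤ (3 / 4 : ℝ) ^ (d * 5) :=
          pow_le_pow_of_le_one (by norm_num) (by norm_num) (Nat.mul_le_mul_left d hk5)
        calc (2 : ℝ) ^ (2 * d) * (3 / 4 : ℝ) ^ (d * k) ≤ (2 : ℝ) ^ (2 * d) * (3 / 4 : ℝ) ^ (d * 5) :=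
              mul_le_mul_of_nonneg_left h6 (by positivity)
          _ = ((2 : ℝ) ^ 2 * (3 / 4 : ℝ) ^ 5) ^ d := by
              rw [mul_comm 2 d, pow_mul', pow_mul', ← mul_pow]
          _ ≤ 1 := pow_le_one₀ (by positivity) (by norm_num)
      rw [e1]
      exact mul_le_of_le_one_right (by positivity) e2
    calc ((univ.filter fun X : Matrix κ κ' Ω =>
        r ≤ k - ((X.map e).map (Int.cast : ℤ → ℚ)).rank).card : ℝ)
        ≤ (((Icc r k).biUnion fun s => univ.filter fun X : Matrix κ κ' Ω =>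
          ((X.map e).map (Int.cast : ℤ → ℚ)).rank = k - s).card : ℝ) := by
          exact_mod_cast card_le_card hsub
      _ ≤ ∑ s ∈ Icc r k, ((univ.filter fun X : Matrix κ κ' Ω =>
          ((X.map e).map (Int.cast : ℤ → ℚ)).rank = k - s).card : ℝ) := by
          exact_mod_cast card_biUnion_le
      _ ≤ ∑ _s ∈ Icc r k, k * (2 : ℝ) ^ (2 * k + 2 * r) * (3 / 4 : ℝ) ^ (r * k) *
        (D * Fintype.card Ω : ℝ) ^ (k * k) := sum_le_sum hterm
      _ = ((k + 1 - r : ℕ) : ℝ) * (k * (2 : ℝ) ^ (2 * k + 2 * r) *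
          (3 / 4 : ℝ) ^ (r * k) * (D * Fintype.card Ω : ℝ) ^ (k * k)) := by
          rw [sum_const, nsmul_eq_mul, Nat.card_Icc]
      _ ≤ (k : ℝ) * (k * (2 : ℝ) ^ (2 * k + 2 * r) *
          (3 / 4 : ℝ) ^ (r * k) * (D * Fintype.card Ω : ℝ) ^ (k * k)) := by
          apply mul_le_mul_of_nonneg_right _ (by positivity)
          have : k + 1 - r ≤ k := by omega
          exact_mod_cast this
      _ = _ := by ring

open Classical in
/-- **exact law `(1/4,1/2,1/4)`**: rank equal to `k - r` -/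
theorem rank_count2 (h0 : 2 * (univ.filter fun ω => e ω = 0).card = Fintype.card Ω)
    (h1 : 4 * (univ.filter fun ω => e ω = 1).card = Fintype.card Ω)
    (h2 : 4 * (univ.filter fun ω => e ω = -1).card = Fintype.card Ω)
    {κ κ' : Type*} [Fintype κ] [Fintype κ']
    {k r : ℕ} (hκ : Fintype.card κ = k) (hκ' : Fintype.card κ' = k) (hr : 1 ≤ r) (hrk : r ≤ k) :
    ((univ.filter fun X : Matrix κ κ' Ω =>
      ((X.map e).map (Int.cast : ℤ → ℚ)).rank = k - r).card : ℝ) ≤
      k * (2 : ℝ) ^ (2 * k + 2 * r) * (3 / 4 : ℝ) ^ (r * k) * (Fintype.card Ω : ℝ) ^ (k * k) := by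
  have h0' : (2 : ℝ) * ((univ.filter fun ω => e ω = 0).card : ℝ) = Fintype.card Ω := by
    exact_mod_cast h0
  have h1' : (4 : ℝ) * ((univ.filter fun ω => e ω = 1).card : ℝ) = Fintype.card Ω := by
    exact_mod_cast h1
  have h2' : (4 : ℝ) * ((univ.filter fun ω => e ω = -1).card : ℝ) = Fintype.card Ω := by
    exact_mod_cast h2
  have h := rank_countD (e := e) (D := 1) (vals h0 h1 h2) zero_le_one (by linarith) (by linarith)
    (by linarith) hκ hκ' hr hrk
  rwa [one_mul] at h

open Classical in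
/-- **exact law `(1/4,1/2,1/4)`**: rank at most `k - r` -/
theorem rank_count2_le (h0 : 2 * (univ.filter fun ω => e ω = 0).card = Fintype.card Ω)
    (h1 : 4 * (univ.filter fun ω => e ω = 1).card = Fintype.card Ω)
    (h2 : 4 * (univ.filter fun ω => e ω = -1).card = Fintype.card Ω)
    {κ κ' : Type*} [Fintype κ] [Fintype κ']
    {k r : ℕ} (hκ : Fintype.card κ = k) (hκ' : Fintype.card κ' = k) (hr : 1 ≤ r) (hrk : r ≤ k) :
    ((univ.filter fun X : Matrix κ κ' Ω =>
      r ≤ k - ((X.map e).map (Int.cast : ℤ → ℚ)).rank).card : ℝ) ≤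
      (k : ℝ) ^ 2 * (2 : ℝ) ^ (2 * k + 2 * r) * (3 / 4 : ℝ) ^ (r * k) *
        (Fintype.card Ω : ℝ) ^ (k * k) := by
  have h0' : (2 : ℝ) * ((univ.filter fun ω => e ω = 0).card : ℝ) = Fintype.card Ω := by
    exact_mod_cast h0
  have h1' : (4 : ℝ) * ((univ.filter fun ω => e ω = 1).card : ℝ) = Fintype.card Ω := by
    exact_mod_cast h1
  have h2' : (4 : ℝ) * ((univ.filter fun ω => e ω = -1).card : ℝ) = Fintype.card Ω := by
    exact_mod_cast h2
  have h := rank_countD_le (e := e) (D := 1) (vals h0 h1 h2) le_rfl (by linarith) (by linarith)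
    (by linarith) hκ hκ' hr hrk
  rwa [one_mul] at h

end count2

end Vale.Agent.P160.Half.RankQ304
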