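import Vale.Agent.P160.RD.Grow519
import Vale.Agent.P160.Half.RankQ

/-!
# P160, block (M): rational rank of iid matrices, law (1/4, 1/2, 1/4), rate `3/4`

The same as `RankQ.lean` with `(3/4)^(r k)` instead of `2^(-rk/3)`.
-/

namespace Vale.Agent.P160.Half.RankQ519

open Finset Module Vale.Agent.P160.RD Vale.Agent.P160.RD.Swap304 Vale.Agent.P160.Half.RankQ304

open Classical in
/-- weighted form -/
theorem rank_wt {k r : ℕ} (hr : 1 ≤ r) (hrk : r ≤ k) :
    (∑ X : Fin k → (Fin k → Fin 3),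
      if finrank ℚ (Submodule.span ℚ (Set.range fun i => vec (X i))) = k - r
      then wt u X else 0) ≤ k * (2 : ℝ) ^ (2 * k + 2 * r) * (3 / 4 : ℝ) ^ (r * k) :=
  rank_swap (Om := Fin k → Fin 3) (k := k) (u := u) (v := v) u_nonneg v_nonneg (sum_u k)
    (sum_v k) (vec := vec) le_rfl (by norm_num) (fun U => by
      have h1 := odlyzko U
      rw [sum_filter] at h1
      exact h1) (fun U => by
      have h1 := Grow519.swap34 U
      rw [sum_filter, sum_filter] at h1
      exact h1) hr hrk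

section count

variable {Ω : Type*} [Fintype Ω] {e : Ω → ℤ}

open Classical in
/-- **counting form**, matrices indexed by `Fin k` -/
theorem rank_count_fin (h0 : 2 * (univ.filter fun ω => e ω = 0).card = Fintype.card Ω)
    (h1 : 4 * (univ.filter fun ω => e ω = 1).card = Fintype.card Ω)
    (h2 : 4 * (univ.filter fun ω => e ω = -1).card = Fintype.card Ω)
    {k r : ℕ} (hr : 1 ≤ r) (hrk : r ≤ k) :
    ((univ.filter fun X : Matrix (Fin k) (Fin k) Ω =>
      ((X.map e).map (Int.cast : ℤ → ℚ)).rank = k - r).card : ℝ) ≤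
      k * (2 : ℝ) ^ (2 * k + 2 * r) * (3 / 4 : ℝ) ^ (r * k) *
        (Fintype.card Ω : ℝ) ^ (k * k) := by
  let φ : Ω → Fin 3 := fun ω => if e ω = 0 then 0 else if e ω = 1 then 1 else 2
  have hv := vals h0 h1 h2
  have hφv : ∀ ω, Swap304.val (φ ω) = e ω := by
    intro ω
    rcases hv ω with h | h | h <;> simp [φ, h, val_0, val_1, val_2]
  have hf0 : (univ.filter fun ω => φ ω = 0) = univ.filter fun ω => e ω = 0 := by
    ext ω
    simp only [mem_filter, mem_univ, true_and]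
    rcases hv ω with h | h | h <;> simp [φ, h]
  have hf1 : (univ.filter fun ω => φ ω = 1) = univ.filter fun ω => e ω = 1 := by
    ext ω
    simp only [mem_filter, mem_univ, true_and]
    rcases hv ω with h | h | h <;> simp [φ, h]
  have hf2 : (univ.filter fun ω => φ ω = 2) = univ.filter fun ω => e ω = -1 := by
    ext ω
    simp only [mem_filter, mem_univ, true_and]
    rcases hv ω with h | h | h <;> simp [φ, h]
  have hφ : ∀ b, ((univ.filter fun ω => φ ω = b).card : ℝ) = Fintype.card Ω * w4 b := by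
    intro b
    have h0' : (2 : ℝ) * ((univ.filter fun ω => e ω = 0).card : ℝ) = Fintype.card Ω := by
      exact_mod_cast h0
    have h1' : (4 : ℝ) * ((univ.filter fun ω => e ω = 1).card : ℝ) = Fintype.card Ω := by
      exact_mod_cast h1
    have h2' : (4 : ℝ) * ((univ.filter fun ω => e ω = -1).card : ℝ) = Fintype.card Ω := by
      exact_mod_cast h2
    fin_cases b
    · show ((univ.filter fun ω => φ ω = 0).card : ℝ) = _ * w4 0
      rw [hf0, w4_0]; linarith
    · show ((univ.filter fun ω => φ ω = 1).card : ℝ) = _ * w4 1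
      rw [hf1, w4_1]; linarith
    · show ((univ.filter fun ω => φ ω = 2).card : ℝ) = _ * w4 2
      rw [hf2, w4_2]; linarith
  have h := count_push φ hφ (fun Y : Fin k → Fin k → Fin 3 =>
    finrank ℚ (Submodule.span ℚ (Set.range fun i => vec (Y i))) = k - r)
  have hrow : ∀ X : Matrix (Fin k) (Fin k) Ω, ((X.map e).map (Int.cast : ℤ → ℚ)).rank =
      finrank ℚ (Submodule.span ℚ (Set.range fun i => vec (fun j => φ (X i j)))) := by
    intro X
    rw [Matrix.rank_eq_finrank_span_row]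
    have : (((X.map e).map (Int.cast : ℤ → ℚ)) : Matrix (Fin k) (Fin k) ℚ).row =
        fun i => vec (fun j => φ (X i j)) := by
      funext i j
      show ((e (X i j) : ℤ) : ℚ) = ((Swap304.val (φ (X i j)) : ℤ) : ℚ)
      rw [hφv]
    rw [this]
  have hset : (univ.filter fun X : Matrix (Fin k) (Fin k) Ω =>
      ((X.map e).map (Int.cast : ℤ → ℚ)).rank = k - r).card =
      (univ.filter fun X : Fin k → Fin k → Ω =>
        finrank ℚ (Submodule.span ℚ (Set.range fun i => vec (fun j => φ (X i j)))) = k - r).card := by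
    apply card_bij (fun (X : Matrix (Fin k) (Fin k) Ω) _ => (fun i j => X i j : Fin k → Fin k → Ω))
    · intro X hX
      simp only [mem_filter, mem_univ, true_and] at hX ⊢
      rw [← hX, hrow X]
    · intro X _ Y _ h
      ext i j
      exact congrFun (congrFun h i) j
    · intro Y hY
      refine ⟨Matrix.of Y, ?_, rfl⟩
      simp only [mem_filter, mem_univ, true_and] at hY ⊢
      rw [← hY, hrow (Matrix.of Y)]
      rfl
  rw [hset]
  have hle : (Fintype.card Ω : ℝ) ^ (k * k) * (∑ Y : Fin k → Fin k → Fin 3,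
      if finrank ℚ (Submodule.span ℚ (Set.range fun i => vec (Y i))) = k - r then wt u Y else 0) ≤
      k * (2 : ℝ) ^ (2 * k + 2 * r) * (3 / 4 : ℝ) ^ (r * k) *
        (Fintype.card Ω : ℝ) ^ (k * k) := by
    rw [mul_comm]
    exact mul_le_mul_of_nonneg_right (rank_wt hr hrk) (by positivity)
  refine le_trans (le_of_eq ?_) hle
  convert h

theorem step_le {k : ℕ} (hk : 5 ≤ k) {r s : ℕ} (h : r ≤ s) :
    (2 : ℝ) ^ (2 * k + 2 * s) * (3 / 4 : ℝ) ^ (s * k) ≤
      (2 : ℝ) ^ (2 * k + 2 * r) * (3 / 4 : ℝ) ^ (r * k) := by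
  obtain ⟨d, rfl⟩ := Nat.exists_eq_add_of_le h
  have e : (2 : ℝ) ^ (2 * k + 2 * (r + d)) * (3 / 4 : ℝ) ^ ((r + d) * k) =
      (2 : ℝ) ^ (2 * k + 2 * r) * (3 / 4 : ℝ) ^ (r * k) * (4 * (3 / 4 : ℝ) ^ k) ^ d := by
    have e1 : (2 : ℝ) ^ (2 * k + 2 * (r + d)) = (2 : ℝ) ^ (2 * k + 2 * r) * 4 ^ d := by
      rw [show 2 * k + 2 * (r + d) = 2 * k + 2 * r + 2 * d by ring, pow_add, pow_mul 2 2 d]
      norm_num
    have e2 : (3 / 4 : ℝ) ^ ((r + d) * k) = (3 / 4 : ℝ) ^ (r * k) * ((3 / 4 : ℝ) ^ k) ^ d := by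
      rw [add_mul, pow_add, mul_comm d k, pow_mul _ k d]
    rw [e1, e2, mul_pow]
    ring
  rw [e]
  have h1 : (4 * (3 / 4 : ℝ) ^ k) ^ d ≤ 1 := by
    apply pow_le_one₀ (by positivity)
    have : (3 / 4 : ℝ) ^ k ≤ (3 / 4 : ℝ) ^ 5 :=
      pow_le_pow_of_le_one (by norm_num) (by norm_num) hk
    norm_num at this
    linarith
  exact mul_le_of_le_one_right (by positivity) h1

theorem small_ge {k : ℕ} (hk : k < 5) (r : ℕ) :
    (1 : ℝ) ≤ (2 : ℝ) ^ (2 * k + 2 * r) * (3 / 4 : ℝ) ^ (r * k) := by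
  have e : (2 : ℝ) ^ (2 * k + 2 * r) * (3 / 4 : ℝ) ^ (r * k) =
      (2 : ℝ) ^ (2 * k) * (4 * (3 / 4 : ℝ) ^ k) ^ r := by
    have e1 : (2 : ℝ) ^ (2 * k + 2 * r) = (2 : ℝ) ^ (2 * k) * 4 ^ r := by
      rw [pow_add, pow_mul 2 2 r]
      norm_num
    rw [e1, mul_comm r k, pow_mul _ k r, mul_pow]
    ring
  rw [e]
  have h1 : (1 : ℝ) ≤ (4 * (3 / 4 : ℝ) ^ k) ^ r := by
    apply one_le_pow₀
    have : (3 / 4 : ℝ) ^ 4 ≤ (3 / 4 : ℝ) ^ k :=
      pow_le_pow_of_le_one (by norm_num) (by norm_num) (by omega)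
    norm_num at this
    linarith
  have h2 : (1 : ℝ) ≤ (2 : ℝ) ^ (2 * k) := one_le_pow₀ (by norm_num)
  nlinarith

open Classical in
/-- rank at most `k - r` -/
theorem rank_count_le (h0 : 2 * (univ.filter fun ω => e ω = 0).card = Fintype.card Ω)
    (h1 : 4 * (univ.filter fun ω => e ω = 1).card = Fintype.card Ω)
    (h2 : 4 * (univ.filter fun ω => e ω = -1).card = Fintype.card Ω)
    {k r : ℕ} (hr : 1 ≤ r) (hrk : r ≤ k) :
    ((univ.filter fun X : Matrix (Fin k) (Fin k) Ω =>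
      r ≤ k - ((X.map e).map (Int.cast : ℤ → ℚ)).rank).card : ℝ) ≤
      (k : ℝ) ^ 2 * (2 : ℝ) ^ (2 * k + 2 * r) * (3 / 4 : ℝ) ^ (r * k) *
        (Fintype.card Ω : ℝ) ^ (k * k) := by
  have hk1 : (1 : ℝ) ≤ k := by exact_mod_cast hr.trans hrk
  have hallcard : (Fintype.card (Matrix (Fin k) (Fin k) Ω) : ℝ) =
      (Fintype.card Ω : ℝ) ^ (k * k) := by
    have h7 : Fintype.card (Matrix (Fin k) (Fin k) Ω) = Fintype.card (Fin k → Fin k → Ω) :=
      Fintype.card_congr (Equiv.refl _)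
    have h8 : Fintype.card (Fin k → Fin k → Ω) = Fintype.card Ω ^ (k * k) := by
      rw [Fintype.card_fun, Fintype.card_fun, Fintype.card_fin, ← pow_mul]
    rw [h7, h8]; push_cast; ring
  by_cases hk6 : k < 5
  · have htriv : ((univ.filter fun X : Matrix (Fin k) (Fin k) Ω =>
      r ≤ k - ((X.map e).map (Int.cast : ℤ → ℚ)).rank).card : ℝ) ≤
        (Fintype.card Ω : ℝ) ^ (k * k) := by
      rw [← hallcard]
      exact_mod_cast card_filter_le _ _
    refine htriv.trans ?_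
    have h5 := small_ge hk6 r
    have h4 : (1 : ℝ) ≤ (k : ℝ) ^ 2 := one_le_pow₀ hk1
    have h3 : (1 : ℝ) ≤ (k : ℝ) ^ 2 * ((2 : ℝ) ^ (2 * k + 2 * r) * (3 / 4 : ℝ) ^ (r * k)) := by
      nlinarith
    calc (Fintype.card Ω : ℝ) ^ (k * k) = 1 * (Fintype.card Ω : ℝ) ^ (k * k) := (one_mul _).symm
      _ ≤ ((k : ℝ) ^ 2 * ((2 : ℝ) ^ (2 * k + 2 * r) *
        (3 / 4 : ℝ) ^ (r * k))) * (Fintype.card Ω : ℝ) ^ (k * k) :=
          mul_le_mul_of_nonneg_right h3 (by positivity)
      _ = _ := by ring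
  · push Not at hk6
    have hsub : (univ.filter fun X : Matrix (Fin k) (Fin k) Ω =>
        r ≤ k - ((X.map e).map (Int.cast : ℤ → ℚ)).rank) ⊆
        (Icc r k).biUnion fun s => univ.filter fun X : Matrix (Fin k) (Fin k) Ω =>
          ((X.map e).map (Int.cast : ℤ → ℚ)).rank = k - s := by
      intro X hX
      simp only [mem_filter, mem_univ, true_and] at hX
      simp only [mem_biUnion, mem_filter, mem_univ, true_and, mem_Icc]
      have hle : ((X.map e).map (Int.cast : ℤ → ℚ)).rank ≤ k := by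
        have := Matrix.rank_le_card_height ((X.map e).map (Int.cast : ℤ → ℚ))
        rwa [Fintype.card_fin] at this
      exact ⟨k - ((X.map e).map (Int.cast : ℤ → ℚ)).rank, ⟨hX, by omega⟩, by omega⟩
    have hterm : ∀ s ∈ Icc r k, ((univ.filter fun X : Matrix (Fin k) (Fin k) Ω =>
          ((X.map e).map (Int.cast : ℤ → ℚ)).rank = k - s).card : ℝ) ≤
        k * (2 : ℝ) ^ (2 * k + 2 * r) * (3 / 4 : ℝ) ^ (r * k) *
        (Fintype.card Ω : ℝ) ^ (k * k) := by
      intro s hs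
      rw [mem_Icc] at hs
      refine (rank_count_fin h0 h1 h2 (hr.trans hs.1) hs.2).trans ?_
      apply mul_le_mul_of_nonneg_right _ (by positivity)
      rw [mul_assoc, mul_assoc]
      apply mul_le_mul_of_nonneg_left _ (by positivity)
      exact step_le hk6 hs.1
    calc ((univ.filter fun X : Matrix (Fin k) (Fin k) Ω =>
        r ≤ k - ((X.map e).map (Int.cast : ℤ → ℚ)).rank).card : ℝ)
        ≤ (((Icc r k).biUnion fun s => univ.filter fun X : Matrix (Fin k) (Fin k) Ω =>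
          ((X.map e).map (Int.cast : ℤ → ℚ)).rank = k - s).card : ℝ) := by
          exact_mod_cast card_le_card hsub
      _ ≤ ∑ s ∈ Icc r k, ((univ.filter fun X : Matrix (Fin k) (Fin k) Ω =>
          ((X.map e).map (Int.cast : ℤ → ℚ)).rank = k - s).card : ℝ) := by
          exact_mod_cast card_biUnion_le
      _ ≤ ∑ _s ∈ Icc r k, k * (2 : ℝ) ^ (2 * k + 2 * r) * (3 / 4 : ℝ) ^ (r * k) *
        (Fintype.card Ω : ℝ) ^ (k * k) := sum_le_sum hterm
      _ = ((k + 1 - r : ℕ) : ℝ) * (k * (2 : ℝ) ^ (2 * k + 2 * r) *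
          (3 / 4 : ℝ) ^ (r * k) * (Fintype.card Ω : ℝ) ^ (k * k)) := by
          rw [sum_const, nsmul_eq_mul, Nat.card_Icc]
      _ ≤ (k : ℝ) * (k * (2 : ℝ) ^ (2 * k + 2 * r) *
          (3 / 4 : ℝ) ^ (r * k) * (Fintype.card Ω : ℝ) ^ (k * k)) := by
          apply mul_le_mul_of_nonneg_right _ (by positivity)
          have : k + 1 - r ≤ k := by omega
          exact_mod_cast this
      _ = _ := by ring

end count

/-- the difference of two bits -/
def xi (b : Bool × Bool) : ℤ := (if b.1 then 1 else 0) - (if b.2 then 1 else 0)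

/-- the form of `M67.StmtRat (3/4)` -/
theorem rat_aux (k r : ℕ) (hr : 1 ≤ r) (hrk : r ≤ k) :
    (Nat.card {ω : Fin k → Fin k → Bool × Bool //
      r ≤ k - ((Matrix.map (fun i j => xi (ω i j) : Matrix (Fin k) (Fin k) ℤ)
        (Int.cast : ℤ → ℚ)).rank)} : ℝ) ≤
    (k : ℝ) ^ 2 * (2 : ℝ) ^ (2 * k + 2 * r) * (3 / 4 : ℝ) ^ (r * k) * (4 : ℝ) ^ (k * k) := by
  classical
  have h := rank_count_le (Ω := Bool × Bool) (e := xi) (by decide) (by decide) (by decide) hr hrk
  have hc : (Fintype.card (Bool × Bool) : ℝ) = 4 := by norm_num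
  rw [hc] at h
  refine le_trans (le_of_eq ?_) h
  rw [Nat.card_eq_fintype_card, Fintype.card_subtype]
  rfl

end Vale.Agent.P160.Half.RankQ519
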