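import Vale.Agent.P160.Half.M67Stmt
import Vale.Agent.P160.Half.RankQ2

/-! # P160, half rate, block (M): `StmtRat (3/4)` from `RankQ304.rank_count2_le` -/

namespace Vale.Agent.P160.Half.M67.Rat304

open Finset Vale.Agent.P160 Vale.Agent.P160.Half Vale.Agent.P160.Half.M67

theorem c0 : 2 * (univ.filter fun ω : Bool × Bool => xi ω = 0).card =
    Fintype.card (Bool × Bool) := by decide

theorem c1 : 4 * (univ.filter fun ω : Bool × Bool => xi ω = 1).card =
    Fintype.card (Bool × Bool) := by decide

theorem c2 : 4 * (univ.filter fun ω : Bool × Bool => xi ω = -1).card =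
    Fintype.card (Bool × Bool) := by decide

/-- card of a filter, any instances -/
theorem fcard {α : Type} (i : Fintype α) (p : α → Prop) (d : DecidablePred p) :
    (@Finset.filter α p d (@Finset.univ α i)).card = Nat.card {x // p x} := by
  rw [Nat.card_eq_fintype_card, Fintype.card_subtype]

theorem cardEq (k r : ℕ) : Nat.card {ω : Fin k → Fin k → Bool × Bool // r ≤ k - rkQ (mt xi ω)} =
      Nat.card {X : Matrix (Fin k) (Fin k) (Bool × Bool) //
        r ≤ k - ((X.map xi).map (Int.cast : ℤ → ℚ)).rank} :=
    Nat.card_congr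
      { toFun := fun X => ⟨Matrix.of X.1, X.2⟩
        invFun := fun X => ⟨fun i j => X.1 i j, X.2⟩
        left_inv := fun _ => rfl
        right_inv := fun _ => rfl }

/-- **rational corank**, rate `log2 (4/3)` -/
theorem stmtRat34 : StmtRat (3 / 4) := by
  intro k r hr hrk
  have h := RankQ304.rank_count2_le (Ω := Bool × Bool) (e := xi) c0 c1 c2
    (κ := Fin k) (κ' := Fin k) (k := k) (r := r) (Fintype.card_fin k) (Fintype.card_fin k) hr hrk
  rw [fcard] at h
  have h4 : (Fintype.card (Bool × Bool) : ℝ) = 4 := by
    have : Fintype.card (Bool × Bool) = 4 := by decide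
    rw [this]; norm_num
  rw [h4] at h
  rw [cardEq]
  exact h

end Vale.Agent.P160.Half.M67.Rat304
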