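import Vale.Agent.P160.Half.M67Stmt
import Vale.Agent.P160.Half.RankQ
import Vale.Agent.P160.Half.RankQ2

/-! # P160, half rate, block (M), leaf M/RAT: `StmtRat t` from `RankQ304`

`stmtRat : StmtRat (3 / 4)` (from `RankQ2.rank_count2_le`), `stmtRat3 : StmtRat (2 ^ (-1/3))`
(from `RankQ.rank_count_le`). -/

namespace Vale.Agent.P160.Half.M67.Rat662

open Finset Vale.Agent.P160 Vale.Agent.P160.Half Vale.Agent.P160.Half.M67

theorem c0 : 2 * (univ.filter fun ω : Bool × Bool => xi ω = 0).card =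
    Fintype.card (Bool × Bool) := by decide

theorem c1 : 4 * (univ.filter fun ω : Bool × Bool => xi ω = 1).card =
    Fintype.card (Bool × Bool) := by decide

theorem c2 : 4 * (univ.filter fun ω : Bool × Bool => xi ω = -1).card =
    Fintype.card (Bool × Bool) := by decide

/-- independence of the instances -/
theorem fc {α : Type*} (p : α → Prop) (F1 F2 : Fintype α) (i1 i2 : DecidablePred p) :
    (@Finset.filter α p i1 (@Finset.univ α F1)).card =
      (@Finset.filter α p i2 (@Finset.univ α F2)).card := by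
  have h1 : F1 = F2 := Subsingleton.elim _ _
  have h2 : i1 = i2 := Subsingleton.elim _ _
  subst h1 h2
  rfl

theorem cardEq (k r : ℕ) : Nat.card {ω : Fin k → Fin k → Bool × Bool // r ≤ k - rkQ (mt xi ω)} =
      Nat.card {X : Matrix (Fin k) (Fin k) (Bool × Bool) //
        r ≤ k - ((X.map xi).map (Int.cast : ℤ → ℚ)).rank} :=
    Nat.card_congr
      { toFun := fun X => ⟨Matrix.of X.1, X.2⟩
        invFun := fun X => ⟨fun i j => X.1 i j, X.2⟩
        left_inv := fun _ => rfl
        right_inv := fun _ => rfl }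

/-- the leaf, `t = 3/4` -/
theorem stmtRat : StmtRat (3 / 4) := by
  classical
  intro k r hr hrk
  rw [cardEq, Nat.card_eq_fintype_card, Fintype.card_subtype]
  have h := RankQ304.rank_count2_le (Ω := Bool × Bool) (e := xi) c0 c1 c2
    (κ := Fin k) (κ' := Fin k) (k := k) (r := r) (by simp) (by simp) hr hrk
  have h4 : (Fintype.card (Bool × Bool) : ℝ) = 4 := by simp
  rw [h4] at h
  exact (le_of_eq (congrArg (Nat.cast : ℕ → ℝ) (fc _ _ _ _ _))).trans h

/-- the leaf, `t = 2^(-1/3)` -/
theorem stmtRat3 : StmtRat ((2 : ℝ) ^ (-(1 : ℝ) / 3)) := by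
  classical
  intro k r hr hrk
  rw [cardEq, Nat.card_eq_fintype_card, Fintype.card_subtype]
  have h := RankQ304.rank_count_le (Ω := Bool × Bool) (e := xi) c0 c1 c2
    (κ := Fin k) (κ' := Fin k) (k := k) (r := r) (by simp) (by simp) hr hrk
  have h4 : (Fintype.card (Bool × Bool) : ℝ) = 4 := by simp
  rw [h4] at h
  have h5 : ((2 : ℝ) ^ (-(1 : ℝ) / 3)) ^ (r * k) = (2 : ℝ) ^ (-((r * k : ℕ) : ℝ) / 3) := by
    rw [← Real.rpow_natCast, ← Real.rpow_mul (by norm_num)]
    congr 1
    ring
  rw [h5]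
  exact (le_of_eq (congrArg (Nat.cast : ℕ → ℝ) (fc _ _ _ _ _))).trans h

end Vale.Agent.P160.Half.M67.Rat662
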