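import Vale.Agent.P160.Half.SparseDel

set_option linter.unusedSectionVars false

/-! # P160/Half: sparse real near relations are removed by deleting a row (S(b) of 11331) -/

namespace Vale.Agent.P160.Half.RealDel513

open Finset Vale.Agent.P160.Half.SparseDel

variable {Om : Type*} [Fintype Om]

/-- a sparse real near relation between the rows of the sampled matrix -/
def SpR (e : Om → ℤ) (E : ℕ) {a k : ℕ} (M : Fin a → Fin k → Om) : Prop :=
  ∃ ψ : Fin a → ℝ, (∀ i, |ψ i| ≤ 1 / 2) ∧ (univ.filter fun i => ψ i ≠ 0).card ≤ E ∧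
    (∃ i, 1 / (4 * (E : ℝ)) < |ψ i|) ∧
    ∀ j, ∃ n : ℤ, |∑ i, (e (M i j) : ℝ) * ψ i - n| ≤ 1 / (64 * (E : ℝ))

/-- the integer form of the near relation for the net point `z` -/
def SpZ (e : Om → ℤ) (E : ℕ) {a k : ℕ} (z : Fin a → ℤ) (M : Fin a → Fin k → Om) : Prop :=
  ∀ j, ∃ n : ℤ, |∑ i, e (M i j) * z i - 256 * (E : ℤ) ^ 2 * n| ≤ 5 * (E : ℤ)

/-- the net points supported in `T` -/
noncomputable def BZ (a E : ℕ) (T : Finset (Fin (a + 1))) : Finset (Fin (a + 1) → ℤ) :=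
  Fintype.piFinset fun i =>
    if i ∈ T then Finset.Icc (-(128 * (E : ℤ) ^ 2)) (128 * (E : ℤ) ^ 2) else {0}

lemma card_BZ (a E : ℕ) {T : Finset (Fin (a + 1))} (hT : T.card ≤ E) :
    (BZ a E T).card ≤ (256 * E ^ 2 + 1) ^ E := by
  classical
  unfold BZ
  rw [Fintype.card_piFinset]
  have h1 : ∀ i : Fin (a + 1), (if i ∈ T then Finset.Icc (-(128 * (E : ℤ) ^ 2))
      (128 * (E : ℤ) ^ 2) else {0}).card = if i ∈ T then 256 * E ^ 2 + 1 else 1 := by
    intro i
    split_ifs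
    · rw [Int.card_Icc]
      have : (128 * (E : ℤ) ^ 2 + 1 - -(128 * (E : ℤ) ^ 2)) = ((256 * E ^ 2 + 1 : ℕ) : ℤ) := by
        push_cast
        ring
      rw [this, Int.toNat_natCast]
    · simp
  rw [Finset.prod_congr rfl (fun i _ => h1 i), Finset.prod_ite_mem]
  simp only [univ_inter, prod_const]
  exact Nat.pow_le_pow_right (by positivity) hT

lemma exists_SpZ (e : Om → ℤ) (he : ∀ w, |e w| ≤ 1) {E : ℕ} (hE : 1 ≤ E) {a k : ℕ}
    (M : Fin (a + 1) → Fin k → Om) (h : SpR e E M) :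
    ∃ i0 : Fin (a + 1), ∃ T ∈ TT a E, ∃ z ∈ BZ a E T, 64 * (E : ℤ) ≤ |z i0| ∧
      |z i0| ≤ 128 * (E : ℤ) ^ 2 ∧ SpZ e E z M := by
  classical
  obtain ⟨ψ, hψ, hcard, ⟨i0, hi0⟩, hrel⟩ := h
  have hE0 : (1 : ℝ) ≤ E := by exact_mod_cast hE
  have hEp : (0 : ℝ) < E := by linarith
  set Q : ℝ := 256 * (E : ℝ) ^ 2 with hQ
  have hQ0 : 0 < Q := by positivity
  have hψ0 : ψ i0 ≠ 0 := by
    intro h0
    rw [h0, abs_zero] at hi0
    have : 0 < 1 / (4 * (E : ℝ)) := by positivity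
    linarith
  set z : Fin (a + 1) → ℤ := fun i => round (Q * ψ i) with hz
  have hr : ∀ i, |(z i : ℝ) - Q * ψ i| ≤ 1 / 2 := fun i => by
    rw [abs_sub_comm]
    exact abs_sub_round _
  have hz0 : ∀ i, ψ i = 0 → z i = 0 := fun i hi => by simp [hz, hi]
  have hzle : ∀ i, |z i| ≤ 128 * (E : ℤ) ^ 2 := by
    intro i
    have h1 : |(z i : ℝ)| ≤ 128 * (E : ℝ) ^ 2 + 1 / 2 := by
      have h2 := abs_sub_abs_le_abs_sub (z i : ℝ) (Q * ψ i)
      have h3 : |Q * ψ i| ≤ Q * (1 / 2) := by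
        rw [abs_mul, abs_of_pos hQ0]
        exact mul_le_mul_of_nonneg_left (hψ i) hQ0.le
      have h4 := hr i
      rw [hQ] at h3 h4 h2
      linarith
    have h5 : ((|z i| : ℤ) : ℝ) < ((128 * (E : ℤ) ^ 2 + 1 : ℤ) : ℝ) := by
      push_cast
      linarith
    have h6 : |z i| < 128 * (E : ℤ) ^ 2 + 1 := by exact_mod_cast h5
    omega
  refine ⟨i0, univ.filter (fun i => ψ i ≠ 0), ?_, z, ?_, ?_, hzle i0, ?_⟩
  · simp only [TT, mem_filter, mem_univ, true_and]
    exact ⟨⟨i0, by simpa using hψ0⟩, by convert hcard⟩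
  · unfold BZ
    rw [Fintype.mem_piFinset]
    intro i
    by_cases hi : ψ i = 0
    · rw [if_neg (by simp [hi]), hz0 i hi]
      simp
    · rw [if_pos (by simp [hi]), Finset.mem_Icc]
      exact abs_le.1 (hzle i)
  · have h1 : 64 * (E : ℝ) < |Q * ψ i0| := by
      rw [abs_mul, abs_of_pos hQ0]
      have : 64 * (E : ℝ) = Q * (1 / (4 * (E : ℝ))) := by
        rw [hQ]
        field_simp
        ring
      rw [this]
      exact mul_lt_mul_of_pos_left hi0 hQ0
    have h2 := abs_sub_abs_le_abs_sub (Q * ψ i0) (z i0 : ℝ)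
    have h3 := hr i0
    rw [abs_sub_comm] at h3
    have h5 : ((64 * (E : ℤ) - 1 : ℤ) : ℝ) < ((|z i0| : ℤ) : ℝ) := by
      push_cast
      linarith
    have h6 : 64 * (E : ℤ) - 1 < |z i0| := by exact_mod_cast h5
    omega
  · intro j
    obtain ⟨n, hn⟩ := hrel j
    refine ⟨n, ?_⟩
    have h1 : (∑ i, (e (M i j) : ℝ) * z i) - Q * n =
        ∑ i, (e (M i j) : ℝ) * ((z i : ℝ) - Q * ψ i) +
          Q * (∑ i, (e (M i j) : ℝ) * ψ i - n) := by
      rw [mul_sub, Finset.mul_sum, ← add_sub_assoc, ← Finset.sum_add_distrib]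
      congr 1
      apply Finset.sum_congr rfl
      intro i _
      ring
    have h2 : |∑ i, (e (M i j) : ℝ) * ((z i : ℝ) - Q * ψ i)| ≤ E * (1 / 2) := by
      have h3 : ∑ i, (e (M i j) : ℝ) * ((z i : ℝ) - Q * ψ i) =
          ∑ i ∈ univ.filter (fun i => ψ i ≠ 0), (e (M i j) : ℝ) * ((z i : ℝ) - Q * ψ i) := by
        symm
        apply Finset.sum_subset (Finset.filter_subset _ _)
        intro i _ hi
        have hi' : ψ i = 0 := by simpa using hi
        rw [hi', hz0 i hi']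
        simp
      rw [h3]
      refine (Finset.abs_sum_le_sum_abs _ _).trans ?_
      refine (Finset.sum_le_card_nsmul _ _ (1 / 2 : ℝ) ?_).trans ?_
      · intro i _
        rw [abs_mul]
        have h4 : |(e (M i j) : ℝ)| ≤ 1 := by exact_mod_cast he (M i j)
        calc |(e (M i j) : ℝ)| * |(z i : ℝ) - Q * ψ i| ≤ 1 * (1 / 2) :=
              mul_le_mul h4 (hr i) (abs_nonneg _) zero_le_one
          _ = 1 / 2 := by ring
      · rw [nsmul_eq_mul]
        have : ((univ.filter (fun i => ψ i ≠ 0)).card : ℝ) ≤ E := by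
          have h5 : (univ.filter (fun i => ψ i ≠ 0)).card ≤ E := by convert hcard
          exact_mod_cast h5
        nlinarith
    have h3 : |Q * (∑ i, (e (M i j) : ℝ) * ψ i - n)| ≤ 4 * E := by
      rw [abs_mul, abs_of_pos hQ0]
      have : 4 * (E : ℝ) = Q * (1 / (64 * (E : ℝ))) := by
        rw [hQ]
        field_simp
        ring
      rw [this]
      exact mul_le_mul_of_nonneg_left hn hQ0.le
    have h4 : |(∑ i, (e (M i j) : ℝ) * z i) - Q * n| ≤ 5 * E := by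
      rw [h1]
      refine (abs_add_le _ _).trans ?_
      linarith
    have h5 : (((|∑ i, e (M i j) * z i - 256 * (E : ℤ) ^ 2 * n| : ℤ)) : ℝ) ≤
        ((5 * (E : ℤ) : ℤ) : ℝ) := by
      push_cast
      rw [hQ] at h4
      exact h4
    exact_mod_cast h5

open scoped Classical in
/-- one column -/
lemma one_col (e : Om → ℤ) (he : ∀ w, |e w| ≤ 1) {al : ℝ}
    (hz : ((univ.filter fun w : Om => e w = 0).card : ℝ) ≤ al * Fintype.card Om)
    (hnz : ((univ.filter fun w : Om => e w ≠ 0).card : ℝ) ≤ al * Fintype.card Om)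
    {E : ℕ} (hE : 1 ≤ E) (z0 c : ℤ) (h64 : 64 * (E : ℤ) ≤ |z0|) (h128 : |z0| ≤ 128 * (E : ℤ) ^ 2) :
    ((univ.filter fun w : Om => ∃ n : ℤ,
      |e w * z0 + c - 256 * (E : ℤ) ^ 2 * n| ≤ 5 * (E : ℤ)).card : ℝ) ≤ al * Fintype.card Om := by
  have hE1 : (1 : ℤ) ≤ E := by exact_mod_cast hE
  have key : ∀ w1 w2 : Om, (∃ n : ℤ, |e w1 * z0 + c - 256 * (E : ℤ) ^ 2 * n| ≤ 5 * (E : ℤ)) →
      (∃ n : ℤ, |e w2 * z0 + c - 256 * (E : ℤ) ^ 2 * n| ≤ 5 * (E : ℤ)) → e w1 ≠ 0 → e w2 = 0 →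
      False := by
    rintro w1 w2 ⟨n1, h1⟩ ⟨n2, h2⟩ hne h0
    rw [h0, zero_mul, zero_add] at h2
    have h3 : |e w1 * z0 - 256 * (E : ℤ) ^ 2 * (n1 - n2)| ≤ 10 * (E : ℤ) := by
      have : e w1 * z0 - 256 * (E : ℤ) ^ 2 * (n1 - n2) =
          (e w1 * z0 + c - 256 * (E : ℤ) ^ 2 * n1) - (c - 256 * (E : ℤ) ^ 2 * n2) := by ring
      rw [this]
      refine (abs_sub _ _).trans ?_
      linarith
    have h4 : |e w1 * z0| = |z0| := by
      rw [abs_mul]
      have : |e w1| = 1 := by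
        have := he w1
        have h5 : 0 < |e w1| := abs_pos.2 hne
        omega
      rw [this, one_mul]
    by_cases hn : n1 - n2 = 0
    · rw [hn, mul_zero, sub_zero, h4] at h3
      linarith
    · have h5 : 1 ≤ |n1 - n2| := Int.one_le_abs hn
      have h6 : 256 * (E : ℤ) ^ 2 ≤ |256 * (E : ℤ) ^ 2 * (n1 - n2)| := by
        rw [abs_mul, abs_of_nonneg (by positivity : (0 : ℤ) ≤ 256 * (E : ℤ) ^ 2)]
        nlinarith [sq_nonneg (E : ℤ)]
      have h7 := abs_sub_abs_le_abs_sub (256 * (E : ℤ) ^ 2 * (n1 - n2)) (e w1 * z0)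
      rw [abs_sub_comm, h4] at h7
      nlinarith
  by_cases hex : ∃ w1 : Om,
      (∃ n : ℤ, |e w1 * z0 + c - 256 * (E : ℤ) ^ 2 * n| ≤ 5 * (E : ℤ)) ∧ e w1 ≠ 0
  · obtain ⟨w1, hw1, hne⟩ := hex
    refine le_trans ?_ hnz
    apply Nat.cast_le.2
    apply Finset.card_le_card
    intro w hw
    simp only [mem_filter, mem_univ, true_and] at hw ⊢
    intro h0
    exact key w1 w hw1 hw hne h0
  · refine le_trans ?_ hz
    apply Nat.cast_le.2
    apply Finset.card_le_card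
    intro w hw
    simp only [mem_filter, mem_univ, true_and] at hw ⊢
    by_contra hne
    exact hex ⟨w, hw, hne⟩

open scoped Classical in
/-- all columns -/
lemma card_SpZ (e : Om → ℤ) (he : ∀ w, |e w| ≤ 1) {al : ℝ} (h0 : 0 ≤ al)
    (hz : ((univ.filter fun w : Om => e w = 0).card : ℝ) ≤ al * Fintype.card Om)
    (hnz : ((univ.filter fun w : Om => e w ≠ 0).card : ℝ) ≤ al * Fintype.card Om)
    {E : ℕ} (hE : 1 ≤ E) {a k : ℕ} (i0 : Fin (a + 1)) (z : Fin (a + 1) → ℤ)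
    (h64 : 64 * (E : ℤ) ≤ |z i0|) (h128 : |z i0| ≤ 128 * (E : ℤ) ^ 2)
    (M' : Fin a → Fin k → Om) :
    ((univ.filter fun x : Fin k → Om =>
      SpZ e E z (Fin.insertNth i0 x M' : Fin (a + 1) → Fin k → Om)).card : ℝ) ≤
      al ^ k * (Fintype.card Om : ℝ) ^ k := by
  have hrw : ∀ x : Fin k → Om, SpZ e E z (Fin.insertNth i0 x M' : Fin (a + 1) → Fin k → Om) ↔
      ∀ j, ∃ n : ℤ, |e (x j) * z i0 + (∑ r, e (M' r j) * z (i0.succAbove r)) -
        256 * (E : ℤ) ^ 2 * n| ≤ 5 * (E : ℤ) := by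
    intro x
    unfold SpZ
    apply forall_congr'
    intro j
    apply exists_congr
    intro n
    rw [Fin.sum_univ_succAbove _ i0]
    have hx : (Fin.insertNth i0 x M' : Fin (a + 1) → Fin k → Om) i0 = x :=
      Fin.insertNth_apply_same (α := fun _ => Fin k → Om) i0 x M'
    have hM : ∀ r, (Fin.insertNth i0 x M' : Fin (a + 1) → Fin k → Om) (i0.succAbove r) = M' r :=
      fun r => Fin.insertNth_apply_succAbove (α := fun _ => Fin k → Om) i0 x M' r
    rw [hx]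
    simp_rw [hM]
  have hset : (univ.filter fun x : Fin k → Om =>
      SpZ e E z (Fin.insertNth i0 x M' : Fin (a + 1) → Fin k → Om)) =
      Fintype.piFinset fun j => univ.filter fun w : Om => ∃ n : ℤ,
        |e w * z i0 + (∑ r, e (M' r j) * z (i0.succAbove r)) - 256 * (E : ℤ) ^ 2 * n| ≤
          5 * (E : ℤ) := by
    ext x
    simp only [mem_filter, mem_univ, true_and, Fintype.mem_piFinset]
    exact hrw x
  rw [hset, Fintype.card_piFinset, Nat.cast_prod, ← mul_pow]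
  refine (Finset.prod_le_prod (fun j _ => by positivity) fun j _ =>
    one_col e he hz hnz hE (z i0) _ h64 h128).trans ?_
  rw [prod_const, card_univ, Fintype.card_fin]

open scoped Classical in
/-- the contribution of one net point -/
lemma one_SpZ (e : Om → ℤ) (he : ∀ w, |e w| ≤ 1) {PP : Finset ℕ} (hPP : ∀ p ∈ PP, p.Prime)
    {al : ℝ} (h0 : 0 ≤ al)
    (hz : ((univ.filter fun w : Om => e w = 0).card : ℝ) ≤ al * Fintype.card Om)
    (hnz : ((univ.filter fun w : Om => e w ≠ 0).card : ℝ) ≤ al * Fintype.card Om)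
    {E : ℕ} (hE : 1 ≤ E) {a k : ℕ} (i0 : Fin (a + 1)) (z : Fin (a + 1) → ℤ) :
    ∑ M : Fin (a + 1) → Fin k → Om, (if 64 * (E : ℤ) ≤ |z i0| ∧ |z i0| ≤ 128 * (E : ℤ) ^ 2 ∧
        SpZ e E z M then W e PP M else 0) ≤
      (∏ p ∈ PP, (p : ℝ)) ^ 2 * (al ^ k * (Fintype.card Om : ℝ) ^ k) *
        ∑ M : Fin a → Fin k → Om, W e PP M := by
  have hS0 : 0 ≤ ∑ M : Fin a → Fin k → Om, W e PP M := Finset.sum_nonneg fun M _ => W_nonneg _ _ _
  by_cases hcond : 64 * (E : ℤ) ≤ |z i0| ∧ |z i0| ≤ 128 * (E : ℤ) ^ 2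
  swap
  · rw [Finset.sum_eq_zero]
    · positivity
    · intro M _
      rw [if_neg]
      rintro ⟨h1, h2, _⟩
      exact hcond ⟨h1, h2⟩
  obtain ⟨h64, h128⟩ := hcond
  rw [sum_split i0]
  have hin : ∀ (M' : Fin a → Fin k → Om), ∑ x : Fin k → Om,
      (if 64 * (E : ℤ) ≤ |z i0| ∧ |z i0| ≤ 128 * (E : ℤ) ^ 2 ∧
        SpZ e E z (Fin.insertNth i0 x M' : Fin (a + 1) → Fin k → Om) then
        W e PP (Fin.insertNth i0 x M' : Fin (a + 1) → Fin k → Om) else 0) ≤
        ((∏ p ∈ PP, (p : ℝ)) ^ 2 * W e PP M') *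
          (al ^ k * (Fintype.card Om : ℝ) ^ k) := by
    intro M'
    have hle : ∀ x : Fin k → Om,
      (if 64 * (E : ℤ) ≤ |z i0| ∧ |z i0| ≤ 128 * (E : ℤ) ^ 2 ∧
        SpZ e E z (Fin.insertNth i0 x M' : Fin (a + 1) → Fin k → Om) then
        W e PP (Fin.insertNth i0 x M' : Fin (a + 1) → Fin k → Om) else 0) ≤
      (if SpZ e E z (Fin.insertNth i0 x M' : Fin (a + 1) → Fin k → Om) then
        (∏ p ∈ PP, (p : ℝ)) ^ 2 * W e PP M' else 0) := by
      intro x
      by_cases hsp : SpZ e E z (Fin.insertNth i0 x M' : Fin (a + 1) → Fin k → Om)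
      · rw [if_pos ⟨h64, h128, hsp⟩, if_pos hsp]
        refine (W_le e hPP _ i0).trans (le_of_eq ?_)
        congr 2
        funext r
        exact Fin.insertNth_apply_succAbove (α := fun _ => Fin k → Om) i0 x M' r
      · rw [if_neg (fun h => hsp h.2.2), if_neg hsp]
    refine (Finset.sum_le_sum fun x _ => hle x).trans ?_
    rw [← Finset.sum_filter, sum_const, nsmul_eq_mul, mul_comm]
    exact mul_le_mul_of_nonneg_left (card_SpZ e he h0 hz hnz hE i0 z h64 h128 M')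
      (mul_nonneg (by positivity) (W_nonneg _ _ _))
  refine (Finset.sum_le_sum fun M' _ => hin M').trans ?_
  rw [← Finset.sum_mul, ← Finset.mul_sum]
  apply le_of_eq
  ring

open scoped Classical in
/-- **Sparse real near relations**: deleting one row costs `N ^ 2` and gains `al ^ k`. -/
theorem real_del (e : Om → ℤ) (he : ∀ w, |e w| ≤ 1) {PP : Finset ℕ} (hPP : ∀ p ∈ PP, p.Prime)
    {al : ℝ} (h0 : 0 ≤ al)
    (hz : ((univ.filter fun w : Om => e w = 0).card : ℝ) ≤ al * Fintype.card Om)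
    (hnz : ((univ.filter fun w : Om => e w ≠ 0).card : ℝ) ≤ al * Fintype.card Om)
    {E : ℕ} (hE : 1 ≤ E) {a k : ℕ} :
    ∑ M : Fin (a + 1) → Fin k → Om, (if SpR e E M then W e PP M else 0) ≤
      ((a : ℝ) + 1) * (∑ j ∈ range (E + 1), ((a + 1).choose j : ℝ)) *
        (256 * (E : ℝ) ^ 2 + 1) ^ E * (∏ p ∈ PP, (p : ℝ)) ^ 2 *
        (al ^ k * (Fintype.card Om : ℝ) ^ k) *
        ∑ M : Fin a → Fin k → Om, W e PP M := by
  have hS0 : 0 ≤ ∑ M : Fin a → Fin k → Om, W e PP M := Finset.sum_nonneg fun M _ => W_nonneg _ _ _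
  set G : Fin (a + 1) → (Fin (a + 1) → ℤ) → (Fin (a + 1) → Fin k → Om) → ℝ := fun i0 z M =>
    if 64 * (E : ℤ) ≤ |z i0| ∧ |z i0| ≤ 128 * (E : ℤ) ^ 2 ∧ SpZ e E z M then W e PP M else 0
    with hG
  have hG0 : ∀ i0 z M, 0 ≤ G i0 z M := by
    intro i0 z M
    simp only [hG]
    split_ifs
    · exact W_nonneg _ _ _
    · exact le_rfl
  have hcov : ∀ M : Fin (a + 1) → Fin k → Om, (if SpR e E M then W e PP M else 0) ≤
      ∑ i0, ∑ T ∈ TT a E, ∑ z ∈ BZ a E T, G i0 z M := by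
    intro M
    have hn1 : ∀ i0 T, 0 ≤ ∑ z ∈ BZ a E T, G i0 z M :=
      fun i0 T => Finset.sum_nonneg fun z _ => hG0 i0 z M
    have hn2 : ∀ i0, 0 ≤ ∑ T ∈ TT a E, ∑ z ∈ BZ a E T, G i0 z M :=
      fun i0 => Finset.sum_nonneg fun T _ => hn1 i0 T
    split_ifs with hS
    · obtain ⟨i0, T, hT, z, hz', h64, h128, hsp⟩ := exists_SpZ e he hE M hS
      refine le_trans ?_ (Finset.single_le_sum (fun i _ => hn2 i) (mem_univ i0))
      refine le_trans ?_ (Finset.single_le_sum (fun T _ => hn1 i0 T) hT)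
      refine le_trans ?_ (Finset.single_le_sum (fun z _ => hG0 i0 z M) hz')
      simp only [hG]
      rw [if_pos ⟨h64, h128, hsp⟩]
    · exact Finset.sum_nonneg fun i _ => hn2 i
  set B : ℝ := (∏ p ∈ PP, (p : ℝ)) ^ 2 * (al ^ k * (Fintype.card Om : ℝ) ^ k) *
    ∑ M : Fin a → Fin k → Om, W e PP M with hB
  have hB0 : 0 ≤ B := by positivity
  calc ∑ M : Fin (a + 1) → Fin k → Om, (if SpR e E M then W e PP M else 0)
      ≤ ∑ M : Fin (a + 1) → Fin k → Om, ∑ i0, ∑ T ∈ TT a E, ∑ z ∈ BZ a E T, G i0 z M :=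
        Finset.sum_le_sum fun M _ => hcov M
    _ = ∑ i0, ∑ T ∈ TT a E, ∑ z ∈ BZ a E T, ∑ M : Fin (a + 1) → Fin k → Om, G i0 z M := by
        rw [Finset.sum_comm]
        apply Finset.sum_congr rfl
        intro i0 _
        rw [Finset.sum_comm]
        apply Finset.sum_congr rfl
        intro T _
        rw [Finset.sum_comm]
    _ ≤ ∑ _i0 : Fin (a + 1), ∑ _T ∈ TT a E, (256 * (E : ℝ) ^ 2 + 1) ^ E * B := by
        apply Finset.sum_le_sum
        intro i0 _
        apply Finset.sum_le_sum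
        intro T hT
        have hTc : T.card ≤ E := by
          simp only [TT, mem_filter, mem_univ, true_and] at hT
          exact hT.2
        refine (Finset.sum_le_sum fun z _ => one_SpZ e he hPP h0 hz hnz hE i0 z).trans ?_
        rw [sum_const, nsmul_eq_mul]
        apply mul_le_mul_of_nonneg_right _ hB0
        exact_mod_cast card_BZ a E hTc
    _ = ((a : ℝ) + 1) * ((TT a E).card : ℝ) * ((256 * (E : ℝ) ^ 2 + 1) ^ E * B) := by
        rw [sum_const, sum_const, card_univ, Fintype.card_fin, nsmul_eq_mul, nsmul_eq_mul]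
        push_cast
        ring
    _ ≤ ((a : ℝ) + 1) * (∑ j ∈ range (E + 1), ((a + 1).choose j : ℝ)) *
          ((256 * (E : ℝ) ^ 2 + 1) ^ E * B) := by
        apply mul_le_mul_of_nonneg_right _ (by positivity)
        exact mul_le_mul_of_nonneg_left (card_TT a E) (by positivity)
    _ = _ := by
        rw [hB]
        ring

end Vale.Agent.P160.Half.RealDel513
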