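import Mathlib

/-! # P160: the half-size reduction

`P` a random symmetric 0/1 matrix indexed by `α ⊕ β`, modulo `N`.  For every vector `u = (a, b)`
the probability that `P u = 0` is at most the probability that `a Ξ = 0` and `Ξ b = 0`, where
`Ξ` is an `α × β` matrix with i.i.d. lazy entries. -/

set_option linter.unusedSectionVars false

namespace Vale.Agent.P160.Half.Red

open Finset

variable {N : ℕ} [NeZero N]

/-- `|cos (π t / N)|`. -/
noncomputable def kp (t : ZMod N) : ℝ := ‖1 + ZMod.stdAddChar t‖ / 2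

lemma kp_nonneg (t : ZMod N) : 0 ≤ kp t := by
  unfold kp; positivity

lemma kp_le_one (t : ZMod N) : kp t ≤ 1 := by
  unfold kp
  have h : ‖(1 : ℂ) + ZMod.stdAddChar t‖ ≤ 2 := by
    refine (norm_add_le _ _).trans ?_
    rw [norm_one, AddChar.norm_apply]
    norm_num
  linarith

lemma addChar_sum {A κ : Type*} [AddCommMonoid A] (ψ : AddChar A ℂ) (S : Finset κ) (f : κ → A) :
    ψ (∑ i ∈ S, f i) = ∏ i ∈ S, ψ (f i) := by
  classical
  induction S using Finset.induction_on with
  | empty => simp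
  | insert i S hi ih => rw [Finset.sum_insert hi, Finset.prod_insert hi, AddChar.map_add_eq_mul, ih]

/-- orthogonality over vectors -/
theorem sum_vec {κ : Type*} [Fintype κ] [DecidableEq κ] (x : κ → ZMod N) :
    (∑ w : κ → ZMod N, (ZMod.stdAddChar (∑ i, w i * x i) : ℂ)) =
      if x = 0 then (N : ℂ) ^ Fintype.card κ else 0 := by
  have h1 : ∀ w : κ → ZMod N, (ZMod.stdAddChar (∑ i, w i * x i) : ℂ) =
      ∏ i, ZMod.stdAddChar (w i * x i) := fun w => addChar_sum _ _ _
  simp_rw [h1]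
  have h2 := (Finset.prod_univ_sum (fun _ : κ => (univ : Finset (ZMod N)))
    (fun i t => (ZMod.stdAddChar (t * x i) : ℂ)))
  rw [Fintype.piFinset_univ] at h2
  rw [← h2]
  have h3 : ∀ i, (∑ t : ZMod N, (ZMod.stdAddChar (t * x i) : ℂ)) = if x i = 0 then (N : ℂ) else 0 := by
    intro i
    have := AddChar.sum_mulShift (ψ := (ZMod.stdAddChar : AddChar (ZMod N) ℂ)) (x i)
      (ZMod.isPrimitive_stdAddChar N)
    rw [ZMod.card] at this
    exact_mod_cast this
  simp_rw [h3]
  by_cases hx : x = 0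
  · subst hx
    simp
  · rw [if_neg hx]
    obtain ⟨i, hi⟩ := Function.ne_iff.1 hx
    exact Finset.prod_eq_zero (mem_univ i) (if_neg hi)

/-- the symmetric 0/1 matrix modulo `N` with bits `b` -/
def sm {ι : Type*} (b : Sym2 ι → Bool) (i j : ι) : ZMod N := if b s(i, j) then 1 else 0

/-- the coefficient of the bit `z` in `w^T P u` -/
def cfz {ι : Type*} [Fintype ι] [DecidableEq ι] (u w : ι → ZMod N) (z : Sym2 ι) : ZMod N :=
  ∑ p : ι × ι with s(p.1, p.2) = z, w p.1 * u p.2

theorem bilin_eq {ι : Type*} [Fintype ι] [DecidableEq ι] (u w : ι → ZMod N) (b : Sym2 ι → Bool) :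
    (∑ i, w i * ∑ j, sm b i j * u j) = ∑ z, if b z then cfz u w z else 0 := by
  have h1 : (∑ i, w i * ∑ j, sm b i j * u j) =
      ∑ p : ι × ι, (if b s(p.1, p.2) then w p.1 * u p.2 else 0) := by
    rw [Fintype.sum_prod_type]
    refine Finset.sum_congr rfl fun i _ => ?_
    rw [Finset.mul_sum]
    refine Finset.sum_congr rfl fun j _ => ?_
    unfold sm
    split_ifs <;> ring
  rw [h1, ← Finset.sum_fiberwise (univ : Finset (ι × ι)) (fun p => s(p.1, p.2))]
  refine Finset.sum_congr rfl fun z _ => ?_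
  unfold cfz
  by_cases hb : b z = true
  · rw [if_pos hb]
    refine Finset.sum_congr rfl fun p hp => ?_
    rw [if_pos]
    rw [(Finset.mem_filter.1 hp).2]; exact hb
  · rw [if_neg hb]
    refine Finset.sum_eq_zero fun p hp => ?_
    rw [if_neg]
    rw [(Finset.mem_filter.1 hp).2]; exact hb

theorem sum_bits {ι : Type*} [Fintype ι] [DecidableEq ι] (u w : ι → ZMod N) :
    (∑ b : Sym2 ι → Bool, (ZMod.stdAddChar (∑ i, w i * ∑ j, sm b i j * u j) : ℂ)) =
      ∏ z, (1 + ZMod.stdAddChar (cfz u w z)) := by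
  have h1 : ∀ z, (1 + ZMod.stdAddChar (cfz u w z) : ℂ) =
      ∑ c : Bool, ZMod.stdAddChar (if c then cfz u w z else 0) := by
    intro z; simp [add_comm]
  simp_rw [h1]
  rw [Finset.prod_univ_sum, Fintype.piFinset_univ]
  refine Finset.sum_congr rfl fun b _ => ?_
  rw [bilin_eq]
  exact addChar_sum _ _ _

/-- The number of symmetric 0/1 matrices killing `u`. -/
theorem count_le {ι : Type*} [Fintype ι] [DecidableEq ι] (u : ι → ZMod N) :
    ((univ.filter (fun b : Sym2 ι → Bool => ∀ i, ∑ j, sm b i j * u j = 0)).card : ℝ) /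
        2 ^ Fintype.card (Sym2 ι) * (N : ℝ) ^ Fintype.card ι ≤
      ∑ w : ι → ZMod N, ∏ z, kp (cfz u w z) := by
  classical
  have h1 : (((univ.filter (fun b : Sym2 ι → Bool => ∀ i, ∑ j, sm b i j * u j = 0)).card : ℝ) : ℂ)
      * (N : ℂ) ^ Fintype.card ι = ∑ w : ι → ZMod N, ∏ z, (1 + ZMod.stdAddChar (cfz u w z)) := by
    simp_rw [← sum_bits]
    rw [Finset.sum_comm]
    simp_rw [sum_vec]
    rw [Finset.card_filter]
    push_cast
    rw [Finset.sum_mul]
    refine Finset.sum_congr rfl fun b _ => ?_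
    by_cases h : ∀ i, ∑ j, sm b i j * u j = 0
    · have h' : (fun i => ∑ j, sm b i j * u j) = 0 := funext h
      rw [if_pos h, if_pos h', Complex.ofReal_one, one_mul]
    · have h' : ¬ (fun i => ∑ j, sm b i j * u j) = 0 := fun h' => h (fun i => congrFun h' i)
      rw [if_neg h, if_neg h', Complex.ofReal_zero, zero_mul]
  have h2 : ((univ.filter (fun b : Sym2 ι → Bool => ∀ i, ∑ j, sm b i j * u j = 0)).card : ℝ)
      * (N : ℝ) ^ Fintype.card ι ≤ ∑ w : ι → ZMod N, ∏ z, ‖1 + (ZMod.stdAddChar (cfz u w z) : ℂ)‖ := by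
    have h3 : ‖(((univ.filter (fun b : Sym2 ι → Bool => ∀ i, ∑ j, sm b i j * u j = 0)).card : ℝ) : ℂ)
      * (N : ℂ) ^ Fintype.card ι‖ = ((univ.filter (fun b : Sym2 ι → Bool =>
        ∀ i, ∑ j, sm b i j * u j = 0)).card : ℝ) * (N : ℝ) ^ Fintype.card ι := by
      rw [norm_mul, norm_pow, Complex.norm_natCast, Complex.norm_real, Real.norm_natCast]
    rw [← h3, h1]
    refine (norm_sum_le _ _).trans (Finset.sum_le_sum fun w _ => ?_)
    rw [norm_prod]
  have h4 : ∀ w : ι → ZMod N, ∏ z, kp (cfz u w z) =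
      (∏ z, ‖1 + (ZMod.stdAddChar (cfz u w z) : ℂ)‖) / 2 ^ Fintype.card (Sym2 ι) := by
    intro w
    unfold kp
    rw [Finset.prod_div_distrib, Finset.prod_const, Finset.card_univ]
  simp_rw [h4]
  rw [← Finset.sum_div, div_mul_eq_mul_div]
  gcongr

/-- coefficient of the bit of a pair of different indices -/
theorem cfz_of_ne {ι : Type*} [Fintype ι] [DecidableEq ι] (u w : ι → ZMod N) {i j : ι}
    (h : i ≠ j) : cfz u w s(i, j) = w i * u j + w j * u i := by
  unfold cfz
  have h1 : (univ.filter (fun p : ι × ι => s(p.1, p.2) = s(i, j))) = {(i, j), (j, i)} := by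
    ext ⟨a, b⟩
    simp only [mem_filter, mem_univ, true_and, mem_insert, mem_singleton, Sym2.eq_iff,
      Prod.mk.injEq]
  rw [h1, Finset.sum_pair]
  intro hh
  exact h (Prod.mk.inj hh).1

variable {α β Ω : Type*} [Fintype α] [Fintype β] [Fintype Ω] [DecidableEq α] [DecidableEq β]

/-- the i.i.d. rectangular matrix with seeds `s` and values `val` -/
def rm (val : Ω → ZMod N) (s : α → β → Ω) (i : α) (j : β) : ZMod N := val (s i j)

/-- the event that `a Ξ = 0` and `Ξ b = 0` -/
def two (val : Ω → ZMod N) (u : α ⊕ β → ZMod N) (s : α → β → Ω) : Prop :=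
  (∀ j, ∑ i, u (Sum.inl i) * rm val s i j = 0) ∧ (∀ i, ∑ j, rm val s i j * u (Sum.inr j) = 0)

theorem bilin_rect (val : Ω → ZMod N) (s : α → β → Ω) (u w : α ⊕ β → ZMod N) :
    (∑ x : α ⊕ β, w x * (Sum.elim (fun i => ∑ j, rm val s i j * u (Sum.inr j))
        (fun j => ∑ i, u (Sum.inl i) * rm val s i j) x)) =
      ∑ i, ∑ j, val (s i j) * (w (Sum.inl i) * u (Sum.inr j) + w (Sum.inr j) * u (Sum.inl i)) := by
  rw [Fintype.sum_sum_type]
  simp only [Sum.elim_inl, Sum.elim_inr]
  have h1 : (∑ j, w (Sum.inr j) * ∑ i, u (Sum.inl i) * rm val s i j) =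
      ∑ i, ∑ j, val (s i j) * (w (Sum.inr j) * u (Sum.inl i)) := by
    rw [Finset.sum_comm]
    refine Finset.sum_congr rfl fun j _ => ?_
    rw [Finset.mul_sum]
    refine Finset.sum_congr rfl fun i _ => ?_
    unfold rm; ring
  rw [h1, ← Finset.sum_add_distrib]
  refine Finset.sum_congr rfl fun i _ => ?_
  rw [Finset.mul_sum, ← Finset.sum_add_distrib]
  refine Finset.sum_congr rfl fun j _ => ?_
  unfold rm; ring

/-- The half-size reduction, pointwise in `u`: `h` is the characteristic function of the law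
`val`, and `|cos| ≤ h`. -/
theorem half_le (val : Ω → ZMod N) (h : ZMod N → ℝ)
    (hval : ∀ t : ZMod N, (∑ ω, (ZMod.stdAddChar (val ω * t) : ℂ)) =
      ((Fintype.card Ω : ℝ) * h t : ℝ))
    (hk : ∀ t, kp t ≤ h t) (hΩ : 0 < Fintype.card Ω) (u : α ⊕ β → ZMod N)
    [DecidablePred (two val u)] :
    ((univ.filter (fun b : Sym2 (α ⊕ β) → Bool => ∀ i, ∑ j, sm b i j * u j = 0)).card : ℝ) /
        2 ^ Fintype.card (Sym2 (α ⊕ β)) ≤
      ((univ.filter (two val u)).card : ℝ) / (Fintype.card (α → β → Ω) : ℝ) := by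
  classical
  have hN : (0 : ℝ) < N := by exact_mod_cast Nat.pos_of_ne_zero (NeZero.ne N)
  have hNp : (0 : ℝ) < (N : ℝ) ^ Fintype.card (α ⊕ β) := pow_pos hN _
  have hΩ' : (0 : ℝ) < Fintype.card Ω := by exact_mod_cast hΩ
  have hcard : (0 : ℝ) < (Fintype.card (α → β → Ω) : ℝ) := by
    rw [Fintype.card_fun, Fintype.card_fun]
    push_cast
    positivity
  -- the coefficient of an entry
  let c : (α ⊕ β → ZMod N) → α → β → ZMod N := fun w i j =>
    w (Sum.inl i) * u (Sum.inr j) + w (Sum.inr j) * u (Sum.inl i)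
  have h1 : ∀ w : α ⊕ β → ZMod N, ∏ z, kp (cfz u w z) ≤ ∏ i, ∏ j, h (c w i j) := by
    intro w
    let f : α × β → Sym2 (α ⊕ β) := fun p => s(Sum.inl p.1, Sum.inr p.2)
    have hf : Function.Injective f := by
      rintro ⟨i, j⟩ ⟨i', j'⟩ hh
      simp only [f, Sym2.eq_iff, Sum.inl.injEq, Sum.inr.injEq, reduceCtorEq, and_false,
        or_false] at hh
      exact Prod.ext hh.1 hh.2
    calc ∏ z, kp (cfz u w z) ≤ ∏ z ∈ univ.image f, kp (cfz u w z) := by
          rw [← Finset.prod_sdiff (subset_univ (univ.image f))]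
          refine mul_le_of_le_one_left (Finset.prod_nonneg fun _ _ => kp_nonneg _) ?_
          exact Finset.prod_le_one (fun _ _ => kp_nonneg _) (fun _ _ => kp_le_one _)
      _ = ∏ p : α × β, kp (cfz u w (f p)) := Finset.prod_image (fun a _ b _ hab => hf hab)
      _ ≤ ∏ p : α × β, h (c w p.1 p.2) := by
          refine Finset.prod_le_prod (fun p _ => kp_nonneg _) fun p _ => ?_
          have : cfz u w (f p) = c w p.1 p.2 := cfz_of_ne u w (by simp)
          rw [this]
          exact hk _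
      _ = ∏ i, ∏ j, h (c w i j) := Fintype.prod_prod_type _
  have h2 : ∀ w : α ⊕ β → ZMod N, ((∏ i, ∏ j, h (c w i j) : ℝ) : ℂ) =
      (∑ s : α → β → Ω, ZMod.stdAddChar (∑ x : α ⊕ β, w x *
        (Sum.elim (fun i => ∑ j, rm val s i j * u (Sum.inr j))
        (fun j => ∑ i, u (Sum.inl i) * rm val s i j) x))) / (Fintype.card (α → β → Ω) : ℝ) := by
    intro w
    have e1 : ∀ s : α → β → Ω, (ZMod.stdAddChar (∑ x : α ⊕ β, w x *
        (Sum.elim (fun i => ∑ j, rm val s i j * u (Sum.inr j))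
        (fun j => ∑ i, u (Sum.inl i) * rm val s i j) x)) : ℂ) =
        ∏ i, ∏ j, ZMod.stdAddChar (val (s i j) * c w i j) := by
      intro s
      rw [bilin_rect, addChar_sum]
      exact Finset.prod_congr rfl fun i _ => addChar_sum _ _ _
    simp_rw [e1]
    have e2 : (∏ i, ∏ j, ∑ ω, (ZMod.stdAddChar (val ω * c w i j) : ℂ)) =
        ∑ s : α → β → Ω, ∏ i, ∏ j, ZMod.stdAddChar (val (s i j) * c w i j) := by
      have e3 : ∀ i, (∏ j, ∑ ω, (ZMod.stdAddChar (val ω * c w i j) : ℂ)) =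
          ∑ t : β → Ω, ∏ j, ZMod.stdAddChar (val (t j) * c w i j) := by
        intro i
        rw [Finset.prod_univ_sum, Fintype.piFinset_univ]
      simp_rw [e3]
      rw [Finset.prod_univ_sum, Fintype.piFinset_univ]
    rw [← e2]
    simp_rw [hval]
    rw [eq_div_iff (by exact_mod_cast hcard.ne')]
    rw [Fintype.card_fun, Fintype.card_fun]
    push_cast
    simp_rw [Finset.prod_mul_distrib, Finset.prod_const, Finset.card_univ]
    ring
  have h3 := count_le (N := N) u
  have h4 : (∑ w : α ⊕ β → ZMod N, ∏ z, kp (cfz u w z)) ≤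
      ((univ.filter (two val u)).card : ℝ) / (Fintype.card (α → β → Ω) : ℝ) *
        (N : ℝ) ^ Fintype.card (α ⊕ β) := by
    refine (Finset.sum_le_sum fun w _ => h1 w).trans (le_of_eq ?_)
    have e4 : ((∑ w : α ⊕ β → ZMod N, ∏ i, ∏ j, h (c w i j) : ℝ) : ℂ) =
        ((((univ.filter (two val u)).card : ℝ) / (Fintype.card (α → β → Ω) : ℝ) *
        (N : ℝ) ^ Fintype.card (α ⊕ β) : ℝ) : ℂ) := by
      rw [Complex.ofReal_sum]
      simp_rw [h2]
      rw [← Finset.sum_div, Finset.sum_comm]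
      simp_rw [sum_vec]
      rw [Finset.card_filter]
      push_cast
      rw [div_mul_eq_mul_div]
      congr 1
      rw [Finset.sum_mul]
      refine Finset.sum_congr rfl fun s _ => ?_
      by_cases hs : two val u s
      · have h' : (fun x => Sum.elim (fun i => ∑ j, rm val s i j * u (Sum.inr j))
            (fun j => ∑ i, u (Sum.inl i) * rm val s i j) x) = 0 := by
          funext x
          rcases x with i | j
          · exact hs.2 i
          · exact hs.1 j
        rw [if_pos h']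
        simp [hs]
      · have h' : ¬ (fun x => Sum.elim (fun i => ∑ j, rm val s i j * u (Sum.inr j))
            (fun j => ∑ i, u (Sum.inl i) * rm val s i j) x) = 0 := by
          intro hh
          exact hs ⟨fun j => congrFun hh (Sum.inr j), fun i => congrFun hh (Sum.inl i)⟩
        rw [if_neg h']
        simp [hs]
    exact_mod_cast e4
  exact le_of_mul_le_mul_right (h3.trans h4) hNp

omit [NeZero N] in
/-- The lazy law: `1` and `-1` with probability `1/8` each, `0` with probability `3/4`. -/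
def val8 (i : Fin 8) : ZMod N := if i = 0 then 1 else if i = 1 then -1 else 0

/-- the characteristic function of the lazy law -/
noncomputable def h8 (t : ZMod N) : ℝ := (3 + (ZMod.stdAddChar t : ℂ).re) / 4

lemma normSq_char (t : ZMod N) : (ZMod.stdAddChar t : ℂ).re ^ 2 + (ZMod.stdAddChar t : ℂ).im ^ 2 = 1 := by
  have h1 : ‖(ZMod.stdAddChar t : ℂ)‖ = 1 := AddChar.norm_apply _ _
  have h2 : Complex.normSq (ZMod.stdAddChar t : ℂ) = 1 := by
    rw [Complex.normSq_eq_norm_sq, h1]; norm_num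
  rw [Complex.normSq_apply] at h2
  linarith [h2]

lemma kp_sq (t : ZMod N) : kp t ^ 2 = (1 + (ZMod.stdAddChar t : ℂ).re) / 2 := by
  unfold kp
  have h1 : ‖(1 : ℂ) + ZMod.stdAddChar t‖ ^ 2 = 2 + 2 * (ZMod.stdAddChar t : ℂ).re := by
    rw [← Complex.normSq_eq_norm_sq, Complex.normSq_apply]
    simp only [Complex.add_re, Complex.one_re, Complex.add_im, Complex.one_im, zero_add]
    have := normSq_char t
    nlinarith
  rw [div_pow, h1]
  ring

lemma kp_le_h8 (t : ZMod N) : kp t ≤ h8 t := by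
  have h1 := kp_sq t
  have h2 : h8 t = (1 + kp t ^ 2) / 2 := by
    unfold h8; rw [h1]; ring
  rw [h2]
  nlinarith [sq_nonneg (kp t - 1)]

lemma sum_val8 (t : ZMod N) : (∑ ω : Fin 8, (ZMod.stdAddChar ((val8 ω : ZMod N) * t) : ℂ)) =
    ((Fintype.card (Fin 8) : ℝ) * h8 t : ℝ) := by
  have hneg : (ZMod.stdAddChar (-t) : ℂ) = (starRingEnd ℂ) (ZMod.stdAddChar t : ℂ) := by
    rw [AddChar.map_neg_eq_conj]
  have hadd : (ZMod.stdAddChar t : ℂ) + (starRingEnd ℂ) (ZMod.stdAddChar t : ℂ) =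
      ((2 * (ZMod.stdAddChar t : ℂ).re : ℝ) : ℂ) := Complex.add_conj _
  simp only [Fin.sum_univ_eight, val8]
  norm_num [Fin.ext_iff]
  rw [hneg, hadd]
  unfold h8
  push_cast
  ring

/-- The half-size reduction with the lazy law `(1/8, 3/4, 1/8)`. -/
theorem half_le8 (u : α ⊕ β → ZMod N) [DecidablePred (two (β := β) (α := α) (val8 (N := N)) u)] :
    ((univ.filter (fun b : Sym2 (α ⊕ β) → Bool => ∀ i, ∑ j, sm b i j * u j = 0)).card : ℝ) /
        2 ^ Fintype.card (Sym2 (α ⊕ β)) ≤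
      ((univ.filter (two val8 u)).card : ℝ) / (Fintype.card (α → β → Fin 8) : ℝ) :=
  half_le val8 h8 sum_val8 kp_le_h8 (by simp) u

/-- Expected number of kernel vectors in a set `S`: at most the expected number of pairs
`(a, b)` in `S` with `a Ξ = 0`, `Ξ b = 0`. -/
theorem half_sum_le8 (S : Finset (α ⊕ β → ZMod N)) [∀ u, DecidablePred (two (β := β) (α := α) (val8 (N := N)) u)] :
    (∑ b : Sym2 (α ⊕ β) → Bool, ((S.filter (fun u => ∀ i, ∑ j, sm b i j * u j = 0)).card : ℝ)) /
        2 ^ Fintype.card (Sym2 (α ⊕ β)) ≤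
      (∑ s : α → β → Fin 8, ((S.filter (fun u => two val8 u s)).card : ℝ)) /
        (Fintype.card (α → β → Fin 8) : ℝ) := by
  classical
  have e1 : (∑ b : Sym2 (α ⊕ β) → Bool,
      ((S.filter (fun u => ∀ i, ∑ j, sm b i j * u j = 0)).card : ℝ)) =
      ∑ u ∈ S, ((univ.filter (fun b : Sym2 (α ⊕ β) → Bool =>
        ∀ i, ∑ j, sm b i j * u j = 0)).card : ℝ) := by
    simp_rw [Finset.card_filter]
    push_cast
    rw [Finset.sum_comm]
  have e2 : (∑ s : α → β → Fin 8, ((S.filter (fun u => two val8 u s)).card : ℝ)) =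
      ∑ u ∈ S, ((univ.filter (two val8 u)).card : ℝ) := by
    simp_rw [Finset.card_filter]
    push_cast
    rw [Finset.sum_comm]
  rw [e1, e2, Finset.sum_div, Finset.sum_div]
  exact Finset.sum_le_sum fun u _ => half_le8 u

end Vale.Agent.P160.Half.Red
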