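import Vale.Agent.P160.Half.Red

/-! # P160: the half-size reduction with the law `(1/4, 1/2, 1/4)`

The coordinates are `κ × Bool`; `σ : κ → Bool` chooses one element of every pair. -/

set_option linter.unusedSectionVars false

namespace Vale.Agent.P160.Half.Red

open Finset

variable {N : ℕ} [NeZero N]

section gen

variable {α β Ω : Type*} [Fintype α] [Fintype β] [Fintype Ω] [DecidableEq α] [DecidableEq β]

/-- rectangular matrix with independent entries, entry-dependent laws -/
def rmg (val : α → β → Ω → ZMod N) (s : α → β → Ω) (i : α) (j : β) : ZMod N := val i j (s i j)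

/-- the event that `a Ξ = 0` and `Ξ b = 0` -/
def twog (val : α → β → Ω → ZMod N) (u : α ⊕ β → ZMod N) (s : α → β → Ω) : Prop :=
  (∀ j, ∑ i, u (Sum.inl i) * rmg val s i j = 0) ∧ (∀ i, ∑ j, rmg val s i j * u (Sum.inr j) = 0)

theorem bilin_rectg (val : α → β → Ω → ZMod N) (s : α → β → Ω) (u w : α ⊕ β → ZMod N) :
    (∑ x : α ⊕ β, w x * (Sum.elim (fun i => ∑ j, rmg val s i j * u (Sum.inr j))
        (fun j => ∑ i, u (Sum.inl i) * rmg val s i j) x)) =
      ∑ i, ∑ j, val i j (s i j) *
        (w (Sum.inl i) * u (Sum.inr j) + w (Sum.inr j) * u (Sum.inl i)) := by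
  rw [Fintype.sum_sum_type]
  simp only [Sum.elim_inl, Sum.elim_inr]
  have h1 : (∑ j, w (Sum.inr j) * ∑ i, u (Sum.inl i) * rmg val s i j) =
      ∑ i, ∑ j, val i j (s i j) * (w (Sum.inr j) * u (Sum.inl i)) := by
    rw [Finset.sum_comm]
    refine Finset.sum_congr rfl fun j _ => ?_
    rw [Finset.mul_sum]
    refine Finset.sum_congr rfl fun i _ => ?_
    unfold rmg; ring
  rw [h1, ← Finset.sum_add_distrib]
  refine Finset.sum_congr rfl fun i _ => ?_
  rw [Finset.mul_sum, ← Finset.sum_add_distrib]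
  refine Finset.sum_congr rfl fun j _ => ?_
  unfold rmg; ring

/-- The sum over the second vector, for a matrix with independent entries. -/
theorem rect_sum (val : α → β → Ω → ZMod N) (h : α → β → ZMod N → ℝ)
    (hval : ∀ i j, ∀ t : ZMod N, (∑ ω, (ZMod.stdAddChar (val i j ω * t) : ℂ)) =
      ((Fintype.card Ω : ℝ) * h i j t : ℝ))
    (hΩ : 0 < Fintype.card Ω) (u : α ⊕ β → ZMod N) [DecidablePred (twog val u)] :
    (∑ w : α ⊕ β → ZMod N, ∏ i, ∏ j,
        h i j (w (Sum.inl i) * u (Sum.inr j) + w (Sum.inr j) * u (Sum.inl i))) =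
      ((univ.filter (twog val u)).card : ℝ) / (Fintype.card (α → β → Ω) : ℝ) *
        (N : ℝ) ^ Fintype.card (α ⊕ β) := by
  classical
  have hΩ' : (0 : ℝ) < Fintype.card Ω := by exact_mod_cast hΩ
  have hcard : (0 : ℝ) < (Fintype.card (α → β → Ω) : ℝ) := by
    rw [Fintype.card_fun, Fintype.card_fun]
    push_cast
    positivity
  let c : (α ⊕ β → ZMod N) → α → β → ZMod N := fun w i j =>
    w (Sum.inl i) * u (Sum.inr j) + w (Sum.inr j) * u (Sum.inl i)
  have h2 : ∀ w : α ⊕ β → ZMod N, ((∏ i, ∏ j, h i j (c w i j) : ℝ) : ℂ) =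
      (∑ s : α → β → Ω, ZMod.stdAddChar (∑ x : α ⊕ β, w x *
        (Sum.elim (fun i => ∑ j, rmg val s i j * u (Sum.inr j))
        (fun j => ∑ i, u (Sum.inl i) * rmg val s i j) x))) / (Fintype.card (α → β → Ω) : ℝ) := by
    intro w
    have e1 : ∀ s : α → β → Ω, (ZMod.stdAddChar (∑ x : α ⊕ β, w x *
        (Sum.elim (fun i => ∑ j, rmg val s i j * u (Sum.inr j))
        (fun j => ∑ i, u (Sum.inl i) * rmg val s i j) x)) : ℂ) =
        ∏ i, ∏ j, ZMod.stdAddChar (val i j (s i j) * c w i j) := by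
      intro s
      rw [bilin_rectg, addChar_sum]
      exact Finset.prod_congr rfl fun i _ => addChar_sum _ _ _
    simp_rw [e1]
    have e2 : (∏ i, ∏ j, ∑ ω, (ZMod.stdAddChar (val i j ω * c w i j) : ℂ)) =
        ∑ s : α → β → Ω, ∏ i, ∏ j, ZMod.stdAddChar (val i j (s i j) * c w i j) := by
      have e3 : ∀ i, (∏ j, ∑ ω, (ZMod.stdAddChar (val i j ω * c w i j) : ℂ)) =
          ∑ t : β → Ω, ∏ j, ZMod.stdAddChar (val i j (t j) * c w i j) := by
        intro i
        rw [Finset.prod_univ_sum, Fintype.piFinset_univ]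
      simp_rw [e3]
      rw [Finset.prod_univ_sum, Fintype.piFinset_univ]
    rw [← e2]
    simp_rw [hval]
    rw [eq_div_iff (by exact_mod_cast hcard.ne')]
    rw [Fintype.card_fun, Fintype.card_fun]
    push_cast
    simp_rw [Finset.prod_mul_distrib, Finset.prod_const, Finset.card_univ]
    ring
  have e4 : ((∑ w : α ⊕ β → ZMod N, ∏ i, ∏ j, h i j (c w i j) : ℝ) : ℂ) =
      ((((univ.filter (twog val u)).card : ℝ) / (Fintype.card (α → β → Ω) : ℝ) *
      (N : ℝ) ^ Fintype.card (α ⊕ β) : ℝ) : ℂ) := by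
    rw [Complex.ofReal_sum]
    simp_rw [h2]
    rw [← Finset.sum_div, Finset.sum_comm]
    simp_rw [sum_vec]
    rw [Finset.card_filter]
    push_cast
    rw [div_mul_eq_mul_div]
    congr 1
    rw [Finset.sum_mul]
    refine Finset.sum_congr rfl fun s _ => ?_
    by_cases hs : twog val u s
    · have h' : (fun x => Sum.elim (fun i => ∑ j, rmg val s i j * u (Sum.inr j))
          (fun j => ∑ i, u (Sum.inl i) * rmg val s i j) x) = 0 := by
        funext x
        rcases x with i | j
        · exact hs.2 i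
        · exact hs.1 j
      rw [if_pos h']
      simp [hs]
    · have h' : ¬ (fun x => Sum.elim (fun i => ∑ j, rmg val s i j * u (Sum.inr j))
          (fun j => ∑ i, u (Sum.inl i) * rmg val s i j) x) = 0 := by
        intro hh
        exact hs ⟨fun j => congrFun hh (Sum.inr j), fun i => congrFun hh (Sum.inl i)⟩
      rw [if_neg h']
      simp [hs]
  exact_mod_cast e4

end gen

/-! ## Perfect matching -/

variable {κ : Type*} [Fintype κ] [DecidableEq κ]

/-- `σ` splits `κ × Bool` into two halves of the same size. -/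
def spl (σ : κ → Bool) : κ ⊕ κ ≃ κ × Bool where
  toFun := Sum.elim (fun i => (i, σ i)) (fun i => (i, !σ i))
  invFun x := if x.2 = σ x.1 then Sum.inl x.1 else Sum.inr x.1
  left_inv := by
    rintro (i | i) <;> simp
  right_inv := by
    rintro ⟨i, a⟩
    by_cases h : a = σ i
    · simp [h]
    · simp only [h, if_false, Sum.elim_inr, Prod.mk.injEq, true_and]
      cases a <;> cases hs : σ i <;> simp_all

/-- the two halves are separated by `σ` -/
def sep (σ : κ → Bool) : Sym2 (κ × Bool) → Prop :=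
  Sym2.lift ⟨fun x y => ((x.2 = σ x.1) ↔ ¬ (y.2 = σ y.1)), fun x y => by
    apply propext; tauto⟩

/-- the pairs of coordinates in different pairs of the matching -/
def crs : Finset (Sym2 (κ × Bool)) := by
  classical
  exact univ.filter (fun z => ¬ (z.map Prod.fst).IsDiag)

theorem mem_crs (x y : κ × Bool) : s(x, y) ∈ (crs : Finset (Sym2 (κ × Bool))) ↔ x.1 ≠ y.1 := by
  unfold crs
  simp

theorem sep_flip (σ : κ → Bool) (x y : κ × Bool) (hxy : x.1 ≠ y.1) :
    sep (Function.update σ x.1 (!σ x.1)) s(x, y) ↔ ¬ sep σ s(x, y) := by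
  unfold sep
  simp only [Sym2.lift_mk, Function.update_self, Function.update_of_ne hxy.symm]
  have h : (x.2 = !σ x.1) ↔ ¬ (x.2 = σ x.1) := by
    cases x.2 <;> cases σ x.1 <;> simp
  rw [h]
  tauto

theorem card_sep (x y : κ × Bool) (hxy : x.1 ≠ y.1) [DecidablePred fun σ : κ → Bool => sep σ s(x, y)] :
    2 * (univ.filter (fun σ : κ → Bool => sep σ s(x, y))).card = 2 ^ Fintype.card κ := by
  classical
  have h1 : (univ.filter (fun σ : κ → Bool => sep σ s(x, y))).card =
      (univ.filter (fun σ : κ → Bool => ¬ sep σ s(x, y))).card := by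
    refine Finset.card_bij' (fun σ _ => Function.update σ x.1 (!σ x.1))
      (fun σ _ => Function.update σ x.1 (!σ x.1)) ?_ ?_ ?_ ?_
    · intro σ hσ
      rw [Finset.mem_filter] at hσ ⊢
      exact ⟨mem_univ _, fun h => (sep_flip σ x y hxy).1 h hσ.2⟩
    · intro σ hσ
      rw [Finset.mem_filter] at hσ ⊢
      exact ⟨mem_univ _, (sep_flip σ x y hxy).2 hσ.2⟩
    · intro σ _
      simp
    · intro σ _
      simp
  have h2 := Finset.card_filter_add_card_filter_not (s := (univ : Finset (κ → Bool)))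
    (fun σ => sep σ s(x, y))
  rw [Finset.card_univ, Fintype.card_fun, Fintype.card_bool] at h2
  omega

theorem spl_inj (σ : κ → Bool) :
    Function.Injective (fun p : κ × κ => s((p.1, σ p.1), (p.2, !σ p.2))) := by
  rintro ⟨i, j⟩ ⟨i', j'⟩ h
  simp only [Sym2.eq_iff, Prod.mk.injEq] at h
  rcases h with ⟨⟨h1, _⟩, ⟨h2, _⟩⟩ | ⟨⟨h1, h1'⟩, _⟩
  · exact Prod.ext h1 h2
  · subst h1
    exact absurd h1' (by cases σ i <;> simp)

/-- averaging over `σ` -/
theorem prod_le_avg (K : Sym2 (κ × Bool) → ℝ) (h0 : ∀ z, 0 ≤ K z) (h1 : ∀ z, K z ≤ 1) :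
    ∏ z, K z ≤ (∑ σ : κ → Bool, ∏ p : κ × κ,
      if p.1 = p.2 then (1 : ℝ) else K s((p.1, σ p.1), (p.2, !σ p.2)) ^ 2) /
        2 ^ Fintype.card κ := by
  classical
  set M : ℕ := 2 ^ Fintype.card κ with hM
  have hM0 : 0 < M := by positivity
  let x : ℝ := ∏ z ∈ (crs : Finset (Sym2 (κ × Bool))), K z
  let y : (κ → Bool) → ℝ := fun σ =>
    ∏ z ∈ (crs : Finset (Sym2 (κ × Bool))), if sep σ z then K z ^ 2 else 1
  have hx0 : 0 ≤ x := Finset.prod_nonneg fun z _ => h0 z
  have hy0 : ∀ σ, 0 ≤ y σ := fun σ => Finset.prod_nonneg fun z _ => by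
    split_ifs
    · positivity
    · exact zero_le_one
  have ha : ∏ z, K z ≤ x := by
    rw [← Finset.prod_sdiff (subset_univ (crs : Finset (Sym2 (κ × Bool))))]
    refine mul_le_of_le_one_left hx0 ?_
    exact Finset.prod_le_one (fun _ _ => h0 _) (fun _ _ => h1 _)
  have hb : ∏ σ, y σ = x ^ M := by
    simp only [y]
    rw [Finset.prod_comm, ← Finset.prod_pow]
    refine Finset.prod_congr rfl fun z hz => ?_
    rw [Finset.prod_ite, Finset.prod_const, Finset.prod_const_one, mul_one, ← pow_mul]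
    congr 1
    induction z using Sym2.ind with
    | _ a b => exact card_sep a b ((mem_crs a b).1 hz)
  have hc : x ≤ (∑ σ, y σ) / M := by
    have h2 := Real.geom_mean_le_arith_mean (univ : Finset (κ → Bool)) (fun _ => (1 : ℝ)) y
      (fun _ _ => zero_le_one) (by simp) (fun σ _ => hy0 σ)
    simp only [Real.rpow_one, one_mul, Finset.sum_const, Finset.card_univ, Fintype.card_fun,
      Fintype.card_bool, nsmul_eq_mul, mul_one] at h2
    rw [hb, ← hM, Real.pow_rpow_inv_natCast hx0 hM0.ne'] at h2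
    exact h2
  have hd : ∀ σ, y σ ≤ ∏ p : κ × κ,
      if p.1 = p.2 then (1 : ℝ) else K s((p.1, σ p.1), (p.2, !σ p.2)) ^ 2 := by
    intro σ
    let f : κ × κ → Sym2 (κ × Bool) := fun p => s((p.1, σ p.1), (p.2, !σ p.2))
    have hf : Function.Injective f := spl_inj σ
    let D : Finset (κ × κ) := univ.filter (fun p => ¬ p.1 = p.2)
    have e1 : (∏ p : κ × κ, if p.1 = p.2 then (1 : ℝ) else K (f p) ^ 2) =
        ∏ z ∈ D.image f, K z ^ 2 := by
      rw [Finset.prod_image (fun a _ b _ hab => hf hab), Finset.prod_ite, Finset.prod_const_one,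
        one_mul]
    have e2 : y σ = ∏ z ∈ (crs : Finset (Sym2 (κ × Bool))).filter (sep σ), K z ^ 2 := by
      simp only [y]
      rw [Finset.prod_filter]
    have hsub : D.image f ⊆ (crs : Finset (Sym2 (κ × Bool))).filter (sep σ) := by
      intro z hz
      obtain ⟨p, hp, rfl⟩ := Finset.mem_image.1 hz
      have hp' : ¬ p.1 = p.2 := (Finset.mem_filter.1 hp).2
      rw [Finset.mem_filter]
      refine ⟨(mem_crs _ _).2 hp', ?_⟩
      simp only [f, sep, Sym2.lift_mk]
      cases σ p.2 <;> simp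
    change y σ ≤ ∏ p : κ × κ, if p.1 = p.2 then (1 : ℝ) else K (f p) ^ 2
    rw [e1, e2, ← Finset.prod_sdiff hsub]
    refine mul_le_of_le_one_left (Finset.prod_nonneg fun _ _ => by positivity) ?_
    exact Finset.prod_le_one (fun _ _ => by positivity) (fun z _ => pow_le_one₀ (h0 z) (h1 z))
  refine ha.trans (hc.trans ?_)
  rw [hM]
  push_cast
  gcongr with σ _
  exact hd σ

/-- Entry laws: `0` on the diagonal, `(1/4, 1/2, 1/4)` outside. -/
def val4 (i j : κ) (ω : Fin 4) : ZMod N :=
  if i = j then 0 else if ω = 0 then 1 else if ω = 1 then -1 else 0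

/-- their characteristic functions -/
noncomputable def h4 (i j : κ) (t : ZMod N) : ℝ := if i = j then 1 else kp t ^ 2

lemma sum_val4 (i j : κ) (t : ZMod N) :
    (∑ ω : Fin 4, (ZMod.stdAddChar ((val4 i j ω : ZMod N) * t) : ℂ)) =
    ((Fintype.card (Fin 4) : ℝ) * h4 i j t : ℝ) := by
  unfold val4 h4
  by_cases hij : i = j
  · simp [hij]
  · simp only [hij, if_false]
    have hneg : (ZMod.stdAddChar (-t) : ℂ) = (starRingEnd ℂ) (ZMod.stdAddChar t : ℂ) := by
      rw [AddChar.map_neg_eq_conj]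
    have hadd : (ZMod.stdAddChar t : ℂ) + (starRingEnd ℂ) (ZMod.stdAddChar t : ℂ) =
        ((2 * (ZMod.stdAddChar t : ℂ).re : ℝ) : ℂ) := Complex.add_conj _
    rw [kp_sq]
    simp only [Fin.sum_univ_four]
    norm_num [Fin.ext_iff]
    rw [hneg, hadd]
    push_cast
    ring

/-- The half-size reduction with the law `(1/4, 1/2, 1/4)` outside the diagonal. -/
theorem half_le4 (u : κ × Bool → ZMod N)
    [∀ u, DecidablePred (twog (α := κ) (β := κ) (val4 (N := N)) u)] :
    ((univ.filter (fun b : Sym2 (κ × Bool) → Bool => ∀ i, ∑ j, sm b i j * u j = 0)).card : ℝ) /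
        2 ^ Fintype.card (Sym2 (κ × Bool)) ≤
      (∑ σ : κ → Bool, ((univ.filter (twog val4 (fun x => u (spl σ x)))).card : ℝ) /
        (Fintype.card (κ → κ → Fin 4) : ℝ)) / 2 ^ Fintype.card κ := by
  classical
  have hN : (0 : ℝ) < N := by exact_mod_cast Nat.pos_of_ne_zero (NeZero.ne N)
  have hNp : (0 : ℝ) < (N : ℝ) ^ Fintype.card (κ × Bool) := pow_pos hN _
  have h3 := count_le (N := N) u
  have h4' : (∑ w : κ × Bool → ZMod N, ∏ z, kp (cfz u w z)) ≤
      (∑ σ : κ → Bool, ((univ.filter (twog val4 (fun x => u (spl σ x)))).card : ℝ) /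
        (Fintype.card (κ → κ → Fin 4) : ℝ)) / 2 ^ Fintype.card κ *
        (N : ℝ) ^ Fintype.card (κ × Bool) := by
    have h5 : ∀ w : κ × Bool → ZMod N, ∏ z, kp (cfz u w z) ≤
        (∑ σ : κ → Bool, ∏ i, ∏ j, h4 i j (w (spl σ (Sum.inl i)) * u (spl σ (Sum.inr j)) +
          w (spl σ (Sum.inr j)) * u (spl σ (Sum.inl i)))) / 2 ^ Fintype.card κ := by
      intro w
      refine (prod_le_avg (fun z => kp (cfz u w z)) (fun _ => kp_nonneg _)
        (fun _ => kp_le_one _)).trans (le_of_eq ?_)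
      congr 1
      refine Finset.sum_congr rfl fun σ _ => ?_
      rw [Fintype.prod_prod_type]
      refine Finset.prod_congr rfl fun i _ => Finset.prod_congr rfl fun j _ => ?_
      unfold h4
      by_cases hij : i = j
      · simp [hij]
      · simp only [hij, if_false]
        rw [cfz_of_ne]
        · rfl
        · intro hh
          exact hij (Prod.mk.inj hh).1
    refine (Finset.sum_le_sum fun w _ => h5 w).trans (le_of_eq ?_)
    rw [← Finset.sum_div, Finset.sum_comm, div_mul_eq_mul_div, Finset.sum_mul]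
    congr 1
    refine Finset.sum_congr rfl fun σ _ => ?_
    have h6 := rect_sum (α := κ) (β := κ) (val4 (N := N)) h4 sum_val4 (by simp)
      (fun x => u (spl σ x))
    have hcard : Fintype.card (κ ⊕ κ) = Fintype.card (κ × Bool) :=
      Fintype.card_congr (spl σ)
    rw [hcard] at h6
    rw [← h6]
    exact (Equiv.sum_comp ((spl σ).arrowCongr (Equiv.refl (ZMod N))).symm
      (fun w => ∏ i, ∏ j, h4 i j (w (Sum.inl i) * u (spl σ (Sum.inr j)) +
        w (Sum.inr j) * u (spl σ (Sum.inl i)))))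
  exact le_of_mul_le_mul_right (h3.trans h4') hNp

/-- Sum over a set of vectors. -/
theorem half_sum_le4 (S : Finset (κ × Bool → ZMod N))
    [∀ u, DecidablePred (twog (α := κ) (β := κ) (val4 (N := N)) u)] :
    (∑ b : Sym2 (κ × Bool) → Bool,
        ((S.filter (fun u => ∀ i, ∑ j, sm b i j * u j = 0)).card : ℝ)) /
        2 ^ Fintype.card (Sym2 (κ × Bool)) ≤
      (∑ σ : κ → Bool, (∑ s : κ → κ → Fin 4,
        ((S.filter (fun u => twog val4 (fun x => u (spl σ x)) s)).card : ℝ)) /
        (Fintype.card (κ → κ → Fin 4) : ℝ)) / 2 ^ Fintype.card κ := by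
  classical
  have e1 : (∑ b : Sym2 (κ × Bool) → Bool,
      ((S.filter (fun u => ∀ i, ∑ j, sm b i j * u j = 0)).card : ℝ)) =
      ∑ u ∈ S, ((univ.filter (fun b : Sym2 (κ × Bool) → Bool =>
        ∀ i, ∑ j, sm b i j * u j = 0)).card : ℝ) := by
    simp_rw [Finset.card_filter]
    push_cast
    rw [Finset.sum_comm]
  have e2 : ∀ σ : κ → Bool, (∑ s : κ → κ → Fin 4,
      ((S.filter (fun u => twog val4 (fun x => u (spl σ x)) s)).card : ℝ)) =
      ∑ u ∈ S, ((univ.filter (twog val4 (fun x => u (spl σ x)))).card : ℝ) := by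
    intro σ
    simp_rw [Finset.card_filter]
    push_cast
    rw [Finset.sum_comm]
  simp_rw [e2]
  rw [e1, Finset.sum_div]
  refine (Finset.sum_le_sum fun u _ => half_le4 u).trans (le_of_eq ?_)
  rw [← Finset.sum_div, Finset.sum_comm]
  congr 1
  refine Finset.sum_congr rfl fun σ _ => ?_
  rw [Finset.sum_div]

end Vale.Agent.P160.Half.Red
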