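import Vale.Agent.P160.Half.GStmt3

/-! # P160, half rate, REL: the last conjunct (`newL L_F` and the closure of the classes) -/

set_option linter.unusedVariables false
set_option linter.unusedSectionVars false

open Finset Matrix

namespace Vale.Agent.P160.Half.G.Rel338

open A Labels

section general

/-- membership in the closure of a finite family -/
theorem mem_closure_range {G β : Type*} [AddCommGroup G] [Fintype β] (x : β → G) (y : G) :
    y ∈ AddSubgroup.closure (Set.range x) ↔ ∃ d : β → ℤ, ∑ i, d i • x i = y := by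
  rw [← Submodule.span_int_eq_addSubgroupClosure, Submodule.mem_toAddSubgroup,
    Submodule.mem_span_range_iff_exists_fun]

end general

variable {n : ℕ} {β : Type} [Fintype β] [DecidableEq β]

/-- the action of `cob` -/
theorem cob_mulVec (R : β → Fin n) (g : β → Fin n → ℚ) (z : Fin n → ℚ) :
    cob R g *ᵥ z = fun j => (∑ i, z (R i) * g i j) + if j ∈ univ.image R then 0 else z j := by
  funext j
  show ∑ k, ((∑ i, if R i = k then g i j else 0) +
    if k ∈ univ.image R then 0 else if j = k then 1 else 0) * z k = _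
  have h1 : ∀ k : Fin n, ((∑ i, if R i = k then g i j else 0) +
      if k ∈ univ.image R then 0 else if j = k then 1 else 0) * z k =
      (∑ i, if R i = k then z (R i) * g i j else 0) +
        if j = k then (if j ∈ univ.image R then 0 else z j) else 0 := by
    intro k
    rw [add_mul, sum_mul]
    congr 1
    · refine sum_congr rfl fun i _ => ?_
      by_cases h : R i = k
      · rw [if_pos h, if_pos h, ← h]; ring
      · rw [if_neg h, if_neg h, zero_mul]
    · by_cases h : j = k
      · subst h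
        by_cases h2 : j ∈ univ.image R
        · simp only [if_pos h2, zero_mul, if_true]
        · simp only [if_neg h2, if_true, one_mul]
      · by_cases h2 : k ∈ univ.image R
        · rw [if_pos h2, zero_mul, if_neg h]
        · rw [if_neg h2, if_neg h, zero_mul, if_neg h]
  rw [sum_congr rfl fun k _ => h1 k, sum_add_distrib, sum_comm, sum_ite_eq]
  simp only [sum_ite_eq, mem_univ, if_true]

/-- `L_F` in coordinates -/
theorem mem_LFg (P : Matrix (Fin n) (Fin n) ℤ) (F : Matrix (Fin n) β ℤ) (v : Fin n → ℚ) :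
    v ∈ LFg P F ↔ ∃ (a : Fin n → ℤ) (d : β → ℤ),
      v = fun j => (a j : ℚ) + ∑ q, (d q : ℚ) * gF P F q j := by
  unfold LFg
  rw [Submodule.span_union, Submodule.mem_sup]
  constructor
  · rintro ⟨y, hy, z, hz, rfl⟩
    rw [Submodule.mem_span_range_iff_exists_fun] at hy hz
    obtain ⟨a, rfl⟩ := hy
    obtain ⟨d, rfl⟩ := hz
    refine ⟨a, d, ?_⟩
    funext j
    rw [Pi.add_apply, Finset.sum_apply, Finset.sum_apply]
    congr 1
    · rw [Finset.sum_eq_single j]
      · simp
      · intro k _ hk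
        simp [Pi.single_eq_of_ne (Ne.symm hk)]
      · intro h; exact absurd (mem_univ _) h
  · rintro ⟨a, d, rfl⟩
    refine ⟨∑ j, a j • (Pi.single j (1 : ℚ) : Fin n → ℚ),
      Submodule.sum_mem _ fun j _ => Submodule.smul_mem _ _ (Submodule.subset_span ⟨j, rfl⟩),
      ∑ q, d q • gF P F q,
      Submodule.sum_mem _ fun q _ => Submodule.smul_mem _ _ (Submodule.subset_span ⟨q, rfl⟩), ?_⟩
    funext j
    rw [Pi.add_apply, Finset.sum_apply, Finset.sum_apply]
    congr 1
    · rw [Finset.sum_eq_single j]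
      · simp
      · intro k _ hk
        simp [Pi.single_eq_of_ne (Ne.symm hk)]
      · intro h; exact absurd (mem_univ _) h

/-- the vector `hz i` is `cobᵀ P e_(R i)` -/
theorem hz_eq (P : Matrix (Fin n) (Fin n) ℤ) (R : β → Fin n) (g : β → Fin n → ℚ)
    (hz : β → Fin n → ℤ)
    (h : ∀ c : β → Bool, newH P R g c = fun j => ((∑ i, if c i then hz i j else 0 : ℤ) : ℚ))
    (i : β) : (fun j => (hz i j : ℚ)) =
      (cob R g)ᵀ *ᵥ (PQ P *ᵥ (Pi.single (R i) (1 : ℚ) : Fin n → ℚ)) := by
  have h1 := h (fun i' => decide (i' = i))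
  unfold newH at h1
  have h2 : (fun j => ∑ i', if decide (i' = i) = true then (if R i' = j then (1 : ℚ) else 0) else 0) =
      (Pi.single (R i) (1 : ℚ) : Fin n → ℚ) := by
    funext j
    simp only [decide_eq_true_eq, sum_ite_eq', mem_univ, if_true]
    by_cases hj : R i = j
    · subst hj; simp
    · rw [if_neg hj, Pi.single_eq_of_ne (Ne.symm hj)]
  have h3 : (fun j => ((∑ i', if decide (i' = i) = true then hz i' j else 0 : ℤ) : ℚ)) =
      fun j => (hz i j : ℚ) := by
    funext j
    simp only [decide_eq_true_eq, sum_ite_eq', mem_univ, if_true]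
  rw [h2, h3] at h1
  exact h1.symm

/-- **the last conjunct of REL** -/
theorem last (P : Matrix (Fin n) (Fin n) ℤ) (F : Matrix (Fin n) β ℤ) (R : β → Fin n)
    (hR : Function.Injective R) (M' : Matrix (Fin n) (Fin n) ℤ) (hz : β → Fin n → ℤ)
    (hM : M'.map (Int.cast : ℤ → ℚ) = newP P R (gF P F)) (hdet : M'.det ≠ 0)
    (hH : ∀ c : β → Bool, newH P R (gF P F) c =
      fun j => (((∑ i, if c i then hz i j else 0 : ℤ)) : ℚ))
    (w : Fin n → ℤ) :
    (QuotientAddGroup.mk w : Coker M') ∈
        AddSubgroup.closure (Set.range fun i => (QuotientAddGroup.mk (hz i) : Coker M')) ↔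
      ∃ v ∈ newL (LFg P F) R (gF P F), M'.map (Int.cast : ℤ → ℚ) *ᵥ v = fun j => (w j : ℚ) := by
  classical
  set g := gF P F with hg
  set Cb := cob R g with hC
  -- `cob` is invertible
  have hMq : (M'.map (Int.cast : ℤ → ℚ)).det ≠ 0 := by
    have h1 := (Int.castRingHom ℚ).map_det M'
    have h2 : (M'.map (Int.cast : ℤ → ℚ)).det = ((M'.det : ℤ) : ℚ) := by
      simpa using h1.symm
    rw [h2]
    exact_mod_cast hdet
  have hCdet : Cb.det ≠ 0 := by
    intro h0
    apply hMq
    rw [hM]
    unfold newP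
    rw [det_mul, ← hC, h0, mul_zero]
  have hCu : IsUnit Cb.det := isUnit_iff_ne_zero.2 hCdet
  have hCC : Cb * Cb⁻¹ = 1 := Matrix.mul_nonsing_inv _ hCu
  have hzi := hz_eq P R g hz hH
  have hMv : ∀ v : Fin n → ℚ, M'.map (Int.cast : ℤ → ℚ) *ᵥ v = Cbᵀ *ᵥ (PQ P *ᵥ (Cb *ᵥ v)) := by
    intro v
    rw [hM]
    unfold newP
    rw [← mulVec_mulVec, ← mulVec_mulVec]
  -- key computation: if `Cb v = ∑ d_i e_(R i) + Cb z` then `M' v = ∑ d_i hz_i + M' z`
  have key : ∀ (v : Fin n → ℚ) (d : β → ℤ) (z : Fin n → ℤ),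
      Cb *ᵥ v = (∑ i, (d i : ℚ) • (Pi.single (R i) (1 : ℚ) : Fin n → ℚ)) +
        Cb *ᵥ (fun k => (z k : ℚ)) →
      M'.map (Int.cast : ℤ → ℚ) *ᵥ v =
        fun j => (((∑ i, d i • hz i + M' *ᵥ z) j : ℤ) : ℚ) := by
    intro v d z h
    rw [hMv, h, mulVec_add, mulVec_add, ← hMv]
    have e1 : Cbᵀ *ᵥ (PQ P *ᵥ ∑ i, (d i : ℚ) • (Pi.single (R i) (1 : ℚ) : Fin n → ℚ)) =
        ∑ i, (d i : ℚ) • (fun j => (hz i j : ℚ)) := by
      rw [mulVec_sum, mulVec_sum]
      refine sum_congr rfl fun i _ => ?_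
      rw [mulVec_smul, mulVec_smul, hzi i]
    rw [e1]
    funext j
    rw [Pi.add_apply, Pi.add_apply, Finset.sum_apply, Finset.sum_apply]
    push_cast
    congr 1
    · refine sum_congr rfl fun i _ => ?_
      simp
    · simp [Matrix.mulVec, dotProduct]
  rw [mem_closure_range]
  constructor
  · rintro ⟨d, hd⟩
    -- lift
    have h1 : (QuotientAddGroup.mk (∑ i, d i • hz i) : Coker M') = QuotientAddGroup.mk w := by
      rw [← hd]
      simp only [QuotientAddGroup.mk_sum, QuotientAddGroup.mk_zsmul]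
    rw [QuotientAddGroup.eq, mem_lat] at h1
    obtain ⟨z, hz1⟩ := h1
    have hw : w = ∑ i, d i • hz i + M' *ᵥ z := by rw [hz1]; abel
    let v : Fin n → ℚ := Cb⁻¹ *ᵥ ((∑ i, (d i : ℚ) • (Pi.single (R i) (1 : ℚ) : Fin n → ℚ)) +
        Cb *ᵥ (fun k => (z k : ℚ)))
    have hv : Cb *ᵥ v = (∑ i, (d i : ℚ) • (Pi.single (R i) (1 : ℚ) : Fin n → ℚ)) +
        Cb *ᵥ (fun k => (z k : ℚ)) := by
      show Cb *ᵥ (Cb⁻¹ *ᵥ _) = _
      rw [mulVec_mulVec, hCC, one_mulVec]
    refine ⟨v, ?_, ?_⟩
    · show Cb *ᵥ v ∈ LFg P F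
      rw [hv]
      refine Submodule.add_mem _ (Submodule.sum_mem _ fun i _ => ?_) ?_
      · rw [mem_LFg]
        refine ⟨Pi.single (R i) (d i), 0, ?_⟩
        funext j
        by_cases hj : j = R i
        · subst hj; simp
        · simp [Pi.single_eq_of_ne hj]
      · rw [mem_LFg]
        refine ⟨fun j => if j ∈ univ.image R then 0 else z j, fun i => z (R i), ?_⟩
        rw [hC, cob_mulVec]
        funext j
        rw [add_comm]
        congr 1
        show (if j ∈ univ.image R then (0 : ℚ) else (z j : ℚ)) =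
          (((if j ∈ univ.image R then 0 else z j : ℤ)) : ℚ)
        by_cases hj : j ∈ univ.image R
        · rw [if_pos hj, if_pos hj, Int.cast_zero]
        · rw [if_neg hj, if_neg hj]
    · rw [key v d z hv, hw]
  · rintro ⟨v, hv, hvw⟩
    have hv' : Cb *ᵥ v ∈ LFg P F := hv
    rw [mem_LFg] at hv'
    obtain ⟨a, d, had⟩ := hv'
    -- the coordinates
    let z : Fin n → ℤ := fun k => if h : ∃ i, R i = k then d h.choose else a k
    have hzR : ∀ i, z (R i) = d i := by
      intro i
      have h : ∃ i', R i' = R i := ⟨i, rfl⟩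
      show (if h : ∃ i', R i' = R i then d h.choose else a (R i)) = d i
      rw [dif_pos h, hR h.choose_spec]
    have hzN : ∀ k, k ∉ univ.image R → z k = a k := by
      intro k hk
      show (if h : ∃ i', R i' = k then d h.choose else a k) = a k
      rw [dif_neg]
      rintro ⟨i, hi⟩
      exact hk (mem_image.2 ⟨i, mem_univ _, hi⟩)
    have hdec : Cb *ᵥ v = (∑ i, ((a (R i) : ℤ) : ℚ) • (Pi.single (R i) (1 : ℚ) : Fin n → ℚ)) +
        Cb *ᵥ (fun k => (z k : ℚ)) := by
      rw [had, hC, cob_mulVec]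
      funext j
      rw [Pi.add_apply, Finset.sum_apply]
      have e1 : ∑ i, ((z (R i) : ℤ) : ℚ) * g i j = ∑ q, (d q : ℚ) * g q j :=
        sum_congr rfl fun i _ => by rw [hzR]
      rw [e1]
      by_cases hj : j ∈ univ.image R
      · rw [if_pos hj]
        obtain ⟨i, -, rfl⟩ := mem_image.1 hj
        have e2 : ∑ x, (((a (R x) : ℤ) : ℚ) • (Pi.single (R x) (1 : ℚ) : Fin n → ℚ)) (R i) =
            (a (R i) : ℚ) := by
          rw [Finset.sum_eq_single i]
          · simp
          · intro i' _ hi'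
            have : R i ≠ R i' := fun h => hi' (hR h).symm
            simp [Pi.single_eq_of_ne this]
          · intro h; exact absurd (mem_univ _) h
        rw [e2, add_zero]
      · rw [if_neg hj, hzN j hj]
        have e2 : ∑ x, (((a (R x) : ℤ) : ℚ) • (Pi.single (R x) (1 : ℚ) : Fin n → ℚ)) j = 0 := by
          refine Finset.sum_eq_zero fun i _ => ?_
          have : j ≠ R i := fun h => hj (h ▸ mem_image.2 ⟨i, mem_univ _, rfl⟩)
          simp [Pi.single_eq_of_ne this]
        rw [e2, zero_add, add_comm]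
    refine ⟨fun i => a (R i), ?_⟩
    have h2 := key v (fun i => a (R i)) z hdec
    rw [hvw] at h2
    have hw : w = ∑ i, a (R i) • hz i + M' *ᵥ z := by
      funext j
      have := congrFun h2 j
      exact_mod_cast this
    have h3 : (QuotientAddGroup.mk (∑ i, a (R i) • hz i) : Coker M') = QuotientAddGroup.mk w := by
      rw [QuotientAddGroup.eq, mem_lat]
      exact ⟨z, by rw [hw]; abel⟩
    rw [← h3]
    simp only [QuotientAddGroup.mk_sum, QuotientAddGroup.mk_zsmul]

end Vale.Agent.P160.Half.G.Rel338
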