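import Vale.Agent.P160.Half.GStmt3
import Vale.Agent.P160.Half.LA1

/-! # P160, half rate: gap (G), RelStmt, discriminant and index (helper349) -/

set_option linter.unusedVariables false

open Finset Matrix

namespace Vale.Agent.P160.Half.G.RelD

open A A.LA1 Labels

variable {n : ℕ}

/-- for `A1`: `P = Vᵀ Q V` and `L = {w | V w integral}` -/
theorem lat_desc (P : Matrix (Fin n) (Fin n) ℤ) (L : Submodule ℤ (Fin n → ℚ)) (hs : P.IsSymm) (hdet : P.det ≠ 0)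
    (hO : Over P L) : ∃ Q V : Matrix (Fin n) (Fin n) ℤ, Qᵀ = Q ∧ P = Vᵀ * Q * V ∧ Q.det ≠ 0 ∧ V.det ≠ 0 ∧
      ∀ w : Fin n → ℚ, w ∈ L ↔ ∃ z : Fin n → ℤ, PQ V *ᵥ w = fun i => (z i : ℚ) := by
  obtain ⟨Q, V, hQ, hP, hL⟩ := stmtA1 n P L hs hdet hO
  have hdd : P.det = V.det * Q.det * V.det := by
    rw [hP, det_mul, det_mul, det_transpose]
  have hV0 : V.det ≠ 0 := by
    intro h; rw [h] at hdd; simp at hdd; exact hdet hdd
  have hQ0 : Q.det ≠ 0 := by
    intro h; rw [h] at hdd; simp at hdd; exact hdet hdd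
  refine ⟨Q, V, hQ, hP, hQ0, hV0, ?_⟩
  have hPu : IsUnit (PQ P).det := isUnit_iff_ne_zero.2 (by rw [PQ_det]; exact_mod_cast hdet)
  have hinv : (PQ P)⁻¹ * PQ P = 1 := Matrix.nonsing_inv_mul _ hPu
  have hinv' : PQ P * (PQ P)⁻¹ = 1 := Matrix.mul_nonsing_inv _ hPu
  have hPP : PQ P = (PQ V)ᵀ * PQ Q * PQ V := by rw [hP, PQ_mul, PQ_mul, PQ_tr]
  have hB : IsUnit (((PQ V)ᵀ * PQ Q).det) := by
    rw [det_mul, det_transpose, PQ_det, PQ_det]
    exact isUnit_iff_ne_zero.2 (mul_ne_zero (by exact_mod_cast hV0) (by exact_mod_cast hQ0))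
  have hBinj : ∀ x y : Fin n → ℚ, ((PQ V)ᵀ * PQ Q) *ᵥ x = ((PQ V)ᵀ * PQ Q) *ᵥ y → x = y := by
    intro x y hxy
    have := congrArg (fun t => ((PQ V)ᵀ * PQ Q)⁻¹ *ᵥ t) hxy
    simpa [mulVec_mulVec, Matrix.nonsing_inv_mul _ hB] using this
  intro w
  constructor
  · intro hw
    -- `P w` is integral
    have hint : ∀ j, ∃ k : ℤ, (PQ P *ᵥ w) j = k := by
      intro j
      obtain ⟨k, hk⟩ := hO.int _ (hO.std (Pi.single j 1)) w hw
      refine ⟨k, ?_⟩
      rw [← hk]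
      have : (fun i => (((Pi.single j 1 : Fin n → ℤ) i : ℤ) : ℚ)) = Pi.single j 1 := by
        ext i
        by_cases h : i = j
        · subst h; simp
        · simp [Pi.single_eq_of_ne h]
      rw [this, single_one_dotProduct]
    choose y hy using hint
    have hy' : (fun i => (y i : ℚ)) = PQ P *ᵥ w := by ext i; exact (hy i).symm
    have hdual : dual P y = w := by
      unfold dual
      rw [hy', mulVec_mulVec, hinv, one_mulVec]
    obtain ⟨z, hz⟩ := (hL y).1 (by rw [hdual]; exact hw)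
    refine ⟨z, ?_⟩
    apply hBinj
    have h1 : ((PQ V)ᵀ * PQ Q) *ᵥ (PQ V *ᵥ w) = fun i => (y i : ℚ) := by
      rw [mulVec_mulVec, ← hPP, hy']
    rw [h1, hz, ← mulVec_mulVec]
    rw [← cast_mulVec, ← PQ_tr, ← cast_mulVec]
  · rintro ⟨z, hz⟩
    have h1 : PQ P *ᵥ w = fun i => (((Vᵀ *ᵥ (Q *ᵥ z)) i : ℤ) : ℚ) := by
      rw [hPP, ← mulVec_mulVec, hz, ← mulVec_mulVec, cast_mulVec, PQ_tr, cast_mulVec]
    have h2 : dual P (Vᵀ *ᵥ (Q *ᵥ z)) = w := by
      unfold dual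
      rw [← h1, mulVec_mulVec, hinv, one_mulVec]
    rw [← h2]
    exact (hL _).2 ⟨z, rfl⟩

/-- the cokernel of `Wᵀ Q W` and the classes of `Wᵀ Q ℤ^n` -/
theorem index (Q W M : Matrix (Fin n) (Fin n) ℤ) (hM : M = Wᵀ * Q * W) (hQ : Q.det ≠ 0) (hW : W.det ≠ 0)
    (H : AddSubgroup (Coker M))
    (hH : ∀ w : Fin n → ℤ, (QuotientAddGroup.mk w : Coker M) ∈ H ↔ ∃ z : Fin n → ℤ, w = (Wᵀ * Q) *ᵥ z) :
    Nat.card (Coker M) = Q.det.natAbs * (Nat.card H) ^ 2 := by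
  have hMd : M.det = W.det * Q.det * W.det := by rw [hM, det_mul, det_mul, det_transpose]
  have hM0 : M.det ≠ 0 := by rw [hMd]; exact mul_ne_zero (mul_ne_zero hW hQ) hW
  have hBinj : ∀ x y : Fin n → ℤ, (Wᵀ * Q) *ᵥ x = (Wᵀ * Q) *ᵥ y → x = y := by
    intro x y hxy
    have hd : (Wᵀ * Q).det ≠ 0 := by rw [det_mul, det_transpose]; exact mul_ne_zero hW hQ
    have h1 : (Wᵀ * Q) *ᵥ (x - y) = 0 := by rw [mulVec_sub, hxy, sub_self]
    exact sub_eq_zero.1 (Matrix.eq_zero_of_mulVec_eq_zero hd h1)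
  -- the isomorphism `Coker W ≃ H`
  let f : (Fin n → ℤ) →+ H :=
    AddMonoidHom.mk' (fun z => ⟨QuotientAddGroup.mk ((Wᵀ * Q) *ᵥ z), (hH _).2 ⟨z, rfl⟩⟩) (by
      intro x y
      apply Subtype.ext
      show (QuotientAddGroup.mk ((Wᵀ * Q) *ᵥ (x + y)) : Coker M) = _
      rw [mulVec_add]
      rfl)
  have hf : ∀ z, ((f z : H) : Coker M) = QuotientAddGroup.mk ((Wᵀ * Q) *ᵥ z) := fun z => rfl
  have hsurj : Function.Surjective f := by
    rintro ⟨x, hx⟩
    obtain ⟨w, rfl⟩ := QuotientAddGroup.mk_surjective x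
    obtain ⟨z, hz⟩ := (hH w).1 hx
    subst hz
    exact ⟨z, rfl⟩
  have hker : f.ker = lat W := by
    ext z
    rw [AddMonoidHom.mem_ker, mem_lat]
    constructor
    · intro hz
      have h1 : (QuotientAddGroup.mk ((Wᵀ * Q) *ᵥ z) : Coker M) = 0 := by
        rw [← hf, hz]; rfl
      rw [QuotientAddGroup.eq_zero_iff, mem_lat] at h1
      obtain ⟨t, ht⟩ := h1
      refine ⟨t, ?_⟩
      apply hBinj
      rw [← ht, hM, mulVec_mulVec]
    · rintro ⟨t, rfl⟩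
      apply Subtype.ext
      rw [hf]
      show (QuotientAddGroup.mk _ : Coker M) = 0
      rw [QuotientAddGroup.eq_zero_iff, mem_lat]
      exact ⟨t, by rw [hM, mulVec_mulVec]⟩
  have hcard : Nat.card H = W.det.natAbs := by
    rw [← card_coker W hW]
    have e := QuotientAddGroup.quotientKerEquivOfSurjective f hsurj
    have e2 : ((Fin n → ℤ) ⧸ f.ker) ≃+ Coker W := QuotientAddGroup.quotientAddEquivOfEq hker
    exact (Nat.card_congr (e.symm.trans e2).toEquiv)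
  rw [card_coker M hM0, hcard, hMd, Int.natAbs_mul, Int.natAbs_mul]
  ring

/-- **(D)** discriminant and index -/
theorem relD (P : Matrix (Fin n) (Fin n) ℤ) (L : Submodule ℤ (Fin n → ℚ)) (hs : P.IsSymm) (hdet : P.det ≠ 0)
    (hO : Over P L) : ∃ D : ℕ, 0 < D ∧ D ≤ P.det.natAbs ∧
      ∀ (β : Type) [Fintype β] [DecidableEq β] (R : β → Fin n) (g : β → Fin n → ℚ), (∀ q, g q ∈ L) →
        (cob R g).det ≠ 0 →
        (∃ M : Matrix (Fin n) (Fin n) ℤ, PQ M = newP P R g) ∧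
        ∀ M : Matrix (Fin n) (Fin n) ℤ, PQ M = newP P R g → Mᵀ = M ∧ M.det ≠ 0 ∧
          ∀ H : AddSubgroup (Coker M), (∀ w : Fin n → ℤ, (QuotientAddGroup.mk w : Coker M) ∈ H ↔
            ∃ v ∈ newL L R g, PQ M *ᵥ v = fun j => (w j : ℚ)) →
          Nat.card (Coker M) = D * (Nat.card H) ^ 2 := by
  obtain ⟨Q, V, hQ, hP, hQ0, hV0, hL⟩ := lat_desc P L hs hdet hO
  have hdd : P.det = V.det * Q.det * V.det := by
    rw [hP, det_mul, det_mul, det_transpose]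
  refine ⟨Q.det.natAbs, Int.natAbs_pos.2 hQ0, ?_, ?_⟩
  · rw [hdd, Int.natAbs_mul, Int.natAbs_mul]
    have h1 : 1 ≤ V.det.natAbs := Int.natAbs_pos.2 hV0
    calc Q.det.natAbs = 1 * Q.det.natAbs * 1 := by ring
      _ ≤ V.det.natAbs * Q.det.natAbs * V.det.natAbs := Nat.mul_le_mul (Nat.mul_le_mul_right _ h1) h1
  intro β _ _ R g hg hcob
  -- the columns of `cob` lie in `L`
  have hcol : ∀ k, (fun j => cob R g j k) ∈ L := by
    intro k
    have h1 : (fun j => cob R g j k) = (∑ i : β, if R i = k then g i else 0) +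
        (if k ∈ univ.image R then 0 else (fun i => (((Pi.single k 1 : Fin n → ℤ) i : ℤ) : ℚ))) := by
      ext j
      unfold cob
      simp only [Pi.add_apply, Finset.sum_apply]
      congr 1
      · refine sum_congr rfl fun i _ => ?_
        split_ifs <;> rfl
      · split_ifs with h h'
        · rfl
        · subst h'; simp
        · simp [Pi.single_eq_of_ne h']
    rw [h1]
    refine L.add_mem (L.sum_mem fun i _ => ?_) ?_
    · split_ifs
      · exact hg i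
      · exact L.zero_mem
    · split_ifs
      · exact L.zero_mem
      · exact hO.std _
  have hW : ∀ k, ∃ z : Fin n → ℤ, PQ V *ᵥ (fun j => cob R g j k) = fun i => (z i : ℚ) := fun k => (hL _).1 (hcol k)
  choose z hz using hW
  set W : Matrix (Fin n) (Fin n) ℤ := fun i k => z k i with hWdef
  have hWq : PQ W = PQ V * cob R g := by
    ext i k
    have := congrFun (hz k) i
    rw [Matrix.mul_apply]
    simp only [Matrix.mulVec, dotProduct] at this
    rw [this]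
    rfl
  have hW0 : W.det ≠ 0 := by
    have h1 : (PQ W).det ≠ 0 := by
      rw [hWq, det_mul, PQ_det]
      exact mul_ne_zero (by exact_mod_cast hV0) hcob
    rw [PQ_det] at h1
    exact_mod_cast h1
  have hPP : PQ P = (PQ V)ᵀ * PQ Q * PQ V := by rw [hP, PQ_mul, PQ_mul, PQ_tr]
  have hnew : PQ (Wᵀ * Q * W) = newP P R g := by
    unfold newP
    rw [PQ_mul, PQ_mul, PQ_tr, hWq, hPP, transpose_mul]
    simp only [Matrix.mul_assoc]
  refine ⟨⟨_, hnew⟩, ?_⟩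
  intro M hM
  have hMeq : M = Wᵀ * Q * W := PQ_inj (hM.trans hnew.symm)
  have hMd : M.det = W.det * Q.det * W.det := by rw [hMeq, det_mul, det_mul, det_transpose]
  refine ⟨?_, ?_, ?_⟩
  · rw [hMeq, transpose_mul, transpose_mul, transpose_transpose, hQ, Matrix.mul_assoc]
  · rw [hMd]; exact mul_ne_zero (mul_ne_zero hW0 hQ0) hW0
  · intro H hH
    refine index Q W M hMeq hQ0 hW0 H ?_
    intro w
    rw [hH]
    have hcobu : IsUnit (PQ W).det := isUnit_iff_ne_zero.2 (by rw [PQ_det]; exact_mod_cast hW0)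
    have hmv : ∀ v : Fin n → ℚ, PQ M *ᵥ v = (PQ (Wᵀ * Q)) *ᵥ (PQ W *ᵥ v) := by
      intro v
      rw [mulVec_mulVec, ← PQ_mul, ← hMeq]
    constructor
    · rintro ⟨v, hv, hvw⟩
      have h1 : cob R g *ᵥ v ∈ L := hv
      obtain ⟨t, ht⟩ := (hL _).1 h1
      rw [mulVec_mulVec, ← hWq] at ht
      refine ⟨t, ?_⟩
      have h2 : (fun j => (w j : ℚ)) = fun i => ((((Wᵀ * Q) *ᵥ t) i : ℤ) : ℚ) := by
        rw [← hvw, hmv, ht, ← cast_mulVec]
      ext j
      have := congrFun h2 j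
      exact_mod_cast this
    · rintro ⟨t, rfl⟩
      refine ⟨(PQ W)⁻¹ *ᵥ (fun i => (t i : ℚ)), ?_, ?_⟩
      · show cob R g *ᵥ _ ∈ L
        rw [hL]
        refine ⟨t, ?_⟩
        rw [mulVec_mulVec, ← hWq, mulVec_mulVec, Matrix.mul_nonsing_inv _ hcobu, one_mulVec]
      · rw [hmv, mulVec_mulVec (v := fun i => (t i : ℚ)), Matrix.mul_nonsing_inv _ hcobu, one_mulVec, ← cast_mulVec]

section LFg

variable {β : Type*}

theorem P_gF (P : Matrix (Fin n) (Fin n) ℤ) (F : Matrix (Fin n) β ℤ) (hdet : P.det ≠ 0) (q : β) :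
    PQ P *ᵥ gF P F q = fun j => (F j q : ℚ) := by
  have hPu : IsUnit (PQ P).det := isUnit_iff_ne_zero.2 (by rw [PQ_det]; exact_mod_cast hdet)
  unfold gF dual
  rw [mulVec_mulVec, Matrix.mul_nonsing_inv _ hPu, one_mulVec]

theorem gF_mem (P : Matrix (Fin n) (Fin n) ℤ) (F : Matrix (Fin n) β ℤ) (q : β) : gF P F q ∈ LFg P F :=
  Submodule.subset_span (Or.inr ⟨q, rfl⟩)

/-- `L_F` is an integral overlattice -/
theorem over_LFg [Fintype β] [DecidableEq β] (P : Matrix (Fin n) (Fin n) ℤ) (F : Matrix (Fin n) β ℤ) (gr : Matrix β β ℤ) (hs : P.IsSymm)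
    (hdet : P.det ≠ 0) (hgr : ∀ i k, gF P F i ⬝ᵥ (PQ P *ᵥ gF P F k) = gr i k) : Over P (LFg P F) := by
  have hsym : (PQ P)ᵀ = PQ P := by rw [← PQ_tr, hs.eq]
  constructor
  · intro z
    have h1 : (fun i => (z i : ℚ)) = ∑ j, z j • (Pi.single j (1 : ℚ) : Fin n → ℚ) := by
      ext i
      simp [Finset.sum_apply, Pi.single_apply]
    rw [h1]
    exact Submodule.sum_mem _ fun j _ => Submodule.smul_mem _ _ (Submodule.subset_span (Or.inl ⟨j, rfl⟩))
  · have key : ∀ v ∈ (Set.range (fun j : Fin n => (Pi.single j (1 : ℚ) : Fin n → ℚ)) ∪ Set.range (gF P F)),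
        ∀ w ∈ (Set.range (fun j : Fin n => (Pi.single j (1 : ℚ) : Fin n → ℚ)) ∪ Set.range (gF P F)),
        ∃ k : ℤ, v ⬝ᵥ (PQ P *ᵥ w) = k := by
      rintro v (⟨i, rfl⟩ | ⟨q, rfl⟩) w (⟨j, rfl⟩ | ⟨r, rfl⟩)
      · refine ⟨P i j, ?_⟩
        show (Pi.single i (1 : ℚ) : Fin n → ℚ) ⬝ᵥ (PQ P *ᵥ (Pi.single j (1 : ℚ) : Fin n → ℚ)) = _
        rw [single_one_dotProduct, Matrix.mulVec_single_one]
        rfl
      · refine ⟨F i r, ?_⟩
        show (Pi.single i (1 : ℚ) : Fin n → ℚ) ⬝ᵥ (PQ P *ᵥ gF P F r) = _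
        rw [single_one_dotProduct, P_gF P F hdet]
      · refine ⟨F j q, ?_⟩
        show gF P F q ⬝ᵥ (PQ P *ᵥ (Pi.single j (1 : ℚ) : Fin n → ℚ)) = _
        rw [dotProduct_mulVec, ← mulVec_transpose, hsym, P_gF P F hdet, dotProduct_single_one]
      · exact ⟨gr q r, hgr q r⟩
    have step1 : ∀ v ∈ (Set.range (fun j : Fin n => (Pi.single j (1 : ℚ) : Fin n → ℚ)) ∪ Set.range (gF P F)),
        ∀ w ∈ LFg P F, ∃ k : ℤ, v ⬝ᵥ (PQ P *ᵥ w) = k := by
      intro v hv w hw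
      refine Submodule.span_induction (p := fun w _ => ∃ k : ℤ, v ⬝ᵥ (PQ P *ᵥ w) = k) ?_ ?_ ?_ ?_ hw
      · intro w hw; exact key v hv w hw
      · exact ⟨0, by simp⟩
      · rintro x y _ _ ⟨k, hk⟩ ⟨l, hl⟩
        exact ⟨k + l, by rw [mulVec_add, dotProduct_add, hk, hl]; push_cast; ring⟩
      · rintro a x _ ⟨k, hk⟩
        refine ⟨a * k, ?_⟩
        rw [mulVec_smul, dotProduct_smul, hk, zsmul_eq_mul]
        push_cast; ring
    intro v hv w hw
    refine Submodule.span_induction (p := fun v _ => ∃ k : ℤ, v ⬝ᵥ (PQ P *ᵥ w) = k) ?_ ?_ ?_ ?_ hv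
    · intro v hv; exact step1 v hv w hw
    · exact ⟨0, by simp⟩
    · rintro x y _ _ ⟨k, hk⟩ ⟨l, hl⟩
      exact ⟨k + l, by rw [add_dotProduct, hk, hl]; push_cast; ring⟩
    · rintro a x _ ⟨k, hk⟩
      refine ⟨a * k, ?_⟩
      rw [smul_dotProduct, hk, zsmul_eq_mul]
      push_cast; ring

end LFg

end Vale.Agent.P160.Half.G.RelD
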