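import Vale.Agent.P160.Half.GAsmFin319
import Vale.Agent.P160.Half.NoSp2
import Vale.Agent.P160.Half.NoSpZ
import Vale.Agent.P160.Half.KZ1
import Vale.Agent.P160.Half.KZA
import Vale.Agent.P160.Half.KZF
import Vale.Agent.P160.Half.Con679
import Vale.Agent.P160.Half.GDet837
import Vale.Agent.P160.Half.Rel952
import Vale.Agent.P160.Half.GoodR288
import Vale.Agent.P160.Half.AvgF212
import Vale.Agent.P160.Half.CountL
import Vale.Agent.P160.Half.RC
import Vale.Agent.P160.Half.Num1
import Vale.Agent.P160.Half.Num2
import Vale.Agent.P160.Half.Num3H661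
import Vale.Agent.P160.Half.Num4
import Vale.Agent.P160.Half.Num5
import Vale.Agent.P160.Half.Num6
import Vale.Agent.P160.Half.Num7H307
import Vale.Agent.P160.Half.Num8_574
import Vale.Agent.P160.Half.Rows2
import Vale.Agent.P160.Half.Core
import Vale.Agent.P160.Half.LOpp
import Vale.Agent.P160.Half.Rich

/-! # P160, part (A), integration: `RichSmall` without hypotheses (helper661). -/

namespace Vale.Agent.P160.Half.RichAll661

open Vale.Agent.P160.Half.G

theorem stmtG : A.StmtG :=
  Asm319.gasm (ns2 (core2 rows2)) nsz (kz1 rows2 (core2 rows2) nsz) (kza rows2 lopp) rc countL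
    (Det837.gdet kzf Con679.con Rel952.rel GoodR288.goodr AvgF212.avg)
    num1 num2 N3H661.num3 num4 num5 num6 Num7H307.num7 N574.num8

theorem richSmall : A.RichSmall := A.rich_of_G stmtG

end Vale.Agent.P160.Half.RichAll661
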