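import Vale.Agent.P160.Half.RowR471
import Vale.Agent.P160.Half.M8Incl

/-! # P160, rate 1/2, part (M): the Chernoff branch of the one-row hypothesis (helper428)

`chernB` : for a nonsingular symmetric block `b'` of size `m ∈ [n - τ, n)` and every `s ≥ β n` the number of rows `x` which kill the
kernels modulo at least `s` primes of `[n ^ b, n ^ B]` is at most `2 ^ (- s + δ n) 2 ^ m`, as soon as for some `z ≥ 1`
`log₂ (1 + z 4 ^ (-b)) / (2 b) ≤ β (log₂ (1 + z) - 1)`. -/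

open Finset

namespace Vale.Agent.P160.Half.RowChern428

open Vale.Agent.P160.Half.M8Incl

/-- Chernoff branch -/
def ChernB (b β : ℝ) : Prop := ∀ (δ B : ℝ) (τ : ℕ), 0 < δ → ∃ n₀ : ℕ, ∀ n ≥ n₀, ∀ (ι : Type) [Fintype ι] [DecidableEq ι],
  n ≤ Fintype.card ι + τ → Fintype.card ι < n → ∀ b' : Sym2 ι → Bool, (matZ b').det ≠ 0 → ∀ s : ℕ, β * n ≤ s →
    (Nat.card {x : ι → Bool // s ≤ (KS b' x ((n : ℝ) ^ b) ((n : ℝ) ^ B)).card} : ℝ) ≤
      2 ^ (-(s : ℝ) + δ * n) * 2 ^ Fintype.card ι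

/-- one block, exact form -/
theorem chern_one {b z d : ℝ} (hb : 0 < b) (hz : 0 ≤ z) (hd : 0 < d) : ∃ m0 : ℕ, ∀ (ι : Type) [Fintype ι] [DecidableEq ι],
    m0 ≤ Fintype.card ι → ∀ b' : Sym2 ι → Bool, (matZ b').det ≠ 0 → ∀ y Y : ℝ, (Fintype.card ι : ℝ) ^ b ≤ y → ∀ s : ℕ,
    (Nat.card {x : ι → Bool // s ≤ (KS b' x y Y).card} : ℝ) * (1 + z) ^ s ≤
      (2 : ℝ) ^ Fintype.card ι * (1 + z * (2 : ℝ) ^ (-(2 * b))) ^ ((Fintype.card ι : ℝ) / (2 * b)) *
        (2 : ℝ) ^ (d * Fintype.card ι) := by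
  classical
  obtain ⟨m0, h⟩ := RowR471.row_asym hb hz hd
  refine ⟨m0, fun ι _ _ hm b' hdet y Y hy s => ?_⟩
  set m := Fintype.card ι with hmdef
  let e : ι ≃ Fin m := Fintype.equivFin ι
  -- kernel words
  have hw : ∀ p : ℕ, ∃ w : ι → ZMod p, p ∈ KP b' y Y → w ≠ 0 ∧ smul2 b' w = 0 := by
    intro p
    by_cases hp : p ∈ KP b' y Y
    · obtain ⟨-, -, -, w, h1, h2⟩ := mem_filter.1 hp
      exact ⟨w, fun _ => ⟨h1, h2⟩⟩
    · exact ⟨0, fun h => absurd h hp⟩
  choose w hw using hw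
  let ζ : (ι → Bool) → Fin m → ℤ := fun x c => if x (e.symm c) then 1 else 0
  have hζ : Function.Injective ζ := by
    intro x x' hx
    funext i
    have h1 := congrFun hx (e i)
    simp only [ζ, Equiv.symm_apply_apply] at h1
    cases hx1 : x i <;> cases hx2 : x' i <;> simp [hx1, hx2] at h1 ⊢
  set T0 : Finset (ι → Bool) := univ.filter fun x => s ≤ (KS b' x y Y).card with hT0
  have hdetA : ((matZ b').submatrix e.symm e.symm).det ≠ 0 := by
    rw [Matrix.det_submatrix_equiv_self]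
    exact hdet
  have key := h m hm ((matZ b').submatrix e.symm e.symm) hdetA
    (fun i c => matZ_abs b' _ _) (KP b' y Y) (fun p hp => (mem_filter.1 hp).2.1)
    (fun p hp => hy.trans (mem_filter.1 hp).2.2.1) (fun p c => w p (e.symm c))
    (fun p hp h0 => (hw p hp).1 (by
      funext i
      have := congrFun h0 (e i)
      simpa using this))
    (fun p hp i => by
      have h1 := congrFun (hw p hp).2 (e.symm i)
      unfold smul2 at h1
      rw [Pi.zero_apply] at h1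
      rw [← h1]
      refine (Equiv.sum_comp e.symm (fun j => (((matZ b') (e.symm i) j : ℤ) : ZMod p) * w p j)).trans ?_
      refine sum_congr rfl fun j _ => ?_
      unfold matZ
      split_ifs <;> simp)
    (fun _ => 0) (T0.image ζ)
    (fun x hx c => by
      obtain ⟨x0, -, rfl⟩ := mem_image.1 hx
      simp only [ζ]
      split_ifs <;> simp)
    s
    (fun x hx => by
      obtain ⟨x0, hx0, rfl⟩ := mem_image.1 hx
      refine (mem_filter.1 hx0).2.trans (card_le_card fun p hp => ?_)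
      obtain ⟨hp1, hp2⟩ := mem_filter.1 hp
      refine mem_filter.2 ⟨hp1, ?_⟩
      have h1 := hp2 (w p) (hw p hp1).2
      unfold G.bdot at h1
      rw [← h1]
      refine (Equiv.sum_comp e.symm (fun j => (((if x0 j then (1 : ℤ) else 0 : ℤ)) : ZMod p) * w p j)).trans ?_
      refine sum_congr rfl fun j _ => ?_
      split_ifs <;> simp)
  rw [card_image_of_injective _ hζ] at key
  have hc : Nat.card {x : ι → Bool // s ≤ (KS b' x y Y).card} = T0.card := by
    rw [Nat.card_eq_fintype_card, Fintype.card_subtype]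
  rw [hc]
  exact key

/-- **The Chernoff branch.** -/
theorem chernB {b β z : ℝ} (hb : 0 < b) (hβ : 0 ≤ β) (hz : 1 ≤ z)
    (hcond : Real.logb 2 (1 + z * (2 : ℝ) ^ (-(2 * b))) / (2 * b) ≤ β * (Real.logb 2 (1 + z) - 1)) : ChernB b β := by
  intro δ B τ hδ
  obtain ⟨m0, h⟩ := chern_one (z := z) hb (by linarith) hδ
  refine ⟨m0 + τ + 1, fun n hn ι _ _ hc1 hc2 b' hdet s hs => ?_⟩
  set m := Fintype.card ι with hm
  have hmn : (m : ℝ) ≤ n := by exact_mod_cast hc2.le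
  have hy : (m : ℝ) ^ b ≤ (n : ℝ) ^ b := Real.rpow_le_rpow (Nat.cast_nonneg _) hmn hb.le
  have key := h ι (by omega) b' hdet ((n : ℝ) ^ b) ((n : ℝ) ^ B) hy s
  rw [← hm] at key
  set X : ℝ := (Nat.card {x : ι → Bool // s ≤ (KS b' x ((n : ℝ) ^ b) ((n : ℝ) ^ B)).card} : ℝ) with hX
  have h2 : (0 : ℝ) < 1 + z := by linarith
  set q : ℝ := 1 + z * (2 : ℝ) ^ (-(2 * b)) with hq
  have hq1 : 1 ≤ q := by
    have : 0 ≤ z * (2 : ℝ) ^ (-(2 * b)) := by positivity
    linarith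
  have hq0 : 0 < q := by linarith
  have hLz : 1 ≤ Real.logb 2 (1 + z) := by
    rw [Real.le_logb_iff_rpow_le (by norm_num) h2, Real.rpow_one]
    linarith
  have e1 : (1 + z) ^ s = (2 : ℝ) ^ (Real.logb 2 (1 + z) * s) := by
    rw [Real.rpow_mul (by norm_num), Real.rpow_logb (by norm_num) (by norm_num) h2, Real.rpow_natCast]
  have e2 : q ^ ((m : ℝ) / (2 * b)) = (2 : ℝ) ^ (Real.logb 2 q * ((m : ℝ) / (2 * b))) := by
    rw [Real.rpow_mul (by norm_num), Real.rpow_logb (by norm_num) (by norm_num) hq0]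
  rw [e1, e2] at key
  have hpos : (0 : ℝ) < (2 : ℝ) ^ (Real.logb 2 (1 + z) * s) := by positivity
  refine le_of_mul_le_mul_right ?_ hpos
  refine key.trans ?_
  have e3 : (2 : ℝ) ^ (-(s : ℝ) + δ * n) * 2 ^ m * (2 : ℝ) ^ (Real.logb 2 (1 + z) * s) =
      2 ^ m * (2 : ℝ) ^ ((-(s : ℝ) + δ * n) + Real.logb 2 (1 + z) * s) := by
    rw [Real.rpow_add (by norm_num : (0 : ℝ) < 2) (-(s : ℝ) + δ * n) (Real.logb 2 (1 + z) * s)]
    ring
  have e4 : (2 : ℝ) ^ m * (2 : ℝ) ^ (Real.logb 2 q * ((m : ℝ) / (2 * b))) * (2 : ℝ) ^ (δ * m) =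
      2 ^ m * (2 : ℝ) ^ (Real.logb 2 q * ((m : ℝ) / (2 * b)) + δ * m) := by
    rw [Real.rpow_add (by norm_num : (0 : ℝ) < 2) (Real.logb 2 q * ((m : ℝ) / (2 * b))) (δ * m)]
    ring
  rw [e3, e4]
  refine mul_le_mul_of_nonneg_left (Real.rpow_le_rpow_of_exponent_le (by norm_num) ?_) (by positivity)
  have hLq : 0 ≤ Real.logb 2 q := Real.logb_nonneg (by norm_num) hq1
  have h3 : Real.logb 2 q * ((m : ℝ) / (2 * b)) ≤ Real.logb 2 q / (2 * b) * n := by
    calc Real.logb 2 q * ((m : ℝ) / (2 * b)) = Real.logb 2 q / (2 * b) * m := by ring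
      _ ≤ _ := mul_le_mul_of_nonneg_left hmn (by positivity)
  have h4 : Real.logb 2 q / (2 * b) * n ≤ β * (Real.logb 2 (1 + z) - 1) * n :=
    mul_le_mul_of_nonneg_right hcond (Nat.cast_nonneg _)
  have h5 : β * (Real.logb 2 (1 + z) - 1) * n ≤ (Real.logb 2 (1 + z) - 1) * s := by
    have : 0 ≤ Real.logb 2 (1 + z) - 1 := by linarith
    calc β * (Real.logb 2 (1 + z) - 1) * n = (Real.logb 2 (1 + z) - 1) * (β * n) := by ring
      _ ≤ _ := mul_le_mul_of_nonneg_left hs this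
  have h6 : δ * (m : ℝ) ≤ δ * n := mul_le_mul_of_nonneg_left hmn hδ.le
  linarith

end Vale.Agent.P160.Half.RowChern428
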