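import Vale.Agent.P160.Half.RowKS471
import Vale.Agent.P160.Half.M8Row
import Vale.Agent.P160.Half.M8Asy
import Vale.Agent.P160.Half.MProdDef358

/-! # P160, rate 1/2, part (M): the one-row hypothesis (helper428)

`rowHyp_of` : `NotGoodStmt`, few singular matrices and the i.i.d. input `StmtXi b₁ (1/8) (3/5)` give `RowHyp b₁` for
`199/100 ≤ b₁`; threshold `g = 622/10000`. -/

open Finset Filter

namespace Vale.Agent.P160.Half.RowHyp428

open Vale.Agent.P160.Half.M8Incl Vale.Agent.P160.Half.M8 Vale.Agent.P160.Half.M8Asy Vale.Agent.P160.Half.M8Row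

/-- few singular matrices, with rate `κ` -/
def DetS (κ : ℝ) : Prop := ∃ n₀ : ℕ, ∀ n ≥ n₀, ∀ (ι : Type) [Fintype ι] [DecidableEq ι], Fintype.card ι = n →
  (Nat.card {b : Sym2 ι → Bool // (matZ b).det = 0} : ℝ) ≤ (2 : ℝ) ^ (-(κ * n)) * 2 ^ Fintype.card (Sym2 ι)

/-- the threshold -/
noncomputable def gg : ℝ := 622 / 10000

/-- the good event -/
def Gd (b₁ Bm : ℝ) (_n : ℕ) (ι : Type) [Fintype ι] [DecidableEq ι] (b' : Sym2 ι → Bool) : Prop :=
  (matZ b').det ≠ 0 ∧ ∀ N : ℕ, Squarefree N →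
    (∀ p, p.Prime → p ∣ N → (Fintype.card ι : ℝ) ^ b₁ ≤ p ∧ (p : ℝ) ≤ (Fintype.card ι : ℝ) ^ Bm) →
    (2 : ℝ) ^ (gg * Fintype.card ι) ≤ N → (N : ℝ) ≤ (2 : ℝ) ^ (gg * Fintype.card ι) * (Fintype.card ι : ℝ) ^ Bm →
    GoodSym N b'

/-- flat branch -/
theorem flat_branch (b₁ δ B Bm : ℝ) (hb : 1 < b₁) (hδ : 0 < δ) : ∃ m₀ : ℕ, ∀ (ι : Type) [Fintype ι] [DecidableEq ι],
    m₀ ≤ Fintype.card ι → ∀ (n : ℕ), Fintype.card ι < n → (n : ℝ) ^ B ≤ (Fintype.card ι : ℝ) ^ Bm →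
    ∀ b' : Sym2 ι → Bool, Gd b₁ Bm n ι b' → ∀ s : ℕ, δ * n < s → (s : ℝ) < gg * Fintype.card ι →
    (Nat.card {x : ι → Bool // s ≤ (KS b' x ((n : ℝ) ^ b₁) ((n : ℝ) ^ B)).card} : ℝ) ≤
      2 ^ (-(s : ℝ) + δ * n) * 2 ^ Fintype.card ι := by
  classical
  obtain ⟨n₁, h1⟩ := exists_t b₁ gg (δ / 4) (δ / 2) (by linarith) (by unfold gg; norm_num) (by positivity) (by positivity)
  obtain ⟨n₂, hn₂⟩ := exists_nat_gt (4 / δ)
  refine ⟨max (max n₁ n₂) 2, fun ι _ _ hm n hmn hB b' hG s hs1 hs2 => ?_⟩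
  set m := Fintype.card ι with hmdef
  have hm1 : n₁ ≤ m := (le_max_left _ _).trans ((le_max_left _ _).trans hm)
  have hm2 : n₂ ≤ m := (le_max_right _ _).trans ((le_max_left _ _).trans hm)
  have hm3 : 2 ≤ m := (le_max_right _ _).trans hm
  have hm0 : (0 : ℝ) < m := by exact_mod_cast (by omega : 0 < m)
  have hmR : (1 : ℝ) ≤ m := by exact_mod_cast (by omega : 1 ≤ m)
  have hmn' : (m : ℝ) ≤ n := by exact_mod_cast hmn.le
  have hn0 : (0 : ℝ) < n := by linarith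
  obtain ⟨t, ht1, ht2, ht3⟩ := h1 m hm1
  obtain ⟨hdet, hgood⟩ := hG
  have hδm : 4 < δ * m := by
    have h2 : (n₂ : ℝ) ≤ m := by exact_mod_cast hm2
    have h3 : 4 / δ < m := hn₂.trans_le h2
    rw [div_lt_iff₀ hδ] at h3
    linarith
  have hb0 : 0 < b₁ := by linarith
  have hym : (m : ℝ) ^ b₁ ≤ (n : ℝ) ^ b₁ := Real.rpow_le_rpow hm0.le hmn' hb0.le
  have hy1 : (1 : ℝ) ≤ (m : ℝ) ^ b₁ := Real.one_le_rpow hmR hb0.le
  have hym1 : (m : ℝ) ≤ (m : ℝ) ^ b₁ := by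
    calc (m : ℝ) = (m : ℝ) ^ (1 : ℝ) := (Real.rpow_one _).symm
      _ ≤ _ := Real.rpow_le_rpow_of_exponent_le hmR hb.le
  set y : ℝ := (n : ℝ) ^ b₁ with hy
  set Y : ℝ := (n : ℝ) ^ B with hY
  have hP : ∀ p ∈ KP b' y Y, p.Prime ∧ y ≤ p ∧ (p : ℝ) ≤ Y ∧ ∃ w : ι → ZMod p, w ≠ 0 ∧ smul2 b' w = 0 := by
    intro p hp
    obtain ⟨h0, hp1, hp2, hp3⟩ := mem_filter.1 hp
    refine ⟨hp1, hp2, ?_, hp3⟩
    have h4 : p ≤ ⌊Y⌋₊ := Nat.lt_succ_iff.1 (mem_range.1 h0)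
    have h5 : ⌊Y⌋₊ ≠ 0 := by
      intro h6
      rw [h6] at h4
      exact hp1.ne_zero (by omega)
    exact (Nat.le_floor_iff' hp1.ne_zero).1 h4
  have hlo : (1 : ℝ) < (2 : ℝ) ^ (gg * m) := Real.one_lt_rpow (by norm_num) (by unfold gg; positivity)
  have key := row_count b' (KP b' y Y) (fun p hp => (hP p hp).1) (fun p hp => (hP p hp).2.2.2)
    ((2 : ℝ) ^ (gg * m)) y Y t hlo (hy1.trans hym) (fun p hp => ⟨(hP p hp).2.1, (hP p hp).2.2.1⟩)
    (ht1.trans (pow_le_pow_left₀ (by positivity) hym t))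
    (fun N hN hNp hN1 hN2 => by
      refine hgood N hN (fun p hp hpN => ?_) hN1 (hN2.trans (mul_le_mul_of_nonneg_left hB (by positivity)))
      have h5 := hP p (hNp p hp hpN)
      exact ⟨hym.trans h5.2.1, h5.2.2.1.trans hB⟩)
  have hc : (KP b' y Y).card ≤ m := card_KP_le b' hdet y Y (hym1.trans hym) hm3
  have hts : t ≤ s := by
    have h6 : (t : ℝ) ≤ s := by
      have : δ / 2 * (m : ℝ) ≤ δ * n := by nlinarith
      linarith
    exact_mod_cast h6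
  have hle : (Nat.card {x : ι → Bool // s ≤ (KS b' x y Y).card} : ℝ) ≤
      (Nat.card {x : ι → Bool // t ≤ ((KP b' y Y).filter (fun p => ∀ w : ι → ZMod p, smul2 b' w = 0 →
        G.bdot x w = 0)).card} : ℝ) := by
    rw [Nat.cast_le]
    refine Nat.card_le_card_of_injective (fun x => ⟨x.1, hts.trans (x.2.trans (le_of_eq ?_))⟩) ?_
    · unfold KS
      congr!
    · intro x x' hx
      exact Subtype.ext (by simpa using hx)
  refine hle.trans (key.trans ?_)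
  have h7 : ((∑ j ∈ range (t + 1), (KP b' y Y).card.choose j : ℕ) : ℝ) ≤ (2 : ℝ) ^ (δ / 4 * m) := by
    refine le_trans ?_ ht3
    exact_mod_cast sum_le_sum fun j _ => Nat.choose_le_choose j hc
  have h8 : (4 : ℝ) / (2 : ℝ) ^ (gg * m) = (2 : ℝ) ^ (2 - gg * m) := by
    rw [Real.rpow_sub (by norm_num)]
    norm_num
  rw [h8]
  calc ((∑ j ∈ range (t + 1), (KP b' y Y).card.choose j : ℕ) : ℝ) * ((2 : ℝ) ^ (2 - gg * m) * 2 ^ m)
      ≤ (2 : ℝ) ^ (δ / 4 * m) * ((2 : ℝ) ^ (2 - gg * m) * 2 ^ m) := mul_le_mul_of_nonneg_right h7 (by positivity)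
    _ = (2 : ℝ) ^ (δ / 4 * m + (2 - gg * m)) * 2 ^ m := by
        rw [Real.rpow_add (by norm_num)]
        ring
    _ ≤ _ := by
        refine mul_le_mul_of_nonneg_right (Real.rpow_le_rpow_of_exponent_le (by norm_num) ?_) (by positivity)
        have h9 : δ * (m : ℝ) ≤ δ * n := mul_le_mul_of_nonneg_left hmn' hδ.le
        linarith

/-- **RowHyp.** -/
theorem rowHyp_of (hNG : NotGoodStmt) (hdet : DetS (2 / 5)) (b₁ : ℝ) (hb : 199 / 100 ≤ b₁)
    (hXi : ∀ B : ℝ, 2 ≤ B → StmtXi b₁ (1 / 8) (3 / 5) B) : MProd.RowHyp b₁ := by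
  classical
  intro δ B τ hδ
  set B' : ℝ := max B 2 with hB'
  have hB'2 : 2 ≤ B' := le_max_right _ _
  have hb1 : 1 < b₁ := by linarith
  -- the inputs
  have hXi' : StmtXi b₁ (2 * gg + 6 / 10000) (3 / 5) ((B' + 1) + 1) := by
    have : (2 * gg + 6 / 10000 : ℝ) = 1 / 8 := by unfold gg; norm_num
    rw [this]
    exact hXi _ (by linarith)
  obtain ⟨n₁, hn₁⟩ := hNG b₁ gg (3 / 5) (B' + 1) (6 / 10000) hb1 (by unfold gg; norm_num) (by norm_num) (by linarith)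
    (by norm_num) hXi'
  obtain ⟨n₂, hn₂⟩ := hdet
  obtain ⟨n₃, hn₃⟩ := flat_branch b₁ δ B (B' + 1) hb1 hδ
  obtain ⟨n₄, hn₄⟩ := RowKS471.ks_branch (b := b₁) (d := δ) hb hδ
  obtain ⟨n₅, hn₅⟩ := exists_nat_gt ((2 : ℝ) ^ B')
  obtain ⟨n₆, hn₆⟩ := exists_nat_gt ((2372 / 10000 * (τ : ℝ) + 1) / (497 / 10000))
  refine ⟨Gd b₁ (B' + 1), max (max (max n₁ n₂) (max n₃ n₄)) (max (max n₅ n₆) (τ + 1)) + τ, 1 / 16, by norm_num,
    fun n hn ι _ _ hc1 hc2 => ?_⟩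
  have a1 : max (max (max n₁ n₂) (max n₃ n₄)) (max (max n₅ n₆) (τ + 1)) ≤ Fintype.card ι := by omega
  have b1 : n₁ ≤ Fintype.card ι :=
    (le_max_left n₁ n₂).trans ((le_max_left _ _).trans ((le_max_left _ _).trans a1))
  have b2 : n₂ ≤ Fintype.card ι :=
    (le_max_right n₁ n₂).trans ((le_max_left _ _).trans ((le_max_left _ _).trans a1))
  have b3 : n₃ ≤ Fintype.card ι :=
    (le_max_left n₃ n₄).trans ((le_max_right _ _).trans ((le_max_left _ _).trans a1))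
  have b4 : n₄ ≤ Fintype.card ι :=
    (le_max_right n₃ n₄).trans ((le_max_right _ _).trans ((le_max_left _ _).trans a1))
  have b5 : n₅ ≤ Fintype.card ι :=
    (le_max_left n₅ n₆).trans ((le_max_left _ _).trans ((le_max_right _ _).trans a1))
  have b6 : n₆ ≤ Fintype.card ι :=
    (le_max_right n₅ n₆).trans ((le_max_left _ _).trans ((le_max_right _ _).trans a1))
  have b7 : τ + 1 ≤ Fintype.card ι :=
    (le_max_right (max n₅ n₆) (τ + 1)).trans ((le_max_right _ _).trans a1)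
  set m := Fintype.card ι with hm
  have hm0 : (0 : ℝ) < m := by exact_mod_cast (by omega : 0 < m)
  have hmR : (1 : ℝ) ≤ m := by exact_mod_cast (by omega : 1 ≤ m)
  have hmn : (m : ℝ) ≤ n := by exact_mod_cast hc2.le
  have hnm : (n : ℝ) ≤ m + τ := by exact_mod_cast hc1
  have hn0 : (0 : ℝ) < n := by linarith
  have hn2 : (n : ℝ) ≤ 2 * m := by
    have : (n : ℕ) ≤ 2 * m := by omega
    exact_mod_cast this
  have hpow : (n : ℝ) ^ B ≤ (m : ℝ) ^ (B' + 1) := by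
    have hn1 : (1 : ℝ) ≤ n := by linarith
    have h5 : (2 : ℝ) ^ B' ≤ m := by
      have : (n₅ : ℝ) ≤ m := by exact_mod_cast b5
      linarith
    calc (n : ℝ) ^ B ≤ (n : ℝ) ^ B' := Real.rpow_le_rpow_of_exponent_le hn1 (le_max_left _ _)
      _ ≤ (2 * (m : ℝ)) ^ B' := Real.rpow_le_rpow hn0.le hn2 (by linarith)
      _ = (2 : ℝ) ^ B' * (m : ℝ) ^ B' := Real.mul_rpow (by norm_num) hm0.le
      _ ≤ (m : ℝ) * (m : ℝ) ^ B' := mul_le_mul_of_nonneg_right h5 (by positivity)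
      _ = (m : ℝ) ^ (B' + 1) := by
          rw [Real.rpow_add hm0, Real.rpow_one]
          ring
  refine ⟨fun b' hG => ⟨hG.1, fun s => ?_⟩, ?_⟩
  · have hδn : 0 ≤ δ * n := by positivity
    rcases le_or_gt (s : ℝ) (δ * n) with hs | hs
    · -- trivial branch
      have h1 : (Nat.card {x : ι → Bool // s ≤ (KS b' x ((n : ℝ) ^ b₁) ((n : ℝ) ^ B)).card} : ℝ) ≤ 2 ^ m := by
        have h2 : Nat.card {x : ι → Bool // s ≤ (KS b' x ((n : ℝ) ^ b₁) ((n : ℝ) ^ B)).card} ≤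
            Nat.card (ι → Bool) := Nat.card_le_card_of_injective _ Subtype.val_injective
        rw [Nat.card_eq_fintype_card (α := ι → Bool), Fintype.card_fun, Fintype.card_bool] at h2
        exact_mod_cast h2
      refine h1.trans (le_mul_of_one_le_left (by positivity) (Real.one_le_rpow (by norm_num) (by linarith)))
    · rcases lt_or_ge (s : ℝ) (gg * m) with hs2 | hs2
      · exact hn₃ ι b3 n hc2 hpow b' hG s hs hs2
      · have h1 := hn₄ ι b4 b' hG.1 ((n : ℝ) ^ b₁) ((n : ℝ) ^ B)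
          (Real.rpow_le_rpow hm0.le hmn (by linarith)) s (by unfold gg at hs2; exact hs2)
        refine h1.trans ?_
        rw [mul_comm]
        refine mul_le_mul_of_nonneg_right (Real.rpow_le_rpow_of_exponent_le (by norm_num) ?_) (by positivity)
        have : δ * (m : ℝ) ≤ δ * n := mul_le_mul_of_nonneg_left hmn hδ.le
        linarith
  · -- the exceptional set
    have e1 := hn₁ m b1 ι rfl
    have e2 := hn₂ m b2 ι rfl
    have h1 : Nat.card {b' : Sym2 ι → Bool // ¬ Gd b₁ (B' + 1) n ι b'} ≤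
        Nat.card {b' : Sym2 ι → Bool // (matZ b').det = 0} +
        Nat.card {b' : Sym2 ι → Bool // ∃ N : ℕ, Squarefree N ∧
          (∀ p, p.Prime → p ∣ N → (m : ℝ) ^ b₁ ≤ p ∧ (p : ℝ) ≤ (m : ℝ) ^ (B' + 1)) ∧
          (2 : ℝ) ^ (gg * m) ≤ N ∧ (N : ℝ) ≤ (2 : ℝ) ^ (gg * m) * (m : ℝ) ^ (B' + 1) ∧ ¬ GoodSym N b'} := by
      rw [Nat.card_eq_fintype_card, Nat.card_eq_fintype_card, Nat.card_eq_fintype_card, Fintype.card_subtype,
        Fintype.card_subtype, Fintype.card_subtype]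
      refine (card_le_card fun b' hb' => ?_).trans (card_union_le _ _)
      have hb' := (mem_filter.1 hb').2
      rw [mem_union, mem_filter, mem_filter]
      by_cases hd : (matZ b').det = 0
      · exact Or.inl ⟨mem_univ _, hd⟩
      · refine Or.inr ⟨mem_univ _, ?_⟩
        by_contra hcon
        refine hb' ⟨hd, fun N hN hp h1 h2 => ?_⟩
        by_contra hg
        exact hcon ⟨N, hN, hp, h1, h2, hg⟩
    have h1' : (Nat.card {b' : Sym2 ι → Bool // ¬ Gd b₁ (B' + 1) n ι b'} : ℝ) ≤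
        (2 : ℝ) ^ (-(2 / 5 * (m : ℝ))) * 2 ^ Fintype.card (Sym2 ι) +
        (2 : ℝ) ^ (-((3 / 5 / 2 - gg - 6 / 10000) * (m : ℝ))) * 2 ^ Fintype.card (Sym2 ι) :=
      le_trans (by exact_mod_cast h1) (add_le_add e2 e1)
    refine h1'.trans ?_
    rw [← add_mul]
    refine mul_le_mul_of_nonneg_right ?_ (by positivity)
    have h6 : (2372 / 10000 * (τ : ℝ) + 1) < 497 / 10000 * m := by
      have : (n₆ : ℝ) ≤ m := by exact_mod_cast b6
      have h7 := hn₆.trans_le this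
      rw [div_lt_iff₀ (by norm_num)] at h7
      linarith
    have h8 : (2 : ℝ) ^ (-(2 / 5 * (m : ℝ))) ≤ (2 : ℝ) ^ (-(2372 / 10000 * (m : ℝ))) :=
      Real.rpow_le_rpow_of_exponent_le (by norm_num) (by nlinarith)
    have h9 : (2 : ℝ) ^ (-((3 / 5 / 2 - gg - 6 / 10000) * (m : ℝ))) = (2 : ℝ) ^ (-(2372 / 10000 * (m : ℝ))) := by
      congr 1
      unfold gg
      ring
    rw [h9]
    calc (2 : ℝ) ^ (-(2 / 5 * (m : ℝ))) + (2 : ℝ) ^ (-(2372 / 10000 * (m : ℝ)))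
        ≤ 2 * (2 : ℝ) ^ (-(2372 / 10000 * (m : ℝ))) := by linarith
      _ = (2 : ℝ) ^ (1 + -(2372 / 10000 * (m : ℝ))) := by
          rw [Real.rpow_add (by norm_num), Real.rpow_one]
      _ ≤ _ := Real.rpow_le_rpow_of_exponent_le (by norm_num) (by nlinarith)

end Vale.Agent.P160.Half.RowHyp428
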