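import Vale.Agent.P160.Half.MProdDef358
import Vale.Agent.P160.Half.M8Asy
import Vale.Agent.P160.Half.M8Def

/-! # P160, rate 1/2, part (M): the one-row hypothesis from its inputs (helper892)

`rowHypR` : NotGood (`NG`), few singular matrices (`SG`) and the Chernoff branch (`CHB`) give the one-row
bound for EVERY `s`. -/

set_option linter.unusedVariables false

open Finset Matrix

namespace Vale.Agent.P160.Half.RowHyp892

open Vale.Agent.P160.Half.M8 Vale.Agent.P160.Half.M8Incl Vale.Agent.P160.Half.M8Asy Vale.Agent.P160.Half.M8Row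

/-- the row hypothesis with slope `ρ` and exceptional rate `κ₀`; `RowHyp b₁ = RowHypR b₁ 1 (1/8)` -/
def RowHypR (b₁ ρ κ₀ : ℝ) : Prop := ∀ (δ B : ℝ) (τ : ℕ), 0 < δ →
  ∃ (Gd : ℕ → ∀ (ι : Type) [Fintype ι] [DecidableEq ι], (Sym2 ι → Bool) → Prop) (n₀ : ℕ) (η : ℝ), 0 < η ∧
    ∀ n ≥ n₀, ∀ (ι : Type) [Fintype ι] [DecidableEq ι], n ≤ Fintype.card ι + τ → Fintype.card ι < n →
      (∀ b' : Sym2 ι → Bool, Gd n ι b' → (matZ b').det ≠ 0 ∧ ∀ s : ℕ,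
        (Nat.card {x : ι → Bool // s ≤ (KS b' x ((n : ℝ) ^ b₁) ((n : ℝ) ^ B)).card} : ℝ) ≤
          2 ^ (-(ρ * (s : ℝ)) + δ * n) * 2 ^ Fintype.card ι) ∧
      (Nat.card {b' : Sym2 ι → Bool // ¬ Gd n ι b'} : ℝ) ≤
        2 ^ (-((κ₀ + η) * n)) * 2 ^ Fintype.card (Sym2 ι)

theorem rowHyp_of_R {b₁ : ℝ} (h : RowHypR b₁ 1 (1 / 8)) : MProd.RowHyp b₁ := by
  intro δ B τ hδ
  obtain ⟨Gd, n₀, η, hη, h⟩ := h δ B τ hδ
  refine ⟨Gd, n₀, η, hη, fun n hn ι _ _ h1 h2 => ?_⟩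
  obtain ⟨h3, h4⟩ := h n hn ι h1 h2
  refine ⟨fun b' hb => ⟨(h3 b' hb).1, fun s => ?_⟩, h4⟩
  have h5 := (h3 b' hb).2 s
  rwa [one_mul] at h5

/-- few matrices are not good for some `N` in the window -/
def NG (b₁ g κ : ℝ) : Prop := ∀ B : ℝ, 1 ≤ B → ∃ n₀ : ℕ, ∀ n ≥ n₀, ∀ (ι : Type) [Fintype ι] [DecidableEq ι],
  Fintype.card ι = n →
    (Nat.card {b : Sym2 ι → Bool // ∃ N : ℕ, Squarefree N ∧
      (∀ p, p.Prime → p ∣ N → (n : ℝ) ^ b₁ ≤ p ∧ (p : ℝ) ≤ (n : ℝ) ^ B) ∧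
      (2 : ℝ) ^ (g * n) ≤ N ∧ (N : ℝ) ≤ (2 : ℝ) ^ (g * n) * (n : ℝ) ^ B ∧ ¬ GoodSym N b} : ℝ) ≤
      (2 : ℝ) ^ (-(κ * n)) * 2 ^ Fintype.card (Sym2 ι)

/-- from the half-size statement -/
theorem ng_of_xi {b₁ g c δ : ℝ} (hb : 1 < b₁) (hg : 0 < g) (hc : 0 < c) (hδ : 0 < δ) (hN : NotGoodStmt)
    (h : ∀ B : ℝ, 1 ≤ B → StmtXi b₁ (2 * g + δ) c (B + 1)) : NG b₁ g (c / 2 - g - δ) :=
  fun B hB => hN b₁ g c B δ hb hg hc hB hδ (h B hB)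

/-- few singular matrices -/
def SG (κ : ℝ) : Prop := ∃ n₀ : ℕ, ∀ n ≥ n₀, ∀ (ι : Type) [Fintype ι] [DecidableEq ι], Fintype.card ι = n →
    (Nat.card {b : Sym2 ι → Bool // (matZ b).det = 0} : ℝ) ≤ (2 : ℝ) ^ (-(κ * n)) * 2 ^ Fintype.card (Sym2 ι)

/-- Chernoff branch (`RowKS471.ks_branch`, `g = 622 / 10000`) -/
def CHB (b₁ g : ℝ) : Prop := ∀ d : ℝ, 0 < d → ∃ m0 : ℕ, ∀ (ι : Type) [Fintype ι] [DecidableEq ι], m0 ≤ Fintype.card ι →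
  ∀ b' : Sym2 ι → Bool, (matZ b').det ≠ 0 → ∀ y Y : ℝ, (Fintype.card ι : ℝ) ^ b₁ ≤ y →
  ∀ s : ℕ, g * (Fintype.card ι : ℝ) ≤ s →
  (Nat.card {x : ι → Bool // s ≤ (KS b' x y Y).card} : ℝ)
    ≤ (2 : ℝ) ^ (Fintype.card ι) * (2 : ℝ) ^ (-(s : ℝ) + d * Fintype.card ι)

theorem KS_mono {ι : Type} [Fintype ι] [DecidableEq ι] (b' : Sym2 ι → Bool) (x : ι → Bool) (y Y Y' : ℝ)
    (h : Y ≤ Y') : KS b' x y Y ⊆ KS b' x y Y' := by
  classical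
  intro p hp
  unfold KS KP at hp ⊢
  rw [mem_filter, mem_filter, mem_range] at hp ⊢
  refine ⟨⟨lt_of_lt_of_le hp.1.1 ?_, hp.1.2⟩, hp.2⟩
  have := Nat.floor_le_floor h
  omega

/-- **flat branch** -/
theorem flat (b₁ g δ B : ℝ) (τ : ℕ) (hb : 1 ≤ b₁) (hg : 0 < g) (ε' : ℝ) (hδ : 0 < δ) (hε' : 0 < ε') (hB : 1 ≤ B) :
    ∃ n₀ : ℕ, ∀ n ≥ n₀, ∃ t : ℕ, (t : ℝ) ≤ ε' * n ∧
    ∀ (ι : Type) [Fintype ι] [DecidableEq ι], n ≤ Fintype.card ι + τ → Fintype.card ι < n →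
    ∀ b' : Sym2 ι → Bool, (matZ b').det ≠ 0 →
    (∀ N : ℕ, Squarefree N → (∀ p, p.Prime → p ∣ N → (n : ℝ) ^ b₁ ≤ p ∧ (p : ℝ) ≤ (n : ℝ) ^ B) →
      (2 : ℝ) ^ (g * n) ≤ N → (N : ℝ) ≤ (2 : ℝ) ^ (g * n) * (n : ℝ) ^ B → GoodSym N b') →
    (Nat.card {x : ι → Bool // t ≤ (KS b' x ((n : ℝ) ^ b₁) ((n : ℝ) ^ B)).card} : ℝ) ≤
      2 ^ (-(g * n) + δ * n) * 2 ^ Fintype.card ι := by
  classical
  obtain ⟨n₁, h₁⟩ := exists_t b₁ g (δ / 2) ε' (by linarith) hg.le (by linarith) hε'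
  obtain ⟨n₂, h₂⟩ := exists_nat_gt (4 / δ)
  refine ⟨max (max n₁ n₂) (τ + 2), fun n hn => ?_⟩
  have hn1 : n₁ ≤ n := (le_max_left _ _).trans ((le_max_left _ _).trans hn)
  have hn2 : n₂ ≤ n := (le_max_right _ _).trans ((le_max_left _ _).trans hn)
  have hn3 : τ + 2 ≤ n := (le_max_right _ _).trans hn
  obtain ⟨t, ht1, ht2, ht3⟩ := h₁ n hn1
  refine ⟨t, ht2, fun ι _ _ hc1 hc2 b' hdet hgood => ?_⟩
  have hnR : (1 : ℝ) ≤ n := by exact_mod_cast (by omega : 1 ≤ n)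
  have hn0 : (0 : ℝ) < n := by linarith
  have hy1 : (n : ℝ) ≤ (n : ℝ) ^ b₁ := by
    calc (n : ℝ) = (n : ℝ) ^ (1 : ℝ) := (Real.rpow_one _).symm
      _ ≤ (n : ℝ) ^ b₁ := Real.rpow_le_rpow_of_exponent_le hnR hb
  have hlo : (1 : ℝ) < 2 ^ (g * n) := Real.one_lt_rpow (by norm_num) (by positivity)
  have hm : (Fintype.card ι : ℝ) ≤ (n : ℝ) ^ b₁ := by
    have : (Fintype.card ι : ℝ) ≤ n := by exact_mod_cast hc2.le
    linarith
  have hKPmem : ∀ p ∈ KP b' ((n : ℝ) ^ b₁) ((n : ℝ) ^ B), p.Prime ∧ (n : ℝ) ^ b₁ ≤ p ∧ (p : ℝ) ≤ (n : ℝ) ^ B ∧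
      ∃ w : ι → ZMod p, w ≠ 0 ∧ smul2 b' w = 0 := by
    intro p hp
    unfold KP at hp
    rw [mem_filter, mem_range] at hp
    obtain ⟨hp0, hp1, hp2, hp3⟩ := hp
    refine ⟨hp1, hp2, ?_, hp3⟩
    exact (Nat.le_floor_iff' hp1.ne_zero).1 (Nat.lt_succ_iff.1 hp0)
  have hrow := row_count b' (KP b' ((n : ℝ) ^ b₁) ((n : ℝ) ^ B)) (fun p hp => (hKPmem p hp).1)
    (fun p hp => (hKPmem p hp).2.2.2) (2 ^ (g * n)) ((n : ℝ) ^ b₁) ((n : ℝ) ^ B) t hlo (hnR.trans hy1)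
    (fun p hp => ⟨(hKPmem p hp).2.1, (hKPmem p hp).2.2.1⟩) ht1
    (fun N hN hNp h1 h2 => hgood N hN (fun p hp hpN => by
      have h3 := hKPmem p (hNp p hp hpN)
      exact ⟨h3.2.1, h3.2.2.1⟩) h1 h2)
  have hKPc := card_KP_le b' hdet ((n : ℝ) ^ b₁) ((n : ℝ) ^ B) hm (by omega)
  have hch : ((∑ j ∈ range (t + 1), (KP b' ((n : ℝ) ^ b₁) ((n : ℝ) ^ B)).card.choose j : ℕ) : ℝ) ≤ 2 ^ (δ / 2 * n) := by
    refine le_trans ?_ ht3
    exact_mod_cast sum_le_sum fun j _ => Nat.choose_le_choose j (hKPc.trans hc2.le)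
  have h4 : (4 : ℝ) ≤ 2 ^ (δ / 2 * n) := by
    have h5 : (4 : ℝ) = 2 ^ (2 : ℝ) := by norm_num
    rw [h5]
    refine Real.rpow_le_rpow_of_exponent_le (by norm_num) ?_
    have h6 : (n₂ : ℝ) ≤ n := by exact_mod_cast hn2
    have h7 : 4 / δ < n := h₂.trans_le h6
    rw [div_lt_iff₀ hδ] at h7
    linarith
  have h0 : (0 : ℝ) < 2 ^ (g * n) := by positivity
  have h8 : (4 : ℝ) / 2 ^ (g * n) ≤ 2 ^ (-(g * n) + δ / 2 * n) := by
    rw [Real.rpow_add (by norm_num), Real.rpow_neg (by norm_num), div_eq_inv_mul]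
    exact mul_le_mul_of_nonneg_left h4 (by positivity)
  calc (Nat.card {x : ι → Bool // t ≤ (KS b' x ((n : ℝ) ^ b₁) ((n : ℝ) ^ B)).card} : ℝ) ≤
      ((∑ j ∈ range (t + 1), (KP b' ((n : ℝ) ^ b₁) ((n : ℝ) ^ B)).card.choose j : ℕ) : ℝ) *
        (4 / 2 ^ (g * n) * 2 ^ Fintype.card ι) := hrow
    _ ≤ 2 ^ (δ / 2 * n) * (2 ^ (-(g * n) + δ / 2 * n) * 2 ^ Fintype.card ι) := by
        refine mul_le_mul hch (mul_le_mul_of_nonneg_right h8 (by positivity)) (by positivity) (by positivity)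
    _ = 2 ^ (-(g * n) + δ * n) * 2 ^ Fintype.card ι := by
        rw [← mul_assoc, ← Real.rpow_add (by norm_num)]
        congr 2
        ring


/-- **The exceptional set**: transfer of the windows from `n` to `card ι`. -/
theorem notGd (b₁ g κ B : ℝ) (τ : ℕ) (hb : 1 ≤ b₁) (hg : 0 < g) (hB : 1 ≤ B) (hNG : NG b₁ g κ) (hSG : SG κ) (κ₀ : ℝ)
    (hκ : κ₀ < κ) (hκ0 : 0 < κ) :
    ∃ n₀ : ℕ, ∀ n ≥ n₀, ∀ (ι : Type) [Fintype ι] [DecidableEq ι], n ≤ Fintype.card ι + τ → Fintype.card ι < n →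
      (Nat.card {b' : Sym2 ι → Bool // ¬ ((matZ b').det ≠ 0 ∧ ∀ N : ℕ, Squarefree N →
        (∀ p, p.Prime → p ∣ N → (n : ℝ) ^ b₁ ≤ p ∧ (p : ℝ) ≤ (n : ℝ) ^ B) →
        (2 : ℝ) ^ (g * n) ≤ N → (N : ℝ) ≤ (2 : ℝ) ^ (g * n) * (n : ℝ) ^ B → GoodSym N b')} : ℝ) ≤
        2 ^ (-(κ₀ * n)) * 2 ^ Fintype.card (Sym2 ι) := by
  classical
  obtain ⟨n₁, h₁⟩ := hNG (B + 1) (by linarith)
  obtain ⟨n₂, h₂⟩ := hSG
  obtain ⟨n₃, h₃⟩ := exists_nat_gt ((2 : ℝ) ^ (g * τ + B))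
  obtain ⟨n₄, h₄⟩ := exists_nat_gt ((κ * τ + 1) / (κ - κ₀))
  refine ⟨max (max n₁ n₂) (max (max n₃ n₄) (τ + 1)) + τ, fun n hn ι _ _ hc1 hc2 => ?_⟩
  set m := Fintype.card ι with hm
  have hm1 : n₁ ≤ m := by have := le_max_left n₁ n₂; have := le_max_left (max n₁ n₂) (max (max n₃ n₄) (τ + 1)); omega
  have hm2 : n₂ ≤ m := by have := le_max_right n₁ n₂; have := le_max_left (max n₁ n₂) (max (max n₃ n₄) (τ + 1)); omega
  have hm3 : n₃ ≤ m := by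
    have := le_max_left n₃ n₄; have := le_max_left (max n₃ n₄) (τ + 1)
    have := le_max_right (max n₁ n₂) (max (max n₃ n₄) (τ + 1)); omega
  have hm4 : n₄ ≤ n := by
    have := le_max_right n₃ n₄; have := le_max_left (max n₃ n₄) (τ + 1)
    have := le_max_right (max n₁ n₂) (max (max n₃ n₄) (τ + 1)); omega
  have hm5 : τ + 1 ≤ m := by
    have := le_max_right (max n₃ n₄) (τ + 1)
    have := le_max_right (max n₁ n₂) (max (max n₃ n₄) (τ + 1)); omega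
  have hmR : (1 : ℝ) ≤ m := by exact_mod_cast (by omega : 1 ≤ m)
  have hm0 : (0 : ℝ) < m := by linarith
  have hnm : (m : ℝ) ≤ n := by exact_mod_cast hc2.le
  have hn0 : (0 : ℝ) < n := by linarith
  have hn2m : (n : ℝ) ≤ 2 * m := by
    have : n ≤ 2 * m := by omega
    exact_mod_cast this
  have hnτ : (n : ℝ) ≤ m + τ := by exact_mod_cast hc1
  have h3 : (2 : ℝ) ^ (g * τ + B) ≤ m := by
    have : (n₃ : ℝ) ≤ m := by exact_mod_cast hm3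
    linarith
  have h2B : (2 : ℝ) ^ B ≤ m := by
    refine le_trans ?_ h3
    refine Real.rpow_le_rpow_of_exponent_le (by norm_num) ?_
    have : 0 ≤ g * τ := by positivity
    linarith
  have hnB : (n : ℝ) ^ B ≤ (2 : ℝ) ^ B * (m : ℝ) ^ B := by
    rw [← Real.mul_rpow (by norm_num) hm0.le]
    exact Real.rpow_le_rpow hn0.le hn2m (by linarith)
  have hmB : (m : ℝ) * (m : ℝ) ^ B = (m : ℝ) ^ (B + 1) := by
    rw [Real.rpow_add hm0, Real.rpow_one]; ring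
  have hmBpos : (0 : ℝ) < (m : ℝ) ^ B := by positivity
  have hwin1 : (n : ℝ) ^ B ≤ (m : ℝ) ^ (B + 1) := by
    rw [← hmB]
    exact hnB.trans (mul_le_mul_of_nonneg_right h2B hmBpos.le)
  have hwin2 : (2 : ℝ) ^ (g * n) * (n : ℝ) ^ B ≤ (2 : ℝ) ^ (g * m) * (m : ℝ) ^ (B + 1) := by
    have h5 : (2 : ℝ) ^ (g * n) ≤ (2 : ℝ) ^ (g * m) * (2 : ℝ) ^ (g * τ) := by
      rw [← Real.rpow_add (by norm_num)]
      refine Real.rpow_le_rpow_of_exponent_le (by norm_num) ?_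
      nlinarith
    calc (2 : ℝ) ^ (g * n) * (n : ℝ) ^ B ≤ ((2 : ℝ) ^ (g * m) * (2 : ℝ) ^ (g * τ)) * ((2 : ℝ) ^ B * (m : ℝ) ^ B) :=
          mul_le_mul h5 hnB (by positivity) (by positivity)
      _ = (2 : ℝ) ^ (g * m) * ((2 : ℝ) ^ (g * τ + B) * (m : ℝ) ^ B) := by
          rw [Real.rpow_add (by norm_num : (0 : ℝ) < 2) (g * τ) B]; ring
      _ ≤ (2 : ℝ) ^ (g * m) * ((m : ℝ) * (m : ℝ) ^ B) := by gcongr
      _ = _ := by rw [hmB]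
  have h6 := h₁ m hm1 ι hm.symm
  have h7 := h₂ m hm2 ι hm.symm
  have hinc : (univ.filter fun b' : Sym2 ι → Bool => ¬ ((matZ b').det ≠ 0 ∧ ∀ N : ℕ, Squarefree N →
        (∀ p, p.Prime → p ∣ N → (n : ℝ) ^ b₁ ≤ p ∧ (p : ℝ) ≤ (n : ℝ) ^ B) →
        (2 : ℝ) ^ (g * n) ≤ N → (N : ℝ) ≤ (2 : ℝ) ^ (g * n) * (n : ℝ) ^ B → GoodSym N b')) ⊆
      (univ.filter fun b : Sym2 ι → Bool => (matZ b).det = 0) ∪
      (univ.filter fun b : Sym2 ι → Bool => ∃ N : ℕ, Squarefree N ∧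
      (∀ p, p.Prime → p ∣ N → (m : ℝ) ^ b₁ ≤ p ∧ (p : ℝ) ≤ (m : ℝ) ^ (B + 1)) ∧
      (2 : ℝ) ^ (g * m) ≤ N ∧ (N : ℝ) ≤ (2 : ℝ) ^ (g * m) * (m : ℝ) ^ (B + 1) ∧ ¬ GoodSym N b) := by
    intro b hb
    rw [mem_filter] at hb
    rw [mem_union, mem_filter, mem_filter]
    by_cases hd : (matZ b).det = 0
    · exact Or.inl ⟨mem_univ _, hd⟩
    · right
      refine ⟨mem_univ _, ?_⟩
      have h8 := hb.2
      rw [not_and] at h8
      have h9 := h8 hd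
      push Not at h9
      obtain ⟨N, hN1, hN2, hN3, hN4, hN5⟩ := h9
      refine ⟨N, hN1, fun p hp hpN => ?_, ?_, hN4.trans hwin2, hN5⟩
      · have h10 := hN2 p hp hpN
        refine ⟨le_trans ?_ h10.1, h10.2.trans hwin1⟩
        exact Real.rpow_le_rpow hm0.le hnm (by linarith)
      · refine le_trans ?_ hN3
        exact Real.rpow_le_rpow_of_exponent_le (by norm_num) (mul_le_mul_of_nonneg_left hnm hg.le)
  rw [Nat.card_eq_fintype_card, Fintype.card_subtype] at h6 h7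
  rw [Nat.card_eq_fintype_card, Fintype.card_subtype]
  have h11 := (card_le_card hinc).trans (card_union_le _ _)
  have h12 : ((univ.filter fun b' : Sym2 ι → Bool => ¬ ((matZ b').det ≠ 0 ∧ ∀ N : ℕ, Squarefree N →
        (∀ p, p.Prime → p ∣ N → (n : ℝ) ^ b₁ ≤ p ∧ (p : ℝ) ≤ (n : ℝ) ^ B) →
        (2 : ℝ) ^ (g * n) ≤ N → (N : ℝ) ≤ (2 : ℝ) ^ (g * n) * (n : ℝ) ^ B → GoodSym N b')).card : ℝ) ≤
      (2 : ℝ) ^ (-(κ * m)) * 2 ^ Fintype.card (Sym2 ι) + (2 : ℝ) ^ (-(κ * m)) * 2 ^ Fintype.card (Sym2 ι) := by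
    refine le_trans ?_ (add_le_add h7 h6)
    exact_mod_cast h11
  refine h12.trans ?_
  rw [← two_mul, ← mul_assoc]
  refine mul_le_mul_of_nonneg_right ?_ (by positivity)
  have h13 : (2 : ℝ) * (2 : ℝ) ^ (-(κ * m)) = (2 : ℝ) ^ (1 + -(κ * m)) := by
    rw [Real.rpow_add (by norm_num), Real.rpow_one]
  rw [h13]
  refine Real.rpow_le_rpow_of_exponent_le (by norm_num) ?_
  have h14 : (n₄ : ℝ) ≤ n := by exact_mod_cast hm4
  have h15 : (κ * τ + 1) / (κ - κ₀) < n := h₄.trans_le h14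
  rw [div_lt_iff₀ (by linarith)] at h15
  have h16 : κ * n ≤ κ * (m + τ) := mul_le_mul_of_nonneg_left hnτ hκ0.le
  nlinarith

/-- **The row hypothesis.** -/
theorem rowHypR (b₁ g κ κ₀ : ℝ) (hb : 1 ≤ b₁) (hg : 0 < g) (hκ : κ₀ < κ) (hκ0 : 0 < κ) (hNG : NG b₁ g κ) (hSG : SG κ)
    (hCH : CHB b₁ g) : RowHypR b₁ 1 κ₀ := by
  classical
  intro δ B τ hδ
  set B' := max B 1 with hB'
  have hB1 : 1 ≤ B' := le_max_right _ _
  obtain ⟨n₁, h₁⟩ := flat b₁ g δ B' τ hb hg δ hδ hδ hB1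
  obtain ⟨n₂, h₂⟩ := hCH δ hδ
  obtain ⟨n₃, h₃⟩ := notGd b₁ g κ B' τ hb hg hB1 hNG hSG ((κ₀ + κ) / 2) (by linarith) hκ0
  refine ⟨fun n ι _ _ b' => (matZ b').det ≠ 0 ∧ ∀ N : ℕ, Squarefree N →
        (∀ p, p.Prime → p ∣ N → (n : ℝ) ^ b₁ ≤ p ∧ (p : ℝ) ≤ (n : ℝ) ^ B') →
        (2 : ℝ) ^ (g * n) ≤ N → (N : ℝ) ≤ (2 : ℝ) ^ (g * n) * (n : ℝ) ^ B' → GoodSym N b',
    max (max n₁ (n₂ + τ)) (max n₃ 1), (κ - κ₀) / 2, by linarith, fun n hn ι _ _ hc1 hc2 => ⟨fun b' hb' => ⟨hb'.1, fun s => ?_⟩, ?_⟩⟩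
  · have hn1 : n₁ ≤ n := (le_max_left _ _).trans ((le_max_left _ _).trans hn)
    have hn2 : n₂ + τ ≤ n := (le_max_right _ _).trans ((le_max_left _ _).trans hn)
    have hn3 : 1 ≤ n := (le_max_right _ _).trans ((le_max_right _ _).trans hn)
    have hnR : (1 : ℝ) ≤ n := by exact_mod_cast hn3
    have hn0 : (0 : ℝ) < n := by linarith
    have hm : (Fintype.card ι : ℝ) ≤ n := by exact_mod_cast hc2.le
    obtain ⟨t, ht, hflat⟩ := h₁ n hn1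
    have hmono : ∀ t' : ℕ, t' ≤ s →
        (Nat.card {x : ι → Bool // s ≤ (KS b' x ((n : ℝ) ^ b₁) ((n : ℝ) ^ B)).card} : ℝ) ≤
        (Nat.card {x : ι → Bool // t' ≤ (KS b' x ((n : ℝ) ^ b₁) ((n : ℝ) ^ B')).card} : ℝ) := by
      intro t' ht'
      have hYY : (n : ℝ) ^ B ≤ (n : ℝ) ^ B' := Real.rpow_le_rpow_of_exponent_le hnR (le_max_left _ _)
      exact_mod_cast Nat.card_le_card_of_injective
        (fun x : {x : ι → Bool // s ≤ (KS b' x ((n : ℝ) ^ b₁) ((n : ℝ) ^ B)).card} =>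
          (⟨x.1, ht'.trans (x.2.trans (card_le_card (KS_mono b' x.1 _ _ _ hYY)))⟩ :
            {x : ι → Bool // t' ≤ (KS b' x ((n : ℝ) ^ b₁) ((n : ℝ) ^ B')).card}))
        (fun x x' h => Subtype.ext (by simpa using h))
    rw [one_mul]
    rcases Nat.lt_or_ge s t with hst | hst
    · -- trivial
      have h5 : (Nat.card {x : ι → Bool // s ≤ (KS b' x ((n : ℝ) ^ b₁) ((n : ℝ) ^ B)).card} : ℝ) ≤ 2 ^ Fintype.card ι := by
        have h6 : Nat.card {x : ι → Bool // s ≤ (KS b' x ((n : ℝ) ^ b₁) ((n : ℝ) ^ B)).card} ≤ Nat.card (ι → Bool) :=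
          Nat.card_le_card_of_injective _ Subtype.val_injective
        rw [Nat.card_eq_fintype_card (α := ι → Bool), Fintype.card_fun, Fintype.card_bool] at h6
        exact_mod_cast h6
      refine h5.trans (le_mul_of_one_le_left (by positivity) ?_)
      apply Real.one_le_rpow (by norm_num)
      have : (s : ℝ) ≤ t := by exact_mod_cast hst.le
      linarith
    · rcases le_total (s : ℝ) (g * n) with hsg | hsg
      · refine ((hmono t hst).trans (hflat ι hc1 hc2 b' hb'.1 hb'.2)).trans ?_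
        refine mul_le_mul_of_nonneg_right ?_ (by positivity)
        refine Real.rpow_le_rpow_of_exponent_le (by norm_num) ?_
        linarith
      · have hgm : g * (Fintype.card ι : ℝ) ≤ s := (mul_le_mul_of_nonneg_left hm hg.le).trans hsg
        have h7 := h₂ ι (by omega) b' hb'.1 ((n : ℝ) ^ b₁) ((n : ℝ) ^ B)
          (Real.rpow_le_rpow (Nat.cast_nonneg _) hm (by linarith)) s hgm
        refine h7.trans ?_
        rw [mul_comm]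
        refine mul_le_mul_of_nonneg_right ?_ (by positivity)
        refine Real.rpow_le_rpow_of_exponent_le (by norm_num) ?_
        have := mul_le_mul_of_nonneg_left hm hδ.le
        linarith
  · have hn3 : n₃ ≤ n := (le_max_left _ _).trans ((le_max_right _ _).trans hn)
    have h8 := h₃ n hn3 ι hc1 hc2
    rwa [show κ₀ + (κ - κ₀) / 2 = (κ₀ + κ) / 2 by ring]

end Vale.Agent.P160.Half.RowHyp892
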