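import Vale.Agent.P160.Half.RowHyp892
import Vale.Agent.P160.Half.RowKS471
import Vale.Agent.P160.Half.M8Key
import Vale.Agent.P160.Half.M8Even
import Vale.Agent.P160.Half.M8Mom
import Vale.Agent.P160.Half.M8NG

/-! # P160, rate 1/2, part (M): `MProd.RowHyp b₁` for all `b₁ ≥ 199/100` (helper892)

from the half-size statement `StmtXi b₁ (1/8) c` (`c ≥ 19/50`) and few singular matrices. -/

open Finset Matrix

namespace Vale.Agent.P160.Half.RowHyp892

open Vale.Agent.P160.Half.M8 Vale.Agent.P160.Half.M8Incl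

theorem chb {b₁ : ℝ} (hb : 199 / 100 ≤ b₁) : CHB b₁ (622 / 10000) := by
  intro d hd
  obtain ⟨m0, h⟩ := RowKS471.ks_branch (b := b₁) (d := d) hb hd
  exact ⟨m0, fun ι _ _ hm b' hdet y Y hy s hs => h ι hm b' hdet y Y hy s hs⟩

theorem NG.mono {b₁ g κ κ' : ℝ} (h : κ' ≤ κ) (hN : NG b₁ g κ) : NG b₁ g κ' := by
  intro B hB
  obtain ⟨n₀, h₀⟩ := hN B hB
  refine ⟨n₀, fun n hn ι _ _ hι => (h₀ n hn ι hι).trans ?_⟩
  refine mul_le_mul_of_nonneg_right (Real.rpow_le_rpow_of_exponent_le (by norm_num) ?_) (by positivity)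
  have : κ' * n ≤ κ * n := mul_le_mul_of_nonneg_right h (Nat.cast_nonneg _)
  linarith

theorem SG.mono {κ κ' : ℝ} (h : κ' ≤ κ) (hS : SG κ) : SG κ' := by
  obtain ⟨n₀, h₀⟩ := hS
  refine ⟨n₀, fun n hn ι _ _ hι => (h₀ n hn ι hι).trans ?_⟩
  refine mul_le_mul_of_nonneg_right (Real.rpow_le_rpow_of_exponent_le (by norm_num) ?_) (by positivity)
  have : κ' * n ≤ κ * n := mul_le_mul_of_nonneg_right h (Nat.cast_nonneg _)
  linarith

/-- **The row hypothesis, all `b₁ ≥ 199/100`.** -/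
theorem rowHyp {b₁ c κ : ℝ} (hb : 199 / 100 ≤ b₁) (hc : 19 / 50 ≤ c)
    (hXi : ∀ B : ℝ, 1 ≤ B → StmtXi b₁ (1 / 8) c (B + 1)) (hκ : 1 / 8 < κ) (hS : SG κ) : MProd.RowHyp b₁ := by
  have hNG : NG b₁ (622 / 10000) (c / 2 - 622 / 10000 - 6 / 10000) := by
    refine ng_of_xi (by linarith) (by norm_num) (by linarith) (by norm_num) (notGood (mom (even key))) fun B hB => ?_
    have h := hXi B hB
    norm_num at h ⊢
    exact h
  set κ' := min κ (c / 2 - 622 / 10000 - 6 / 10000) with hκ'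
  have h1 : 1 / 8 < κ' := lt_min hκ (by linarith)
  exact rowHyp_of_R (rowHypR b₁ (622 / 10000) κ' (1 / 8) (by linarith) (by norm_num) h1 (by linarith)
    (hNG.mono (min_le_right _ _)) (hS.mono (min_le_left _ _)) (chb hb))

end Vale.Agent.P160.Half.RowHyp892
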