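import Mathlib

/-! # P160, part (M), variant B: numerics of the one-row bound

multiplier 5 per prime (`z = 4`), `b ≥ 1.99`, threshold `g = .0622`: `(1 + 4 · 2^(-2b))^(m/2b) ≤ (5/2)^s` for `s ≥ g m`. -/

namespace Vale.Agent.P160.Half.RowNum624

theorem two_rpow_le {b : ℝ} (hb : 199 / 100 ≤ b) : (2 : ℝ) ^ (-(2 * b)) ≤ 127 / 2000 := by
  have h1 : (2 : ℝ) ^ (-(2 * b)) ≤ (2 : ℝ) ^ (-(398 / 100) : ℝ) :=
    Real.rpow_le_rpow_of_exponent_le (by norm_num) (by linarith)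
  refine h1.trans ?_
  have h2 : (0 : ℝ) ≤ (2 : ℝ) ^ (-(398 / 100) : ℝ) := by positivity
  refine le_of_pow_le_pow_left₀ (n := 50) (by norm_num) (by norm_num) ?_
  rw [← Real.rpow_natCast, ← Real.rpow_mul (by norm_num)]
  have h3 : (-(398 / 100) : ℝ) * ((50 : ℕ) : ℝ) = -((199 : ℕ) : ℝ) := by push_cast; norm_num
  rw [h3, Real.rpow_neg (by norm_num), Real.rpow_natCast]
  norm_num

theorem base_le : (627 / 500 : ℝ) ≤ (5 / 2 : ℝ) ^ (47 / 190 : ℝ) := by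
  refine le_of_pow_le_pow_left₀ (n := 190) (by norm_num) (by positivity) ?_
  rw [← Real.rpow_natCast ((5 / 2 : ℝ) ^ (47 / 190 : ℝ)), ← Real.rpow_mul (by norm_num)]
  have h3 : (47 / 190 : ℝ) * ((190 : ℕ) : ℝ) = ((47 : ℕ) : ℝ) := by push_cast; norm_num
  rw [h3, Real.rpow_natCast]
  norm_num

theorem row_num {b m s : ℝ} (hb : 199 / 100 ≤ b) (hm : 0 ≤ m) (hs : 311 / 5000 * m ≤ s) :
    (1 + 4 * (2 : ℝ) ^ (-(2 * b))) ^ (m / (2 * b)) ≤ (5 / 2 : ℝ) ^ s := by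
  have hb0 : 0 < b := by linarith
  have h1 := two_rpow_le hb
  have h0 : (0 : ℝ) < (2 : ℝ) ^ (-(2 * b)) := by positivity
  have hmb : 0 ≤ m / (2 * b) := by positivity
  have h2 : (1 + 4 * (2 : ℝ) ^ (-(2 * b))) ≤ (5 / 2 : ℝ) ^ (47 / 190 : ℝ) := by
    refine le_trans ?_ base_le
    linarith
  have h3 : (1 + 4 * (2 : ℝ) ^ (-(2 * b))) ^ (m / (2 * b)) ≤ ((5 / 2 : ℝ) ^ (47 / 190 : ℝ)) ^ (m / (2 * b)) :=
    Real.rpow_le_rpow (by linarith) h2 hmb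
  refine h3.trans ?_
  rw [← Real.rpow_mul (by norm_num)]
  refine Real.rpow_le_rpow_of_exponent_le (by norm_num) ?_
  refine le_trans ?_ hs
  rw [← mul_div_assoc, div_le_iff₀ (by linarith)]
  nlinarith

/-- final form: from `c · 5^s ≤ 2^m (1 + 4 · 2^(-2b))^(m/2b) 2^(d m)` to `c ≤ 2^m 2^(-s + d m)` -/
theorem branch {b m s d c : ℝ} (hb : 199 / 100 ≤ b) (hm : 0 ≤ m) (hs : 311 / 5000 * m ≤ s)
    (h : c * (5 : ℝ) ^ s ≤ 2 ^ m * (1 + 4 * (2 : ℝ) ^ (-(2 * b))) ^ (m / (2 * b)) * 2 ^ (d * m)) :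
    c ≤ 2 ^ m * 2 ^ (-s + d * m) := by
  have h1 := row_num hb hm hs
  have h5 : (0 : ℝ) < (5 : ℝ) ^ s := by positivity
  have h2 : (5 / 2 : ℝ) ^ s * 2 ^ s = 5 ^ s := by
    rw [← Real.mul_rpow (by norm_num) (by norm_num)]; norm_num
  have h3 : c * (5 : ℝ) ^ s ≤ (2 ^ m * 2 ^ (-s + d * m)) * 5 ^ s := by
    refine h.trans ?_
    have h4 : (2 : ℝ) ^ (-s + d * m) * 2 ^ s = 2 ^ (d * m) := by
      rw [← Real.rpow_add (by norm_num)]; ring_nf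
    calc (2 : ℝ) ^ m * (1 + 4 * (2 : ℝ) ^ (-(2 * b))) ^ (m / (2 * b)) * 2 ^ (d * m)
        ≤ 2 ^ m * (5 / 2) ^ s * 2 ^ (d * m) := by gcongr
      _ = 2 ^ m * (5 / 2) ^ s * (2 ^ (-s + d * m) * 2 ^ s) := by rw [h4]
      _ = 2 ^ m * 2 ^ (-s + d * m) * ((5 / 2) ^ s * 2 ^ s) := by ring
      _ = _ := by rw [h2]
  exact le_of_mul_le_mul_right h3 h5

end Vale.Agent.P160.Half.RowNum624
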