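import Vale.Agent.P160.Half.LODig4
import Vale.Agent.P160.Half.HadN

/-!
(R) of note 11242 (helper624), on top of `LODig4.row_tail` (helper159): the one-row threshold.
-/

namespace Vale.Agent.P160.Half.RowR471

open Finset Filter Topology

/-- sum over the orders `u` with weights `z ^ u`. -/
theorem sum_orders {X K M' q z : ℝ} {s M : ℕ} (hz : 0 ≤ z) (hK : 0 ≤ K) (hq : 0 ≤ q)
    (h : ∀ u, X * (s.choose u : ℝ) ≤ (M.choose u : ℝ) * (K * q ^ u)) (hM : (M : ℝ) ≤ M') :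
    X * (1 + z) ^ s ≤ K * (1 + z * q) ^ M' := by
  have h1 : X * (1 + z) ^ s ≤ K * (1 + z * q) ^ M := by
    have e1 : (1 + z) ^ s = ∑ u ∈ range (s + 1), z ^ u * (s.choose u : ℝ) := by
      rw [add_comm, add_pow]
      refine sum_congr rfl fun u _ => by simp
    have e2 : (1 + z * q) ^ M = ∑ u ∈ range (M + 1), (z * q) ^ u * (M.choose u : ℝ) := by
      rw [add_comm, add_pow]
      refine sum_congr rfl fun u _ => by simp
    have e3 : ∑ u ∈ range (s + 1), z ^ u * (s.choose u : ℝ)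
        = ∑ u ∈ range (s + M + 1), z ^ u * (s.choose u : ℝ) := by
      refine sum_subset (fun x hx => ?_) fun u _ hu => ?_
      · simp only [mem_range] at hx ⊢; omega
      · simp only [mem_range, not_lt] at hu
        rw [Nat.choose_eq_zero_of_lt (by omega)]; simp
    have e4 : ∑ u ∈ range (M + 1), (z * q) ^ u * (M.choose u : ℝ)
        = ∑ u ∈ range (s + M + 1), (z * q) ^ u * (M.choose u : ℝ) := by
      refine sum_subset (fun x hx => ?_) fun u _ hu => ?_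
      · simp only [mem_range] at hx ⊢; omega
      · simp only [mem_range, not_lt] at hu
        rw [Nat.choose_eq_zero_of_lt (by omega)]; simp
    rw [e1, e2, e3, e4, mul_sum, mul_sum]
    refine sum_le_sum fun u _ => ?_
    have := mul_le_mul_of_nonneg_left (h u) (pow_nonneg hz u)
    calc X * (z ^ u * (s.choose u : ℝ)) = z ^ u * (X * (s.choose u : ℝ)) := by ring
      _ ≤ z ^ u * ((M.choose u : ℝ) * (K * q ^ u)) := this
      _ = K * ((z * q) ^ u * (M.choose u : ℝ)) := by rw [mul_pow]; ring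
  refine h1.trans (mul_le_mul_of_nonneg_left ?_ hK)
  rw [← Real.rpow_natCast]
  exact Real.rpow_le_rpow_of_exponent_le (by nlinarith [mul_nonneg hz hq]) hM

/-- the weighted form of `row_tail`. -/
theorem row_exp {m j : ℕ} (hm : 1 ≤ m) (hj1 : 1 ≤ j)
    (A : Matrix (Fin m) (Fin m) ℤ) (hdet : A.det ≠ 0)
    (hrow : ∀ i, ∑ c, (A i c : ℝ) ^ 2 ≤ m)
    (S : Finset ℕ) (hS : ∀ p ∈ S, p.Prime) (B : ℝ) (hB : 0 < B) (hSB : ∀ p ∈ S, B ≤ (p : ℝ))
    (w : ∀ p : ℕ, Fin m → ZMod p) (hw : ∀ p ∈ S, w p ≠ 0)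
    (hA : ∀ p ∈ S, ∀ i, ∑ c, (A i c : ZMod p) * w p c = 0)
    (a : ∀ p : ℕ, ZMod p) (T : Finset (Fin m → ℤ))
    (hT01 : ∀ x ∈ T, ∀ c, x c = 0 ∨ x c = 1) (s : ℕ)
    (hT : ∀ x ∈ T, s ≤ (S.filter fun p => ∑ c, (x c : ZMod p) * w p c = a p).card)
    (hj : (2 : ℝ) ^ j ≤ 2 * Real.sqrt m) (z M' : ℝ) (hz : 0 ≤ z) (hM : (S.card : ℝ) ≤ M') :
    (T.card : ℝ) * (1 + z) ^ s ≤
      (Real.exp (5 / 2) * (1 + 2 * Real.sqrt m)) ^ ((m : ℝ) / j) *
        (1 + z * B ^ (-(1 / (j : ℝ)))) ^ M' := by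
  have hj0 : (0 : ℝ) < j := by exact_mod_cast hj1
  set K0 : ℝ := Real.exp (5 / 2) * (1 + 2 * Real.sqrt m) with hK0
  have hK0p : 0 < K0 := by positivity
  refine sum_orders (s := s) (M := S.card) hz (by positivity) (by positivity)
    (fun u => ?_) hM
  have h1 := LODig.row_tail hm hj1 A hdet hrow S hS B hB hSB w hw hA a T hT01 s u hT hj
  refine h1.trans (le_of_eq ?_)
  congr 1
  rw [← hK0, Real.div_rpow (by positivity) (by positivity), ← Real.rpow_natCast K0 m,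
    ← Real.rpow_mul hK0p.le, ← Real.rpow_natCast B u, ← Real.rpow_mul hB.le,
    ← Real.rpow_natCast (B ^ _) u, ← Real.rpow_mul hB.le, div_eq_mul_inv,
    ← Real.rpow_neg hB.le]
  congr 2
  · ring
  · ring

/-- Hadamard: the number of primes `>= m ^ b` with a nonzero kernel vector. -/
theorem card_le {m : ℕ} (hm : 2 ≤ m) {b : ℝ} (hb : 0 < b)
    (A : Matrix (Fin m) (Fin m) ℤ) (hdet : A.det ≠ 0) (h1 : ∀ i c, |A i c| ≤ 1)
    (S : Finset ℕ) (hS : ∀ p ∈ S, p.Prime) (hSB : ∀ p ∈ S, (m : ℝ) ^ b ≤ (p : ℝ))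
    (w : ∀ p : ℕ, Fin m → ZMod p) (hw : ∀ p ∈ S, w p ≠ 0)
    (hA : ∀ p ∈ S, ∀ i, ∑ c, (A i c : ZMod p) * w p c = 0) :
    (S.card : ℝ) ≤ m / (2 * b) := by
  have hdvd : ∀ p ∈ S, (p : ℤ) ∣ A.det := by
    intro p hp
    have : Fact p.Prime := ⟨hS p hp⟩
    have h0 : (A.map (Int.cast : ℤ → ZMod p)).det = 0 := by
      rw [← Matrix.exists_mulVec_eq_zero_iff]
      refine ⟨w p, hw p hp, ?_⟩
      ext i
      simpa [Matrix.mulVec, dotProduct] using hA p hp i
    rw [← ZMod.intCast_zmod_eq_zero_iff_dvd]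
    · have h3 := RingHom.map_det (Int.castRingHom (ZMod p)) A
      have h4 : (Int.castRingHom (ZMod p)).mapMatrix A = A.map (Int.cast : ℤ → ZMod p) := rfl
      rw [h4, h0] at h3
      simpa using h3
  have hprod : ((∏ p ∈ S, (p : ℤ))) ∣ A.det := by
    refine Finset.prod_dvd_of_coprime ?_ hdvd
    intro p hp q hq hpq
    exact Nat.isCoprime_iff_coprime.2 ((Nat.coprime_primes (hS p hp) (hS q hq)).2 hpq)
  have hle : ((∏ p ∈ S, (p : ℤ))) ^ 2 ≤ (m : ℤ) ^ m := by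
    have h2 := HadN.det_sq_le A h1
    rw [Fintype.card_fin] at h2
    have h3 : (∏ p ∈ S, (p : ℤ)) ≤ |A.det| :=
      Int.le_of_dvd (abs_pos.2 hdet) ((dvd_abs _ _).2 hprod)
    have h4 : (0 : ℤ) ≤ ∏ p ∈ S, (p : ℤ) := prod_nonneg fun p _ => by positivity
    calc ((∏ p ∈ S, (p : ℤ))) ^ 2 ≤ |A.det| ^ 2 := pow_le_pow_left₀ h4 h3 2
      _ = A.det ^ 2 := sq_abs _
      _ ≤ _ := h2
  have hm1 : (1 : ℝ) < m := by exact_mod_cast (by omega : 1 < m)
  have hm0 : (0 : ℝ) < m := by linarith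
  have h5 : ((m : ℝ) ^ b) ^ S.card ≤ ∏ p ∈ S, (p : ℝ) := by
    rw [← Finset.prod_const]
    exact Finset.prod_le_prod (fun p _ => by positivity) fun p hp => hSB p hp
  have h6 : (∏ p ∈ S, (p : ℝ)) ^ 2 ≤ (m : ℝ) ^ m := by
    have h60 : (((∏ p ∈ S, (p : ℤ)) ^ 2 : ℤ) : ℝ) ≤ (((m : ℤ) ^ m : ℤ) : ℝ) := Int.cast_le.2 hle
    push_cast at h60
    exact h60
  have h7 : (m : ℝ) ^ (2 * b * S.card) ≤ (m : ℝ) ^ (m : ℝ) := by
    calc (m : ℝ) ^ (2 * b * S.card) = (((m : ℝ) ^ b) ^ S.card) ^ 2 := by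
          rw [← Real.rpow_natCast _ S.card, ← Real.rpow_mul hm0.le, ← Real.rpow_natCast _ 2,
            ← Real.rpow_mul hm0.le]
          congr 1; push_cast; ring
      _ ≤ (∏ p ∈ S, (p : ℝ)) ^ 2 := pow_le_pow_left₀ (by positivity) h5 2
      _ ≤ (m : ℝ) ^ m := h6
      _ = (m : ℝ) ^ (m : ℝ) := (Real.rpow_natCast _ _).symm
  have h8 := (Real.rpow_le_rpow_left_iff hm1).1 h7
  rw [le_div_iff₀ (by positivity)]
  linarith

/-- the order used for size `m`. -/
noncomputable def jj (m : ℕ) : ℕ := ⌊Real.logb 2 (2 * Real.sqrt m)⌋₊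

theorem logb_eq {m : ℕ} (hm : 1 ≤ m) :
    Real.logb 2 (2 * Real.sqrt m) = 1 + Real.log m / (2 * Real.log 2) := by
  have hm0 : (0 : ℝ) < m := by exact_mod_cast hm
  have h2 : Real.log 2 ≠ 0 := (Real.log_pos one_lt_two).ne'
  rw [Real.logb, Real.log_mul (by norm_num) (Real.sqrt_pos.2 hm0).ne', Real.log_sqrt hm0.le]
  field_simp

theorem jj_le {m : ℕ} (hm : 1 ≤ m) : (jj m : ℝ) ≤ 1 + Real.log m / (2 * Real.log 2) := by
  have hlog : 0 ≤ Real.log m := Real.log_nonneg (by exact_mod_cast hm)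
  have h2 : 0 < Real.log 2 := Real.log_pos one_lt_two
  have := Nat.floor_le (a := Real.logb 2 (2 * Real.sqrt m)) (by
    rw [logb_eq hm]; positivity)
  have e : (jj m : ℝ) = ((⌊Real.logb 2 (2 * Real.sqrt m)⌋₊ : ℕ) : ℝ) := rfl
  rw [e]
  calc ((⌊Real.logb 2 (2 * Real.sqrt m)⌋₊ : ℕ) : ℝ) ≤ Real.logb 2 (2 * Real.sqrt m) := this
    _ = _ := logb_eq hm

theorem lt_jj {m : ℕ} (hm : 1 ≤ m) : Real.log m / (2 * Real.log 2) < jj m := by
  have := Nat.lt_floor_add_one (Real.logb 2 (2 * Real.sqrt m))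
  rw [logb_eq hm] at this
  unfold jj
  rw [logb_eq hm]
  linarith

theorem two_pow_jj {m : ℕ} (hm : 1 ≤ m) : (2 : ℝ) ^ (jj m) ≤ 2 * Real.sqrt m := by
  have hm0 : (0 : ℝ) < m := by exact_mod_cast hm
  have hlog : 0 ≤ Real.log m := Real.log_nonneg (by exact_mod_cast hm)
  have h2 : 0 < Real.log 2 := Real.log_pos one_lt_two
  have hp : 0 < 2 * Real.sqrt m := by have := Real.sqrt_pos.2 hm0; positivity
  have h := Nat.floor_le (a := Real.logb 2 (2 * Real.sqrt m)) (by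
    rw [logb_eq hm]; positivity)
  have h3 : (2 : ℝ) ^ ((jj m : ℕ) : ℝ) ≤ (2 : ℝ) ^ (Real.logb 2 (2 * Real.sqrt m)) :=
    Real.rpow_le_rpow_of_exponent_le (by norm_num) h
  rwa [Real.rpow_natCast, Real.rpow_logb (by norm_num) (by norm_num) hp] at h3

theorem tendsto_log : Tendsto (fun m : ℕ => Real.log m) atTop atTop :=
  Real.tendsto_log_atTop.comp tendsto_natCast_atTop_atTop

/-- `j(m) / log m → 1 / (2 log 2)`. -/
theorem tendsto_jj : Tendsto (fun m : ℕ => (jj m : ℝ) / Real.log m) atTop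
    (𝓝 (1 / (2 * Real.log 2))) := by
  have h2 : 0 < Real.log 2 := Real.log_pos one_lt_two
  have hu : Tendsto (fun m : ℕ => 1 / (2 * Real.log 2) + 1 / Real.log m) atTop
      (𝓝 (1 / (2 * Real.log 2) + 0)) :=
    tendsto_const_nhds.add (tendsto_const_nhds.div_atTop tendsto_log)
  rw [add_zero] at hu
  refine tendsto_of_tendsto_of_tendsto_of_le_of_le' tendsto_const_nhds hu ?_ ?_
  · filter_upwards [eventually_ge_atTop 2] with m hm
    have hl : 0 < Real.log m := Real.log_pos (by exact_mod_cast (by omega : 1 < m))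
    rw [le_div_iff₀ hl]
    have := (lt_jj (m := m) (by omega)).le
    calc 1 / (2 * Real.log 2) * Real.log m = Real.log m / (2 * Real.log 2) := by ring
      _ ≤ _ := this
  · filter_upwards [eventually_ge_atTop 2] with m hm
    have hl : 0 < Real.log m := Real.log_pos (by exact_mod_cast (by omega : 1 < m))
    rw [div_le_iff₀ hl]
    have := jj_le (m := m) (by omega)
    calc (jj m : ℝ) ≤ 1 + Real.log m / (2 * Real.log 2) := this
      _ = (1 / (2 * Real.log 2) + 1 / Real.log m) * Real.log m := by field_simp; ring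

/-- `log m / j(m) → 2 log 2`. -/
theorem tendsto_jj_inv : Tendsto (fun m : ℕ => Real.log m / (jj m : ℝ)) atTop
    (𝓝 (2 * Real.log 2)) := by
  have h2 : 0 < Real.log 2 := Real.log_pos one_lt_two
  have := tendsto_jj.inv₀ (by positivity)
  simpa using this

/-- `(5/2 + log (1 + 2 sqrt m)) / log m → 1 / 2`. -/
theorem tendsto_num : Tendsto (fun m : ℕ => (5 / 2 + Real.log (1 + 2 * Real.sqrt m)) / Real.log m)
    atTop (𝓝 (1 / 2)) := by
  have hu : Tendsto (fun m : ℕ => 1 / 2 + (5 / 2 + Real.log 3) / Real.log m) atTop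
      (𝓝 (1 / 2 + 0)) :=
    tendsto_const_nhds.add (tendsto_const_nhds.div_atTop tendsto_log)
  rw [add_zero] at hu
  refine tendsto_of_tendsto_of_tendsto_of_le_of_le' tendsto_const_nhds hu ?_ ?_
  · filter_upwards [eventually_ge_atTop 2] with m hm
    have hm0 : (0 : ℝ) < m := by exact_mod_cast (by omega : 0 < m)
    have hl : 0 < Real.log m := Real.log_pos (by exact_mod_cast (by omega : 1 < m))
    have hs : 0 < Real.sqrt m := Real.sqrt_pos.2 hm0
    rw [le_div_iff₀ hl]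
    have h3 : Real.log (Real.sqrt m) ≤ Real.log (1 + 2 * Real.sqrt m) :=
      Real.log_le_log hs (by linarith)
    rw [Real.log_sqrt hm0.le] at h3
    linarith
  · filter_upwards [eventually_ge_atTop 2] with m hm
    have hm0 : (0 : ℝ) < m := by exact_mod_cast (by omega : 0 < m)
    have hm1 : (1 : ℝ) ≤ m := by exact_mod_cast (by omega : 1 ≤ m)
    have hl : 0 < Real.log m := Real.log_pos (by exact_mod_cast (by omega : 1 < m))
    have hs : 1 ≤ Real.sqrt m := Real.one_le_sqrt.2 hm1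
    rw [div_le_iff₀ hl]
    have h3 : Real.log (1 + 2 * Real.sqrt m) ≤ Real.log (3 * Real.sqrt m) :=
      Real.log_le_log (by positivity) (by linarith)
    rw [Real.log_mul (by norm_num) (by positivity), Real.log_sqrt hm0.le] at h3
    have e : (1 / 2 + (5 / 2 + Real.log 3) / Real.log m) * Real.log m
        = Real.log m / 2 + (5 / 2 + Real.log 3) := by field_simp
    rw [e]
    linarith

/-- `K0 ^ (1 / j) → 2`, logarithmic form. -/
theorem tendsto_K : Tendsto (fun m : ℕ => (5 / 2 + Real.log (1 + 2 * Real.sqrt m)) / (jj m : ℝ))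
    atTop (𝓝 (Real.log 2)) := by
  have h := tendsto_num.mul tendsto_jj_inv
  have e : 1 / 2 * (2 * Real.log 2) = Real.log 2 := by ring
  rw [e] at h
  refine h.congr' ?_
  filter_upwards [eventually_ge_atTop 2] with m hm
  have hl : 0 < Real.log m := Real.log_pos (by exact_mod_cast (by omega : 1 < m))
  field_simp

/-- `(m ^ b) ^ (-1/j) → 2 ^ (-2b)`. -/
theorem tendsto_q (b : ℝ) : Tendsto (fun m : ℕ => ((m : ℝ) ^ b) ^ (-(1 / (jj m : ℝ)))) atTop
    (𝓝 ((2 : ℝ) ^ (-(2 * b)))) := by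
  have h := (tendsto_jj_inv.const_mul (-b))
  have h2 := (Real.continuous_exp.tendsto _).comp h
  have e : Real.exp (-b * (2 * Real.log 2)) = (2 : ℝ) ^ (-(2 * b)) := by
    rw [Real.rpow_def_of_pos (by norm_num)]; congr 1; ring
  rw [e] at h2
  refine h2.congr' ?_
  filter_upwards [eventually_ge_atTop 1] with m hm
  have hm0 : (0 : ℝ) < m := by exact_mod_cast hm
  simp only [Function.comp]
  rw [← Real.rpow_mul hm0.le, Real.rpow_def_of_pos hm0]
  congr 1
  ring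

/-- (R): the one-row exponential bound. For `m` large, every nonsingular `m x m` matrix with
entries in `{-1, 0, 1}`, every set `S` of primes `>= m ^ b` with kernel words `w p`, every `s`:
the number of 0/1 vectors orthogonal (or with prescribed values) to at least `s` of the `w p` is
at most `2^m (1 + z)^(-s) (1 + z 2^(-2b))^(m / 2b) 2^(d m)`. -/
theorem row_asym {b z d : ℝ} (hb : 0 < b) (hz : 0 ≤ z) (hd : 0 < d) :
    ∃ m0 : ℕ, ∀ m : ℕ, m0 ≤ m → ∀ (A : Matrix (Fin m) (Fin m) ℤ), A.det ≠ 0 →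
      (∀ i c, |A i c| ≤ 1) → ∀ (S : Finset ℕ), (∀ p ∈ S, p.Prime) →
      (∀ p ∈ S, (m : ℝ) ^ b ≤ (p : ℝ)) → ∀ (w : ∀ p : ℕ, Fin m → ZMod p),
      (∀ p ∈ S, w p ≠ 0) → (∀ p ∈ S, ∀ i, ∑ c, (A i c : ZMod p) * w p c = 0) →
      ∀ (a : ∀ p : ℕ, ZMod p) (T : Finset (Fin m → ℤ)), (∀ x ∈ T, ∀ c, x c = 0 ∨ x c = 1) →
      ∀ (s : ℕ), (∀ x ∈ T, s ≤ (S.filter fun p => ∑ c, (x c : ZMod p) * w p c = a p).card) →
      (T.card : ℝ) * (1 + z) ^ s ≤ (2 : ℝ) ^ m *
        (1 + z * (2 : ℝ) ^ (-(2 * b))) ^ ((m : ℝ) / (2 * b)) * (2 : ℝ) ^ (d * m) := by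
  have hl2 : 0 < Real.log 2 := Real.log_pos one_lt_two
  -- the two limits
  have hK : ∀ᶠ m : ℕ in atTop,
      (5 / 2 + Real.log (1 + 2 * Real.sqrt m)) / (jj m : ℝ) < Real.log 2 + d / 2 * Real.log 2 :=
    (tendsto_K.eventually_lt_const (by
      have : 0 < d / 2 * Real.log 2 := by positivity
      linarith))
  have hq0 : (0 : ℝ) < (2 : ℝ) ^ (-(2 * b)) := by positivity
  have hL : Tendsto (fun m : ℕ => Real.log (1 + z * ((m : ℝ) ^ b) ^ (-(1 / (jj m : ℝ))))) atTop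
      (𝓝 (Real.log (1 + z * (2 : ℝ) ^ (-(2 * b))))) := by
    have h1 : Tendsto (fun m : ℕ => 1 + z * ((m : ℝ) ^ b) ^ (-(1 / (jj m : ℝ)))) atTop
        (𝓝 (1 + z * (2 : ℝ) ^ (-(2 * b)))) := tendsto_const_nhds.add ((tendsto_q b).const_mul z)
    exact ((Real.continuousAt_log (by positivity)).tendsto).comp h1
  have hq : ∀ᶠ m : ℕ in atTop,
      Real.log (1 + z * ((m : ℝ) ^ b) ^ (-(1 / (jj m : ℝ))))
        < Real.log (1 + z * (2 : ℝ) ^ (-(2 * b))) + b * d * Real.log 2 :=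
    hL.eventually_lt_const (by
      have : 0 < b * d * Real.log 2 := by positivity
      linarith)
  obtain ⟨m1, hm1⟩ := eventually_atTop.1 (hK.and hq)
  refine ⟨max m1 4, fun m hm A hdet h1 S hS hSB w hw hA a T hT01 s hT => ?_⟩
  obtain ⟨hKm, hqm⟩ := hm1 m (le_trans (le_max_left _ _) hm)
  have hm4 : 4 ≤ m := le_trans (le_max_right _ _) hm
  have hm0 : (0 : ℝ) < m := by exact_mod_cast (by omega : 0 < m)
  have hj1 : 1 ≤ jj m := by
    have h := lt_jj (m := m) (by omega)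
    have h4 : Real.log 4 ≤ Real.log m := Real.log_le_log (by norm_num) (by exact_mod_cast hm4)
    have h5 : Real.log 4 = 2 * Real.log 2 := by
      rw [show (4 : ℝ) = 2 ^ 2 by norm_num, Real.log_pow]; norm_num
    have h6 : (1 : ℝ) ≤ Real.log m / (2 * Real.log 2) := by
      rw [le_div_iff₀ (by positivity)]; linarith
    have h7 : (1 : ℝ) < jj m := lt_of_le_of_lt h6 h
    exact_mod_cast h7.le
  have hj0 : (0 : ℝ) < jj m := by exact_mod_cast hj1
  have hrow : ∀ i, ∑ c, (A i c : ℝ) ^ 2 ≤ m := by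
    intro i
    have : ∀ c ∈ (univ : Finset (Fin m)), (A i c : ℝ) ^ 2 ≤ 1 := by
      intro c _
      have h8 := h1 i c
      have h9 : |(A i c : ℝ)| ≤ 1 := by exact_mod_cast h8
      rw [← sq_abs]
      nlinarith [abs_nonneg (A i c : ℝ)]
    have h10 := Finset.sum_le_sum this
    simpa using h10
  have hcard := card_le (m := m) (by omega) hb A hdet h1 S hS hSB w hw hA
  have key := row_exp (m := m) (j := jj m) (by omega) hj1 A hdet hrow S hS ((m : ℝ) ^ b)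
    (by positivity) hSB w hw hA a T hT01 s hT (two_pow_jj (by omega)) z (m / (2 * b)) hz hcard
  refine key.trans ?_
  have hs0 : 0 < Real.sqrt m := Real.sqrt_pos.2 hm0
  have hB0 : (0 : ℝ) < ((m : ℝ) ^ b) ^ (-(1 / (jj m : ℝ))) := by positivity
  have p1 : (Real.exp (5 / 2) * (1 + 2 * Real.sqrt m)) ^ ((m : ℝ) / (jj m : ℝ))
      ≤ (2 : ℝ) ^ m * (2 : ℝ) ^ (d / 2 * m) := by
    rw [← Real.rpow_natCast 2 m, ← Real.rpow_add (by norm_num),
      Real.rpow_def_of_pos (by positivity), Real.rpow_def_of_pos (by norm_num),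
      Real.exp_le_exp, Real.log_mul (by positivity) (by positivity), Real.log_exp]
    calc (5 / 2 + Real.log (1 + 2 * Real.sqrt m)) * ((m : ℝ) / jj m)
        = ((5 / 2 + Real.log (1 + 2 * Real.sqrt m)) / jj m) * m := by ring
      _ ≤ (Real.log 2 + d / 2 * Real.log 2) * m := mul_le_mul_of_nonneg_right hKm.le hm0.le
      _ = Real.log 2 * (m + d / 2 * m) := by ring
  have p2 : (1 + z * ((m : ℝ) ^ b) ^ (-(1 / (jj m : ℝ)))) ^ ((m : ℝ) / (2 * b))
      ≤ (1 + z * (2 : ℝ) ^ (-(2 * b))) ^ ((m : ℝ) / (2 * b)) * (2 : ℝ) ^ (d / 2 * m) := by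
    rw [Real.rpow_def_of_pos (x := 1 + z * ((m : ℝ) ^ b) ^ (-(1 / (jj m : ℝ)))) (by positivity),
      Real.rpow_def_of_pos (x := 1 + z * (2 : ℝ) ^ (-(2 * b))) (by positivity),
      Real.rpow_def_of_pos (x := 2) (y := d / 2 * m) (by norm_num), ← Real.exp_add,
      Real.exp_le_exp]
    have h11 : 0 ≤ (m : ℝ) / (2 * b) := by positivity
    calc Real.log (1 + z * ((m : ℝ) ^ b) ^ (-(1 / (jj m : ℝ)))) * ((m : ℝ) / (2 * b))
        ≤ (Real.log (1 + z * (2 : ℝ) ^ (-(2 * b))) + b * d * Real.log 2) * ((m : ℝ) / (2 * b)) :=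
          mul_le_mul_of_nonneg_right hqm.le h11
      _ = Real.log (1 + z * (2 : ℝ) ^ (-(2 * b))) * ((m : ℝ) / (2 * b))
          + Real.log 2 * (d / 2 * m) := by field_simp
  calc (Real.exp (5 / 2) * (1 + 2 * Real.sqrt m)) ^ ((m : ℝ) / (jj m : ℝ)) *
        (1 + z * ((m : ℝ) ^ b) ^ (-(1 / (jj m : ℝ)))) ^ ((m : ℝ) / (2 * b))
      ≤ ((2 : ℝ) ^ m * (2 : ℝ) ^ (d / 2 * m)) *
        ((1 + z * (2 : ℝ) ^ (-(2 * b))) ^ ((m : ℝ) / (2 * b)) * (2 : ℝ) ^ (d / 2 * m)) :=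
        mul_le_mul p1 p2 (by positivity) (by positivity)
    _ = (2 : ℝ) ^ m * (1 + z * (2 : ℝ) ^ (-(2 * b))) ^ ((m : ℝ) / (2 * b)) *
        ((2 : ℝ) ^ (d / 2 * m) * (2 : ℝ) ^ (d / 2 * m)) := by ring
    _ = _ := by
        rw [← Real.rpow_add (by norm_num)]
        congr 2; ring

end Vale.Agent.P160.Half.RowR471
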