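import Mathlib

/-! P160, event S(b) of helper502's note 11331: counting with deletion of one line (helper139).
Convention of SparseDel: `M : Fin a → Fin k → Om`, the vector `psi : Fin a → ℝ` is on the rows. -/

namespace Vale.Agent.P160.Half.SbDel139

open Finset

variable {Om : Type*} [Fintype Om]

/-- S(b): some `psi` with entries in `[-1/2,1/2]`, support `≤ E`, an entry `> 1/(4E)`, is within
`1/(64E)` of the integers on every column. -/
def Sb (e : Om → ℤ) (E : ℕ) {a k : ℕ} (M : Fin a → Fin k → Om) : Prop :=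
  ∃ psi : Fin a → ℝ, (∀ c, |psi c| ≤ 1 / 2) ∧ {c | psi c ≠ 0}.ncard ≤ E ∧
    (∃ c, 1 / (4 * (E : ℝ)) < |psi c|) ∧
      ∀ j, ∃ z : ℤ, |∑ c, (e (M c j) : ℝ) * psi c - (z : ℝ)| ≤ 1 / (64 * (E : ℝ))

/-- the grid event -/
def Gr (e : Om → ℤ) (E : ℕ) {a k : ℕ} (g : Fin a → ℤ) (M : Fin a → Fin k → Om) : Prop :=
  ∀ j, ∃ z : ℤ, |∑ c, (e (M c j) : ℝ) * ((g c : ℝ) / (128 * (E : ℝ) ^ 2)) - (z : ℝ)| ≤
    5 / (256 * (E : ℝ))

/-- one entry: the allowed values avoid `0` or are all `0` -/
theorem allowed_card (e : Om → ℤ) (he : ∀ w, |e w| ≤ 1) {al : ℝ}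
    (hz : ({w | e w = 0}.ncard : ℝ) ≤ al * Fintype.card Om)
    (hn : ({w | e w ≠ 0}.ncard : ℝ) ≤ al * Fintype.card Om)
    (E : ℕ) (hE : 1 ≤ E) (q s : ℝ) (hq : 1 / (8 * (E : ℝ)) < |q|) (hq2 : |q| ≤ 1 / 2) :
    ({w | ∃ z : ℤ, |(e w : ℝ) * q + s - z| ≤ 5 / (256 * (E : ℝ))}.ncard : ℝ) ≤
      al * Fintype.card Om := by
  classical
  have hEr : (1 : ℝ) ≤ E := by exact_mod_cast hE
  have hE0 : (0 : ℝ) < E := by linarith
  set A : Set Om := {w | ∃ z : ℤ, |(e w : ℝ) * q + s - z| ≤ 5 / (256 * (E : ℝ))} with hA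
  by_cases h0 : ∃ w ∈ A, e w = 0
  · -- then all allowed values are 0
    obtain ⟨w0, ⟨z0, hz0⟩, hw0⟩ := h0
    have hsub : A ⊆ {w | e w = 0} := by
      rintro w ⟨z, hzw⟩
      by_contra hne
      have hne' : e w ≠ 0 := hne
      have h1 : |(e w : ℝ)| = 1 := by
        have h2 : |e w| = 1 := by
          have h3 := he w
          have h4 : 0 < |e w| := abs_pos.2 hne'
          omega
        exact_mod_cast h2
      rw [hw0] at hz0
      have h5 : |(e w : ℝ) * q - ((z - z0 : ℤ) : ℝ)| ≤ 10 / (256 * (E : ℝ)) := by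
        have h6 : (e w : ℝ) * q - ((z - z0 : ℤ) : ℝ) =
            ((e w : ℝ) * q + s - z) - (((0 : ℤ) : ℝ) * q + s - z0) := by
          push_cast; ring
        rw [h6]
        refine (abs_sub _ _).trans ?_
        have h7 : (10 : ℝ) / (256 * (E : ℝ)) = 5 / (256 * (E : ℝ)) + 5 / (256 * (E : ℝ)) := by ring
        rw [h7]
        exact add_le_add hzw hz0
      have h8 : |(e w : ℝ) * q| = |q| := by rw [abs_mul, h1, one_mul]
      have h9 : (10 : ℝ) / (256 * (E : ℝ)) < 1 / (8 * (E : ℝ)) := by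
        rw [div_lt_div_iff₀ (by positivity) (by positivity)]
        nlinarith
      have h10 : (10 : ℝ) / (256 * (E : ℝ)) ≤ 10 / 256 := by
        apply div_le_div_of_nonneg_left (by norm_num) (by norm_num)
        nlinarith
      by_cases hzz : z - z0 = 0
      · rw [hzz] at h5
        simp only [Int.cast_zero, sub_zero] at h5
        rw [h8] at h5
        linarith
      · have h11 : (1 : ℝ) ≤ |((z - z0 : ℤ) : ℝ)| := by
          have : 1 ≤ |z - z0| := Int.one_le_abs hzz
          exact_mod_cast this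
        have h12 : |((z - z0 : ℤ) : ℝ)| ≤ |(e w : ℝ) * q| +
            |(e w : ℝ) * q - ((z - z0 : ℤ) : ℝ)| := by
          have h13 : ((z - z0 : ℤ) : ℝ) = (e w : ℝ) * q - ((e w : ℝ) * q - ((z - z0 : ℤ) : ℝ)) := by
            ring
          calc |((z - z0 : ℤ) : ℝ)| = |(e w : ℝ) * q - ((e w : ℝ) * q - ((z - z0 : ℤ) : ℝ))| := by
                rw [← h13]
            _ ≤ _ := abs_sub _ _
        rw [h8] at h12
        linarith
    refine le_trans ?_ hz
    exact_mod_cast Set.ncard_le_ncard hsub (Set.toFinite _)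
  · push Not at h0
    refine le_trans ?_ hn
    exact_mod_cast Set.ncard_le_ncard (fun w hw => h0 w hw) (Set.toFinite _)

open scoped Classical in
/-- the deleted row given the others -/
theorem fibre_card (e : Om → ℤ) (he : ∀ w, |e w| ≤ 1) {al : ℝ}
    (hz : ({w | e w = 0}.ncard : ℝ) ≤ al * Fintype.card Om)
    (hn : ({w | e w ≠ 0}.ncard : ℝ) ≤ al * Fintype.card Om)
    (E : ℕ) (hE : 1 ≤ E) {a k : ℕ} (g : Fin (a + 1) → ℤ) (c : Fin (a + 1))
    (hg : 1 / (8 * (E : ℝ)) < |(g c : ℝ) / (128 * (E : ℝ) ^ 2)|)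
    (hg2 : |(g c : ℝ) / (128 * (E : ℝ) ^ 2)| ≤ 1 / 2) (M : Fin a → Fin k → Om) :
    ((univ.filter fun r : Fin k → Om =>
      Gr e E g (Fin.insertNth c r M : Fin (a + 1) → Fin k → Om)).card : ℝ) ≤
      (al * Fintype.card Om) ^ k := by
  have hset : (univ.filter fun r : Fin k → Om =>
      Gr e E g (Fin.insertNth c r M : Fin (a + 1) → Fin k → Om)) =
      Fintype.piFinset fun j : Fin k => univ.filter fun w : Om =>
        ∃ z : ℤ, |(e w : ℝ) * ((g c : ℝ) / (128 * (E : ℝ) ^ 2)) +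
          (∑ i : Fin a, (e (M i j) : ℝ) * ((g (c.succAbove i) : ℝ) / (128 * (E : ℝ) ^ 2))) - z| ≤
            5 / (256 * (E : ℝ)) := by
    ext r
    rw [mem_filter]
    simp only [mem_filter, mem_univ, true_and, Fintype.mem_piFinset]
    unfold Gr
    refine forall_congr' fun j => exists_congr fun z => ?_
    rw [Fin.sum_univ_succAbove _ c]
    simp only [Fin.insertNth_apply_same, Fin.insertNth_apply_succAbove]
  rw [hset, Fintype.card_piFinset]
  push_cast
  refine (Finset.prod_le_prod (fun j _ => Nat.cast_nonneg _)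
    (g := fun _ => al * (Fintype.card Om : ℝ)) fun j _ => ?_).trans_eq (by simp)
  have h := allowed_card e he hz hn E hE ((g c : ℝ) / (128 * (E : ℝ) ^ 2))
    (∑ i : Fin a, (e (M i j) : ℝ) * ((g (c.succAbove i) : ℝ) / (128 * (E : ℝ) ^ 2))) hg hg2
  refine le_trans (le_of_eq ?_) h
  norm_cast
  rw [← Set.ncard_coe_finset]
  congr 1
  ext w
  simp

/-- grid vectors of small support -/
noncomputable def GG (n E : ℕ) : Finset (Fin n → ℤ) :=
  (Fintype.piFinset fun _ : Fin n => Finset.Icc (-(64 * (E : ℤ) ^ 2)) (64 * (E : ℤ) ^ 2)).filter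
    fun g => (univ.filter fun c => g c ≠ 0).card ≤ E

theorem card_GG (n E : ℕ) : ((GG n E).card : ℝ) ≤
    (∑ j ∈ range (E + 1), (n.choose j : ℝ)) * (128 * (E : ℝ) ^ 2 + 1) ^ E := by
  classical
  have hsub : GG n E ⊆ ((range (E + 1)).biUnion fun j => powersetCard j (univ : Finset (Fin n))).biUnion
      fun T => Fintype.piFinset fun c : Fin n =>
        if c ∈ T then Finset.Icc (-(64 * (E : ℤ) ^ 2)) (64 * (E : ℤ) ^ 2) else {0} := by
    intro g hg
    simp only [GG, mem_filter, Fintype.mem_piFinset] at hg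
    simp only [mem_biUnion, mem_range, mem_powersetCard, subset_univ, true_and,
      Fintype.mem_piFinset]
    refine ⟨univ.filter fun c => g c ≠ 0, ⟨_, by omega, rfl⟩, fun c => ?_⟩
    by_cases hc : g c = 0
    · simp [hc]
    · simp only [mem_filter, mem_univ, true_and, hc, not_false_eq_true, if_true, ne_eq]
      exact hg.1 c
  have hT : ∀ T ∈ ((range (E + 1)).biUnion fun j => powersetCard j (univ : Finset (Fin n))),
      ((Fintype.piFinset fun c : Fin n =>
        if c ∈ T then Finset.Icc (-(64 * (E : ℤ) ^ 2)) (64 * (E : ℤ) ^ 2) else {0}).card : ℝ) ≤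
        (128 * (E : ℝ) ^ 2 + 1) ^ E := by
    intro T hT
    simp only [mem_biUnion, mem_range, mem_powersetCard, subset_univ, true_and] at hT
    obtain ⟨j, hj, hTj⟩ := hT
    rw [Fintype.card_piFinset]
    have h1 : ∀ c : Fin n, (if c ∈ T then Finset.Icc (-(64 * (E : ℤ) ^ 2)) (64 * (E : ℤ) ^ 2)
        else {0}).card = if c ∈ T then 128 * E ^ 2 + 1 else 1 := by
      intro c
      split_ifs
      · rw [Int.card_Icc]
        have : (64 * (E : ℤ) ^ 2 + 1 - -(64 * (E : ℤ) ^ 2)) = ((128 * E ^ 2 + 1 : ℕ) : ℤ) := by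
          push_cast; ring
        rw [this, Int.toNat_natCast]
      · simp
    simp only [h1]
    rw [Finset.prod_ite]
    simp only [Finset.prod_const]
    have h2 : (univ.filter fun c => c ∈ T) = T := by ext c; simp
    rw [h2]
    push_cast
    simp only [one_pow, mul_one]
    apply pow_le_pow_right₀
    · have : (0 : ℝ) ≤ (E : ℝ) ^ 2 := by positivity
      linarith
    · omega
  have hfirst := (Finset.card_le_card hsub).trans Finset.card_biUnion_le
  calc ((GG n E).card : ℝ) ≤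
      ((∑ T ∈ ((range (E + 1)).biUnion fun j => powersetCard j (univ : Finset (Fin n))),
        (Fintype.piFinset fun c : Fin n =>
        if c ∈ T then Finset.Icc (-(64 * (E : ℤ) ^ 2)) (64 * (E : ℤ) ^ 2) else {0}).card : ℕ) : ℝ) :=
        Nat.cast_le.2 hfirst
    _ = ∑ T ∈ ((range (E + 1)).biUnion fun j => powersetCard j (univ : Finset (Fin n))),
        ((Fintype.piFinset fun c : Fin n =>
        if c ∈ T then Finset.Icc (-(64 * (E : ℤ) ^ 2)) (64 * (E : ℤ) ^ 2) else {0}).card : ℝ) := by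
        rw [Nat.cast_sum]
    _ ≤ ∑ _T ∈ ((range (E + 1)).biUnion fun j => powersetCard j (univ : Finset (Fin n))),
        (128 * (E : ℝ) ^ 2 + 1) ^ E := Finset.sum_le_sum hT
    _ = (((range (E + 1)).biUnion fun j => powersetCard j (univ : Finset (Fin n))).card : ℝ) *
        (128 * (E : ℝ) ^ 2 + 1) ^ E := by rw [sum_const, nsmul_eq_mul]
    _ ≤ _ := by
        refine mul_le_mul_of_nonneg_right ?_ (by positivity)
        have h3 : (((range (E + 1)).biUnion fun j => powersetCard j (univ : Finset (Fin n))).card) ≤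
            ∑ j ∈ range (E + 1), n.choose j := by
          refine Finset.card_biUnion_le.trans (Finset.sum_le_sum fun j _ => ?_)
          rw [card_powersetCard]
          simp
        exact_mod_cast h3

omit [Fintype Om] in
/-- rounding: S(b) implies a grid event -/
theorem exists_grid (e : Om → ℤ) (he : ∀ w, |e w| ≤ 1) (E : ℕ) (hE : 1 ≤ E) {n k : ℕ}
    (M : Fin n → Fin k → Om) (h : Sb e E M) :
    ∃ g ∈ GG n E, ∃ c : Fin n, (1 / (8 * (E : ℝ)) < |(g c : ℝ) / (128 * (E : ℝ) ^ 2)| ∧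
      |(g c : ℝ) / (128 * (E : ℝ) ^ 2)| ≤ 1 / 2) ∧ Gr e E g M := by
  classical
  have hEr : (1 : ℝ) ≤ E := by exact_mod_cast hE
  have hE0 : (0 : ℝ) < E := by linarith
  obtain ⟨psi, h1, h2, ⟨c, hc⟩, h3⟩ := h
  set D : ℝ := 128 * (E : ℝ) ^ 2 with hD
  have hD0 : 0 < D := by positivity
  set g : Fin n → ℤ := fun c => round (D * psi c) with hgdef
  have hr : ∀ c, |psi c - (g c : ℝ) / D| ≤ 1 / (2 * D) := by
    intro c
    have h4 := abs_sub_round (D * psi c)
    have h5 : psi c - (g c : ℝ) / D = (D * psi c - (g c : ℝ)) / D := by field_simp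
    rw [h5, abs_div, abs_of_pos hD0]
    rw [div_le_div_iff₀ hD0 (by positivity)]
    have h6 : |D * psi c - (g c : ℝ)| ≤ 1 / 2 := h4
    nlinarith
  have hbd : ∀ c, |(g c : ℝ)| ≤ 64 * (E : ℝ) ^ 2 := by
    intro c
    have h4 : |D * psi c| ≤ 64 * (E : ℝ) ^ 2 := by
      rw [abs_mul, abs_of_pos hD0]
      have := h1 c
      rw [hD]
      nlinarith [sq_nonneg (E : ℝ)]
    have h5 : g c ≤ 64 * (E : ℤ) ^ 2 := by
      have h6 : D * psi c ≤ ((64 * (E : ℤ) ^ 2 : ℤ) : ℝ) := by
        push_cast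
        exact (le_abs_self _).trans h4
      have h7 : (g c : ℝ) ≤ D * psi c + 1 / 2 := by
        have := abs_le.1 (abs_sub_round (D * psi c))
        have h8 : D * psi c - (g c : ℝ) ≥ -(1 / 2) := this.1
        linarith
      have h8 : (g c : ℝ) < ((64 * (E : ℤ) ^ 2 : ℤ) : ℝ) + 1 := by linarith
      have h9 : g c < 64 * (E : ℤ) ^ 2 + 1 := by exact_mod_cast h8
      omega
    have h6 : -(64 * (E : ℤ) ^ 2) ≤ g c := by
      have h6 : -(((64 * (E : ℤ) ^ 2 : ℤ)) : ℝ) ≤ D * psi c := by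
        push_cast
        have := neg_abs_le (D * psi c)
        linarith
      have h7 : D * psi c - 1 / 2 ≤ (g c : ℝ) := by
        have := abs_le.1 (abs_sub_round (D * psi c))
        have h8 : D * psi c - (g c : ℝ) ≤ (1 / 2) := this.2
        linarith
      have h8 : -(((64 * (E : ℤ) ^ 2 : ℤ)) : ℝ) - 1 < (g c : ℝ) := by linarith
      have h9 : -(64 * (E : ℤ) ^ 2) - 1 < g c := by exact_mod_cast h8
      omega
    rw [abs_le]
    constructor
    · exact_mod_cast h6
    · exact_mod_cast h5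
  have hsuppg : ∀ c, g c ≠ 0 → psi c ≠ 0 := by
    intro c hgc hpc
    apply hgc
    simp [hgdef, hpc]
  have hcardpsi : (univ.filter fun c => psi c ≠ 0).card ≤ E := by
    have h4 : {c | psi c ≠ 0} = ((univ.filter fun c => psi c ≠ 0 : Finset (Fin n)) : Set (Fin n)) := by
      ext c; simp
    rw [h4, Set.ncard_coe_finset] at h2
    exact h2
  refine ⟨g, ?_, c, ⟨?_, ?_⟩, ?_⟩
  · simp only [GG, mem_filter, Fintype.mem_piFinset, Finset.mem_Icc]
    refine ⟨fun c => ?_, ?_⟩
    · have := abs_le.1 (hbd c)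
      constructor
      · have h5 := this.1
        exact_mod_cast h5
      · have h5 := this.2
        exact_mod_cast h5
    · refine (Finset.card_le_card ?_).trans hcardpsi
      intro c hc
      simp only [mem_filter, mem_univ, true_and] at hc ⊢
      exact hsuppg c hc
  · have h4 := hr c
    have h5 : |psi c| ≤ |(g c : ℝ) / D| + |psi c - (g c : ℝ) / D| := by
      calc |psi c| = |(g c : ℝ) / D + (psi c - (g c : ℝ) / D)| := by ring_nf
        _ ≤ _ := abs_add_le _ _
    have h6 : 1 / (2 * D) ≤ 1 / (8 * (E : ℝ)) := by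
      apply one_div_le_one_div_of_le (by positivity)
      rw [hD]
      nlinarith
    have h7 : 1 / (4 * (E : ℝ)) = 1 / (8 * (E : ℝ)) + 1 / (8 * (E : ℝ)) := by
      field_simp; norm_num
    linarith
  · rw [abs_div, abs_of_pos hD0, div_le_iff₀ hD0]
    have := hbd c
    rw [hD]
    linarith
  · intro j
    obtain ⟨z, hz⟩ := h3 j
    refine ⟨z, ?_⟩
    have h4 : ∑ c, (e (M c j) : ℝ) * ((g c : ℝ) / D) - z =
        (∑ c, (e (M c j) : ℝ) * psi c - z) -
          ∑ c, (e (M c j) : ℝ) * (psi c - (g c : ℝ) / D) := by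
      simp only [mul_sub, Finset.sum_sub_distrib]
      ring
    rw [h4]
    refine (abs_sub _ _).trans ?_
    have h5 : |∑ c, (e (M c j) : ℝ) * (psi c - (g c : ℝ) / D)| ≤ (E : ℝ) * (1 / (2 * D)) := by
      have h6 : ∑ c, (e (M c j) : ℝ) * (psi c - (g c : ℝ) / D) =
          ∑ c ∈ (univ.filter fun c => psi c ≠ 0),
            (e (M c j) : ℝ) * (psi c - (g c : ℝ) / D) := by
        rw [Finset.sum_filter]
        refine Finset.sum_congr rfl fun c _ => ?_
        by_cases hc0 : psi c = 0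
        · have : g c = 0 := by simp [hgdef, hc0]
          simp [hc0, this]
        · simp [hc0]
      rw [h6]
      refine (Finset.abs_sum_le_sum_abs _ _).trans ?_
      refine (Finset.sum_le_card_nsmul _ _ (1 / (2 * D)) fun c _ => ?_).trans ?_
      · rw [abs_mul]
        have h7 : |(e (M c j) : ℝ)| ≤ 1 := by exact_mod_cast he (M c j)
        calc |(e (M c j) : ℝ)| * |psi c - (g c : ℝ) / D|
            ≤ 1 * |psi c - (g c : ℝ) / D| := mul_le_mul_of_nonneg_right h7 (abs_nonneg _)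
          _ ≤ 1 / (2 * D) := by rw [one_mul]; exact hr c
      · rw [nsmul_eq_mul]
        refine mul_le_mul_of_nonneg_right ?_ (by positivity)
        exact_mod_cast hcardpsi
    have h8 : (E : ℝ) * (1 / (2 * D)) = 1 / (256 * (E : ℝ)) := by
      rw [hD]; field_simp; norm_num
    have h9 : 5 / (256 * (E : ℝ)) = 1 / (64 * (E : ℝ)) + 1 / (256 * (E : ℝ)) := by
      field_simp; norm_num
    rw [h9]
    exact add_le_add hz (h5.trans_eq h8)

open scoped Classical in
/-- S(b) costs `al ^ k` times the number of grid vectors, times the price `B` of one deleted row. -/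
theorem sb_del (e : Om → ℤ) (he : ∀ w, |e w| ≤ 1) {al : ℝ} (h0 : 0 ≤ al)
    (hz : ({w | e w = 0}.ncard : ℝ) ≤ al * Fintype.card Om)
    (hn : ({w | e w ≠ 0}.ncard : ℝ) ≤ al * Fintype.card Om)
    (E : ℕ) (hE : 1 ≤ E) {a k : ℕ} (W1 : (Fin (a + 1) → Fin k → Om) → ℝ)
    (W0 : (Fin a → Fin k → Om) → ℝ) (hW0 : ∀ M, 0 ≤ W0 M) (B : ℝ) (hB : 0 ≤ B)
    (hW : ∀ (M : Fin (a + 1) → Fin k → Om) (i : Fin (a + 1)),
      W1 M ≤ B * W0 (fun r => M (i.succAbove r))) :
    ∑ M ∈ univ.filter (fun M : Fin (a + 1) → Fin k → Om => Sb e E M), W1 M ≤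
      ((a + 1 : ℝ) * ((∑ j ∈ range (E + 1), ((a + 1).choose j : ℝ)) *
        (128 * (E : ℝ) ^ 2 + 1) ^ E)) * ((al * Fintype.card Om) ^ k * (B * ∑ M, W0 M)) := by
  have hone : ∀ g : Fin (a + 1) → ℤ, ∀ c : Fin (a + 1),
      (1 / (8 * (E : ℝ)) < |(g c : ℝ) / (128 * (E : ℝ) ^ 2)| ∧
        |(g c : ℝ) / (128 * (E : ℝ) ^ 2)| ≤ 1 / 2) →
      ∑ M ∈ univ.filter (fun M : Fin (a + 1) → Fin k → Om => Gr e E g M),
        B * W0 (fun r => M (c.succAbove r)) ≤
        (al * Fintype.card Om) ^ k * (B * ∑ M, W0 M) := by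
    intro g c hgc
    rw [Finset.sum_filter, ← (Fin.insertNthEquiv (fun _ => Fin k → Om) c).sum_comp,
      Fintype.sum_prod_type, Finset.sum_comm]
    have h1 : ∀ M : Fin a → Fin k → Om, (∑ r : Fin k → Om,
        if Gr e E g ((Fin.insertNthEquiv (fun _ => Fin k → Om) c) (r, M)) then
          B * W0 (fun i => (Fin.insertNthEquiv (fun _ => Fin k → Om) c) (r, M) (c.succAbove i))
        else 0) ≤ (al * Fintype.card Om) ^ k * (B * W0 M) := by
      intro M
      have h2 : ∀ r : Fin k → Om,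
          (fun i => (Fin.insertNthEquiv (fun _ => Fin k → Om) c) (r, M) (c.succAbove i)) = M := by
        intro r
        funext i
        simp [Fin.insertNthEquiv]
      simp only [h2]
      rw [← Finset.sum_filter, Finset.sum_const, nsmul_eq_mul]
      refine mul_le_mul_of_nonneg_right ?_ (mul_nonneg hB (hW0 M))
      exact fibre_card e he hz hn E hE g c hgc.1 hgc.2 M
    refine (Finset.sum_le_sum fun M _ => h1 M).trans ?_
    rw [← Finset.mul_sum, ← Finset.mul_sum]
  set Q : ℝ := (al * Fintype.card Om) ^ k * (B * ∑ M, W0 M) with hQ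
  have hQ0 : 0 ≤ Q := by
    apply mul_nonneg (by positivity)
    exact mul_nonneg hB (Finset.sum_nonneg fun M _ => hW0 M)
  have hstep : ∑ M ∈ univ.filter (fun M : Fin (a + 1) → Fin k → Om => Sb e E M), W1 M ≤
      ∑ g ∈ GG (a + 1) E, ∑ c ∈ univ.filter (fun c : Fin (a + 1) =>
        (1 / (8 * (E : ℝ)) < |(g c : ℝ) / (128 * (E : ℝ) ^ 2)| ∧
          |(g c : ℝ) / (128 * (E : ℝ) ^ 2)| ≤ 1 / 2)),
        ∑ M ∈ univ.filter (fun M : Fin (a + 1) → Fin k → Om => Gr e E g M),
          B * W0 (fun r => M (c.succAbove r)) := by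
    have h1 : ∀ g : Fin (a + 1) → ℤ, ∀ c : Fin (a + 1),
        ∑ M ∈ univ.filter (fun M : Fin (a + 1) → Fin k → Om => Gr e E g M),
          B * W0 (fun r => M (c.succAbove r)) =
        ∑ M : Fin (a + 1) → Fin k → Om, if Gr e E g M then
          B * W0 (fun r => M (c.succAbove r)) else 0 := by
      intro g c
      rw [Finset.sum_filter]
    simp only [h1]
    have h2 : (∑ g ∈ GG (a + 1) E, ∑ c ∈ univ.filter (fun c : Fin (a + 1) =>
        (1 / (8 * (E : ℝ)) < |(g c : ℝ) / (128 * (E : ℝ) ^ 2)| ∧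
          |(g c : ℝ) / (128 * (E : ℝ) ^ 2)| ≤ 1 / 2)),
        ∑ M : Fin (a + 1) → Fin k → Om, if Gr e E g M then
          B * W0 (fun r => M (c.succAbove r)) else 0) =
        ∑ M : Fin (a + 1) → Fin k → Om, ∑ g ∈ GG (a + 1) E,
          ∑ c ∈ univ.filter (fun c : Fin (a + 1) =>
        (1 / (8 * (E : ℝ)) < |(g c : ℝ) / (128 * (E : ℝ) ^ 2)| ∧
          |(g c : ℝ) / (128 * (E : ℝ) ^ 2)| ≤ 1 / 2)), if Gr e E g M then
          B * W0 (fun r => M (c.succAbove r)) else 0 := by
      rw [Finset.sum_comm]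
      refine Finset.sum_congr rfl fun g _ => ?_
      rw [Finset.sum_comm]
    have hnn : ∀ (M : Fin (a + 1) → Fin k → Om) (g : Fin (a + 1) → ℤ) (c : Fin (a + 1)),
        (0 : ℝ) ≤ if Gr e E g M then B * W0 (fun r => M (c.succAbove r)) else 0 := by
      intro M g c
      split_ifs
      · exact mul_nonneg hB (hW0 _)
      · exact le_rfl
    rw [h2, Finset.sum_filter]
    refine Finset.sum_le_sum fun M _ => ?_
    split_ifs with hM
    · obtain ⟨g, hgG, c, hgc, hGr⟩ := exists_grid e he E hE M hM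
      calc W1 M ≤ B * W0 (fun r => M (c.succAbove r)) := hW M c
        _ = if Gr e E g M then B * W0 (fun r => M (c.succAbove r)) else 0 := by rw [if_pos hGr]
        _ ≤ ∑ c ∈ univ.filter (fun c : Fin (a + 1) =>
            (1 / (8 * (E : ℝ)) < |(g c : ℝ) / (128 * (E : ℝ) ^ 2)| ∧
              |(g c : ℝ) / (128 * (E : ℝ) ^ 2)| ≤ 1 / 2)), if Gr e E g M then
            B * W0 (fun r => M (c.succAbove r)) else 0 :=
            Finset.single_le_sum (f := fun c => if Gr e E g M then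
              B * W0 (fun r => M (c.succAbove r)) else 0) (fun c _ => hnn M g c)
              (by simp only [mem_filter, mem_univ, true_and]; exact hgc)
        _ ≤ _ := Finset.single_le_sum (f := fun g => ∑ c ∈ univ.filter (fun c : Fin (a + 1) =>
            (1 / (8 * (E : ℝ)) < |(g c : ℝ) / (128 * (E : ℝ) ^ 2)| ∧
              |(g c : ℝ) / (128 * (E : ℝ) ^ 2)| ≤ 1 / 2)), if Gr e E g M then
            B * W0 (fun r => M (c.succAbove r)) else 0)
              (fun g _ => Finset.sum_nonneg fun c _ => hnn M g c) hgG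
    · exact Finset.sum_nonneg fun g _ => Finset.sum_nonneg fun c _ => hnn M g c
  refine hstep.trans ?_
  calc _ ≤ ∑ g ∈ GG (a + 1) E, (a + 1 : ℝ) * Q := by
        refine Finset.sum_le_sum fun g _ => ?_
        refine (Finset.sum_le_sum fun c hc => hone g c ?_).trans ?_
        · simpa only [mem_filter, mem_univ, true_and] using hc
        · rw [Finset.sum_const, nsmul_eq_mul]
          refine mul_le_mul_of_nonneg_right ?_ hQ0
          have : (univ.filter (fun c : Fin (a + 1) =>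
            (1 / (8 * (E : ℝ)) < |(g c : ℝ) / (128 * (E : ℝ) ^ 2)| ∧
              |(g c : ℝ) / (128 * (E : ℝ) ^ 2)| ≤ 1 / 2))).card ≤ a + 1 :=
            (Finset.card_filter_le _ _).trans (by simp)
          exact_mod_cast this
    _ = ((GG (a + 1) E).card : ℝ) * ((a + 1 : ℝ) * Q) := by rw [Finset.sum_const, nsmul_eq_mul]
    _ ≤ ((∑ j ∈ range (E + 1), ((a + 1).choose j : ℝ)) * (128 * (E : ℝ) ^ 2 + 1) ^ E) *
        ((a + 1 : ℝ) * Q) :=
        mul_le_mul_of_nonneg_right (card_GG (a + 1) E) (by positivity)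
    _ = _ := by ring

end Vale.Agent.P160.Half.SbDel139
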