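import Vale.Agent.P160.Half.M8Incl

/-! # P160, rate 1/2, (M): sequential exposure of rows along a chain of index sets (helper118) -/

set_option linter.unusedSectionVars false

namespace Vale.Agent.P160.Half.SeqExp118

open Finset Vale.Agent.P160.Half.M8Incl

open Classical in
/-- overwrite `b` on the range of `φ` -/
noncomputable def upd {E C : Type*} (φ : C → E) (b : E → Bool) (x : C → Bool) : E → Bool :=
  fun e => if h : ∃ c, φ c = e then x h.choose else b e

theorem upd_range {E C : Type*} {φ : C → E} (hφ : Function.Injective φ) (b : E → Bool) (x : C → Bool)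
    (c : C) : upd φ b x (φ c) = x c := by
  unfold upd
  have h : ∃ c', φ c' = φ c := ⟨c, rfl⟩
  rw [dif_pos h]
  exact congrArg x (hφ h.choose_spec)

theorem upd_of_not {E C : Type*} {φ : C → E} (b : E → Bool) (x : C → Bool) {e : E}
    (h : ¬ ∃ c, φ c = e) : upd φ b x e = b e := by
  unfold upd
  rw [dif_neg h]

theorem upd_upd {E C : Type*} {φ : C → E} (hφ : Function.Injective φ) (b : E → Bool) (x : C → Bool) :
    upd φ (upd φ b x) (fun c => b (φ c)) = b := by
  funext e
  by_cases h : ∃ c, φ c = e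
  · obtain ⟨c, rfl⟩ := h
    rw [upd_range hφ]
  · rw [upd_of_not _ _ h, upd_of_not _ _ h]

/-- the resampling identity -/
theorem sum_upd {E C : Type*} [Fintype E] [DecidableEq E] [Fintype C] [DecidableEq C] {φ : C → E}
    (hφ : Function.Injective φ) (f : (E → Bool) → ℝ) :
    ∑ b : E → Bool, ∑ x : C → Bool, f (upd φ b x) = 2 ^ Fintype.card C * ∑ b : E → Bool, f b := by
  classical
  let g : (E → Bool) × (C → Bool) → (E → Bool) × (C → Bool) := fun z => (upd φ z.1 z.2, fun c => z.1 (φ c))
  have hg : Function.Involutive g := by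
    rintro ⟨b, x⟩
    refine Prod.ext (upd_upd hφ b x) ?_
    funext c
    exact upd_range hφ b x c
  have h1 : ∑ b : E → Bool, ∑ x : C → Bool, f (upd φ b x) =
      ∑ z : (E → Bool) × (C → Bool), f (g z).1 := by
    rw [Fintype.sum_prod_type]
  have h2 : ∑ z : (E → Bool) × (C → Bool), f (g z).1 = ∑ z : (E → Bool) × (C → Bool), f z.1 :=
    Equiv.sum_comp hg.toPerm (fun z : (E → Bool) × (C → Bool) => f z.1)
  have h3 : ∑ z : (E → Bool) × (C → Bool), f z.1 = ∑ b : E → Bool, ∑ _x : C → Bool, f b := by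
    rw [Fintype.sum_prod_type]
  rw [h1, h2, h3, Finset.mul_sum]
  refine Finset.sum_congr rfl fun b _ => ?_
  rw [Finset.sum_const, Finset.card_univ, Fintype.card_fun, Fintype.card_bool, nsmul_eq_mul]
  push_cast
  rfl

variable {α : Type*} [Fintype α] [DecidableEq α]

/-- the entries of the row of `i` on `T` -/
def phiR (T : Finset α) (i : α) : T → Sym2 α := fun a => s((a : α), i)

theorem phiR_inj {T : Finset α} {i : α} : Function.Injective (phiR T i) := by
  intro a b h
  unfold phiR at h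
  rw [Sym2.eq_iff] at h
  rcases h with ⟨h, -⟩ | ⟨h, h'⟩
  · exact Subtype.ext h
  · exact Subtype.ext (h.trans h')

theorem phiR_notin {T : Finset α} {i : α} (hi : i ∉ T) {a a' : α} (ha : a ∈ T) (ha' : a' ∈ T) :
    ¬ ∃ c, phiR T i c = s(a, a') := by
  rintro ⟨c, hc⟩
  unfold phiR at hc
  rw [Sym2.eq_iff] at hc
  rcases hc with ⟨-, h⟩ | ⟨-, h⟩
  · exact hi (h ▸ ha')
  · exact hi (h ▸ ha)

/-- two bit arrays agree on `T × T` -/
def AgT (T : Finset α) (b b1 : Sym2 α → Bool) : Prop := ∀ a ∈ T, ∀ a' ∈ T, b s(a, a') = b1 s(a, a')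

theorem AgT.symm {T : Finset α} {b b1 : Sym2 α → Bool} (h : AgT T b b1) : AgT T b1 b :=
  fun a ha a' ha' => (h a ha a' ha').symm

theorem AgT.bT {T : Finset α} {b b1 : Sym2 α → Bool} (h : AgT T b b1) : bT b T = bT b1 T := by
  funext e
  induction e with
  | _ x y => exact h x x.2 y y.2

theorem AgT.rw {T : Finset α} {b b1 : Sym2 α → Bool} (h : AgT T b b1) {T' : Finset α} (hT : T' ⊆ T)
    {i : α} (hi : i ∈ T) : rw_ b T' i = rw_ b1 T' i := by
  funext a
  exact h a (hT a.2) i hi

theorem AgT.mono {T T' : Finset α} {b b1 : Sym2 α → Bool} (h : AgT T b b1) (hT : T' ⊆ T) : AgT T' b b1 :=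
  fun a ha a' ha' => h a (hT ha) a' (hT ha')

open Classical in
/-- one step -/
theorem step (T : Finset α) (i : α) (hi : i ∉ T) (X : (Sym2 α → Bool) → Prop)
    (hX : ∀ b b1, AgT T b b1 → X b → X b1) (R : (Sym2 T → Bool) → (T → Bool) → Prop) {ρ : ℝ}
    (hR : ∀ b, X b → ((univ.filter fun x : T → Bool => R (bT b T) x).card : ℝ) ≤ ρ * 2 ^ T.card) :
    ((univ.filter fun b : Sym2 α → Bool => X b ∧ R (bT b T) (rw_ b T i)).card : ℝ) ≤
      ρ * (univ.filter fun b : Sym2 α → Bool => X b).card := by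
  have hag : ∀ (b : Sym2 α → Bool) (x : T → Bool), AgT T b (upd (phiR T i) b x) := by
    intro b x a ha a' ha'
    rw [upd_of_not _ _ (phiR_notin hi ha ha')]
  have h1 := sum_upd (phiR_inj (T := T) (i := i))
    (fun b : Sym2 α → Bool => if X b ∧ R (bT b T) (rw_ b T i) then (1:ℝ) else 0)
  have h2 : ∀ (b : Sym2 α → Bool) (x : T → Bool),
      (if X (upd (phiR T i) b x) ∧ R (bT (upd (phiR T i) b x) T) (rw_ (upd (phiR T i) b x) T i)
        then (1:ℝ) else 0) = if X b ∧ R (bT b T) x then 1 else 0 := by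
    intro b x
    have e1 : X (upd (phiR T i) b x) ↔ X b :=
      ⟨hX _ _ (hag b x).symm, hX _ _ (hag b x)⟩
    have e2 : bT (upd (phiR T i) b x) T = bT b T := (hag b x).bT.symm
    have e3 : rw_ (upd (phiR T i) b x) T i = x := by
      funext a
      exact upd_range phiR_inj b x a
    rw [e1, e2, e3]
  simp only [h2] at h1
  have h3 : ∑ b : Sym2 α → Bool, ∑ x : T → Bool, (if X b ∧ R (bT b T) x then (1:ℝ) else 0) ≤
      ∑ b : Sym2 α → Bool, if X b then ρ * 2 ^ T.card else 0 := by
    refine Finset.sum_le_sum fun b _ => ?_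
    by_cases hb : X b
    · rw [if_pos hb]
      refine le_trans (le_of_eq ?_) (hR b hb)
      simp only [hb, true_and]
      rw [Finset.sum_ite, Finset.sum_const_zero, add_zero, Finset.sum_const, nsmul_eq_mul, mul_one]
    · simp [hb]
  rw [h1] at h3
  have h4 : ∑ b : Sym2 α → Bool, (if X b then ρ * 2 ^ T.card else 0) =
      2 ^ T.card * (ρ * (univ.filter fun b : Sym2 α → Bool => X b).card) := by
    rw [Finset.sum_ite, Finset.sum_const_zero, add_zero, Finset.sum_const, nsmul_eq_mul]
    ring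
  have h5 : ∑ b : Sym2 α → Bool, (if X b ∧ R (bT b T) (rw_ b T i) then (1:ℝ) else 0) =
      ((univ.filter fun b : Sym2 α → Bool => X b ∧ R (bT b T) (rw_ b T i)).card : ℝ) := by
    rw [Finset.sum_ite, Finset.sum_const_zero, add_zero, Finset.sum_const, nsmul_eq_mul, mul_one]
  rw [h4, h5, Fintype.card_coe] at h3
  exact le_of_mul_le_mul_left h3 (by positivity)

open Classical in
/-- the marginal on `T × T` -/
theorem marg (T : Finset α) (X : (Sym2 T → Bool) → Prop) :
    ((univ.filter fun b : Sym2 α → Bool => X (bT b T)).card : ℝ) * 2 ^ Fintype.card (Sym2 T) =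
      (univ.filter fun b : Sym2 T → Bool => X b).card * 2 ^ Fintype.card (Sym2 α) := by
  have hinj : Function.Injective (fun e : Sym2 T => e.map (fun a : T => (a : α))) :=
    Sym2.map.injective Subtype.val_injective
  have h1 := sum_upd hinj (fun b : Sym2 α → Bool => if X (bT b T) then (1:ℝ) else 0)
  have h2 : ∀ (b : Sym2 α → Bool) (x : Sym2 T → Bool),
      bT (upd (fun e : Sym2 T => e.map (fun a : T => (a : α))) b x) T = x := by
    intro b x
    funext e
    exact upd_range hinj b x e
  simp only [h2] at h1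
  have h3 : ∑ b : Sym2 α → Bool, (if X (bT b T) then (1:ℝ) else 0) =
      ((univ.filter fun b : Sym2 α → Bool => X (bT b T)).card : ℝ) := by
    rw [Finset.sum_ite, Finset.sum_const_zero, add_zero, Finset.sum_const, nsmul_eq_mul, mul_one]
  have h4 : ∑ x : Sym2 T → Bool, (if X x then (1:ℝ) else 0) =
      ((univ.filter fun b : Sym2 T → Bool => X b).card : ℝ) := by
    rw [Finset.sum_ite, Finset.sum_const_zero, add_zero, Finset.sum_const, nsmul_eq_mul, mul_one]
  rw [h3, h4, Finset.sum_const, Finset.card_univ, Fintype.card_fun, Fintype.card_bool,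
    nsmul_eq_mul] at h1
  push_cast at h1
  linarith

open Classical in
/-- **Sequential exposure.** `T r = insert (i r) (T (r + 1))`; `X` an event of the minor on `T τ`; given the minor on
`T (r + 1)` the row of `i r` lies in `R r` with probability at most `ρ r`, whenever the conditions `G r` hold. -/
theorem seq (τ : ℕ) (T : ℕ → Finset α) (i : ℕ → α) (hT : ∀ r < τ, T r = insert (i r) (T (r + 1)))
    (hi : ∀ r < τ, i r ∉ T (r + 1)) (X : (Sym2 (T τ) → Bool) → Prop)
    (R : ∀ r, (Sym2 (T (r + 1)) → Bool) → (T (r + 1) → Bool) → Prop) (ρ : ℕ → ℝ)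
    (hρ : ∀ r < τ, 0 ≤ ρ r)
    (hR : ∀ r < τ, ∀ b' : Sym2 (T (r + 1)) → Bool,
      ((univ.filter fun x : T (r + 1) → Bool => R r b' x).card : ℝ) ≤ ρ r * 2 ^ (T (r + 1)).card) :
    ((univ.filter fun b : Sym2 α → Bool => X (bT b (T τ)) ∧
        ∀ r < τ, R r (bT b (T (r + 1))) (rw_ b (T (r + 1)) (i r))).card : ℝ) *
        2 ^ Fintype.card (Sym2 (T τ)) ≤
      (∏ r ∈ range τ, ρ r) * (univ.filter fun b : Sym2 (T τ) → Bool => X b).card *
        2 ^ Fintype.card (Sym2 α) := by
  have hsub : ∀ r < τ, T (r + 1) ⊆ T r := fun r hr => by rw [hT r hr]; exact subset_insert _ _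
  have hsub' : ∀ s r, s ≤ r → r ≤ τ → T r ⊆ T s := by
    intro s r hsr
    induction r, hsr using Nat.le_induction with
    | base => exact fun _ => Subset.refl _
    | succ r _ ih => exact fun h => (hsub r (by omega)).trans (ih (by omega))
  have hmem : ∀ r < τ, i r ∈ T r := fun r hr => by rw [hT r hr]; exact mem_insert_self _ _
  -- downward induction
  have key : ∀ d s, s + d = τ →
      ((univ.filter fun b : Sym2 α → Bool => X (bT b (T τ)) ∧
        ∀ r, s ≤ r → r < τ → R r (bT b (T (r + 1))) (rw_ b (T (r + 1)) (i r))).card : ℝ) ≤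
      (∏ r ∈ Ico s τ, ρ r) * (univ.filter fun b : Sym2 α → Bool => X (bT b (T τ))).card := by
    intro d
    induction d with
    | zero =>
      intro s hs
      have : s = τ := by omega
      subst this
      rw [Ico_self, prod_empty, one_mul]
      refine le_of_eq ?_
      congr 2
      ext b
      simp only [mem_filter, mem_univ, true_and]
      exact ⟨fun h => h.1, fun h => ⟨h, fun r h1 h2 => by omega⟩⟩
    | succ d ih =>
      intro s hs
      have hsτ : s < τ := by omega
      have h1 := ih (s + 1) (by omega)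
      set E : (Sym2 α → Bool) → Prop := fun b => X (bT b (T τ)) ∧
        ∀ r, s + 1 ≤ r → r < τ → R r (bT b (T (r + 1))) (rw_ b (T (r + 1)) (i r)) with hE
      have hEinv : ∀ b b1, AgT (T (s + 1)) b b1 → E b → E b1 := by
        intro b b1 hag hb
        have e1 : bT b (T τ) = bT b1 (T τ) := (hag.mono (hsub' _ _ (by omega) le_rfl)).bT
        refine ⟨e1 ▸ hb.1, fun r hr1 hr2 => ?_⟩
        have e2 : bT b (T (r + 1)) = bT b1 (T (r + 1)) := (hag.mono (hsub' _ _ (by omega) (by omega))).bT
        have e3 : rw_ b (T (r + 1)) (i r) = rw_ b1 (T (r + 1)) (i r) :=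
          hag.rw (hsub' _ _ (by omega) (by omega)) (hsub' (s + 1) r hr1 (by omega) (hmem r hr2))
        have := hb.2 r hr1 hr2
        rwa [e2, e3] at this
      have h2 := step (T (s + 1)) (i s) (hi s hsτ) E hEinv (R s) (ρ := ρ s)
        (fun b _ => hR s hsτ (bT b (T (s + 1))))
      have h3 : (univ.filter fun b : Sym2 α → Bool => X (bT b (T τ)) ∧
          ∀ r, s ≤ r → r < τ → R r (bT b (T (r + 1))) (rw_ b (T (r + 1)) (i r))) =
          univ.filter fun b : Sym2 α → Bool => E b ∧ R s (bT b (T (s + 1))) (rw_ b (T (s + 1)) (i s)) := by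
        ext b
        simp only [mem_filter, mem_univ, true_and, hE]
        constructor
        · rintro ⟨ha, hb⟩
          exact ⟨⟨ha, fun r h1 h2 => hb r (by omega) h2⟩, hb s le_rfl hsτ⟩
        · rintro ⟨⟨ha, hb⟩, hc⟩
          refine ⟨ha, fun r h1 h2 => ?_⟩
          rcases Nat.eq_or_lt_of_le h1 with h | h
          · subst h; exact hc
          · exact hb r (by omega) h2
      rw [h3]
      refine le_trans (le_of_eq ?_) (h2.trans (?_ : _ ≤ (∏ r ∈ Ico s τ, ρ r) *
        ((univ.filter fun b : Sym2 α → Bool => X (bT b (T τ))).card : ℝ)))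
      · congr!
      · rw [Finset.prod_eq_prod_Ico_succ_bot hsτ, mul_assoc]
        refine le_trans (mul_le_mul_of_nonneg_left ?_ (hρ s hsτ)) (mul_le_mul_of_nonneg_left h1 (hρ s hsτ))
        refine le_of_eq ?_
        congr!
  have h0 := key τ 0 (by omega)
  have h5 : (univ.filter fun b : Sym2 α → Bool => X (bT b (T τ)) ∧
      ∀ r < τ, R r (bT b (T (r + 1))) (rw_ b (T (r + 1)) (i r))) =
      univ.filter fun b : Sym2 α → Bool => X (bT b (T τ)) ∧
        ∀ r, 0 ≤ r → r < τ → R r (bT b (T (r + 1))) (rw_ b (T (r + 1)) (i r)) := by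
    ext b
    simp only [mem_filter, mem_univ, true_and]
    exact ⟨fun h => ⟨h.1, fun r _ hr => h.2 r hr⟩, fun h => ⟨h.1, fun r hr => h.2 r (Nat.zero_le _) hr⟩⟩
  rw [h5]
  have h6 := marg (T τ) X
  rw [← Finset.range_eq_Ico] at h0
  calc _ ≤ ((∏ r ∈ range τ, ρ r) * (univ.filter fun b : Sym2 α → Bool => X (bT b (T τ))).card) *
        2 ^ Fintype.card (Sym2 (T τ)) := mul_le_mul_of_nonneg_right h0 (by positivity)
    _ = (∏ r ∈ range τ, ρ r) * (((univ.filter fun b : Sym2 α → Bool => X (bT b (T τ))).card : ℝ) *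
        2 ^ Fintype.card (Sym2 (T τ))) := by ring
    _ = _ := by rw [h6]; ring

end Vale.Agent.P160.Half.SeqExp118
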