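import Vale.Agent.P160.Half.Shell

/-! # P160, rate 1/2: outer shell, part 2

From few singular symmetric 0/1 matrices to the exponential rate of the singularity probability of
symmetric sign matrices. -/

namespace Vale.Agent.P160.Half.Shell

open Finset Matrix Vale.Agent.P160.Half Filter

/-- sign of a bit -/
def sg (x : Bool) : ℤ := if x then -1 else 1

theorem sg_mul_self (x : Bool) : sg x * sg x = 1 := by cases x <;> simp [sg]

theorem sg_ne (x : Bool) : sg x ≠ 0 := by cases x <;> simp [sg]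

/-- the symmetric sign matrix with sign pattern `b` -/
def sgnM {n : ℕ} (b : Sym2 (Fin n) → Bool) : Matrix (Fin n) (Fin n) ℤ := fun i j => sg (b s(i, j))

/-- the Schur complement pattern -/
def red {m : ℕ} (b : Sym2 (Fin (m + 1)) → Bool) : Sym2 (Fin m) → Bool :=
  Sym2.lift ⟨fun i j => xor (b s(0, 0)) (xor (xor (b s(0, i.succ)) (b s(0, j.succ)))
    (b s(i.succ, j.succ))), fun i j => by
      show xor (b s(0, 0)) (xor (xor (b s(0, i.succ)) (b s(0, j.succ))) (b s(i.succ, j.succ))) =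
        xor (b s(0, 0)) (xor (xor (b s(0, j.succ)) (b s(0, i.succ))) (b s(j.succ, i.succ)))
      rw [Sym2.eq_swap (a := i.succ) (b := j.succ), Bool.xor_comm (b s(0, i.succ))]⟩

theorem red_mk {m : ℕ} (b : Sym2 (Fin (m + 1)) → Bool) (i j : Fin m) :
    red b s(i, j) = xor (b s(0, 0)) (xor (xor (b s(0, i.succ)) (b s(0, j.succ)))
    (b s(i.succ, j.succ))) := rfl

theorem sg_schur (a u v w : Bool) :
    sg w - sg a * sg u * sg v = -2 * (sg a * sg u * sg v *
      (if xor a (xor (xor u v) w) then 1 else 0)) := by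
  cases a <;> cases u <;> cases v <;> cases w <;> simp [sg]

theorem det_red {m : ℕ} (b : Sym2 (Fin (m + 1)) → Bool) (h : (sgnM b).det = 0) :
    (matZ (red b)).det = 0 := by
  obtain ⟨v, hv0, hv⟩ := Matrix.exists_mulVec_eq_zero_iff.2 h
  apply Matrix.exists_mulVec_eq_zero_iff.1
  set a := b s(0, 0) with ha
  set u : Fin m → Bool := fun i => b s(0, i.succ) with hu
  have hrow0 : sg a * v 0 + ∑ j : Fin m, sg (u j) * v j.succ = 0 := by
    have h1 := congrFun hv 0
    rw [mulVec, dotProduct, Fin.sum_univ_succ] at h1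
    exact h1
  have hv0' : v 0 = - (sg a * ∑ j : Fin m, sg (u j) * v j.succ) := by
    have h1 : sg a * (sg a * v 0 + ∑ j : Fin m, sg (u j) * v j.succ) = 0 := by
      rw [hrow0, mul_zero]
    rw [mul_add, ← mul_assoc, sg_mul_self, one_mul] at h1
    linarith
  refine ⟨fun j => sg (u j) * v j.succ, ?_, ?_⟩
  · intro h0
    apply hv0
    have h1 : ∀ j : Fin m, v j.succ = 0 := by
      intro j
      have h2 : sg (u j) * v j.succ = 0 := congrFun h0 j
      exact (mul_eq_zero.1 h2).resolve_left (sg_ne _)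
    have h2 : v 0 = 0 := by
      rw [hv0']
      simp [h1]
    funext i
    refine Fin.cases h2 (fun j => h1 j) i
  · funext i
    have h1 := congrFun hv i.succ
    rw [mulVec, dotProduct, Fin.sum_univ_succ] at h1
    have h2 : sgnM b i.succ 0 = sg (u i) := by
      rw [sgnM, Sym2.eq_swap]
    have h3 : (sgnM b i.succ 0 : ℤ) * v 0 +
        ∑ j : Fin m, sgnM b i.succ j.succ * v j.succ = 0 := h1
    rw [h2, hv0'] at h3
    have h4 : ∀ j : Fin m, sgnM b i.succ j.succ * v j.succ =
        sg a * sg (u i) * (sg (u j) * v j.succ) +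
        (-2 * (sg a * sg (u i))) * (matZ (red b) i j * (sg (u j) * v j.succ)) := by
      intro j
      have h5 := sg_schur a (u i) (u j) (b s(i.succ, j.succ))
      have h6 : (if xor a (xor (xor (u i) (u j)) (b s(i.succ, j.succ))) then (1 : ℤ) else 0) =
          matZ (red b) i j := by
        rw [matZ, red_mk]
      rw [h6] at h5
      have h7 : sgnM b i.succ j.succ = sg (b s(i.succ, j.succ)) := rfl
      rw [h7]
      linear_combination (v j.succ) * h5
    rw [sum_congr rfl fun j _ => h4 j, sum_add_distrib, ← mul_sum, ← mul_sum] at h3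
    have h8 : (-2 * (sg a * sg (u i))) *
        ∑ j : Fin m, matZ (red b) i j * (sg (u j) * v j.succ) = 0 := by
      linear_combination h3
    have h9 : (-2 * (sg a * sg (u i))) ≠ 0 :=
      mul_ne_zero (by norm_num) (mul_ne_zero (sg_ne _) (sg_ne _))
    exact (mul_eq_zero.1 h8).resolve_left h9

theorem red_injective {m : ℕ} : Function.Injective
    fun b : Sym2 (Fin (m + 1)) → Bool => ((fun j => b s(0, j)), red b) := by
  intro b b' h
  have h1 : ∀ j, b s(0, j) = b' s(0, j) := fun j => congrFun (Prod.mk.inj h).1 j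
  have h2 : red b = red b' := (Prod.mk.inj h).2
  funext e
  induction e using Sym2.ind with
  | _ i j =>
    refine Fin.cases ?_ (fun i => ?_) i
    · exact h1 j
    · refine Fin.cases ?_ (fun j => ?_) j
      · rw [Sym2.eq_swap]
        exact h1 _
      · have h3 := congrFun h2 s(i, j)
        rw [red_mk, red_mk, h1 0, h1 i.succ, h1 j.succ] at h3
        simpa using h3

open Classical in
theorem card_sgnM_le (m : ℕ) :
    (univ.filter fun b : Sym2 (Fin (m + 1)) → Bool => (sgnM b).det = 0).card ≤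
      2 ^ (m + 1) * (univ.filter fun b : Sym2 (Fin m) → Bool => (matZ b).det = 0).card := by
  have h1 : (univ.filter fun b : Sym2 (Fin (m + 1)) → Bool => (sgnM b).det = 0).card ≤
      ((univ : Finset (Fin (m + 1) → Bool)) ×ˢ
        (univ.filter fun b : Sym2 (Fin m) → Bool => (matZ b).det = 0)).card := by
    refine card_le_card_of_injOn (fun b => ((fun j => b s(0, j)), red b)) ?_
      (red_injective.injOn)
    intro b hb
    exact mem_coe.2 (mem_product.2 ⟨mem_univ _, mem_filter.2 ⟨mem_univ _,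
      det_red b (mem_filter.1 hb).2⟩⟩)
  rwa [card_product, card_univ, Fintype.card_fun, Fintype.card_bool, Fintype.card_fin] at h1

theorem card_sym2_succ (m : ℕ) :
    Fintype.card (Sym2 (Fin (m + 1))) = Fintype.card (Sym2 (Fin m)) + (m + 1) := by
  rw [Sym2.card, Sym2.card, Fintype.card_fin, Fintype.card_fin, Nat.choose_succ_succ' (m + 1) 1,
    Nat.choose_one_right]
  ring

open Classical in
theorem card_sgnM_ge (m : ℕ) :
    2 ^ Fintype.card (Sym2 (Fin (m + 1))) ≤
      (univ.filter fun b : Sym2 (Fin (m + 2)) → Bool => (sgnM b).det = 0).card := by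
  let f : Fin (m + 2) → Fin (m + 1) := fun i => Fin.cases 0 (fun j => j) i
  have hf0 : f 0 = 0 := rfl
  have hfs : ∀ j : Fin (m + 1), f j.succ = j := fun j => rfl
  have hf1 : f 1 = 0 := rfl
  have h1 : (univ : Finset (Sym2 (Fin (m + 1)) → Bool)).card ≤
      (univ.filter fun b : Sym2 (Fin (m + 2)) → Bool => (sgnM b).det = 0).card := by
    refine card_le_card_of_injOn (fun b => b ∘ Sym2.map f) ?_ ?_
    · intro b _
      refine mem_coe.2 (mem_filter.2 ⟨mem_univ _, ?_⟩)
      apply Matrix.det_zero_of_row_eq (i := 0) (j := 1) (by simp)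
      funext j
      simp only [sgnM, Function.comp_apply, Sym2.map_mk, hf0, hf1]
    · intro b _ b' _ h
      funext e
      induction e using Sym2.ind with
      | _ i j =>
        have h2 := congrFun h s(i.succ, j.succ)
        simpa [Function.comp_apply, Sym2.map_mk, hfs] using h2
  rwa [card_univ, Fintype.card_fun, Fintype.card_bool] at h1

/-- The set of all symmetric `n × n` integer matrices with every entry equal to `1` or `-1`. -/
def SymmetricSignMatrices (n : ℕ) : Set (Matrix (Fin n) (Fin n) ℤ) :=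
  {A | A.IsSymm ∧ ∀ i j, A i j = 1 ∨ A i j = -1}

/-- The probability that a uniformly random symmetric sign matrix of size `n` is singular. -/
noncomputable def q (n : ℕ) : ℝ :=
  (Set.ncard {A : Matrix (Fin n) (Fin n) ℤ | A ∈ SymmetricSignMatrices n ∧ A.det = 0} : ℝ) /
    (Set.ncard (SymmetricSignMatrices n) : ℝ)

theorem sgnM_injective (n : ℕ) : Function.Injective (sgnM (n := n)) := by
  intro b b' h
  funext e
  induction e using Sym2.ind with
  | _ i j =>
    have h1 := congrFun (congrFun h i) j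
    unfold sgnM sg at h1
    by_cases hb : b s(i, j) = true <;> by_cases hb' : b' s(i, j) = true <;> simp_all

theorem range_sgnM (n : ℕ) : Set.range (sgnM (n := n)) = SymmetricSignMatrices n := by
  ext A
  constructor
  · rintro ⟨b, rfl⟩
    refine ⟨?_, fun i j => ?_⟩
    · ext i j
      rw [Matrix.transpose_apply]
      unfold sgnM
      rw [Sym2.eq_swap]
    · unfold sgnM sg
      split_ifs
      · exact Or.inr rfl
      · exact Or.inl rfl
  · rintro ⟨hs, hA⟩
    refine ⟨Sym2.lift ⟨fun i j => decide (A i j = -1), fun i j => ?_⟩, ?_⟩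
    · have := hs.apply i j
      show decide (A i j = -1) = decide (A j i = -1)
      rw [this]
    · ext i j
      unfold sgnM sg
      rw [Sym2.lift_mk]
      rcases hA i j with h | h
      · simp [h]
      · simp [h]

open Classical in
theorem q_eq (n : ℕ) : q n =
    ((univ.filter fun b : Sym2 (Fin n) → Bool => (sgnM b).det = 0).card : ℝ) /
      2 ^ Fintype.card (Sym2 (Fin n)) := by
  have h1 : {A : Matrix (Fin n) (Fin n) ℤ | A ∈ SymmetricSignMatrices n ∧ A.det = 0} =
      sgnM '' {b : Sym2 (Fin n) → Bool | (sgnM b).det = 0} := by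
    ext A
    constructor
    · rintro ⟨hA, hdet⟩
      rw [← range_sgnM] at hA
      obtain ⟨b, rfl⟩ := hA
      exact ⟨b, hdet, rfl⟩
    · rintro ⟨b, hb, rfl⟩
      exact ⟨by rw [← range_sgnM]; exact ⟨b, rfl⟩, hb⟩
  have h2 : Set.ncard {b : Sym2 (Fin n) → Bool | (sgnM b).det = 0} =
      (Finset.univ.filter (fun b : Sym2 (Fin n) → Bool => (sgnM b).det = 0)).card := by
    rw [← Set.ncard_coe_finset]
    congr 1
    ext b
    simp
  have h3 : Set.ncard (SymmetricSignMatrices n) = 2 ^ Fintype.card (Sym2 (Fin n)) := by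
    rw [← range_sgnM, ← Set.image_univ, Set.ncard_image_of_injective _ (sgnM_injective n),
      Set.ncard_univ, Nat.card_eq_fintype_card, Fintype.card_fun, Fintype.card_bool]
  unfold q
  rw [h1, Set.ncard_image_of_injective _ (sgnM_injective n), h2, h3]
  push_cast
  rfl

theorem q_nonneg (n : ℕ) : 0 ≤ q n := by
  unfold q
  positivity

/-- the lower bound `q n ≥ 2 ^ (-n)` -/
theorem q_ge (n : ℕ) (hn : 2 ≤ n) : (1 / 2 : ℝ) ^ n ≤ q n := by
  classical
  obtain ⟨m, rfl⟩ : ∃ m, n = m + 2 := ⟨n - 2, by omega⟩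
  rw [q_eq, le_div_iff₀ (by positivity), card_sym2_succ,
    pow_add 2 (Fintype.card (Sym2 (Fin (m + 1))))]
  have h1 : ((2 ^ Fintype.card (Sym2 (Fin (m + 1))) : ℕ) : ℝ) ≤
      ((univ.filter fun b : Sym2 (Fin (m + 2)) → Bool => (sgnM b).det = 0).card : ℝ) := by
    exact_mod_cast card_sgnM_ge m
  push_cast at h1
  calc (1 / 2 : ℝ) ^ (m + 2) * (2 ^ Fintype.card (Sym2 (Fin (m + 1))) * 2 ^ (m + 1 + 1))
      = ((1 / 2 : ℝ) ^ (m + 2) * 2 ^ (m + 2)) * 2 ^ Fintype.card (Sym2 (Fin (m + 1))) := by ring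
    _ = 2 ^ Fintype.card (Sym2 (Fin (m + 1))) := by
        rw [← mul_pow]; norm_num
    _ ≤ _ := h1

open Classical in
theorem q_le_of_sing' (ε : ℝ) (h : ∃ n₀ : ℕ, ∀ n ≥ n₀,
      (((univ : Finset (Sym2 (Fin n) → Bool)).filter fun b => (matZ b).det = 0).card : ℝ) ≤
        (2 : ℝ) ^ (-((1 - ε) * n)) * 2 ^ Fintype.card (Sym2 (Fin n))) :
    ∃ n₀ : ℕ, ∀ m ≥ n₀, q (m + 1) ≤ (2 : ℝ) ^ (-((1 - ε) * m)) := by
  obtain ⟨n₀, hn₀⟩ := h
  refine ⟨n₀, fun m hm => ?_⟩
  have h1 := hn₀ m hm
  have h2 : ((univ.filter fun b : Sym2 (Fin (m + 1)) → Bool => (sgnM b).det = 0).card : ℝ) ≤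
      2 ^ (m + 1) *
        ((univ.filter fun b : Sym2 (Fin m) → Bool => (matZ b).det = 0).card : ℝ) := by
    exact_mod_cast card_sgnM_le m
  rw [q_eq, div_le_iff₀ (by positivity), card_sym2_succ, pow_add]
  refine h2.trans ?_
  have h3 : (2 : ℝ) ^ (m + 1) *
        ((univ.filter fun b : Sym2 (Fin m) → Bool => (matZ b).det = 0).card : ℝ) ≤
      (2 : ℝ) ^ (m + 1) * ((2 : ℝ) ^ (-((1 - ε) * m)) * 2 ^ Fintype.card (Sym2 (Fin m))) :=
    mul_le_mul_of_nonneg_left (by convert h1) (by positivity)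
  refine h3.trans (le_of_eq ?_)
  ring

theorem q_le_of_sing (h : SingSmall) (ε : ℝ) (hε : 0 < ε) :
    ∃ n₀ : ℕ, ∀ m ≥ n₀, q (m + 1) ≤ (2 : ℝ) ^ (-((1 - ε) * m)) := q_le_of_sing' ε (h ε hε)

/-- every `x > 2 ^ (-(1 - lam))` is an upper bound for the rate -/
theorem q_le_pow_lam {lam : ℝ} (h : SingLam lam) (x : ℝ) (hx : (2 : ℝ) ^ (-(1 - lam)) < x) :
    ∀ᶠ n : ℕ in atTop, q n ≤ x ^ n := by
  set c : ℝ := (2 : ℝ) ^ (-(1 - lam)) with hc
  have hc0 : 0 < c := by positivity
  set mu : ℝ := (c + x) / 2 with hmu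
  have hmu1 : c < mu := by rw [hmu]; linarith
  have hmu2 : mu < x := by rw [hmu]; linarith
  have hmu0 : 0 < mu := by linarith
  have hx0 : 0 < x := by linarith
  have hlog : -(1 - lam) < Real.logb 2 mu := by
    rw [Real.lt_logb_iff_rpow_lt (by norm_num) hmu0]
    exact hmu1
  obtain ⟨n₀, hn₀⟩ := q_le_of_sing' (1 + Real.logb 2 mu) (by
    have h1 := h (1 - lam + Real.logb 2 mu) (by linarith)
    simpa only [show (1 : ℝ) - lam - (1 - lam + Real.logb 2 mu) = 1 - (1 + Real.logb 2 mu) by ring]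
      using h1)
  have hlim : Tendsto (fun m : ℕ => (mu / x) ^ m) atTop (nhds 0) :=
    tendsto_pow_atTop_nhds_zero_of_lt_one (by positivity) ((div_lt_one hx0).2 hmu2)
  obtain ⟨n₁, hn₁⟩ := eventually_atTop.1 (hlim.eventually_lt_const hx0)
  refine eventually_atTop.2 ⟨max n₀ n₁ + 1, fun n hn => ?_⟩
  obtain ⟨m, rfl⟩ : ∃ m, n = m + 1 := ⟨n - 1, by omega⟩
  have hm0 : n₀ ≤ m := by have := le_max_left n₀ n₁; omega
  have hm1 : n₁ ≤ m := by have := le_max_right n₀ n₁; omega
  refine (hn₀ m hm0).trans ?_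
  have e1 : (2 : ℝ) ^ (-((1 - (1 + Real.logb 2 mu)) * m)) = mu ^ m := by
    rw [show -((1 - (1 + Real.logb 2 mu)) * (m : ℝ)) = Real.logb 2 mu * m by ring,
      Real.rpow_mul (by norm_num), Real.rpow_logb (by norm_num) (by norm_num) hmu0,
      Real.rpow_natCast]
  rw [e1]
  have h2 := (hn₁ m hm1).le
  rw [div_pow, div_le_iff₀ (by positivity)] at h2
  calc mu ^ m ≤ x * x ^ m := h2
    _ = x ^ (m + 1) := by ring

theorem singLam_zero (h : SingSmall) : SingLam 0 := by
  intro ε hε
  simpa only [sub_zero] using h ε hε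

/-- every `lam > 1/2` is an upper bound for the rate -/
theorem q_le_pow (h : SingSmall) (lam : ℝ) (hl : 1 / 2 < lam) :
    ∀ᶠ n : ℕ in atTop, q n ≤ lam ^ n := by
  refine q_le_pow_lam (singLam_zero h) lam ?_
  rw [sub_zero, Real.rpow_neg_one]
  norm_num at hl ⊢
  exact hl

/-- **parametric exit**: `limsup q_n ^ (1/n) ≤ 2 ^ (-(1 - lam))` -/
theorem limsup_of_sing {lam : ℝ} (h : SingLam lam) :
    limsup (fun n : ℕ => q n ^ (1 / (n : ℝ))) atTop ≤ (2 : ℝ) ^ (-(1 - lam)) := by
  refine le_of_forall_gt_imp_ge_of_dense fun x hx => ?_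
  have hl : 0 < x := lt_trans (by positivity) hx
  refine limsup_le_of_le ?_ ?_
  · exact isCoboundedUnder_le_of_le atTop (x := 0) fun n => Real.rpow_nonneg (q_nonneg n) _
  · filter_upwards [q_le_pow_lam h x hx, eventually_ge_atTop 1] with n hn hn1
    have hn0 : (n : ℝ) ≠ 0 := by
      have : 0 < n := hn1
      positivity
    calc q n ^ (1 / (n : ℝ)) ≤ (x ^ n) ^ (1 / (n : ℝ)) :=
          Real.rpow_le_rpow (q_nonneg n) hn (by positivity)
      _ = x := by
          rw [← Real.rpow_natCast, ← Real.rpow_mul hl.le, mul_one_div_cancel hn0,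
            Real.rpow_one]

/-- **The exponential rate is `1/2`.** -/
theorem rate_of_sing (h : SingSmall) :
    Tendsto (fun n : ℕ => q n ^ (1 / (n : ℝ))) atTop (nhds (1 / 2)) := by
  rw [tendsto_order]
  constructor
  · intro a ha
    filter_upwards [eventually_ge_atTop 2] with n hn
    refine lt_of_lt_of_le ha ?_
    have hn0 : (n : ℝ) ≠ 0 := by
      have : 0 < n := by omega
      positivity
    calc (1 / 2 : ℝ) = ((1 / 2 : ℝ) ^ n) ^ (1 / (n : ℝ)) := by
          rw [← Real.rpow_natCast, ← Real.rpow_mul (by norm_num), mul_one_div_cancel hn0,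
            Real.rpow_one]
      _ ≤ q n ^ (1 / (n : ℝ)) :=
          Real.rpow_le_rpow (by positivity) (q_ge n hn) (by positivity)
  · intro a ha
    set lam : ℝ := (1 / 2 + a) / 2 with hlam
    have h1 : 1 / 2 < lam := by rw [hlam]; linarith
    have h2 : lam < a := by rw [hlam]; linarith
    have hl : 0 < lam := by linarith
    filter_upwards [q_le_pow h lam h1, eventually_ge_atTop 1] with n hn hn1
    have hn0 : (n : ℝ) ≠ 0 := by
      have : 0 < n := hn1
      positivity
    refine lt_of_le_of_lt ?_ h2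
    calc q n ^ (1 / (n : ℝ)) ≤ (lam ^ n) ^ (1 / (n : ℝ)) :=
          Real.rpow_le_rpow (q_nonneg n) hn (by positivity)
      _ = lam := by
          rw [← Real.rpow_natCast, ← Real.rpow_mul hl.le, mul_one_div_cancel hn0,
            Real.rpow_one]

/-- **Parametric outer shell.** -/
theorem shell_lam {lam : ℝ} (hlam : 0 ≤ lam) (h : Cor1Lam lam) :
    (∀ x : ℝ, (2 : ℝ) ^ (-(1 - lam)) < x → ∀ᶠ n : ℕ in atTop, q n ≤ x ^ n) ∧
    limsup (fun n : ℕ => q n ^ (1 / (n : ℝ))) atTop ≤ (2 : ℝ) ^ (-(1 - lam)) :=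
  ⟨fun x hx => q_le_pow_lam (sing_of_cor1_lam hlam h) x hx,
    limsup_of_sing (sing_of_cor1_lam hlam h)⟩

/-- **Outer shell of the rate 1/2 project.** -/
theorem shell (h : Cor1Small) :
    (∀ lam : ℝ, 1 / 2 < lam → ∀ᶠ n : ℕ in atTop, q n ≤ lam ^ n) ∧
    Tendsto (fun n : ℕ => q n ^ (1 / (n : ℝ))) atTop (nhds (1 / 2)) :=
  ⟨fun lam hl => q_le_pow (sing_of_cor1 h) lam hl, rate_of_sing (sing_of_cor1 h)⟩

end Vale.Agent.P160.Half.Shell
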