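import Vale.Agent.P160.Half.WCount
import Vale.Agent.P160.Half.Corank

/-! # P160, rate 1/2: the outer shell (helper748)

(i) symmetric sign matrices of size `n+1` and symmetric 0/1 matrices of size `n`,
(ii) corank `≥ 2` is reduced to corank 1 (note 11128 of helper184),
(iii) the limit. -/

set_option linter.unusedVariables false

namespace Vale.Agent.P160.Half.Shell748

open Finset Matrix Vale.Agent.P160.Half

/-- The symmetric sign matrix with sign pattern `b`. -/
def sg {n : ℕ} (b : Sym2 (Fin n) → Bool) : Matrix (Fin n) (Fin n) ℤ :=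
  fun i j => if b s(i, j) then -1 else 1

theorem card_sym2_succ (n : ℕ) :
    Fintype.card (Sym2 (Fin (n + 1))) = Fintype.card (Sym2 (Fin n)) + (n + 1) := by
  rw [Sym2.card, Sym2.card, Fintype.card_fin, Fintype.card_fin, Nat.choose_succ_succ' (n + 1) 1,
    Nat.choose_one_right]
  exact Nat.add_comm _ _

/-- pattern of the Schur complement with respect to the entry `(0,0)` -/
def red {n : ℕ} (b : Sym2 (Fin (n + 1)) → Bool) : Sym2 (Fin n) → Bool :=
  Sym2.lift ⟨fun i j => xor (b s(i.succ, j.succ)) (xor (b s(0, 0)) (xor (b s(0, i.succ)) (b s(0, j.succ)))),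
    fun i j => by
      dsimp only
      rw [Sym2.eq_swap, Bool.xor_comm (b s(0, i.succ))]⟩

theorem red_mk {n : ℕ} (b : Sym2 (Fin (n + 1)) → Bool) (i j : Fin n) :
    red b s(i, j) = xor (b s(i.succ, j.succ)) (xor (b s(0, 0)) (xor (b s(0, i.succ)) (b s(0, j.succ)))) :=
  rfl

theorem det_red {n : ℕ} (b : Sym2 (Fin (n + 1)) → Bool) (h : (sg b).det = 0) :
    (matZ (red b)).det = 0 := by
  obtain ⟨v, hv0, hv⟩ := Matrix.exists_mulVec_eq_zero_iff.2 h
  apply Matrix.exists_mulVec_eq_zero_iff.1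
  refine ⟨fun i => sg b 0 i.succ * v i.succ, ?_, ?_⟩
  · intro hw
    apply hv0
    have h1 : ∀ i : Fin n, v i.succ = 0 := by
      intro i
      have h2 : sg b 0 i.succ * v i.succ = 0 := congrFun hw i
      rcases mul_eq_zero.1 h2 with h3 | h3
      · unfold sg at h3
        split_ifs at h3; omega
      · exact h3
    have h4 := congrFun hv 0
    have h5 : (sg b *ᵥ v) 0 = sg b 0 0 * v 0 + ∑ j : Fin n, sg b 0 j.succ * v j.succ := by
      rw [mulVec, dotProduct, Fin.sum_univ_succ]
    rw [h5, sum_eq_zero (fun j _ => by rw [h1 j, mul_zero]), add_zero] at h4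
    have h6 : v 0 = 0 := by
      rcases mul_eq_zero.1 h4 with h3 | h3
      · unfold sg at h3
        split_ifs at h3; omega
      · exact h3
    funext i
    refine Fin.cases h6 (fun i => h1 i) i
  · funext i
    have h0 := congrFun hv 0
    have hi := congrFun hv i.succ
    have e0 : (sg b *ᵥ v) 0 = sg b 0 0 * v 0 + ∑ j : Fin n, sg b 0 j.succ * v j.succ := by
      rw [mulVec, dotProduct, Fin.sum_univ_succ]
    have ei : (sg b *ᵥ v) i.succ = sg b i.succ 0 * v 0 + ∑ j : Fin n, sg b i.succ j.succ * v j.succ := by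
      rw [mulVec, dotProduct, Fin.sum_univ_succ]
    rw [e0] at h0
    rw [ei] at hi
    have hs : sg b i.succ 0 = sg b 0 i.succ := by unfold sg; rw [Sym2.eq_swap]
    rw [hs] at hi
    have h00 : sg b 0 0 * sg b 0 0 = 1 := by unfold sg; split_ifs <;> norm_num
    have hterm : ∀ j : Fin n, sg b i.succ j.succ * v j.succ -
        sg b 0 0 * sg b 0 i.succ * (sg b 0 j.succ * v j.succ) =
        -2 * (sg b 0 0 * sg b 0 i.succ) * (matZ (red b) i j * (sg b 0 j.succ * v j.succ)) := by
      intro j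
      unfold sg matZ
      rw [red_mk]
      cases b s(i.succ, j.succ) <;> cases b s(0, 0) <;> cases b s(0, i.succ) <;>
        cases b s(0, j.succ) <;> simp <;> ring
    have h7 : ∑ j : Fin n, -2 * (sg b 0 0 * sg b 0 i.succ) *
        (matZ (red b) i j * (sg b 0 j.succ * v j.succ)) = 0 := by
      rw [← sum_congr rfl fun j _ => hterm j, sum_sub_distrib, ← mul_sum]
      have h8 : (0 : Fin (n + 1) → ℤ) i.succ = 0 := rfl
      have h9 : (0 : Fin (n + 1) → ℤ) 0 = 0 := rfl
      rw [h8] at hi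
      rw [h9] at h0
      have h10 : ∑ j : Fin n, sg b i.succ j.succ * v j.succ = - (sg b 0 i.succ * v 0) := by linarith
      have h11 : ∑ j : Fin n, sg b 0 j.succ * v j.succ = - (sg b 0 0 * v 0) := by linarith
      rw [h10, h11]
      have : sg b 0 0 * sg b 0 i.succ * -(sg b 0 0 * v 0) =
          - ((sg b 0 0 * sg b 0 0) * (sg b 0 i.succ * v 0)) := by ring
      rw [this, h00]; ring
    rw [← mul_sum] at h7
    have h12 : -2 * (sg b 0 0 * sg b 0 i.succ) ≠ 0 := by
      unfold sg; split_ifs <;> norm_num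
    rcases mul_eq_zero.1 h7 with h13 | h13
    · exact absurd h13 h12
    · exact h13

theorem card_sg_le (n : ℕ) :
    ((univ : Finset (Sym2 (Fin (n + 1)) → Bool)).filter fun b => (sg b).det = 0).card ≤
      2 ^ (n + 1) * ((univ : Finset (Sym2 (Fin n) → Bool)).filter fun b => (matZ b).det = 0).card := by
  classical
  have h := Finset.card_le_card_of_injOn (s := (univ : Finset (Sym2 (Fin (n + 1)) → Bool)).filter fun b => (sg b).det = 0)
    (t := (univ : Finset (Fin (n + 1) → Bool)) ×ˢ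
      ((univ : Finset (Sym2 (Fin n) → Bool)).filter fun b => (matZ b).det = 0))
    (fun b => (fun j => b s(0, j), red b)) ?_ ?_
  · rw [card_product, card_univ, Fintype.card_fun, Fintype.card_bool, Fintype.card_fin] at h
    exact h
  · intro b hb
    simp only [coe_filter, mem_univ, true_and, Set.mem_ofPred_eq] at hb
    simp only [coe_product, coe_univ, coe_filter, mem_univ, true_and, Set.mem_prod, Set.mem_univ,
      Set.mem_ofPred_eq]
    exact det_red b hb
  · intro b _ b' _ hbb
    simp only [Prod.mk.injEq] at hbb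
    obtain ⟨h1, h2⟩ := hbb
    funext e
    induction e using Sym2.ind with
    | _ i j =>
      refine Fin.cases ?_ (fun i => ?_) i
      · exact congrFun h1 j
      · refine Fin.cases ?_ (fun j => ?_) j
        · rw [Sym2.eq_swap]; exact congrFun h1 i.succ
        · have h3 := congrFun h2 s(i, j)
          rw [red_mk, red_mk] at h3
          have ha : b s(0, 0) = b' s(0, 0) := congrFun h1 0
          have hb : b s(0, i.succ) = b' s(0, i.succ) := congrFun h1 i.succ
          have hc : b s(0, j.succ) = b' s(0, j.succ) := congrFun h1 j.succ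
          rw [ha, hb, hc] at h3
          revert h3
          cases b s(i.succ, j.succ) <;> cases b' s(i.succ, j.succ) <;> simp


/-! ### Coranks -/

/-- the rational matrix -/
def MQ {n : ℕ} (b : Sym2 (Fin n) → Bool) : Matrix (Fin n) (Fin n) ℚ := (matZ b).map (Int.cast : ℤ → ℚ)

/-- corank over `ℚ` -/
noncomputable def cork {n : ℕ} (b : Sym2 (Fin n) → Bool) : ℕ :=
  Module.finrank ℚ (LinearMap.ker (MQ b).mulVecLin)

/-- deletion of the index `i` -/
def del {n : ℕ} (i : Fin (n + 1)) (b : Sym2 (Fin (n + 1)) → Bool) : Sym2 (Fin n) → Bool :=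
  fun e => b (e.map i.succAbove)

theorem MQ_del {n : ℕ} (i : Fin (n + 1)) (b : Sym2 (Fin (n + 1)) → Bool) (j k : Fin n) :
    MQ (del i b) j k = MQ b (i.succAbove j) (i.succAbove k) := rfl

theorem MQ_symm {n : ℕ} (b : Sym2 (Fin n) → Bool) (j k : Fin n) : MQ b j k = MQ b k j := by
  unfold MQ; rw [map_apply, map_apply, matZ_symm]

/-- extension by zero at `i` -/
def ext0 {n : ℕ} (i : Fin (n + 1)) : (Fin n → ℚ) →ₗ[ℚ] (Fin (n + 1) → ℚ) where
  toFun u := i.insertNth 0 u
  map_add' u v := by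
    funext k
    refine Fin.succAboveCases i ?_ (fun k => ?_) k
    · simp
    · simp
  map_smul' c u := by
    funext k
    refine Fin.succAboveCases i ?_ (fun k => ?_) k
    · simp
    · simp

theorem ext0_same {n : ℕ} (i : Fin (n + 1)) (u : Fin n → ℚ) : ext0 i u i = 0 := by
  simp [ext0]

theorem ext0_above {n : ℕ} (i : Fin (n + 1)) (u : Fin n → ℚ) (k : Fin n) :
    ext0 i u (i.succAbove k) = u k := by
  simp [ext0]

theorem ext0_injective {n : ℕ} (i : Fin (n + 1)) : Function.Injective (ext0 i) := by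
  intro u v h
  funext k
  rw [← ext0_above i u k, h, ext0_above]

theorem MQ_ext0 {n : ℕ} (i : Fin (n + 1)) (b : Sym2 (Fin (n + 1)) → Bool) (u : Fin n → ℚ)
    (k : Fin (n + 1)) : (MQ b *ᵥ ext0 i u) k = ∑ j : Fin n, MQ b k (i.succAbove j) * u j := by
  rw [mulVec, dotProduct, Fin.sum_univ_succAbove _ i, ext0_same, mul_zero, zero_add]
  exact sum_congr rfl fun j _ => by rw [ext0_above]

section cork
variable {n : ℕ} (i : Fin (n + 1)) (b : Sym2 (Fin (n + 1)) → Bool) (w : Fin (n + 1) → ℚ)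

/-- the column `i` is orthogonal to the kernel of the deleted matrix -/
theorem col_perp (hw : MQ b *ᵥ w = 0) (hwi : w i ≠ 0) (u : Fin n → ℚ)
    (hu : MQ (del i b) *ᵥ u = 0) : ∑ j : Fin n, MQ b i (i.succAbove j) * u j = 0 := by
  have h1 : w ⬝ᵥ (MQ b *ᵥ ext0 i u) = 0 := by
    rw [dotProduct_mulVec]
    have h2 : w ᵥ* MQ b = MQ b *ᵥ w := by
      funext k
      rw [vecMul, mulVec, dotProduct_comm]
      congr 1
      funext j
      exact MQ_symm b j k
    rw [h2, hw, zero_dotProduct]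
  rw [dotProduct, Fin.sum_univ_succAbove _ i] at h1
  have h3 : ∀ k : Fin n, (MQ b *ᵥ ext0 i u) (i.succAbove k) = 0 := by
    intro k
    rw [MQ_ext0]
    have := congrFun hu k
    rw [mulVec, dotProduct] at this
    exact this
  rw [sum_eq_zero (fun k _ => by rw [h3 k, mul_zero]), add_zero, MQ_ext0] at h1
  exact (mul_eq_zero.1 h1).resolve_left hwi

theorem ker_del (hw : MQ b *ᵥ w = 0) (hwi : w i ≠ 0) :
    cork (del i b) + 1 = cork b := by
  -- the kernel of `b` is the sum of the line of `w` and the image of the kernel of `del i b`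
  let K := LinearMap.ker (MQ b).mulVecLin
  let K' := LinearMap.ker (MQ (del i b)).mulVecLin
  let f : K →ₗ[ℚ] ℚ := (LinearMap.proj i).comp K.subtype
  have hf : Function.Surjective f := by
    intro c
    refine ⟨⟨(c / w i) • w, ?_⟩, ?_⟩
    · show (MQ b).mulVecLin _ = 0
      rw [map_smul, mulVecLin_apply, hw, smul_zero]
    · show (c / w i) • w i = c
      rw [smul_eq_mul, div_mul_cancel₀ _ hwi]
  have h1 := LinearMap.finrank_range_add_finrank_ker f
  rw [LinearMap.range_eq_top.2 hf, finrank_top, Module.finrank_self] at h1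
  have h2 : Module.finrank ℚ (LinearMap.ker f) = Module.finrank ℚ K' := by
    let g : K' →ₗ[ℚ] LinearMap.ker f :=
      { toFun := fun u => ⟨⟨ext0 i u.1, by
            show (MQ b).mulVecLin _ = 0
            rw [mulVecLin_apply]
            funext k
            have hu : MQ (del i b) *ᵥ u.1 = 0 := by
              have := u.2
              rwa [LinearMap.mem_ker, mulVecLin_apply] at this
            refine Fin.succAboveCases i ?_ (fun k => ?_) k
            · rw [MQ_ext0]
              exact col_perp i b w hw hwi u.1 hu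
            · rw [MQ_ext0]
              have := congrFun hu k
              rw [mulVec, dotProduct] at this
              exact this⟩, by
            show (ext0 i u.1) i = 0
            rw [ext0_same]⟩
        map_add' := fun u v => by
          apply Subtype.ext; apply Subtype.ext
          show ext0 i (u.1 + v.1) = ext0 i u.1 + ext0 i v.1
          rw [map_add]
        map_smul' := fun c u => by
          apply Subtype.ext; apply Subtype.ext
          show ext0 i (c • u.1) = c • ext0 i u.1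
          rw [map_smul] }
    have hg1 : Function.Injective g := by
      intro u v h
      apply Subtype.ext
      apply ext0_injective i
      have := congrArg (fun x => x.1.1) h
      exact this
    have hg2 : Function.Surjective g := by
      rintro ⟨⟨v, hv⟩, hv0⟩
      have hvi : v i = 0 := hv0
      have hvk : MQ b *ᵥ v = 0 := by
        rwa [LinearMap.mem_ker, mulVecLin_apply] at hv
      have hve : v = ext0 i (fun k => v (i.succAbove k)) := by
        funext k
        refine Fin.succAboveCases i ?_ (fun k => ?_) k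
        · rw [ext0_same, hvi]
        · rw [ext0_above]
      refine ⟨⟨fun k => v (i.succAbove k), ?_⟩, ?_⟩
      · rw [LinearMap.mem_ker, mulVecLin_apply]
        funext k
        have h3 := congrFun hvk (i.succAbove k)
        rw [hve, MQ_ext0] at h3
        rw [mulVec, dotProduct]
        exact h3
      · apply Subtype.ext; apply Subtype.ext
        exact hve.symm
    exact (LinearEquiv.ofBijective g ⟨hg1, hg2⟩).finrank_eq.symm
  unfold cork
  rw [← h1, h2, add_comm]

end cork


/-- the off-diagonal part of row `i` -/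
def rowi {n : ℕ} (i : Fin (n + 1)) (b : Sym2 (Fin (n + 1)) → Bool) : Fin n → Bool :=
  fun j => b s(i, i.succAbove j)

theorem exists_del {n r : ℕ} (b : Sym2 (Fin (n + 1)) → Bool) (h : cork b = r + 1) :
    ∃ i, cork (del i b) = r ∧ bq (rowi i b) ∈ LinearMap.range (MQ (del i b)).mulVecLin := by
  have h1 : LinearMap.ker (MQ b).mulVecLin ≠ ⊥ := by
    intro h0
    unfold cork at h
    rw [h0, finrank_bot] at h
    omega
  obtain ⟨w, hwk, hw0⟩ := Submodule.exists_mem_ne_zero_of_ne_bot h1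
  have hw : MQ b *ᵥ w = 0 := by rwa [LinearMap.mem_ker, mulVecLin_apply] at hwk
  obtain ⟨i, hi⟩ := Function.ne_iff.1 hw0
  have hwi : w i ≠ 0 := hi
  refine ⟨i, ?_, ?_⟩
  · have := ker_del i b w hw hwi
    omega
  · refine ⟨fun j => - (w (i.succAbove j) / w i), ?_⟩
    rw [mulVecLin_apply]
    funext k
    have h2 := congrFun hw (i.succAbove k)
    rw [mulVec, dotProduct, Fin.sum_univ_succAbove _ i] at h2
    have h3 : bq (rowi i b) k = MQ b (i.succAbove k) i := by
      rw [MQ_symm]
      show (if b s(i, i.succAbove k) = true then (1 : ℚ) else 0) =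
        (((if b s(i, i.succAbove k) = true then (1 : ℤ) else 0) : ℤ) : ℚ)
      split_ifs <;> simp
    rw [h3, mulVec, dotProduct]
    have h4 : ∑ j : Fin n, MQ (del i b) k j * -(w (i.succAbove j) / w i) =
        -(∑ j : Fin n, MQ b (i.succAbove k) (i.succAbove j) * w (i.succAbove j)) / w i := by
      rw [neg_div, sum_div, ← sum_neg_distrib]
      refine sum_congr rfl fun j _ => ?_
      rw [MQ_del]; ring
    have h5 : (0 : Fin (n + 1) → ℚ) (i.succAbove k) = 0 := rfl
    rw [h5] at h2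
    rw [h4, div_eq_iff hwi]
    linarith

theorem finrank_range_cork {n : ℕ} (b : Sym2 (Fin n) → Bool) :
    Module.finrank ℚ (LinearMap.range (MQ b).mulVecLin) = n - cork b := by
  have h1 := LinearMap.finrank_range_add_finrank_ker (MQ b).mulVecLin
  rw [Module.finrank_fin_fun] at h1
  unfold cork
  omega

open Classical in
/-- the bit arrays of corank `r` -/
noncomputable def SC (n r : ℕ) : Finset (Sym2 (Fin n) → Bool) := univ.filter fun b => cork b = r

open Classical in
theorem card_SC_succ (n r : ℕ) :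
    (SC (n + 1) (r + 1)).card ≤ (n + 1) * ((2 ^ (n - r) * 2) * (SC n r).card) := by
  set T : Fin (n + 1) → Finset (Sym2 (Fin (n + 1)) → Bool) := fun i => univ.filter fun b =>
    cork (del i b) = r ∧ bq (rowi i b) ∈ LinearMap.range (MQ (del i b)).mulVecLin with hT
  have hsub : SC (n + 1) (r + 1) ⊆ univ.biUnion T := by
    intro b hb
    obtain ⟨i, hi⟩ := exists_del b (mem_filter.1 hb).2
    exact mem_biUnion.2 ⟨i, mem_univ _, mem_filter.2 ⟨mem_univ _, hi⟩⟩
  have hcard : ∀ i ∈ (univ : Finset (Fin (n + 1))), (T i).card ≤ (2 ^ (n - r) * 2) * (SC n r).card := by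
    intro i _
    have himg : (T i).image (del i) ⊆ SC n r := by
      intro b' hb'
      obtain ⟨b, hb, rfl⟩ := mem_image.1 hb'
      exact mem_filter.2 ⟨mem_univ _, (mem_filter.1 hb).2.1⟩
    refine le_trans (Finset.card_le_mul_card_image (f := del i) (T i) (2 ^ (n - r) * 2) ?_)
      (Nat.mul_le_mul_left _ (card_le_card himg))
    intro b' hb'
    have hb'r : cork b' = r := (mem_filter.1 (himg hb')).2
    have h1 : ((T i).filter fun b => del i b = b').card ≤
        (pts (LinearMap.range (MQ b').mulVecLin) 0 ×ˢ (univ : Finset Bool)).card := by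
      refine Finset.card_le_card_of_injOn (fun b => (rowi i b, b s(i, i))) ?_ ?_
      · intro b hb
        rw [mem_coe, mem_filter] at hb
        obtain ⟨hb1, rfl⟩ := hb
        have := (mem_filter.1 hb1).2.2
        rw [mem_coe, mem_product]
        refine ⟨mem_pts.2 ?_, mem_univ _⟩
        rw [sub_zero]
        exact this
      · intro b hb c hc hbc
        rw [mem_coe, mem_filter] at hb hc
        simp only [Prod.mk.injEq] at hbc
        obtain ⟨h2, h3⟩ := hbc
        have h4 : del i b = del i c := hb.2.trans hc.2.symm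
        funext e
        induction e using Sym2.ind with
        | _ j k =>
          refine Fin.succAboveCases i ?_ (fun j => ?_) j
          · refine Fin.succAboveCases i ?_ (fun k => ?_) k
            · exact h3
            · exact congrFun h2 k
          · refine Fin.succAboveCases i ?_ (fun k => ?_) k
            · rw [Sym2.eq_swap]; exact congrFun h2 j
            · exact congrFun h4 s(j, k)
    refine h1.trans ?_
    rw [card_product, card_univ, Fintype.card_bool]
    refine Nat.mul_le_mul_right _ ?_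
    have h5 := card_pts_le (LinearMap.range (MQ b').mulVecLin) 0
    rwa [finrank_range_cork, hb'r] at h5
  calc (SC (n + 1) (r + 1)).card ≤ (univ.biUnion T).card := card_le_card hsub
    _ ≤ ∑ i, (T i).card := card_biUnion_le
    _ ≤ ∑ i : Fin (n + 1), (2 ^ (n - r) * 2) * (SC n r).card := sum_le_sum hcard
    _ = _ := by rw [sum_const, card_univ, Fintype.card_fin, smul_eq_mul]

theorem cork_le {n : ℕ} (b : Sym2 (Fin n) → Bool) : cork b ≤ n := by
  have h1 := LinearMap.finrank_range_add_finrank_ker (MQ b).mulVecLin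
  rw [Module.finrank_fin_fun] at h1
  unfold cork
  omega

/-- density -/
noncomputable def dS (n r : ℕ) : ℝ := ((SC n r).card : ℝ) / 2 ^ Fintype.card (Sym2 (Fin n))

theorem dS_nonneg (n r : ℕ) : 0 ≤ dS n r := by unfold dS; positivity

theorem dS_le_one (n r : ℕ) : dS n r ≤ 1 := by
  classical
  unfold dS
  rw [div_le_one (by positivity)]
  have : (SC n r).card ≤ 2 ^ Fintype.card (Sym2 (Fin n)) := by
    refine (card_le_univ _).trans ?_
    rw [Fintype.card_fun, Fintype.card_bool]
  exact_mod_cast this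

/-- **184's recursion** -/
theorem dS_succ (n r : ℕ) : dS (n + 1) (r + 1) ≤ (n + 1) * (1 / 2) ^ r * dS n r := by
  by_cases hr : n < r
  · have h0 : SC (n + 1) (r + 1) = ∅ := by
      classical
      apply Finset.eq_empty_of_forall_notMem
      intro b hb
      have h1 : cork b = r + 1 := (mem_filter.1 hb).2
      have := cork_le b
      omega
    have : dS (n + 1) (r + 1) = 0 := by unfold dS; rw [h0]; simp
    rw [this]
    have := dS_nonneg n r
    positivity
  push Not at hr
  have h1 : ((SC (n + 1) (r + 1)).card : ℝ) ≤ (n + 1) * ((2 ^ (n - r) * 2) * (SC n r).card) := by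
    exact_mod_cast card_SC_succ n r
  unfold dS
  rw [card_sym2_succ, div_le_iff₀ (by positivity)]
  refine h1.trans (le_of_eq ?_)
  have h2 : (2 : ℝ) ^ (n + 1) = 2 ^ r * (2 ^ (n - r) * 2) := by
    rw [← mul_assoc, ← pow_add, Nat.add_sub_cancel' hr, pow_succ]
  rw [pow_add, h2, one_div, inv_pow]
  field_simp


/-! ### From corank 1 to all singular matrices -/

/-- the statement that is left open: rate `1/2` for corank one -/
def Corank1Rate : Prop := ∀ ε : ℝ, 0 < ε → ∃ n₀ : ℕ, ∀ n ≥ n₀, dS n 1 ≤ (2 : ℝ) ^ (-((1 - ε) * n))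

theorem dS_iter (n r : ℕ) :
    dS (n + r) (1 + r) ≤ ((n + r : ℕ) : ℝ) ^ r * (1 / 2) ^ ((r + 1).choose 2) * dS n 1 := by
  induction r with
  | zero => simp
  | succ r ih =>
    have h1 := dS_succ (n + r) (1 + r)
    have h2 : dS (n + (r + 1)) (1 + (r + 1)) ≤ ((n + r : ℕ) + 1 : ℝ) * (1 / 2) ^ (1 + r) * dS (n + r) (1 + r) := h1
    refine h2.trans ?_
    have h4 : ((n + r : ℕ) : ℝ) ≤ ((n + (r + 1) : ℕ) : ℝ) := by push_cast; linarith
    have h5 : ((n + r : ℕ) + 1 : ℝ) = ((n + (r + 1) : ℕ) : ℝ) := by push_cast; ring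
    have h6 : (r + 1 + 1).choose 2 = (r + 1).choose 2 + (1 + r) := by
      rw [Nat.choose_succ_succ' (r + 1) 1, Nat.choose_one_right]
      ring
    rw [h5, h6]
    calc ((n + (r + 1) : ℕ) : ℝ) * (1 / 2) ^ (1 + r) * dS (n + r) (1 + r)
        ≤ ((n + (r + 1) : ℕ) : ℝ) * (1 / 2) ^ (1 + r) *
          (((n + r : ℕ) : ℝ) ^ r * (1 / 2) ^ ((r + 1).choose 2) * dS n 1) := by
          exact mul_le_mul_of_nonneg_left ih (by positivity)
      _ ≤ ((n + (r + 1) : ℕ) : ℝ) * (1 / 2) ^ (1 + r) *
          (((n + (r + 1) : ℕ) : ℝ) ^ r * (1 / 2) ^ ((r + 1).choose 2) * dS n 1) := by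
          have := dS_nonneg n 1
          gcongr
      _ = _ := by rw [pow_add (1 / 2 : ℝ) _ (1 + r), pow_succ]; ring

theorem dS_le (n r : ℕ) (hr : r ≤ n) :
    dS n (r + 1) ≤ (n : ℝ) ^ r * (1 / 2) ^ ((r + 1).choose 2) * dS (n - r) 1 := by
  have h := dS_iter (n - r) r
  rw [Nat.sub_add_cancel hr, add_comm 1 r] at h
  exact h

open Classical in
/-- all singular 0/1 matrices -/
noncomputable def sing01 (n : ℕ) : ℝ :=
  (((univ : Finset (Sym2 (Fin n) → Bool)).filter fun b => (matZ b).det = 0).card : ℝ) /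
    2 ^ Fintype.card (Sym2 (Fin n))

theorem cork_pos_of_det {n : ℕ} (b : Sym2 (Fin n) → Bool) (h : (matZ b).det = 0) : 1 ≤ cork b := by
  obtain ⟨v, hv0, hv⟩ := Matrix.exists_mulVec_eq_zero_iff.2 h
  unfold cork
  rw [Nat.one_le_iff_ne_zero]
  intro h0
  have h1 : LinearMap.ker (MQ b).mulVecLin = ⊥ := Submodule.finrank_eq_zero.1 h0
  apply hv0
  have h2 : (fun i => (v i : ℚ)) ∈ LinearMap.ker (MQ b).mulVecLin := by
    rw [LinearMap.mem_ker, mulVecLin_apply]
    funext i
    have h3 := congrFun hv i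
    have h4 : (MQ b *ᵥ fun i => (v i : ℚ)) i = (((matZ b *ᵥ v) i : ℤ) : ℚ) := by
      rw [mulVec, dotProduct, mulVec, dotProduct, Int.cast_sum]
      exact sum_congr rfl fun j _ => by rw [Int.cast_mul]; rfl
    rw [h4, h3]
    simp
  rw [h1, Submodule.mem_bot] at h2
  funext i
  have h5 : ((v i : ℤ) : ℚ) = 0 := congrFun h2 i
  have h6 : v i = 0 := by exact_mod_cast h5
  exact h6

theorem sing01_le (n : ℕ) : sing01 n ≤ ∑ r ∈ range n, dS n (r + 1) := by
  classical
  have hsub : ((univ : Finset (Sym2 (Fin n) → Bool)).filter fun b => (matZ b).det = 0) ⊆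
      (range n).biUnion fun r => SC n (r + 1) := by
    intro b hb
    have h2 := cork_pos_of_det b (mem_filter.1 hb).2
    have h3 := cork_le b
    exact mem_biUnion.2 ⟨cork b - 1, mem_range.2 (by omega), mem_filter.2 ⟨mem_univ _, by omega⟩⟩
  have h4 : (((univ : Finset (Sym2 (Fin n) → Bool)).filter fun b => (matZ b).det = 0).card : ℝ) ≤
      ∑ r ∈ range n, ((SC n (r + 1)).card : ℝ) := by
    have h5 := (card_le_card hsub).trans card_biUnion_le
    exact_mod_cast h5
  unfold sing01
  calc _ ≤ (∑ r ∈ range n, ((SC n (r + 1)).card : ℝ)) / 2 ^ Fintype.card (Sym2 (Fin n)) := by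
        gcongr
    _ = _ := by rw [sum_div]; rfl

/-- the statement for all singular 0/1 matrices -/
def Sing01Rate : Prop := ∀ ε : ℝ, 0 < ε → ∃ n₀ : ℕ, ∀ n ≥ n₀, sing01 n ≤ (2 : ℝ) ^ (-((1 - ε) * n))

theorem pow_bound (n r : ℕ) (hn : 1 ≤ n) :
    (n : ℝ) ^ r * (1 / 2) ^ ((r + 1).choose 2) * 2 ^ (r : ℝ) ≤
      (2 : ℝ) ^ ((Real.logb 2 (2 * n)) ^ 2) := by
  set ℓ := Real.logb 2 (2 * n) with hℓ
  have hn' : (0 : ℝ) < n := by exact_mod_cast hn
  have h1 : (2 : ℝ) ^ ℓ = 2 * n := Real.rpow_logb (by norm_num) (by norm_num) (by positivity)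
  have h2 : (n : ℝ) ^ r * 2 ^ (r : ℝ) = (2 : ℝ) ^ (ℓ * r) := by
    rw [Real.rpow_mul (by norm_num), h1, Real.rpow_natCast, Real.rpow_natCast, mul_pow, mul_comm]
  have h3 : (1 / 2 : ℝ) ^ ((r + 1).choose 2) = (2 : ℝ) ^ (-((r + 1) * r / 2 : ℝ)) := by
    rw [Real.rpow_neg (by norm_num), one_div, inv_pow, ← Real.rpow_natCast]
    congr 2
    rw [Nat.cast_choose_two]
    push_cast
    ring
  calc (n : ℝ) ^ r * (1 / 2) ^ ((r + 1).choose 2) * 2 ^ (r : ℝ) =
        (n : ℝ) ^ r * 2 ^ (r : ℝ) * (1 / 2) ^ ((r + 1).choose 2) := by ring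
    _ = (2 : ℝ) ^ (ℓ * r - (r + 1) * r / 2) := by
        rw [h2, h3, ← Real.rpow_add (by norm_num)]
        congr 1
    _ ≤ (2 : ℝ) ^ (ℓ ^ 2) := by
        apply Real.rpow_le_rpow_of_exponent_le (by norm_num)
        nlinarith [sq_nonneg (ℓ - r), sq_nonneg (ℓ), (Nat.cast_nonneg r : (0 : ℝ) ≤ r)]

theorem hlim_aux (n₀ : ℕ) (ε : ℝ) (hε : 0 < ε) : ∀ᶠ n : ℕ in Filter.atTop,
    Real.logb 2 (2 * n) + n₀ + (Real.logb 2 (2 * n)) ^ 2 ≤ ε / 2 * n := by
  have hl2 : 0 < Real.log 2 := Real.log_pos (by norm_num)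
  set c : ℝ := ε / 12 * (Real.log 2) ^ 2 with hc
  have hc0 : 0 < c := by positivity
  have hl1 : Real.log 2 ≤ 1 := by have := Real.log_two_lt_d9; linarith
  have h1 : ∀ᶠ x : ℝ in Filter.atTop, Real.log x ≤ c * x := by
    filter_upwards [Real.isLittleO_log_id_atTop.bound hc0, Filter.eventually_ge_atTop 1] with x hx hx1
    rw [id, Real.norm_of_nonneg (Real.log_nonneg hx1), Real.norm_of_nonneg (by linarith)] at hx
    exact hx
  have h2 : ∀ᶠ x : ℝ in Filter.atTop, Real.log x ^ 2 ≤ c * x := by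
    filter_upwards [(Real.isLittleO_pow_log_id_atTop (n := 2)).bound hc0, Filter.eventually_ge_atTop 1] with x hx hx1
    rw [id, Real.norm_of_nonneg (by positivity), Real.norm_of_nonneg (by linarith)] at hx
    exact hx
  have h3 : ∀ᶠ x : ℝ in Filter.atTop, (n₀ : ℝ) ≤ ε / 12 * x :=
    (Filter.tendsto_id.const_mul_atTop (by positivity : (0 : ℝ) < ε / 12)).eventually_ge_atTop _
  have htend : Filter.Tendsto (fun n : ℕ => (2 : ℝ) * n) Filter.atTop Filter.atTop :=
    tendsto_natCast_atTop_atTop.const_mul_atTop (by norm_num)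
  filter_upwards [htend.eventually h1, htend.eventually h2, htend.eventually h3] with n a1 a2 a3
  have b2 : (Real.logb 2 (2 * n)) ^ 2 ≤ ε / 12 * (2 * n) := by
    rw [Real.logb, div_pow, div_le_iff₀ (by positivity)]
    calc _ ≤ c * (2 * n) := a2
      _ = _ := by rw [hc]; ring
  have b1 : Real.logb 2 (2 * n) ≤ ε / 12 * (2 * n) := by
    rw [Real.logb, div_le_iff₀ hl2]
    have h5 : (Real.log 2) ^ 2 ≤ Real.log 2 := by nlinarith
    have h6 : (0 : ℝ) ≤ n := by positivity
    calc _ ≤ c * (2 * n) := a1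
      _ = ε / 12 * (2 * n) * (Real.log 2) ^ 2 := by rw [hc]; ring
      _ ≤ _ := mul_le_mul_of_nonneg_left h5 (by positivity)
  linarith

theorem sing01Rate_of_corank1 (h : Corank1Rate) : Sing01Rate := by
  intro ε hε
  obtain ⟨n₀, hn₀⟩ := h (min (ε / 2) 1) (lt_min (by linarith) one_pos)
  set δ := min (ε / 2) 1 with hδ
  have hδ1 : δ ≤ 1 := min_le_right _ _
  have hδ2 : δ ≤ ε / 2 := min_le_left _ _
  have hδ0 : 0 < δ := lt_min (by linarith) one_pos
  have hall : ∀ m : ℕ, dS m 1 ≤ 2 ^ (n₀ : ℝ) * (2 : ℝ) ^ (-((1 - δ) * m)) := by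
    intro m
    by_cases hm : n₀ ≤ m
    · refine (hn₀ m hm).trans ?_
      have h1 : (1 : ℝ) ≤ 2 ^ (n₀ : ℝ) := Real.one_le_rpow (by norm_num) (by positivity)
      have h2 : (0 : ℝ) < (2 : ℝ) ^ (-((1 - δ) * m)) := by positivity
      nlinarith
    · push Not at hm
      refine (dS_le_one m 1).trans ?_
      rw [← Real.rpow_add (by norm_num)]
      apply Real.one_le_rpow (by norm_num)
      have h3 : (m : ℝ) ≤ n₀ := by exact_mod_cast hm.le
      have h4 : (0 : ℝ) ≤ m := by positivity
      nlinarith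
  -- the numerical condition
  have hlim : ∀ᶠ n : ℕ in Filter.atTop, Real.logb 2 (2 * n) + n₀ + (Real.logb 2 (2 * n)) ^ 2 ≤ ε / 2 * n :=
    hlim_aux n₀ ε hε
  obtain ⟨n₁, hn₁⟩ := Filter.eventually_atTop.1 hlim
  refine ⟨max n₁ 1, fun n hn => ?_⟩
  have hn1 : 1 ≤ n := (le_max_right _ _).trans hn
  have hnum := hn₁ n ((le_max_left _ _).trans hn)
  have hn' : (0 : ℝ) < n := by exact_mod_cast hn1
  set ℓ := Real.logb 2 (2 * n) with hℓ
  have hterm : ∀ r ∈ range n, dS n (r + 1) ≤
      (2 : ℝ) ^ (ℓ ^ 2) * 2 ^ (n₀ : ℝ) * (2 : ℝ) ^ (-((1 - δ) * n)) := by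
    intro r hr
    have hrn : r ≤ n := (mem_range.1 hr).le
    refine (dS_le n r hrn).trans ?_
    have h1 := hall (n - r)
    have h2 : (2 : ℝ) ^ (-((1 - δ) * ((n - r : ℕ) : ℝ))) ≤ (2 : ℝ) ^ (-((1 - δ) * n)) * 2 ^ (r : ℝ) := by
      rw [← Real.rpow_add (by norm_num)]
      apply Real.rpow_le_rpow_of_exponent_le (by norm_num)
      rw [Nat.cast_sub hrn]
      have : (0 : ℝ) ≤ r := by positivity
      nlinarith
    calc (n : ℝ) ^ r * (1 / 2) ^ ((r + 1).choose 2) * dS (n - r) 1
        ≤ (n : ℝ) ^ r * (1 / 2) ^ ((r + 1).choose 2) *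
          (2 ^ (n₀ : ℝ) * ((2 : ℝ) ^ (-((1 - δ) * n)) * 2 ^ (r : ℝ))) := by
          apply mul_le_mul_of_nonneg_left _ (by positivity)
          exact h1.trans (mul_le_mul_of_nonneg_left h2 (by positivity))
      _ = ((n : ℝ) ^ r * (1 / 2) ^ ((r + 1).choose 2) * 2 ^ (r : ℝ)) *
          (2 ^ (n₀ : ℝ) * (2 : ℝ) ^ (-((1 - δ) * n))) := by ring
      _ ≤ (2 : ℝ) ^ (ℓ ^ 2) * (2 ^ (n₀ : ℝ) * (2 : ℝ) ^ (-((1 - δ) * n))) :=
          mul_le_mul_of_nonneg_right (pow_bound n r hn1) (by positivity)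
      _ = _ := by ring
  refine (sing01_le n).trans ((sum_le_sum hterm).trans ?_)
  rw [sum_const, card_range, nsmul_eq_mul]
  have h1 : (n : ℝ) ≤ (2 : ℝ) ^ ℓ := by
    rw [hℓ, Real.rpow_logb (by norm_num) (by norm_num) (by positivity)]
    linarith
  calc (n : ℝ) * ((2 : ℝ) ^ (ℓ ^ 2) * 2 ^ (n₀ : ℝ) * (2 : ℝ) ^ (-((1 - δ) * n)))
      ≤ (2 : ℝ) ^ ℓ * ((2 : ℝ) ^ (ℓ ^ 2) * 2 ^ (n₀ : ℝ) * (2 : ℝ) ^ (-((1 - δ) * n))) :=
        mul_le_mul_of_nonneg_right h1 (by positivity)
    _ = (2 : ℝ) ^ (ℓ + (ℓ ^ 2 + n₀ + (-((1 - δ) * n)))) := by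
        rw [Real.rpow_add (by norm_num) ℓ, Real.rpow_add (by norm_num) (ℓ ^ 2 + n₀),
          Real.rpow_add (by norm_num) (ℓ ^ 2)]
    _ ≤ (2 : ℝ) ^ (-((1 - ε) * n)) := by
        apply Real.rpow_le_rpow_of_exponent_le (by norm_num)
        nlinarith


/-! ### The limit for sign matrices -/

/-- The set of all symmetric `n × n` integer matrices with every entry equal to `1` or `-1`. -/
def SymmetricSignMatrices (n : ℕ) : Set (Matrix (Fin n) (Fin n) ℤ) :=
  {A | A.IsSymm ∧ ∀ i j, A i j = 1 ∨ A i j = -1}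

/-- The probability that a uniformly random symmetric sign matrix of size `n` is singular. -/
noncomputable def q (n : ℕ) : ℝ :=
  (Set.ncard {A : Matrix (Fin n) (Fin n) ℤ | A ∈ SymmetricSignMatrices n ∧ A.det = 0} : ℝ) /
    (Set.ncard (SymmetricSignMatrices n) : ℝ)

theorem sg_injective (n : ℕ) : Function.Injective (sg (n := n)) := by
  intro b b' h
  funext e
  induction e using Sym2.ind with
  | _ i j =>
    have h1 := congrFun (congrFun h i) j
    unfold sg at h1
    by_cases hb : b s(i, j) = true <;> by_cases hb' : b' s(i, j) = true <;> simp_all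

theorem range_sg (n : ℕ) : Set.range (sg (n := n)) = SymmetricSignMatrices n := by
  ext A
  constructor
  · rintro ⟨b, rfl⟩
    refine ⟨?_, fun i j => ?_⟩
    · ext i j
      rw [Matrix.transpose_apply]
      unfold sg
      rw [Sym2.eq_swap]
    · unfold sg
      split_ifs
      · exact Or.inr rfl
      · exact Or.inl rfl
  · rintro ⟨hs, hA⟩
    refine ⟨Sym2.lift ⟨fun i j => decide (A i j = -1), fun i j => ?_⟩, ?_⟩
    · have := hs.apply i j
      show decide (A i j = -1) = decide (A j i = -1)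
      rw [this]
    · ext i j
      unfold sg
      rw [Sym2.lift_mk]
      rcases hA i j with h | h
      · simp [h]
      · simp [h]

open Classical in
theorem q_eq (n : ℕ) : q n =
    (((univ : Finset (Sym2 (Fin n) → Bool)).filter fun b => (sg b).det = 0).card : ℝ) /
      2 ^ Fintype.card (Sym2 (Fin n)) := by
  have h1 : {A : Matrix (Fin n) (Fin n) ℤ | A ∈ SymmetricSignMatrices n ∧ A.det = 0} =
      sg '' {b : Sym2 (Fin n) → Bool | (sg b).det = 0} := by
    ext A
    constructor
    · rintro ⟨hA, hdet⟩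
      rw [← range_sg] at hA
      obtain ⟨b, rfl⟩ := hA
      exact ⟨b, hdet, rfl⟩
    · rintro ⟨b, hb, rfl⟩
      exact ⟨by rw [← range_sg]; exact ⟨b, rfl⟩, hb⟩
  have h2 : Set.ncard {b : Sym2 (Fin n) → Bool | (sg b).det = 0} =
      (Finset.univ.filter (fun b : Sym2 (Fin n) → Bool => (sg b).det = 0)).card := by
    rw [← Set.ncard_coe_finset]
    congr 1
    ext b
    simp
  have h3 : Set.ncard (SymmetricSignMatrices n) = 2 ^ Fintype.card (Sym2 (Fin n)) := by
    rw [← range_sg, ← Set.image_univ, Set.ncard_image_of_injective _ (sg_injective n),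
      Set.ncard_univ, Nat.card_eq_fintype_card, Fintype.card_fun, Fintype.card_bool]
  unfold q
  rw [h1, Set.ncard_image_of_injective _ (sg_injective n), h2, h3]
  push_cast
  congr!

theorem q_nonneg (n : ℕ) : 0 ≤ q n := by
  unfold q
  positivity

theorem q_succ_le (n : ℕ) : q (n + 1) ≤ sing01 n := by
  classical
  rw [q_eq]
  unfold sing01
  have h := card_sg_le n
  have h1 : ((((univ : Finset (Sym2 (Fin (n + 1)) → Bool)).filter fun b => (sg b).det = 0).card : ℕ) : ℝ) ≤
      2 ^ (n + 1) * (((univ : Finset (Sym2 (Fin n) → Bool)).filter fun b => (matZ b).det = 0).card : ℝ) := by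
    have h2 : ((univ : Finset (Sym2 (Fin (n + 1)) → Bool)).filter fun b => (sg b).det = 0).card ≤
      2 ^ (n + 1) * ((univ : Finset (Sym2 (Fin n) → Bool)).filter fun b => (matZ b).det = 0).card := by
      convert h
    exact_mod_cast h2
  rw [card_sym2_succ, pow_add, div_le_div_iff₀ (by positivity) (by positivity)]
  calc _ ≤ (2 ^ (n + 1) * (((univ : Finset (Sym2 (Fin n) → Bool)).filter fun b => (matZ b).det = 0).card : ℝ)) *
        2 ^ Fintype.card (Sym2 (Fin n)) := by
        apply mul_le_mul_of_nonneg_right h1 (by positivity)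
    _ = _ := by ring

/-- lower bound: the first two rows are equal -/
theorem q_lower (n : ℕ) : (2 : ℝ) ^ (-((n + 2 : ℕ) : ℝ)) ≤ q (n + 2) := by
  classical
  rw [q_eq]
  let ρ : Fin (n + 2) → Fin (n + 1) := Fin.predAbove 0
  have hρ : Function.Surjective ρ := fun i => ⟨i.succ, by simp [ρ]⟩
  have hρ0 : ρ 0 = 0 := by simp [ρ]
  have hρ1 : ρ 1 = 0 := by simp [ρ]
  have hle : 2 ^ Fintype.card (Sym2 (Fin (n + 1))) ≤
      ((univ : Finset (Sym2 (Fin (n + 2)) → Bool)).filter fun b => (sg b).det = 0).card := by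
    have h := Finset.card_le_card_of_injOn (s := (univ : Finset (Sym2 (Fin (n + 1)) → Bool)))
      (t := (univ : Finset (Sym2 (Fin (n + 2)) → Bool)).filter fun b => (sg b).det = 0)
      (fun f e => f (e.map ρ)) ?_ ?_
    · rwa [card_univ, Fintype.card_fun, Fintype.card_bool] at h
    · intro f _
      rw [mem_coe, mem_filter]
      refine ⟨mem_univ _, ?_⟩
      refine Matrix.det_zero_of_row_eq (i := 0) (j := 1) (by simp) ?_
      funext j
      unfold sg
      simp only [Sym2.map_mk, hρ0, hρ1]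
    · intro f _ g _ hfg
      funext e
      induction e using Sym2.ind with
      | _ x y =>
        obtain ⟨x', rfl⟩ := hρ x
        obtain ⟨y', rfl⟩ := hρ y
        exact congrFun hfg s(x', y')
  rw [card_sym2_succ (n + 1), Real.rpow_neg (by norm_num), Real.rpow_natCast,
    pow_add (2 : ℝ) (Fintype.card (Sym2 (Fin (n + 1)))), le_div_iff₀ (by positivity)]
  have h2 : ((2 : ℝ) ^ (n + 2))⁻¹ * (2 ^ Fintype.card (Sym2 (Fin (n + 1))) * 2 ^ (n + 1 + 1)) =
      2 ^ Fintype.card (Sym2 (Fin (n + 1))) := by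
    field_simp
  rw [h2]
  exact_mod_cast hle

open Filter Topology in
/-- **The limit**: the rate for corank one gives `q n ^ (1 / n) → 1 / 2`. -/
theorem limit_of_corank1 (h : Corank1Rate) :
    Tendsto (fun n : ℕ => q n ^ (1 / (n : ℝ))) atTop (𝓝 (1 / 2)) := by
  have hs := sing01Rate_of_corank1 h
  rw [tendsto_order]
  constructor
  · intro a ha
    filter_upwards [eventually_ge_atTop 2] with n hn
    obtain ⟨m, rfl⟩ : ∃ m, n = m + 2 := ⟨n - 2, by omega⟩
    refine lt_of_lt_of_le ha ?_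
    have h1 := q_lower m
    have h2 : (0 : ℝ) < ((m + 2 : ℕ) : ℝ) := by positivity
    calc (1 / 2 : ℝ) = ((2 : ℝ) ^ (-((m + 2 : ℕ) : ℝ))) ^ (1 / ((m + 2 : ℕ) : ℝ)) := by
          rw [← Real.rpow_mul (by norm_num), neg_mul, mul_one_div_cancel h2.ne',
            Real.rpow_neg_one]
          norm_num
      _ ≤ _ := Real.rpow_le_rpow (by positivity) h1 (by positivity)
  · intro a ha
    -- choose ε with 2^(-(1-ε)) < a
    obtain ⟨ε, hε0, hε1, hεa⟩ : ∃ ε : ℝ, 0 < ε ∧ ε < 1 ∧ (2 : ℝ) ^ (-(1 - ε)) < a := by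
      have hcont : Tendsto (fun ε : ℝ => (2 : ℝ) ^ (-(1 - ε))) (𝓝[>] 0) (𝓝 ((2 : ℝ) ^ (-(1 - 0) : ℝ))) := by
        apply tendsto_nhdsWithin_of_tendsto_nhds
        apply Tendsto.rpow tendsto_const_nhds ?_ (Or.inl (by norm_num))
        exact (tendsto_const_nhds.sub tendsto_id).neg
      have h0 : (2 : ℝ) ^ (-(1 - 0) : ℝ) = 1 / 2 := by
        rw [sub_zero, Real.rpow_neg_one]; norm_num
      rw [h0] at hcont
      have hev := (hcont.eventually (gt_mem_nhds ha)).and
        (Ioo_mem_nhdsGT (by norm_num : (0 : ℝ) < 1))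
      obtain ⟨ε, h1, h2⟩ := hev.exists
      exact ⟨ε, h2.1, h2.2, h1⟩
    obtain ⟨n₀, hn₀⟩ := hs (ε / 2) (by linarith)
    have hev : ∀ᶠ n : ℕ in atTop, (1 : ℝ) ≤ ε / 2 * n :=
      (tendsto_natCast_atTop_atTop.const_mul_atTop (by positivity : (0 : ℝ) < ε / 2)).eventually_ge_atTop _
    filter_upwards [eventually_ge_atTop (n₀ + 1), hev] with n hn hn2
    obtain ⟨m, rfl⟩ : ∃ m, n = m + 1 := ⟨n - 1, by omega⟩
    have h1 : q (m + 1) ≤ (2 : ℝ) ^ (-((1 - ε) * ((m + 1 : ℕ) : ℝ))) := by
      refine (q_succ_le m).trans ((hn₀ m (by omega)).trans ?_)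
      apply Real.rpow_le_rpow_of_exponent_le (by norm_num)
      push_cast at hn2 ⊢
      nlinarith
    have h2 : (0 : ℝ) < ((m + 1 : ℕ) : ℝ) := by positivity
    refine lt_of_le_of_lt ?_ hεa
    calc q (m + 1) ^ (1 / ((m + 1 : ℕ) : ℝ)) ≤
          ((2 : ℝ) ^ (-((1 - ε) * ((m + 1 : ℕ) : ℝ)))) ^ (1 / ((m + 1 : ℕ) : ℝ)) :=
          Real.rpow_le_rpow (q_nonneg _) h1 (by positivity)
      _ = (2 : ℝ) ^ (-(1 - ε)) := by
          rw [← Real.rpow_mul (by norm_num)]
          congr 1
          field_simp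


theorem cork_add_rank {n : ℕ} (b : Sym2 (Fin n) → Bool) :
    ((matZ b).map (Int.cast : ℤ → ℚ)).rank + cork b = n := by
  have h1 := LinearMap.finrank_range_add_finrank_ker (MQ b).mulVecLin
  rw [Module.finrank_fin_fun] at h1
  exact h1

open Classical Filter Topology in
/-- the form with the rank -/
theorem limit_of_rank (h1 : ∀ ε : ℝ, 0 < ε → ∃ n₀ : ℕ, ∀ n ≥ n₀,
    (((univ : Finset (Sym2 (Fin n) → Bool)).filter fun b =>
      ((matZ b).map (Int.cast : ℤ → ℚ)).rank + 1 = n).card : ℝ) ≤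
      (2 : ℝ) ^ (-((1 - ε) * n)) * 2 ^ Fintype.card (Sym2 (Fin n))) :
    Tendsto (fun n : ℕ => q n ^ (1 / (n : ℝ))) atTop (𝓝 (1 / 2)) := by
  apply limit_of_corank1
  intro ε hε
  obtain ⟨n₀, hn₀⟩ := h1 ε hε
  refine ⟨n₀, fun n hn => ?_⟩
  unfold dS
  rw [div_le_iff₀ (by positivity)]
  refine le_trans ?_ (hn₀ n hn)
  have : SC n 1 ⊆ (univ : Finset (Sym2 (Fin n) → Bool)).filter fun b =>
      ((matZ b).map (Int.cast : ℤ → ℚ)).rank + 1 = n := by
    intro b hb
    have h2 : cork b = 1 := (mem_filter.1 hb).2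
    have h3 := cork_add_rank b
    rw [h2] at h3
    exact mem_filter.2 ⟨mem_univ _, h3⟩
  exact_mod_cast card_le_card this

end Vale.Agent.P160.Half.Shell748
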