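import Mathlib

/-!
# P160: the cost of the small primes in the final assembly

`S` a set of primes with `p ^ 2 ≤ n`, `Z p` the set of the indices `j` with `p ∣ v_j`, `r p` the corank.
-/

namespace Vale.Agent.P160.Half.SmallAvg514

open Finset

/-- `∑ log₂ p ≤ 2 x` over primes `p ≤ x` -/
theorem sum_logb_le (S : Finset ℕ) (x : ℕ) (hS : ∀ p ∈ S, p.Prime ∧ p ≤ x) :
    ∑ p ∈ S, Real.logb 2 p ≤ 2 * x := by
  have h1 : ∑ p ∈ S, Real.logb 2 (p : ℝ) = Real.logb 2 (((∏ p ∈ S, p : ℕ)) : ℝ) := by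
    rw [Nat.cast_prod, Real.logb_prod]
    intro p hp
    have := (hS p hp).1.pos
    positivity
  rw [h1]
  have h2 : (∏ p ∈ S, p) ≤ primorial x := by
    unfold primorial
    apply Finset.prod_le_prod_of_subset_of_one_le'
    · intro p hp
      rw [mem_filter, mem_range]
      exact ⟨Nat.lt_succ_of_le (hS p hp).2, (hS p hp).1⟩
    · intro p hp _
      rw [mem_filter] at hp
      exact hp.2.pos
  have h3 : (∏ p ∈ S, p) ≤ 4 ^ x := h2.trans (primorial_le_four_pow x)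
  have h4 : (0 : ℝ) < ((∏ p ∈ S, p : ℕ) : ℝ) := by
    have : 0 < ∏ p ∈ S, p := Finset.prod_pos fun p hp => (hS p hp).1.pos
    exact_mod_cast this
  have h5 : (((∏ p ∈ S, p : ℕ)) : ℝ) ≤ (4 : ℝ) ^ x := by exact_mod_cast h3
  calc Real.logb 2 (((∏ p ∈ S, p : ℕ)) : ℝ) ≤ Real.logb 2 ((4 : ℝ) ^ x) :=
        Real.logb_le_logb_of_le (by norm_num) h4 h5
    _ = 2 * x := by
        rw [Real.logb_pow]
        have : Real.logb 2 (4 : ℝ) = 2 := by
          rw [show (4 : ℝ) = 2 ^ (2 : ℝ) by norm_num, Real.logb_rpow (by norm_num) (by norm_num)]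
        rw [this]; ring

/-- the averaging, finite form -/
theorem avg_le {ι : Type*} [Fintype ι] [DecidableEq ι] (S : Finset ℕ) (x : ℕ)
    (hS : ∀ p ∈ S, p.Prime ∧ p ≤ x) (Z : ℕ → Finset ι) (r : ℕ → ℝ) (A B e : ℝ)
    (hr : ∀ p ∈ S, 0 ≤ r p) (hrA : ∀ p ∈ S, r p ≤ A) (hA : 0 ≤ A) (hB : 0 ≤ B)
    (hZ : ∀ p ∈ S, ((Z p).card : ℝ) ≤ B) :
    ((univ.filter fun j : ι => e < ∑ p ∈ S.filter (fun p => j ∈ Z p), r p * Real.logb 2 p).card : ℝ) *
      e ≤ A * B * (2 * x) := by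
  classical
  have hl : ∀ p ∈ S, 0 ≤ Real.logb 2 (p : ℝ) := by
    intro p hp
    apply Real.logb_nonneg (by norm_num)
    exact_mod_cast (hS p hp).1.one_le
  have h1 : ∑ j : ι, ∑ p ∈ S.filter (fun p => j ∈ Z p), r p * Real.logb 2 p =
      ∑ p ∈ S, ((Z p).card : ℝ) * (r p * Real.logb 2 p) := by
    simp only [sum_filter]
    rw [sum_comm]
    refine sum_congr rfl fun p _ => ?_
    rw [← sum_filter, sum_const, nsmul_eq_mul]
    congr 2
    congr 1
    ext j; simp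
  have h2 : ∑ p ∈ S, ((Z p).card : ℝ) * (r p * Real.logb 2 p) ≤ A * B * (2 * x) := by
    calc ∑ p ∈ S, ((Z p).card : ℝ) * (r p * Real.logb 2 p)
        ≤ ∑ p ∈ S, B * (A * Real.logb 2 p) := by
          refine sum_le_sum fun p hp => ?_
          exact mul_le_mul (hZ p hp) (mul_le_mul_of_nonneg_right (hrA p hp) (hl p hp))
            (mul_nonneg (hr p hp) (hl p hp)) hB
      _ = A * B * ∑ p ∈ S, Real.logb 2 (p : ℝ) := by
          rw [mul_sum]; refine sum_congr rfl fun p _ => ?_; ring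
      _ ≤ A * B * (2 * x) := by
          apply mul_le_mul_of_nonneg_left (sum_logb_le S x hS) (mul_nonneg hA hB)
  have h3 : ((univ.filter fun j : ι => e < ∑ p ∈ S.filter (fun p => j ∈ Z p), r p * Real.logb 2 p).card : ℝ) *
      e ≤ ∑ j : ι, ∑ p ∈ S.filter (fun p => j ∈ Z p), r p * Real.logb 2 p := by
    rw [← nsmul_eq_mul, ← sum_const]
    calc ∑ _j ∈ (univ.filter fun j : ι => e < ∑ p ∈ S.filter (fun p => j ∈ Z p),
            r p * Real.logb 2 p), e
        ≤ ∑ j ∈ (univ.filter fun j : ι => e < ∑ p ∈ S.filter (fun p => j ∈ Z p),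
            r p * Real.logb 2 p), ∑ p ∈ S.filter (fun p => j ∈ Z p), r p * Real.logb 2 p := by
          refine sum_le_sum fun j hj => ?_
          exact (mem_filter.1 hj).2.le
      _ ≤ ∑ j : ι, ∑ p ∈ S.filter (fun p => j ∈ Z p), r p * Real.logb 2 p := by
          apply sum_le_sum_of_subset_of_nonneg (filter_subset _ _)
          intro j _ _
          apply sum_nonneg
          intro p hp
          have := (mem_filter.1 hp).1
          exact mul_nonneg (hr p this) (hl p this)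
  linarith [h1 ▸ h3]

/-- **Averaging over the index**: the primes `p` with `p ^ 2 ≤ n` cost at most `ε n` bits for all but `θ n`
indices. -/
theorem small_avg (C K θ ε : ℝ) (hC : 0 ≤ C) (hK : 0 ≤ K) (hθ : 0 < θ) (hε : 0 < ε) :
    ∃ n0 : ℕ, ∀ n ≥ n0, ∀ (ι : Type) [Fintype ι] [DecidableEq ι] (S : Finset ℕ) (Z : ℕ → Finset ι)
      (r : ℕ → ℝ), (∀ p ∈ S, p.Prime ∧ p ^ 2 ≤ n) → (∀ p ∈ S, 0 ≤ r p) →
      (∀ p ∈ S, r p ≤ C * Real.sqrt n) → (∀ p ∈ S, ((Z p).card : ℝ) * Real.log n ≤ K * n) →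
      ((univ.filter fun j : ι => ε * n < ∑ p ∈ S.filter (fun p => j ∈ Z p),
        r p * Real.logb 2 p).card : ℝ) ≤ θ * n := by
  have hlim : Filter.Tendsto (fun n : ℕ => Real.log (n : ℝ)) Filter.atTop Filter.atTop :=
    Real.tendsto_log_atTop.comp tendsto_natCast_atTop_atTop
  obtain ⟨n1, hn1⟩ := Filter.eventually_atTop.1
    ((hlim.eventually_ge_atTop (2 * C * K / (ε * θ))).and (hlim.eventually_gt_atTop 0))
  refine ⟨max n1 1, ?_⟩
  intro n hn ι _ _ S Z r hS hr hrC hZ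
  have hn1' := hn1 n (le_trans (le_max_left _ _) hn)
  have hnpos : (0 : ℝ) < n := by
    have : 1 ≤ n := le_trans (le_max_right _ _) hn
    exact_mod_cast this
  obtain ⟨hlog, hlog0⟩ := hn1'
  have hS' : ∀ p ∈ S, p.Prime ∧ p ≤ Nat.sqrt n := by
    intro p hp
    refine ⟨(hS p hp).1, ?_⟩
    rw [Nat.le_sqrt']
    exact (hS p hp).2
  have h := avg_le S (Nat.sqrt n) hS' Z r (C * Real.sqrt n) (K * n / Real.log n) (ε * n) hr hrC
    (by positivity) (by positivity) (fun p hp => by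
      rw [le_div_iff₀ hlog0]; exact hZ p hp)
  have hsq : ((Nat.sqrt n : ℕ) : ℝ) ≤ Real.sqrt n := by
    apply Real.le_sqrt_of_sq_le
    have := Nat.sqrt_le' n
    exact_mod_cast this
  set c : ℝ := ((univ.filter fun j : ι => ε * n < ∑ p ∈ S.filter (fun p => j ∈ Z p),
        r p * Real.logb 2 p).card : ℝ) with hc
  have h2 : c * (ε * n) ≤ 2 * C * K * n ^ 2 / Real.log n := by
    refine h.trans ?_
    have e1 : C * Real.sqrt n * (K * n / Real.log n) * (2 * (Nat.sqrt n : ℝ)) ≤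
        C * Real.sqrt n * (K * n / Real.log n) * (2 * Real.sqrt n) := by
      apply mul_le_mul_of_nonneg_left (by linarith) (by positivity)
    refine e1.trans (le_of_eq ?_)
    have e2 : Real.sqrt n * Real.sqrt n = n := Real.mul_self_sqrt hnpos.le
    calc C * Real.sqrt n * (K * n / Real.log n) * (2 * Real.sqrt n)
        = 2 * C * K * n / Real.log n * (Real.sqrt n * Real.sqrt n) := by ring
      _ = 2 * C * K * n ^ 2 / Real.log n := by rw [e2]; ring
  have h3 : 2 * C * K / Real.log n ≤ ε * θ := by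
    rw [div_le_iff₀ hlog0]
    rw [div_le_iff₀ (by positivity)] at hlog
    linarith
  have h4 : c * (ε * n) ≤ θ * n * (ε * n) := by
    refine h2.trans ?_
    calc 2 * C * K * n ^ 2 / Real.log n = (2 * C * K / Real.log n) * n ^ 2 := by ring
      _ ≤ (ε * θ) * n ^ 2 := by gcongr
      _ = θ * n * (ε * n) := by ring
  exact le_of_mul_le_mul_right h4 (by positivity)

/-- **Very small primes**: `∑_{p ^ 4 ≤ n} r p * log₂ Q_p ≤ ε n`. -/
theorem small_prod (C ε : ℝ) (hC : 0 ≤ C) (hε : 0 < ε) :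
    ∃ n0 : ℕ, ∀ n ≥ n0, ∀ (S : Finset ℕ) (r : ℕ → ℝ) (Q : ℕ → ℕ),
      (∀ p ∈ S, p.Prime ∧ p ^ 4 ≤ n) → (∀ p ∈ S, 0 ≤ r p) → (∀ p ∈ S, r p ≤ C * Real.sqrt n) →
      (∀ p ∈ S, 1 ≤ Q p ∧ Q p ≤ n) →
      ∑ p ∈ S, r p * Real.logb 2 (Q p) ≤ ε * n := by
  have hlim : Filter.Tendsto (fun x : ℝ => Real.log x / x ^ (1 / 4 : ℝ)) Filter.atTop (nhds 0) :=
    (isLittleO_log_rpow_atTop (by norm_num : (0 : ℝ) < 1 / 4)).tendsto_div_nhds_zero
  have hlim2 := hlim.comp (tendsto_natCast_atTop_atTop (R := ℝ))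
  have hpos : 0 < ε * Real.log 2 / (C + 1) := by
    have := Real.log_pos (by norm_num : (1 : ℝ) < 2)
    positivity
  obtain ⟨n1, hn1⟩ := Filter.eventually_atTop.1 (hlim2.eventually_lt_const hpos)
  refine ⟨max n1 1, ?_⟩
  intro n hn S r Q hS hr hrC hQ
  have h1 := hn1 n (le_trans (le_max_left _ _) hn)
  simp only [Function.comp] at h1
  have hn' : 1 ≤ n := le_trans (le_max_right _ _) hn
  have hnpos : (0 : ℝ) < n := by exact_mod_cast hn'
  have hn1r : (1 : ℝ) ≤ n := by exact_mod_cast hn'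
  have hq : (0 : ℝ) < (n : ℝ) ^ (1 / 4 : ℝ) := Real.rpow_pos_of_pos hnpos _
  rw [div_lt_iff₀ hq] at h1
  have hcard : (S.card : ℝ) ≤ (n : ℝ) ^ (1 / 4 : ℝ) := by
    set x : ℕ := ⌊(n : ℝ) ^ (1 / 4 : ℝ)⌋₊ with hx
    have h2 : S ⊆ Finset.Icc 1 x := by
      intro p hp
      rw [Finset.mem_Icc]
      refine ⟨(hS p hp).1.one_le, ?_⟩
      apply Nat.le_floor
      have h3 : ((p : ℝ)) ^ (4 : ℕ) ≤ n := by exact_mod_cast (hS p hp).2
      calc (p : ℝ) = ((p : ℝ) ^ (4 : ℕ)) ^ (1 / 4 : ℝ) := by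
            rw [← Real.rpow_natCast, ← Real.rpow_mul (by positivity)]; norm_num
        _ ≤ (n : ℝ) ^ (1 / 4 : ℝ) := Real.rpow_le_rpow (by positivity) h3 (by norm_num)
    have h4 := Finset.card_le_card h2
    rw [Nat.card_Icc] at h4
    have h5 : S.card ≤ x := by omega
    calc (S.card : ℝ) ≤ (x : ℝ) := by exact_mod_cast h5
      _ ≤ (n : ℝ) ^ (1 / 4 : ℝ) := Nat.floor_le hq.le
  have hlog2 : 0 < Real.log 2 := Real.log_pos (by norm_num)
  have hlogn : 0 ≤ Real.log n := Real.log_nonneg hn1r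
  have hterm : ∀ p ∈ S, r p * Real.logb 2 (Q p) ≤ C * Real.sqrt n * (Real.log n / Real.log 2) := by
    intro p hp
    have hQ1 : (1 : ℝ) ≤ Q p := by exact_mod_cast (hQ p hp).1
    have hQ2 : (Q p : ℝ) ≤ n := by exact_mod_cast (hQ p hp).2
    have h6 : Real.logb 2 (Q p) ≤ Real.log n / Real.log 2 := by
      unfold Real.logb
      gcongr
    have h7 : 0 ≤ Real.logb 2 (Q p) := Real.logb_nonneg (by norm_num) hQ1
    calc r p * Real.logb 2 (Q p) ≤ C * Real.sqrt n * Real.logb 2 (Q p) :=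
          mul_le_mul_of_nonneg_right (hrC p hp) h7
      _ ≤ C * Real.sqrt n * (Real.log n / Real.log 2) :=
          mul_le_mul_of_nonneg_left h6 (by positivity)
  have hsum : ∑ p ∈ S, r p * Real.logb 2 (Q p) ≤
      (n : ℝ) ^ (1 / 4 : ℝ) * (C * Real.sqrt n * (Real.log n / Real.log 2)) := by
    calc ∑ p ∈ S, r p * Real.logb 2 (Q p) ≤ ∑ _p ∈ S, C * Real.sqrt n * (Real.log n / Real.log 2) :=
          sum_le_sum hterm
      _ = S.card * (C * Real.sqrt n * (Real.log n / Real.log 2)) := by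
          rw [sum_const, nsmul_eq_mul]
      _ ≤ _ := mul_le_mul_of_nonneg_right hcard (by positivity)
  refine hsum.trans ?_
  have h8 : Real.log n / Real.log 2 ≤ ε / (C + 1) * (n : ℝ) ^ (1 / 4 : ℝ) := by
    rw [div_le_iff₀ hlog2]
    calc Real.log n ≤ ε * Real.log 2 / (C + 1) * (n : ℝ) ^ (1 / 4 : ℝ) := h1.le
      _ = ε / (C + 1) * (n : ℝ) ^ (1 / 4 : ℝ) * Real.log 2 := by ring
  have h9 : (n : ℝ) ^ (1 / 4 : ℝ) * (Real.sqrt n * (n : ℝ) ^ (1 / 4 : ℝ)) = n := by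
    rw [Real.sqrt_eq_rpow, ← Real.rpow_add hnpos, ← Real.rpow_add hnpos]
    norm_num
  calc (n : ℝ) ^ (1 / 4 : ℝ) * (C * Real.sqrt n * (Real.log n / Real.log 2))
      ≤ (n : ℝ) ^ (1 / 4 : ℝ) * (C * Real.sqrt n * (ε / (C + 1) * (n : ℝ) ^ (1 / 4 : ℝ))) := by
        gcongr
    _ = C * (ε / (C + 1)) * ((n : ℝ) ^ (1 / 4 : ℝ) * (Real.sqrt n * (n : ℝ) ^ (1 / 4 : ℝ))) := by ring
    _ = C / (C + 1) * (ε * n) := by rw [h9]; ring
    _ ≤ 1 * (ε * n) := by
        apply mul_le_mul_of_nonneg_right _ (by positivity)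
        rw [div_le_one (by positivity)]
        linarith
    _ = ε * n := one_mul _

end Vale.Agent.P160.Half.SmallAvg514
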