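import Mathlib

/-! # P160, final assembly: small primes are free (pure arithmetic) -/

namespace Vale.Agent.P160.Half.SmallP

open Finset

/-- few primes up to `C n` -/
theorem card_primes (ε : ℝ) (hε : 0 < ε) (C : ℕ) : ∃ n₀ : ℕ, ∀ n ≥ n₀, ∀ S : Finset ℕ,
    (∀ p ∈ S, p.Prime ∧ p ≤ C * n) → (S.card : ℝ) ≤ ε * n := by
  classical
  -- threshold
  obtain ⟨T, hT⟩ : ∃ T : ℕ, 2 ≤ T ∧ (2 * C * Real.log 4 / ε : ℝ) ≤ Real.log T := by
    obtain ⟨T, hT⟩ := exists_nat_ge (Real.exp (2 * C * Real.log 4 / ε))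
    refine ⟨T + 2, by omega, ?_⟩
    have h1 : Real.exp (2 * C * Real.log 4 / ε) ≤ ((T + 2 : ℕ) : ℝ) := by push_cast; linarith
    exact (Real.le_log_iff_exp_le (by positivity)).2 h1
  obtain ⟨hT2, hT⟩ := hT
  obtain ⟨n₀, hn₀⟩ := exists_nat_ge (2 * (T + 1) / ε)
  refine ⟨n₀, fun n hn S hS => ?_⟩
  have hlogT : 0 < Real.log T := Real.log_pos (by exact_mod_cast hT2)
  have hsplit : S.card ≤ (S.filter fun p => p ≤ T).card + (S.filter fun p => ¬ p ≤ T).card := by
    rw [Finset.card_filter_add_card_filter_not]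
  have h1 : (S.filter fun p => p ≤ T).card ≤ T + 1 := by
    calc _ ≤ (range (T + 1)).card := card_le_card (fun p hp => by
          simp only [mem_filter] at hp; simp only [mem_range]; omega)
      _ = _ := by simp
  have h2 : T ^ (S.filter fun p => ¬ p ≤ T).card ≤ 4 ^ (C * n) := by
    calc T ^ (S.filter fun p => ¬ p ≤ T).card ≤ ∏ p ∈ S.filter (fun p => ¬ p ≤ T), p :=
          Finset.pow_card_le_prod _ _ _ (fun p hp => by
            simp only [mem_filter] at hp; omega)
      _ ≤ primorial (C * n) := by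
          unfold primorial
          refine Finset.prod_le_prod_of_subset_of_one_le' (fun p hp => ?_) (fun p hp _ => ?_)
          · simp only [mem_filter, mem_range] at hp ⊢
            have := hS p hp.1
            exact ⟨by omega, this.1⟩
          · simp only [mem_filter] at hp; exact hp.2.one_lt.le
      _ ≤ 4 ^ (C * n) := primorial_le_four_pow _
  have h3 : ((S.filter fun p => ¬ p ≤ T).card : ℝ) * Real.log T ≤ C * n * Real.log 4 := by
    have h4 : ((T : ℝ) ^ (S.filter fun p => ¬ p ≤ T).card) ≤ (4 : ℝ) ^ (C * n) := by exact_mod_cast h2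
    have h5 := Real.log_le_log (by positivity) h4
    rw [Real.log_pow, Real.log_pow] at h5
    push_cast at h5
    exact h5
  have hn' : (n₀ : ℝ) ≤ n := by exact_mod_cast hn
  have h6 : (T + 1 : ℝ) ≤ ε / 2 * n := by
    have : 2 * (T + 1) / ε ≤ n := le_trans hn₀ hn'
    rw [div_le_iff₀ hε] at this
    linarith
  have h7 : ((S.filter fun p => ¬ p ≤ T).card : ℝ) ≤ ε / 2 * n := by
    have hn0 : (0 : ℝ) ≤ n := Nat.cast_nonneg n
    have h8 : 2 * C * Real.log 4 ≤ Real.log T * ε := by rwa [div_le_iff₀ hε] at hT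
    have h9 : ((S.filter fun p => ¬ p ≤ T).card : ℝ) * Real.log T ≤ ε / 2 * n * Real.log T := by
      nlinarith
    exact le_of_mul_le_mul_right h9 hlogT
  have h10 : (S.card : ℝ) ≤ ((S.filter fun p => p ≤ T).card : ℝ) + ((S.filter fun p => ¬ p ≤ T).card : ℝ) := by
    exact_mod_cast hsplit
  have h11 : ((S.filter fun p => p ≤ T).card : ℝ) ≤ T + 1 := by exact_mod_cast h1
  linarith

/-- few small primes: `√n (c + 2 log n) = o(n)` -/
theorem sqrt_log (ε c : ℝ) (hε : 0 < ε) : ∃ n₀ : ℕ, ∀ n : ℕ, n ≥ n₀ →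
    (Nat.sqrt n : ℝ) * (c + 2 * Real.log n) ≤ ε * n := by
  have h := (isLittleO_log_rpow_atTop (r := (1/2 : ℝ)) (by norm_num)).bound (show (0:ℝ) < ε / 4 by positivity)
  have h' := tendsto_natCast_atTop_atTop (R := ℝ) |>.eventually h
  have h2 : ∀ᶠ n : ℕ in Filter.atTop, |c| ≤ ε / 2 * Real.sqrt n := by
    have : Filter.Tendsto (fun n : ℕ => ε / 2 * Real.sqrt n) Filter.atTop Filter.atTop := by
      refine Filter.Tendsto.const_mul_atTop (by positivity) ?_
      exact Real.tendsto_sqrt_atTop.comp tendsto_natCast_atTop_atTop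
    exact this.eventually_ge_atTop _
  obtain ⟨n₀, hn₀⟩ := Filter.eventually_atTop.1 ((h'.and h2).and (Filter.eventually_ge_atTop 1))
  refine ⟨n₀, fun n hn => ?_⟩
  obtain ⟨⟨h3, h4⟩, h5⟩ := hn₀ n hn
  have hn1 : (1 : ℝ) ≤ n := by exact_mod_cast h5
  have hlog : 0 ≤ Real.log n := Real.log_nonneg hn1
  rw [Real.norm_of_nonneg hlog, Real.norm_of_nonneg (by positivity), ← Real.sqrt_eq_rpow] at h3
  have hs : (Nat.sqrt n : ℝ) ≤ Real.sqrt n := Real.nat_sqrt_le_real_sqrt
  have hs2 : Real.sqrt n * Real.sqrt n = n := Real.mul_self_sqrt (by positivity)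
  have hs0 : 0 ≤ Real.sqrt (n : ℝ) := Real.sqrt_nonneg _
  have h6 : c + 2 * Real.log n ≤ ε * Real.sqrt n := by
    have := le_abs_self c
    linarith
  calc (Nat.sqrt n : ℝ) * (c + 2 * Real.log n) ≤ (Nat.sqrt n : ℝ) * (ε * Real.sqrt n) := by gcongr
    _ ≤ Real.sqrt n * (ε * Real.sqrt n) := by gcongr
    _ = ε * n := by rw [← hs2]; ring_nf; rw [Real.sq_sqrt (by positivity), Real.sq_sqrt (by positivity)]

/-- **small primes are free** -/
theorem small_labels (ε B : ℝ) (hε : 0 < ε) (hB : 0 ≤ B) (A K C : ℕ) (hA : 1 ≤ A) : ∃ n₀ : ℕ, ∀ n ≥ n₀,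
    ∀ (S : Finset ℕ) (v : ℕ → ℕ), (∀ p ∈ S, p.Prime ∧ p ≤ C * n) →
      (∑ p ∈ S, (v p : ℝ) * Real.log p ≤ B * n * Real.log n) →
      ∏ p ∈ S, ((A : ℝ) * (v p + 1)) ^ K ≤ Real.exp (ε * n) := by
  classical
  -- reduce to `ε'`
  set ε' : ℝ := ε / (K + 1) with hε'
  have hε'0 : 0 < ε' := by positivity
  have hA' : (1 : ℝ) ≤ A := by exact_mod_cast hA
  -- constant T
  set T : ℝ := 8 * A * (B + 1) / ε' + A with hTdef
  have hT0 : (A : ℝ) ≤ T := by
    have : 0 ≤ 8 * A * (B + 1) / ε' := by positivity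
    rw [hTdef]; linarith
  have hTpos : 0 < T := by linarith
  have hT1 : 1 ≤ T := by linarith
  have hTlog : 0 ≤ Real.log T := Real.log_nonneg hT1
  obtain ⟨n₁, hn₁⟩ := card_primes (ε' / (4 * (Real.log T + 1))) (by positivity) C
  obtain ⟨n₂, hn₂⟩ := sqrt_log (ε' / 4) (Real.log (A * (2 * B + 1))) (by positivity)
  refine ⟨max (max n₁ n₂) 2, fun n hn S v hS hv => ?_⟩
  have hn1 : n ≥ n₁ := le_trans (le_trans (le_max_left _ _) (le_max_left _ _)) hn
  have hn2 : n ≥ n₂ := le_trans (le_trans (le_max_right _ _) (le_max_left _ _)) hn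
  have hn3 : 2 ≤ n := le_trans (le_max_right _ _) hn
  have hnR : (2 : ℝ) ≤ n := by exact_mod_cast hn3
  have hlogn : 0 < Real.log n := Real.log_pos (by linarith)
  -- the sum of logarithms
  have key : ∑ p ∈ S, Real.log ((A : ℝ) * (v p + 1)) ≤ ε' * n := by
    rw [← Finset.sum_filter_add_sum_filter_not S (fun p => p * p ≤ n)]
    have hterm : ∀ p ∈ S, 0 ≤ (v p : ℝ) * Real.log p := fun p hp =>
      mul_nonneg (by positivity) (Real.log_nonneg (by exact_mod_cast (hS p hp).1.one_lt.le))
    have hsm : ∑ p ∈ S.filter (fun p => p * p ≤ n), Real.log ((A : ℝ) * (v p + 1)) ≤ ε' / 4 * n := by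
      have hcard : (S.filter (fun p => p * p ≤ n)).card ≤ Nat.sqrt n := by
        calc _ ≤ (Finset.Icc 1 (Nat.sqrt n)).card := card_le_card (fun p hp => by
              simp only [mem_filter] at hp
              simp only [Finset.mem_Icc]
              exact ⟨(hS p hp.1).1.one_lt.le, Nat.le_sqrt.2 hp.2⟩)
          _ = _ := by simp
      have hb : ∀ p ∈ S.filter (fun p => p * p ≤ n), Real.log ((A : ℝ) * (v p + 1)) ≤
          Real.log (A * (2 * B + 1)) + 2 * Real.log n := by
        intro p hp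
        simp only [mem_filter] at hp
        have h1 : (v p : ℝ) * Real.log p ≤ B * n * Real.log n :=
          le_trans (Finset.single_le_sum (f := fun p => (v p : ℝ) * Real.log p) hterm hp.1) hv
        have h2 : Real.log 2 ≤ Real.log p := Real.log_le_log (by norm_num)
          (by exact_mod_cast (hS p hp.1).1.two_le)
        have h3 : (1/2 : ℝ) ≤ Real.log 2 := by have := Real.log_two_gt_d9; linarith
        have h4 : Real.log n ≤ n := by have := Real.log_le_sub_one_of_pos (show (0:ℝ) < n by linarith); linarith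
        have h5 : (v p : ℝ) ≤ 2 * B * n * n := by
          have h6 : (v p : ℝ) * (1/2) ≤ (v p : ℝ) * Real.log p := by gcongr; linarith
          have h7 : B * n * Real.log n ≤ B * n * n := by gcongr
          linarith
        have h8 : (v p : ℝ) + 1 ≤ (2 * B + 1) * (n * n) := by nlinarith
        have h9 : (A : ℝ) * (v p + 1) ≤ (A * (2 * B + 1)) * (n * n) := by
          calc (A : ℝ) * (v p + 1) ≤ A * ((2 * B + 1) * (n * n)) := by gcongr
            _ = _ := by ring
        calc Real.log ((A : ℝ) * (v p + 1)) ≤ Real.log ((A * (2 * B + 1)) * (n * n)) :=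
              Real.log_le_log (by positivity) h9
          _ = Real.log (A * (2 * B + 1)) + 2 * Real.log n := by
              have e1 := Real.log_mul (x := (A * (2 * B + 1) : ℝ)) (y := (n * n : ℝ)) (by positivity) (by positivity)
              have e2 := Real.log_mul (x := (n : ℝ)) (y := (n : ℝ)) (by positivity) (by positivity)
              rw [e1, e2]; ring
      have hpos : 0 ≤ Real.log (A * (2 * B + 1)) + 2 * Real.log n := by
        have : 0 ≤ Real.log (A * (2 * B + 1)) := Real.log_nonneg (by nlinarith)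
        linarith
      calc _ ≤ ∑ p ∈ S.filter (fun p => p * p ≤ n), (Real.log (A * (2 * B + 1)) + 2 * Real.log n) :=
            Finset.sum_le_sum hb
        _ = ((S.filter (fun p => p * p ≤ n)).card : ℝ) * (Real.log (A * (2 * B + 1)) + 2 * Real.log n) := by
            rw [Finset.sum_const, nsmul_eq_mul]
        _ ≤ (Nat.sqrt n : ℝ) * (Real.log (A * (2 * B + 1)) + 2 * Real.log n) := by
            gcongr
        _ ≤ ε' / 4 * n := hn₂ n hn2
    have hlg : ∑ p ∈ S.filter (fun p => ¬ p * p ≤ n), Real.log ((A : ℝ) * (v p + 1)) ≤ 3 * ε' / 4 * n := by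
      have hb : ∀ p ∈ S.filter (fun p => ¬ p * p ≤ n), Real.log ((A : ℝ) * (v p + 1)) ≤
          (Real.log T + 1) + A / T * v p := by
        intro p hp
        have h1 : Real.log ((A : ℝ) * (v p + 1) / T) ≤ (A : ℝ) * (v p + 1) / T - 1 :=
          Real.log_le_sub_one_of_pos (by positivity)
        rw [Real.log_div (by positivity) (by positivity)] at h1
        have h2 : (A : ℝ) * (v p + 1) / T = A / T * v p + A / T := by ring
        have h3 : (A : ℝ) / T ≤ 1 := by rw [div_le_one hTpos]; exact hT0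
        linarith
      have hsum : ∑ p ∈ S.filter (fun p => ¬ p * p ≤ n), (v p : ℝ) ≤ 2 * B * n := by
        have h1 : ∀ p ∈ S.filter (fun p => ¬ p * p ≤ n), (v p : ℝ) * (Real.log n / 2) ≤ (v p : ℝ) * Real.log p := by
          intro p hp
          simp only [mem_filter, not_le] at hp
          have h2 : Real.log n ≤ Real.log ((p : ℝ) * p) := Real.log_le_log (by linarith)
            (by exact_mod_cast hp.2.le)
          have hp0 : (0 : ℝ) < p := by exact_mod_cast (hS p hp.1).1.pos
          rw [Real.log_mul hp0.ne' hp0.ne'] at h2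
          gcongr
          linarith
        have h3 : (∑ p ∈ S.filter (fun p => ¬ p * p ≤ n), (v p : ℝ)) * (Real.log n / 2) ≤ B * n * Real.log n := by
          rw [Finset.sum_mul]
          calc _ ≤ ∑ p ∈ S.filter (fun p => ¬ p * p ≤ n), (v p : ℝ) * Real.log p := Finset.sum_le_sum h1
            _ ≤ ∑ p ∈ S, (v p : ℝ) * Real.log p :=
                Finset.sum_le_sum_of_subset_of_nonneg (filter_subset _ _) (fun p hp _ => hterm p hp)
            _ ≤ _ := hv
        have h4 : (∑ p ∈ S.filter (fun p => ¬ p * p ≤ n), (v p : ℝ)) * (Real.log n / 2) ≤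
            (2 * B * n) * (Real.log n / 2) := by linarith
        exact le_of_mul_le_mul_right h4 (by positivity)
      have hcard := hn₁ n hn1 S hS
      have hc2 : ((S.filter (fun p => ¬ p * p ≤ n)).card : ℝ) ≤ S.card := by
        exact_mod_cast card_le_card (filter_subset _ _)
      calc _ ≤ ∑ p ∈ S.filter (fun p => ¬ p * p ≤ n), ((Real.log T + 1) + A / T * v p) := Finset.sum_le_sum hb
        _ = ((S.filter (fun p => ¬ p * p ≤ n)).card : ℝ) * (Real.log T + 1) +
              A / T * ∑ p ∈ S.filter (fun p => ¬ p * p ≤ n), (v p : ℝ) := by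
            rw [Finset.sum_add_distrib, Finset.sum_const, nsmul_eq_mul, Finset.mul_sum]
        _ ≤ (ε' / (4 * (Real.log T + 1)) * n) * (Real.log T + 1) + A / T * (2 * B * n) := by
            gcongr
            exact le_trans hc2 hcard
        _ ≤ ε' / 4 * n + ε' / 4 * n := by
            gcongr ?_ + ?_
            · apply le_of_eq
              have : Real.log T + 1 ≠ 0 := by positivity
              field_simp
            · have h5 : A / T * (2 * B) ≤ ε' / 4 := by
                rw [div_mul_eq_mul_div, div_le_iff₀ hTpos]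
                have h6 : ε' / 4 * T = 2 * A * (B + 1) + ε' / 4 * A := by
                  rw [hTdef]; field_simp; ring
                rw [h6]
                have : 0 ≤ ε' / 4 * A := by positivity
                nlinarith
              calc A / T * (2 * B * n) = (A / T * (2 * B)) * n := by ring
                _ ≤ ε' / 4 * n := by gcongr
        _ ≤ 3 * ε' / 4 * n := by
            have : 0 ≤ ε' * n := by positivity
            linarith
    linarith
  -- conclude
  have hfac : ∀ p ∈ S, ((A : ℝ) * (v p + 1)) ^ K = Real.exp (K * Real.log ((A : ℝ) * (v p + 1))) := by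
    intro p hp
    rw [Real.exp_nat_mul, Real.exp_log (by positivity)]
  rw [Finset.prod_congr rfl hfac, ← Real.exp_sum, ← Finset.mul_sum]
  apply Real.exp_le_exp.2
  have h0 : 0 ≤ ∑ p ∈ S, Real.log ((A : ℝ) * (v p + 1)) := Finset.sum_nonneg (fun p _ =>
    Real.log_nonneg (by
      have : (0 : ℝ) ≤ v p := by positivity
      nlinarith))
  calc (K : ℝ) * ∑ p ∈ S, Real.log ((A : ℝ) * (v p + 1)) ≤ (K + 1 : ℝ) * (ε' * n) := by
        have : (K : ℝ) ≤ K + 1 := by linarith
        gcongr
    _ = ε * n := by rw [hε']; field_simp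

/-- base-2 form -/
theorem small_labels_two (ε B : ℝ) (hε : 0 < ε) (hB : 0 ≤ B) (A K C : ℕ) (hA : 1 ≤ A) : ∃ n₀ : ℕ, ∀ n ≥ n₀,
    ∀ (S : Finset ℕ) (v : ℕ → ℕ), (∀ p ∈ S, p.Prime ∧ p ≤ C * n) →
      (∑ p ∈ S, (v p : ℝ) * Real.log p ≤ B * n * Real.log n) →
      ∏ p ∈ S, ((A : ℝ) * (v p + 1)) ^ K ≤ (2 : ℝ) ^ (ε * n) := by
  have hl : 0 < Real.log 2 := Real.log_pos (by norm_num)
  obtain ⟨n₀, h⟩ := small_labels (ε * Real.log 2) B (by positivity) hB A K C hA
  refine ⟨n₀, fun n hn S v hS hv => ?_⟩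
  rw [Real.rpow_def_of_pos (by norm_num)]
  convert h n hn S v hS hv using 2
  ring

/-- sum over the prime factors of `D` in `S` -/
theorem sum_fact_le (D : ℕ) (S : Finset ℕ) :
    ∑ p ∈ S, (D.factorization p : ℝ) * Real.log p ≤ Real.log D := by
  classical
  rw [Real.log_nat_eq_sum_factorization, Finsupp.sum]
  calc ∑ p ∈ S, (D.factorization p : ℝ) * Real.log p
      ≤ ∑ p ∈ S ∪ D.factorization.support, (D.factorization p : ℝ) * Real.log p := by
        refine Finset.sum_le_sum_of_subset_of_nonneg Finset.subset_union_left (fun p hp _ => ?_)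
        exact mul_nonneg (Nat.cast_nonneg _) (Real.log_natCast_nonneg _)
    _ = ∑ p ∈ D.factorization.support, (D.factorization p : ℝ) * Real.log p := by
        refine (Finset.sum_subset Finset.subset_union_right (fun p _ hp => ?_)).symm
        rw [Finsupp.notMem_support_iff.1 hp]; simp

/-- form for the factorization of a natural number `D ≤ n^(B n)` -/
theorem small_labels_fact (ε B : ℝ) (hε : 0 < ε) (hB : 0 ≤ B) (A K C : ℕ) (hA : 1 ≤ A) : ∃ n₀ : ℕ, ∀ n ≥ n₀,
    ∀ (S : Finset ℕ) (D : ℕ), (∀ p ∈ S, p.Prime ∧ p ≤ C * n) → D ≠ 0 → (D : ℝ) ≤ (n : ℝ) ^ (B * n) →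
      ∏ p ∈ S, ((A : ℝ) * (D.factorization p + 1)) ^ K ≤ (2 : ℝ) ^ (ε * n) := by
  obtain ⟨n₀, h⟩ := small_labels_two ε B hε hB A K C hA
  refine ⟨max n₀ 1, fun n hn S D hS hD hDn => h n (le_trans (le_max_left _ _) hn) S _ hS ?_⟩
  have hn1 : 1 ≤ n := le_trans (le_max_right _ _) hn
  have hn0 : (0 : ℝ) < n := by exact_mod_cast hn1
  refine le_trans (sum_fact_le D S) ?_
  have hD0 : (0 : ℝ) < D := by exact_mod_cast Nat.pos_of_ne_zero hD
  have := Real.log_le_log hD0 hDn
  rwa [Real.log_rpow hn0] at this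

end Vale.Agent.P160.Half.SmallP
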