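import Vale.Agent.P160.Half.M67Stmt

/-! # P160, half rate, (M), StmtSparse part (b): net for the real sparse event, row count (helper47) -/

set_option linter.unusedVariables false

namespace Vale.Agent.P160.Half.SpB47

open Finset Vale.Agent.P160 Vale.Agent.P160.Half Vale.Agent.P160.Half.Flat Vale.Agent.P160.Half.M67

/-! ### row count -/

/-- nearness to an integer -/
def Nr (ε a : ℝ) : Prop := ∃ z : ℤ, |a - z| ≤ ε

lemma abs_le_sub_int {x : ℝ} (hx : |x| ≤ 1 / 2) (z : ℤ) : |x| ≤ |x - z| := by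
  rcases eq_or_ne z 0 with rfl | hz
  · simp
  · have h1 : (1 : ℝ) ≤ |(z : ℝ)| := by exact_mod_cast Int.one_le_abs hz
    have h2 : |(z : ℝ)| ≤ |x - z| + |x| := by
      have := abs_sub_abs_le_abs_sub (z : ℝ) x
      rw [abs_sub_comm] at this
      linarith
    linarith

lemma not_both {ε a x : ℝ} (hx : |x| ≤ 1 / 2) (hε : 2 * ε < |x|) (h0 : Nr ε a) {v : ℝ} (hv : |v| = 1) : ¬ Nr ε (a + v * x) := by
  rintro ⟨z, hz⟩
  obtain ⟨y, hy⟩ := h0
  have h1 : |v * x - ((z - y : ℤ) : ℝ)| ≤ 2 * ε := by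
    have e : v * x - ((z - y : ℤ) : ℝ) = (a + v * x - z) - (a - y) := by push_cast; ring
    rw [e]
    exact (abs_sub _ _).trans (by linarith)
  have h2 := abs_le_sub_int (x := v * x) (by rw [abs_mul, hv, one_mul]; exact hx) (z - y)
  rw [abs_mul, hv, one_mul] at h2
  linarith

lemma card_ge {k : ℕ} (hk : 0 < k) : (univ.filter fun w : Fin (8 * k) => ¬ w.val < 2 * (2 * k - 1)).card = 4 * k + 2 := by
  have h1 : (univ.filter fun w : Fin (8 * k) => w.val < 2 * (2 * k - 1)).card = 2 * (2 * k - 1) := by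
    rw [Fin.card_filter_val_lt]
    omega
  have h2 := Finset.card_filter_add_card_filter_not (s := (univ : Finset (Fin (8 * k)))) (p := fun w => w.val < 2 * (2 * k - 1))
  rw [Finset.card_univ, Fintype.card_fin] at h2
  omega

lemma card_lt {k : ℕ} (hk : 0 < k) : (univ.filter fun w : Fin (8 * k) => w.val < 2 * (2 * k - 1)).card ≤ 4 * k + 2 := by
  rw [Fin.card_filter_val_lt]
  omega

open Classical in
theorem row_count {k : ℕ} (hk : 0 < k) {ε x : ℝ} (a : ℝ) (hx : |x| ≤ 1 / 2) (hε : 2 * ε < |x|) :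
    (univ.filter fun w : Fin (8 * k) => Nr ε (a + (stL (2 * k - 1) w : ℝ) * x)).card ≤ 4 * k + 2 := by
  by_cases h0 : Nr ε a
  · rw [← card_ge hk]
    refine Finset.card_le_card fun w hw => ?_
    rw [Finset.mem_filter] at hw ⊢
    refine ⟨Finset.mem_univ _, fun hlt => ?_⟩
    refine not_both hx hε h0 (v := (stL (2 * k - 1) w : ℝ)) ?_ hw.2
    unfold stL
    split_ifs
    · simp
    · simp
  · refine le_trans (Finset.card_le_card fun w hw => ?_) (card_lt hk)
    rw [Finset.mem_filter] at hw ⊢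
    refine ⟨Finset.mem_univ _, ?_⟩
    by_contra hge
    apply h0
    have : stL (2 * k - 1) w = 0 := by
      unfold stL
      rw [if_neg (by omega), if_neg hge]
    have h2 := hw.2
    rw [this] at h2
    simpa using h2

open Classical in
/-- number of columns that are near integers on all rows -/
theorem col_count {k : ℕ} (hk : 0 < k) {ε x : ℝ} (a : Fin k → ℝ) (hx : |x| ≤ 1 / 2) (hε : 2 * ε < |x|) :
    (univ.filter fun c : Fin k → Fin (8 * k) => ∀ i, Nr ε (a i + (stL (2 * k - 1) (c i) : ℝ) * x)).card ≤ (4 * k + 2) ^ k := by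
  have h1 : (univ.filter fun c : Fin k → Fin (8 * k) => ∀ i, Nr ε (a i + (stL (2 * k - 1) (c i) : ℝ) * x)) =
      Fintype.piFinset fun i => univ.filter fun w : Fin (8 * k) => Nr ε (a i + (stL (2 * k - 1) w : ℝ) * x) := by
    ext c
    simp [Fintype.mem_piFinset]
  rw [h1, Fintype.card_piFinset]
  refine (Finset.prod_le_prod' fun i _ => row_count hk (a i) hx hε).trans ?_
  simp

/-! ### net -/

lemma card_small (k S : ℕ) : (univ.filter fun D : Finset (Fin k) => D.card ≤ S).card ≤ (k + 1) ^ S := by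
  classical
  have h1 : Fintype.card (Fin S → Option (Fin k)) = (k + 1) ^ S := by simp
  rw [← h1, ← Finset.card_univ]
  let F : (Fin S → Option (Fin k)) → Finset (Fin k) := fun f => univ.filter fun c => ∃ t, f t = some c
  refine (Finset.card_le_card (t := univ.image F) fun D hD => ?_).trans Finset.card_image_le
  rw [Finset.mem_filter] at hD
  rw [Finset.mem_image]
  let e := D.equivFin
  refine ⟨fun t => if h : t.val < D.card then some (e.symm ⟨t.val, h⟩ : D).1 else none, Finset.mem_univ _, ?_⟩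
  ext c
  simp only [F, Finset.mem_filter, Finset.mem_univ, true_and]
  constructor
  · rintro ⟨t, ht⟩
    split_ifs at ht with h
    rw [Option.some_inj] at ht
    rw [← ht]
    exact (e.symm ⟨t.val, h⟩).2
  · intro hc
    refine ⟨⟨(e ⟨c, hc⟩).val, lt_of_lt_of_le (e ⟨c, hc⟩).2 hD.2⟩, ?_⟩
    rw [dif_pos (e ⟨c, hc⟩).2]
    simp

/-- the integral net -/
noncomputable def net (k S L : ℕ) : Finset (Fin k → ℤ) :=
  (univ.filter fun D : Finset (Fin k) => D.card ≤ S).biUnion fun D =>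
    Fintype.piFinset fun c => if c ∈ D then Finset.Icc (-(L : ℤ)) L else {0}

lemma card_net (k S L : ℕ) : (net k S L).card ≤ (k + 1) ^ S * (2 * L + 1) ^ S := by
  unfold net
  refine (Finset.card_biUnion_le_card_mul _ _ ((2 * L + 1) ^ S) fun D hD => ?_).trans (Nat.mul_le_mul_right _ (card_small k S))
  rw [Finset.mem_filter] at hD
  rw [Fintype.card_piFinset]
  have h1 : ∀ c : Fin k, (if c ∈ D then Finset.Icc (-(L : ℤ)) L else {0}).card = if c ∈ D then 2 * L + 1 else 1 := by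
    intro c
    split_ifs
    · rw [Int.card_Icc]; omega
    · simp
  simp_rw [h1]
  have h2 : ∏ c : Fin k, (if c ∈ D then 2 * L + 1 else 1) = (2 * L + 1) ^ D.card := by
    rw [Finset.prod_ite_mem, Finset.univ_inter, Finset.prod_const]
  rw [h2]
  exact Nat.pow_le_pow_right (Nat.succ_pos _) hD.2

lemma mem_net {k S L : ℕ} {a : Fin k → ℤ} (h1 : (univ.filter fun c => a c ≠ 0).card ≤ S) (h2 : ∀ c, |a c| ≤ L) : a ∈ net k S L := by
  unfold net
  rw [Finset.mem_biUnion]
  refine ⟨univ.filter fun c => a c ≠ 0, Finset.mem_filter.2 ⟨Finset.mem_univ _, h1⟩, ?_⟩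
  rw [Fintype.mem_piFinset]
  intro c
  by_cases hc : a c = 0
  · rw [if_neg (by simp [hc])]; simp [hc]
  · rw [if_pos (by simp [hc]), Finset.mem_Icc]
    exact abs_le.1 (h2 c)

/-- rounding towards zero with step `1/q` -/
noncomputable def rd (q : ℕ) (x : ℝ) : ℤ := if 0 ≤ x then ⌊x * q⌋ else -⌊-x * q⌋

lemma rd_zero (q : ℕ) : rd q 0 = 0 := by simp [rd]

lemma rd_spec {q : ℕ} (hq : 0 < q) (x : ℝ) : |(rd q x : ℝ) / q| ≤ |x| ∧ |x - (rd q x : ℝ) / q| ≤ 1 / q := by
  have hq' : (0 : ℝ) < q := by exact_mod_cast hq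
  have key : ∀ y : ℝ, 0 ≤ y → |((⌊y * q⌋ : ℤ) : ℝ) / q| ≤ |y| ∧ |y - ((⌊y * q⌋ : ℤ) : ℝ) / q| ≤ 1 / q := by
    intro y hy
    have h1 := Int.floor_le (y * q)
    have h2 := Int.lt_floor_add_one (y * q)
    have h0 : (0 : ℝ) ≤ ((⌊y * q⌋ : ℤ) : ℝ) := by exact_mod_cast Int.floor_nonneg.2 (by positivity)
    constructor
    · rw [abs_of_nonneg (by positivity), abs_of_nonneg hy, div_le_iff₀ hq']
      exact h1
    · rw [abs_of_nonneg (by rw [sub_nonneg, div_le_iff₀ hq']; exact h1)]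
      have : y = y * q / q := by field_simp
      rw [this, ← sub_div]
      have e : y * ↑q / ↑q * ↑q = y * q := by field_simp
      rw [e]
      exact div_le_div_of_nonneg_right (by linarith) hq'.le
  unfold rd
  split_ifs with h
  · exact key x h
  · have := key (-x) (by linarith)
    push_cast
    rw [neg_div, abs_neg]
    rw [abs_neg] at this
    refine ⟨this.1, ?_⟩
    have e : x - -(((⌊-x * (q : ℝ)⌋ : ℤ) : ℝ) / q) = -(-x - ((⌊-x * (q : ℝ)⌋ : ℤ) : ℝ) / q) := by ring
    rw [e, abs_neg]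
    exact this.2

/-- number of grid steps -/
def qq (S : ℕ) : ℕ := 256 * S ^ 2

/-- (b1): the net -/
theorem spb_net {k S : ℕ} {s : ℝ} (hs : 1 ≤ s) (hS : s ≤ S) (M : Matrix (Fin k) (Fin k) ℤ)
    (hM : ∀ i j, |M i j| ≤ 1) (h : SpB s M) :
    ∃ a ∈ net k S (128 * S ^ 2), ∃ c : Fin k, |(a c : ℝ) / qq S| ≤ 1 / 2 ∧ 2 * (5 / (256 * s)) < |(a c : ℝ) / qq S| ∧
      ∀ i, Nr (5 / (256 * s)) (∑ j, (M i j : ℝ) * ((a j : ℝ) / qq S)) := by
  classical
  obtain ⟨ψ, h1, h2, ⟨c, hc⟩, h4⟩ := h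
  have hs0 : 0 < s := by linarith
  have hS1 : (1 : ℝ) ≤ S := hs.trans hS
  have hS0 : 0 < S := by
    have : (0 : ℝ) < S := by linarith
    exact_mod_cast this
  have hq : 0 < qq S := by unfold qq; positivity
  have hqr : ((qq S : ℕ) : ℝ) = 256 * (S : ℝ) ^ 2 := by unfold qq; push_cast; ring
  have hq1 : 1 / ((qq S : ℕ) : ℝ) ≤ 1 / (256 * s ^ 2) := by
    rw [hqr]
    apply one_div_le_one_div_of_le (by positivity)
    have : s ^ 2 ≤ (S : ℝ) ^ 2 := by gcongr
    linarith
  set a : Fin k → ℤ := fun j => rd (qq S) (ψ j) with ha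
  have ha1 : ∀ j, |(a j : ℝ) / qq S| ≤ |ψ j| := fun j => (rd_spec hq (ψ j)).1
  have ha2 : ∀ j, |ψ j - (a j : ℝ) / qq S| ≤ 1 / qq S := fun j => (rd_spec hq (ψ j)).2
  have ha0 : ∀ j, ψ j = 0 → a j = 0 := fun j hj => by rw [ha]; simp only; rw [hj, rd_zero]
  refine ⟨a, mem_net ?_ fun j => ?_, c, (ha1 c).trans (h1 c), ?_, fun i => ?_⟩
  · have h5 : (univ.filter fun j => a j ≠ 0).card ≤ (univ.filter fun j => ψ j ≠ 0).card := by
      refine Finset.card_le_card fun j hj => ?_
      rw [Finset.mem_filter] at hj ⊢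
      exact ⟨Finset.mem_univ _, fun h0 => hj.2 (ha0 j h0)⟩
    have h6 : ((univ.filter fun j => ψ j ≠ 0).card : ℝ) ≤ S := by
      refine le_trans (le_of_eq ?_) (h2.trans hS)
      congr!
    exact h5.trans (by exact_mod_cast h6)
  · have h5 : |(a j : ℝ) / qq S| ≤ 1 / 2 := (ha1 j).trans (h1 j)
    rw [abs_div, Nat.abs_cast, div_le_iff₀ (by exact_mod_cast hq), hqr] at h5
    have h6 : |(a j : ℝ)| ≤ ((128 * S ^ 2 : ℕ) : ℝ) := by push_cast; linarith
    have h7 : ((|a j| : ℤ) : ℝ) ≤ (((128 * S ^ 2 : ℕ) : ℤ) : ℝ) := by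
      rw [Int.cast_abs]; exact_mod_cast h6
    exact_mod_cast h7
  · have h5 : |ψ c| ≤ |(a c : ℝ) / qq S| + 1 / qq S := by
      have := abs_sub_abs_le_abs_sub (ψ c) ((a c : ℝ) / qq S)
      linarith [ha2 c]
    have h6 : 1 / (256 * s ^ 2) ≤ 1 / (256 * s) := by
      apply one_div_le_one_div_of_le (by positivity)
      nlinarith
    have h7 : 2 * (5 / (256 * s)) + 1 / (256 * s) ≤ 1 / (4 * s) := by
      have e1 : 2 * (5 / (256 * s)) + 1 / (256 * s) = 11 / 256 * (1 / s) := by field_simp; ring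
      have e2 : 1 / (4 * s) = 1 / 4 * (1 / s) := by field_simp
      rw [e1, e2]
      have : 0 < 1 / s := by positivity
      nlinarith
    linarith
  · obtain ⟨z, hz⟩ := h4 i
    refine ⟨z, ?_⟩
    have h5 : |∑ j, (M i j : ℝ) * ((a j : ℝ) / qq S) - ∑ j, (M i j : ℝ) * ψ j| ≤ 1 / (256 * s) := by
      rw [← Finset.sum_sub_distrib]
      refine (Finset.abs_sum_le_sum_abs _ _).trans ?_
      have h6 : ∀ j, |(M i j : ℝ) * ((a j : ℝ) / qq S) - (M i j : ℝ) * ψ j| ≤ if ψ j ≠ 0 then 1 / (256 * s ^ 2) else 0 := by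
        intro j
        split_ifs with hj
        · rw [← mul_sub, abs_mul, abs_sub_comm]
          have h8 : |(M i j : ℝ)| ≤ 1 := by
            have := hM i j
            rw [← Int.cast_abs]
            exact_mod_cast this
          calc |(M i j : ℝ)| * |ψ j - (a j : ℝ) / qq S| ≤ 1 * (1 / qq S) :=
                mul_le_mul h8 (ha2 j) (abs_nonneg _) zero_le_one
            _ ≤ _ := by rw [one_mul]; exact hq1
        · rw [not_not] at hj
          rw [ha0 j hj, hj]; simp
      refine (Finset.sum_le_sum fun j _ => h6 j).trans ?_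
      rw [Finset.sum_ite, Finset.sum_const_zero, add_zero, Finset.sum_const, nsmul_eq_mul]
      have h9 : ((univ.filter fun j => ψ j ≠ 0).card : ℝ) ≤ s := by
        refine le_trans (le_of_eq ?_) h2
        congr!
      calc ((univ.filter fun j => ψ j ≠ 0).card : ℝ) * (1 / (256 * s ^ 2)) ≤ s * (1 / (256 * s ^ 2)) :=
            mul_le_mul_of_nonneg_right h9 (by positivity)
        _ = 1 / (256 * s) := by field_simp
    have h10 : 1 / (256 * s) + 1 / (64 * s) = 5 / (256 * s) := by field_simp; ring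
    calc |∑ j, (M i j : ℝ) * ((a j : ℝ) / qq S) - z|
        = |(∑ j, (M i j : ℝ) * ((a j : ℝ) / qq S) - ∑ j, (M i j : ℝ) * ψ j) + (∑ j, (M i j : ℝ) * ψ j - z)| := by
          congr 1; ring
      _ ≤ _ := (abs_add_le _ _).trans (by linarith)

open Classical in
/-- column replacement: number of columns for which the test `(x, c)` holds, the other columns being given -/
theorem col_repl {k : ℕ} (hk : 0 < k) {ε : ℝ} (x : Fin k → ℝ) (c : Fin k) (hx : |x c| ≤ 1 / 2) (hε : 2 * ε < |x c|)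
    (ω : Fin k → Fin k → Fin (8 * k)) :
    (univ.filter fun col : Fin k → Fin (8 * k) => ∀ i,
      Nr ε (∑ j, (M67.mt (stL (2 * k - 1)) (fun i j => if j = c then col i else ω i j) i j : ℝ) * x j)).card ≤ (4 * k + 2) ^ k := by
  refine le_trans (le_of_eq ?_) (col_count hk (fun i => ∑ j ∈ univ.erase c, (stL (2 * k - 1) (ω i j) : ℝ) * x j) hx hε)
  congr 1
  ext col
  simp only [Finset.mem_filter, Finset.mem_univ, true_and]
  refine forall_congr' fun i => ?_
  have e : ∑ j, (M67.mt (stL (2 * k - 1)) (fun i j => if j = c then col i else ω i j) i j : ℝ) * x j =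
      ∑ j ∈ univ.erase c, (stL (2 * k - 1) (ω i j) : ℝ) * x j + (stL (2 * k - 1) (col i) : ℝ) * x c := by
    rw [← Finset.sum_erase_add _ _ (Finset.mem_univ c)]
    congr 1
    · refine Finset.sum_congr rfl fun j hj => ?_
      unfold M67.mt
      simp only
      rw [if_neg (Finset.ne_of_mem_erase hj)]
    · unfold M67.mt
      simp only [if_true]
  rw [e]

end Vale.Agent.P160.Half.SpB47
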