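import Vale.Agent.P160.Half.SparseDel

set_option linter.unusedSectionVars false

/-! # P160/Half, block (M), note 11331 (502): the real sparse event S(b)

`M : Fin m → Fin k → Om`, `m` coordinates, `k` rows, entries `e (M c j) ∈ {-1,0,1}`, `0` with
probability `1/2`.  `SpR` : some real `ψ`, `|ψ c| ≤ 1/2`, of support `≤ s`, not too small, has all
`∑ c, ψ c e (M c j)` nearly integral.  Deleting one coordinate costs `N ^ 2` and gains `2 ^ (-k)`. -/

namespace Vale.Agent.P160.Half.SpB814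

open Finset Vale.Agent.P160.Half.SparseDel

variable {Om : Type*} [Fintype Om]

/-- the real sparse event -/
def SpR (e : Om → ℤ) (s : ℕ) (E : ℝ) {m k : ℕ} (M : Fin m → Fin k → Om) : Prop :=
  ∃ ψ : Fin m → ℝ, (∀ c, |ψ c| ≤ 1 / 2) ∧ (∃ T : Finset (Fin m), T.card ≤ s ∧ ∀ c, ψ c ≠ 0 → c ∈ T) ∧
    (∃ c, 1 / (4 * E) < |ψ c|) ∧
    ∀ j : Fin k, ∃ z : ℤ, |∑ c, ψ c * (e (M c j) : ℝ) - z| ≤ 1 / (64 * E)

/-- the event for a point of the net -/
def EvR (e : Om → ℤ) (E : ℝ) (Q : ℕ) {m k : ℕ} (ν : Fin m → ℤ) (M : Fin m → Fin k → Om) : Prop :=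
  ∀ j : Fin k, ∃ z : ℤ, |∑ c, ((ν c : ℝ) / Q) * (e (M c j) : ℝ) - z| ≤ 3 / (128 * E)

/-- one row: the set of good seeds has at most half the mass -/
lemma half (e : Om → ℤ) (he : ∀ w, e w = -1 ∨ e w = 0 ∨ e w = 1)
    (h0 : 2 * (univ.filter fun w => e w = 0).card = Fintype.card Om) {E θ t : ℝ} (hE : 1 ≤ E)
    (hθ1 : 1 / (8 * E) < |θ|) (hθ2 : |θ| ≤ 1 / 2 + 1 / 128) (S : Finset Om)
    (hS : ∀ w ∈ S, ∃ z : ℤ, |θ * (e w : ℝ) + t - z| ≤ 3 / (128 * E)) :
    (S.card : ℝ) ≤ 1 / 2 * Fintype.card Om := by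
  classical
  have h0' : (2 : ℝ) * ((univ.filter fun w => e w = 0).card : ℝ) = Fintype.card Om := by
    exact_mod_cast h0
  have hsplit : ((univ.filter fun w => e w = 0).card : ℝ) + ((univ.filter fun w => ¬ e w = 0).card : ℝ) =
      Fintype.card Om := by
    have := Finset.card_filter_add_card_filter_not (s := (univ : Finset Om)) (fun w => e w = 0)
    rw [Finset.card_univ] at this
    exact_mod_cast this
  have key : ∀ w ∈ S, ∀ w' ∈ S, e w = 0 → ¬ e w' = 0 → False := by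
    intro w hw w' hw' hz hnz
    obtain ⟨z, hz1⟩ := hS w hw
    obtain ⟨z', hz2⟩ := hS w' hw'
    have hEpos : 0 < E := by linarith
    have hd : 3 / (128 * E) ≤ 3 / 128 := by
      apply div_le_div_of_nonneg_left (by norm_num) (by norm_num)
      linarith
    have hd2 : 2 * (3 / (128 * E)) < 1 / (8 * E) := by
      rw [← sub_pos]
      have : 1 / (8 * E) - 2 * (3 / (128 * E)) = (10 / 128) / E := by
        field_simp
        norm_num
      rw [this]
      positivity
    rw [hz] at hz1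
    have h1 : |t - z| ≤ 3 / (128 * E) := by
      have : θ * ((0 : ℤ) : ℝ) + t - z = t - z := by push_cast; ring
      rwa [this] at hz1
    -- `θ` is near an integer
    have h3 : ∃ n : ℤ, |θ - n| ≤ 2 * (3 / (128 * E)) := by
      rcases he w' with h | h | h
      · refine ⟨z - z', ?_⟩
        rw [h] at hz2
        rw [abs_le] at hz2 h1 ⊢
        push_cast at hz2 ⊢
        constructor <;> linarith [hz2.1, hz2.2, h1.1, h1.2]
      · exact absurd h hnz
      · refine ⟨z' - z, ?_⟩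
        rw [h] at hz2
        rw [abs_le] at hz2 h1 ⊢
        push_cast at hz2 ⊢
        constructor <;> linarith [hz2.1, hz2.2, h1.1, h1.2]
    obtain ⟨n, hn⟩ := h3
    rcases eq_or_ne n 0 with hn0 | hn0
    · rw [hn0] at hn
      have : θ - ((0 : ℤ) : ℝ) = θ := by push_cast; ring
      rw [this] at hn
      linarith
    · have h4 : (1 : ℝ) ≤ |(n : ℝ)| := by
        have : (1 : ℤ) ≤ |n| := Int.one_le_abs hn0
        exact_mod_cast this
      have h5 : |(n : ℝ)| ≤ |θ - n| + |θ| := by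
        have := abs_sub_abs_le_abs_sub (n : ℝ) θ
        rw [abs_sub_comm] at this
        linarith
      linarith
  by_cases hex : ∃ w ∈ S, e w = 0
  · obtain ⟨w, hw, hwz⟩ := hex
    have hsub : S ⊆ univ.filter fun w => e w = 0 := by
      intro w' hw'
      rw [mem_filter]
      refine ⟨mem_univ _, ?_⟩
      by_contra hne
      exact key w hw w' hw' hwz hne
    have := Finset.card_le_card hsub
    have : (S.card : ℝ) ≤ ((univ.filter fun w => e w = 0).card : ℝ) := by exact_mod_cast this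
    linarith
  · have hsub : S ⊆ univ.filter fun w => ¬ e w = 0 := by
      intro w' hw'
      rw [mem_filter]
      refine ⟨mem_univ _, fun h => hex ⟨w', hw', h⟩⟩
    have := Finset.card_le_card hsub
    have : (S.card : ℝ) ≤ ((univ.filter fun w => ¬ e w = 0).card : ℝ) := by exact_mod_cast this
    linarith

open scoped Classical in
/-- the deleted coordinate -/
lemma card_EvR (e : Om → ℤ) (he : ∀ w, e w = -1 ∨ e w = 0 ∨ e w = 1)
    (h0 : 2 * (univ.filter fun w => e w = 0).card = Fintype.card Om) {E : ℝ} (hE : 1 ≤ E) {Q : ℕ}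
    {a k : ℕ} (i : Fin (a + 1)) (ν : Fin (a + 1) → ℤ)
    (hν1 : 1 / (8 * E) < |(ν i : ℝ) / Q|) (hν2 : |(ν i : ℝ) / Q| ≤ 1 / 2 + 1 / 128)
    (M' : Fin a → Fin k → Om) :
    ((univ.filter fun x : Fin k → Om =>
      EvR e E Q ν (Fin.insertNth i x M' : Fin (a + 1) → Fin k → Om)).card : ℝ) ≤
      (1 / 2) ^ k * (Fintype.card Om : ℝ) ^ k := by
  set t : Fin k → ℝ := fun j => ∑ r : Fin a, ((ν (i.succAbove r) : ℝ) / Q) * (e (M' r j) : ℝ) with ht
  set S : Fin k → Finset Om := fun j => univ.filter fun w =>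
    ∃ z : ℤ, |((ν i : ℝ) / Q) * (e w : ℝ) + t j - z| ≤ 3 / (128 * E) with hSdef
  have hS : ∀ j, ((S j).card : ℝ) ≤ 1 / 2 * Fintype.card Om := fun j =>
    half e he h0 hE hν1 hν2 (S j) (t := t j) fun w hw => (mem_filter.1 hw).2
  have hsub : (univ.filter fun x : Fin k → Om =>
      EvR e E Q ν (Fin.insertNth i x M' : Fin (a + 1) → Fin k → Om)) ⊆ Fintype.piFinset S := by
    intro x hx
    rw [mem_filter] at hx
    rw [Fintype.mem_piFinset]
    intro j
    obtain ⟨z, hz⟩ := hx.2 j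
    rw [hSdef]
    simp only [mem_filter, mem_univ, true_and]
    refine ⟨z, ?_⟩
    rw [Fin.sum_univ_succAbove _ i, Fin.insertNth_apply_same] at hz
    simpa only [Fin.insertNth_apply_succAbove] using hz
  have hcard := Finset.card_le_card hsub
  rw [Fintype.card_piFinset] at hcard
  calc ((univ.filter fun x : Fin k → Om =>
      EvR e E Q ν (Fin.insertNth i x M' : Fin (a + 1) → Fin k → Om)).card : ℝ)
      ≤ ((∏ j, (S j).card : ℕ) : ℝ) := by exact_mod_cast hcard
    _ = ∏ j, ((S j).card : ℝ) := by push_cast; rfl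
    _ ≤ ∏ _j : Fin k, (1 / 2 * (Fintype.card Om : ℝ)) :=
        Finset.prod_le_prod (fun j _ => by positivity) fun j _ => hS j
    _ = (1 / 2) ^ k * (Fintype.card Om : ℝ) ^ k := by
        rw [Finset.prod_const, Finset.card_univ, Fintype.card_fin, mul_pow]

open scoped Classical in
lemma one_EvR (e : Om → ℤ) (he : ∀ w, e w = -1 ∨ e w = 0 ∨ e w = 1)
    (h0 : 2 * (univ.filter fun w => e w = 0).card = Fintype.card Om)
    {PP : Finset ℕ} (hPP : ∀ p ∈ PP, p.Prime) {E : ℝ} (hE : 1 ≤ E) {Q : ℕ}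
    {a k : ℕ} (i : Fin (a + 1)) (ν : Fin (a + 1) → ℤ)
    (hν1 : 1 / (8 * E) < |(ν i : ℝ) / Q|) (hν2 : |(ν i : ℝ) / Q| ≤ 1 / 2 + 1 / 128) :
    ∑ M : Fin (a + 1) → Fin k → Om, (if EvR e E Q ν M then W e PP M else 0) ≤
      (∏ p ∈ PP, (p : ℝ)) ^ 2 * ((1 / 2) ^ k * (Fintype.card Om : ℝ) ^ k) *
        ∑ M : Fin a → Fin k → Om, W e PP M := by
  have hstep : ∑ M : Fin (a + 1) → Fin k → Om, (if EvR e E Q ν M then W e PP M else 0) ≤
      ∑ M : Fin (a + 1) → Fin k → Om, (if EvR e E Q ν M then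
        (∏ p ∈ PP, (p : ℝ)) ^ 2 * W e PP (fun r => M (i.succAbove r)) else 0) := by
    apply Finset.sum_le_sum
    intro M _
    split_ifs
    · exact W_le e hPP M _
    · exact le_rfl
  refine hstep.trans ?_
  rw [sum_split i]
  have hW : ∀ (M' : Fin a → Fin k → Om) (x : Fin k → Om),
      W e PP (fun r => (Fin.insertNth i x M' : Fin (a + 1) → Fin k → Om) (i.succAbove r)) =
        W e PP M' := by
    intro M' x
    congr 1
    funext r
    exact Fin.insertNth_apply_succAbove (α := fun _ => Fin k → Om) i x M' r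
  have hin : ∀ (M' : Fin a → Fin k → Om), ∑ x : Fin k → Om,
      (if EvR e E Q ν (Fin.insertNth i x M' : Fin (a + 1) → Fin k → Om) then
        (∏ p ∈ PP, (p : ℝ)) ^ 2 * W e PP (fun r =>
          (Fin.insertNth i x M' : Fin (a + 1) → Fin k → Om) (i.succAbove r)) else 0) ≤
        ((∏ p ∈ PP, (p : ℝ)) ^ 2 * W e PP M') * ((1 / 2) ^ k * (Fintype.card Om : ℝ) ^ k) := by
    intro M'
    simp_rw [hW]
    rw [← Finset.sum_filter, sum_const, nsmul_eq_mul, mul_comm]
    exact mul_le_mul_of_nonneg_left (card_EvR e he h0 hE i ν hν1 hν2 M')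
      (mul_nonneg (by positivity) (W_nonneg _ _ _))
  refine (Finset.sum_le_sum fun M' _ => hin M').trans ?_
  rw [← Finset.sum_mul, ← Finset.mul_sum]
  apply le_of_eq
  ring

/-- the net with support in `T` -/
noncomputable def net {m : ℕ} (Q : ℕ) (T : Finset (Fin m)) : Finset (Fin m → ℤ) :=
  Fintype.piFinset fun c => if c ∈ T then Finset.Icc (-(Q : ℤ)) Q else {0}

lemma card_net {m : ℕ} (Q : ℕ) (T : Finset (Fin m)) {s : ℕ} (hT : T.card ≤ s) :
    ((net Q T).card : ℝ) ≤ (2 * Q + 1 : ℝ) ^ s := by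
  unfold net
  rw [Fintype.card_piFinset]
  have h1 : ∀ c : Fin m, (if c ∈ T then Finset.Icc (-(Q : ℤ)) Q else {0}).card =
      if c ∈ T then 2 * Q + 1 else 1 := by
    intro c
    split_ifs
    · rw [Int.card_Icc]; omega
    · simp
  rw [Finset.prod_congr rfl fun c _ => h1 c, Finset.prod_ite_mem, Finset.univ_inter,
    Finset.prod_const]
  push_cast
  exact pow_le_pow_right₀ (by linarith [show (0 : ℝ) ≤ Q from Nat.cast_nonneg Q]) hT

/-- every real sparse vector gives a point of the net -/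
lemma exists_net (e : Om → ℤ) (he : ∀ w, e w = -1 ∨ e w = 0 ∨ e w = 1) {E : ℝ} (hE : 1 ≤ E) {s Q : ℕ}
    (hQ : 64 * E * s ≤ Q) {a k : ℕ} (M : Fin (a + 1) → Fin k → Om) (hM : SpR e s E M) :
    ∃ T ∈ TT a s, ∃ i : Fin (a + 1), ∃ ν ∈ net Q T,
      (1 / (8 * E) < |(ν i : ℝ) / Q| ∧ |(ν i : ℝ) / Q| ≤ 1 / 2 + 1 / 128) ∧ EvR e E Q ν M := by
  classical
  obtain ⟨ψ, hψ, ⟨T, hT, hTψ⟩, ⟨i, hi⟩, hrow⟩ := hM
  have hEpos : 0 < E := by linarith
  have hψi : ψ i ≠ 0 := by
    intro h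
    rw [h, abs_zero] at hi
    have : 0 < 1 / (4 * E) := by positivity
    linarith
  have hTne : T.Nonempty := ⟨i, hTψ i hψi⟩
  have hs1 : 1 ≤ s := (Finset.card_pos.2 hTne).trans_le hT
  have hs1' : (1 : ℝ) ≤ s := by exact_mod_cast hs1
  have hQ64 : (64 : ℝ) ≤ Q := by nlinarith
  have hQE : 64 * E ≤ Q := by nlinarith
  have hQpos : (0 : ℝ) < Q := by linarith
  set ν : Fin (a + 1) → ℤ := fun c => if c ∈ T then round (Q * ψ c) else 0 with hν
  have hround : ∀ c, |ψ c - (ν c : ℝ) / Q| ≤ (if c ∈ T then 1 / (2 * (Q : ℝ)) else (0 : ℝ)) := by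
    intro c
    by_cases hc : c ∈ T
    · simp only [hν, if_pos hc]
      have h1 := abs_sub_round ((Q : ℝ) * ψ c)
      have h2 : ψ c - ((round ((Q : ℝ) * ψ c) : ℤ) : ℝ) / Q =
          ((Q : ℝ) * ψ c - ((round ((Q : ℝ) * ψ c) : ℤ) : ℝ)) / Q := by
        field_simp
      rw [h2, abs_div, abs_of_pos hQpos, div_le_div_iff₀ hQpos (by positivity)]
      nlinarith
    · have h3 : ψ c = 0 := by
        by_contra h
        exact hc (hTψ c h)
      simp only [hν, if_neg hc, h3]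
      simp
  have hround' : ∀ c, |ψ c - (ν c : ℝ) / Q| ≤ 1 / 128 := by
    intro c
    refine (hround c).trans ?_
    split_ifs
    · rw [div_le_div_iff₀ (by positivity) (by norm_num)]
      linarith
    · norm_num
  refine ⟨T, ?_, i, ν, ?_, ⟨?_, ?_⟩, ?_⟩
  · simp only [TT, mem_filter, mem_univ, true_and]
    exact ⟨hTne, hT⟩
  · unfold net
    rw [Fintype.mem_piFinset]
    intro c
    by_cases hc : c ∈ T
    · simp only [hν, if_pos hc, Finset.mem_Icc]
      have h1 := abs_sub_round ((Q : ℝ) * ψ c)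
      have h2 := hψ c
      rw [abs_le] at h1 h2
      have h3 : (Q : ℝ) * ψ c ≤ Q * (1 / 2) := mul_le_mul_of_nonneg_left h2.2 hQpos.le
      have h4 : (Q : ℝ) * (-(1 / 2)) ≤ Q * ψ c := mul_le_mul_of_nonneg_left h2.1 hQpos.le
      constructor
      · have : (-(Q : ℝ)) ≤ ((round ((Q : ℝ) * ψ c) : ℤ) : ℝ) := by linarith [h1.2]
        exact_mod_cast this
      · have : ((round ((Q : ℝ) * ψ c) : ℤ) : ℝ) ≤ Q := by linarith [h1.1]
        exact_mod_cast this
    · simp [hν, if_neg hc]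
  · have h1 : |ψ i| ≤ |ψ i - (ν i : ℝ) / Q| + |(ν i : ℝ) / Q| := by
      have := abs_add_le (ψ i - (ν i : ℝ) / Q) ((ν i : ℝ) / Q)
      rwa [sub_add_cancel] at this
    have h2 : |ψ i - (ν i : ℝ) / Q| ≤ 1 / (2 * Q) := by
      have := hround i
      rwa [if_pos (hTψ i hψi)] at this
    have h3 : 1 / (2 * (Q : ℝ)) ≤ 1 / (8 * E) := by
      apply div_le_div_of_nonneg_left (by norm_num) (by positivity)
      linarith
    have h4 : 1 / (4 * E) = 1 / (8 * E) + 1 / (8 * E) := by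
      field_simp
      norm_num
    linarith
  · have h1 : |(ν i : ℝ) / Q| ≤ |ψ i| + |ψ i - (ν i : ℝ) / Q| := by
      have := abs_sub_abs_le_abs_sub ((ν i : ℝ) / Q) (ψ i)
      rw [abs_sub_comm] at this
      linarith
    linarith [hround' i, hψ i]
  · intro j
    obtain ⟨z, hz⟩ := hrow j
    refine ⟨z, ?_⟩
    have h1 : |∑ c, ((ν c : ℝ) / Q) * (e (M c j) : ℝ) - ∑ c, ψ c * (e (M c j) : ℝ)| ≤ 1 / (128 * E) := by
      rw [← Finset.sum_sub_distrib]
      calc |∑ c, (((ν c : ℝ) / Q) * (e (M c j) : ℝ) - ψ c * (e (M c j) : ℝ))|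
          ≤ ∑ c, |((ν c : ℝ) / Q) * (e (M c j) : ℝ) - ψ c * (e (M c j) : ℝ)| :=
            Finset.abs_sum_le_sum_abs _ _
        _ ≤ ∑ c, (if c ∈ T then 1 / (2 * (Q : ℝ)) else 0) := by
            apply Finset.sum_le_sum
            intro c _
            rw [← sub_mul, abs_mul, abs_sub_comm]
            have he1 : |((e (M c j) : ℤ) : ℝ)| ≤ 1 := by
              rcases he (M c j) with h | h | h <;> rw [h] <;> norm_num
            calc |ψ c - (ν c : ℝ) / Q| * |((e (M c j) : ℤ) : ℝ)| ≤ |ψ c - (ν c : ℝ) / Q| * 1 :=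
                  mul_le_mul_of_nonneg_left he1 (abs_nonneg _)
              _ ≤ _ := by rw [mul_one]; exact hround c
        _ = T.card * (1 / (2 * (Q : ℝ))) := by
            rw [Finset.sum_ite_mem, Finset.univ_inter, Finset.sum_const, nsmul_eq_mul]
        _ ≤ s * (1 / (2 * (Q : ℝ))) := by
            apply mul_le_mul_of_nonneg_right _ (by positivity)
            exact_mod_cast hT
        _ ≤ 1 / (128 * E) := by
            rw [mul_one_div, div_le_div_iff₀ (by positivity) (by positivity)]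
            nlinarith
    have h2 : |∑ c, ((ν c : ℝ) / Q) * (e (M c j) : ℝ) - z| ≤
        |∑ c, ((ν c : ℝ) / Q) * (e (M c j) : ℝ) - ∑ c, ψ c * (e (M c j) : ℝ)| +
          |∑ c, ψ c * (e (M c j) : ℝ) - z| := abs_sub_le _ _ _
    have h3 : 3 / (128 * E) = 1 / (128 * E) + 1 / (64 * E) := by
      field_simp
      norm_num
    rw [h3]
    linarith

open scoped Classical in
/-- **S(b)**: the real sparse event; deleting one coordinate costs `N ^ 2` and gains `2 ^ (-k)`. -/
theorem spR_del (e : Om → ℤ) (he : ∀ w, e w = -1 ∨ e w = 0 ∨ e w = 1)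
    (h0 : 2 * (univ.filter fun w => e w = 0).card = Fintype.card Om)
    {PP : Finset ℕ} (hPP : ∀ p ∈ PP, p.Prime) {E : ℝ} (hE : 1 ≤ E) {s Q : ℕ}
    (hQ : 64 * E * s ≤ Q) {a k : ℕ} :
    ∑ M : Fin (a + 1) → Fin k → Om, (if SpR e s E M then W e PP M else 0) ≤
      ((a + 1) * (∑ j ∈ range (s + 1), ((a + 1).choose j : ℝ)) * (2 * Q + 1) ^ s) *
        (∏ p ∈ PP, (p : ℝ)) ^ 2 * ((1 / 2) ^ k * (Fintype.card Om : ℝ) ^ k) *
        ∑ M : Fin a → Fin k → Om, W e PP M := by
  set B : ℝ := (∏ p ∈ PP, (p : ℝ)) ^ 2 * ((1 / 2) ^ k * (Fintype.card Om : ℝ) ^ k) *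
        ∑ M : Fin a → Fin k → Om, W e PP M with hB
  have hB0 : 0 ≤ B := mul_nonneg (by positivity) (Finset.sum_nonneg fun M _ => W_nonneg _ _ _)
  set ok : Fin (a + 1) → (Fin (a + 1) → ℤ) → Prop := fun i ν =>
    1 / (8 * E) < |(ν i : ℝ) / Q| ∧ |(ν i : ℝ) / Q| ≤ 1 / 2 + 1 / 128 with hok
  set g : Fin (a + 1) → (Fin (a + 1) → ℤ) → (Fin (a + 1) → Fin k → Om) → ℝ := fun i ν M =>
    if ok i ν ∧ EvR e E Q ν M then W e PP M else 0 with hg
  have hg0 : ∀ i ν M, 0 ≤ g i ν M := by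
    intro i ν M
    simp only [hg]
    split_ifs
    · exact W_nonneg _ _ _
    · exact le_rfl
  have hcov : ∀ M : Fin (a + 1) → Fin k → Om, (if SpR e s E M then W e PP M else 0) ≤
      ∑ T ∈ TT a s, ∑ i : Fin (a + 1), ∑ ν ∈ net Q T, g i ν M := by
    intro M
    split_ifs with hS
    · obtain ⟨T, hT, i, ν, hν, hok', hE'⟩ := exists_net e he hE hQ M hS
      have h1 : W e PP M = g i ν M := by
        simp only [hg]
        rw [if_pos ⟨hok', hE'⟩]
      rw [h1]
      calc g i ν M ≤ ∑ ν ∈ net Q T, g i ν M :=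
            Finset.single_le_sum (f := fun ν => g i ν M) (fun ν _ => hg0 i ν M) hν
        _ ≤ ∑ i : Fin (a + 1), ∑ ν ∈ net Q T, g i ν M :=
            Finset.single_le_sum (f := fun i => ∑ ν ∈ net Q T, g i ν M)
              (fun i _ => Finset.sum_nonneg fun ν _ => hg0 i ν M) (mem_univ i)
        _ ≤ _ := Finset.single_le_sum (f := fun T => ∑ i : Fin (a + 1), ∑ ν ∈ net Q T, g i ν M)
              (fun T _ => Finset.sum_nonneg fun i _ => Finset.sum_nonneg fun ν _ => hg0 i ν M) hT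
    · exact Finset.sum_nonneg fun T _ => Finset.sum_nonneg fun i _ =>
        Finset.sum_nonneg fun ν _ => hg0 i ν M
  have hone : ∀ (i : Fin (a + 1)) (ν : Fin (a + 1) → ℤ),
      ∑ M : Fin (a + 1) → Fin k → Om, g i ν M ≤ B := by
    intro i ν
    by_cases h : ok i ν
    · have h1 : ∀ M, g i ν M = (if EvR e E Q ν M then W e PP M else 0) := by
        intro M
        simp only [hg]
        exact if_congr ⟨fun h2 => h2.2, fun h2 => ⟨h, h2⟩⟩ rfl rfl
      rw [Finset.sum_congr rfl fun M _ => h1 M]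
      exact one_EvR e he h0 hPP hE i ν h.1 h.2
    · have h1 : ∀ M, g i ν M = 0 := by
        intro M
        simp only [hg]
        rw [if_neg fun h2 => h h2.1]
      rw [Finset.sum_congr rfl fun M _ => h1 M]
      simpa using hB0
  calc ∑ M : Fin (a + 1) → Fin k → Om, (if SpR e s E M then W e PP M else 0)
      ≤ ∑ M : Fin (a + 1) → Fin k → Om, ∑ T ∈ TT a s, ∑ i : Fin (a + 1), ∑ ν ∈ net Q T, g i ν M :=
        Finset.sum_le_sum fun M _ => hcov M
    _ = ∑ T ∈ TT a s, ∑ i : Fin (a + 1), ∑ ν ∈ net Q T, ∑ M : Fin (a + 1) → Fin k → Om, g i ν M := by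
        rw [Finset.sum_comm]
        refine Finset.sum_congr rfl fun T _ => ?_
        rw [Finset.sum_comm]
        refine Finset.sum_congr rfl fun i _ => ?_
        rw [Finset.sum_comm]
    _ ≤ ∑ T ∈ TT a s, ∑ i : Fin (a + 1), ∑ ν ∈ net Q T, B :=
        Finset.sum_le_sum fun T _ => Finset.sum_le_sum fun i _ => Finset.sum_le_sum fun ν _ =>
          hone i ν
    _ ≤ ∑ T ∈ TT a s, ((a + 1) * (2 * Q + 1) ^ s) * B := by
        refine Finset.sum_le_sum fun T hT => ?_
        have hTs : T.card ≤ s := by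
          simp only [TT, mem_filter, mem_univ, true_and] at hT
          exact hT.2
        rw [Finset.sum_const, Finset.sum_const, Finset.card_univ, Fintype.card_fin, nsmul_eq_mul,
          nsmul_eq_mul]
        have := mul_le_mul_of_nonneg_right (card_net Q T hTs) hB0
        push_cast
        have h2 : (0 : ℝ) ≤ (a : ℝ) + 1 := by positivity
        nlinarith
    _ = (TT a s).card * (((a + 1) * (2 * Q + 1) ^ s) * B) := by
        rw [Finset.sum_const, nsmul_eq_mul]
    _ ≤ (∑ j ∈ range (s + 1), ((a + 1).choose j : ℝ)) * (((a + 1) * (2 * Q + 1) ^ s) * B) :=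
        mul_le_mul_of_nonneg_right (card_TT a s) (mul_nonneg (by positivity) hB0)
    _ = _ := by
        rw [hB]
        ring

end Vale.Agent.P160.Half.SpB814
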