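import Vale.Agent.P160.Half.M67Stmt

/-! # P160, block (M), leaf (8): the sparse event (helper416, hedge). -/

set_option linter.unusedVariables false
set_option linter.unusedSectionVars false

namespace Vale.Agent.P160.Half.Sparse416

open Finset Vale.Agent.P160 Vale.Agent.P160.Half Vale.Agent.P160.Half.M67

/-! ## replacement of a column -/

section rc

variable {Ω : Type} {k m : ℕ}

/-- column `j` replaced by `c` -/
def rc (ω : Fin k → Fin m → Ω) (j : Fin m) (c : Fin k → Ω) : Fin k → Fin m → Ω :=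
  fun i => Function.update (ω i) j (c i)

/-- exchange of the column with the extra column -/
def ex (j : Fin m) : ((Fin k → Fin m → Ω) × (Fin k → Ω)) ≃ ((Fin k → Fin m → Ω) × (Fin k → Ω)) where
  toFun x := (rc x.1 j x.2, fun i => x.1 i j)
  invFun x := (rc x.1 j x.2, fun i => x.1 i j)
  left_inv x := by
    obtain ⟨ω, c⟩ := x
    ext i l <;> simp [rc]
  right_inv x := by
    obtain ⟨ω, c⟩ := x
    ext i l <;> simp [rc]

theorem sum_rc [Fintype Ω] (j : Fin m) (F : (Fin k → Fin m → Ω) → ℝ) :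
    ∑ ω : Fin k → Fin m → Ω, ∑ c : Fin k → Ω, F (rc ω j c) =
      (Fintype.card Ω : ℝ) ^ k * ∑ ω, F ω := by
  classical
  have h1 : ∑ ω : Fin k → Fin m → Ω, ∑ c : Fin k → Ω, F (rc ω j c) =
      ∑ x : (Fin k → Fin m → Ω) × (Fin k → Ω), F ((ex j x).1) := by
    rw [Fintype.sum_prod_type]
    rfl
  rw [h1, Equiv.sum_comp (ex j) (fun x => F x.1), Fintype.sum_prod_type]
  simp only [sum_const, card_univ, nsmul_eq_mul]
  rw [← mul_sum]
  congr 1
  simp

/-- column `j` replaced by zero -/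
def z0 (M : Matrix (Fin k) (Fin m) ℤ) (j : Fin m) : Matrix (Fin k) (Fin m) ℤ :=
  fun i l => if l = j then 0 else M i l

theorem rkp_z0_le {p : ℕ} [Fact p.Prime] (M : Matrix (Fin k) (Fin m) ℤ) (j : Fin m) :
    rkp p (z0 M j) ≤ rkp p M := by
  unfold rkp
  have h : (z0 M j).map (Int.cast : ℤ → ZMod p) =
      M.map (Int.cast : ℤ → ZMod p) *
        Matrix.diagonal (fun l => if l = j then (0 : ZMod p) else 1) := by
    ext i l
    rw [Matrix.mul_diagonal]
    simp only [z0, Matrix.map_apply]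
    split_ifs <;> simp
  rw [h]
  exact Matrix.rank_mul_le_left _ _

theorem rank_add {F : Type*} [Field F] (A B : Matrix (Fin k) (Fin m) F) :
    (A + B).rank ≤ A.rank + B.rank := by
  unfold Matrix.rank
  rw [Matrix.mulVecLin_add]
  refine le_trans (Submodule.finrank_mono ?_) (Submodule.finrank_add_le_finrank_add_finrank _ _)
  rintro _ ⟨x, rfl⟩
  exact Submodule.add_mem_sup ⟨x, rfl⟩ ⟨x, rfl⟩

theorem rkp_le_z0 {p : ℕ} [Fact p.Prime] (M : Matrix (Fin k) (Fin m) ℤ) (j : Fin m) :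
    rkp p M ≤ rkp p (z0 M j) + 1 := by
  unfold rkp
  have h : M.map (Int.cast : ℤ → ZMod p) = (z0 M j).map (Int.cast : ℤ → ZMod p) +
      Matrix.vecMulVec (fun i => (M i j : ZMod p)) (Pi.single j 1) := by
    ext i l
    simp only [z0, Matrix.map_apply, Matrix.add_apply, Matrix.vecMulVec_apply, Pi.single_apply]
    split_ifs with h <;> simp [h]
  calc (M.map (Int.cast : ℤ → ZMod p)).rank =
      ((z0 M j).map (Int.cast : ℤ → ZMod p) +
        Matrix.vecMulVec (fun i => (M i j : ZMod p)) (Pi.single j 1)).rank := by rw [← h]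
    _ ≤ ((z0 M j).map (Int.cast : ℤ → ZMod p)).rank +
        (Matrix.vecMulVec (fun i => (M i j : ZMod p)) (Pi.single j 1)).rank :=
          rank_add _ _
    _ ≤ _ := Nat.add_le_add_left (Matrix.rank_vecMulVec_le _ _) _

theorem W_nonneg (P : Finset ℕ) (M : Matrix (Fin k) (Fin m) ℤ) : 0 ≤ W P M := by
  unfold W; positivity

theorem W_le_z0 (P : Finset ℕ) (hP : ∀ p ∈ P, p.Prime) (M : Matrix (Fin k) (Fin m) ℤ) (j : Fin m) :
    W P M ≤ W P (z0 M j) := by
  unfold W
  refine prod_le_prod (fun p hp => by positivity) fun p hp => ?_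
  have : Fact p.Prime := ⟨hP p hp⟩
  have h1 : (1 : ℝ) ≤ p := by exact_mod_cast (hP p hp).one_lt.le
  refine pow_le_pow_right₀ h1 ?_
  have := rkp_z0_le (p := p) M j
  omega

theorem W_z0_le (P : Finset ℕ) (hP : ∀ p ∈ P, p.Prime) (M : Matrix (Fin k) (Fin m) ℤ) (j : Fin m) :
    W P (z0 M j) ≤ (∏ p ∈ P, (p : ℝ)) ^ 2 * W P M := by
  unfold W
  rw [← prod_pow, ← prod_mul_distrib]
  refine prod_le_prod (fun p hp => by positivity) fun p hp => ?_
  have : Fact p.Prime := ⟨hP p hp⟩
  have h1 : (1 : ℝ) ≤ p := by exact_mod_cast (hP p hp).one_lt.le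
  rw [← pow_add]
  refine pow_le_pow_right₀ h1 ?_
  have := rkp_le_z0 (p := p) M j
  omega

theorem z0_rc (e : Ω → ℤ) (ω : Fin k → Fin m → Ω) (j : Fin m) (c : Fin k → Ω) :
    z0 (M67.mt e (rc ω j c)) j = z0 (M67.mt e ω) j := by
  ext i l
  unfold z0 M67.mt rc
  by_cases h : l = j
  · rw [if_pos h, if_pos h]
  · rw [if_neg h, if_neg h, Function.update_of_ne h]

/-- deletion of a column -/
theorem del [Fintype Ω] (P : Finset ℕ) (hP : ∀ p ∈ P, p.Prime) (e : Ω → ℤ) (j : Fin m)
    (E : (Fin k → Fin m → Ω) → Prop) [DecidablePred E] (A : ℝ)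
    (hA : ∀ ω, ((univ.filter fun c : Fin k → Ω => E (rc ω j c)).card : ℝ) ≤ A) :
    (Fintype.card Ω : ℝ) ^ k *
      ∑ ω ∈ (univ : Finset (Fin k → Fin m → Ω)).filter E, W P (M67.mt e ω) ≤
      A * (∏ p ∈ P, (p : ℝ)) ^ 2 * ∑ ω : Fin k → Fin m → Ω, W P (M67.mt e ω) := by
  classical
  have h1 : ∑ ω ∈ univ.filter E, W P (M67.mt e ω) ≤
      ∑ ω, if E ω then W P (z0 (M67.mt e ω) j) else 0 := by
    rw [sum_filter]
    refine sum_le_sum fun ω _ => ?_
    split_ifs
    · exact W_le_z0 P hP _ j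
    · exact le_rfl
  calc (Fintype.card Ω : ℝ) ^ k * ∑ ω ∈ univ.filter E, W P (M67.mt e ω)
      ≤ (Fintype.card Ω : ℝ) ^ k * ∑ ω, (if E ω then W P (z0 (M67.mt e ω) j) else 0) :=
        mul_le_mul_of_nonneg_left h1 (by positivity)
    _ = ∑ ω : Fin k → Fin m → Ω, ∑ c : Fin k → Ω,
        (if E (rc ω j c) then W P (z0 (M67.mt e ω) j) else 0) := by
          rw [← sum_rc j]
          refine sum_congr rfl fun ω _ => sum_congr rfl fun c _ => ?_
          rw [z0_rc]
    _ = ∑ ω : Fin k → Fin m → Ω,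
        ((univ.filter fun c : Fin k → Ω => E (rc ω j c)).card : ℝ) * W P (z0 (M67.mt e ω) j) := by
          refine sum_congr rfl fun ω _ => ?_
          rw [← sum_filter, sum_const, nsmul_eq_mul]
    _ ≤ ∑ ω : Fin k → Fin m → Ω, A * ((∏ p ∈ P, (p : ℝ)) ^ 2 * W P (M67.mt e ω)) := by
          refine sum_le_sum fun ω _ => ?_
          have h0 : 0 ≤ A := le_trans (Nat.cast_nonneg _) (hA ω)
          exact mul_le_mul (hA ω) (W_z0_le P hP _ j) (W_nonneg _ _) h0
    _ = _ := by rw [← mul_sum, ← mul_sum]; ring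

theorem card_rows [Fintype Ω] (a : ℕ) (S : Fin k → Finset Ω) (hS : ∀ i, (S i).card ≤ a)
    (Q : (Fin k → Ω) → Prop) [DecidablePred Q] (h : ∀ c, Q c → ∀ i, c i ∈ S i) :
    (univ.filter Q).card ≤ a ^ k := by
  classical
  calc (univ.filter Q).card ≤ (Fintype.piFinset S).card :=
        card_le_card fun c hc => Fintype.mem_piFinset.2 (h c (mem_filter.1 hc).2)
    _ = ∏ i, (S i).card := Fintype.card_piFinset _
    _ ≤ ∏ i : Fin k, a := prod_le_prod' fun i _ => hS i
    _ = a ^ k := by simp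

theorem rowsum {R : Type*} [CommRing R] (e : Ω → ℤ) (v : Fin m → Ω) (j : Fin m) (x : Ω)
    (u : Fin m → R) : ∑ l, ((e (Function.update v j x l) : ℤ) : R) * u l =
      (e x : R) * u j + ∑ l ∈ univ.erase j, ((e (v l) : ℤ) : R) * u l := by
  rw [← Finset.add_sum_erase _ _ (mem_univ j), Function.update_self]
  congr 1
  exact sum_congr rfl fun l hl => by rw [Function.update_of_ne (ne_of_mem_erase hl)]

end rc

/-! ## seeds -/

theorem stL_cases (L : ℕ) {M : ℕ} (a : Fin M) : stL L a = 1 ∨ stL L a = -1 ∨ stL L a = 0 := by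
  unfold stL
  split_ifs <;> simp

theorem seeds (k : ℕ) (hk : 0 < k) (S : Finset (Fin (8 * k)))
    (h : ∀ c ∈ S, ∀ c' ∈ S, stL (2 * k - 1) c = 0 → stL (2 * k - 1) c' = 0) :
    S.card ≤ 4 * k + 2 := by
  by_cases h0 : ∃ c ∈ S, stL (2 * k - 1) c = 0
  · obtain ⟨c, hc, hc0⟩ := h0
    have h1 : S.card ≤ (Finset.Ico (4 * k - 2) (8 * k)).card := by
      refine Finset.card_le_card_of_injOn (fun x => x.val) ?_ (fun x _ y _ hxy => Fin.ext hxy)
      intro c' hc'
      have h2 := h c hc c' hc' hc0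
      unfold stL at h2
      have h3 := c'.2
      rw [Finset.mem_coe, Finset.mem_Ico]
      refine ⟨?_, h3⟩
      by_contra hcon
      by_cases h4 : c'.val < 2 * k - 1
      · rw [if_pos h4] at h2
        exact absurd h2 (by norm_num)
      · rw [if_neg h4, if_pos (show c'.val < 2 * (2 * k - 1) by
          have : c'.val < 4 * k - 2 := not_le.1 hcon
          omega)] at h2
        exact absurd h2 (by norm_num)
    rw [Nat.card_Ico] at h1
    omega
  · have h1 : S.card ≤ (Finset.range (4 * k - 2)).card := by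
      refine Finset.card_le_card_of_injOn (fun x => x.val) ?_ (fun x _ y _ hxy => Fin.ext hxy)
      intro c' hc'
      have h2 : ¬ stL (2 * k - 1) c' = 0 := fun h => h0 ⟨c', hc', h⟩
      unfold stL at h2
      rw [Finset.mem_coe, Finset.mem_range]
      show c'.val < 4 * k - 2
      by_contra hcon
      apply h2
      rw [if_neg (by omega), if_neg (by omega)]
    rw [Finset.card_range] at h1
    omega

/-! ## the two kinds of events -/

theorem cardA (k : ℕ) (hk : 0 < k) (p : ℕ) (hp : p.Prime) (ω : Fin k → Fin k → Fin (8 * k))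
    (u : Fin k → ZMod p) (j : Fin k) (hj : u j ≠ 0) (Q : (Fin k → Fin (8 * k)) → Prop)
    [DecidablePred Q]
    (hQ : ∀ c, Q c → ∀ i, ∑ l, (M67.mt (stL (2 * k - 1)) (rc ω j c) i l : ZMod p) * u l = 0) :
    (univ.filter Q).card ≤ (4 * k + 2) ^ k := by
  classical
  have : Fact p.Prime := ⟨hp⟩
  refine card_rows (4 * k + 2) (fun i => univ.filter fun x : Fin (8 * k) =>
    ∑ l, ((stL (2 * k - 1) (Function.update (ω i) j x l) : ℤ) : ZMod p) * u l = 0) ?_ _ ?_
  · intro i
    refine seeds k hk _ ?_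
    intro c hc c' hc' h0
    rw [mem_filter, rowsum] at hc hc'
    have h1 : ((stL (2 * k - 1) c' : ℤ) : ZMod p) * u j = 0 := by
      have h2 := hc.2
      have h3 := hc'.2
      rw [h0, Int.cast_zero, zero_mul, zero_add] at h2
      rwa [h2, add_zero] at h3
    have h2 : ((stL (2 * k - 1) c' : ℤ) : ZMod p) = 0 := (mul_eq_zero.1 h1).resolve_right hj
    rcases stL_cases (2 * k - 1) c' with h3 | h3 | h3
    · rw [h3] at h2
      simp at h2
    · rw [h3] at h2
      simp at h2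
    · exact h3
  · intro c hc i
    rw [mem_filter]
    exact ⟨mem_univ _, hQ c hc i⟩

theorem cardB (k : ℕ) (hk : 0 < k) (ε : ℝ) (ω : Fin k → Fin k → Fin (8 * k))
    (u : Fin k → ℝ) (j : Fin k) (hj : 2 * ε < |u j|) (hj1 : |u j| < 1 - 2 * ε)
    (Q : (Fin k → Fin (8 * k)) → Prop) [DecidablePred Q]
    (hQ : ∀ c, Q c → ∀ i, ∃ z : ℤ,
      |∑ l, (M67.mt (stL (2 * k - 1)) (rc ω j c) i l : ℝ) * u l - z| ≤ ε) :
    (univ.filter Q).card ≤ (4 * k + 2) ^ k := by
  classical
  refine card_rows (4 * k + 2) (fun i => univ.filter fun x : Fin (8 * k) => ∃ z : ℤ,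
    |∑ l, ((stL (2 * k - 1) (Function.update (ω i) j x l) : ℤ) : ℝ) * u l - z| ≤ ε) ?_ _ ?_
  · intro i
    refine seeds k hk _ ?_
    intro c hc c' hc' h0
    rw [mem_filter] at hc hc'
    obtain ⟨z, hz⟩ := hc.2
    obtain ⟨z', hz'⟩ := hc'.2
    rw [rowsum] at hz hz'
    rw [h0, Int.cast_zero, zero_mul, zero_add] at hz
    set r := ∑ l ∈ univ.erase j, ((stL (2 * k - 1) (ω i l) : ℤ) : ℝ) * u l with hr
    have key : ∀ w : ℤ, |u j - w| ≤ 2 * ε → False := by
      intro w hw
      by_cases hw0 : w = 0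
      · rw [hw0, Int.cast_zero, sub_zero] at hw
        linarith
      · have h1 : (1 : ℝ) ≤ |(w : ℝ)| := by
          rw [← Int.cast_abs]
          exact_mod_cast Int.one_le_abs hw0
        have h2 := abs_sub_abs_le_abs_sub (w : ℝ) (u j)
        rw [abs_sub_comm] at h2
        linarith
    rcases stL_cases (2 * k - 1) c' with h3 | h3 | h3
    · exfalso
      rw [h3, Int.cast_one, one_mul] at hz'
      apply key (z' - z)
      have h4 : u j - ((z' - z : ℤ) : ℝ) = (u j + r - z') - (r - z) := by push_cast; ring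
      rw [h4]
      exact (abs_sub _ _).trans (by linarith)
    · exfalso
      rw [h3] at hz'
      push_cast at hz'
      apply key (z - z')
      have h4 : u j - ((z - z' : ℤ) : ℝ) = -(-1 * u j + r - z') + (r - z) := by push_cast; ring
      rw [h4]
      refine (abs_add_le _ _).trans ?_
      rw [abs_neg]
      linarith
    · exact h3
  · intro c hc i
    rw [mem_filter]
    exact ⟨mem_univ _, hQ c hc i⟩

/-! ## nets -/

/-- vectors with at most `t` nonzero coordinates, values in `A` -/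
def net {V : Type*} [Zero V] [DecidableEq V] (m t : ℕ) (A : Finset V) : Finset (Fin m → V) :=
  ((univ : Finset (Finset (Fin m))).filter fun T => T.card ≤ t).biUnion fun T =>
    Fintype.piFinset fun j => if j ∈ T then A else {0}

theorem mem_net {V : Type*} [Zero V] [DecidableEq V] (m t : ℕ) (A : Finset V) (u : Fin m → V)
    (h1 : (univ.filter fun j => u j ≠ 0).card ≤ t) (h2 : ∀ j, u j ∈ A) : u ∈ net m t A := by
  unfold net
  rw [mem_biUnion]
  refine ⟨univ.filter fun j => u j ≠ 0, mem_filter.2 ⟨mem_univ _, h1⟩, ?_⟩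
  rw [Fintype.mem_piFinset]
  intro j
  split_ifs with h
  · exact h2 j
  · rw [mem_filter, not_and, not_not] at h
    exact mem_singleton.2 (h (mem_univ _))

theorem card_small (m t : ℕ) :
    ((univ : Finset (Finset (Fin m))).filter fun T => T.card ≤ t).card ≤ (t + 1) * (m + 1) ^ t := by
  have h1 : ((univ : Finset (Finset (Fin m))).filter fun T => T.card ≤ t) ⊆
      (range (t + 1)).biUnion fun j => powersetCard j (univ : Finset (Fin m)) := by
    intro T hT
    rw [mem_filter] at hT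
    rw [mem_biUnion]
    exact ⟨T.card, mem_range.2 (by omega), mem_powersetCard.2 ⟨subset_univ _, rfl⟩⟩
  refine (card_le_card h1).trans (card_biUnion_le.trans ?_)
  calc ∑ j ∈ range (t + 1), (powersetCard j (univ : Finset (Fin m))).card
      ≤ ∑ j ∈ range (t + 1), (m + 1) ^ t := by
        refine sum_le_sum fun j hj => ?_
        rw [card_powersetCard, card_univ, Fintype.card_fin]
        have hj' : j ≤ t := by rw [mem_range] at hj; omega
        calc m.choose j ≤ m ^ j := Nat.choose_le_pow m j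
          _ ≤ (m + 1) ^ j := Nat.pow_le_pow_left (by omega) _
          _ ≤ (m + 1) ^ t := Nat.pow_le_pow_right (by omega) hj'
    _ = _ := by rw [sum_const, card_range, smul_eq_mul]

theorem card_net {V : Type*} [Zero V] [DecidableEq V] (m t : ℕ) (A : Finset V) (hA : 0 < A.card) :
    (net m t A).card ≤ (t + 1) * (m + 1) ^ t * A.card ^ t := by
  unfold net
  refine card_biUnion_le.trans ?_
  calc ∑ T ∈ (univ : Finset (Finset (Fin m))).filter (fun T => T.card ≤ t),
        (Fintype.piFinset fun j => if j ∈ T then A else {0}).card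
      ≤ ∑ T ∈ (univ : Finset (Finset (Fin m))).filter (fun T => T.card ≤ t), A.card ^ t := by
        refine sum_le_sum fun T hT => ?_
        rw [Fintype.card_piFinset]
        have h1 : ∀ j, (if j ∈ T then A else {0}).card = if j ∈ T then A.card else 1 := by
          intro j; split_ifs <;> simp
        simp only [h1]
        rw [prod_ite_mem, univ_inter, prod_const]
        exact Nat.pow_le_pow_right hA (mem_filter.1 hT).2
    _ = _ * A.card ^ t := by rw [sum_const, smul_eq_mul]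
    _ ≤ _ := Nat.mul_le_mul_right _ (card_small m t)

/-- union bound -/
theorem union_le {X D : Type*} [Fintype X] (I : Finset D) (Q : X → Prop) [DecidablePred Q]
    (E : D → X → Prop) [∀ d, DecidablePred (E d)] (g : X → ℝ) (hg : ∀ x, 0 ≤ g x)
    (h : ∀ x, Q x → ∃ d ∈ I, E d x) :
    ∑ x ∈ univ.filter Q, g x ≤ ∑ d ∈ I, ∑ x ∈ univ.filter (E d), g x := by
  calc ∑ x ∈ univ.filter Q, g x ≤ ∑ x, ∑ d ∈ I, (if E d x then g x else 0) := by
        rw [sum_filter]
        refine sum_le_sum fun x _ => ?_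
        have h0 : ∀ d ∈ I, 0 ≤ (if E d x then g x else 0) := fun d _ => by
          split_ifs
          · exact hg x
          · exact le_rfl
        split_ifs with hx
        · obtain ⟨d, hd, hE⟩ := h x hx
          have h2 := single_le_sum h0 hd
          rwa [if_pos hE] at h2
        · exact sum_nonneg h0
    _ = ∑ d ∈ I, ∑ x ∈ univ.filter (E d), g x := by
        rw [sum_comm]
        exact sum_congr rfl fun d _ => by rw [sum_filter]

/-! ## bounds of the single events -/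

/-- probability that a column is determined -/
noncomputable def rho (k : ℕ) : ℝ := (((4 * k + 2 : ℕ) : ℝ) ^ k) / ((8 * k : ℕ) : ℝ) ^ k

/-- total weight -/
noncomputable def SS (k : ℕ) (P : Finset ℕ) : ℝ :=
  ∑ ω : Fin k → Fin k → Fin (8 * k), W P (M67.mt (stL (2 * k - 1)) ω)

theorem SS_nonneg (k : ℕ) (P : Finset ℕ) : 0 ≤ SS k P := sum_nonneg fun _ _ => W_nonneg _ _

theorem of_del (k : ℕ) (hk : 0 < k) (P : Finset ℕ) (hP : ∀ p ∈ P, p.Prime) (j : Fin k)
    (E : (Fin k → Fin k → Fin (8 * k)) → Prop) [DecidablePred E]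
    (hA : ∀ ω, (univ.filter fun c : Fin k → Fin (8 * k) => E (rc ω j c)).card ≤ (4 * k + 2) ^ k) :
    ∑ ω ∈ univ.filter E, W P (M67.mt (stL (2 * k - 1)) ω) ≤
      rho k * (∏ p ∈ P, (p : ℝ)) ^ 2 * SS k P := by
  have h := del P hP (stL (2 * k - 1)) j E (((4 * k + 2 : ℕ) : ℝ) ^ k) (fun ω => by
    exact_mod_cast hA ω)
  rw [Fintype.card_fin] at h
  have h8 : (0 : ℝ) < ((8 * k : ℕ) : ℝ) ^ k := by positivity
  unfold rho SS
  rw [div_mul_eq_mul_div, div_mul_eq_mul_div, le_div_iff₀ h8, mul_comm]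
  exact h

theorem bound_nonneg (k : ℕ) (P : Finset ℕ) :
    0 ≤ rho k * (∏ p ∈ P, (p : ℝ)) ^ 2 * SS k P := by
  have := SS_nonneg k P
  unfold rho
  positivity

open scoped Classical in
theorem oneA (k : ℕ) (hk : 0 < k) (P : Finset ℕ) (hP : ∀ p ∈ P, p.Prime) (p : ℕ) (hp : p.Prime)
    (u : Fin k → ZMod p) :
    ∑ ω ∈ univ.filter (fun ω : Fin k → Fin k → Fin (8 * k) =>
      u ≠ 0 ∧ ∀ i, ∑ l, (M67.mt (stL (2 * k - 1)) ω i l : ZMod p) * u l = 0),
      W P (M67.mt (stL (2 * k - 1)) ω) ≤ rho k * (∏ p ∈ P, (p : ℝ)) ^ 2 * SS k P := by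
  by_cases hu : u = 0
  · refine le_trans (le_of_eq (sum_eq_zero fun ω hω => ?_)) (bound_nonneg k P)
    exact absurd hu (mem_filter.1 hω).2.1
  · obtain ⟨j, hj⟩ := Function.ne_iff.1 hu
    exact of_del k hk P hP j _ fun ω => cardA k hk p hp ω u j hj _ fun c hc => hc.2

open scoped Classical in
theorem oneB (k : ℕ) (hk : 0 < k) (P : Finset ℕ) (hP : ∀ p ∈ P, p.Prime) (ε : ℝ)
    (u : Fin k → ℝ) :
    ∑ ω ∈ univ.filter (fun ω : Fin k → Fin k → Fin (8 * k) =>
      (∃ j, 2 * ε < |u j| ∧ |u j| < 1 - 2 * ε) ∧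
        ∀ i, ∃ z : ℤ, |∑ l, (M67.mt (stL (2 * k - 1)) ω i l : ℝ) * u l - z| ≤ ε),
      W P (M67.mt (stL (2 * k - 1)) ω) ≤ rho k * (∏ p ∈ P, (p : ℝ)) ^ 2 * SS k P := by
  by_cases hu : ∃ j, 2 * ε < |u j| ∧ |u j| < 1 - 2 * ε
  · obtain ⟨j, hj, hj1⟩ := hu
    exact of_del k hk P hP j _ fun ω => cardB k hk ε ω u j hj hj1 _ fun c hc => hc.2
  · refine le_trans (le_of_eq (sum_eq_zero fun ω hω => ?_)) (bound_nonneg k P)
    exact absurd (mem_filter.1 hω).2.1 hu

/-! ## rounding -/

theorem net_of_spB (k : ℕ) (s : ℝ) (hs : 1 ≤ s) (hsk : s ≤ k) (M : Matrix (Fin k) (Fin k) ℤ)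
    (hM : ∀ i j, |(M i j : ℝ)| ≤ 1) (h : SpB s M) :
    ∃ n : Fin k → ℤ, n ∈ net k ⌊s⌋₊
        (Finset.Icc (-((64 * k ^ 2 + 1 : ℕ) : ℤ)) ((64 * k ^ 2 + 1 : ℕ) : ℤ)) ∧
      (∃ j, 2 * (5 / (256 * s)) < |1 / (128 * s ^ 2) * (n j : ℝ)| ∧
        |1 / (128 * s ^ 2) * (n j : ℝ)| < 1 - 2 * (5 / (256 * s))) ∧
      ∀ i, ∃ z : ℤ, |∑ l : Fin k, (M i l : ℝ) * (1 / (128 * s ^ 2) * (n l : ℝ)) - (z : ℝ)| ≤
        5 / (256 * s) := by
  classical
  obtain ⟨ψ, h1, h2, ⟨c0, h3⟩, h4⟩ := h
  have h2' : ((univ.filter fun j => ψ j ≠ 0).card : ℝ) ≤ s := by convert h2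
  have hs0 : 0 < s := by linarith
  set hh : ℝ := 1 / (128 * s ^ 2) with hhd
  have hh0 : 0 < hh := by positivity
  have hr : ∀ l, |ψ l - hh * (round (ψ l / hh) : ℝ)| ≤ hh / 2 := by
    intro l
    have h5 := abs_sub_round (ψ l / hh)
    have h6 : ψ l - hh * (round (ψ l / hh) : ℝ) = hh * (ψ l / hh - (round (ψ l / hh) : ℝ)) := by
      field_simp
    rw [h6, abs_mul, abs_of_pos hh0]
    nlinarith
  have hz : ∀ l, ψ l = 0 → round (ψ l / hh) = 0 := by
    intro l hl
    rw [hl, zero_div, round_zero]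
  have hb1 : 1 / (256 * s ^ 2) ≤ 1 / (256 * s) := by
    apply one_div_le_one_div_of_le (by positivity)
    nlinarith
  have hhalf : hh / 2 = 1 / (256 * s ^ 2) := by rw [hhd]; field_simp; norm_num
  have hb2 : 1 / (256 * s) ≤ 1 / 256 := by
    apply one_div_le_one_div_of_le (by positivity)
    linarith
  have e5 : 5 / (256 * s) = 5 * (1 / (256 * s)) := by ring
  have e4 : 1 / (4 * s) = 64 * (1 / (256 * s)) := by field_simp; norm_num
  have e64 : 1 / (64 * s) = 4 * (1 / (256 * s)) := by field_simp; norm_num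
  have hpos : 0 < 1 / (256 * s) := by positivity
  refine ⟨fun l => round (ψ l / hh), mem_net _ _ _ _ ?_ ?_, ⟨c0, ?_, ?_⟩, ?_⟩
  · apply Nat.le_floor
    refine le_trans ?_ h2'
    exact_mod_cast card_le_card fun l hl => by
      rw [mem_filter] at hl ⊢
      exact ⟨mem_univ _, fun h0 => hl.2 (hz l h0)⟩
  · intro l
    have h5 := abs_sub_round (ψ l / hh)
    have h6 : |ψ l / hh| ≤ 64 * (k : ℝ) ^ 2 := by
      rw [abs_div, abs_of_pos hh0, div_le_iff₀ hh0]
      have h7 : (64 : ℝ) * (k : ℝ) ^ 2 * hh = (k : ℝ) ^ 2 / s ^ 2 * (1 / 2) := by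
        rw [hhd]; field_simp; ring
      rw [h7]
      have h8 : 1 ≤ (k : ℝ) ^ 2 / s ^ 2 := by
        rw [one_le_div (by positivity)]
        nlinarith
      have := h1 l
      nlinarith
    have h9 := abs_le.1 h5
    have h10 := abs_le.1 h6
    rw [Finset.mem_Icc]
    constructor
    · have : ((-((64 * k ^ 2 + 1 : ℕ) : ℤ) : ℤ) : ℝ) ≤ ((round (ψ l / hh) : ℤ) : ℝ) := by
        push_cast
        linarith
      exact Int.cast_le.1 this
    · have : ((round (ψ l / hh) : ℤ) : ℝ) ≤ ((((64 * k ^ 2 + 1 : ℕ) : ℤ)) : ℝ) := by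
        push_cast
        linarith
      exact Int.cast_le.1 this
  · have h5 := hr c0
    have h6 := abs_sub_abs_le_abs_sub (ψ c0) (hh * (round (ψ c0 / hh) : ℝ))
    rw [e5]
    rw [e4] at h3
    rw [hhalf] at h5
    linarith
  · have h5 := hr c0
    have h6 := abs_sub_abs_le_abs_sub (hh * (round (ψ c0 / hh) : ℝ)) (ψ c0)
    rw [abs_sub_comm] at h6
    rw [hhalf] at h5
    have h7 := h1 c0
    rw [e5]
    linarith
  · intro i
    obtain ⟨z, hz4⟩ := h4 i
    refine ⟨z, ?_⟩
    have h5 : ∑ l, (M i l : ℝ) * (hh * (round (ψ l / hh) : ℝ)) - z =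
        (∑ c, (M i c : ℝ) * ψ c - z) - ∑ l, (M i l : ℝ) * (ψ l - hh * (round (ψ l / hh) : ℝ)) := by
      simp only [mul_sub, sum_sub_distrib]
      ring
    have h6 : |∑ l, (M i l : ℝ) * (ψ l - hh * (round (ψ l / hh) : ℝ))| ≤ 1 / (256 * s) := by
      have h7 : ∑ l, (M i l : ℝ) * (ψ l - hh * (round (ψ l / hh) : ℝ)) =
          ∑ l ∈ univ.filter (fun j => ψ j ≠ 0),
            (M i l : ℝ) * (ψ l - hh * (round (ψ l / hh) : ℝ)) := by
        symm
        apply sum_subset (filter_subset _ _)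
        intro l _ hl
        rw [mem_filter, not_and, not_not] at hl
        have h0 := hl (mem_univ _)
        rw [hz l h0, h0]
        simp
      rw [h7]
      calc |∑ l ∈ univ.filter (fun j => ψ j ≠ 0),
            (M i l : ℝ) * (ψ l - hh * (round (ψ l / hh) : ℝ))|
          ≤ ∑ l ∈ univ.filter (fun j => ψ j ≠ 0),
            |(M i l : ℝ) * (ψ l - hh * (round (ψ l / hh) : ℝ))| := abs_sum_le_sum_abs _ _
        _ ≤ ∑ l ∈ univ.filter (fun j => ψ j ≠ 0), hh / 2 := by
            refine sum_le_sum fun l _ => ?_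
            rw [abs_mul]
            have h8 := hM i l
            have h9 := hr l
            calc |(M i l : ℝ)| * |ψ l - hh * (round (ψ l / hh) : ℝ)| ≤ 1 * (hh / 2) :=
                  mul_le_mul h8 h9 (abs_nonneg _) zero_le_one
              _ = hh / 2 := one_mul _
        _ = ((univ.filter fun j => ψ j ≠ 0).card : ℝ) * (hh / 2) := by
            rw [sum_const, nsmul_eq_mul]
        _ ≤ s * (hh / 2) := mul_le_mul_of_nonneg_right h2' (by positivity)
        _ = 1 / (256 * s) := by rw [hhalf]; field_simp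
    rw [h5]
    refine (abs_sub _ _).trans ?_
    rw [e64] at hz4
    rw [e5]
    linarith

end Vale.Agent.P160.Half.Sparse416
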