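import Vale.Agent.P160.Half.Sparse416

/-! # P160, block (M), leaf (8): the sparse event, part 2 (helper416, hedge). -/

set_option linter.unusedVariables false
set_option linter.unusedSectionVars false

namespace Vale.Agent.P160.Half.Sparse416

open Finset Vale.Agent.P160 Vale.Agent.P160.Half Vale.Agent.P160.Half.M67

open scoped Classical in
theorem partA (k : ℕ) (hk : 0 < k) (P : Finset ℕ) (hP : ∀ p ∈ P, p.Prime) (s : ℝ) :
    ∑ ω ∈ univ.filter (fun ω : Fin k → Fin k → Fin (8 * k) =>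
      Sparse P s (M67.mt (stL (2 * k - 1)) ω)), W P (M67.mt (stL (2 * k - 1)) ω) ≤
      (∑ p ∈ P, (((⌊s⌋₊ + 1) * (k + 1) ^ ⌊s⌋₊ * p ^ ⌊s⌋₊ : ℕ) : ℝ)) *
        (rho k * (∏ p ∈ P, (p : ℝ)) ^ 2 * SS k P) := by
  have h1 := union_le P (fun ω : Fin k → Fin k → Fin (8 * k) =>
      Sparse P s (M67.mt (stL (2 * k - 1)) ω))
    (fun p ω => ∃ u : Fin k → ZMod p, u ≠ 0 ∧ ((univ.filter fun j => u j ≠ 0).card : ℝ) < s ∧
      ∀ i, ∑ j, (M67.mt (stL (2 * k - 1)) ω i j : ZMod p) * u j = 0)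
    (fun ω => W P (M67.mt (stL (2 * k - 1)) ω)) (fun _ => W_nonneg _ _) (fun ω h => h)
  refine h1.trans ?_
  rw [sum_mul]
  refine sum_le_sum fun p hp => ?_
  have hpp := hP p hp
  have : Fact p.Prime := ⟨hpp⟩
  have h2 := union_le (net k ⌊s⌋₊ (univ : Finset (ZMod p)))
    (fun ω : Fin k → Fin k → Fin (8 * k) => ∃ u : Fin k → ZMod p, u ≠ 0 ∧
      ((univ.filter fun j => u j ≠ 0).card : ℝ) < s ∧
      ∀ i, ∑ j, (M67.mt (stL (2 * k - 1)) ω i j : ZMod p) * u j = 0)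
    (fun u ω => u ≠ 0 ∧ ∀ i, ∑ l, (M67.mt (stL (2 * k - 1)) ω i l : ZMod p) * u l = 0)
    (fun ω => W P (M67.mt (stL (2 * k - 1)) ω)) (fun _ => W_nonneg _ _) (by
      rintro ω ⟨u, hu0, hus, hu⟩
      exact ⟨u, mem_net _ _ _ _ (Nat.le_floor hus.le) (fun _ => mem_univ _), hu0, hu⟩)
  refine le_trans (le_of_eq (by congr!)) (h2.trans ?_)
  calc ∑ u ∈ net k ⌊s⌋₊ (univ : Finset (ZMod p)), _
      ≤ ∑ u ∈ net k ⌊s⌋₊ (univ : Finset (ZMod p)),
        (rho k * (∏ p ∈ P, (p : ℝ)) ^ 2 * SS k P) :=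
        sum_le_sum fun u _ => oneA k hk P hP p hpp u
    _ = ((net k ⌊s⌋₊ (univ : Finset (ZMod p))).card : ℝ) *
        (rho k * (∏ p ∈ P, (p : ℝ)) ^ 2 * SS k P) := by rw [sum_const, nsmul_eq_mul]
    _ ≤ _ := by
        refine mul_le_mul_of_nonneg_right ?_ (bound_nonneg k P)
        have h3 := card_net k ⌊s⌋₊ (univ : Finset (ZMod p))
          (by rw [card_univ, ZMod.card]; exact hpp.pos)
        rw [card_univ, ZMod.card] at h3
        exact_mod_cast h3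

open scoped Classical in
theorem partB (k : ℕ) (hk : 0 < k) (P : Finset ℕ) (hP : ∀ p ∈ P, p.Prime) (s : ℝ) (hs : 1 ≤ s)
    (hsk : s ≤ k) :
    ∑ ω ∈ univ.filter (fun ω : Fin k → Fin k → Fin (8 * k) =>
      SpB s (M67.mt (stL (2 * k - 1)) ω)), W P (M67.mt (stL (2 * k - 1)) ω) ≤
      (((⌊s⌋₊ + 1) * (k + 1) ^ ⌊s⌋₊ * (128 * k ^ 2 + 3) ^ ⌊s⌋₊ : ℕ) : ℝ) *
        (rho k * (∏ p ∈ P, (p : ℝ)) ^ 2 * SS k P) := by
  have hM : ∀ (ω : Fin k → Fin k → Fin (8 * k)) i j,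
      |((M67.mt (stL (2 * k - 1)) ω i j : ℤ) : ℝ)| ≤ 1 := by
    intro ω i j
    unfold M67.mt
    rcases stL_cases (2 * k - 1) (ω i j) with h | h | h <;> rw [h] <;> simp
  have h2 := union_le (net k ⌊s⌋₊
      (Finset.Icc (-((64 * k ^ 2 + 1 : ℕ) : ℤ)) ((64 * k ^ 2 + 1 : ℕ) : ℤ)))
    (fun ω : Fin k → Fin k → Fin (8 * k) => SpB s (M67.mt (stL (2 * k - 1)) ω))
    (fun n ω => (∃ j, 2 * (5 / (256 * s)) < |1 / (128 * s ^ 2) * (n j : ℝ)| ∧
        |1 / (128 * s ^ 2) * (n j : ℝ)| < 1 - 2 * (5 / (256 * s))) ∧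
      ∀ i, ∃ z : ℤ, |∑ l : Fin k, (M67.mt (stL (2 * k - 1)) ω i l : ℝ) *
        (1 / (128 * s ^ 2) * (n l : ℝ)) - (z : ℝ)| ≤ 5 / (256 * s))
    (fun ω => W P (M67.mt (stL (2 * k - 1)) ω)) (fun _ => W_nonneg _ _) (by
      intro ω h
      obtain ⟨n, h1, h2⟩ := net_of_spB k s hs hsk _ (hM ω) h
      exact ⟨n, h1, h2⟩)
  refine h2.trans ?_
  calc ∑ n ∈ net k ⌊s⌋₊
        (Finset.Icc (-((64 * k ^ 2 + 1 : ℕ) : ℤ)) ((64 * k ^ 2 + 1 : ℕ) : ℤ)), _
      ≤ ∑ n ∈ net k ⌊s⌋₊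
        (Finset.Icc (-((64 * k ^ 2 + 1 : ℕ) : ℤ)) ((64 * k ^ 2 + 1 : ℕ) : ℤ)),
        (rho k * (∏ p ∈ P, (p : ℝ)) ^ 2 * SS k P) :=
        sum_le_sum fun n _ => oneB k hk P hP (5 / (256 * s))
          (fun l => 1 / (128 * s ^ 2) * (n l : ℝ))
    _ = ((net k ⌊s⌋₊ (Finset.Icc (-((64 * k ^ 2 + 1 : ℕ) : ℤ))
          ((64 * k ^ 2 + 1 : ℕ) : ℤ))).card : ℝ) *
        (rho k * (∏ p ∈ P, (p : ℝ)) ^ 2 * SS k P) := by rw [sum_const, nsmul_eq_mul]
    _ ≤ _ := by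
        refine mul_le_mul_of_nonneg_right ?_ (bound_nonneg k P)
        have hc : (Finset.Icc (-((64 * k ^ 2 + 1 : ℕ) : ℤ)) ((64 * k ^ 2 + 1 : ℕ) : ℤ)).card =
            128 * k ^ 2 + 3 := by
          rw [Int.card_Icc]
          have : (((64 * k ^ 2 + 1 : ℕ) : ℤ) + 1 - -((64 * k ^ 2 + 1 : ℕ) : ℤ)) =
              ((128 * k ^ 2 + 3 : ℕ) : ℤ) := by push_cast; ring
          rw [this, Int.toNat_natCast]
        have h3 := card_net k ⌊s⌋₊
          (Finset.Icc (-((64 * k ^ 2 + 1 : ℕ) : ℤ)) ((64 * k ^ 2 + 1 : ℕ) : ℤ))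
          (by rw [hc]; omega)
        rw [hc] at h3
        exact_mod_cast h3

open scoped Classical in
theorem finite_bound (k : ℕ) (hk : 0 < k) (P : Finset ℕ) (hP : ∀ p ∈ P, p.Prime) (s : ℝ)
    (hs : 1 ≤ s) (hsk : s ≤ k) :
    ∑ ω ∈ (univ : Finset (Fin k → Fin k → Fin (8 * k))).filter (fun ω =>
      Sp P s (M67.mt (stL (2 * k - 1)) ω)), W P (M67.mt (stL (2 * k - 1)) ω) ≤
      ((∑ p ∈ P, (((⌊s⌋₊ + 1) * (k + 1) ^ ⌊s⌋₊ * p ^ ⌊s⌋₊ : ℕ) : ℝ)) +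
        (((⌊s⌋₊ + 1) * (k + 1) ^ ⌊s⌋₊ * (128 * k ^ 2 + 3) ^ ⌊s⌋₊ : ℕ) : ℝ)) *
        (rho k * (∏ p ∈ P, (p : ℝ)) ^ 2 * SS k P) := by
  have h1 := union_le (univ : Finset Bool) (fun ω : Fin k → Fin k → Fin (8 * k) =>
      Sp P s (M67.mt (stL (2 * k - 1)) ω))
    (fun b ω => if b then Sparse P s (M67.mt (stL (2 * k - 1)) ω) else
      SpB s (M67.mt (stL (2 * k - 1)) ω))
    (fun ω => W P (M67.mt (stL (2 * k - 1)) ω)) (fun _ => W_nonneg _ _) (by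
      rintro ω (h | h)
      · exact ⟨true, mem_univ _, by simpa using h⟩
      · exact ⟨false, mem_univ _, by simpa using h⟩)
  refine h1.trans ?_
  rw [Fintype.sum_bool, add_mul]
  have hA := partA k hk P hP s
  have hB := partB k hk P hP s hs hsk
  refine add_le_add (le_trans (le_of_eq ?_) hA) (le_trans (le_of_eq ?_) hB)
  · refine sum_congr ?_ fun _ _ => rfl
    ext ω; simp
  · refine sum_congr ?_ fun _ _ => rfl
    ext ω; simp

/-! ## asymptotics -/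

theorem rho_le (k : ℕ) (hk : 0 < k) : rho k ≤ 2 * (2 : ℝ) ^ (-(k : ℝ)) := by
  unfold rho
  have hk0 : (0 : ℝ) < k := by exact_mod_cast hk
  have h1 : (((4 * k + 2 : ℕ) : ℝ) ^ k) / ((8 * k : ℕ) : ℝ) ^ k =
      (1 + 1 / (2 * k)) ^ k * (1 / 2) ^ k := by
    rw [← div_pow, ← mul_pow]
    congr 1
    push_cast
    field_simp
    ring
  rw [h1]
  have h2 : (1 + 1 / (2 * (k : ℝ))) ^ k ≤ 2 := by
    have h3 : (1 + 1 / (2 * (k : ℝ))) ≤ Real.exp (1 / (2 * k)) := by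
      have := Real.add_one_le_exp (1 / (2 * (k : ℝ)))
      linarith
    calc (1 + 1 / (2 * (k : ℝ))) ^ k ≤ (Real.exp (1 / (2 * k))) ^ k :=
          pow_le_pow_left₀ (by positivity) h3 k
      _ = Real.exp (1 / 2) := by
          rw [← Real.exp_nat_mul]
          congr 1
          field_simp
      _ ≤ 2 := by
          have h4 : Real.exp (1 / 2) ^ 2 ≤ 4 := by
            rw [← Real.exp_nat_mul]
            norm_num
            have := Real.exp_one_lt_d9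
            linarith
          nlinarith [Real.exp_pos (1 / 2 : ℝ)]
  have h5 : (2 : ℝ) ^ (-(k : ℝ)) = (1 / 2) ^ k := by
    rw [Real.rpow_neg (by norm_num), Real.rpow_natCast, one_div, inv_pow]
  rw [h5]
  exact mul_le_mul_of_nonneg_right h2 (by positivity)

open Filter Asymptotics in
theorem eventually_small (δ B η : ℝ) (hδ : 0 < δ) (hη : 0 < η) :
    ∀ᶠ x : ℝ in atTop, Real.log 4 + Real.log x * ((B + 5) + (B + 5) * x ^ (1 - δ / 4)) ≤
      η * Real.log 2 * x := by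
  have h1 : (fun x : ℝ => Real.log x) =o[atTop] fun x => x ^ (δ / 4) :=
    isLittleO_log_rpow_atTop (by positivity)
  have h2 : (fun x : ℝ => Real.log x * x ^ (1 - δ / 4)) =o[atTop] fun x : ℝ => x := by
    have h3 : (fun x : ℝ => Real.log x * x ^ (1 - δ / 4)) =o[atTop]
        fun x : ℝ => x ^ (δ / 4) * x ^ (1 - δ / 4) := h1.mul_isBigO (isBigO_refl _ _)
    refine h3.congr' EventuallyEq.rfl ?_
    filter_upwards [eventually_gt_atTop 0] with x hx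
    rw [← Real.rpow_add hx]
    simp
  have h4 : (fun x : ℝ => Real.log x) =o[atTop] fun x : ℝ => x := Real.isLittleO_log_id_atTop
  have h5 : (fun _ : ℝ => Real.log 4) =o[atTop] fun x : ℝ => x :=
    isLittleO_const_id_atTop (Real.log 4)
  have h6 : (fun x : ℝ => Real.log 4 + ((B + 5) * Real.log x + (B + 5) *
      (Real.log x * x ^ (1 - δ / 4)))) =o[atTop] fun x : ℝ => x :=
    h5.add ((h4.const_mul_left _).add (h2.const_mul_left _))
  have h7 := h6.def (c := η * Real.log 2) (by have := Real.log_pos one_lt_two; positivity)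
  filter_upwards [h7, eventually_gt_atTop 0] with x hx hx0
  rw [Real.norm_eq_abs, Real.norm_eq_abs, abs_of_pos hx0] at hx
  have := (le_abs_self _).trans hx
  nlinarith

theorem small_factors (k : ℕ) (hk131 : 131 ≤ k) (s : ℝ) (hs1 : 1 ≤ s) (hsk : s ≤ k) (t : ℕ)
    (hts : (t : ℝ) ≤ s) :
    (t : ℝ) + 1 ≤ Real.exp (2 * Real.log k) ∧ ((k : ℝ) + 1) ^ t ≤ Real.exp (2 * Real.log k * s) ∧
      (128 * (k : ℝ) ^ 2 + 3) ^ t ≤ Real.exp (3 * Real.log k * s) := by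
  have hkr : (131 : ℝ) ≤ k := by exact_mod_cast hk131
  have hkpos : (0 : ℝ) < k := by linarith
  have hexp : Real.exp (Real.log k) = k := Real.exp_log hkpos
  have hℓ0 : 0 ≤ Real.log k := Real.log_nonneg (by linarith)
  have e2 : Real.exp (2 * Real.log k) = (k : ℝ) ^ 2 := by
    rw [show (2 : ℝ) * Real.log k = ((2 : ℕ) : ℝ) * Real.log k by norm_num, Real.exp_nat_mul, hexp]
  have e3 : Real.exp (3 * Real.log k) = (k : ℝ) ^ 3 := by
    rw [show (3 : ℝ) * Real.log k = ((3 : ℕ) : ℝ) * Real.log k by norm_num, Real.exp_nat_mul, hexp]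
  refine ⟨by rw [e2]; nlinarith, ?_, ?_⟩
  · have h1 : (k : ℝ) + 1 ≤ Real.exp (2 * Real.log k) := by rw [e2]; nlinarith
    have h2 : ((k : ℝ) + 1) ^ t ≤ (Real.exp (2 * Real.log k)) ^ t :=
      pow_le_pow_left₀ (by positivity) h1 t
    rw [← Real.exp_nat_mul] at h2
    refine h2.trans (Real.exp_le_exp.2 ?_)
    have h3 : (t : ℝ) * (2 * Real.log k) ≤ s * (2 * Real.log k) :=
      mul_le_mul_of_nonneg_right hts (by positivity)
    linarith
  · have h1 : 128 * (k : ℝ) ^ 2 + 3 ≤ Real.exp (3 * Real.log k) := by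
      rw [e3]
      have h4 : (131 : ℝ) * (k : ℝ) ^ 2 ≤ k * (k : ℝ) ^ 2 :=
        mul_le_mul_of_nonneg_right hkr (by positivity)
      have h5 : (1 : ℝ) ≤ (k : ℝ) ^ 2 := by nlinarith
      have h6 : (k : ℝ) ^ 3 = k * (k : ℝ) ^ 2 := by ring
      rw [h6]; linarith
    have h2 : (128 * (k : ℝ) ^ 2 + 3) ^ t ≤ (Real.exp (3 * Real.log k)) ^ t :=
      pow_le_pow_left₀ (by positivity) h1 t
    rw [← Real.exp_nat_mul] at h2
    refine h2.trans (Real.exp_le_exp.2 ?_)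
    have h3 : (t : ℝ) * (3 * Real.log k) ≤ s * (3 * Real.log k) :=
      mul_le_mul_of_nonneg_right hts (by positivity)
    linarith

theorem g1 (b₁ β B : ℝ) (hB1 : 1 ≤ B) (k : ℕ) (hk131 : 131 ≤ k) (P : Finset ℕ)
    (hadm : Adm b₁ β B k P) (s : ℝ) (hs1 : 1 ≤ s) (hsk : s ≤ k) (t : ℕ)
    (hts : (t : ℝ) ≤ s) : (∑ p ∈ P, (((t + 1) * (k + 1) ^ t * p ^ t : ℕ) : ℝ)) ≤
      Real.exp (Real.log k * ((B + 5) + (B + 5) * s)) := by
  obtain ⟨f1, f2, f3⟩ := small_factors k hk131 s hs1 hsk t hts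
  have hkr : (131 : ℝ) ≤ k := by exact_mod_cast hk131
  have hkpos : (0 : ℝ) < k := by linarith
  have hexp : Real.exp (Real.log k) = k := Real.exp_log hkpos
  have hℓ0 : 0 ≤ Real.log k := Real.log_nonneg (by linarith)
  have hkB : (k : ℝ) ^ B = Real.exp (Real.log k * B) := by
    rw [Real.rpow_def_of_pos hkpos]
  have f4 : ∀ p ∈ P, (p : ℝ) ^ t ≤ Real.exp (B * Real.log k * s) := by
    intro p hp
    have h2 : (p : ℝ) ^ t ≤ (Real.exp (Real.log k * B)) ^ t :=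
      pow_le_pow_left₀ (Nat.cast_nonneg _) ((hadm.hi p hp).trans (le_of_eq hkB)) t
    rw [← Real.exp_nat_mul] at h2
    refine h2.trans (Real.exp_le_exp.2 ?_)
    have : (t : ℝ) * (Real.log k * B) ≤ s * (Real.log k * B) :=
      mul_le_mul_of_nonneg_right hts (by positivity)
    linarith
  have f5 : (P.card : ℝ) ≤ Real.exp ((B + 1) * Real.log k) := by
    have h1 : P ⊆ range (⌊(k : ℝ) ^ B⌋₊ + 1) := fun p hp => by
      rw [mem_range]
      have := Nat.le_floor (hadm.hi p hp)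
      omega
    have h2 : (P.card : ℝ) ≤ (k : ℝ) ^ B + 1 := by
      have h3 := card_le_card h1
      rw [card_range] at h3
      have h4 : (P.card : ℝ) ≤ (⌊(k : ℝ) ^ B⌋₊ : ℝ) + 1 := by exact_mod_cast h3
      have h5 := Nat.floor_le (show (0 : ℝ) ≤ (k : ℝ) ^ B by positivity)
      linarith
    have h3 : (1 : ℝ) ≤ (k : ℝ) ^ B := Real.one_le_rpow (by linarith) (by linarith)
    have h4 : Real.exp ((B + 1) * Real.log k) = (k : ℝ) ^ B * k := by
      rw [add_mul, one_mul, Real.exp_add, hexp, hkB, mul_comm B]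
    rw [h4]
    nlinarith
  have h0 : ∀ p ∈ P, (((t + 1) * (k + 1) ^ t * p ^ t : ℕ) : ℝ) ≤
      Real.exp (2 * Real.log k) * Real.exp (2 * Real.log k * s) *
        Real.exp (B * Real.log k * s) := by
    intro p hp
    rw [Nat.cast_mul, Nat.cast_mul, Nat.cast_pow, Nat.cast_pow, Nat.cast_add, Nat.cast_one,
      Nat.cast_add, Nat.cast_one]
    exact mul_le_mul (mul_le_mul f1 f2 (by positivity) (by positivity)) (f4 p hp)
      (by positivity) (by positivity)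
  refine (sum_le_sum h0).trans ?_
  rw [sum_const, nsmul_eq_mul]
  have h6 := mul_le_mul_of_nonneg_right f5 (show (0 : ℝ) ≤ Real.exp (2 * Real.log k) *
    Real.exp (2 * Real.log k * s) * Real.exp (B * Real.log k * s) by positivity)
  refine h6.trans ?_
  rw [← Real.exp_add, ← Real.exp_add, ← Real.exp_add]
  refine Real.exp_le_exp.2 ?_
  have h1 : 0 ≤ Real.log k * s := by positivity
  nlinarith

theorem g2 (B : ℝ) (hB1 : 1 ≤ B) (k : ℕ) (hk131 : 131 ≤ k) (s : ℝ) (hs1 : 1 ≤ s) (hsk : s ≤ k)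
    (t : ℕ) (hts : (t : ℝ) ≤ s) :
    (((t + 1) * (k + 1) ^ t * (128 * k ^ 2 + 3) ^ t : ℕ) : ℝ) ≤
      Real.exp (Real.log k * ((B + 5) + (B + 5) * s)) := by
  obtain ⟨f1, f2, f3⟩ := small_factors k hk131 s hs1 hsk t hts
  have hkr : (131 : ℝ) ≤ k := by exact_mod_cast hk131
  have hℓ0 : 0 ≤ Real.log k := Real.log_nonneg (by linarith)
  have h0 : (((t + 1) * (k + 1) ^ t * (128 * k ^ 2 + 3) ^ t : ℕ) : ℝ) ≤
      Real.exp (2 * Real.log k) * Real.exp (2 * Real.log k * s) *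
        Real.exp (3 * Real.log k * s) := by
    have h1 : (((t + 1) * (k + 1) ^ t * (128 * k ^ 2 + 3) ^ t : ℕ) : ℝ) =
        ((t : ℝ) + 1) * ((k : ℝ) + 1) ^ t * (128 * (k : ℝ) ^ 2 + 3) ^ t := by
      push_cast; ring
    rw [h1]
    exact mul_le_mul (mul_le_mul f1 f2 (by positivity) (by positivity)) f3
      (by positivity) (by positivity)
  refine h0.trans ?_
  rw [← Real.exp_add, ← Real.exp_add]
  refine Real.exp_le_exp.2 ?_
  have h1 : 0 ≤ Real.log k * s := by positivity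
  nlinarith

theorem last (b₁ β B η : ℝ) (k : ℕ) (hk0 : 0 < k) (P : Finset ℕ)
    (hadm : Adm b₁ β B k P) (X : ℝ) (hX0 : 0 < X) (hE : 4 * X ≤ (2 : ℝ) ^ (η * k)) :
    (X + X) * (rho k * (∏ p ∈ P, (p : ℝ)) ^ 2 * SS k P) ≤
      (2 : ℝ) ^ (-(1 - 2 * β - η) * k) * SS k P := by
  have hS0 := SS_nonneg k P
  have hN : (∏ p ∈ P, (p : ℝ)) ^ 2 ≤ (2 : ℝ) ^ (2 * β * k) := by
    calc (∏ p ∈ P, (p : ℝ)) ^ 2 ≤ ((2 : ℝ) ^ (β * k)) ^ 2 :=
          pow_le_pow_left₀ (by positivity) hadm.size 2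
      _ = (2 : ℝ) ^ (2 * β * k) := by
          rw [← Real.rpow_natCast, ← Real.rpow_mul (by norm_num)]
          congr 1; push_cast; ring
  have hrho := rho_le k hk0
  have h1 : rho k * (∏ p ∈ P, (p : ℝ)) ^ 2 ≤ 2 * (2 : ℝ) ^ (-(k : ℝ)) * (2 : ℝ) ^ (2 * β * k) :=
    mul_le_mul hrho hN (by positivity) (by positivity)
  have h2 : (X + X) * (rho k * (∏ p ∈ P, (p : ℝ)) ^ 2) ≤
      (2 : ℝ) ^ (-(1 - 2 * β - η) * k) := by
    calc (X + X) * (rho k * (∏ p ∈ P, (p : ℝ)) ^ 2)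
        ≤ (X + X) * (2 * (2 : ℝ) ^ (-(k : ℝ)) * (2 : ℝ) ^ (2 * β * k)) :=
          mul_le_mul_of_nonneg_left h1 (by positivity)
      _ = (4 * X) * ((2 : ℝ) ^ (-(k : ℝ)) * (2 : ℝ) ^ (2 * β * k)) := by ring
      _ ≤ (2 : ℝ) ^ (η * k) * ((2 : ℝ) ^ (-(k : ℝ)) * (2 : ℝ) ^ (2 * β * k)) :=
          mul_le_mul_of_nonneg_right hE (by positivity)
      _ = (2 : ℝ) ^ (-(1 - 2 * β - η) * k) := by
          rw [← Real.rpow_add (by norm_num), ← Real.rpow_add (by norm_num)]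
          congr 1; ring
  calc (X + X) * (rho k * (∏ p ∈ P, (p : ℝ)) ^ 2 * SS k P)
      = ((X + X) * (rho k * (∏ p ∈ P, (p : ℝ)) ^ 2)) * SS k P := by ring
    _ ≤ _ := mul_le_mul_of_nonneg_right h2 hS0

theorem stmtSparse : M67.StmtSparse := by
  classical
  intro δ b₁ β B η hδ hδ1 hb hβ hbB hη
  obtain ⟨x₀, hx₀⟩ := Filter.eventually_atTop.1 (eventually_small δ B η hδ hη)
  refine ⟨max 131 ⌈x₀⌉₊, fun k hk P hadm => ?_⟩
  have hk131 : 131 ≤ k := (le_max_left _ _).trans hk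
  have hk0 : 0 < k := by omega
  have hkr : (131 : ℝ) ≤ k := by exact_mod_cast hk131
  have hkx : x₀ ≤ (k : ℝ) := (Nat.le_ceil x₀).trans (by exact_mod_cast (le_max_right _ _).trans hk)
  have hB1 : 1 ≤ B := hb.trans hbB
  have hmain := hx₀ k hkx
  have hs1 : 1 ≤ (k : ℝ) ^ (1 - δ / 4) := Real.one_le_rpow (by linarith) (by linarith)
  have hsk : (k : ℝ) ^ (1 - δ / 4) ≤ k := by
    calc (k : ℝ) ^ (1 - δ / 4) ≤ (k : ℝ) ^ (1 : ℝ) :=
          Real.rpow_le_rpow_of_exponent_le (by linarith) (by linarith)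
      _ = k := Real.rpow_one _
  generalize (k : ℝ) ^ (1 - δ / 4) = s at hs1 hsk hmain ⊢
  have hfb := finite_bound k hk0 P hadm.pr s hs1 hsk
  refine le_trans (le_of_eq (by congr!)) (hfb.trans ?_)
  have hts : ((⌊s⌋₊ : ℕ) : ℝ) ≤ s := Nat.floor_le (by linarith)
  have hg1 := g1 b₁ β B hB1 k hk131 P hadm s hs1 hsk _ hts
  have hg2 := g2 B hB1 k hk131 s hs1 hsk _ hts
  have hE : 4 * Real.exp (Real.log k * ((B + 5) + (B + 5) * s)) ≤ (2 : ℝ) ^ (η * k) := by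
    rw [Real.rpow_def_of_pos (by norm_num : (0 : ℝ) < 2)]
    have h4 : (4 : ℝ) = Real.exp (Real.log 4) := (Real.exp_log (by norm_num)).symm
    rw [h4, ← Real.exp_add]
    exact Real.exp_le_exp.2 (by linarith)
  exact le_trans (mul_le_mul_of_nonneg_right (add_le_add hg1 hg2) (bound_nonneg k P))
    (last b₁ β B η k hk0 P hadm _ (Real.exp_pos _) hE)

end Vale.Agent.P160.Half.Sparse416
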