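import Vale.Agent.P160.Half.SparseSq
import Vale.Agent.P160.Half.M67Stmt

set_option linter.unusedSectionVars false

/-! # P160/Half: sparse events (a), (b) of 11331, column deletion, self-bounding (`StmtSparse`) -/

namespace Vale.Agent.P160.Half.SparseAB

open Finset Module Vale.Agent.P160.Half.SparseDel Vale.Agent.P160.Half.SparseSq

section self

variable {Y : Type*} [Fintype Y]

open scoped Classical in
/-- **Self-bounding**: an event which, given the other rows, forces row `c` into a set of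
density `≤ q`. -/
theorem row_event {m : ℕ} (c : Fin (m + 1)) (Wt : (Fin (m + 1) → Y) → ℝ)
    (Wt' : (Fin m → Y) → ℝ) {C q : ℝ} (hC0 : 0 ≤ C)
    (hC : ∀ x X, Wt (Fin.insertNth c x X : Fin (m + 1) → Y) ≤ C * Wt' X)
    (h' : ∀ x X, Wt' X ≤ Wt (Fin.insertNth c x X : Fin (m + 1) → Y))
    (hnn : ∀ X, 0 ≤ Wt' X)
    (Ev : (Fin (m + 1) → Y) → Prop)
    (hq : ∀ X : Fin m → Y, ((univ.filter fun x : Y =>
      Ev (Fin.insertNth c x X : Fin (m + 1) → Y)).card : ℝ) ≤ q * Fintype.card Y) (hq0 : 0 ≤ q) :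
    ∑ X : Fin (m + 1) → Y, (if Ev X then Wt X else 0) ≤
      C * q * ∑ X : Fin (m + 1) → Y, Wt X := by
  rw [sum_split c, sum_split c, Finset.mul_sum]
  apply Finset.sum_le_sum
  intro X _
  have h1 : ∑ x : Y, (if Ev (Fin.insertNth c x X : Fin (m + 1) → Y) then
      Wt (Fin.insertNth c x X : Fin (m + 1) → Y) else 0) ≤
      ∑ x : Y, (if Ev (Fin.insertNth c x X : Fin (m + 1) → Y) then C * Wt' X else 0) := by
    apply Finset.sum_le_sum
    intro x _
    split_ifs
    · exact hC x X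
    · exact le_rfl
  have h2 : (Fintype.card Y : ℝ) * Wt' X ≤
      ∑ x : Y, Wt (Fin.insertNth c x X : Fin (m + 1) → Y) := by
    calc (Fintype.card Y : ℝ) * Wt' X = ∑ _x : Y, Wt' X := by
          rw [sum_const, card_univ, nsmul_eq_mul]
      _ ≤ _ := Finset.sum_le_sum fun x _ => h' x X
  refine h1.trans ?_
  rw [← Finset.sum_filter, sum_const, nsmul_eq_mul]
  calc _ ≤ (q * Fintype.card Y) * (C * Wt' X) :=
        mul_le_mul_of_nonneg_right (hq X) (mul_nonneg hC0 (hnn X))
    _ = C * q * ((Fintype.card Y : ℝ) * Wt' X) := by ring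
    _ ≤ _ := mul_le_mul_of_nonneg_left h2 (mul_nonneg hC0 hq0)

end self

variable {Om : Type*} [Fintype Om]

lemma rank_le_succ {F : Type*} [Field F] {a k : ℕ} (M : Matrix (Fin (a + 1)) (Fin k) F)
    (i : Fin (a + 1)) : M.rank ≤ (M.submatrix (fun r : Fin a => i.succAbove r) id).rank + 1 := by
  rw [Matrix.rank_eq_finrank_span_row, Matrix.rank_eq_finrank_span_row]
  have hsub : Submodule.span F (Set.range M.row) ≤
      Submodule.span F (Set.range (M.submatrix (fun r : Fin a => i.succAbove r) id).row) ⊔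
        Submodule.span F {M.row i} := by
    rw [Submodule.span_le]
    rintro _ ⟨r, rfl⟩
    rcases Fin.eq_self_or_eq_succAbove i r with h | ⟨r', h⟩
    · rw [h]
      exact Submodule.mem_sup_right (Submodule.mem_span_singleton_self _)
    · rw [h]
      exact Submodule.mem_sup_left (Submodule.subset_span ⟨r', rfl⟩)
  refine (Submodule.finrank_mono hsub).trans ((Submodule.finrank_add_le_finrank_add_finrank _ _).trans ?_)
  have := finrank_span_le_card (R := F) ({M.row i} : Set (Fin k → F))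
  have h2 : finrank F (Submodule.span F ({M.row i} : Set (Fin k → F))) ≤ 1 := by
    simpa using this
  omega

lemma cor_ge (e : Om → ℤ) {p : ℕ} (hp : p.Prime) {a k : ℕ} (M : Fin (a + 1) → Fin k → Om)
    (i : Fin (a + 1)) : cor e p (fun r => M (i.succAbove r)) ≤ cor e p M := by
  have : Fact p.Prime := ⟨hp⟩
  have h1 := rank_le_succ (Matrix.of fun i j => ((e (M i j) : ℤ) : ZMod p)) i
  unfold cor
  change a - ((Matrix.of fun i j => ((e (M i j) : ℤ) : ZMod p)).submatrix
    (fun r : Fin a => i.succAbove r) id).rank ≤ _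
  omega

lemma W_ge (e : Om → ℤ) {PP : Finset ℕ} (hPP : ∀ p ∈ PP, p.Prime) {a k : ℕ}
    (M : Fin (a + 1) → Fin k → Om) (i : Fin (a + 1)) :
    W e PP (fun r => M (i.succAbove r)) ≤ W e PP M := by
  unfold W
  apply Finset.prod_le_prod (fun p _ => by positivity)
  intro p hp
  apply pow_le_pow_right₀
  · exact_mod_cast (hPP p hp).one_lt.le
  · have := cor_ge e (hPP p hp) M i
    omega

lemma insert_rest {Y : Type*} {a : ℕ} (c : Fin (a + 1)) (x : Y) (X : Fin a → Y) :
    (fun r => (Fin.insertNth c x X : Fin (a + 1) → Y) (c.succAbove r)) = X := by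
  funext r
  exact Fin.insertNth_apply_succAbove (α := fun _ => Y) c x X r

open scoped Classical in
/-- events on row `c` of density `≤ q` cost `N ^ 2 * q` -/
theorem W_event (e : Om → ℤ) {PP : Finset ℕ} (hPP : ∀ p ∈ PP, p.Prime) {a k : ℕ}
    (c : Fin (a + 1)) {q : ℝ} (hq0 : 0 ≤ q) (Ev : (Fin (a + 1) → Fin k → Om) → Prop)
    (hq : ∀ X : Fin a → Fin k → Om, ((univ.filter fun x : Fin k → Om =>
      Ev (Fin.insertNth c x X : Fin (a + 1) → Fin k → Om)).card : ℝ) ≤
        q * Fintype.card (Fin k → Om)) :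
    ∑ X : Fin (a + 1) → Fin k → Om, (if Ev X then W e PP X else 0) ≤
      (∏ p ∈ PP, (p : ℝ)) ^ 2 * q * ∑ X : Fin (a + 1) → Fin k → Om, W e PP X := by
  refine row_event c (W e PP) (W e PP) (by positivity) ?_ ?_ (fun X => W_nonneg _ _ _) Ev hq hq0
  · intro x X
    refine (W_le e hPP (Fin.insertNth c x X : Fin (a + 1) → Fin k → Om) c).trans (le_of_eq ?_)
    rw [insert_rest]
  · intro x X
    refine (le_of_eq ?_).trans (W_ge e hPP (Fin.insertNth c x X : Fin (a + 1) → Fin k → Om) c)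
    rw [insert_rest]

/-! ### (a) -/

open scoped Classical in
theorem part_a (e : Om → ℤ) {PP : Finset ℕ} (hPP : ∀ p ∈ PP, p.Prime) {al : ℝ} (h0 : 0 ≤ al)
    (h1 : al ≤ 1)
    (hat : ∀ p ∈ PP, ∀ z : ZMod p,
      ((univ.filter fun w : Om => ((e w : ℤ) : ZMod p) = z).card : ℝ) ≤ al * Fintype.card Om)
    (a k s : ℕ) :
    ∑ M : Fin (a + 1) → Fin k → Om, (if Sp e PP s univ M then W e PP M else 0) ≤
      PP.card * (∑ j ∈ range (s + 1), ((a + 1).choose j : ℝ)) *
        ((∏ p ∈ PP, (p : ℝ)) ^ 2 * al ^ (k - s) * ∑ M : Fin (a + 1) → Fin k → Om, W e PP M) := by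
  have hS0 : 0 ≤ ∑ M : Fin (a + 1) → Fin k → Om, W e PP M :=
    Finset.sum_nonneg fun M _ => W_nonneg _ _ _
  have hnn1 : ∀ (p : ℕ) (T : Finset (Fin (a + 1))) (M : Fin (a + 1) → Fin k → Om),
      0 ≤ (if SparseDel.Ev e p univ T M then W e PP M else 0) := by
    intro p T M
    split_ifs
    · exact W_nonneg _ _ _
    · exact le_rfl
  have hcov : ∀ M : Fin (a + 1) → Fin k → Om, (if Sp e PP s univ M then W e PP M else 0) ≤
      ∑ p ∈ PP, ∑ T ∈ TT a s, (if SparseDel.Ev e p univ T M then W e PP M else 0) := by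
    intro M
    have hnn : ∀ p ∈ PP, 0 ≤ ∑ T ∈ TT a s, (if SparseDel.Ev e p univ T M then W e PP M else 0) :=
      fun p _ => Finset.sum_nonneg fun T _ => hnn1 p T M
    split_ifs with hS
    · obtain ⟨p, hp, T, hT, hE⟩ := exists_Ev e hPP s univ M hS
      refine le_trans ?_ (Finset.single_le_sum hnn hp)
      refine le_trans ?_ (Finset.single_le_sum (fun T _ => hnn1 p T M) hT)
      rw [if_pos hE]
    · exact Finset.sum_nonneg hnn
  have hone : ∀ p ∈ PP, ∀ T ∈ TT a s, ∑ M : Fin (a + 1) → Fin k → Om,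
      (if SparseDel.Ev e p univ T M then W e PP M else 0) ≤
      (∏ p ∈ PP, (p : ℝ)) ^ 2 * al ^ (k - s) * ∑ M : Fin (a + 1) → Fin k → Om, W e PP M := by
    intro p hp T hT
    simp only [TT, mem_filter, mem_univ, true_and] at hT
    refine W_event e hPP (io T) (pow_nonneg h0 _) (SparseDel.Ev e p univ T) ?_
    intro X
    have h2 := SparseDel.card_Ev e (hPP p hp) h0 h1 (hat p hp) s (univ : Finset (Fin k)) T hT.2 X
    rw [card_univ, Fintype.card_fin] at h2
    refine le_trans (le_of_eq ?_) (h2.trans (le_of_eq ?_))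
    · congr 2
      ext x
      simp only [mem_filter, mem_univ, true_and]
      exact SparseDel.Ev_insert e p univ T X x
    · simp
  calc _ ≤ ∑ M : Fin (a + 1) → Fin k → Om, ∑ p ∈ PP, ∑ T ∈ TT a s,
          (if SparseDel.Ev e p univ T M then W e PP M else 0) :=
        Finset.sum_le_sum fun M _ => hcov M
    _ = ∑ p ∈ PP, ∑ T ∈ TT a s, ∑ M : Fin (a + 1) → Fin k → Om,
          (if SparseDel.Ev e p univ T M then W e PP M else 0) := by
        rw [Finset.sum_comm]
        apply Finset.sum_congr rfl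
        intro p _
        rw [Finset.sum_comm]
    _ ≤ ∑ _p ∈ PP, ∑ _T ∈ TT a s, ((∏ p ∈ PP, (p : ℝ)) ^ 2 * al ^ (k - s) *
          ∑ M : Fin (a + 1) → Fin k → Om, W e PP M) :=
        Finset.sum_le_sum fun p hp => Finset.sum_le_sum fun T hT => hone p hp T hT
    _ = PP.card * (TT a s).card * ((∏ p ∈ PP, (p : ℝ)) ^ 2 * al ^ (k - s) *
          ∑ M : Fin (a + 1) → Fin k → Om, W e PP M) := by
        simp only [sum_const, nsmul_eq_mul]
        ring
    _ ≤ _ := by
        apply mul_le_mul_of_nonneg_right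
        · exact mul_le_mul_of_nonneg_left (card_TT a s) (by positivity)
        · exact mul_nonneg (mul_nonneg (by positivity) (pow_nonneg h0 _)) hS0

/-! ### (b) -/

open scoped Classical in
/-- one entry -/
lemma one_entry (e : Om → ℤ) (he : ∀ w, e w = 0 ∨ e w = 1 ∨ e w = -1) {al : ℝ}
    (hz : ((univ.filter fun w : Om => e w = 0).card : ℝ) ≤ al * Fintype.card Om)
    (hn : ((univ.filter fun w : Om => e w ≠ 0).card : ℝ) ≤ al * Fintype.card Om)
    (g τ d : ℝ) (hτ1 : 2 * d < |τ|) (hτ2 : |τ| ≤ 1 / 2) (_hd : d < 1 / 4) :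
    ((univ.filter fun w : Om => ∃ z : ℤ, |g + e w * τ - z| ≤ d).card : ℝ) ≤
      al * Fintype.card Om := by
  by_cases h : ∃ z : ℤ, |g - z| ≤ d
  · refine le_trans ?_ hz
    norm_cast
    apply Finset.card_le_card
    intro w hw
    simp only [mem_filter, mem_univ, true_and] at hw ⊢
    obtain ⟨z, hzz⟩ := h
    obtain ⟨z', hz'⟩ := hw
    by_contra hne
    have h1 : |(e w : ℝ) * τ - ((z' - z : ℤ) : ℝ)| ≤ 2 * d := by
      have h2 : (e w : ℝ) * τ - ((z' - z : ℤ) : ℝ) = (g + e w * τ - z') - (g - z) := by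
        push_cast; ring
      rw [h2]
      exact (abs_sub _ _).trans (by linarith)
    have h3 : |(e w : ℝ) * τ| = |τ| := by
      rcases he w with h4 | h4 | h4
      · exact absurd h4 hne
      · rw [h4]; simp
      · rw [h4]; simp
    rcases eq_or_ne (z' - z) 0 with h5 | h5
    · rw [h5] at h1
      simp only [Int.cast_zero, sub_zero] at h1
      rw [h3] at h1
      linarith
    · have h6 : (1 : ℝ) ≤ |((z' - z : ℤ) : ℝ)| := by
        rw [← Int.cast_abs]
        exact_mod_cast Int.one_le_abs h5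
      have h7 : |((z' - z : ℤ) : ℝ)| ≤ |(e w : ℝ) * τ| + 2 * d := by
        have h8 : ((z' - z : ℤ) : ℝ) = (e w : ℝ) * τ - ((e w : ℝ) * τ - ((z' - z : ℤ) : ℝ)) := by ring
        calc |((z' - z : ℤ) : ℝ)| = |(e w : ℝ) * τ - ((e w : ℝ) * τ - ((z' - z : ℤ) : ℝ))| := by
              rw [← h8]
          _ ≤ |(e w : ℝ) * τ| + |(e w : ℝ) * τ - ((z' - z : ℤ) : ℝ)| := abs_sub _ _
          _ ≤ _ := by linarith
      rw [h3] at h7
      linarith
  · refine le_trans ?_ hn
    norm_cast
    apply Finset.card_le_card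
    intro w hw
    simp only [mem_filter, mem_univ, true_and] at hw ⊢
    intro h0
    apply h
    obtain ⟨z', hz'⟩ := hw
    refine ⟨z', ?_⟩
    rw [h0] at hz'
    simpa using hz'

open scoped Classical in
/-- one column -/
lemma one_col (e : Om → ℤ) (he : ∀ w, e w = 0 ∨ e w = 1 ∨ e w = -1) {al : ℝ}
    (hz : ((univ.filter fun w : Om => e w = 0).card : ℝ) ≤ al * Fintype.card Om)
    (hn : ((univ.filter fun w : Om => e w ≠ 0).card : ℝ) ≤ al * Fintype.card Om)
    {k : ℕ} (g : Fin k → ℝ) (τ d : ℝ) (hd : d < 1 / 4) (hτ1 : 2 * d < |τ|) (hτ2 : |τ| ≤ 1 / 2) :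
    ((univ.filter fun x : Fin k → Om => ∀ i, ∃ z : ℤ, |g i + e (x i) * τ - z| ≤ d).card : ℝ) ≤
      al ^ k * Fintype.card (Fin k → Om) := by
  have h1 : (univ.filter fun x : Fin k → Om => ∀ i, ∃ z : ℤ, |g i + e (x i) * τ - z| ≤ d) =
      Fintype.piFinset fun i => univ.filter fun w : Om => ∃ z : ℤ, |g i + e w * τ - z| ≤ d := by
    ext x
    simp [Fintype.mem_piFinset]
  rw [h1, Fintype.card_piFinset, Nat.cast_prod]
  calc _ ≤ ∏ _i : Fin k, (al * Fintype.card Om) :=
        Finset.prod_le_prod (fun i _ => by positivity) fun i _ =>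
          one_entry e he hz hn (g i) τ d hτ1 hτ2 hd
    _ = _ := by
        rw [prod_const, card_univ, Fintype.card_fin, mul_pow]
        simp

/-- the real sparse event; `M c i` = entry in column `c`, row `i` -/
def SB (e : Om → ℤ) (E : ℝ) {m k : ℕ} (M : Fin m → Fin k → Om) : Prop :=
  ∃ ψ : Fin m → ℝ, (∀ c, |ψ c| ≤ 1 / 2) ∧ ((univ.filter fun j => ψ j ≠ 0).card : ℝ) ≤ E ∧
    (∃ c, 1 / (4 * E) < |ψ c|) ∧ ∀ i, ∃ z : ℤ, |∑ c, (e (M c i) : ℝ) * ψ c - z| ≤ 1 / (64 * E)

/-- the net point event -/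
def EvB (e : Om → ℤ) (E : ℝ) (Q : ℕ) {m k : ℕ} (j : Fin m → ℤ) (M : Fin m → Fin k → Om) : Prop :=
  ∀ i, ∃ z : ℤ, |∑ c, (e (M c i) : ℝ) * (j c / (2 * Q)) - z| ≤ 1 / (32 * E)

/-- the net -/
noncomputable def net (m Q s : ℕ) : Finset (Fin m → ℤ) :=
  (univ.filter fun T : Finset (Fin m) => T.card ≤ s).biUnion fun T =>
    Fintype.piFinset fun c => if c ∈ T then Finset.Icc (-(Q : ℤ)) Q else {0}

lemma card_net (m Q s : ℕ) : ((net m Q s).card : ℝ) ≤
    (∑ j ∈ range (s + 1), (m.choose j : ℝ)) * (2 * Q + 1) ^ s := by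
  have h1 : (net m Q s).card ≤ ∑ T ∈ univ.filter (fun T : Finset (Fin m) => T.card ≤ s),
      (2 * Q + 1) ^ s := by
    refine Finset.card_biUnion_le.trans (Finset.sum_le_sum fun T hT => ?_)
    simp only [mem_filter, mem_univ, true_and] at hT
    rw [Fintype.card_piFinset]
    have h2 : ∀ c : Fin m, (if c ∈ T then Finset.Icc (-(Q : ℤ)) Q else {0}).card =
        if c ∈ T then 2 * Q + 1 else 1 := by
      intro c
      split_ifs
      · rw [Int.card_Icc]
        omega
      · simp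
    simp_rw [h2]
    rw [Finset.prod_ite]
    simp only [prod_const, one_pow, mul_one]
    have h3 : (univ.filter fun c => c ∈ T) = T := by ext; simp
    rw [h3]
    exact Nat.pow_le_pow_right (by omega) hT
  have h4 : (univ.filter fun T : Finset (Fin m) => T.card ≤ s).card ≤
      ∑ j ∈ range (s + 1), m.choose j := by
    have hsub : (univ.filter fun T : Finset (Fin m) => T.card ≤ s) ⊆
        (range (s + 1)).biUnion fun j => powersetCard j univ := by
      intro T hT
      simp only [mem_filter, mem_univ, true_and] at hT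
      simp only [mem_biUnion, mem_range, mem_powersetCard, subset_univ, true_and]
      exact ⟨T.card, by omega, rfl⟩
    refine ((Finset.card_le_card hsub).trans Finset.card_biUnion_le).trans (le_of_eq ?_)
    apply Finset.sum_congr rfl
    intro j _
    rw [card_powersetCard]
    simp
  rw [sum_const, smul_eq_mul] at h1
  have h5 := h1.trans (Nat.mul_le_mul_right _ h4)
  exact_mod_cast h5

/-- rounding -/
lemma exists_net (e : Om → ℤ) (he : ∀ w, e w = 0 ∨ e w = 1 ∨ e w = -1) {E : ℝ} (hE : 1 ≤ E)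
    {Q s m k : ℕ} (hQ : 64 * E ^ 2 ≤ Q) (hs : ⌊E⌋₊ ≤ s) (M : Fin m → Fin k → Om)
    (h : SB e E M) : ∃ c : Fin m, ∃ j ∈ net m Q s, 1 / (8 * E) < |(j c / (2 * Q) : ℝ)| ∧
      |(j c / (2 * Q) : ℝ)| ≤ 1 / 2 ∧ EvB e E Q j M := by
  classical
  obtain ⟨ψ, h1, h2, ⟨c, hc⟩, h3⟩ := h
  have hE0 : 0 < E := by linarith
  have hQ0 : (0 : ℝ) < Q := by nlinarith
  let j : Fin m → ℤ := fun c => round (2 * Q * ψ c)
  have hj : ∀ c, |(j c / (2 * Q) : ℝ) - ψ c| ≤ 1 / (256 * E ^ 2) := by
    intro c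
    have h4 := abs_sub_round (2 * Q * ψ c)
    have h5 : (j c / (2 * Q) : ℝ) - ψ c = -(2 * Q * ψ c - round (2 * Q * ψ c)) / (2 * Q) := by
      simp only [j]
      field_simp
      ring
    rw [h5, abs_div, abs_neg, abs_of_pos (by positivity : (0 : ℝ) < 2 * Q), div_le_div_iff₀
      (by positivity) (by positivity)]
    nlinarith
  have hj0 : ∀ c, ψ c = 0 → j c = 0 := by
    intro c hc
    simp [j, hc]
  have hjQ : ∀ c, |j c| ≤ (Q : ℤ) := by
    intro c
    have h4 := h1 c
    have h5 : |2 * Q * ψ c| ≤ Q := by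
      rw [abs_mul, abs_of_pos (by positivity : (0 : ℝ) < 2 * Q)]
      nlinarith
    rw [abs_le] at h5 ⊢
    simp only [j]
    rw [round_eq]
    constructor
    · rw [Int.le_floor]
      push_cast
      linarith [h5.1]
    · have h6 : ⌊2 * Q * ψ c + 1 / 2⌋ < (Q : ℤ) + 1 := by
        rw [Int.floor_lt]
        push_cast
        linarith [h5.2]
      omega
  refine ⟨c, j, ?_, ?_, ?_, ?_⟩
  · simp only [net, mem_biUnion, mem_filter, mem_univ, true_and]
    refine ⟨univ.filter fun c => ψ c ≠ 0, ?_, ?_⟩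
    · exact (Nat.le_floor h2).trans hs
    · rw [Fintype.mem_piFinset]
      intro c
      split_ifs with h4
      · rw [mem_Icc, ← abs_le]
        exact hjQ c
      · simp only [mem_filter, mem_univ, true_and, not_not] at h4
        simp [hj0 c h4]
  · have h4 := hj c
    have h5 : |ψ c| ≤ |(j c / (2 * Q) : ℝ)| + |(j c / (2 * Q) : ℝ) - ψ c| := by
      have h6 : ψ c = (j c / (2 * Q) : ℝ) - ((j c / (2 * Q) : ℝ) - ψ c) := by ring
      calc |ψ c| = |(j c / (2 * Q) : ℝ) - ((j c / (2 * Q) : ℝ) - ψ c)| := by rw [← h6]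
        _ ≤ _ := abs_sub _ _
    have h7 : 1 / (256 * E ^ 2) ≤ 1 / (8 * E) := by
      apply one_div_le_one_div_of_le (by positivity)
      nlinarith
    have h8 : 1 / (4 * E) = 1 / (8 * E) + 1 / (8 * E) := by
      field_simp
      norm_num
    linarith
  · rw [abs_div, abs_of_pos (by positivity : (0 : ℝ) < 2 * Q), div_le_iff₀ (by positivity)]
    have h4 : |(j c : ℝ)| ≤ Q := by
      have := hjQ c
      rw [← Int.cast_abs]
      exact_mod_cast this
    linarith
  · intro i
    obtain ⟨z, hz⟩ := h3 i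
    refine ⟨z, ?_⟩
    have h4 : |∑ c, (e (M c i) : ℝ) * (j c / (2 * Q)) - ∑ c, (e (M c i) : ℝ) * ψ c| ≤
        E * (1 / (256 * E ^ 2)) := by
      rw [← Finset.sum_sub_distrib]
      have h5 : ∀ c, (e (M c i) : ℝ) * (j c / (2 * Q)) - (e (M c i) : ℝ) * ψ c =
          if ψ c ≠ 0 then (e (M c i) : ℝ) * ((j c / (2 * Q)) - ψ c) else 0 := by
        intro c
        split_ifs with h6
        · ring
        · push Not at h6
          rw [h6, hj0 c h6]
          simp
      simp_rw [h5]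
      rw [← Finset.sum_filter]
      refine (Finset.abs_sum_le_sum_abs _ _).trans ?_
      have h7 : ∀ c ∈ univ.filter (fun c => ψ c ≠ 0),
          |(e (M c i) : ℝ) * ((j c / (2 * Q)) - ψ c)| ≤ 1 / (256 * E ^ 2) := by
        intro c _
        rw [abs_mul]
        have h8 : |(e (M c i) : ℝ)| ≤ 1 := by
          rcases he (M c i) with h9 | h9 | h9 <;> rw [h9] <;> simp
        calc _ ≤ 1 * (1 / (256 * E ^ 2)) := mul_le_mul h8 (hj c) (abs_nonneg _) zero_le_one
          _ = _ := one_mul _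
      refine (Finset.sum_le_sum h7).trans ?_
      rw [sum_const, nsmul_eq_mul]
      gcongr
    have h9 : E * (1 / (256 * E ^ 2)) ≤ 1 / (64 * E) := by
      have : E * (1 / (256 * E ^ 2)) = 1 / (256 * E) := by
        field_simp
      rw [this]
      apply one_div_le_one_div_of_le (by positivity)
      linarith
    have h10 : (1 : ℝ) / (32 * E) = 1 / (64 * E) + 1 / (64 * E) := by
      field_simp
      norm_num
    calc |∑ c, (e (M c i) : ℝ) * (j c / (2 * Q)) - z| =
        |(∑ c, (e (M c i) : ℝ) * (j c / (2 * Q)) - ∑ c, (e (M c i) : ℝ) * ψ c) +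
          (∑ c, (e (M c i) : ℝ) * ψ c - z)| := by congr 1; ring
      _ ≤ _ := (abs_add_le _ _).trans (by linarith)

/-- net point event with a large coordinate `c` -/
def RB (e : Om → ℤ) (E : ℝ) (Q : ℕ) {m k : ℕ} (c : Fin m) (j : Fin m → ℤ)
    (M : Fin m → Fin k → Om) : Prop :=
  1 / (8 * E) < |(j c / (2 * Q) : ℝ)| ∧ |(j c / (2 * Q) : ℝ)| ≤ 1 / 2 ∧ EvB e E Q j M

open scoped Classical in
theorem part_b (e : Om → ℤ) (he : ∀ w, e w = 0 ∨ e w = 1 ∨ e w = -1) {PP : Finset ℕ}
    (hPP : ∀ p ∈ PP, p.Prime) {al : ℝ} (h0 : 0 ≤ al)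
    (hz : ((univ.filter fun w : Om => e w = 0).card : ℝ) ≤ al * Fintype.card Om)
    (hn : ((univ.filter fun w : Om => e w ≠ 0).card : ℝ) ≤ al * Fintype.card Om)
    {E : ℝ} (hE : 1 ≤ E) {Q s : ℕ} (a k : ℕ) (hQ : 64 * E ^ 2 ≤ Q) (hs : ⌊E⌋₊ ≤ s) :
    ∑ M : Fin (a + 1) → Fin k → Om, (if SB e E M then W e PP M else 0) ≤
      (a + 1) * ((∑ j ∈ range (s + 1), ((a + 1).choose j : ℝ)) * (2 * Q + 1) ^ s) *
        ((∏ p ∈ PP, (p : ℝ)) ^ 2 * al ^ k * ∑ M : Fin (a + 1) → Fin k → Om, W e PP M) := by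
  have hS0 : 0 ≤ ∑ M : Fin (a + 1) → Fin k → Om, W e PP M :=
    Finset.sum_nonneg fun M _ => W_nonneg _ _ _
  have hnn1 : ∀ (c : Fin (a + 1)) (j : Fin (a + 1) → ℤ) (M : Fin (a + 1) → Fin k → Om),
      0 ≤ (if RB e E Q c j M then W e PP M else 0) := by
    intro c j M
    split_ifs
    · exact W_nonneg _ _ _
    · exact le_rfl
  have hcov : ∀ M : Fin (a + 1) → Fin k → Om, (if SB e E M then W e PP M else 0) ≤
      ∑ c : Fin (a + 1), ∑ j ∈ net (a + 1) Q s, (if RB e E Q c j M then W e PP M else 0) := by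
    intro M
    have hnn : ∀ c ∈ (univ : Finset (Fin (a + 1))),
        0 ≤ ∑ j ∈ net (a + 1) Q s, (if RB e E Q c j M then W e PP M else 0) :=
      fun c _ => Finset.sum_nonneg fun j _ => hnn1 c j M
    split_ifs with hS
    · obtain ⟨c, j, hj, hR⟩ := exists_net e he hE hQ hs M hS
      refine le_trans ?_ (Finset.single_le_sum hnn (mem_univ c))
      refine le_trans ?_ (Finset.single_le_sum (fun j _ => hnn1 c j M) hj)
      rw [if_pos (show RB e E Q c j M from hR)]
    · exact Finset.sum_nonneg hnn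
  have hE0 : 0 < E := by linarith
  have hone : ∀ (c : Fin (a + 1)) (j : Fin (a + 1) → ℤ), ∑ M : Fin (a + 1) → Fin k → Om,
      (if RB e E Q c j M then W e PP M else 0) ≤
      (∏ p ∈ PP, (p : ℝ)) ^ 2 * al ^ k * ∑ M : Fin (a + 1) → Fin k → Om, W e PP M := by
    intro c j
    refine W_event e hPP c (pow_nonneg h0 _) (RB e E Q c j) ?_
    intro X
    by_cases hj : 1 / (8 * E) < |(j c / (2 * Q) : ℝ)| ∧ |(j c / (2 * Q) : ℝ)| ≤ 1 / 2
    · refine le_trans ?_ (one_col e he hz hn
        (fun i => ∑ l : Fin a, (e (X l i) : ℝ) * (j (c.succAbove l) / (2 * Q)))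
        (j c / (2 * Q)) (1 / (32 * E)) ?_ ?_ hj.2)
      · apply Nat.cast_le.2
        apply Finset.card_le_card
        intro x hx
        simp only [mem_filter, mem_univ, true_and] at hx ⊢
        intro i
        obtain ⟨z, hzz⟩ := hx.2.2 i
        refine ⟨z, ?_⟩
        rw [Fin.sum_univ_succAbove _ c, Fin.insertNth_apply_same (α := fun _ => Fin k → Om) c x X]
          at hzz
        have h4 : ∀ l, (Fin.insertNth c x X : Fin (a + 1) → Fin k → Om) (c.succAbove l) = X l :=
          fun l => Fin.insertNth_apply_succAbove (α := fun _ => Fin k → Om) c x X l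
        simp only [h4] at hzz
        refine le_trans (le_of_eq ?_) hzz
        congr 1
        ring
      · rw [div_lt_div_iff₀ (by positivity) (by norm_num)]
        linarith
      · refine lt_of_le_of_lt ?_ hj.1
        rw [mul_one_div, div_le_div_iff₀ (by positivity) (by positivity)]
        linarith
    · have h5 : (univ.filter fun x : Fin k → Om =>
          RB e E Q c j (Fin.insertNth c x X : Fin (a + 1) → Fin k → Om)) = ∅ := by
        apply Finset.filter_eq_empty_iff.2
        intro x _ hx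
        exact hj ⟨hx.1, hx.2.1⟩
      rw [h5]
      simp only [card_empty, Nat.cast_zero]
      positivity
  calc _ ≤ ∑ M : Fin (a + 1) → Fin k → Om, ∑ c : Fin (a + 1), ∑ j ∈ net (a + 1) Q s,
          (if RB e E Q c j M then W e PP M else 0) :=
        Finset.sum_le_sum fun M _ => hcov M
    _ = ∑ c : Fin (a + 1), ∑ j ∈ net (a + 1) Q s, ∑ M : Fin (a + 1) → Fin k → Om,
          (if RB e E Q c j M then W e PP M else 0) := by
        rw [Finset.sum_comm]
        apply Finset.sum_congr rfl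
        intro p _
        rw [Finset.sum_comm]
    _ ≤ ∑ _c : Fin (a + 1), ∑ _j ∈ net (a + 1) Q s, ((∏ p ∈ PP, (p : ℝ)) ^ 2 * al ^ k *
          ∑ M : Fin (a + 1) → Fin k → Om, W e PP M) :=
        Finset.sum_le_sum fun c _ => Finset.sum_le_sum fun j _ => hone c j
    _ = (a + 1) * (net (a + 1) Q s).card * ((∏ p ∈ PP, (p : ℝ)) ^ 2 * al ^ k *
          ∑ M : Fin (a + 1) → Fin k → Om, W e PP M) := by
        simp only [sum_const, nsmul_eq_mul, card_univ, Fintype.card_fin]
        push_cast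
        ring
    _ ≤ _ := by
        apply mul_le_mul_of_nonneg_right
        · exact mul_le_mul_of_nonneg_left (card_net (a + 1) Q s) (by positivity)
        · exact mul_nonneg (mul_nonneg (by positivity) (pow_nonneg h0 _)) hS0

end Vale.Agent.P160.Half.SparseAB
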