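import Vale.Agent.P160.Half.M67Stmt

/-! P160-HALF, (M): `StmtSparse` of `M67Stmt` (helper398). -/

namespace Vale.Agent.P160.Half.SpAB398

open Finset Vale.Agent.P160 Vale.Agent.P160.Half Vale.Agent.P160.Half.Flat Vale.Agent.P160.Half.M67

section rank

variable {k m : ℕ}

lemma rank_add_le' {K : Type} [Field K] (A B : Matrix (Fin k) (Fin m) K) :
    (A + B).rank ≤ A.rank + B.rank := by
  unfold Matrix.rank
  rw [Matrix.mulVecLin_add]
  refine (Submodule.finrank_mono ?_).trans (Submodule.finrank_add_le_finrank_add_finrank _ _)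
  rintro _ ⟨x, rfl⟩
  exact Submodule.add_mem_sup ⟨x, rfl⟩ ⟨x, rfl⟩

lemma rkp_le_succ (p : ℕ) (hp : p.Prime) (M M' : Matrix (Fin k) (Fin m) ℤ) (j : Fin m)
    (h : ∀ i l, l ≠ j → M i l = M' i l) : rkp p M' ≤ rkp p M + 1 := by
  have : Fact p.Prime := ⟨hp⟩
  unfold rkp
  have h1 : M'.map (Int.cast : ℤ → ZMod p) = M.map (Int.cast : ℤ → ZMod p) +
      Matrix.vecMulVec (fun i => ((M' i j - M i j : ℤ) : ZMod p)) (Pi.single j 1) := by
    ext i l
    by_cases hl : l = j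
    · subst hl
      simp [Matrix.vecMulVec]
    · simp [Matrix.vecMulVec, hl, h i l hl]
  rw [h1]
  refine (rank_add_le' _ _).trans ?_
  exact Nat.add_le_add_left (Matrix.rank_vecMulVec_le _ _) _

lemma W_le_mul {P : Finset ℕ} (hP : ∀ p ∈ P, p.Prime) (M M' : Matrix (Fin k) (Fin m) ℤ) (j : Fin m)
    (h : ∀ i l, l ≠ j → M i l = M' i l) : W P M ≤ (∏ p ∈ P, (p : ℝ)) ^ 2 * W P M' := by
  unfold W
  rw [← prod_pow, ← prod_mul_distrib]
  refine prod_le_prod (fun p _ => by positivity) fun p hp => ?_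
  have h1 := rkp_le_succ p (hP p hp) M M' j h
  have h2 : 2 * (m - rkp p M) ≤ 2 + 2 * (m - rkp p M') := by omega
  have h3 : (1 : ℝ) ≤ p := by exact_mod_cast (hP p hp).one_lt.le
  calc (p : ℝ) ^ (2 * (m - rkp p M)) ≤ (p : ℝ) ^ (2 + 2 * (m - rkp p M')) :=
        pow_le_pow_right₀ h3 h2
    _ = _ := by rw [pow_add]

lemma W_nonneg (P : Finset ℕ) (M : Matrix (Fin k) (Fin m) ℤ) : 0 ≤ W P M := by
  unfold W
  exact prod_nonneg fun p _ => by positivity

end rank

section swap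

variable {Ω : Type} [Fintype Ω] {k m : ℕ}

/-- replace column `j` -/
def upd (j : Fin m) (ω : Fin k → Fin m → Ω) (c : Fin k → Ω) : Fin k → Fin m → Ω :=
  fun i => Function.update (ω i) j (c i)

lemma sum_swap (j : Fin m) (f : (Fin k → Fin m → Ω) → ℝ) :
    ∑ ω : Fin k → Fin m → Ω, ∑ c : Fin k → Ω, f (upd j ω c) =
      (Fintype.card Ω : ℝ) ^ k * ∑ ω : Fin k → Fin m → Ω, f ω := by
  classical
  have h1 : ∑ ω : Fin k → Fin m → Ω, ∑ c : Fin k → Ω, f (upd j ω c) =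
      ∑ x : (Fin k → Fin m → Ω) × (Fin k → Ω), f (upd j x.1 x.2) := by
    rw [Fintype.sum_prod_type]
  have h2 : ∑ x : (Fin k → Fin m → Ω) × (Fin k → Ω), f (upd j x.1 x.2) =
      ∑ x : (Fin k → Fin m → Ω) × (Fin k → Ω), f x.1 := by
    have hinv : Function.Involutive
        (fun x : (Fin k → Fin m → Ω) × (Fin k → Ω) => (upd j x.1 x.2, fun i => x.1 i j)) := by
      rintro ⟨ω, c⟩
      refine Prod.ext ?_ ?_
      · funext i
        change Function.update (Function.update (ω i) j (c i)) j (ω i j) = ω i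
        rw [Function.update_idem, Function.update_eq_self]
      · funext i
        change Function.update (ω i) j (c i) j = c i
        exact Function.update_self _ _ _
    exact Fintype.sum_equiv hinv.toPerm _ _ (fun x => rfl)
  rw [h1, h2, Fintype.sum_prod_type]
  simp only [sum_const, card_univ, Fintype.card_fun, Fintype.card_fin, nsmul_eq_mul]
  rw [← mul_sum]
  push_cast
  rfl

/-- one row condition, one column -/
lemma del {P : Finset ℕ} (hP : ∀ p ∈ P, p.Prime) (e : Ω → ℤ) (j : Fin m) {al : ℝ}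
    (R : (Fin m → Ω) → Prop) [DecidablePred R]
    (hR : ∀ x : Fin m → Ω, ((univ.filter fun w : Ω => R (Function.update x j w)).card : ℝ) ≤
      al * Fintype.card Ω) (hne : 0 < Fintype.card Ω) :
    ∑ ω : Fin k → Fin m → Ω, (if ∀ i, R (ω i) then W P (M67.mt e ω) else 0) ≤
      (∏ p ∈ P, (p : ℝ)) ^ 2 * al ^ k * ∑ ω : Fin k → Fin m → Ω, W P (M67.mt e ω) := by
  classical
  have hc : (0 : ℝ) < (Fintype.card Ω : ℝ) ^ k := by positivity
  have hN : 0 ≤ (∏ p ∈ P, (p : ℝ)) ^ 2 := by positivity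
  refine le_of_mul_le_mul_left ?_ hc
  rw [← sum_swap j (fun ω => if ∀ i, R (ω i) then W P (M67.mt e ω) else 0)]
  have h1 : ∀ ω : Fin k → Fin m → Ω,
      ∑ c : Fin k → Ω, (if ∀ i, R (upd j ω c i) then W P (M67.mt e (upd j ω c)) else 0) ≤
        (Fintype.card Ω : ℝ) ^ k * ((∏ p ∈ P, (p : ℝ)) ^ 2 * al ^ k * W P (M67.mt e ω)) := by
    intro ω
    have h2 : ∀ c : Fin k → Ω, (if ∀ i, R (upd j ω c i) then W P (M67.mt e (upd j ω c)) else 0) ≤
        (if ∀ i, R (upd j ω c i) then (∏ p ∈ P, (p : ℝ)) ^ 2 * W P (M67.mt e ω) else 0) := by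
      intro c
      split_ifs with h
      · refine W_le_mul hP _ _ j ?_
        intro i l hl
        change e (Function.update (ω i) j (c i) l) = e (ω i l)
        rw [Function.update_of_ne hl]
      · exact le_rfl
    refine (sum_le_sum fun c _ => h2 c).trans ?_
    rw [← sum_filter, sum_const, nsmul_eq_mul]
    have h3 : (univ.filter fun c : Fin k → Ω => ∀ i, R (upd j ω c i)) =
        Fintype.piFinset (fun i => univ.filter fun w : Ω => R (Function.update (ω i) j w)) := by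
      ext c
      rw [Finset.mem_filter, Fintype.mem_piFinset]
      simp only [mem_univ, true_and, Finset.mem_filter]
      exact Iff.rfl
    have h4 : ((univ.filter fun c : Fin k → Ω => ∀ i, R (upd j ω c i)).card : ℝ) ≤
        (al * Fintype.card Ω) ^ k := by
      rw [h3, Fintype.card_piFinset]
      push_cast
      calc ∏ i : Fin k, ((univ.filter fun w : Ω => R (Function.update (ω i) j w)).card : ℝ)
          ≤ ∏ _i : Fin k, (al * Fintype.card Ω) :=
            prod_le_prod (fun _ _ => by positivity) fun i _ => hR (ω i)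
        _ = _ := by simp
    calc ((univ.filter fun c : Fin k → Ω => ∀ i, R (upd j ω c i)).card : ℝ) *
          ((∏ p ∈ P, (p : ℝ)) ^ 2 * W P (M67.mt e ω))
        ≤ (al * Fintype.card Ω) ^ k * ((∏ p ∈ P, (p : ℝ)) ^ 2 * W P (M67.mt e ω)) :=
          mul_le_mul_of_nonneg_right h4 (mul_nonneg hN (W_nonneg _ _))
      _ = _ := by rw [mul_pow]; ring
  refine (sum_le_sum fun ω _ => h1 ω).trans ?_
  rw [← mul_sum, ← mul_sum]

/-- union bound -/
lemma del_union {P : Finset ℕ} (hP : ∀ p ∈ P, p.Prime) (e : Ω → ℤ) {al : ℝ}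
    {T : Type} (F : Finset T) (R : T → (Fin m → Ω) → Prop)
    (hR : ∀ t ∈ F, ∃ j : Fin m, ∀ x : Fin m → Ω,
      (Nat.card {w : Ω // R t (Function.update x j w)} : ℝ) ≤ al * Fintype.card Ω) (hne : 0 < Fintype.card Ω)
    (Q : (Fin k → Fin m → Ω) → Prop) [DecidablePred Q]
    (hQ : ∀ ω, Q ω → ∃ t ∈ F, ∀ i, R t (ω i)) :
    ∑ ω ∈ (univ : Finset (Fin k → Fin m → Ω)).filter Q, W P (M67.mt e ω) ≤
      F.card * ((∏ p ∈ P, (p : ℝ)) ^ 2 * al ^ k) * ∑ ω : Fin k → Fin m → Ω, W P (M67.mt e ω) := by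
  classical
  rw [sum_filter]
  calc ∑ ω : Fin k → Fin m → Ω, (if Q ω then W P (M67.mt e ω) else 0)
      ≤ ∑ ω : Fin k → Fin m → Ω, ∑ t ∈ F, (if ∀ i, R t (ω i) then W P (M67.mt e ω) else 0) := by
        refine sum_le_sum fun ω _ => ?_
        have hnn : ∀ t ∈ F, 0 ≤ (if ∀ i, R t (ω i) then W P (M67.mt e ω) else 0) := by
          intro t _
          split_ifs
          · exact W_nonneg _ _
          · exact le_rfl
        split_ifs with h
        · obtain ⟨t, ht, h'⟩ := hQ ω h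
          refine le_trans ?_ (single_le_sum hnn ht)
          rw [if_pos h']
        · exact sum_nonneg hnn
    _ = ∑ t ∈ F, ∑ ω : Fin k → Fin m → Ω, (if ∀ i, R t (ω i) then W P (M67.mt e ω) else 0) := sum_comm
    _ ≤ ∑ t ∈ F, (∏ p ∈ P, (p : ℝ)) ^ 2 * al ^ k * ∑ ω : Fin k → Fin m → Ω, W P (M67.mt e ω) := by
        refine sum_le_sum fun t ht => ?_
        obtain ⟨j, hj⟩ := hR t ht
        refine del hP e j (R t) ?_ hne
        intro x
        have := hj x
        rw [Nat.card_eq_fintype_card, Fintype.card_subtype] at this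
        exact this
    _ = _ := by rw [sum_const, nsmul_eq_mul]; ring

end swap

section count

lemma card_supp_le (m S q : ℕ) (hS : S ≤ m) :
    ((Fintype.piFinset fun _ : Fin m => range q).filter
      fun u => (univ.filter fun l => u l ≠ 0).card ≤ S).card ≤ m ^ S * q ^ S := by
  classical
  have h1 : (Fintype.piFinset fun _ : Fin m => range q).filter
      (fun u => (univ.filter fun l => u l ≠ 0).card ≤ S) ⊆
      (powersetCard S (univ : Finset (Fin m))).biUnion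
        (fun T => Fintype.piFinset fun l => if l ∈ T then range q else {0}) := by
    intro u hu
    rw [Finset.mem_filter, Fintype.mem_piFinset] at hu
    obtain ⟨T, hT1, hT2⟩ := Finset.exists_superset_card_eq hu.2 (by simpa using hS)
    rw [mem_biUnion]
    refine ⟨T, by simp [hT2], ?_⟩
    rw [Fintype.mem_piFinset]
    intro l
    by_cases hl : l ∈ T
    · rw [if_pos hl]; exact hu.1 l
    · rw [if_neg hl]
      by_contra hne
      apply hl
      apply hT1
      rw [Finset.mem_filter]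
      refine ⟨mem_univ _, fun h0 => hne ?_⟩
      simp [h0]
  refine (card_le_card h1).trans (card_biUnion_le.trans ?_)
  have h2 : ∀ T ∈ powersetCard S (univ : Finset (Fin m)),
      (Fintype.piFinset fun l => if l ∈ T then range q else ({0} : Finset ℕ)).card = q ^ S := by
    intro T hT
    rw [Fintype.card_piFinset]
    have h3 : ∀ l, (if l ∈ T then range q else ({0} : Finset ℕ)).card = if l ∈ T then q else 1 := by
      intro l
      split_ifs <;> simp
    simp only [h3]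
    rw [Finset.prod_ite_mem, Finset.univ_inter, prod_const, (mem_powersetCard.mp hT).2]
  rw [sum_congr rfl h2, sum_const, card_powersetCard, card_univ, Fintype.card_fin, smul_eq_mul]
  exact Nat.mul_le_mul_right _ (Nat.choose_le_pow m S)

variable {Ω : Type} [Fintype Ω]

lemma adm (e : Ω → ℤ) (he : ∀ w, e w = 0 ∨ e w = 1 ∨ e w = -1) {b : ℝ}
    (h0 : (Nat.card {w : Ω // e w = 0} : ℝ) ≤ b) (h1 : (Nat.card {w : Ω // e w ≠ 0} : ℝ) ≤ b)
    (A : Ω → Prop) (hA : ∀ w w', A w → A w' → |e w - e w'| ≠ 1) :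
    (Nat.card {w : Ω // A w} : ℝ) ≤ b := by
  classical
  have hmono : ∀ (B C : Ω → Prop), (∀ w, B w → C w) →
      (Nat.card {w : Ω // B w} : ℝ) ≤ Nat.card {w : Ω // C w} := by
    intro B C hBC
    have : Nat.card {w : Ω // B w} ≤ Nat.card {w : Ω // C w} :=
      Nat.card_le_card_of_injective (fun w => (⟨w.1, hBC w.1 w.2⟩ : {w : Ω // C w}))
        (fun a b hab => Subtype.ext (congrArg (fun z => z.1) hab))
    exact_mod_cast this
  by_cases hx : ∃ w₀, A w₀ ∧ e w₀ = 0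
  · obtain ⟨w₀, hw, hw0⟩ := hx
    refine (hmono A (fun w => e w = 0) ?_).trans h0
    intro w hAw
    have := hA w w₀ hAw hw
    rw [hw0] at this
    rcases he w with h | h | h
    · exact h
    · rw [h] at this; simp at this
    · rw [h] at this; simp at this
  · refine (hmono A (fun w => e w ≠ 0) ?_).trans h1
    intro w hAw h
    exact hx ⟨w, hAw, h⟩

end count

section asy

lemma asy (δ B η : ℝ) (hδ : 0 < δ) (hδ1 : δ ≤ 1) (hB : 0 ≤ B) (hη : 0 < η) :
    ∃ k₀ : ℕ, ∀ k : ℕ, k₀ ≤ k → 4 * (k : ℝ) ^ ((B + 6) * ((k : ℝ) ^ (1 - δ / 4) + 1)) ≤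
      (2 : ℝ) ^ (η * k) := by
  set A : ℝ := 2 + (B + 6) * (16 / δ) with hA
  have hA0 : 0 < A := by positivity
  have hl2 : 0 < Real.log 2 := Real.log_pos (by norm_num)
  have ht : Filter.Tendsto (fun k : ℕ => (k : ℝ) ^ (δ / 8)) Filter.atTop Filter.atTop :=
    (tendsto_rpow_atTop (by positivity)).comp tendsto_natCast_atTop_atTop
  obtain ⟨k₁, hk₁⟩ := Filter.eventually_atTop.mp (ht.eventually_ge_atTop (A / (η * Real.log 2)))
  refine ⟨max k₁ 1, fun k hk => ?_⟩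
  have hk1 : k₁ ≤ k := le_trans (le_max_left _ _) hk
  have hk2 : 1 ≤ k := le_trans (le_max_right _ _) hk
  have hx1 : (1 : ℝ) ≤ k := by exact_mod_cast hk2
  have hx0 : (0 : ℝ) < k := by linarith
  have h1 := hk₁ k hk1
  have h2 : A ≤ η * Real.log 2 * (k : ℝ) ^ (δ / 8) := by
    rw [div_le_iff₀ (by positivity)] at h1
    linarith
  have h3 : Real.log k ≤ (k : ℝ) ^ (δ / 8) / (δ / 8) := Real.log_le_rpow_div hx0.le (by positivity)
  have h4 : (1 : ℝ) ≤ (k : ℝ) ^ (1 - δ / 4) := Real.one_le_rpow hx1 (by linarith)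
  have hlog0 : 0 ≤ Real.log k := Real.log_nonneg hx1
  have h5 : ((k : ℝ) ^ (1 - δ / 4) + 1) * Real.log k ≤ 16 / δ * (k : ℝ) ^ (1 - δ / 8) := by
    calc ((k : ℝ) ^ (1 - δ / 4) + 1) * Real.log k
        ≤ (2 * (k : ℝ) ^ (1 - δ / 4)) * ((k : ℝ) ^ (δ / 8) / (δ / 8)) := by
          apply mul_le_mul (by linarith) h3 hlog0 (by positivity)
      _ = 16 / δ * ((k : ℝ) ^ (1 - δ / 4) * (k : ℝ) ^ (δ / 8)) := by field_simp; ring
      _ = _ := by
          rw [← Real.rpow_add hx0]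
          congr 2
          ring
  have h6 : (1 : ℝ) ≤ (k : ℝ) ^ (1 - δ / 8) := Real.one_le_rpow hx1 (by linarith)
  have h7 : Real.log 4 ≤ 2 := by
    have : Real.log 4 = 2 * Real.log 2 := by
      rw [show (4 : ℝ) = 2 ^ 2 by norm_num, Real.log_pow]; norm_num
    rw [this]
    have := Real.log_two_lt_d9
    linarith
  have h8 : Real.log 4 + ((B + 6) * ((k : ℝ) ^ (1 - δ / 4) + 1)) * Real.log k ≤
      η * k * Real.log 2 := by
    have h9 : (B + 6) * (((k : ℝ) ^ (1 - δ / 4) + 1) * Real.log k) ≤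
        (B + 6) * (16 / δ * (k : ℝ) ^ (1 - δ / 8)) :=
      mul_le_mul_of_nonneg_left h5 (by linarith)
    have h10 : A * (k : ℝ) ^ (1 - δ / 8) ≤ η * Real.log 2 * k := by
      calc A * (k : ℝ) ^ (1 - δ / 8) ≤ (η * Real.log 2 * (k : ℝ) ^ (δ / 8)) * (k : ℝ) ^ (1 - δ / 8) :=
            mul_le_mul_of_nonneg_right h2 (by positivity)
        _ = η * Real.log 2 * ((k : ℝ) ^ (δ / 8) * (k : ℝ) ^ (1 - δ / 8)) := by ring
        _ = η * Real.log 2 * k := by
            rw [← Real.rpow_add hx0, show δ / 8 + (1 - δ / 8) = 1 by ring, Real.rpow_one]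
    have h11 : A * (k : ℝ) ^ (1 - δ / 8) = 2 * (k : ℝ) ^ (1 - δ / 8) +
        (B + 6) * (16 / δ * (k : ℝ) ^ (1 - δ / 8)) := by rw [hA]; ring
    nlinarith
  have hpos1 : 0 < 4 * (k : ℝ) ^ ((B + 6) * ((k : ℝ) ^ (1 - δ / 4) + 1)) := by positivity
  have hpos2 : 0 < (2 : ℝ) ^ (η * k) := by positivity
  rw [← Real.log_le_log_iff hpos1 hpos2, Real.log_mul (by norm_num) (by positivity),
    Real.log_rpow hx0, Real.log_rpow (by norm_num)]
  exact h8

end asy

section parts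

variable {Ω : Type} [Fintype Ω] {k : ℕ}

open scoped Classical in
lemma partA {P : Finset ℕ} (hP : ∀ p ∈ P, p.Prime) (e : Ω → ℤ)
    (he : ∀ w, e w = 0 ∨ e w = 1 ∨ e w = -1) {al : ℝ}
    (h0 : (Nat.card {w : Ω // e w = 0} : ℝ) ≤ al * Fintype.card Ω)
    (h1 : (Nat.card {w : Ω // e w ≠ 0} : ℝ) ≤ al * Fintype.card Ω) (hal : 0 ≤ al)
    (hne : 0 < Fintype.card Ω) (s : ℝ) (hs : s ≤ k) (Q : ℕ) (hQ : ∀ p ∈ P, p ≤ Q) :
    ∑ ω ∈ (univ : Finset (Fin k → Fin k → Ω)).filter (fun ω => Sparse P s (M67.mt e ω)),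
        W P (M67.mt e ω) ≤
      ((P.card * (k ^ ⌊s⌋₊ * Q ^ ⌊s⌋₊) : ℕ) : ℝ) * ((∏ p ∈ P, (p : ℝ)) ^ 2 * al ^ k) *
        ∑ ω : Fin k → Fin k → Ω, W P (M67.mt e ω) := by
  have hSk : ⌊s⌋₊ ≤ k := by
    have := Nat.floor_le_floor (R := ℝ) hs
    simpa using this
  set D := (Fintype.piFinset fun _ : Fin k => range Q).filter
      fun u => (univ.filter fun l => u l ≠ 0).card ≤ ⌊s⌋₊ with hD
  set F := (P ×ˢ D).filter fun t => ∃ j, ((t.2 j : ℕ) : ZMod t.1) ≠ 0 with hF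
  have hcard : (F.card : ℝ) ≤ ((P.card * (k ^ ⌊s⌋₊ * Q ^ ⌊s⌋₊) : ℕ) : ℝ) := by
    have : F.card ≤ P.card * (k ^ ⌊s⌋₊ * Q ^ ⌊s⌋₊) := by
      refine (card_filter_le _ _).trans ?_
      rw [card_product]
      exact Nat.mul_le_mul_left _ (card_supp_le k ⌊s⌋₊ Q hSk)
    exact_mod_cast this
  have hW : 0 ≤ ∑ ω : Fin k → Fin k → Ω, W P (M67.mt e ω) :=
    sum_nonneg fun ω _ => W_nonneg _ _
  refine (del_union (al := al) hP e F
    (fun t x => ∑ c, ((e (x c) : ℤ) : ZMod t.1) * ((t.2 c : ℕ) : ZMod t.1) = 0) ?_ hne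
    (fun ω => Sparse P s (M67.mt e ω)) ?_).trans ?_
  · rintro ⟨p, u⟩ ht
    rw [hF, Finset.mem_filter] at ht
    obtain ⟨j, hj⟩ := ht.2
    have hp : p.Prime := hP p (Finset.mem_product.mp ht.1).1
    have : Fact p.Prime := ⟨hp⟩
    refine ⟨j, fun x => ?_⟩
    refine adm e he h0 h1 _ ?_
    intro w w' hw hw' habs
    have hd : ∑ c, (((e (Function.update x j w c) : ℤ) : ZMod p) -
        ((e (Function.update x j w' c) : ℤ) : ZMod p)) * ((u c : ℕ) : ZMod p) =
        (((e w : ℤ) : ZMod p) - ((e w' : ℤ) : ZMod p)) * ((u j : ℕ) : ZMod p) := by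
      rw [Finset.sum_eq_single j]
      · simp
      · intro b _ hb
        rw [Function.update_of_ne hb, Function.update_of_ne hb]
        ring
      · intro h; exact absurd (mem_univ _) h
    simp only [sub_mul, sum_sub_distrib] at hd
    simp only at hw hw'
    rw [hw, hw', sub_zero, ← sub_mul, ← Int.cast_sub] at hd
    rcases (abs_eq (by norm_num : (0 : ℤ) ≤ 1)).mp habs with h | h
    · rw [h] at hd
      simp only [Int.cast_one, one_mul] at hd
      exact hj hd.symm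
    · rw [h] at hd
      simp only [Int.cast_neg, Int.cast_one, neg_mul, one_mul] at hd
      exact hj (neg_eq_zero.mp hd.symm)
  · intro ω hω
    obtain ⟨p, hp, u, hu0, hus, hu⟩ := hω
    have : Fact p.Prime := ⟨hP p hp⟩
    have : NeZero p := ⟨(hP p hp).ne_zero⟩
    have hval : ∀ c, (((u c).val : ℕ) : ZMod p) = u c := fun c => ZMod.natCast_zmod_val _
    refine ⟨(p, fun c => (u c).val), ?_, ?_⟩
    · rw [hF, Finset.mem_filter, Finset.mem_product]
      refine ⟨⟨hp, ?_⟩, ?_⟩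
      · rw [hD, Finset.mem_filter, Fintype.mem_piFinset]
        refine ⟨fun c => ?_, ?_⟩
        · exact mem_range.mpr ((ZMod.val_lt _).trans_le (hQ p hp))
        · refine Nat.le_floor ?_
          refine le_trans ?_ hus.le
          have : (univ.filter fun l => (u l).val ≠ 0).card ≤ (univ.filter fun j => u j ≠ 0).card := by
            refine card_le_card ?_
            intro l hl
            rw [Finset.mem_filter] at hl ⊢
            refine ⟨mem_univ _, fun h => hl.2 ?_⟩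
            rw [h]; exact ZMod.val_zero
          exact_mod_cast this
      · obtain ⟨j, hj⟩ := Function.ne_iff.mp hu0
        refine ⟨j, ?_⟩
        simp only
        rw [hval]
        exact hj
    · intro i
      simp only [hval]
      exact hu i
  · exact mul_le_mul_of_nonneg_right (mul_le_mul_of_nonneg_right hcard (by positivity)) hW

/-- decoding of naturals to integers -/
def dec (n : ℕ) : ℤ := if n % 2 = 0 then ((n / 2 : ℕ) : ℤ) else -(((n + 1) / 2 : ℕ) : ℤ)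

/-- encoding -/
def enc (z : ℤ) : ℕ := if 0 ≤ z then 2 * z.toNat else 2 * (-z).toNat - 1

lemma dec_enc (z : ℤ) : dec (enc z) = z := by
  unfold dec enc
  split_ifs with h1 h2 h2 <;> omega

lemma enc_zero : enc 0 = 0 := by simp [enc]

lemma enc_le (z : ℤ) (D : ℕ) (h : |z| ≤ D) : enc z < 2 * D + 1 := by
  have := abs_le.mp h
  unfold enc
  split_ifs <;> omega

open scoped Classical in
lemma partB {P : Finset ℕ} (hP : ∀ p ∈ P, p.Prime) (e : Ω → ℤ)
    (he : ∀ w, e w = 0 ∨ e w = 1 ∨ e w = -1) {al : ℝ}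
    (h0 : (Nat.card {w : Ω // e w = 0} : ℝ) ≤ al * Fintype.card Ω)
    (h1 : (Nat.card {w : Ω // e w ≠ 0} : ℝ) ≤ al * Fintype.card Ω) (hal : 0 ≤ al)
    (hne : 0 < Fintype.card Ω) (s : ℝ) (hs : s ≤ k) (hs1 : 1 ≤ s) (D : ℕ)
    (hD : 64 * s ^ 2 + 1 ≤ D) :
    ∑ ω ∈ (univ : Finset (Fin k → Fin k → Ω)).filter (fun ω => SpB s (M67.mt e ω)),
        W P (M67.mt e ω) ≤
      ((k ^ ⌊s⌋₊ * (2 * D + 1) ^ ⌊s⌋₊ : ℕ) : ℝ) * ((∏ p ∈ P, (p : ℝ)) ^ 2 * al ^ k) *
        ∑ ω : Fin k → Fin k → Ω, W P (M67.mt e ω) := by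
  have hs0 : 0 < s := by linarith
  have hSk : ⌊s⌋₊ ≤ k := by
    have := Nat.floor_le_floor (R := ℝ) hs
    simpa using this
  set h : ℝ := 1 / (128 * s ^ 2) with hh
  have hh0 : 0 < h := by positivity
  have hh1 : h / 2 = 1 / (256 * s ^ 2) := by rw [hh]; field_simp; norm_num
  have hh2 : h / 2 ≤ 1 / (256 * s) := by
    rw [hh1]
    apply one_div_le_one_div_of_le (by positivity)
    nlinarith
  have hh3 : 1 / (256 * s) ≤ 1 / 256 := by
    apply one_div_le_one_div_of_le (by norm_num); linarith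
  set E := (Fintype.piFinset fun _ : Fin k => range (2 * D + 1)).filter
      fun u => (univ.filter fun l => u l ≠ 0).card ≤ ⌊s⌋₊ with hE
  set F := E.filter fun u => ∃ j, 1 / (8 * s) < |h * (dec (u j) : ℝ)| ∧
    |h * (dec (u j) : ℝ)| ≤ 51 / 100 with hF
  have hcard : (F.card : ℝ) ≤ ((k ^ ⌊s⌋₊ * (2 * D + 1) ^ ⌊s⌋₊ : ℕ) : ℝ) := by
    have : F.card ≤ k ^ ⌊s⌋₊ * (2 * D + 1) ^ ⌊s⌋₊ :=
      (card_filter_le _ _).trans (card_supp_le k ⌊s⌋₊ (2 * D + 1) hSk)
    exact_mod_cast this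
  have hW : 0 ≤ ∑ ω : Fin k → Fin k → Ω, W P (M67.mt e ω) :=
    sum_nonneg fun ω _ => W_nonneg _ _
  refine (del_union (al := al) hP e F
    (fun u x => ∃ z : ℤ, |∑ c, (e (x c) : ℝ) * (h * (dec (u c) : ℝ)) - z| ≤ 5 / (256 * s)) ?_ hne
    (fun ω => SpB s (M67.mt e ω)) ?_).trans ?_
  · intro u hu
    rw [hF, Finset.mem_filter] at hu
    obtain ⟨j, hj1, hj2⟩ := hu.2
    refine ⟨j, fun x => ?_⟩
    refine adm e he h0 h1 _ ?_
    rintro w w' ⟨z, hz⟩ ⟨z', hz'⟩ habs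
    set φ : ℝ := h * (dec (u j) : ℝ) with hφ
    have hd : ∑ c, ((e (Function.update x j w c) : ℝ) - (e (Function.update x j w' c) : ℝ)) *
        (h * (dec (u c) : ℝ)) = ((e w : ℝ) - (e w' : ℝ)) * φ := by
      rw [Finset.sum_eq_single j]
      · simp [hφ]
      · intro b _ hb
        rw [Function.update_of_ne hb, Function.update_of_ne hb]
        ring
      · intro h; exact absurd (mem_univ _) h
    simp only [sub_mul, sum_sub_distrib] at hd
    have hdist : |((e w : ℝ) - (e w' : ℝ)) * φ - ((z - z' : ℤ) : ℝ)| ≤ 5 / (128 * s) := by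
      have h5 : ((e w : ℝ) - (e w' : ℝ)) * φ - ((z - z' : ℤ) : ℝ) =
          (∑ c, (e (Function.update x j w c) : ℝ) * (h * (dec (u c) : ℝ)) - z) -
          (∑ c, (e (Function.update x j w' c) : ℝ) * (h * (dec (u c) : ℝ)) - z') := by
        push_cast
        linarith
      rw [h5]
      refine (abs_sub _ _).trans ?_
      have : (5 : ℝ) / (128 * s) = 5 / (256 * s) + 5 / (256 * s) := by field_simp; norm_num
      rw [this]
      exact add_le_add hz hz'
    have hkey : ∃ n : ℤ, |φ - n| ≤ 5 / (128 * s) := by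
      rcases (abs_eq (by norm_num : (0 : ℤ) ≤ 1)).mp habs with h6 | h6
      · refine ⟨z - z', ?_⟩
        have h7 : ((e w : ℝ) - (e w' : ℝ)) = 1 := by exact_mod_cast h6
        rw [h7, one_mul] at hdist
        exact hdist
      · refine ⟨-(z - z'), ?_⟩
        have h7 : ((e w : ℝ) - (e w' : ℝ)) = -1 := by exact_mod_cast h6
        rw [h7] at hdist
        have h8 : φ - ((-(z - z') : ℤ) : ℝ) = -(-1 * φ - ((z - z' : ℤ) : ℝ)) := by
          push_cast; ring
        rw [h8, abs_neg]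
        exact hdist
    obtain ⟨n, hn⟩ := hkey
    have h9 : (5 : ℝ) / (128 * s) < 1 / (8 * s) := by
      rw [div_lt_div_iff₀ (by positivity) (by positivity)]
      nlinarith
    have h10 : (5 : ℝ) / (128 * s) ≤ 5 / 128 := by
      apply div_le_div_of_nonneg_left (by norm_num) (by norm_num)
      linarith
    have h11 := abs_le.mp hn
    have h12 := abs_le.mp hj2
    rcases lt_trichotomy n 0 with h13 | h13 | h13
    · have : (n : ℝ) ≤ -1 := by exact_mod_cast (by omega : n ≤ -1)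
      linarith
    · rw [h13] at hn
      simp only [Int.cast_zero, sub_zero] at hn
      linarith
    · have : (1 : ℝ) ≤ n := by exact_mod_cast (by omega : 1 ≤ n)
      linarith
  · intro ω hω
    obtain ⟨ψ, hψ1, hψ2, ⟨j, hj⟩, hrow⟩ := hω
    have hrd : ∀ c, |h * (round (ψ c / h) : ℝ) - ψ c| ≤ h / 2 := by
      intro c
      have h3 := abs_sub_round (ψ c / h)
      have h4 : h * (round (ψ c / h) : ℝ) - ψ c = -(h * (ψ c / h - (round (ψ c / h) : ℝ))) := by
        field_simp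
        ring
      rw [h4, abs_neg, abs_mul, abs_of_pos hh0]
      calc h * |ψ c / h - (round (ψ c / h) : ℝ)| ≤ h * (1 / 2) :=
            mul_le_mul_of_nonneg_left h3 hh0.le
        _ = h / 2 := by ring
    refine ⟨fun c => enc (round (ψ c / h)), ?_, ?_⟩
    · rw [hF, Finset.mem_filter]
      refine ⟨?_, j, ?_⟩
      · rw [hE, Finset.mem_filter, Fintype.mem_piFinset]
        refine ⟨fun c => ?_, ?_⟩
        · rw [mem_range]
          apply enc_le
          have h3 := abs_sub_round (ψ c / h)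
          have h4 : |ψ c / h| ≤ 64 * s ^ 2 := by
            rw [abs_div, abs_of_pos hh0, div_le_iff₀ hh0, hh]
            have h5 : 64 * s ^ 2 * (1 / (128 * s ^ 2)) = 1 / 2 := by field_simp; norm_num
            rw [h5]
            exact hψ1 c
          have h6 : |(round (ψ c / h) : ℝ)| ≤ D := by
            have h7 := abs_le.mp h3
            have h8 := abs_le.mp h4
            rw [abs_le]
            constructor <;> linarith
          exact_mod_cast h6
        · refine Nat.le_floor ?_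
          refine le_trans ?_ hψ2
          have : (univ.filter fun l => enc (round (ψ l / h)) ≠ 0).card ≤
              (univ.filter fun j => ψ j ≠ 0).card := by
            refine card_le_card ?_
            intro l hl
            rw [Finset.mem_filter] at hl ⊢
            refine ⟨mem_univ _, fun h' => hl.2 ?_⟩
            rw [h', zero_div, round_zero, enc_zero]
          exact_mod_cast this
      · simp only [dec_enc]
        have h3 := hrd j
        have h4 : |ψ j| ≤ |h * (round (ψ j / h) : ℝ)| + h / 2 := by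
          have := abs_sub_abs_le_abs_sub (ψ j) (h * (round (ψ j / h) : ℝ))
          rw [abs_sub_comm] at this
          linarith
        have h5 : |h * (round (ψ j / h) : ℝ)| ≤ |ψ j| + h / 2 := by
          have := abs_sub_abs_le_abs_sub (h * (round (ψ j / h) : ℝ)) (ψ j)
          linarith
        have h6 : (1 : ℝ) / (8 * s) + 1 / (256 * s) ≤ 1 / (4 * s) := by
          have : (1 : ℝ) / (4 * s) - (1 / (8 * s) + 1 / (256 * s)) = 31 / (256 * s) := by
            field_simp; norm_num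
          have h7 : (0 : ℝ) ≤ 31 / (256 * s) := by positivity
          linarith
        have h8 := hψ1 j
        constructor
        · linarith
        · linarith
    · intro i
      obtain ⟨z, hz⟩ := hrow i
      refine ⟨z, ?_⟩
      simp only [dec_enc]
      have h3 : |∑ c, (e (ω i c) : ℝ) * (h * (round (ψ c / h) : ℝ)) -
          ∑ c, (e (ω i c) : ℝ) * ψ c| ≤ 1 / (256 * s) := by
        rw [← sum_sub_distrib]
        calc |∑ c, ((e (ω i c) : ℝ) * (h * (round (ψ c / h) : ℝ)) - (e (ω i c) : ℝ) * ψ c)|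
            ≤ ∑ c, |(e (ω i c) : ℝ) * (h * (round (ψ c / h) : ℝ)) - (e (ω i c) : ℝ) * ψ c| :=
              abs_sum_le_sum_abs _ _
          _ ≤ ∑ c, (if ψ c ≠ 0 then h / 2 else 0) := by
              refine sum_le_sum fun c _ => ?_
              rw [← mul_sub, abs_mul]
              have h4 : |(e (ω i c) : ℝ)| ≤ 1 := by
                rcases he (ω i c) with h | h | h <;> rw [h] <;> simp
              split_ifs with hc
              · calc |(e (ω i c) : ℝ)| * |h * (round (ψ c / h) : ℝ) - ψ c| ≤ 1 * (h / 2) :=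
                    mul_le_mul h4 (hrd c) (abs_nonneg _) (by norm_num)
                  _ = h / 2 := one_mul _
              · have hc' : ψ c = 0 := by simpa using hc
                rw [hc', zero_div, round_zero]
                simp
          _ = ((univ.filter fun c => ψ c ≠ 0).card : ℝ) * (h / 2) := by
              rw [← sum_filter, sum_const, nsmul_eq_mul]
          _ ≤ s * (1 / (256 * s ^ 2)) := by
              rw [← hh1]
              exact mul_le_mul_of_nonneg_right hψ2 (by positivity)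
          _ = 1 / (256 * s) := by field_simp
      have h4 : (5 : ℝ) / (256 * s) = 1 / (256 * s) + 1 / (64 * s) := by field_simp; norm_num
      rw [h4]
      have h5 : ∑ c, (e (ω i c) : ℝ) * (h * (round (ψ c / h) : ℝ)) - z =
          (∑ c, (e (ω i c) : ℝ) * (h * (round (ψ c / h) : ℝ)) - ∑ c, (e (ω i c) : ℝ) * ψ c) +
          (∑ c, (e (ω i c) : ℝ) * ψ c - z) := by ring
      rw [h5]
      refine (abs_add_le _ _).trans (add_le_add h3 ?_)
      exact hz
  · exact mul_le_mul_of_nonneg_right (mul_le_mul_of_nonneg_right hcard (by positivity)) hW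

end parts

section law

lemma stL_cases (L : ℕ) {M : ℕ} (a : Fin M) : stL L a = 0 ∨ stL L a = 1 ∨ stL L a = -1 := by
  unfold stL
  split_ifs <;> simp

lemma card0 (k : ℕ) (hk : 1 ≤ k) :
    (Nat.card {w : Fin (8 * k) // stL (2 * k - 1) w = 0} : ℝ) ≤
      (1 / 2 + 1 / (4 * (k : ℝ))) * Fintype.card (Fin (8 * k)) := by
  have h1 : Nat.card {w : Fin (8 * k) // stL (2 * k - 1) w = 0} ≤ Nat.card (Fin (4 * k + 2)) := by
    have hx : ∀ w : {w : Fin (8 * k) // stL (2 * k - 1) w = 0}, 4 * k - 2 ≤ w.1.val := by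
      rintro ⟨w, hw⟩
      change 4 * k - 2 ≤ w.val
      unfold stL at hw
      split_ifs at hw with h2 h3 <;> omega
    refine Nat.card_le_card_of_injective
      (fun w => (⟨w.1.val - (4 * k - 2), by have := w.1.isLt; have := hx w; omega⟩ : Fin (4 * k + 2))) ?_
    intro a b hab
    have h2 := congrArg Fin.val hab
    simp only at h2
    have := hx a
    have := hx b
    exact Subtype.ext (Fin.ext (by omega))
  rw [Nat.card_eq_fintype_card (α := Fin (4 * k + 2)), Fintype.card_fin] at h1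
  rw [Fintype.card_fin]
  have hk' : (0 : ℝ) < k := by exact_mod_cast hk
  have h3 : (1 / 2 + 1 / (4 * (k : ℝ))) * ((8 * k : ℕ) : ℝ) = 4 * k + 2 := by
    push_cast; field_simp; ring
  rw [h3]
  exact_mod_cast h1

lemma card1 (k : ℕ) (hk : 1 ≤ k) :
    (Nat.card {w : Fin (8 * k) // stL (2 * k - 1) w ≠ 0} : ℝ) ≤
      (1 / 2 + 1 / (4 * (k : ℝ))) * Fintype.card (Fin (8 * k)) := by
  have h1 : Nat.card {w : Fin (8 * k) // stL (2 * k - 1) w ≠ 0} ≤ Nat.card (Fin (4 * k + 2)) := by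
    have hx : ∀ w : {w : Fin (8 * k) // stL (2 * k - 1) w ≠ 0}, w.1.val < 4 * k + 2 := by
      rintro ⟨w, hw⟩
      unfold stL at hw
      split_ifs at hw with h2 h3
      · change w.val < 4 * k + 2; omega
      · change w.val < 4 * k + 2; omega
      · exact absurd rfl hw
    refine Nat.card_le_card_of_injective
      (fun w => (⟨w.1.val, hx w⟩ : Fin (4 * k + 2))) ?_
    intro a b hab
    have h2 := congrArg Fin.val hab
    simp only at h2
    exact Subtype.ext (Fin.ext h2)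
  rw [Nat.card_eq_fintype_card (α := Fin (4 * k + 2)), Fintype.card_fin] at h1
  rw [Fintype.card_fin]
  have hk' : (0 : ℝ) < k := by exact_mod_cast hk
  have h3 : (1 / 2 + 1 / (4 * (k : ℝ))) * ((8 * k : ℕ) : ℝ) = 4 * k + 2 := by
    push_cast; field_simp; ring
  rw [h3]
  exact_mod_cast h1

lemma al_pow (k : ℕ) (hk : 1 ≤ k) : (1 / 2 + 1 / (4 * (k : ℝ))) ^ k ≤ 2 * (2 : ℝ) ^ (-(k : ℝ)) := by
  have hk' : (0 : ℝ) < k := by exact_mod_cast hk
  have h1 : (1 / 2 + 1 / (4 * (k : ℝ))) = (1 / 2) * (1 / (2 * (k : ℝ)) + 1) := by field_simp; ring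
  have h2 : 1 / (2 * (k : ℝ)) + 1 ≤ Real.exp (1 / (2 * (k : ℝ))) := Real.add_one_le_exp _
  have h3 : (1 / (2 * (k : ℝ)) + 1) ^ k ≤ Real.exp (1 / 2) := by
    calc (1 / (2 * (k : ℝ)) + 1) ^ k ≤ (Real.exp (1 / (2 * (k : ℝ)))) ^ k :=
          pow_le_pow_left₀ (by positivity) h2 k
      _ = Real.exp (1 / 2) := by
          rw [← Real.exp_nat_mul]
          congr 1
          field_simp
  have h4 : Real.exp (1 / 2) ≤ 2 := by
    have h5 : Real.exp (1 / 2) ^ 2 = Real.exp 1 := by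
      rw [← Real.exp_nat_mul]; norm_num
    have h6 := Real.exp_one_lt_d9
    have h7 : 0 < Real.exp (1 / 2) := Real.exp_pos _
    nlinarith
  have h8 : (2 : ℝ) ^ (-(k : ℝ)) = (1 / 2) ^ k := by
    rw [Real.rpow_neg (by norm_num), Real.rpow_natCast, one_div, inv_pow]
  rw [h1, mul_pow, h8]
  have h9 : (0 : ℝ) < (1 / 2) ^ k := by positivity
  nlinarith

end law


section nums

lemma nums (δ B : ℝ) (hδ : 0 < δ) (hδ1 : δ ≤ 1) (hB0 : 1 ≤ B) (k : ℕ) (hk200 : 200 ≤ k) (c : ℕ)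
    (hc : c ≤ ⌊(k : ℝ) ^ B⌋₊ + 1) :
    ((c * (k ^ ⌊(k : ℝ) ^ (1 - δ / 4)⌋₊ * (⌊(k : ℝ) ^ B⌋₊ + 1) ^ ⌊(k : ℝ) ^ (1 - δ / 4)⌋₊) : ℕ) : ℝ) ≤
        (k : ℝ) ^ ((B + 6) * ((k : ℝ) ^ (1 - δ / 4) + 1)) ∧
      ((k ^ ⌊(k : ℝ) ^ (1 - δ / 4)⌋₊ *
        (2 * ⌈64 * ((k : ℝ) ^ (1 - δ / 4)) ^ 2 + 1⌉₊ + 1) ^ ⌊(k : ℝ) ^ (1 - δ / 4)⌋₊ : ℕ) : ℝ) ≤
        (k : ℝ) ^ ((B + 6) * ((k : ℝ) ^ (1 - δ / 4) + 1)) := by
  have hx200 : (200 : ℝ) ≤ k := by exact_mod_cast hk200
  have hx0 : (0 : ℝ) < k := by linarith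
  have hx1 : (1 : ℝ) ≤ k := by linarith
  have hs1 : 1 ≤ (k : ℝ) ^ (1 - δ / 4) := Real.one_le_rpow hx1 (by linarith)
  have hsk : (k : ℝ) ^ (1 - δ / 4) ≤ k := by
    calc (k : ℝ) ^ (1 - δ / 4) ≤ (k : ℝ) ^ (1 : ℝ) :=
          Real.rpow_le_rpow_of_exponent_le hx1 (by linarith)
      _ = k := Real.rpow_one _
  generalize (k : ℝ) ^ (1 - δ / 4) = s at hs1 hsk ⊢
  have hSs : ((⌊s⌋₊ : ℕ) : ℝ) ≤ s := Nat.floor_le (by linarith)
  have hkB : (k : ℝ) ^ B + 1 ≤ (k : ℝ) ^ (B + 1) := by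
    rw [Real.rpow_add hx0, Real.rpow_one]
    have : (1 : ℝ) ≤ (k : ℝ) ^ B := Real.one_le_rpow hx1 (by linarith)
    nlinarith
  have hQr : (((⌊(k : ℝ) ^ B⌋₊ + 1 : ℕ)) : ℝ) ≤ (k : ℝ) ^ (B + 1) := by
    have : ((⌊(k : ℝ) ^ B⌋₊ : ℕ) : ℝ) ≤ (k : ℝ) ^ B := Nat.floor_le (by positivity)
    push_cast; linarith
  have hPc : (c : ℝ) ≤ (k : ℝ) ^ (B + 1) := by
    have : (c : ℝ) ≤ ((⌊(k : ℝ) ^ B⌋₊ + 1 : ℕ) : ℝ) := by exact_mod_cast hc
    linarith
  have hpw : ∀ (a : ℝ) (c : ℝ), 0 ≤ a → 0 ≤ c → a ≤ (k : ℝ) ^ c →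
      a ^ ⌊s⌋₊ ≤ (k : ℝ) ^ (c * s) := by
    intro a c ha hc hac
    calc a ^ ⌊s⌋₊ ≤ ((k : ℝ) ^ c) ^ ⌊s⌋₊ := pow_le_pow_left₀ ha hac _
      _ = (k : ℝ) ^ (c * ⌊s⌋₊) := by rw [← Real.rpow_natCast, ← Real.rpow_mul hx0.le]
      _ ≤ (k : ℝ) ^ (c * s) := Real.rpow_le_rpow_of_exponent_le hx1 (by nlinarith)
  have h1 : (k : ℝ) ^ ⌊s⌋₊ ≤ (k : ℝ) ^ (1 * s) :=
    hpw k 1 hx0.le (by norm_num) (by rw [Real.rpow_one])
  constructor
  · push_cast
    push_cast at hQr
    have h2 : ((⌊(k : ℝ) ^ B⌋₊ : ℝ) + 1) ^ ⌊s⌋₊ ≤ (k : ℝ) ^ ((B + 1) * s) :=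
      hpw _ (B + 1) (by positivity) (by linarith) hQr
    calc (c : ℝ) * ((k : ℝ) ^ ⌊s⌋₊ * ((⌊(k : ℝ) ^ B⌋₊ : ℝ) + 1) ^ ⌊s⌋₊)
        ≤ (k : ℝ) ^ (B + 1) * ((k : ℝ) ^ (1 * s) * (k : ℝ) ^ ((B + 1) * s)) :=
          mul_le_mul hPc (mul_le_mul h1 h2 (by positivity) (by positivity)) (by positivity)
            (by positivity)
      _ = (k : ℝ) ^ ((B + 1) + (1 * s + (B + 1) * s)) := by
          rw [← Real.rpow_add hx0, ← Real.rpow_add hx0]
      _ ≤ _ := by
          apply Real.rpow_le_rpow_of_exponent_le hx1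
          nlinarith
  · have hDr : (2 * ((⌈64 * s ^ 2 + 1⌉₊ : ℕ) : ℝ) + 1) ≤ (k : ℝ) ^ (3 : ℝ) := by
      have h1 : ((⌈64 * s ^ 2 + 1⌉₊ : ℕ) : ℝ) < 64 * s ^ 2 + 1 + 1 :=
        Nat.ceil_lt_add_one (by positivity)
      have h2 : s ^ 2 ≤ (k : ℝ) ^ 2 := pow_le_pow_left₀ (by linarith) hsk 2
      have h3 : (k : ℝ) ^ (3 : ℝ) = (k : ℝ) ^ 3 := by
        rw [show (3 : ℝ) = ((3 : ℕ) : ℝ) by norm_num, Real.rpow_natCast]
      rw [h3]
      have h4 : (k : ℝ) ^ 3 = k * (k : ℝ) ^ 2 := by ring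
      have h5 : (1 : ℝ) ≤ (k : ℝ) ^ 2 := one_le_pow₀ hx1
      nlinarith
    push_cast
    have h2 : (2 * ((⌈64 * s ^ 2 + 1⌉₊ : ℕ) : ℝ) + 1) ^ ⌊s⌋₊ ≤ (k : ℝ) ^ ((3 : ℝ) * s) :=
      hpw _ 3 (by positivity) (by norm_num) hDr
    calc (k : ℝ) ^ ⌊s⌋₊ * (2 * ((⌈64 * s ^ 2 + 1⌉₊ : ℕ) : ℝ) + 1) ^ ⌊s⌋₊
        ≤ (k : ℝ) ^ (1 * s) * (k : ℝ) ^ ((3 : ℝ) * s) :=
          mul_le_mul h1 h2 (by positivity) (by positivity)
      _ = (k : ℝ) ^ (1 * s + 3 * s) := by rw [← Real.rpow_add hx0]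
      _ ≤ _ := by
          apply Real.rpow_le_rpow_of_exponent_le hx1
          nlinarith

lemma factor (k : ℕ) (hk : 1 ≤ k) (β : ℝ) (N : ℝ) (hN0 : 0 ≤ N) (hN : N ≤ (2 : ℝ) ^ (β * k)) :
    N ^ 2 * (1 / 2 + 1 / (4 * (k : ℝ))) ^ k ≤ 2 * (2 : ℝ) ^ (2 * β * k - k) := by
  have hN2 : N ^ 2 ≤ (2 : ℝ) ^ (2 * β * k) := by
    calc N ^ 2 ≤ ((2 : ℝ) ^ (β * k)) ^ 2 := pow_le_pow_left₀ hN0 hN 2
      _ = (2 : ℝ) ^ (2 * β * k) := by
          rw [← Real.rpow_natCast, ← Real.rpow_mul (by norm_num)]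
          congr 1
          push_cast; ring
  calc N ^ 2 * (1 / 2 + 1 / (4 * (k : ℝ))) ^ k
      ≤ (2 : ℝ) ^ (2 * β * k) * (2 * (2 : ℝ) ^ (-(k : ℝ))) :=
        mul_le_mul hN2 (al_pow k hk) (by positivity) (by positivity)
    _ = 2 * (2 : ℝ) ^ (2 * β * k - k) := by
        rw [sub_eq_add_neg, Real.rpow_add (by norm_num)]; ring

open scoped Classical in
lemma split_sum {Ω : Type} [Fintype Ω] {k : ℕ} (P : Finset ℕ) (s : ℝ) (e : Ω → ℤ) :
    ∑ ω ∈ (univ : Finset (Fin k → Fin k → Ω)).filter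
      (fun ω => Sp P s (M67.mt e ω)), W P (M67.mt e ω) ≤
      ∑ ω ∈ (univ : Finset (Fin k → Fin k → Ω)).filter
        (fun ω => Sparse P s (M67.mt e ω)), W P (M67.mt e ω) +
      ∑ ω ∈ (univ : Finset (Fin k → Fin k → Ω)).filter
        (fun ω => SpB s (M67.mt e ω)), W P (M67.mt e ω) := by
  rw [sum_filter, sum_filter, sum_filter, ← sum_add_distrib]
  refine sum_le_sum fun ω _ => ?_
  have h0 := W_nonneg P (M67.mt e ω)
  by_cases ha : Sparse P s (M67.mt e ω)
  · have hsp : Sp P s (M67.mt e ω) := Or.inl ha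
    rw [if_pos hsp, if_pos ha]
    have h1 : 0 ≤ (if SpB s (M67.mt e ω) then W P (M67.mt e ω) else 0) := by
      split_ifs
      · exact h0
      · exact le_rfl
    linarith
  · by_cases hb : SpB s (M67.mt e ω)
    · have hsp : Sp P s (M67.mt e ω) := Or.inr hb
      rw [if_pos hsp, if_neg ha, if_pos hb, zero_add]
    · have hsp : ¬ Sp P s (M67.mt e ω) := fun h => h.elim ha hb
      rw [if_neg hsp, if_neg ha, if_neg hb, zero_add]

lemma fin_arith (A B X C Wt η β : ℝ) (k : ℕ) (hA : A ≤ X) (hB : B ≤ X) (hC0 : 0 ≤ C)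
    (hC : C ≤ 2 * (2 : ℝ) ^ (2 * β * k - k)) (hX : 4 * X ≤ (2 : ℝ) ^ (η * k)) (hX0 : 0 ≤ X)
    (hW : 0 ≤ Wt) :
    A * C * Wt + B * C * Wt ≤ (2 : ℝ) ^ (-(1 - 2 * β - η) * k) * Wt := by
  have h1 : A * C * Wt ≤ X * C * Wt :=
    mul_le_mul_of_nonneg_right (mul_le_mul_of_nonneg_right hA hC0) hW
  have h2 : B * C * Wt ≤ X * C * Wt :=
    mul_le_mul_of_nonneg_right (mul_le_mul_of_nonneg_right hB hC0) hW
  have h3 : (2 * X) * C ≤ (2 * X) * (2 * (2 : ℝ) ^ (2 * β * k - k)) :=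
    mul_le_mul_of_nonneg_left hC (by linarith)
  have h4 : (4 * X) * (2 : ℝ) ^ (2 * β * k - k) ≤
      (2 : ℝ) ^ (η * k) * (2 : ℝ) ^ (2 * β * k - k) :=
    mul_le_mul_of_nonneg_right hX (by positivity)
  have h5 : (2 : ℝ) ^ (η * k) * (2 : ℝ) ^ (2 * β * k - k) = (2 : ℝ) ^ (-(1 - 2 * β - η) * k) := by
    rw [← Real.rpow_add (by norm_num)]
    congr 1
    ring
  have h6 : (2 * X) * C ≤ (2 : ℝ) ^ (-(1 - 2 * β - η) * k) := by
    rw [← h5]; linarith
  calc A * C * Wt + B * C * Wt ≤ (2 * X) * C * Wt := by linarith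
    _ ≤ _ := mul_le_mul_of_nonneg_right h6 hW

end nums

end Vale.Agent.P160.Half.SpAB398

namespace Vale.Agent.P160.Half.M67

open Finset Vale.Agent.P160 Vale.Agent.P160.Half Vale.Agent.P160.Half.Flat SpAB398

theorem stmtSparse : StmtSparse := by
  classical
  intro δ b₁ β B η hδ hδ1 hb1 hβ hbB hη
  have hB0 : 1 ≤ B := by linarith
  obtain ⟨k₀, hk₀⟩ := asy δ B η hδ hδ1 (by linarith) hη
  refine ⟨max k₀ 200, fun k hk P hP => ?_⟩
  have hk0 : k₀ ≤ k := le_trans (le_max_left _ _) hk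
  have hk200 : 200 ≤ k := le_trans (le_max_right _ _) hk
  have hk1 : 1 ≤ k := by omega
  have hx200 : (200 : ℝ) ≤ k := by exact_mod_cast hk200
  have hx1 : (1 : ℝ) ≤ k := by linarith
  have hs1 : 1 ≤ (k : ℝ) ^ (1 - δ / 4) := Real.one_le_rpow hx1 (by linarith)
  have hsk : (k : ℝ) ^ (1 - δ / 4) ≤ k := by
    calc (k : ℝ) ^ (1 - δ / 4) ≤ (k : ℝ) ^ (1 : ℝ) :=
          Real.rpow_le_rpow_of_exponent_le hx1 (by linarith)
      _ = k := Real.rpow_one _
  have hne : 0 < Fintype.card (Fin (8 * k)) := by rw [Fintype.card_fin]; omega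
  have hPQ : ∀ p ∈ P, p < ⌊(k : ℝ) ^ B⌋₊ + 1 := by
    intro p hp
    have := Nat.le_floor (hP.hi p hp)
    omega
  have hcard : P.card ≤ ⌊(k : ℝ) ^ B⌋₊ + 1 := by
    have h1 : P ⊆ range (⌊(k : ℝ) ^ B⌋₊ + 1) := fun p hp => mem_range.mpr (hPQ p hp)
    have h2 := card_le_card h1
    rwa [card_range] at h2
  have hal0 : (0 : ℝ) ≤ 1 / 2 + 1 / (4 * (k : ℝ)) := by positivity
  have hA := partA hP.pr (stL (2 * k - 1)) (fun w => stL_cases _ w) (card0 k hk1) (card1 k hk1) hal0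
    hne _ hsk (⌊(k : ℝ) ^ B⌋₊ + 1) (fun p hp => (hPQ p hp).le)
  have hBd := partB (P := P) hP.pr (stL (2 * k - 1)) (fun w => stL_cases _ w) (card0 k hk1)
    (card1 k hk1) hal0 hne _ hsk hs1 _ (Nat.le_ceil _)
  have hn := nums δ B hδ hδ1 hB0 k hk200 P.card hcard
  refine (split_sum P _ _).trans ((add_le_add hA hBd).trans ?_)
  exact fin_arith _ _ _ _ _ η β k hn.1 hn.2 (by positivity)
    (factor k hk1 β _ (prod_nonneg fun _ _ => by positivity) hP.size) (hk₀ k hk0) (by positivity)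
    (sum_nonneg fun ω _ => SpAB398.W_nonneg _ _)

end Vale.Agent.P160.Half.M67
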