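import Vale.Agent.P160.MathlibUsed

set_option linter.unusedSectionVars false

/-! # P160/Half: sparse left kernel vectors are removed by deleting a row (11023 (4)) -/

namespace Vale.Agent.P160.Half.SparseDel

open Finset Module

section odlyzko

variable {Om : Type*} [Fintype Om] {F : Type*} [Field F]

open scoped Classical in
lemma card_split {k : ℕ} (i : Fin (k + 1)) (P : (Fin (k + 1) → Om) → Prop) :
    ((univ.filter P).card : ℝ) =
      ∑ w : Om, ((univ.filter fun x : Fin k → Om => P (Fin.insertNth i w x)).card : ℝ) := by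
  simp_rw [Finset.card_filter, Nat.cast_sum]
  rw [← (Fin.insertNthEquiv (fun _ => Om) i).sum_comp, Fintype.sum_prod_type]
  rfl

open scoped Classical in
/-- Odlyzko: a subspace of codimension `c` has mass at most `al ^ c` -/
theorem odl (f : Om → F) {al : ℝ} (h0 : 0 ≤ al) (h1 : al ≤ 1)
    (hat : ∀ z : F, ((univ.filter fun w => f w = z).card : ℝ) ≤ al * Fintype.card Om) :
    ∀ (k : ℕ) (V : Submodule F (Fin k → F)) (c : Fin k → F),
      ((univ.filter fun x : Fin k → Om => (fun j => f (x j)) - c ∈ V).card : ℝ) ≤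
        al ^ (k - finrank F V) * (Fintype.card Om : ℝ) ^ k := by
  intro k
  induction k with
  | zero =>
    intro V c
    have : (univ.filter fun x : Fin 0 → Om => (fun j => f (x j)) - c ∈ V).card ≤ 1 := by
      refine (Finset.card_le_univ _).trans ?_
      simp
    simpa using (by exact_mod_cast this :
      ((univ.filter fun x : Fin 0 → Om => (fun j => f (x j)) - c ∈ V).card : ℝ) ≤ 1)
  | succ k ih =>
    intro V c
    -- the inclusion of the hyperplane
    let L : (Fin k → F) →ₗ[F] (Fin (k + 1) → F) :=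
      { toFun := fun v => Fin.cons 0 v
        map_add' := by
          intro u v
          ext j
          refine Fin.cases ?_ (fun j => ?_) j <;> simp
        map_smul' := by
          intro a v
          ext j
          refine Fin.cases ?_ (fun j => ?_) j <;> simp }
    have hL : ∀ v, L v = Fin.cons 0 v := fun v => rfl
    have hLinj : Function.Injective L := by
      intro u v huv
      rw [hL, hL] at huv
      exact (Fin.cons_injective2 huv).2
    let V0 : Submodule F (Fin k → F) := V.comap L
    -- the inclusion V0 -> V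
    let phi : V0 →ₗ[F] V := (L.restrict (p := V0) (q := V) (fun v hv => hv))
    have hphi : Function.Injective phi := by
      intro u v huv
      apply Subtype.ext
      apply hLinj
      have := congrArg Subtype.val huv
      simpa [phi] using this
    have hle : finrank F V0 ≤ finrank F V := LinearMap.finrank_le_finrank_of_injective hphi
    have hVk : finrank F V0 ≤ k := by
      have := Submodule.finrank_le V0
      simpa using this
    have hVk1 : finrank F V ≤ k + 1 := by
      have := Submodule.finrank_le V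
      simpa using this
    rw [card_split (0 : Fin (k + 1))]
    have hfib : ∀ (w : Om), ((univ.filter fun x : Fin k → Om =>
        (fun j => f ((Fin.insertNth 0 w x : Fin (k + 1) → Om) j)) - c ∈ V).card : ℝ) ≤
          al ^ (k - finrank F V0) * (Fintype.card Om : ℝ) ^ k := by
      intro w
      by_cases hex : ∃ v : Fin k → F, (Fin.cons (f w - c 0) v : Fin (k + 1) → F) ∈ V
      · obtain ⟨v, hv⟩ := hex
        refine le_trans ?_ (ih V0 (fun j => c j.succ + v j))
        norm_cast
        apply Finset.card_le_card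
        intro x hx
        simp only [mem_filter, mem_univ, true_and] at hx ⊢
        change L _ ∈ V
        have : L ((fun j => f (x j)) - fun j => c j.succ + v j) =
            ((fun j => f ((Fin.insertNth 0 w x : Fin (k + 1) → Om) j)) - c) -
              (Fin.cons (f w - c 0) v : Fin (k + 1) → F) := by
          rw [hL]
          ext j
          refine Fin.cases ?_ (fun j => ?_) j
          · simp
          · simp only [Fin.cons_succ, Pi.sub_apply, Fin.insertNth_zero']
            ring
        rw [this]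
        exact V.sub_mem hx hv
      · have : (univ.filter fun x : Fin k → Om =>
          (fun j => f ((Fin.insertNth 0 w x : Fin (k + 1) → Om) j)) - c ∈ V) = ∅ := by
          apply Finset.filter_eq_empty_iff.2
          intro x _ hx
          apply hex
          refine ⟨fun j => f (x j) - c j.succ, ?_⟩
          convert hx using 1
          ext j
          refine Fin.cases ?_ (fun j => ?_) j
          · simp
          · simp [Fin.insertNth_zero']
        rw [this]
        simp only [card_empty, Nat.cast_zero]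
        positivity
    by_cases hpi : ∃ v ∈ V, v 0 ≠ 0
    · -- V0 has smaller dimension
      have hlt : finrank F V0 + 1 ≤ finrank F V := by
        let pi : V →ₗ[F] F := (LinearMap.proj 0).comp V.subtype
        have hker : LinearMap.ker pi ≠ ⊤ := by
          obtain ⟨v, hv, hv0⟩ := hpi
          intro htop
          have : (⟨v, hv⟩ : V) ∈ LinearMap.ker pi := by rw [htop]; trivial
          rw [LinearMap.mem_ker] at this
          exact hv0 this
        have h2 := Submodule.finrank_lt hker
        let psi : V0 →ₗ[F] LinearMap.ker pi := phi.codRestrict _ (by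
          intro v
          rw [LinearMap.mem_ker]
          change (L v.1) 0 = 0
          rw [hL]
          simp)
        have hpsi : Function.Injective psi := by
          intro u v huv
          apply hphi
          have := congrArg Subtype.val huv
          simpa [psi] using this
        have h3 := LinearMap.finrank_le_finrank_of_injective hpsi
        omega
      refine (Finset.sum_le_sum fun w _ => hfib w).trans ?_
      rw [sum_const, card_univ, nsmul_eq_mul]
      have h4 : al ^ (k - finrank F V0) ≤ al ^ (k + 1 - finrank F V) :=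
        pow_le_pow_of_le_one h0 h1 (by omega)
      calc (Fintype.card Om : ℝ) * (al ^ (k - finrank F V0) * (Fintype.card Om : ℝ) ^ k)
          = al ^ (k - finrank F V0) * (Fintype.card Om : ℝ) ^ (k + 1) := by ring
        _ ≤ _ := by gcongr
    · push Not at hpi
      have hz : ∀ w : Om, f w ≠ c 0 → ((univ.filter fun x : Fin k → Om =>
        (fun j => f ((Fin.insertNth 0 w x : Fin (k + 1) → Om) j)) - c ∈ V).card : ℝ) = 0 := by
        intro w hw
        rw [Finset.filter_eq_empty_iff.2]
        · simp
        · intro x _ hx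
          have := hpi _ hx
          apply hw
          have h5 : f w - c 0 = 0 := by simpa using this
          exact sub_eq_zero.1 h5
      have hs : ∑ w : Om, ((univ.filter fun x : Fin k → Om =>
          (fun j => f ((Fin.insertNth 0 w x : Fin (k + 1) → Om) j)) - c ∈ V).card : ℝ) ≤
          ∑ w ∈ univ.filter (fun w => f w = c 0),
            al ^ (k - finrank F V0) * (Fintype.card Om : ℝ) ^ k := by
        rw [Finset.sum_filter]
        apply Finset.sum_le_sum
        intro w _
        split_ifs with h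
        · exact hfib w
        · rw [hz w h]
      refine hs.trans ?_
      rw [sum_const, nsmul_eq_mul]
      have h4 : al ^ (k - finrank F V0 + 1) ≤ al ^ (k + 1 - finrank F V) :=
        pow_le_pow_of_le_one h0 h1 (by omega)
      calc ((univ.filter (fun w => f w = c 0)).card : ℝ) *
            (al ^ (k - finrank F V0) * (Fintype.card Om : ℝ) ^ k)
          ≤ (al * Fintype.card Om) * (al ^ (k - finrank F V0) * (Fintype.card Om : ℝ) ^ k) := by
            gcongr
            exact hat _
        _ = al ^ (k - finrank F V0 + 1) * (Fintype.card Om : ℝ) ^ (k + 1) := by ring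
        _ ≤ _ := by gcongr

end odlyzko

section model

variable {Om : Type*} [Fintype Om]

/-- number of dependent rows mod `p` of the sampled matrix -/
noncomputable def cor (e : Om → ℤ) (p : ℕ) {a k : ℕ} (M : Fin a → Fin k → Om) : ℕ :=
  a - (Matrix.of fun i j => ((e (M i j) : ℤ) : ZMod p)).rank

/-- the weight `∏ p ^ (2 corank_p)` -/
noncomputable def W (e : Om → ℤ) (PP : Finset ℕ) {a k : ℕ} (M : Fin a → Fin k → Om) : ℝ :=
  ∏ p ∈ PP, (p : ℝ) ^ (2 * cor e p M)

lemma W_nonneg (e : Om → ℤ) (PP : Finset ℕ) {a k : ℕ} (M : Fin a → Fin k → Om) :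
    0 ≤ W e PP M := Finset.prod_nonneg fun p _ => by positivity

lemma cor_le (e : Om → ℤ) {p : ℕ} (hp : p.Prime) {a k : ℕ} (M : Fin (a + 1) → Fin k → Om)
    (i : Fin (a + 1)) : cor e p M ≤ cor e p (fun r => M (i.succAbove r)) + 1 := by
  have : Fact p.Prime := ⟨hp⟩
  have h1 : (Matrix.of fun (r : Fin a) (j : Fin k) =>
      ((e ((fun r => M (i.succAbove r)) r j) : ℤ) : ZMod p)).rank ≤
      (Matrix.of fun i j => ((e (M i j) : ℤ) : ZMod p)).rank :=
    Matrix.rank_submatrix_le (Matrix.of fun i j => ((e (M i j) : ℤ) : ZMod p))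
      (fun r : Fin a => i.succAbove r) (fun j : Fin k => j)
  have h3 : (Matrix.of fun (r : Fin a) (j : Fin k) =>
      ((e ((fun r => M (i.succAbove r)) r j) : ℤ) : ZMod p)).rank ≤ a :=
    Matrix.rank_le_height _
  unfold cor
  generalize (Matrix.of fun (r : Fin a) (j : Fin k) =>
      ((e ((fun r => M (i.succAbove r)) r j) : ℤ) : ZMod p)).rank = x at h1 h3 ⊢
  generalize (Matrix.of fun i j => ((e (M i j) : ℤ) : ZMod p)).rank = y at h1 ⊢
  omega

lemma W_le (e : Om → ℤ) {PP : Finset ℕ} (hPP : ∀ p ∈ PP, p.Prime) {a k : ℕ}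
    (M : Fin (a + 1) → Fin k → Om) (i : Fin (a + 1)) :
    W e PP M ≤ (∏ p ∈ PP, (p : ℝ)) ^ 2 * W e PP (fun r => M (i.succAbove r)) := by
  unfold W
  rw [← Finset.prod_pow, ← Finset.prod_mul_distrib]
  apply Finset.prod_le_prod (fun p _ => by positivity)
  intro p hp
  rw [← pow_add]
  apply pow_le_pow_right₀
  · exact_mod_cast (hPP p hp).one_lt.le
  · have := cor_le e (hPP p hp) M i
    omega

/-- some `p ∈ PP` has a nonzero left vector mod `p` of support `≤ s`, orthogonal to the columns
in `J` -/
def Sp (e : Om → ℤ) (PP : Finset ℕ) (s : ℕ) {a k : ℕ} (J : Finset (Fin k))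
    (M : Fin a → Fin k → Om) : Prop :=
  ∃ p ∈ PP, ∃ u : Fin a → ZMod p, u ≠ 0 ∧ (univ.filter fun i => u i ≠ 0).card ≤ s ∧
    ∀ j ∈ J, ∑ i, u i * ((e (M i j) : ℤ) : ZMod p) = 0

/-- span of the rows in `T` and of the coordinate vectors outside `J` -/
def VT (e : Om → ℤ) (p : ℕ) {a k : ℕ} (J : Finset (Fin k)) (i : Fin (a + 1))
    (T : Finset (Fin (a + 1))) (M : Fin a → Fin k → Om) : Submodule (ZMod p) (Fin k → ZMod p) :=
  Submodule.span (ZMod p) (Set.range (fun r : {r : Fin a // i.succAbove r ∈ T} =>
    fun j => ((e (M r.1 j) : ℤ) : ZMod p)) ∪ Set.range (fun j : {j : Fin k // j ∉ J} =>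
      (Pi.single j.1 1 : Fin k → ZMod p)))

open scoped Classical in
lemma finrank_VT (e : Om → ℤ) {p : ℕ} [Fact p.Prime] {a k : ℕ} (J : Finset (Fin k))
    (i : Fin (a + 1)) (T : Finset (Fin (a + 1))) (M : Fin a → Fin k → Om) :
    finrank (ZMod p) (VT e p J i T M) ≤ T.card + (k - J.card) := by
  unfold VT
  rw [Submodule.span_union]
  refine (Submodule.finrank_add_le_finrank_add_finrank _ _).trans ?_
  apply add_le_add
  · refine (finrank_range_le_card _).trans ?_
    have h := Fintype.card_le_of_injective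
      (fun r : {r : Fin a // i.succAbove r ∈ T} => (⟨i.succAbove r.1, r.2⟩ : {x // x ∈ T}))
      (by
        intro r r' h
        apply Subtype.ext
        have := congrArg Subtype.val h
        exact Fin.succAbove_right_injective this)
    simpa using h
  · refine (finrank_range_le_card _).trans ?_
    rw [Fintype.card_subtype_compl]
    simp

lemma mem_VT (e : Om → ℤ) {p : ℕ} [Fact p.Prime] {a k : ℕ} (J : Finset (Fin k))
    (M : Fin (a + 1) → Fin k → Om) (u : Fin (a + 1) → ZMod p) (i : Fin (a + 1)) (hi : u i ≠ 0)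
    (T : Finset (Fin (a + 1))) (hT : ∀ r, u r ≠ 0 → r ∈ T)
    (h : ∀ j ∈ J, ∑ i, u i * ((e (M i j) : ℤ) : ZMod p) = 0) :
    (fun j => ((e (M i j) : ℤ) : ZMod p)) ∈ VT e p J i T (fun r => M (i.succAbove r)) := by
  classical
  set V := VT e p J i T (fun r => M (i.succAbove r)) with hV
  -- the combination of the other rows
  let c : Fin k → ZMod p := ∑ r : Fin a, (-(u i)⁻¹ * u (i.succAbove r)) •
    (fun j => ((e (M (i.succAbove r) j) : ℤ) : ZMod p))
  have hc : c ∈ V := by
    apply Submodule.sum_mem
    intro r _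
    by_cases hr : u (i.succAbove r) = 0
    · rw [hr]; simp
    · apply Submodule.smul_mem
      apply Submodule.subset_span
      left
      exact ⟨⟨r, hT _ hr⟩, rfl⟩
  have hd : (fun j => ((e (M i j) : ℤ) : ZMod p)) - c ∈ V := by
    have h1 : (fun j => ((e (M i j) : ℤ) : ZMod p)) - c =
        ∑ j : Fin k, (((e (M i j) : ℤ) : ZMod p) - c j) • (Pi.single j 1 : Fin k → ZMod p) := by
      ext l
      simp [Finset.sum_apply, Pi.single_apply]
    rw [h1]
    apply Submodule.sum_mem
    intro j _
    by_cases hj : j ∈ J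
    · have h2 := h j hj
      rw [Fin.sum_univ_succAbove _ i] at h2
      have h3 : c j = -(u i)⁻¹ * ∑ r : Fin a, u (i.succAbove r) *
          ((e (M (i.succAbove r) j) : ℤ) : ZMod p) := by
        simp only [c, Finset.sum_apply, Pi.smul_apply, smul_eq_mul, Finset.mul_sum]
        apply Finset.sum_congr rfl
        intro r _
        ring
      have h4 : ((e (M i j) : ℤ) : ZMod p) - c j = 0 := by
        rw [h3]
        field_simp
        linear_combination h2
      rw [h4]
      simp
    · apply Submodule.smul_mem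
      apply Submodule.subset_span
      right
      exact ⟨⟨j, hj⟩, rfl⟩
  have := V.add_mem hd hc
  simpa using this

/-- the row of `T` that is deleted -/
noncomputable def io {a : ℕ} (T : Finset (Fin (a + 1))) : Fin (a + 1) :=
  if h : T.Nonempty then T.min' h else 0

/-- the deleted row lies in the span of the other rows of `T` outside `J` -/
def Ev (e : Om → ℤ) (p : ℕ) {a k : ℕ} (J : Finset (Fin k)) (T : Finset (Fin (a + 1)))
    (M : Fin (a + 1) → Fin k → Om) : Prop :=
  (fun j => ((e (M (io T) j) : ℤ) : ZMod p)) ∈ VT e p J (io T) T (fun r => M ((io T).succAbove r))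

/-- the possible supports -/
def TT (a s : ℕ) : Finset (Finset (Fin (a + 1))) :=
  univ.filter fun T => T.Nonempty ∧ T.card ≤ s

lemma card_TT (a s : ℕ) : ((TT a s).card : ℝ) ≤ ∑ j ∈ range (s + 1), ((a + 1).choose j : ℝ) := by
  have hsub : TT a s ⊆ (range (s + 1)).biUnion fun j => powersetCard j univ := by
    intro T hT
    simp only [TT, mem_filter, mem_univ, true_and] at hT
    simp only [mem_biUnion, mem_range, mem_powersetCard, subset_univ, true_and]
    exact ⟨T.card, by omega, rfl⟩
  have h2 := (Finset.card_le_card hsub).trans Finset.card_biUnion_le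
  have h3 : (∑ j ∈ range (s + 1), (powersetCard j (univ : Finset (Fin (a + 1)))).card) =
      ∑ j ∈ range (s + 1), (a + 1).choose j := by
    apply Finset.sum_congr rfl
    intro j _
    rw [card_powersetCard]
    simp
  rw [h3] at h2
  exact_mod_cast h2

lemma exists_Ev (e : Om → ℤ) {PP : Finset ℕ} (hPP : ∀ p ∈ PP, p.Prime) {a k : ℕ} (s : ℕ)
    (J : Finset (Fin k)) (M : Fin (a + 1) → Fin k → Om) (hS : Sp e PP s J M) :
    ∃ p ∈ PP, ∃ T ∈ TT a s, Ev e p J T M := by
  classical
  obtain ⟨p, hp, u, hu, hcu, hJ⟩ := hS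
  have : Fact p.Prime := ⟨hPP p hp⟩
  let T : Finset (Fin (a + 1)) := univ.filter fun i => u i ≠ 0
  have hTne : T.Nonempty := by
    obtain ⟨i, hi⟩ := Function.ne_iff.1 hu
    exact ⟨i, by simpa [T] using hi⟩
  have hTT : T ∈ TT a s := by
    simp only [TT, mem_filter, mem_univ, true_and]
    refine ⟨hTne, ?_⟩
    convert hcu
  have hio : io T = T.min' hTne := by simp only [io, dif_pos hTne]
  have hui : u (io T) ≠ 0 := by
    have := T.min'_mem hTne
    rw [← hio] at this
    simpa [T] using this
  exact ⟨p, hp, T, hTT, mem_VT e J M u (io T) hui T (fun r hr => by simpa [T] using hr) hJ⟩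

lemma sum_split {a : ℕ} {X : Type*} [Fintype X] (i : Fin (a + 1)) (g : (Fin (a + 1) → X) → ℝ) :
    ∑ M : Fin (a + 1) → X, g M = ∑ M' : Fin a → X, ∑ x : X, g (Fin.insertNth i x M') := by
  rw [← (Fin.insertNthEquiv (fun _ => X) i).sum_comp, Fintype.sum_prod_type, Finset.sum_comm]
  rfl

lemma Ev_insert (e : Om → ℤ) (p : ℕ) {a k : ℕ} (J : Finset (Fin k)) (T : Finset (Fin (a + 1)))
    (M' : Fin a → Fin k → Om) (x : Fin k → Om) :
    Ev e p J T (Fin.insertNth (io T) x M' : Fin (a + 1) → Fin k → Om) ↔
      (fun j => ((e (x j) : ℤ) : ZMod p)) - 0 ∈ VT e p J (io T) T M' := by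
  unfold Ev
  have hM : (fun r => (Fin.insertNth (io T) x M' : Fin (a + 1) → Fin k → Om)
      ((io T).succAbove r)) = M' := by
    funext r
    exact Fin.insertNth_apply_succAbove (α := fun _ => Fin k → Om) (io T) x M' r
  have hx : (Fin.insertNth (io T) x M' : Fin (a + 1) → Fin k → Om) (io T) = x :=
    Fin.insertNth_apply_same (α := fun _ => Fin k → Om) (io T) x M'
  rw [hM, hx, sub_zero]

lemma W_insert (e : Om → ℤ) (PP : Finset ℕ) {a k : ℕ} (T : Finset (Fin (a + 1)))
    (M' : Fin a → Fin k → Om) (x : Fin k → Om) :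
    W e PP (fun r => (Fin.insertNth (io T) x M' : Fin (a + 1) → Fin k → Om)
      ((io T).succAbove r)) = W e PP M' := by
  congr 1
  funext r
  exact Fin.insertNth_apply_succAbove (α := fun _ => Fin k → Om) (io T) x M' r

open scoped Classical in
lemma card_Ev (e : Om → ℤ) {p : ℕ} (hp : p.Prime) {al : ℝ} (h0 : 0 ≤ al) (h1 : al ≤ 1)
    (hat : ∀ z : ZMod p,
      ((univ.filter fun w : Om => ((e w : ℤ) : ZMod p) = z).card : ℝ) ≤ al * Fintype.card Om)
    {a k : ℕ} (s : ℕ) (J : Finset (Fin k)) (T : Finset (Fin (a + 1))) (hT : T.card ≤ s)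
    (M' : Fin a → Fin k → Om) :
    ((univ.filter fun x : Fin k → Om =>
      (fun j => ((e (x j) : ℤ) : ZMod p)) - 0 ∈ VT e p J (io T) T M').card : ℝ) ≤
      al ^ (J.card - s) * (Fintype.card Om : ℝ) ^ k := by
  have : Fact p.Prime := ⟨hp⟩
  refine (odl (fun w : Om => ((e w : ℤ) : ZMod p)) h0 h1 (fun z => by
    refine le_trans (le_of_eq ?_) (hat z)
    congr!) k _ 0).trans ?_
  apply mul_le_mul_of_nonneg_right _ (by positivity)
  apply pow_le_pow_of_le_one h0 h1
  have h5 := finrank_VT e (p := p) J (io T) T M'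
  have h6 : J.card ≤ k := by simpa using J.card_le_univ
  omega

open scoped Classical in
lemma one_Ev (e : Om → ℤ) {PP : Finset ℕ} (hPP : ∀ p ∈ PP, p.Prime) {al : ℝ} (h0 : 0 ≤ al)
    (h1 : al ≤ 1)
    (hat : ∀ p ∈ PP, ∀ z : ZMod p,
      ((univ.filter fun w : Om => ((e w : ℤ) : ZMod p) = z).card : ℝ) ≤ al * Fintype.card Om)
    {a k : ℕ} (s : ℕ) (J : Finset (Fin k)) {p : ℕ} (hp : p ∈ PP) {T : Finset (Fin (a + 1))}
    (hT : T.card ≤ s) :
    ∑ M : Fin (a + 1) → Fin k → Om, (if Ev e p J T M then W e PP M else 0) ≤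
      (∏ p ∈ PP, (p : ℝ)) ^ 2 * (al ^ (J.card - s) * (Fintype.card Om : ℝ) ^ k) *
        ∑ M : Fin a → Fin k → Om, W e PP M := by
  have hstep : ∑ M : Fin (a + 1) → Fin k → Om, (if Ev e p J T M then W e PP M else 0) ≤
      ∑ M : Fin (a + 1) → Fin k → Om, (if Ev e p J T M then
        (∏ p ∈ PP, (p : ℝ)) ^ 2 * W e PP (fun r => M ((io T).succAbove r)) else 0) := by
    apply Finset.sum_le_sum
    intro M _
    split_ifs
    · exact W_le e hPP M _
    · exact le_rfl
  refine hstep.trans ?_
  rw [sum_split (io T)]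
  have hin : ∀ (M' : Fin a → Fin k → Om), ∑ x : Fin k → Om,
      (if Ev e p J T (Fin.insertNth (io T) x M' : Fin (a + 1) → Fin k → Om) then
        (∏ p ∈ PP, (p : ℝ)) ^ 2 * W e PP (fun r =>
          (Fin.insertNth (io T) x M' : Fin (a + 1) → Fin k → Om) ((io T).succAbove r)) else 0) ≤
        ((∏ p ∈ PP, (p : ℝ)) ^ 2 * W e PP M') *
          (al ^ (J.card - s) * (Fintype.card Om : ℝ) ^ k) := by
    intro M'
    have hrw : ∀ x : Fin k → Om,
      (if Ev e p J T (Fin.insertNth (io T) x M' : Fin (a + 1) → Fin k → Om) then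
        (∏ p ∈ PP, (p : ℝ)) ^ 2 * W e PP (fun r =>
          (Fin.insertNth (io T) x M' : Fin (a + 1) → Fin k → Om) ((io T).succAbove r)) else 0) =
      (if (fun j => ((e (x j) : ℤ) : ZMod p)) - 0 ∈ VT e p J (io T) T M' then
        (∏ p ∈ PP, (p : ℝ)) ^ 2 * W e PP M' else 0) := by
      intro x
      rw [W_insert]
      exact if_congr (Ev_insert e p J T M' x) rfl rfl
    rw [Finset.sum_congr rfl (fun x _ => hrw x), ← Finset.sum_filter, sum_const, nsmul_eq_mul,
      mul_comm]
    exact mul_le_mul_of_nonneg_left (card_Ev e (hPP p hp) h0 h1 (hat p hp) s J T hT M')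
      (mul_nonneg (by positivity) (W_nonneg _ _ _))
  refine (Finset.sum_le_sum fun M' _ => hin M').trans ?_
  rw [← Finset.sum_mul, ← Finset.mul_sum]
  apply le_of_eq
  ring

open scoped Classical in
/-- **Sparse left kernel vectors**: deleting one row of the support costs `N ^ 2` and gains
`al ^ (|J| - s)`. -/
theorem sparse_del (e : Om → ℤ) {PP : Finset ℕ} (hPP : ∀ p ∈ PP, p.Prime) {al : ℝ} (h0 : 0 ≤ al)
    (h1 : al ≤ 1)
    (hat : ∀ p ∈ PP, ∀ z : ZMod p,
      ((univ.filter fun w : Om => ((e w : ℤ) : ZMod p) = z).card : ℝ) ≤ al * Fintype.card Om)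
    {a k : ℕ} (s : ℕ) (J : Finset (Fin k)) :
    ∑ M : Fin (a + 1) → Fin k → Om, (if Sp e PP s J M then W e PP M else 0) ≤
      PP.card * (∑ j ∈ range (s + 1), ((a + 1).choose j : ℝ)) * (∏ p ∈ PP, (p : ℝ)) ^ 2 *
        (al ^ (J.card - s) * (Fintype.card Om : ℝ) ^ k) *
        ∑ M : Fin a → Fin k → Om, W e PP M := by
  have hnn1 : ∀ (p : ℕ) (T : Finset (Fin (a + 1))) (M : Fin (a + 1) → Fin k → Om),
      0 ≤ (if Ev e p J T M then W e PP M else 0) := by
    intro p T M
    split_ifs
    · exact W_nonneg _ _ _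
    · exact le_rfl
  -- covering
  have hcov : ∀ M : Fin (a + 1) → Fin k → Om, (if Sp e PP s J M then W e PP M else 0) ≤
      ∑ p ∈ PP, ∑ T ∈ TT a s, (if Ev e p J T M then W e PP M else 0) := by
    intro M
    have hnn : ∀ p ∈ PP, 0 ≤ ∑ T ∈ TT a s, (if Ev e p J T M then W e PP M else 0) :=
      fun p _ => Finset.sum_nonneg fun T _ => hnn1 p T M
    split_ifs with hS
    · obtain ⟨p, hp, T, hT, hE⟩ := exists_Ev e hPP s J M hS
      refine le_trans ?_ (Finset.single_le_sum hnn hp)
      refine le_trans ?_ (Finset.single_le_sum (fun T _ => hnn1 p T M) hT)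
      rw [if_pos hE]
    · exact Finset.sum_nonneg hnn
  have hS0 : 0 ≤ ∑ M : Fin a → Fin k → Om, W e PP M := Finset.sum_nonneg fun M _ => W_nonneg _ _ _
  calc ∑ M : Fin (a + 1) → Fin k → Om, (if Sp e PP s J M then W e PP M else 0)
      ≤ ∑ M : Fin (a + 1) → Fin k → Om, ∑ p ∈ PP, ∑ T ∈ TT a s,
          (if Ev e p J T M then W e PP M else 0) :=
        Finset.sum_le_sum fun M _ => hcov M
    _ = ∑ p ∈ PP, ∑ T ∈ TT a s, ∑ M : Fin (a + 1) → Fin k → Om,
          (if Ev e p J T M then W e PP M else 0) := by
        rw [Finset.sum_comm]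
        apply Finset.sum_congr rfl
        intro p _
        rw [Finset.sum_comm]
    _ ≤ ∑ p ∈ PP, ∑ T ∈ TT a s, (∏ p ∈ PP, (p : ℝ)) ^ 2 *
          (al ^ (J.card - s) * (Fintype.card Om : ℝ) ^ k) * ∑ M : Fin a → Fin k → Om, W e PP M :=
        Finset.sum_le_sum fun p hp => Finset.sum_le_sum fun T hT =>
          one_Ev e hPP h0 h1 hat s J hp (by
            simp only [TT, mem_filter, mem_univ, true_and] at hT
            exact hT.2)
    _ = PP.card * (TT a s).card * ((∏ p ∈ PP, (p : ℝ)) ^ 2 *
          (al ^ (J.card - s) * (Fintype.card Om : ℝ) ^ k) *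
          ∑ M : Fin a → Fin k → Om, W e PP M) := by
        simp only [sum_const, nsmul_eq_mul]
        ring
    _ ≤ PP.card * (∑ j ∈ range (s + 1), ((a + 1).choose j : ℝ)) *
          ((∏ p ∈ PP, (p : ℝ)) ^ 2 * (al ^ (J.card - s) * (Fintype.card Om : ℝ) ^ k) *
          ∑ M : Fin a → Fin k → Om, W e PP M) := by
        apply mul_le_mul_of_nonneg_right
        · exact mul_le_mul_of_nonneg_left (card_TT a s) (by positivity)
        · exact mul_nonneg (mul_nonneg (by positivity)
            (mul_nonneg (pow_nonneg h0 _) (by positivity))) hS0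
    _ = _ := by ring

end model

end Vale.Agent.P160.Half.SparseDel
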