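import Vale.Agent.P160.Half.SparseDel

set_option linter.unusedSectionVars false

/-! # P160/Half: the square recursion step for sparse left and right kernel vectors -/

namespace Vale.Agent.P160.Half.SparseSq

open Finset Module Vale.Agent.P160.Half.SparseDel

variable {Om : Type*} [Fintype Om]

/-- transposition -/
def tr {a k : ℕ} (M : Fin a → Fin k → Om) : Fin k → Fin a → Om := fun j i => M i j

@[simp] lemma tr_tr {a k : ℕ} (M : Fin a → Fin k → Om) : tr (tr M) = M := rfl

/-- transposition as an equivalence -/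
def trE (a k : ℕ) : (Fin a → Fin k → Om) ≃ (Fin k → Fin a → Om) where
  toFun := tr
  invFun := tr
  left_inv := fun _ => rfl
  right_inv := fun _ => rfl

lemma sum_tr {a k : ℕ} (g : (Fin a → Fin k → Om) → ℝ) :
    ∑ M : Fin a → Fin k → Om, g M = ∑ M : Fin k → Fin a → Om, g (tr M) :=
  ((trE k a).sum_comp g).symm

lemma cor_tr (e : Om → ℤ) {p : ℕ} (hp : p.Prime) {a : ℕ} (M : Fin a → Fin a → Om) :
    cor e p (tr M) = cor e p M := by
  have : Fact p.Prime := ⟨hp⟩
  unfold cor
  have h : (Matrix.of fun i j => ((e (tr M i j) : ℤ) : ZMod p)) =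
      (Matrix.of fun i j => ((e (M i j) : ℤ) : ZMod p)).transpose := rfl
  rw [h, Matrix.rank_transpose]

lemma W_tr (e : Om → ℤ) {PP : Finset ℕ} (hPP : ∀ p ∈ PP, p.Prime) {a : ℕ}
    (M : Fin a → Fin a → Om) : W e PP (tr M) = W e PP M := by
  unfold W
  apply Finset.prod_congr rfl
  intro p hp
  rw [cor_tr e (hPP p hp)]

/-- deleting a column does not decrease the row corank -/
lemma cor_col (e : Om → ℤ) {p : ℕ} (hp : p.Prime) {a k : ℕ} (M : Fin a → Fin (k + 1) → Om)
    (j : Fin (k + 1)) : cor e p M ≤ cor e p (fun i l => M i (j.succAbove l)) := by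
  have : Fact p.Prime := ⟨hp⟩
  have h1 : (Matrix.of fun (i : Fin a) (l : Fin k) =>
      ((e ((fun i l => M i (j.succAbove l)) i l) : ℤ) : ZMod p)).rank ≤
      (Matrix.of fun i j => ((e (M i j) : ℤ) : ZMod p)).rank :=
    Matrix.rank_submatrix_le (Matrix.of fun i j => ((e (M i j) : ℤ) : ZMod p))
      (fun i : Fin a => i) (fun l : Fin k => j.succAbove l)
  unfold cor
  generalize (Matrix.of fun (i : Fin a) (l : Fin k) =>
      ((e ((fun i l => M i (j.succAbove l)) i l) : ℤ) : ZMod p)).rank = x at h1 ⊢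
  generalize (Matrix.of fun i j => ((e (M i j) : ℤ) : ZMod p)).rank = y at h1 ⊢
  omega

lemma W_col (e : Om → ℤ) {PP : Finset ℕ} (hPP : ∀ p ∈ PP, p.Prime) {a k : ℕ}
    (M : Fin a → Fin (k + 1) → Om) (j : Fin (k + 1)) :
    W e PP M ≤ W e PP (fun i l => M i (j.succAbove l)) := by
  unfold W
  apply Finset.prod_le_prod (fun p _ => by positivity)
  intro p hp
  apply pow_le_pow_right₀
  · exact_mod_cast (hPP p hp).one_lt.le
  · have := cor_col e (hPP p hp) M j
    omega

/-- column deletion, summed -/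
lemma sum_W_col (e : Om → ℤ) {PP : Finset ℕ} (hPP : ∀ p ∈ PP, p.Prime) (a k : ℕ) :
    ∑ M : Fin a → Fin (k + 1) → Om, W e PP M ≤
      (Fintype.card Om : ℝ) ^ a * ∑ M : Fin a → Fin k → Om, W e PP M := by
  rw [sum_tr, sum_split (0 : Fin (k + 1)), sum_tr (a := a) (k := k), Finset.mul_sum]
  apply Finset.sum_le_sum
  intro M' _
  have h : ∀ x : Fin a → Om, W e PP (tr (Fin.insertNth 0 x M' : Fin (k + 1) → Fin a → Om)) ≤
      W e PP (tr M') := by
    intro x
    refine (W_col e hPP (tr (Fin.insertNth 0 x M' : Fin (k + 1) → Fin a → Om)) 0).trans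
      (le_of_eq ?_)
    congr 1
  refine (Finset.sum_le_sum fun x _ => h x).trans ?_
  rw [sum_const, card_univ, nsmul_eq_mul]
  simp

/-- sum of the weights of the square matrices -/
noncomputable def SW (Om : Type*) [Fintype Om] (e : Om → ℤ) (PP : Finset ℕ) (a : ℕ) : ℝ :=
  ∑ M : Fin a → Fin a → Om, W e PP M

lemma SW_nonneg (e : Om → ℤ) (PP : Finset ℕ) (a : ℕ) : 0 ≤ SW Om e PP a :=
  Finset.sum_nonneg fun _ _ => W_nonneg _ _ _

/-- some `p ∈ PP` has a nonzero left or right kernel vector mod `p` of support `≤ s` -/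
def Spb (e : Om → ℤ) (PP : Finset ℕ) (s : ℕ) {a : ℕ} (M : Fin a → Fin a → Om) : Prop :=
  Sp e PP s univ M ∨ Sp e PP s univ (tr M)

open scoped Classical in
lemma left_step (e : Om → ℤ) {PP : Finset ℕ} (hPP : ∀ p ∈ PP, p.Prime) {al : ℝ} (h0 : 0 ≤ al)
    (h1 : al ≤ 1)
    (hat : ∀ p ∈ PP, ∀ z : ZMod p,
      ((univ.filter fun w : Om => ((e w : ℤ) : ZMod p) = z).card : ℝ) ≤ al * Fintype.card Om)
    (a s : ℕ) :
    ∑ M : Fin (a + 1) → Fin (a + 1) → Om, (if Sp e PP s univ M then W e PP M else 0) ≤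
      PP.card * (∑ j ∈ range (s + 1), ((a + 1).choose j : ℝ)) * (∏ p ∈ PP, (p : ℝ)) ^ 2 *
        al ^ (a + 1 - s) * (Fintype.card Om : ℝ) ^ (2 * a + 1) * SW Om e PP a := by
  refine (sparse_del e hPP h0 h1 hat s univ).trans ?_
  rw [card_univ, Fintype.card_fin]
  have h2 := sum_W_col (Om := Om) e hPP a a
  calc _ ≤ (PP.card * (∑ j ∈ range (s + 1), ((a + 1).choose j : ℝ)) * (∏ p ∈ PP, (p : ℝ)) ^ 2 *
        (al ^ (a + 1 - s) * (Fintype.card Om : ℝ) ^ (a + 1))) * ((Fintype.card Om : ℝ) ^ a *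
          ∑ M : Fin a → Fin a → Om, W e PP M) := by
        apply mul_le_mul_of_nonneg_left h2
        have := pow_nonneg h0 (a + 1 - s)
        positivity
    _ = _ := by
        unfold SW
        ring

open scoped Classical in
/-- **Square step**: the sparse part of the second moment of the kernel size. -/
theorem sq_step (e : Om → ℤ) {PP : Finset ℕ} (hPP : ∀ p ∈ PP, p.Prime) {al : ℝ} (h0 : 0 ≤ al)
    (h1 : al ≤ 1)
    (hat : ∀ p ∈ PP, ∀ z : ZMod p,
      ((univ.filter fun w : Om => ((e w : ℤ) : ZMod p) = z).card : ℝ) ≤ al * Fintype.card Om)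
    (a s : ℕ) :
    ∑ M : Fin (a + 1) → Fin (a + 1) → Om, (if Spb e PP s M then W e PP M else 0) ≤
      2 * (PP.card * (∑ j ∈ range (s + 1), ((a + 1).choose j : ℝ)) * (∏ p ∈ PP, (p : ℝ)) ^ 2 *
        al ^ (a + 1 - s)) * (Fintype.card Om : ℝ) ^ (2 * a + 1) * SW Om e PP a := by
  have hl := left_step e hPP h0 h1 hat a s
  have hr : ∑ M : Fin (a + 1) → Fin (a + 1) → Om, (if Sp e PP s univ (tr M) then W e PP M else 0) =
      ∑ M : Fin (a + 1) → Fin (a + 1) → Om, (if Sp e PP s univ M then W e PP M else 0) := by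
    rw [sum_tr]
    apply Finset.sum_congr rfl
    intro M _
    rw [tr_tr, W_tr e hPP]
  have hs : ∀ M : Fin (a + 1) → Fin (a + 1) → Om, (if Spb e PP s M then W e PP M else 0) ≤
      (if Sp e PP s univ M then W e PP M else 0) +
        (if Sp e PP s univ (tr M) then W e PP M else 0) := by
    intro M
    have hW := W_nonneg e PP M
    unfold Spb
    by_cases h1 : Sp e PP s univ M <;> by_cases h2 : Sp e PP s univ (tr M) <;>
      simp only [h1, h2, or_self, or_true, true_or, if_true, if_false] <;> linarith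
  calc ∑ M : Fin (a + 1) → Fin (a + 1) → Om, (if Spb e PP s M then W e PP M else 0)
      ≤ ∑ M : Fin (a + 1) → Fin (a + 1) → Om, ((if Sp e PP s univ M then W e PP M else 0) +
        (if Sp e PP s univ (tr M) then W e PP M else 0)) := Finset.sum_le_sum fun M _ => hs M
    _ = ∑ M : Fin (a + 1) → Fin (a + 1) → Om, (if Sp e PP s univ M then W e PP M else 0) +
        ∑ M : Fin (a + 1) → Fin (a + 1) → Om, (if Sp e PP s univ M then W e PP M else 0) := by
        rw [Finset.sum_add_distrib, hr]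
    _ ≤ _ := by
        refine (add_le_add hl hl).trans (le_of_eq ?_)
        ring

/-- trivial bound of the weight -/
lemma W_le_triv (e : Om → ℤ) {PP : Finset ℕ} (hPP : ∀ p ∈ PP, p.Prime) {a k : ℕ}
    (M : Fin a → Fin k → Om) : W e PP M ≤ (∏ p ∈ PP, (p : ℝ)) ^ (2 * a) := by
  unfold W
  rw [← Finset.prod_pow]
  apply Finset.prod_le_prod (fun p _ => by positivity)
  intro p hp
  apply pow_le_pow_right₀
  · exact_mod_cast (hPP p hp).one_lt.le
  · unfold cor
    omega

lemma SW_le_triv (e : Om → ℤ) {PP : Finset ℕ} (hPP : ∀ p ∈ PP, p.Prime) (a : ℕ) :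
    SW Om e PP a ≤ (∏ p ∈ PP, (p : ℝ)) ^ (2 * a) * (Fintype.card Om : ℝ) ^ (a * a) := by
  unfold SW
  refine (Finset.sum_le_sum fun M _ => W_le_triv e hPP M).trans ?_
  rw [sum_const, card_univ, nsmul_eq_mul, mul_comm]
  apply le_of_eq
  congr 1
  simp [pow_mul]

/-- closed form of the recursion -/
lemma rec_closed {F : ℕ → ℝ} {G q B : ℝ} (hG : 0 ≤ G) (hq0 : 0 ≤ q) (hq : q ≤ 1 / 2)
    (a0 : ℕ) (hB : F a0 ≤ B) :
    ∀ m : ℕ, (∀ a, a0 ≤ a → a < a0 + m → F (a + 1) ≤ G + q * F a) →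
      F (a0 + m) ≤ 2 * G + q ^ m * B := by
  intro m
  induction m with
  | zero => intro _; simp only [add_zero, pow_zero, one_mul]; linarith
  | succ m ih =>
    intro h
    have h1 := ih fun a ha hb => h a ha (by omega)
    have h2 := h (a0 + m) (by omega) (by omega)
    calc F (a0 + (m + 1)) ≤ G + q * F (a0 + m) := h2
      _ ≤ G + q * (2 * G + q ^ m * B) := by gcongr
      _ = G + (2 * q) * G + q ^ (m + 1) * B := by ring
      _ ≤ G + 1 * G + q ^ (m + 1) * B := by gcongr; linarith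
      _ = 2 * G + q ^ (m + 1) * B := by ring

open scoped Classical in
/-- **Bootstrap**: if the nonsparse part of `E W` is at most `G` for all sizes in `(a0, k]` and
`q ≤ 1/2` bounds the cost of one deletion, then `E W ≤ 2 G + q ^ (k - a0) N ^ (2 a0)` and the
sparse part of size `k` is at most `q` times the bound of size `k - 1`. -/
theorem bootstrap (e : Om → ℤ) {PP : Finset ℕ} (hPP : ∀ p ∈ PP, p.Prime) [Nonempty Om] {al : ℝ}
    (h0 : 0 ≤ al) (h1 : al ≤ 1)
    (hat : ∀ p ∈ PP, ∀ z : ZMod p,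
      ((univ.filter fun w : Om => ((e w : ℤ) : ZMod p) = z).card : ℝ) ≤ al * Fintype.card Om)
    {G q : ℝ} (hG : 0 ≤ G) (hq0 : 0 ≤ q) (hq : q ≤ 1 / 2) (s a0 m : ℕ)
    (hns : ∀ a, a0 < a → a ≤ a0 + m → ∑ M : Fin a → Fin a → Om,
      (if Spb e PP s M then 0 else W e PP M) ≤ G * (Fintype.card Om : ℝ) ^ (a * a))
    (hqa : ∀ a, a0 ≤ a → a < a0 + m →
      2 * (PP.card * (∑ j ∈ range (s + 1), ((a + 1).choose j : ℝ)) * (∏ p ∈ PP, (p : ℝ)) ^ 2 *
        al ^ (a + 1 - s)) ≤ q) :
    SW Om e PP (a0 + m) ≤ (2 * G + q ^ m * (∏ p ∈ PP, (p : ℝ)) ^ (2 * a0)) *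
      (Fintype.card Om : ℝ) ^ ((a0 + m) * (a0 + m)) := by
  have hO : (0 : ℝ) < Fintype.card Om := by exact_mod_cast Fintype.card_pos
  let F : ℕ → ℝ := fun a => SW Om e PP a / (Fintype.card Om : ℝ) ^ (a * a)
  have hstep : ∀ a, a0 ≤ a → a < a0 + m → F (a + 1) ≤ G + q * F a := by
    intro a ha hb
    simp only [F]
    rw [div_le_iff₀ (by positivity), add_mul]
    have hsp := sq_step e hPP h0 h1 hat a s
    have hn := hns (a + 1) (by omega) (by omega)
    have hsum : SW Om e PP (a + 1) =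
        ∑ M : Fin (a + 1) → Fin (a + 1) → Om, (if Spb e PP s M then 0 else W e PP M) +
        ∑ M : Fin (a + 1) → Fin (a + 1) → Om, (if Spb e PP s M then W e PP M else 0) := by
      unfold SW
      rw [← Finset.sum_add_distrib]
      apply Finset.sum_congr rfl
      intro M _
      split_ifs <;> simp
    rw [hsum]
    refine add_le_add hn (hsp.trans ?_)
    have hSW := SW_nonneg (Om := Om) e PP a
    calc _ ≤ q * (Fintype.card Om : ℝ) ^ (2 * a + 1) * SW Om e PP a := by
          apply mul_le_mul_of_nonneg_right _ hSW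
          apply mul_le_mul_of_nonneg_right (hqa a ha hb) (by positivity)
      _ = q * (SW Om e PP a / (Fintype.card Om : ℝ) ^ (a * a)) *
            (Fintype.card Om : ℝ) ^ ((a + 1) * (a + 1)) := by
          have : (Fintype.card Om : ℝ) ^ ((a + 1) * (a + 1)) =
              (Fintype.card Om : ℝ) ^ (2 * a + 1) * (Fintype.card Om : ℝ) ^ (a * a) := by
            rw [← pow_add]
            congr 1
            ring
          rw [this]
          field_simp
  have hB : F a0 ≤ (∏ p ∈ PP, (p : ℝ)) ^ (2 * a0) := by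
    simp only [F]
    rw [div_le_iff₀ (by positivity)]
    exact SW_le_triv e hPP a0
  have := rec_closed hG hq0 hq a0 hB m hstep
  simp only [F] at this
  rwa [div_le_iff₀ (by positivity)] at this

end Vale.Agent.P160.Half.SparseSq
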