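import Mathlib

/-! # Spectral input (P160): few small eigenvalues

A symmetric 0/1 matrix has at least `k` eigenvalues in `[-Λ, Λ]` with probability at most
`(m exp (-k/32))^{k/2}` as soon as `k² ≥ 256 Λ² m` (up to constants). -/

set_option linter.unusedSectionVars false

namespace Vale.Agent.P160.Half.Spec

open Finset

/-! ## Small ball -/

/-- sign of a bit -/
def sgn (b : Bool) : ℝ := if b then 1 else -1

section SB

variable {H : Type*} [NormedAddCommGroup H] [InnerProductSpace ℝ H]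

theorem two_exp_le (t : ℝ) : Real.exp (-(2 * t)) + Real.exp (2 * t) ≤ 2 * Real.exp (2 * t ^ 2) := by
  have h := Real.cosh_le_exp_half_sq (2 * t)
  rw [Real.cosh_eq] at h
  have h2 : (2 * t) ^ 2 / 2 = 2 * t ^ 2 := by ring
  rw [h2] at h
  linarith

theorem norm_le_of_psd (Q : H →ₗ[ℝ] H) {θ : ℝ} (h0 : 0 < θ)
    (hs : ∀ x y, inner ℝ (Q x) y = inner ℝ x (Q y))
    (hp : ∀ x, 0 ≤ inner ℝ x (Q x)) (hu : ∀ x, inner ℝ x (Q x) ≤ θ * ‖x‖ ^ 2) (v : H) :
    ‖Q v‖ ^ 2 ≤ θ ^ 2 * ‖v‖ ^ 2 := by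
  have h1 := hp (θ • v - Q v)
  have h2 : inner ℝ (θ • v - Q v) (Q (θ • v - Q v)) =
      θ ^ 2 * inner ℝ v (Q v) - 2 * θ * ‖Q v‖ ^ 2 + inner ℝ (Q v) (Q (Q v)) := by
    rw [map_sub, map_smul, inner_sub_left, inner_sub_right, inner_sub_right, inner_smul_left,
      inner_smul_left, inner_smul_right, inner_smul_right, ← real_inner_self_eq_norm_sq, ← hs v (Q v)]
    simp only [conj_trivial]
    ring
  rw [h2] at h1
  have h3 := hu (Q v)
  have h4 : θ * ‖Q v‖ ^ 2 ≤ θ ^ 2 * inner ℝ v (Q v) := by nlinarith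
  have h5 : ‖Q v‖ ^ 2 ≤ θ * inner ℝ v (Q v) := by
    have : θ * ‖Q v‖ ^ 2 ≤ θ * (θ * inner ℝ v (Q v)) := by nlinarith
    exact le_of_mul_le_mul_left this h0
  have h6 := hu v
  nlinarith

/-- the updated operator -/
noncomputable def upd (Q : H →ₗ[ℝ] H) (w : H) : H →ₗ[ℝ] H :=
  Q - (2 : ℝ) • ((innerₛₗ ℝ (Q w)).smulRight (Q w))

theorem upd_apply (Q : H →ₗ[ℝ] H) (w x : H) :
    upd Q w x = Q x - (2 * inner ℝ (Q w) x) • Q w := by
  simp [upd, smul_smul]

theorem inner_upd (Q : H →ₗ[ℝ] H) (w x y : H) :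
    inner ℝ x (upd Q w y) = inner ℝ x (Q y) - 2 * inner ℝ (Q w) x * inner ℝ (Q w) y := by
  rw [upd_apply, inner_sub_right, inner_smul_right, real_inner_comm x (Q w)]
  ring

theorem sb_aux {θ : ℝ} (h0 : 0 < θ) (h1 : θ ≤ 1 / 2) (N : ℕ) :
    ∀ (v : Fin N → H) (Q : H →ₗ[ℝ] H), (∀ x y, inner ℝ (Q x) y = inner ℝ x (Q y)) →
      (∀ x, 0 ≤ inner ℝ x (Q x)) → (∀ x, inner ℝ x (Q x) ≤ θ * ‖x‖ ^ 2) →
      (∀ u, ∑ i, (inner ℝ u (v i)) ^ 2 ≤ ‖u‖ ^ 2) → (∀ i, ‖v i‖ ≤ 1) → ∀ b : H,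
      (∑ ε : Fin N → Bool, Real.exp (-(inner ℝ (b + ∑ i, sgn (ε i) • v i)
        (Q (b + ∑ i, sgn (ε i) • v i))))) ≤
        2 ^ N * Real.exp (-(∑ i, inner ℝ (v i) (Q (v i))) + 2 * θ ^ 2 * ∑ i, ‖v i‖ ^ 2) := by
  induction N with
  | zero =>
    intro v Q hs hp hu hb hv b
    simp only [Finset.univ_eq_empty, Finset.sum_empty, pow_zero, one_mul, add_zero, mul_zero,
      neg_zero, Real.exp_zero]
    rw [Fintype.sum_unique]
    have := hp b
    exact Real.exp_le_one_iff.mpr (by linarith)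
  | succ N ih =>
    intro v Q hs hp hu hb hv b
    rw [← (Fin.consEquiv (fun _ => Bool)).sum_comp, Fintype.sum_prod_type, Fintype.sum_bool,
      ← Finset.sum_add_distrib]
    have hstep : ∀ ε : Fin N → Bool,
        Real.exp (-(inner ℝ (b + ∑ i, sgn ((Fin.consEquiv (fun _ => Bool)) (true, ε) i) • v i)
          (Q (b + ∑ i, sgn ((Fin.consEquiv (fun _ => Bool)) (true, ε) i) • v i)))) +
        Real.exp (-(inner ℝ (b + ∑ i, sgn ((Fin.consEquiv (fun _ => Bool)) (false, ε) i) • v i)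
          (Q (b + ∑ i, sgn ((Fin.consEquiv (fun _ => Bool)) (false, ε) i) • v i)))) ≤
        2 * Real.exp (-(inner ℝ (v 0) (Q (v 0)))) *
          Real.exp (-(inner ℝ (b + ∑ i, sgn (ε i) • v i.succ)
            (upd Q (v 0) (b + ∑ i, sgn (ε i) • v i.succ)))) := by
      intro ε
      have e1 : ∀ c, b + ∑ i, sgn ((Fin.consEquiv (fun _ => Bool)) (c, ε) i) • v i =
          (b + ∑ i, sgn (ε i) • v i.succ) + sgn c • v 0 := by
        intro c
        rw [Fin.sum_univ_succ]
        simp only [Fin.consEquiv_apply, Fin.cons_zero, Fin.cons_succ]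
        abel
      rw [e1, e1]
      set b' := b + ∑ i, sgn (ε i) • v i.succ with hb'
      have e2 : ∀ s : ℝ, inner ℝ (b' + s • v 0) (Q (b' + s • v 0)) =
          inner ℝ b' (Q b') + 2 * s * inner ℝ (Q (v 0)) b' + s ^ 2 * inner ℝ (v 0) (Q (v 0)) := by
        intro s
        rw [map_add, map_smul, inner_add_left, inner_add_right, inner_add_right, inner_smul_left,
          inner_smul_left, inner_smul_right, inner_smul_right, ← hs (v 0) b',
          real_inner_comm (Q (v 0)) b']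
        simp only [conj_trivial]
        ring
      rw [e2, e2, inner_upd]
      simp only [sgn, if_true, Bool.false_eq_true, if_false]
      set t := inner ℝ (Q (v 0)) b' with ht
      set q0 := inner ℝ (v 0) (Q (v 0)) with hq0
      set qb := inner ℝ b' (Q b') with hqb
      have h3 : Real.exp (-(qb + 2 * 1 * t + 1 ^ 2 * q0)) + Real.exp (-(qb + 2 * -1 * t + (-1) ^ 2 * q0)) =
          Real.exp (-qb) * Real.exp (-q0) * (Real.exp (-(2 * t)) + Real.exp (2 * t)) := by
        rw [mul_add, ← Real.exp_add, ← Real.exp_add, ← Real.exp_add]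
        ring_nf
      rw [h3]
      have h4 : Real.exp (-(qb - 2 * t * t)) = Real.exp (-qb) * Real.exp (2 * t ^ 2) := by
        rw [← Real.exp_add]; ring_nf
      rw [h4]
      have h5 := two_exp_le t
      have h6 : 0 < Real.exp (-qb) * Real.exp (-q0) := by positivity
      nlinarith
    refine (Finset.sum_le_sum fun ε _ => hstep ε).trans ?_
    rw [← Finset.mul_sum]
    have hq0 : inner ℝ (v 0) (Q (v 0)) ≤ 1 / 2 := by
      have h := hu (v 0)
      have h' := hv 0
      have h'' : ‖v 0‖ ^ 2 ≤ 1 := by nlinarith [norm_nonneg (v 0)]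
      nlinarith
    have hs' : ∀ x y, inner ℝ (upd Q (v 0) x) y = inner ℝ x (upd Q (v 0) y) := by
      intro x y
      rw [real_inner_comm, inner_upd, inner_upd, ← hs y x, real_inner_comm (Q y) x]
      ring
    have hp' : ∀ x, 0 ≤ inner ℝ x (upd Q (v 0) x) := by
      intro x
      rw [inner_upd]
      set s := inner ℝ (Q (v 0)) x with hsd
      have h := hp (x - (2 * s) • v 0)
      have e : inner ℝ (x - (2 * s) • v 0) (Q (x - (2 * s) • v 0)) =
          inner ℝ x (Q x) - 4 * s ^ 2 + 4 * s ^ 2 * inner ℝ (v 0) (Q (v 0)) := by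
        rw [map_sub, map_smul, inner_sub_left, inner_sub_right, inner_sub_right, inner_smul_left,
          inner_smul_left, inner_smul_right, inner_smul_right, ← hs (v 0) x,
          real_inner_comm (Q (v 0)) x, ← hsd]
        simp only [conj_trivial]
        ring
      rw [e] at h
      nlinarith [sq_nonneg s]
    have hu' : ∀ x, inner ℝ x (upd Q (v 0) x) ≤ θ * ‖x‖ ^ 2 := by
      intro x
      rw [inner_upd]
      nlinarith [hu x, mul_self_nonneg (inner ℝ (Q (v 0)) x)]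
    have hb' : ∀ u, ∑ i : Fin N, (inner ℝ u (v i.succ)) ^ 2 ≤ ‖u‖ ^ 2 := by
      intro u
      have h := hb u
      rw [Fin.sum_univ_succ] at h
      nlinarith [sq_nonneg (inner ℝ u (v 0))]
    have key := ih (fun i => v i.succ) (upd Q (v 0)) hs' hp' hu' hb' (fun i => hv i.succ) b
    calc 2 * Real.exp (-(inner ℝ (v 0) (Q (v 0)))) *
        ∑ ε : Fin N → Bool, Real.exp (-(inner ℝ (b + ∑ i, sgn (ε i) • v i.succ)
            (upd Q (v 0) (b + ∑ i, sgn (ε i) • v i.succ))))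
        ≤ 2 * Real.exp (-(inner ℝ (v 0) (Q (v 0)))) *
          (2 ^ N * Real.exp (-(∑ i : Fin N, inner ℝ (v i.succ) (upd Q (v 0) (v i.succ))) +
            2 * θ ^ 2 * ∑ i : Fin N, ‖v i.succ‖ ^ 2)) := by
          refine mul_le_mul_of_nonneg_left key (by positivity)
      _ = 2 ^ (N + 1) * Real.exp (-(inner ℝ (v 0) (Q (v 0))) +
          (-(∑ i : Fin N, inner ℝ (v i.succ) (upd Q (v 0) (v i.succ))) +
            2 * θ ^ 2 * ∑ i : Fin N, ‖v i.succ‖ ^ 2)) := by
          rw [Real.exp_add (-(inner ℝ (v 0) (Q (v 0))))]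
          ring
      _ ≤ 2 ^ (N + 1) * Real.exp (-(∑ i, inner ℝ (v i) (Q (v i))) +
          2 * θ ^ 2 * ∑ i, ‖v i‖ ^ 2) := by
          refine mul_le_mul_of_nonneg_left (Real.exp_le_exp.mpr ?_) (by positivity)
          rw [Fin.sum_univ_succ, Fin.sum_univ_succ]
          have e3 : ∑ i : Fin N, inner ℝ (v i.succ) (upd Q (v 0) (v i.succ)) =
              ∑ i : Fin N, inner ℝ (v i.succ) (Q (v i.succ)) -
                2 * ∑ i : Fin N, (inner ℝ (Q (v 0)) (v i.succ)) ^ 2 := by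
            rw [Finset.mul_sum, ← Finset.sum_sub_distrib]
            refine Finset.sum_congr rfl fun i _ => ?_
            rw [inner_upd]
            ring
          have e4 := hb' (Q (v 0))
          have e5 := norm_le_of_psd Q h0 hs hp hu (v 0)
          rw [e3]
          nlinarith

end SB

/-- value of a bit -/
def bit (b : Bool) : ℝ := if b then 1 else 0

theorem two_bit (b : Bool) : 2 * bit b = 1 + sgn b := by
  cases b <;> simp [bit, sgn]; norm_num

/-- **Small ball for projections of cube points.** -/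
theorem small_ball {N : ℕ} {I : Type*} [Fintype I] [DecidableEq I] (u : I → Fin N → ℝ)
    (hu : ∀ i i', ∑ l, u i l * u i' l = if i = i' then 1 else 0) (R : ℝ) :
    ((Finset.univ.filter fun x : Fin N → Bool =>
      ∑ i, (∑ l, u i l * bit (x l)) ^ 2 ≤ R).card : ℝ) ≤
      2 ^ N * Real.exp (R - Fintype.card I / 8) := by
  classical
  set v : Fin N → EuclideanSpace ℝ I := fun l => WithLp.toLp 2 fun i => u i l with hv
  set Q : EuclideanSpace ℝ I →ₗ[ℝ] EuclideanSpace ℝ I := (1 / 4 : ℝ) • LinearMap.id with hQ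
  have hQa : ∀ x, Q x = (1 / 4 : ℝ) • x := fun x => by simp [hQ]
  have hin : ∀ w : EuclideanSpace ℝ I, ∀ l, inner ℝ w (v l) = ∑ i, w i * u i l := by
    intro w l
    rw [PiLp.inner_apply]
    refine Finset.sum_congr rfl fun i _ => ?_
    simp [hv, mul_comm]
  have hbes : ∀ w : EuclideanSpace ℝ I, ∑ l, (inner ℝ w (v l)) ^ 2 = ‖w‖ ^ 2 := by
    intro w
    rw [EuclideanSpace.norm_sq_eq]
    simp_rw [hin, sq, Finset.sum_mul_sum]
    rw [Finset.sum_comm]
    refine Finset.sum_congr rfl fun i _ => ?_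
    rw [Finset.sum_comm]
    have : ∀ i', ∑ l, w i * u i l * (w i' * u i' l) = w i * w i' * (if i = i' then 1 else 0) := by
      intro i'
      rw [← hu i i', Finset.mul_sum]
      refine Finset.sum_congr rfl fun l _ => ?_
      ring
    simp_rw [this]
    simp
  have hvn : ∀ l, ‖v l‖ ≤ 1 := by
    intro l
    have h1 : (inner ℝ (v l) (v l)) ^ 2 ≤ ‖v l‖ ^ 2 := by
      rw [← hbes (v l)]
      exact Finset.single_le_sum (f := fun l' => (inner ℝ (v l) (v l')) ^ 2)
        (fun l' _ => sq_nonneg _) (Finset.mem_univ l)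
    rw [real_inner_self_eq_norm_sq] at h1
    by_contra h
    push Not at h
    have h2 : 1 < ‖v l‖ ^ 2 := by nlinarith
    nlinarith
  have hsum : ∑ l, ‖v l‖ ^ 2 = Fintype.card I := by
    simp_rw [EuclideanSpace.norm_sq_eq]
    rw [Finset.sum_comm]
    have : ∀ i, ∑ l, ‖v l i‖ ^ 2 = 1 := by
      intro i
      have h := hu i i
      simp only [if_true] at h
      rw [← h]
      refine Finset.sum_congr rfl fun l _ => ?_
      rw [Real.norm_eq_abs, sq_abs, sq]
    simp_rw [this]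
    simp
  have key := sb_aux (θ := 1 / 4) (by norm_num) (by norm_num) N v Q
    (fun x y => by rw [hQa, hQa, inner_smul_left, inner_smul_right]; simp)
    (fun x => by rw [hQa, inner_smul_right, real_inner_self_eq_norm_sq]; positivity)
    (fun x => by rw [hQa, inner_smul_right, real_inner_self_eq_norm_sq])
    (fun w => (hbes w).le) hvn (∑ l, v l)
  have e1 : ∀ x : Fin N → Bool, inner ℝ (∑ l, v l + ∑ l, sgn (x l) • v l)
      (Q (∑ l, v l + ∑ l, sgn (x l) • v l)) = ∑ i, (∑ l, u i l * bit (x l)) ^ 2 := by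
    intro x
    have h1 : ∑ l, v l + ∑ l, sgn (x l) • v l = (2 : ℝ) • ∑ l, bit (x l) • v l := by
      rw [Finset.smul_sum, ← Finset.sum_add_distrib]
      refine Finset.sum_congr rfl fun l _ => ?_
      rw [smul_smul, two_bit, add_smul, one_smul]
    rw [h1, hQa, inner_smul_right, real_inner_self_eq_norm_sq, norm_smul, mul_pow,
      EuclideanSpace.norm_sq_eq]
    have h2 : ∀ i, ‖(∑ l, bit (x l) • v l) i‖ ^ 2 = (∑ l, u i l * bit (x l)) ^ 2 := by
      intro i
      rw [Real.norm_eq_abs, sq_abs, WithLp.ofLp_sum, Finset.sum_apply]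
      congr 1
      refine Finset.sum_congr rfl fun l _ => ?_
      simp [hv, mul_comm]
    simp_rw [h2]
    norm_num
    ring
  simp_rw [e1] at key
  have e2 : ∑ l, inner ℝ (v l) (Q (v l)) = (Fintype.card I : ℝ) / 4 := by
    simp_rw [hQa, inner_smul_right, real_inner_self_eq_norm_sq]
    rw [← Finset.mul_sum, hsum]
    ring
  rw [e2, hsum] at key
  have e3 : -((Fintype.card I : ℝ) / 4) + 2 * (1 / 4 : ℝ) ^ 2 * (Fintype.card I : ℝ) =
      -((Fintype.card I : ℝ) / 8) := by ring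
  rw [e3] at key
  have h4 : ((Finset.univ.filter fun x : Fin N → Bool =>
      ∑ i, (∑ l, u i l * bit (x l)) ^ 2 ≤ R).card : ℝ) * Real.exp (-R) ≤
      2 ^ N * Real.exp (-((Fintype.card I : ℝ) / 8)) := by
    refine le_trans ?_ key
    rw [← nsmul_eq_mul, ← Finset.sum_const]
    refine le_trans (Finset.sum_le_sum (g := fun x : Fin N → Bool =>
      Real.exp (-∑ i, (∑ l, u i l * bit (x l)) ^ 2)) fun x hx => ?_) ?_
    · rw [Finset.mem_filter] at hx
      exact Real.exp_le_exp.mpr (by linarith [hx.2])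
    · exact Finset.sum_le_sum_of_subset_of_nonneg (Finset.filter_subset _ _)
        (fun _ _ _ => (Real.exp_pos _).le)
  have h5 : 2 ^ N * Real.exp (R - (Fintype.card I : ℝ) / 8) =
      (2 ^ N * Real.exp (-((Fintype.card I : ℝ) / 8))) * Real.exp R := by
    rw [mul_assoc, ← Real.exp_add]; ring_nf
  rw [h5]
  have h6 : Real.exp (-R) * Real.exp R = 1 := by rw [← Real.exp_add]; simp
  calc ((Finset.univ.filter fun x : Fin N → Bool =>
      ∑ i, (∑ l, u i l * bit (x l)) ^ 2 ≤ R).card : ℝ)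
      = ((Finset.univ.filter fun x : Fin N → Bool =>
      ∑ i, (∑ l, u i l * bit (x l)) ^ 2 ≤ R).card : ℝ) * Real.exp (-R) * Real.exp R := by
        rw [mul_assoc, h6, mul_one]
    _ ≤ _ := mul_le_mul_of_nonneg_right h4 (Real.exp_pos _).le

/-! ## Small eigenvalues -/

section Eig

variable {n : ℕ} {A : Matrix (Fin n) (Fin n) ℝ} (hA : A.IsHermitian)

/-- number of eigenvalues of absolute value at most `Λ` -/
noncomputable def sm (Λ : ℝ) : ℕ := Fintype.card {i // |hA.eigenvalues i| ≤ Λ}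

/-- eigenvectors as functions -/
noncomputable def U (i : Fin n) : Fin n → ℝ := fun l => hA.eigenvectorBasis i l

theorem U_orth (i i' : Fin n) : ∑ l, U hA i l * U hA i' l = if i = i' then 1 else 0 := by
  have h := orthonormal_iff_ite.mp hA.eigenvectorBasis.orthonormal i i'
  rw [PiLp.inner_apply] at h
  rw [← h]
  refine Finset.sum_congr rfl fun l _ => ?_
  simp [U, mul_comm]

theorem U_parseval (w : Fin n → ℝ) : ∑ i, (∑ l, U hA i l * w l) ^ 2 = ∑ l, (w l) ^ 2 := by
  have h := hA.eigenvectorBasis.sum_sq_norm_inner_right (WithLp.toLp 2 w)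
  rw [EuclideanSpace.norm_sq_eq] at h
  have h2 : ∀ i, ‖inner ℝ (hA.eigenvectorBasis i) (WithLp.toLp 2 w)‖ ^ 2 =
      (∑ l, U hA i l * w l) ^ 2 := by
    intro i
    rw [Real.norm_eq_abs, sq_abs, PiLp.inner_apply]
    congr 1
    refine Finset.sum_congr rfl fun l _ => ?_
    simp [U, mul_comm]
  simp_rw [h2] at h
  rw [h]
  refine Finset.sum_congr rfl fun l _ => ?_
  rw [Real.norm_eq_abs, sq_abs]

include hA in
theorem A_symm (i j : Fin n) : A i j = A j i := by
  have := hA.apply i j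
  simpa using this.symm

theorem U_eig (i l : Fin n) : ∑ l', A l l' * U hA i l' = hA.eigenvalues i * U hA i l := by
  have h := congrFun (hA.mulVec_eigenvectorBasis i) l
  simpa [Matrix.mulVec, dotProduct, U] using h

theorem U_mul (i : Fin n) (w : Fin n → ℝ) :
    ∑ l, U hA i l * (∑ l', A l l' * w l') = hA.eigenvalues i * ∑ l, U hA i l * w l := by
  simp_rw [Finset.mul_sum]
  rw [Finset.sum_comm]
  refine Finset.sum_congr rfl fun l' _ => ?_
  have h := U_eig hA i l'
  calc ∑ l, U hA i l * (A l l' * w l') = (∑ l, A l' l * U hA i l) * w l' := by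
        rw [Finset.sum_mul]
        refine Finset.sum_congr rfl fun l _ => ?_
        rw [A_symm hA l' l]; ring
    _ = _ := by rw [h]; ring

theorem A_norm (w : Fin n → ℝ) : ∑ l, (∑ l', A l l' * w l') ^ 2 =
    ∑ i, (hA.eigenvalues i) ^ 2 * (∑ l, U hA i l * w l) ^ 2 := by
  rw [← U_parseval hA (fun l => ∑ l', A l l' * w l')]
  refine Finset.sum_congr rfl fun i _ => ?_
  rw [U_mul, mul_pow]

/-- combination of small eigenvectors -/
noncomputable def comb (Λ : ℝ) (c : {i // |hA.eigenvalues i| ≤ Λ} → ℝ) : Fin n → ℝ :=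
  fun l => ∑ i, c i * U hA i.1 l

theorem U_comb (Λ : ℝ) (c : {i // |hA.eigenvalues i| ≤ Λ} → ℝ) (i : Fin n) :
    ∑ l, U hA i l * comb hA Λ c l = if h : |hA.eigenvalues i| ≤ Λ then c ⟨i, h⟩ else 0 := by
  classical
  unfold comb
  simp_rw [Finset.mul_sum]
  rw [Finset.sum_comm]
  have h1 : ∀ i' : {i // |hA.eigenvalues i| ≤ Λ}, ∑ l, U hA i l * (c i' * U hA i'.1 l) =
      c i' * (if i = i'.1 then 1 else 0) := by
    intro i'
    rw [← U_orth hA i i'.1, Finset.mul_sum]
    refine Finset.sum_congr rfl fun l _ => ?_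
    ring
  simp_rw [h1]
  split_ifs with h
  · rw [Finset.sum_eq_single ⟨i, h⟩]
    · simp
    · intro b _ hb
      rw [if_neg, mul_zero]
      intro h'
      exact hb (Subtype.ext h'.symm)
    · simp
  · refine Finset.sum_eq_zero fun i' _ => ?_
    rw [if_neg, mul_zero]
    intro h'
    exact h (h' ▸ i'.2)

theorem comb_norm (Λ : ℝ) (c : {i // |hA.eigenvalues i| ≤ Λ} → ℝ) :
    ∑ l, (comb hA Λ c l) ^ 2 = ∑ i, (c i) ^ 2 := by
  have h1 : ∀ l, (comb hA Λ c l) ^ 2 = ∑ i, c i * (U hA i.1 l * comb hA Λ c l) := by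
    intro l
    rw [sq]
    change (∑ i, c i * U hA i.1 l) * comb hA Λ c l = _
    rw [Finset.sum_mul]
    refine Finset.sum_congr rfl fun i _ => ?_
    ring
  simp_rw [h1]
  rw [Finset.sum_comm]
  refine Finset.sum_congr rfl fun i _ => ?_
  rw [← Finset.mul_sum, U_comb, dif_pos i.2]
  ring

theorem A_comb (Λ : ℝ) (c : {i // |hA.eigenvalues i| ≤ Λ} → ℝ) :
    ∑ l, (∑ l', A l l' * comb hA Λ c l') ^ 2 ≤ Λ ^ 2 * ∑ l, (comb hA Λ c l) ^ 2 := by
  rw [A_norm hA, ← U_parseval hA, Finset.mul_sum]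
  refine Finset.sum_le_sum fun i _ => ?_
  rw [U_comb]
  split_ifs with h
  · refine mul_le_mul_of_nonneg_right ?_ (sq_nonneg _)
    rw [← sq_abs]
    exact pow_le_pow_left₀ (abs_nonneg _) h 2
  · simp

end Eig

/-! ## Removing one row and column -/

section Remove

variable {m : ℕ} {A : Matrix (Fin (m + 1)) (Fin (m + 1)) ℝ} (hA : A.IsHermitian)

theorem sum_succAbove_le (j : Fin (m + 1)) (f : Fin (m + 1) → ℝ) (hf : ∀ l, 0 ≤ f l) :
    ∑ l, f (j.succAbove l) ≤ ∑ l, f l := by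
  rw [Fin.sum_univ_succAbove f j]
  linarith [hf j]

theorem interlace (j : Fin (m + 1)) (hA' : (A.submatrix j.succAbove j.succAbove).IsHermitian)
    (Λ : ℝ) (h0 : 0 ≤ Λ) : sm hA Λ ≤ sm hA' Λ + 1 := by
  classical
  by_contra hcon
  push Not at hcon
  set f : ({i // |hA.eigenvalues i| ≤ Λ} → ℝ) →ₗ[ℝ] ℝ × ({i // |hA'.eigenvalues i| ≤ Λ} → ℝ) :=
    { toFun := fun c => (comb hA Λ c j,
        fun i => ∑ l, U hA' i.1 l * comb hA Λ c (j.succAbove l))
      map_add' := by
        intro c d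
        have h : ∀ l, comb hA Λ (c + d) l = comb hA Λ c l + comb hA Λ d l := by
          intro l
          unfold comb
          rw [← Finset.sum_add_distrib]
          refine Finset.sum_congr rfl fun i _ => ?_
          simp [add_mul]
        ext i
        · simp [h]
        · simp only [h, mul_add, Finset.sum_add_distrib, Prod.snd_add, Pi.add_apply]
      map_smul' := by
        intro r c
        have h : ∀ l, comb hA Λ (r • c) l = r * comb hA Λ c l := by
          intro l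
          unfold comb
          rw [Finset.mul_sum]
          refine Finset.sum_congr rfl fun i _ => ?_
          simp [mul_assoc]
        ext i
        · simp [h]
        · simp only [h, RingHom.id_apply, Prod.smul_snd, Pi.smul_apply, smul_eq_mul,
            Finset.mul_sum]
          refine Finset.sum_congr rfl fun l _ => ?_
          ring } with hf
  have hdim : Module.finrank ℝ (ℝ × ({i // |hA'.eigenvalues i| ≤ Λ} → ℝ)) <
      Module.finrank ℝ ({i // |hA.eigenvalues i| ≤ Λ} → ℝ) := by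
    rw [Module.finrank_prod, Module.finrank_self, Module.finrank_fintype_fun_eq_card,
      Module.finrank_fintype_fun_eq_card]
    unfold sm at hcon
    omega
  obtain ⟨c, hc, hc0⟩ := (Submodule.ne_bot_iff _).mp (LinearMap.ker_ne_bot_of_finrank_lt hdim (f := f))
  rw [LinearMap.mem_ker] at hc
  have hj : comb hA Λ c j = 0 := congrArg Prod.fst hc
  have hi : ∀ i : {i // |hA'.eigenvalues i| ≤ Λ},
      ∑ l, U hA' i.1 l * comb hA Λ c (j.succAbove l) = 0 := fun i =>
    congrFun (congrArg Prod.snd hc) i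
  set v' : Fin m → ℝ := fun l => comb hA Λ c (j.succAbove l) with hv'
  have hn : ∑ l, (v' l) ^ 2 = ∑ l, (comb hA Λ c l) ^ 2 := by
    rw [Fin.sum_univ_succAbove (fun l => (comb hA Λ c l) ^ 2) j, hj]
    simp [hv']
  have hpos : 0 < ∑ l, (v' l) ^ 2 := by
    rw [hn, comb_norm]
    have : ∃ i, c i ≠ 0 := by
      by_contra h
      push Not at h
      exact hc0 (funext h)
    obtain ⟨i, hci⟩ := this
    exact Finset.sum_pos' (fun _ _ => sq_nonneg _) ⟨i, Finset.mem_univ _, by positivity⟩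
  have hAv : ∀ l, ∑ l', (A.submatrix j.succAbove j.succAbove) l l' * v' l' =
      ∑ l', A (j.succAbove l) l' * comb hA Λ c l' := by
    intro l
    rw [Fin.sum_univ_succAbove (fun l' => A (j.succAbove l) l' * comb hA Λ c l') j, hj]
    simp [hv']
  have h1 : ∑ l, (∑ l', (A.submatrix j.succAbove j.succAbove) l l' * v' l') ^ 2 ≤
      Λ ^ 2 * ∑ l, (v' l) ^ 2 := by
    simp_rw [hAv]
    rw [hn]
    refine le_trans ?_ (A_comb hA Λ c)
    exact sum_succAbove_le j (fun l => (∑ l', A l l' * comb hA Λ c l') ^ 2) (fun _ => sq_nonneg _)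
  rw [A_norm hA', ← U_parseval hA' v', Finset.mul_sum] at h1
  rw [← U_parseval hA' v'] at hpos
  obtain ⟨i, -, hi0⟩ := (Finset.sum_pos_iff_of_nonneg (fun _ _ => sq_nonneg _)).mp hpos
  have hlt : ∑ i, Λ ^ 2 * (∑ l, U hA' i l * v' l) ^ 2 <
      ∑ i, (hA'.eigenvalues i) ^ 2 * (∑ l, U hA' i l * v' l) ^ 2 := by
    refine Finset.sum_lt_sum (fun i _ => ?_) ⟨i, Finset.mem_univ _, ?_⟩
    · by_cases h : |hA'.eigenvalues i| ≤ Λ
      · have := hi ⟨i, h⟩
        simp only at this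
        rw [this]; simp
      · push Not at h
        refine mul_le_mul_of_nonneg_right ?_ (sq_nonneg _)
        rw [← sq_abs (hA'.eigenvalues i)]
        exact pow_le_pow_left₀ h0 h.le 2
    · have h : ¬ |hA'.eigenvalues i| ≤ Λ := by
        intro h
        have := hi ⟨i, h⟩
        simp only at this
        rw [this] at hi0
        simp at hi0
      push Not at h
      refine mul_lt_mul_of_pos_right ?_ hi0
      rw [← sq_abs (hA'.eigenvalues i)]
      exact pow_lt_pow_left₀ h h0 (by norm_num)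
  linarith

theorem key (Λ : ℝ) (hk : 0 < sm hA Λ) :
    ∃ j : Fin (m + 1), ∀ hA' : (A.submatrix j.succAbove j.succAbove).IsHermitian,
      ∑ i : {i // |hA'.eigenvalues i| ≤ Λ}, (∑ l, U hA' i.1 l * A (j.succAbove l) j) ^ 2 ≤
        4 * Λ ^ 2 * (m + 1) / sm hA Λ := by
  classical
  have hkR : (0 : ℝ) < sm hA Λ := by exact_mod_cast hk
  obtain ⟨j, hj⟩ : ∃ j : Fin (m + 1), (sm hA Λ : ℝ) / (m + 1) ≤
      ∑ i : {i // |hA.eigenvalues i| ≤ Λ}, (U hA i.1 j) ^ 2 := by
    by_contra hcon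
    push Not at hcon
    have h1 : ∑ j : Fin (m + 1), ∑ i : {i // |hA.eigenvalues i| ≤ Λ}, (U hA i.1 j) ^ 2 <
        ∑ _j : Fin (m + 1), (sm hA Λ : ℝ) / (m + 1) :=
      Finset.sum_lt_sum_of_nonempty ⟨0, Finset.mem_univ _⟩ fun j _ => hcon j
    rw [Finset.sum_comm] at h1
    have h2 : ∀ i : {i // |hA.eigenvalues i| ≤ Λ}, ∑ j, (U hA i.1 j) ^ 2 = 1 := by
      intro i
      have := U_orth hA i.1 i.1
      rw [if_pos rfl] at this
      rw [← this]
      exact Finset.sum_congr rfl fun l _ => sq _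
    simp_rw [h2] at h1
    simp only [Finset.sum_const, Finset.card_univ, nsmul_eq_mul, mul_one, Fintype.card_fin] at h1
    rw [show (Fintype.card {i // |hA.eigenvalues i| ≤ Λ} : ℝ) = (sm hA Λ : ℝ) from rfl] at h1
    push_cast at h1
    have h3 : ((m : ℝ) + 1) * ((sm hA Λ : ℝ) / (m + 1)) = sm hA Λ := by
      field_simp
    linarith
  refine ⟨j, fun hA' => ?_⟩
  set c : {i // |hA.eigenvalues i| ≤ Λ} → ℝ := fun i => U hA i.1 j with hc
  set τ : ℝ := ∑ i : {i // |hA.eigenvalues i| ≤ Λ}, (U hA i.1 j) ^ 2 with hτ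
  have hτ0 : 0 < τ := lt_of_lt_of_le (by positivity) hj
  set v : Fin (m + 1) → ℝ := comb hA Λ c with hv
  have hvj : v j = τ := by
    rw [hv, hτ]
    unfold comb
    exact Finset.sum_congr rfl fun i _ => by rw [hc]; ring
  have hvn : ∑ l, (v l) ^ 2 = τ := by rw [hv, comb_norm]
  set w : Fin m → ℝ := fun l => ∑ l', A (j.succAbove l) l' * v l' with hw
  have hwn : ∑ l, (w l) ^ 2 ≤ Λ ^ 2 * τ := by
    rw [← hvn]
    refine le_trans ?_ (A_comb hA Λ c)
    exact sum_succAbove_le j (fun l => (∑ l', A l l' * v l') ^ 2) (fun _ => sq_nonneg _)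
  set v' : Fin m → ℝ := fun l => v (j.succAbove l) with hv'
  have hv'n : ∑ l, (v' l) ^ 2 ≤ τ := by
    rw [← hvn]
    exact sum_succAbove_le j (fun l => (v l) ^ 2) (fun _ => sq_nonneg _)
  have hw2 : ∀ l, w l = ∑ l', (A.submatrix j.succAbove j.succAbove) l l' * v' l' +
      τ * A (j.succAbove l) j := by
    intro l
    rw [hw]
    simp only
    rw [Fin.sum_univ_succAbove (fun l' => A (j.succAbove l) l' * v l') j, hvj]
    simp only [Matrix.submatrix_apply, hv']
    ring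
  have hiw : ∀ i, ∑ l, U hA' i l * w l = hA'.eigenvalues i * ∑ l, U hA' i l * v' l +
      τ * ∑ l, U hA' i l * A (j.succAbove l) j := by
    intro i
    rw [← U_mul hA' i v', Finset.mul_sum, ← Finset.sum_add_distrib]
    refine Finset.sum_congr rfl fun l _ => ?_
    rw [hw2]
    ring
  have hstep : ∀ i : {i // |hA'.eigenvalues i| ≤ Λ},
      τ ^ 2 * (∑ l, U hA' i.1 l * A (j.succAbove l) j) ^ 2 ≤
        2 * (∑ l, U hA' i.1 l * w l) ^ 2 + 2 * Λ ^ 2 * (∑ l, U hA' i.1 l * v' l) ^ 2 := by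
    intro i
    have h1 := hiw i.1
    set a := ∑ l, U hA' i.1 l * w l
    set b := ∑ l, U hA' i.1 l * v' l
    set x := ∑ l, U hA' i.1 l * A (j.succAbove l) j
    have h2 : τ * x = a - hA'.eigenvalues i.1 * b := by linarith
    have h3 : (hA'.eigenvalues i.1) ^ 2 ≤ Λ ^ 2 := by
      rw [← sq_abs (hA'.eigenvalues i.1)]
      exact pow_le_pow_left₀ (abs_nonneg _) i.2 2
    have h4 : (hA'.eigenvalues i.1) ^ 2 * b ^ 2 ≤ Λ ^ 2 * b ^ 2 :=
      mul_le_mul_of_nonneg_right h3 (sq_nonneg _)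
    calc τ ^ 2 * x ^ 2 = (τ * x) ^ 2 := by ring
      _ = (a - hA'.eigenvalues i.1 * b) ^ 2 := by rw [h2]
      _ ≤ 2 * a ^ 2 + 2 * ((hA'.eigenvalues i.1) ^ 2 * b ^ 2) := by
          nlinarith [sq_nonneg (a + hA'.eigenvalues i.1 * b)]
      _ ≤ _ := by linarith
  have hsub : ∀ g : Fin m → ℝ, (∀ i, 0 ≤ g i) →
      ∑ i : {i // |hA'.eigenvalues i| ≤ Λ}, g i.1 ≤ ∑ i, g i := by
    intro g hg
    rw [← Finset.sum_subtype (Finset.univ.filter fun i => |hA'.eigenvalues i| ≤ Λ) (by simp)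
      (fun i => g i)]
    exact Finset.sum_le_sum_of_subset_of_nonneg (Finset.filter_subset _ _) fun _ _ _ => hg _
  have hS : τ ^ 2 * ∑ i : {i // |hA'.eigenvalues i| ≤ Λ},
      (∑ l, U hA' i.1 l * A (j.succAbove l) j) ^ 2 ≤ 4 * Λ ^ 2 * τ := by
    rw [Finset.mul_sum]
    refine (Finset.sum_le_sum fun i _ => hstep i).trans ?_
    rw [Finset.sum_add_distrib, ← Finset.mul_sum, ← Finset.mul_sum]
    have h1 := hsub (fun i => (∑ l, U hA' i l * w l) ^ 2) (fun _ => sq_nonneg _)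
    have h2 := hsub (fun i => (∑ l, U hA' i l * v' l) ^ 2) (fun _ => sq_nonneg _)
    rw [U_parseval hA' w] at h1
    rw [U_parseval hA' v'] at h2
    have h3 : Λ ^ 2 * ∑ i : {i // |hA'.eigenvalues i| ≤ Λ}, (∑ l, U hA' i.1 l * v' l) ^ 2 ≤
        Λ ^ 2 * τ := mul_le_mul_of_nonneg_left (h2.trans hv'n) (sq_nonneg _)
    nlinarith
  have h5 : τ * ∑ i : {i // |hA'.eigenvalues i| ≤ Λ},
      (∑ l, U hA' i.1 l * A (j.succAbove l) j) ^ 2 ≤ 4 * Λ ^ 2 := by
    have : τ * (τ * ∑ i : {i // |hA'.eigenvalues i| ≤ Λ},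
      (∑ l, U hA' i.1 l * A (j.succAbove l) j) ^ 2) ≤ τ * (4 * Λ ^ 2) := by nlinarith
    exact le_of_mul_le_mul_left this hτ0
  rw [le_div_iff₀ hkR]
  set S := ∑ i : {i // |hA'.eigenvalues i| ≤ Λ}, (∑ l, U hA' i.1 l * A (j.succAbove l) j) ^ 2
  have hS0 : 0 ≤ S := Finset.sum_nonneg fun _ _ => sq_nonneg _
  have hj' : (sm hA Λ : ℝ) ≤ (m + 1) * τ := by
    rw [div_le_iff₀ (by positivity)] at hj
    linarith
  calc S * sm hA Λ ≤ S * ((m + 1) * τ) := mul_le_mul_of_nonneg_left hj' hS0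
    _ = (m + 1) * (τ * S) := by ring
    _ ≤ (m + 1) * (4 * Λ ^ 2) := mul_le_mul_of_nonneg_left h5 (by positivity)
    _ = 4 * Λ ^ 2 * (m + 1) := by ring

end Remove

/-! ## Counting -/

/-- the symmetric 0/1 matrix of a bit array -/
def mat {n : ℕ} (b : Sym2 (Fin n) → Bool) : Matrix (Fin n) (Fin n) ℝ := fun i j => bit (b s(i, j))

theorem mat_herm {n : ℕ} (b : Sym2 (Fin n) → Bool) : (mat b).IsHermitian := by
  ext i j
  rw [Matrix.conjTranspose_apply]
  simp only [mat, star_trivial]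
  rw [Sym2.eq_swap]

/-- removing row and column `j` -/
def subB {m : ℕ} (j : Fin (m + 1)) (b : Sym2 (Fin (m + 1)) → Bool) : Sym2 (Fin m) → Bool :=
  fun e => b (e.map j.succAbove)

theorem mat_subB {m : ℕ} (j : Fin (m + 1)) (b : Sym2 (Fin (m + 1)) → Bool) :
    mat (subB j b) = (mat b).submatrix j.succAbove j.succAbove := by
  ext i i'
  simp [mat, subB]

/-- the removed row -/
def rowB {m : ℕ} (j : Fin (m + 1)) (b : Sym2 (Fin (m + 1)) → Bool) : Fin m → Bool :=
  fun i => b s(j.succAbove i, j)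

theorem parts_injective {m : ℕ} (j : Fin (m + 1)) :
    Function.Injective fun b : Sym2 (Fin (m + 1)) → Bool => ((subB j b, rowB j b), b s(j, j)) := by
  intro b b' h
  simp only [Prod.mk.injEq] at h
  obtain ⟨⟨h1, h2⟩, h3⟩ := h
  funext e
  induction e using Sym2.ind with
  | _ x y =>
    rcases Fin.eq_self_or_eq_succAbove j x with hx | ⟨x', hx⟩ <;>
    rcases Fin.eq_self_or_eq_succAbove j y with hy | ⟨y', hy⟩
    · rw [hx, hy]; exact h3
    · rw [hx, hy, Sym2.eq_swap]; exact congrFun h2 y'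
    · rw [hx, hy]; exact congrFun h2 x'
    · rw [hx, hy]
      have := congrFun h1 s(x', y')
      simpa [subB] using this

/-- bit arrays whose matrix has at least `k` small eigenvalues -/
noncomputable def bad (Λ : ℝ) (m k : ℕ) : Finset (Sym2 (Fin m) → Bool) :=
  Finset.univ.filter fun b => k ≤ sm (mat_herm b) Λ

/-- rows with small projection -/
noncomputable def badRow (Λ R : ℝ) {m : ℕ} (b : Sym2 (Fin m) → Bool) : Finset (Fin m → Bool) :=
  Finset.univ.filter fun x =>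
    ∑ i : {i // |(mat_herm b).eigenvalues i| ≤ Λ}, (∑ l, U (mat_herm b) i.1 l * bit (x l)) ^ 2 ≤ R

theorem card_badRow (Λ R : ℝ) {m : ℕ} (b : Sym2 (Fin m) → Bool) :
    ((badRow Λ R b).card : ℝ) ≤ 2 ^ m * Real.exp (R - (sm (mat_herm b) Λ : ℝ) / 8) := by
  classical
  have h := small_ball (N := m) (fun i : {i // |(mat_herm b).eigenvalues i| ≤ Λ} =>
    U (mat_herm b) i.1) (fun i i' => by
      rw [U_orth]
      simp only [Subtype.ext_iff]) R
  unfold badRow sm
  convert h using 3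

theorem card_sym2_succ (m : ℕ) :
    Fintype.card (Sym2 (Fin (m + 1))) = Fintype.card (Sym2 (Fin m)) + m + 1 := by
  have h := Nat.choose_succ_succ' (m + 1) 1
  rw [Nat.choose_one_right] at h
  rw [Sym2.card, Sym2.card, Fintype.card_fin, Fintype.card_fin]
  simp only [Nat.reduceAdd] at h
  omega

theorem bad_step (Λ : ℝ) (h0 : 0 ≤ Λ) (m k : ℕ) (hk : 1 ≤ k) :
    ((bad Λ (m + 1) k).card : ℝ) ≤
      (m + 1) * (2 * (2 ^ m * Real.exp (4 * Λ ^ 2 * (m + 1) / k - ((k : ℝ) - 1) / 8) *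
        (bad Λ m (k - 1)).card)) := by
  classical
  set R : ℝ := 4 * Λ ^ 2 * (m + 1) / k with hR
  -- covering
  set T : Finset ((Sym2 (Fin m) → Bool) × (Fin m → Bool)) :=
    (bad Λ m (k - 1)).biUnion fun b' => (badRow Λ R b').image fun x => (b', x) with hT
  have hTc : (T.card : ℝ) ≤ 2 ^ m * Real.exp (R - ((k : ℝ) - 1) / 8) *
      (bad Λ m (k - 1)).card := by
    have h1 : (T.card : ℝ) ≤ ∑ b' ∈ bad Λ m (k - 1), ((badRow Λ R b').card : ℝ) := by
      have h2 : T.card ≤ ∑ b' ∈ bad Λ m (k - 1), (badRow Λ R b').card :=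
        Finset.card_biUnion_le.trans (Finset.sum_le_sum fun _ _ => Finset.card_image_le)
      exact_mod_cast h2
    refine h1.trans ?_
    have h3 : ∀ b' ∈ bad Λ m (k - 1), ((badRow Λ R b').card : ℝ) ≤
        2 ^ m * Real.exp (R - ((k : ℝ) - 1) / 8) := by
      intro b' hb'
      refine (card_badRow Λ R b').trans ?_
      refine mul_le_mul_of_nonneg_left (Real.exp_le_exp.mpr ?_) (by positivity)
      have h4 : k - 1 ≤ sm (mat_herm b') Λ := (Finset.mem_filter.mp hb').2
      have h5 : (k : ℝ) - 1 ≤ sm (mat_herm b') Λ := by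
        have : ((k - 1 : ℕ) : ℝ) ≤ sm (mat_herm b') Λ := by exact_mod_cast h4
        rw [Nat.cast_sub hk] at this
        simpa using this
      linarith
    refine (Finset.sum_le_sum h3).trans ?_
    rw [Finset.sum_const, nsmul_eq_mul]
    apply le_of_eq
    ring
  have hcov : bad Λ (m + 1) k ⊆ (Finset.univ : Finset (Fin (m + 1))).biUnion fun j =>
      Finset.univ.filter fun b => (subB j b, rowB j b) ∈ T := by
    intro b hb
    have hkb : k ≤ sm (mat_herm b) Λ := (Finset.mem_filter.mp hb).2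
    obtain ⟨j, hj⟩ := key (mat_herm b) Λ (by omega)
    rw [Finset.mem_biUnion]
    refine ⟨j, Finset.mem_univ _, ?_⟩
    rw [Finset.mem_filter]
    refine ⟨Finset.mem_univ _, ?_⟩
    have hH : ((mat b).submatrix j.succAbove j.succAbove).IsHermitian := by
      rw [← mat_subB]; exact mat_herm _
    rw [hT, Finset.mem_biUnion]
    have hgen : ∀ (A' : Matrix (Fin m) (Fin m) ℝ) (e : mat (subB j b) = A') (hA' : A'.IsHermitian),
        sm (mat_herm (subB j b)) Λ = sm hA' Λ ∧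
        ∑ i : {i // |(mat_herm (subB j b)).eigenvalues i| ≤ Λ},
          (∑ l, U (mat_herm (subB j b)) i.1 l * mat b (j.succAbove l) j) ^ 2 =
        ∑ i : {i // |hA'.eigenvalues i| ≤ Λ}, (∑ l, U hA' i.1 l * mat b (j.succAbove l) j) ^ 2 := by
      intro A' e hA'
      subst e
      exact ⟨rfl, rfl⟩
    obtain ⟨g1, g2⟩ := hgen _ (mat_subB j b) hH
    refine ⟨subB j b, ?_, ?_⟩
    · unfold bad
      rw [Finset.mem_filter]
      refine ⟨Finset.mem_univ _, ?_⟩
      rw [g1]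
      have := interlace (mat_herm b) j hH Λ h0
      omega
    · rw [Finset.mem_image]
      refine ⟨rowB j b, ?_, rfl⟩
      unfold badRow
      rw [Finset.mem_filter]
      refine ⟨Finset.mem_univ _, ?_⟩
      have e1 : ∑ i : {i // |(mat_herm (subB j b)).eigenvalues i| ≤ Λ},
          (∑ l, U (mat_herm (subB j b)) i.1 l * bit (rowB j b l)) ^ 2 =
          ∑ i : {i // |(mat_herm (subB j b)).eigenvalues i| ≤ Λ},
          (∑ l, U (mat_herm (subB j b)) i.1 l * mat b (j.succAbove l) j) ^ 2 := rfl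
      rw [e1, g2]
      refine (hj hH).trans ?_
      rw [hR]
      refine div_le_div_of_nonneg_left (by positivity) (by exact_mod_cast hk) (by exact_mod_cast hkb)
  have hcard : ∀ j : Fin (m + 1), ((Finset.univ.filter fun b => (subB j b, rowB j b) ∈ T).card : ℝ) ≤
      2 * T.card := by
    intro j
    have h1 : (Finset.univ.filter fun b : Sym2 (Fin (m + 1)) → Bool =>
        (subB j b, rowB j b) ∈ T).card ≤ (T ×ˢ (Finset.univ : Finset Bool)).card := by
      refine Finset.card_le_card_of_injOn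
        (fun b => ((subB j b, rowB j b), b s(j, j))) ?_ (parts_injective j).injOn
      intro b hb
      have := (Finset.mem_filter.mp (Finset.mem_coe.mp hb)).2
      simp only [Finset.coe_product, Set.mem_prod, Finset.mem_coe]
      exact ⟨this, Finset.mem_univ _⟩
    rw [Finset.card_product, Finset.card_univ, Fintype.card_bool] at h1
    have h2 : ((Finset.univ.filter fun b : Sym2 (Fin (m + 1)) → Bool =>
        (subB j b, rowB j b) ∈ T).card : ℝ) ≤ ((T.card * 2 : ℕ) : ℝ) := by exact_mod_cast h1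
    refine h2.trans ?_
    push_cast
    linarith
  have h6 : ((bad Λ (m + 1) k).card : ℝ) ≤ ∑ j : Fin (m + 1),
      ((Finset.univ.filter fun b => (subB j b, rowB j b) ∈ T).card : ℝ) := by
    have := (Finset.card_le_card hcov).trans Finset.card_biUnion_le
    exact_mod_cast this
  refine h6.trans ((Finset.sum_le_sum fun j _ => hcard j).trans ?_)
  rw [Finset.sum_const, Finset.card_univ, Fintype.card_fin, nsmul_eq_mul]
  push_cast
  have h7 : (0 : ℝ) ≤ (m : ℝ) + 1 := by positivity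
  exact mul_le_mul_of_nonneg_left (mul_le_mul_of_nonneg_left hTc (by norm_num)) h7

theorem bad_zero (Λ : ℝ) (k : ℕ) (hk : 1 ≤ k) : bad Λ 0 k = ∅ := by
  unfold bad
  rw [Finset.filter_eq_empty_iff]
  intro b _ h
  have : sm (mat_herm b) Λ = 0 := by
    unfold sm
    rw [Fintype.card_eq_zero_iff]
    exact ⟨fun i => i.1.elim0⟩
  omega

theorem count_aux (Λ : ℝ) (h0 : 0 ≤ Λ) : ∀ t m k : ℕ, t ≤ k →
    ((bad Λ m k).card : ℝ) ≤ 2 ^ Fintype.card (Sym2 (Fin m)) *
      (m * Real.exp (4 * Λ ^ 2 * m / ((k : ℝ) - t + 1) - ((k : ℝ) - t) / 8)) ^ t := by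
  intro t
  induction t with
  | zero =>
    intro m k _
    rw [pow_zero, mul_one]
    have h1 : (bad Λ m k).card ≤ Fintype.card (Sym2 (Fin m) → Bool) := Finset.card_le_univ _
    rw [Fintype.card_fun, Fintype.card_bool] at h1
    exact_mod_cast h1
  | succ t ih =>
    intro m k htk
    cases m with
    | zero =>
      rw [bad_zero Λ k (by omega)]
      simp
    | succ m =>
      have hk : 1 ≤ k := by omega
      have h1 := bad_step Λ h0 m k hk
      have h2 := ih m (k - 1) (by omega)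
      have hkc : ((k - 1 : ℕ) : ℝ) = (k : ℝ) - 1 := by rw [Nat.cast_sub hk]; simp
      rw [hkc] at h2
      refine h1.trans ?_
      have htk' : (t : ℝ) + 1 ≤ k := by exact_mod_cast htk
      set D : ℝ := (k : ℝ) - ((t + 1 : ℕ) : ℝ) + 1 with hD
      have hD1 : D = (k : ℝ) - t := by rw [hD]; push_cast; ring
      have hDpos : 1 ≤ D := by rw [hD1]; linarith
      have e1 : (k : ℝ) - 1 - t + 1 = D := by rw [hD1]; ring
      have e2 : (k : ℝ) - 1 - t = (k : ℝ) - ((t + 1 : ℕ) : ℝ) := by push_cast; ring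
      rw [e1, e2] at h2
      set E : ℝ := (k : ℝ) - ((t + 1 : ℕ) : ℝ) with hE
      have hE0 : 0 ≤ E := by rw [hE]; push_cast; linarith
      have hx1 : Real.exp (4 * Λ ^ 2 * (m + 1) / k - ((k : ℝ) - 1) / 8) ≤
          Real.exp (4 * Λ ^ 2 * ((m + 1 : ℕ) : ℝ) / D - E / 8) := by
        refine Real.exp_le_exp.mpr ?_
        have h3 : 4 * Λ ^ 2 * ((m : ℝ) + 1) / k ≤ 4 * Λ ^ 2 * ((m + 1 : ℕ) : ℝ) / D := by
          push_cast
          refine div_le_div_of_nonneg_left (by positivity) (by linarith) ?_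
          rw [hD1]
          have : (0 : ℝ) ≤ t := by positivity
          linarith
        have h4 : E ≤ (k : ℝ) - 1 := by
          rw [hE]; push_cast
          have : (0 : ℝ) ≤ t := by positivity
          linarith
        linarith
      have hx2 : (m : ℝ) * Real.exp (4 * Λ ^ 2 * m / D - E / 8) ≤
          ((m + 1 : ℕ) : ℝ) * Real.exp (4 * Λ ^ 2 * ((m + 1 : ℕ) : ℝ) / D - E / 8) := by
        refine mul_le_mul ?_ (Real.exp_le_exp.mpr ?_) (Real.exp_pos _).le (by positivity)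
        · push_cast; linarith
        · have : 4 * Λ ^ 2 * m / D ≤ 4 * Λ ^ 2 * ((m + 1 : ℕ) : ℝ) / D := by
            refine div_le_div_of_nonneg_right ?_ (by linarith)
            push_cast
            nlinarith [sq_nonneg Λ]
          linarith
      set X : ℝ := ((m + 1 : ℕ) : ℝ) * Real.exp (4 * Λ ^ 2 * ((m + 1 : ℕ) : ℝ) / D - E / 8) with hX
      have hb2 : ((bad Λ m (k - 1)).card : ℝ) ≤ 2 ^ Fintype.card (Sym2 (Fin m)) * X ^ t :=
        h2.trans (mul_le_mul_of_nonneg_left (pow_le_pow_left₀ (by positivity) hx2 t) (by positivity))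
      calc ((m : ℝ) + 1) * (2 * (2 ^ m * Real.exp (4 * Λ ^ 2 * (m + 1) / k - ((k : ℝ) - 1) / 8) *
            (bad Λ m (k - 1)).card))
          ≤ ((m : ℝ) + 1) * (2 * (2 ^ m *
            Real.exp (4 * Λ ^ 2 * ((m + 1 : ℕ) : ℝ) / D - E / 8) *
            (2 ^ Fintype.card (Sym2 (Fin m)) * X ^ t))) := by
            refine mul_le_mul_of_nonneg_left (mul_le_mul_of_nonneg_left ?_ (by norm_num))
              (by positivity)
            exact mul_le_mul (mul_le_mul_of_nonneg_left hx1 (by positivity)) hb2 (by positivity)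
              (by positivity)
        _ = 2 ^ Fintype.card (Sym2 (Fin (m + 1))) * X ^ (t + 1) := by
            rw [card_sym2_succ, pow_succ X t, hX]
            push_cast
            ring

/-- **Few small eigenvalues.** -/
theorem count_small (Λ : ℝ) (h0 : 0 ≤ Λ) (m k : ℕ) (hk : 1 ≤ k)
    (hmk : 256 * Λ ^ 2 * m ≤ (k : ℝ) ^ 2) :
    ((bad Λ m k).card : ℝ) ≤ 2 ^ Fintype.card (Sym2 (Fin m)) *
      (m * Real.exp (-((k : ℝ) / 32))) ^ (k / 2) := by
  have h1 := count_aux Λ h0 (k / 2) m k (by omega)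
  refine h1.trans (mul_le_mul_of_nonneg_left (pow_le_pow_left₀ (by positivity) ?_ _) (by positivity))
  refine mul_le_mul_of_nonneg_left (Real.exp_le_exp.mpr ?_) (by positivity)
  have hkR : (1 : ℝ) ≤ k := by exact_mod_cast hk
  have ht : ((k / 2 : ℕ) : ℝ) ≤ (k : ℝ) / 2 := Nat.cast_div_le
  have h2 : (k : ℝ) / 2 ≤ (k : ℝ) - ((k / 2 : ℕ) : ℝ) := by linarith
  have h3 : 4 * Λ ^ 2 * m / ((k : ℝ) - ((k / 2 : ℕ) : ℝ) + 1) ≤ (k : ℝ) / 32 := by
    rw [div_le_iff₀ (by linarith)]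
    have h4 : (k : ℝ) / 32 * ((k : ℝ) / 2) ≤ (k : ℝ) / 32 * ((k : ℝ) - ((k / 2 : ℕ) : ℝ) + 1) :=
      mul_le_mul_of_nonneg_left (by linarith) (by positivity)
    nlinarith
  linarith

theorem asym_pow (C : ℝ) (m k : ℕ) (hm : 3 ≤ m) (hk32 : (32 : ℝ) ≤ k)
    (hkl : 64 * Real.log m ≤ k) (hC : 256 * (|C| * m) ≤ (k : ℝ) ^ 2) :
    (m * Real.exp (-((k : ℝ) / 32))) ^ (k / 2) ≤ (2 : ℝ) ^ (-(C * m)) := by
  have hmR : (3 : ℝ) ≤ m := by exact_mod_cast hm
  have hmpos : (0 : ℝ) < m := by linarith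
  have hbase : m * Real.exp (-((k : ℝ) / 32)) ≤ Real.exp (-((k : ℝ) / 64)) := by
    have c1 : (m : ℝ) * Real.exp (-((k : ℝ) / 32)) =
        Real.exp (Real.log m + -((k : ℝ) / 32)) := by
      rw [Real.exp_add, Real.exp_log hmpos]
    rw [c1]
    refine Real.exp_le_exp.mpr ?_
    linarith
  refine (pow_le_pow_left₀ (by positivity) hbase _).trans ?_
  rw [← Real.exp_nat_mul, Real.rpow_def_of_pos (by norm_num)]
  refine Real.exp_le_exp.mpr ?_
  have hhalf : (k : ℝ) / 2 - 1 ≤ ((k / 2 : ℕ) : ℝ) := by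
    have : k ≤ 2 * (k / 2) + 1 := by omega
    have h' : (k : ℝ) ≤ 2 * ((k / 2 : ℕ) : ℝ) + 1 := by exact_mod_cast this
    linarith
  have hq : (k : ℝ) / 4 ≤ ((k / 2 : ℕ) : ℝ) := by linarith
  have hprod : (k : ℝ) ^ 2 / 256 ≤ ((k / 2 : ℕ) : ℝ) * ((k : ℝ) / 64) := by
    have := mul_le_mul_of_nonneg_right hq (show (0 : ℝ) ≤ (k : ℝ) / 64 by positivity)
    calc (k : ℝ) ^ 2 / 256 = (k : ℝ) / 4 * ((k : ℝ) / 64) := by ring
      _ ≤ _ := this
  have hlog2 : Real.log 2 ≤ 1 := by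
    have := Real.log_two_lt_d9
    linarith
  have hlog20 : 0 ≤ Real.log 2 := Real.log_nonneg (by norm_num)
  have hC' : Real.log 2 * (C * m) ≤ (k : ℝ) ^ 2 / 256 := by
    have e1 : C * m ≤ |C| * m := mul_le_mul_of_nonneg_right (le_abs_self C) hmpos.le
    have e2 : 0 ≤ |C| * m := by positivity
    have e3 : Real.log 2 * (C * m) ≤ Real.log 2 * (|C| * m) :=
      mul_le_mul_of_nonneg_left e1 hlog20
    have e4 : Real.log 2 * (|C| * m) ≤ 1 * (|C| * m) := mul_le_mul_of_nonneg_right hlog2 e2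
    linarith
  have e5 : Real.log 2 * -(C * m) = -(Real.log 2 * (C * m)) := by ring
  rw [e5]
  linarith

theorem asym_sq (Λ ε C : ℝ) (hε : 0 < ε) (m k : ℕ) (hmpos : (0 : ℝ) < m)
    (hk2 : ε * m ≤ k * Real.log m)
    (hL : (Real.log m) ^ 2 < ε ^ 2 / (256 * Λ ^ 2 + 1024 * |C| + 1024) * m) :
    (256 * Λ ^ 2 + 1024 * |C| + 1024) * m ≤ (k : ℝ) ^ 2 := by
  have hden : 0 < 256 * Λ ^ 2 + 1024 * |C| + 1024 := by positivity
  set D := 256 * Λ ^ 2 + 1024 * |C| + 1024 with hD
  have a1 : (ε * m) ^ 2 ≤ (k : ℝ) ^ 2 * (Real.log m) ^ 2 := by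
    rw [← mul_pow]; exact pow_le_pow_left₀ (by positivity) hk2 2
  have a2 : (k : ℝ) ^ 2 * (Real.log m) ^ 2 ≤ (k : ℝ) ^ 2 * (ε ^ 2 / D * m) :=
    mul_le_mul_of_nonneg_left hL.le (sq_nonneg _)
  have a3 : (ε * m) ^ 2 ≤ (k : ℝ) ^ 2 * (ε ^ 2 / D * m) := a1.trans a2
  have a4 : (k : ℝ) ^ 2 * (ε ^ 2 / D * m) * D = (k : ℝ) ^ 2 * ε ^ 2 * m := by
    field_simp
  have a5 : (ε * m) ^ 2 * D ≤ (k : ℝ) ^ 2 * ε ^ 2 * m := by
    rw [← a4]; exact mul_le_mul_of_nonneg_right a3 hden.le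
  have a6 : (ε ^ 2 * m) * (D * m) ≤ (ε ^ 2 * m) * (k : ℝ) ^ 2 := by
    calc (ε ^ 2 * m) * (D * m) = (ε * m) ^ 2 * D := by ring
      _ ≤ (k : ℝ) ^ 2 * ε ^ 2 * m := a5
      _ = _ := by ring
  exact le_of_mul_le_mul_left a6 (by positivity)

/-- **Asymptotic form**: for all `Λ`, `ε > 0`, `C`, for large `m` at most a fraction `2^{-Cm}` of
the symmetric 0/1 matrices of size `m` has at least `ε m / log m` eigenvalues in `[-Λ, Λ]`. -/
theorem count_small_eventually (Λ ε C : ℝ) (h0 : 0 ≤ Λ) (hε : 0 < ε) :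
    ∃ m0 : ℕ, ∀ m ≥ m0, ∀ k : ℕ, ε * m / Real.log m ≤ k →
      ((bad Λ m k).card : ℝ) ≤ 2 ^ Fintype.card (Sym2 (Fin m)) * (2 : ℝ) ^ (-(C * m)) := by
  have hlim : Filter.Tendsto (fun x : ℝ => (Real.log x) ^ 2 / x) Filter.atTop (nhds 0) := by
    have := Real.isLittleO_pow_log_id_atTop (n := 2)
    exact this.tendsto_div_nhds_zero
  have hlimN : Filter.Tendsto (fun m : ℕ => (Real.log (m : ℝ)) ^ 2 / (m : ℝ)) Filter.atTop
      (nhds 0) := hlim.comp tendsto_natCast_atTop_atTop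
  have hη0 : 0 < ε ^ 2 / (256 * Λ ^ 2 + 1024 * |C| + 1024) := by positivity
  have hev := (hlimN.eventually (gt_mem_nhds hη0)).and
    ((Filter.eventually_ge_atTop 3).and (hlimN.eventually
      (gt_mem_nhds (show (0:ℝ) < ε / 256 by positivity))))
  obtain ⟨m0, hm0⟩ := Filter.eventually_atTop.mp hev
  refine ⟨m0, fun m hm k hk => ?_⟩
  obtain ⟨h1, h3, h2⟩ := hm0 m hm
  have hmR : (3 : ℝ) ≤ m := by exact_mod_cast h3
  have hmpos : (0 : ℝ) < m := by linarith
  have hlog1 : 1 < Real.log m := by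
    rw [Real.lt_log_iff_exp_lt hmpos]
    have := Real.exp_one_lt_d9
    linarith
  have hlog : 0 < Real.log m := by linarith
  have hk2 : ε * m ≤ k * Real.log m := by rwa [div_le_iff₀ hlog] at hk
  have hkpos : (0 : ℝ) < k := by
    by_contra h
    push Not at h
    have h5 : 0 < ε * m := by positivity
    have h6 : (k : ℝ) * Real.log m ≤ 0 := mul_nonpos_of_nonpos_of_nonneg h hlog.le
    linarith
  have hk1 : 1 ≤ k := by
    have : 0 < k := by exact_mod_cast hkpos
    omega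
  have hL : (Real.log m) ^ 2 < ε ^ 2 / (256 * Λ ^ 2 + 1024 * |C| + 1024) * m := by
    rwa [div_lt_iff₀ hmpos] at h1
  have hL2 : (Real.log m) ^ 2 < ε / 256 * m := by rwa [div_lt_iff₀ hmpos] at h2
  have hksq := asym_sq Λ ε C hε m k hmpos hk2 hL
  have n1 : 0 ≤ 256 * Λ ^ 2 * m := by positivity
  have n2 : 0 ≤ |C| * m := by positivity
  have hexp : (256 * Λ ^ 2 + 1024 * |C| + 1024) * m =
      256 * Λ ^ 2 * m + 1024 * (|C| * m) + 1024 * m := by ring
  rw [hexp] at hksq
  have hcond : 256 * Λ ^ 2 * m ≤ (k : ℝ) ^ 2 := by linarith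
  have h := count_small Λ h0 m k hk1 hcond
  refine h.trans (mul_le_mul_of_nonneg_left ?_ (by positivity))
  have hkl : 64 * Real.log m ≤ k := by
    have b1 : 256 * (Real.log m) ^ 2 ≤ k * Real.log m := by linarith
    have b2 : Real.log m * (256 * Real.log m) ≤ Real.log m * k := by
      calc Real.log m * (256 * Real.log m) = 256 * (Real.log m) ^ 2 := by ring
        _ ≤ k * Real.log m := b1
        _ = _ := by ring
    have b3 : 256 * Real.log m ≤ k := le_of_mul_le_mul_left b2 hlog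
    linarith
  have hk32 : (32 : ℝ) ≤ k := by
    have h7 : (32 : ℝ) ^ 2 ≤ (k : ℝ) ^ 2 := by linarith
    exact (pow_le_pow_iff_left₀ (by norm_num) hkpos.le (by norm_num)).mp h7
  exact asym_pow C m k h3 hk32 hkl (by linarith)

end Vale.Agent.P160.Half.Spec
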