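import Vale.Agent.P160.Half.M67Stmt

/-! # P160, leaf (9a) of `M67Stmt`: not sparse gives spread -/

namespace Vale.Agent.P160.Half.M67

open Finset Vale.Agent.P160 Vale.Agent.P160.Half Vale.Agent.P160.Half.Flat

namespace Spr653

theorem char_sum {A : Type} [AddCommGroup A] (φ : AddChar A ℂ) {ι : Type} (s : Finset ι)
    (f : ι → A) : φ (∑ j ∈ s, f j) = ∏ j ∈ s, φ (f j) := by
  classical
  induction s using Finset.induction_on with
  | empty => simp
  | insert a s ha ih => rw [Finset.sum_insert ha, Finset.prod_insert ha, AddChar.map_add_eq_mul, ih]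

theorem zpow_sum' {ζ : ℂ} (h : ζ ≠ 0) {ι : Type} (s : Finset ι) (f : ι → ℤ) :
    ζ ^ (∑ j ∈ s, f j) = ∏ j ∈ s, ζ ^ (f j) := by
  classical
  induction s using Finset.induction_on with
  | empty => simp
  | insert a s ha ih => rw [Finset.sum_insert ha, Finset.prod_insert ha, zpow_add₀ h, ih]

theorem char_ext {G : Type} [AddCommGroup G] {m : ℕ} (z : Fin m → G)
    (φ : AddChar (AddSubgroup.closure (Set.range z)) ℂ) (h : ∀ j, φ (toCl z j) = 1) : φ = 1 := by
  ext ⟨x, hx⟩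
  rw [AddChar.one_apply]
  induction hx using AddSubgroup.closure_induction with
  | mem x hx =>
    obtain ⟨j, rfl⟩ := hx
    exact h j
  | zero => exact AddChar.map_zero_eq_one φ
  | add x y hx hy h1 h2 =>
    have : (⟨x + y, add_mem hx hy⟩ : AddSubgroup.closure (Set.range z)) = ⟨x, hx⟩ + ⟨y, hy⟩ := rfl
    rw [this, AddChar.map_add_eq_mul, h1, h2, mul_one]
  | neg x hx h1 =>
    have : (⟨-x, neg_mem hx⟩ : AddSubgroup.closure (Set.range z)) = -⟨x, hx⟩ := rfl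
    rw [this, AddChar.map_neg_eq_inv, h1, inv_one]

end Spr653

open Spr653

/-- leaf (9a) -/
theorem Spr653.stmtSpread : StmtSpread := by
  classical
  intro k P hP hN s M hsp z hz ψ hψ
  have hN0 : (∏ p ∈ P, p) ≠ 0 := hN.out
  -- the order of `ψ`
  have hpow : ψ ^ (∏ p ∈ P, p) = 1 := by
    ext h
    rw [AddChar.pow_apply, ← AddChar.map_nsmul_eq_pow]
    have h0 : (∏ p ∈ P, p) • h = 0 := by
      apply Subtype.ext
      rw [AddSubgroup.coe_nsmul, AddSubgroup.coe_zero]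
      refine Prod.ext ?_ ?_
      · rw [Prod.smul_fst, nsmul_eq_mul, ZMod.natCast_self, zero_mul]
        rfl
      · rw [Prod.smul_snd, nsmul_eq_mul, ZMod.natCast_self, zero_mul]
        rfl
    rw [h0, AddChar.map_zero_eq_one, AddChar.one_apply]
  obtain ⟨m, hm⟩ : ∃ m, m = orderOf ψ := ⟨_, rfl⟩
  have hmN : m ∣ (∏ p ∈ P, p) := hm ▸ orderOf_dvd_of_pow_eq_one hpow
  have hm0 : m ≠ 0 := fun h => hN0 (Nat.eq_zero_of_zero_dvd (h ▸ hmN))
  have hm1 : m ≠ 1 := fun h => hψ (orderOf_eq_one_iff.1 (hm ▸ h))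
  obtain ⟨p, hp, hpm⟩ := Nat.exists_prime_and_dvd hm1
  have hpP : p ∈ P := by
    obtain ⟨q, hq, hpq⟩ := (Prime.dvd_finsetProd_iff (Nat.Prime.prime hp) _).1
      (hpm.trans hmN)
    rwa [(Nat.prime_dvd_prime_iff_eq hp (hP q hq)).1 hpq]
  have : NeZero p := ⟨hp.ne_zero⟩
  have : Fact p.Prime := ⟨hp⟩
  obtain ⟨φ, hφ⟩ : ∃ φ, φ = ψ ^ (m / p) := ⟨_, rfl⟩
  have hφp : φ ^ p = 1 := by
    rw [hφ, ← pow_mul, Nat.div_mul_cancel hpm, hm, pow_orderOf_eq_one]
  have hφ1 : φ ≠ 1 := by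
    rw [hφ]
    refine pow_ne_one_of_lt_orderOf ?_ ?_
    · exact (Nat.div_pos (Nat.le_of_dvd (Nat.pos_of_ne_zero hm0) hpm) hp.pos).ne'
    · rw [← hm]
      exact Nat.div_lt_self (Nat.pos_of_ne_zero hm0) hp.one_lt
  -- the values of `φ`
  obtain ⟨ζ, hζ⟩ : ∃ ζ : ℂ, IsPrimitiveRoot ζ p := ⟨_, Complex.isPrimitiveRoot_exp p hp.ne_zero⟩
  have hζ0 : ζ ≠ 0 := hζ.ne_zero hp.ne_zero
  have hex : ∀ j, ∃ i : ℕ, i < p ∧ ζ ^ i = φ (toCl z j) := by
    intro j
    refine hζ.eq_pow_of_pow_eq_one ?_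
    rw [← AddChar.pow_apply, hφp, AddChar.one_apply]
  choose i hi hiz using hex
  have hker : ∀ a, (∑ j, (M a j : ZMod p) * ((i j : ℕ) : ZMod p)) = 0 := by
    intro a
    have h1 : ∑ j, M a j • toCl z j = 0 := by
      apply Subtype.ext
      rw [AddSubgroup.val_finsetSum, AddSubgroup.coe_zero]
      have := hz a
      simpa [toCl] using this
    have h2 : φ (∑ j, M a j • toCl z j) = ∏ j, φ (toCl z j) ^ (M a j) := by
      rw [char_sum]
      exact Finset.prod_congr rfl fun j _ => AddChar.map_zsmul_eq_zpow _ _ _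
    rw [h1, AddChar.map_zero_eq_one] at h2
    have h3 : ζ ^ (∑ j, M a j * (i j : ℤ)) = 1 := by
      rw [h2, zpow_sum' hζ0]
      refine Finset.prod_congr rfl fun j _ => ?_
      rw [← hiz j, ← zpow_natCast, ← zpow_mul, mul_comm]
    have h4 := (hζ.zpow_eq_one_iff_dvd _).1 h3
    have h5 := (ZMod.intCast_zmod_eq_zero_iff_dvd _ p).2 h4
    rw [Int.cast_sum] at h5
    simpa using h5
  by_contra hcon
  refine hsp ⟨p, hpP, fun j => ((i j : ℕ) : ZMod p), ?_, ?_, hker⟩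
  · intro h0
    refine hφ1 (char_ext z φ fun j => ?_)
    have h1 : ((i j : ℕ) : ZMod p) = 0 := congrFun h0 j
    rw [ZMod.natCast_eq_zero_iff] at h1
    rw [← hiz j, Nat.eq_zero_of_dvd_of_lt h1 (hi j), pow_zero]
  · refine lt_of_le_of_lt ?_ (not_le.1 hcon)
    refine Nat.cast_le.2 (Finset.card_le_card fun j hj => ?_)
    simp only [Finset.mem_filter, Finset.mem_univ, true_and] at hj ⊢
    intro h1
    apply hj
    have h2 : ζ ^ (i j) = 1 := by
      rw [hiz j, hφ, AddChar.pow_apply, h1, one_pow]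
    have h3 := (hζ.pow_eq_one_iff_dvd _).1 h2
    exact (ZMod.natCast_eq_zero_iff _ _).2 h3

end Vale.Agent.P160.Half.M67
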