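import Vale.Agent.P160.Half.M67Stmt

/-! # P160, half rate, block (M): leaf (9a) of `M67Stmt.lean` (not sparse gives spread) -/

namespace Vale.Agent.P160.Half.Spread964

open Finset Vale.Agent.P160 Vale.Agent.P160.Half

theorem exists_dual_aux {V : Type} [AddCommGroup V] {p : ℕ} [Fact p.Prime] [Module (ZMod p) V] {v : V}
    (hv : v ≠ 0) : ∃ f : V →+ ZMod p, f v ≠ 0 := by
  by_contra hc
  push Not at hc
  exact hv ((Module.forall_dual_apply_eq_zero_iff (ZMod p) v).1 fun φ => hc φ.toAddMonoidHom)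

theorem exists_dual {V : Type} [AddCommGroup V] {p : ℕ} (hp : p.Prime) (h : ∀ v : V, p • v = 0) {v : V}
    (hv : v ≠ 0) : ∃ f : V →+ ZMod p, f v ≠ 0 := by
  have : Fact p.Prime := ⟨hp⟩
  exact @exists_dual_aux V _ p _ (AddCommGroup.zmodModule h) v hv

/-- a finite abelian group in which multiplication by the prime `p` is not injective has a nonzero
homomorphism to `ZMod p` -/
theorem exists_hom_prime {Q : Type} [AddCommGroup Q] [Finite Q] {p : ℕ} (hp : p.Prime) {x : Q} (hx : x ≠ 0)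
    (hpx : p • x = 0) : ∃ f : Q →+ ZMod p, f ≠ 0 := by
  have : Fact p.Prime := ⟨hp⟩
  let m : Q →+ Q := nsmulAddMonoidHom p
  have hm : ¬ Function.Surjective m := by
    intro hs
    have hi : Function.Injective m := Finite.injective_iff_surjective.2 hs
    refine hx (hi ?_)
    show p • x = p • (0 : Q)
    rw [hpx, smul_zero]
  obtain ⟨y, hy⟩ := not_forall.1 hm
  have hz : ∀ r : Q ⧸ m.range, p • r = 0 := by
    intro r
    induction r using QuotientAddGroup.induction_on with
    | H q =>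
      rw [← QuotientAddGroup.mk_nsmul, QuotientAddGroup.eq_zero_iff]
      exact ⟨q, rfl⟩
  have hy' : (QuotientAddGroup.mk y : Q ⧸ m.range) ≠ 0 := by
    intro h
    rw [QuotientAddGroup.eq_zero_iff] at h
    exact hy h
  obtain ⟨φ, hφ⟩ := exists_dual hp hz hy'
  refine ⟨φ.comp (QuotientAddGroup.mk' m.range), fun h => hφ ?_⟩
  exact DFunLike.congr_fun h y

theorem exists_hom {H : Type} [AddCommGroup H] [Finite H] {N : ℕ} (hN : ∀ h : H, N • h = 0)
    (ψ : AddChar H ℂ) (hψ : ψ ≠ 1) : ∃ p : ℕ, p.Prime ∧ p ∣ N ∧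
      ∃ f : H →+ ZMod p, f ≠ 0 ∧ ∀ h, ψ h = 1 → f h = 0 := by
  let D : AddSubgroup H :=
    { carrier := {h | ψ h = 1}
      zero_mem' := AddChar.map_zero_eq_one ψ
      add_mem' := by
        intro a b ha hb
        show ψ (a + b) = 1
        rw [AddChar.map_add_eq_mul, show ψ a = 1 from ha, show ψ b = 1 from hb, one_mul]
      neg_mem' := by
        intro a ha
        show ψ (-a) = 1
        rw [AddChar.map_neg_eq_inv, show ψ a = 1 from ha, inv_one] }
  obtain ⟨g, hg⟩ : ∃ g, ψ g ≠ 1 := by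
    by_contra hc
    push Not at hc
    exact hψ (DFunLike.ext _ _ fun h => by rw [hc h, AddChar.one_apply])
  have hg' : (QuotientAddGroup.mk g : H ⧸ D) ≠ 0 := by
    intro h
    rw [QuotientAddGroup.eq_zero_iff] at h
    exact hg h
  have hnt : Nontrivial (H ⧸ D) := ⟨⟨_, _, hg'⟩⟩
  obtain ⟨p, hp, hpd⟩ := Nat.exists_prime_and_dvd (Finite.one_lt_card (α := H ⧸ D)).ne'
  have : Fact p.Prime := ⟨hp⟩
  obtain ⟨x, hx⟩ := exists_prime_addOrderOf_dvd_card' (G := H ⧸ D) p hpd
  have hx0 : x ≠ 0 := by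
    intro h
    rw [h, addOrderOf_zero] at hx
    exact hp.one_lt.ne hx
  have hNx : N • x = 0 := by
    induction x using QuotientAddGroup.induction_on with
    | H q => rw [← QuotientAddGroup.mk_nsmul, hN, QuotientAddGroup.mk_zero]
  obtain ⟨f, hf⟩ := exists_hom_prime hp hx0 (by rw [← hx]; exact addOrderOf_nsmul_eq_zero x)
  refine ⟨p, hp, ?_, f.comp (QuotientAddGroup.mk' D), fun h => hf ?_, fun h hh => ?_⟩
  · rw [← hx]
    exact addOrderOf_dvd_of_nsmul_eq_zero hNx
  · refine QuotientAddGroup.addMonoidHom_ext D ?_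
    rw [h]
    rfl
  · show f (QuotientAddGroup.mk h) = 0
    rw [(QuotientAddGroup.eq_zero_iff h).2 (show h ∈ D from hh), map_zero]

/-- **(9a)** not sparse gives spread -/
theorem spread : M67.StmtSpread := by
  intro k P hP _ s M hS z hz ψ hψ
  by_contra hlt
  push Not at hlt
  have hN : ∀ h : AddSubgroup.closure (Set.range z), (∏ p ∈ P, p) • h = 0 := by
    intro h
    refine Subtype.ext ?_
    show (∏ p ∈ P, p) • (h : ZMod (∏ p ∈ P, p) × ZMod (∏ p ∈ P, p)) = 0
    refine Prod.ext ?_ ?_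
    · rw [Prod.smul_fst, nsmul_eq_mul, ZMod.natCast_self, zero_mul]
      rfl
    · rw [Prod.smul_snd, nsmul_eq_mul, ZMod.natCast_self, zero_mul]
      rfl
  obtain ⟨p, hp, hpN, f, hf, hf1⟩ := exists_hom hN ψ hψ
  have hpP : p ∈ P := by
    obtain ⟨q, hq, hpq⟩ := (hp.prime.dvd_finsetProd_iff _).1 hpN
    rwa [(Nat.prime_dvd_prime_iff_eq hp (hP q hq)).1 hpq]
  refine hS ⟨p, hpP, fun j => f (M67.toCl z j), fun h0 => hf ?_, ?_, fun i => ?_⟩
  · refine DFunLike.ext _ _ fun h => ?_
    obtain ⟨h, hh⟩ := h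
    show f ⟨h, hh⟩ = 0
    induction hh using AddSubgroup.closure_induction with
    | mem x hx =>
      obtain ⟨j, rfl⟩ := hx
      exact congrFun h0 j
    | zero => exact map_zero f
    | add x y hx hy h1 h2 =>
      have : (⟨x + y, add_mem hx hy⟩ : AddSubgroup.closure (Set.range z)) = ⟨x, hx⟩ + ⟨y, hy⟩ := rfl
      rw [this, map_add, h1, h2, add_zero]
    | neg x hx h1 =>
      have : (⟨-x, neg_mem hx⟩ : AddSubgroup.closure (Set.range z)) = -⟨x, hx⟩ := rfl
      rw [this, map_neg, h1, neg_zero]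
  · refine lt_of_le_of_lt ?_ hlt
    refine Nat.cast_le.2 (card_le_card fun j hj => ?_)
    rw [mem_filter] at hj ⊢
    exact ⟨hj.1, fun h => hj.2 (hf1 _ h)⟩
  · have h1 : ∑ j, M i j • M67.toCl z j = 0 := by
      refine Subtype.ext ?_
      rw [AddSubgroup.val_finsetSum]
      exact hz i
    have h2 := congrArg f h1
    rw [map_sum, map_zero] at h2
    rw [← h2]
    refine sum_congr rfl fun j _ => ?_
    rw [map_zsmul, zsmul_eq_mul]

end Vale.Agent.P160.Half.Spread964
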