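import Vale.Agent.P160.KL
import Vale.Agent.P160.Half.Spec

/-! # Step 1 (P160, rate 1/2): Kotlov-Lovasz for a lattice class

`P = Vᵀ Q V` with `V, Q` integral is the same as an integral overlattice `V⁻¹ ℤ^m` of `(ℤ^m, P)`.
The class consists of the `h = Vᵀ Q z`. -/

set_option linter.unusedSectionVars false

namespace Vale.Agent.P160.Half.Step1

open Finset Matrix Vale.Agent.P160.Half.Spec

/-! ## Spectral hypothesis -/

/-- at most `k` small directions -/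
def SmallSpec {m : ℕ} (A : Matrix (Fin m) (Fin m) ℝ) (Λ : ℝ) (k : ℕ) : Prop :=
  ∃ e : Fin k → Fin m → ℝ, (∀ i, ∑ l, (e i l) ^ 2 ≤ 1) ∧
    ∀ x : Fin m → ℝ, ∑ l, (x l) ^ 2 ≤ ∑ i, (∑ l, e i l * x l) ^ 2 +
      (∑ l, (∑ l', A l l' * x l') ^ 2) / Λ ^ 2

theorem SmallSpec.mono {m : ℕ} {A : Matrix (Fin m) (Fin m) ℝ} {Λ : ℝ} {k k' : ℕ}
    (h : SmallSpec A Λ k) (hk : k ≤ k') : SmallSpec A Λ k' := by
  obtain ⟨r, rfl⟩ := Nat.exists_eq_add_of_le hk
  obtain ⟨e, h1, h2⟩ := h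
  refine ⟨Fin.append e (fun _ _ => 0), fun i => ?_, fun x => ?_⟩
  · refine Fin.addCases (fun i => ?_) (fun i => ?_) i
    · rw [Fin.append_left]; exact h1 i
    · rw [Fin.append_right]; simp
  · rw [Fin.sum_univ_add]
    simp only [Fin.append_left, Fin.append_right]
    simpa using h2 x

theorem smallSpec_of_sm {m : ℕ} {A : Matrix (Fin m) (Fin m) ℝ} (hA : A.IsHermitian) {Λ : ℝ}
    (hΛ : 0 < Λ) {k : ℕ} (hk : sm hA Λ ≤ k) : SmallSpec A Λ k := by
  classical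
  refine SmallSpec.mono ?_ hk
  set f : {i // |hA.eigenvalues i| ≤ Λ} ≃ Fin (sm hA Λ) := Fintype.equivFin _ with hf
  refine ⟨fun i => U hA (f.symm i).1, fun i => ?_, fun x => ?_⟩
  · have h := U_orth hA (f.symm i).1 (f.symm i).1
    rw [if_pos rfl] at h
    rw [← h]
    exact le_of_eq (Finset.sum_congr rfl fun l _ => sq _)
  · have h1 : ∑ i : Fin (sm hA Λ), (∑ l, U hA (f.symm i).1 l * x l) ^ 2 =
        ∑ i : {i // |hA.eigenvalues i| ≤ Λ}, (∑ l, U hA i.1 l * x l) ^ 2 :=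
      f.symm.sum_comp (fun i : {i // |hA.eigenvalues i| ≤ Λ} => (∑ l, U hA i.1 l * x l) ^ 2)
    rw [h1, A_norm hA, ← U_parseval hA x,
      ← Finset.sum_subtype (Finset.univ.filter fun i => |hA.eigenvalues i| ≤ Λ) (by simp)
      (fun i => (∑ l, U hA i l * x l) ^ 2), Finset.sum_div,
      ← Finset.sum_filter_add_sum_filter_not Finset.univ (fun i => |hA.eigenvalues i| ≤ Λ)]
    refine add_le_add le_rfl ?_
    refine le_trans (Finset.sum_le_sum (g := fun i => (hA.eigenvalues i) ^ 2 *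
      (∑ l, U hA i l * x l) ^ 2 / Λ ^ 2) fun i hi => ?_)
      (Finset.sum_le_sum_of_subset_of_nonneg (Finset.filter_subset _ _) fun _ _ _ => by positivity)
    have h2 : Λ < |hA.eigenvalues i| := by
      have := (Finset.mem_filter.mp hi).2
      push Not at this
      exact this
    rw [le_div_iff₀ (by positivity), mul_comm]
    refine mul_le_mul_of_nonneg_right ?_ (sq_nonneg _)
    rw [← sq_abs (hA.eigenvalues i)]
    exact pow_le_pow_left₀ hΛ.le h2.le 2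

/-! ## Kernel modulo `p` -/

/-- number of kernel vectors modulo `p` -/
noncomputable def kerCard {m : ℕ} (P : Matrix (Fin m) (Fin m) ℤ) (p : ℕ) [Fact p.Prime] : ℕ :=
  (Finset.univ.filter fun x : Fin m → ZMod p => (P.map (Int.cast : ℤ → ZMod p)) *ᵥ x = 0).card

theorem kerCard_eq {m : ℕ} (P : Matrix (Fin m) (Fin m) ℤ) (p : ℕ) [Fact p.Prime] :
    kerCard P p = p ^ (m - (P.map (Int.cast : ℤ → ZMod p)).rank) := by
  classical
  set A := P.map (Int.cast : ℤ → ZMod p) with hA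
  have h1 : kerCard P p = Fintype.card (LinearMap.ker A.mulVecLin) := by
    unfold kerCard
    rw [← hA, Fintype.card_subtype]
    congr 1
    ext x
    simp [LinearMap.mem_ker]
  rw [h1, Module.card_eq_pow_finrank (K := ZMod p), ZMod.card]
  congr 1
  have h2 := LinearMap.finrank_range_add_finrank_ker A.mulVecLin
  rw [Module.finrank_fintype_fun_eq_card, Fintype.card_fin] at h2
  have h3 : A.rank = Module.finrank (ZMod p) (LinearMap.range A.mulVecLin) := rfl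
  omega

theorem kerCard_le {m : ℕ} (P Q V : Matrix (Fin m) (Fin m) ℤ) (hP : P = Vᵀ * Q * V)
    (p : ℕ) [Fact p.Prime] : kerCard Q p ≤ kerCard P p := by
  rw [kerCard_eq, kerCard_eq]
  refine Nat.pow_le_pow_right (Fact.out : p.Prime).pos ?_
  have h1 : P.map (Int.cast : ℤ → ZMod p) =
      (Vᵀ).map (Int.cast : ℤ → ZMod p) * Q.map (Int.cast : ℤ → ZMod p) *
        V.map (Int.cast : ℤ → ZMod p) := by
    rw [hP]
    have := Matrix.map_mul (L := Vᵀ * Q) (M := V) (f := Int.castRingHom (ZMod p))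
    have h2 := Matrix.map_mul (L := Vᵀ) (M := Q) (f := Int.castRingHom (ZMod p))
    simp only [Int.coe_castRingHom] at this h2
    rw [this, h2]
  have h3 : (P.map (Int.cast : ℤ → ZMod p)).rank ≤ (Q.map (Int.cast : ℤ → ZMod p)).rank := by
    rw [h1]
    exact (Matrix.rank_mul_le_left _ _).trans (Matrix.rank_mul_le_right _ _)
  omega

/-! ## The bilinear form modulo `p` -/

/-- the form `xᵀ Q y` modulo `p` -/
noncomputable def formP {m : ℕ} (Q : Matrix (Fin m) (Fin m) ℤ) (p : ℕ) :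
    (Fin m → ZMod p) →+ (Fin m → ZMod p) →+ ZMod p :=
  AddMonoidHom.mk' (fun x => AddMonoidHom.mk'
    (fun y => x ⬝ᵥ ((Q.map (Int.cast : ℤ → ZMod p)) *ᵥ y))
    (fun y y' => by rw [Matrix.mulVec_add, dotProduct_add]))
    (fun x x' => by
      refine AddMonoidHom.ext fun y => ?_
      change (x + x') ⬝ᵥ ((Q.map (Int.cast : ℤ → ZMod p)) *ᵥ y) =
        x ⬝ᵥ ((Q.map (Int.cast : ℤ → ZMod p)) *ᵥ y) + x' ⬝ᵥ ((Q.map (Int.cast : ℤ → ZMod p)) *ᵥ y)
      rw [add_dotProduct])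

theorem formP_apply {m : ℕ} (Q : Matrix (Fin m) (Fin m) ℤ) (p : ℕ) (x y : Fin m → ZMod p) :
    formP Q p x y = x ⬝ᵥ ((Q.map (Int.cast : ℤ → ZMod p)) *ᵥ y) := rfl

theorem formP_cast {m : ℕ} (Q : Matrix (Fin m) (Fin m) ℤ) (p : ℕ) (x y : Fin m → ℤ) :
    formP Q p (fun i => (x i : ZMod p)) (fun i => (y i : ZMod p)) =
      ((x ⬝ᵥ (Q *ᵥ y) : ℤ) : ZMod p) := by
  rw [formP_apply]
  simp [dotProduct, Matrix.mulVec]

theorem rad_formP_le {m : ℕ} (Q : Matrix (Fin m) (Fin m) ℤ) (hQ : Q.IsSymm) (p : ℕ)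
    [Fact p.Prime] : (KL.rad (formP Q p)).card ≤ kerCard Q p := by
  classical
  unfold kerCard
  refine Finset.card_le_card fun x hx => ?_
  rw [KL.mem_rad] at hx
  rw [Finset.mem_filter]
  refine ⟨Finset.mem_univ _, ?_⟩
  funext i
  have h := hx (Pi.single i 1)
  rw [formP_apply, Matrix.dotProduct_mulVec, dotProduct_single_one] at h
  have h2 : (Q.map (Int.cast : ℤ → ZMod p))ᵀ = Q.map (Int.cast : ℤ → ZMod p) := by
    rw [← Matrix.transpose_map, hQ.eq]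
  rw [← h2, Matrix.mulVec_transpose]
  exact h

/-! ## Real identities -/

section Real

variable {m : ℕ} (P Q V : Matrix (Fin m) (Fin m) ℤ)

/-- real copy of an integer vector -/
def toR (h : Fin m → ℤ) : Fin m → ℝ := fun i => (h i : ℝ)

/-- real copy of an integer matrix -/
def toRM (A : Matrix (Fin m) (Fin m) ℤ) : Matrix (Fin m) (Fin m) ℝ := A.map (Int.cast : ℤ → ℝ)

theorem toR_mulVec (A : Matrix (Fin m) (Fin m) ℤ) (z : Fin m → ℤ) :
    toR (A *ᵥ z) = toRM A *ᵥ toR z := by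
  funext i
  simp [toR, toRM, Matrix.mulVec, dotProduct]

theorem toR_dot (x y : Fin m → ℤ) : ((x ⬝ᵥ y : ℤ) : ℝ) = toR x ⬝ᵥ toR y := by
  simp [toR, dotProduct]

theorem toR_sub (x y : Fin m → ℤ) : toR (x - y) = toR x - toR y := by
  funext i; simp [toR]

theorem toRM_mul (A B : Matrix (Fin m) (Fin m) ℤ) : toRM (A * B) = toRM A * toRM B := by
  have := Matrix.map_mul (L := A) (M := B) (f := Int.castRingHom ℝ)
  simpa [toRM] using this

theorem toRM_transpose (A : Matrix (Fin m) (Fin m) ℤ) : toRM Aᵀ = (toRM A)ᵀ := rfl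

theorem toRM_det (A : Matrix (Fin m) (Fin m) ℤ) : (toRM A).det = (A.det : ℝ) := by
  unfold toRM
  have := (Int.castRingHom ℝ).map_det A
  simp only [Int.coe_castRingHom] at this
  rw [this]
  rfl

theorem V_solve (hP : P = Vᵀ * Q * V) (hdet : P.det ≠ 0) {h z : Fin m → ℤ}
    {x : Fin m → ℝ} (hz : h = Vᵀ *ᵥ (Q *ᵥ z)) (hx : toRM P *ᵥ x = toR h) :
    toRM V *ᵥ x = toR z := by
  have h1 : toRM (Vᵀ * Q) *ᵥ (toRM V *ᵥ x - toR z) = 0 := by
    rw [Matrix.mulVec_sub, Matrix.mulVec_mulVec, ← toRM_mul, ← hP, hx, hz, ← toR_mulVec,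
      Matrix.mulVec_mulVec, sub_self]
  have h2 : (toRM (Vᵀ * Q)).det ≠ 0 := by
    rw [toRM_det]
    intro h0
    have h3 : (Vᵀ * Q).det = 0 := by exact_mod_cast h0
    apply hdet
    rw [hP, Matrix.det_mul, h3, zero_mul]
  have h3 := Matrix.eq_zero_of_mulVec_eq_zero h2 h1
  exact sub_eq_zero.mp h3

theorem pairing (hQ : Q.IsSymm) (a z' : Fin m → ℤ) (y : Fin m → ℝ)
    (hy : toRM V *ᵥ y = toR z') :
    toR (Vᵀ *ᵥ (Q *ᵥ a)) ⬝ᵥ y = ((a ⬝ᵥ (Q *ᵥ z') : ℤ) : ℝ) := by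
  rw [toR_dot, toR_mulVec, toRM_transpose, Matrix.mulVec_transpose, ← Matrix.dotProduct_mulVec, hy,
    toR_mulVec, toR_mulVec, Matrix.dotProduct_mulVec]
  congr 1
  have : (toRM Q)ᵀ = toRM Q := by rw [← toRM_transpose, hQ.eq]
  rw [← Matrix.mulVec_transpose, this]

end Real

/-! ## Box fibres -/

theorem box_fibre {m : ℕ} (p : ℕ) (hp : 0 < p) (N : ℕ) (c : Fin m → ℤ) (F : Finset (Fin m → ℤ))
    (hbox : ∀ h ∈ F, ∀ i, c i ≤ h i ∧ h i ≤ c i + N)
    (hcong : ∀ h ∈ F, ∀ h' ∈ F, ∀ i, ((h i : ℤ) : ZMod p) = (h' i : ZMod p)) :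
    F.card ≤ (N / p + 1) ^ m := by
  classical
  have hp' : (0 : ℤ) < p := by exact_mod_cast hp
  have hlt : ∀ h ∈ F, ∀ i, ((h i - c i) / (p : ℤ)).toNat < N / p + 1 := by
    intro h hh i
    obtain ⟨h1, h2⟩ := hbox h hh i
    have h3 : (h i - c i) / (p : ℤ) ≤ (N : ℤ) / p := Int.ediv_le_ediv hp' (by linarith)
    have h4 : ((N / p : ℕ) : ℤ) = (N : ℤ) / p := by push_cast; rfl
    rw [← h4] at h3
    generalize (h i - c i) / (p : ℤ) = g at h3
    generalize N / p = f at h3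
    omega
  have h1 : F.card ≤ (Finset.univ : Finset (Fin m → Fin (N / p + 1))).card := by
    refine Finset.card_le_card_of_injOn
      (fun h => fun i => if hh : ((h i - c i) / (p : ℤ)).toNat < N / p + 1 then
        ⟨((h i - c i) / (p : ℤ)).toNat, hh⟩ else ⟨0, Nat.succ_pos _⟩) (fun _ _ => Finset.mem_coe.mpr (Finset.mem_univ _)) ?_
    intro h hh h' hh' heq
    funext i
    have h2 := congrFun heq i
    simp only at h2
    rw [dif_pos (hlt h (Finset.mem_coe.mp hh) i), dif_pos (hlt h' (Finset.mem_coe.mp hh') i),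
      Fin.mk.injEq] at h2
    have hb := hbox h (Finset.mem_coe.mp hh) i
    have hb' := hbox h' (Finset.mem_coe.mp hh') i
    have q1 : 0 ≤ (h i - c i) / (p : ℤ) := Int.ediv_nonneg (by linarith) hp'.le
    have q2 : 0 ≤ (h' i - c i) / (p : ℤ) := Int.ediv_nonneg (by linarith) hp'.le
    have q3 : (h i - c i) / (p : ℤ) = (h' i - c i) / (p : ℤ) := by omega
    have q4 : (p : ℤ) ∣ h i - h' i := by
      have := hcong h (Finset.mem_coe.mp hh) h' (Finset.mem_coe.mp hh') i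
      rw [← sub_eq_zero, ← Int.cast_sub, ZMod.intCast_zmod_eq_zero_iff_dvd] at this
      exact this
    have q5 : (h i - c i) % (p : ℤ) = (h' i - c i) % (p : ℤ) := by
      refine Int.emod_eq_emod_iff_emod_sub_eq_zero.mpr ?_
      have : h i - c i - (h' i - c i) = h i - h' i := by ring
      rw [this]
      exact Int.emod_eq_zero_of_dvd q4
    have e1 := Int.emod_add_mul_ediv (h i - c i) (p : ℤ)
    have e2 := Int.emod_add_mul_ediv (h' i - c i) (p : ℤ)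
    rw [q3, q5] at e1
    linarith
  rw [Finset.card_univ, Fintype.card_fun, Fintype.card_fin, Fintype.card_fin] at h1
  exact h1

/-! ## One cell -/

theorem cong_of_class {m : ℕ} (Q V : Matrix (Fin m) (Fin m) ℤ) (p : ℕ) {h h' z z' : Fin m → ℤ}
    (hz : h = Vᵀ *ᵥ (Q *ᵥ z)) (hz' : h' = Vᵀ *ᵥ (Q *ᵥ z'))
    (hc : ∀ i, ((z i : ℤ) : ZMod p) = (z' i : ZMod p)) (i : Fin m) :
    ((h i : ℤ) : ZMod p) = (h' i : ZMod p) := by
  rw [hz, hz']
  simp only [Matrix.mulVec, dotProduct, Int.cast_sum, Int.cast_mul, hc]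

theorem cell_bound {m : ℕ} (P Q V : Matrix (Fin m) (Fin m) ℤ) (hQ : Q.IsSymm)
    (hP : P = Vᵀ * Q * V) (hdet : P.det ≠ 0) (hm : 0 < m)
    (p : ℕ) [Fact p.Prime] (N : ℕ) (Λ : ℝ) (hΛ : 0 < Λ) (k : ℕ) (hk : k ≤ m)
    (e : Fin k → Fin m → ℝ)
    (he2 : ∀ x : Fin m → ℝ, ∑ l, (x l) ^ 2 ≤ ∑ i, (∑ l, e i l * x l) ^ 2 +
      (∑ l, (∑ l', toRM P l l' * x l') ^ 2) / Λ ^ 2)
    (c : Fin m → ℤ) (F : Finset (Fin m → ℤ))
    (hbox : ∀ h ∈ F, ∀ i, c i ≤ h i ∧ h i ≤ c i + N)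
    (zf : (Fin m → ℤ) → (Fin m → ℤ)) (hz : ∀ h ∈ F, h = Vᵀ *ᵥ (Q *ᵥ zf h))
    (xf : (Fin m → ℤ) → (Fin m → ℝ)) (hx : ∀ h ∈ F, toRM P *ᵥ xf h = toR h)
    (hcell : ∀ h ∈ F, ∀ h' ∈ F, ∀ i, |∑ l, e i l * (xf h l - xf h' l)| ≤ 1 / (m * (N + 1)))
    (d : ℕ) (hd : 2 * (1 + (N : ℝ) ^ 2 * m / Λ) ≤ d) :
    (F.card : ℝ) ^ 2 ≤ (Nat.choose (m + d) d : ℝ) *
      ((((N / p + 1) ^ m : ℕ) : ℝ) ^ 2 * (p : ℝ) ^ m * (kerCard P p : ℝ)) := by
  classical
  rcases F.eq_empty_or_nonempty with hF | ⟨h0, hh0⟩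
  · rw [hF]; simp; positivity
  have hmR : (0 : ℝ) < m := by exact_mod_cast hm
  set T : (Fin m → ℤ) → (Fin m → ℤ) → ℤ := fun h h' =>
    (zf h - zf h0) ⬝ᵥ (Q *ᵥ (zf h' - zf h0)) with hT
  have hTr : ∀ h ∈ F, ∀ h' ∈ F, (T h h' : ℝ) =
      ∑ i, (toR h i - toR h0 i) * (xf h' i - xf h0 i) := by
    intro h hh h' hh'
    have h1 := pairing Q V hQ (zf h - zf h0) (zf h' - zf h0) (xf h' - xf h0) (by
      rw [Matrix.mulVec_sub, V_solve P Q V hP hdet (hz h' hh') (hx h' hh'),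
        V_solve P Q V hP hdet (hz h0 hh0) (hx h0 hh0), toR_sub])
    rw [hT]
    simp only
    rw [← h1, Matrix.mulVec_sub, Matrix.mulVec_sub, ← hz h hh, ← hz h0 hh0, toR_sub]
    rfl
  set D : ℝ := 1 + (N : ℝ) ^ 2 * m / Λ with hD
  have hD0 : 0 ≤ D := by positivity
  have hu : ∀ h ∈ F, ∑ i, (toR h i - toR h0 i) ^ 2 ≤ (N : ℝ) ^ 2 * m := by
    intro h hh
    have h1 : ∀ i, (toR h i - toR h0 i) ^ 2 ≤ (N : ℝ) ^ 2 := by
      intro i
      obtain ⟨a1, a2⟩ := hbox h hh i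
      obtain ⟨b1, b2⟩ := hbox h0 hh0 i
      have e1 : toR h i - toR h0 i ≤ N := by
        unfold toR
        have : h i - h0 i ≤ (N : ℤ) := by linarith
        exact_mod_cast this
      have e2 : -(N : ℝ) ≤ toR h i - toR h0 i := by
        unfold toR
        have : -(N : ℤ) ≤ h i - h0 i := by linarith
        exact_mod_cast this
      exact sq_le_sq' e2 e1
    refine (Finset.sum_le_sum fun i _ => h1 i).trans ?_
    rw [Finset.sum_const, Finset.card_univ, Fintype.card_fin, nsmul_eq_mul]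
    linarith [mul_comm (m : ℝ) ((N : ℝ) ^ 2)]
  have hPy : ∀ h' ∈ F, ∀ l, ∑ l', toRM P l l' * (xf h' l' - xf h0 l') = toR h' l - toR h0 l := by
    intro h' hh' l
    have a1 := congrFun (hx h' hh') l
    have a2 := congrFun (hx h0 hh0) l
    rw [← a1, ← a2]
    simp only [Matrix.mulVec, dotProduct, mul_sub, Finset.sum_sub_distrib]
  have hy : ∀ h' ∈ F, ∑ i, (xf h' i - xf h0 i) ^ 2 ≤
      k * (1 / (m * (N + 1))) ^ 2 + (N : ℝ) ^ 2 * m / Λ ^ 2 := by
    intro h' hh'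
    refine (he2 (fun i => xf h' i - xf h0 i)).trans (add_le_add ?_ ?_)
    · refine (Finset.sum_le_sum (g := fun _ => (1 / ((m : ℝ) * (N + 1))) ^ 2) fun i _ => ?_).trans ?_
      · rw [← sq_abs]
        exact pow_le_pow_left₀ (abs_nonneg _) (hcell h' hh' h0 hh0 i) 2
      · rw [Finset.sum_const, Finset.card_univ, Fintype.card_fin, nsmul_eq_mul]
    · refine div_le_div_of_nonneg_right ?_ (by positivity)
      simp_rw [hPy h' hh']
      exact hu h' hh'
  have hTle : ∀ h ∈ F, ∀ h' ∈ F, |(T h h' : ℝ)| ≤ D := by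
    intro h hh h' hh'
    refine abs_le_of_sq_le_sq ?_ hD0
    rw [hTr h hh h' hh']
    have h1 := Finset.sum_mul_sq_le_sq_mul_sq Finset.univ (fun i => toR h i - toR h0 i)
      (fun i => xf h' i - xf h0 i)
    refine h1.trans ?_
    have h2 : (∑ i, (toR h i - toR h0 i) ^ 2) * (∑ i, (xf h' i - xf h0 i) ^ 2) ≤
        ((N : ℝ) ^ 2 * m) * (k * (1 / (m * (N + 1))) ^ 2 + (N : ℝ) ^ 2 * m / Λ ^ 2) :=
      mul_le_mul (hu h hh) (hy h' hh') (Finset.sum_nonneg fun _ _ => sq_nonneg _) (by positivity)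
    refine h2.trans ?_
    have hkR : (k : ℝ) ≤ m := by exact_mod_cast hk
    have h3 : ((N : ℝ) ^ 2 * m) * (k * (1 / (m * (N + 1))) ^ 2) ≤ 1 := by
      have e1 : ((N : ℝ) ^ 2 * m) * (k * (1 / (m * (N + 1))) ^ 2) =
          (N : ℝ) ^ 2 * k / (m * (N + 1) ^ 2) := by
        field_simp
      rw [e1, div_le_one (by positivity)]
      have e2 : (N : ℝ) ^ 2 ≤ (N + 1) ^ 2 := by
        have : (0 : ℝ) ≤ N := by positivity
        nlinarith
      calc (N : ℝ) ^ 2 * k ≤ (N + 1) ^ 2 * m :=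
            mul_le_mul e2 hkR (by positivity) (by positivity)
        _ = _ := by ring
    have h4 : ((N : ℝ) ^ 2 * m) * ((N : ℝ) ^ 2 * m / Λ ^ 2) = ((N : ℝ) ^ 2 * m / Λ) ^ 2 := by
      field_simp
    have h5 : 0 ≤ (N : ℝ) ^ 2 * m / Λ := by positivity
    rw [mul_add, h4, hD]
    nlinarith
  set S : Finset ℤ := Finset.Icc (-⌊D⌋) ⌊D⌋ with hS
  have hSm : ∀ h ∈ F, ∀ h' ∈ F, T h h' ∈ S := by
    intro h hh h' hh'
    have h1 := abs_le.mp (hTle h hh h' hh')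
    rw [hS, Finset.mem_Icc]
    constructor
    · have : -(T h h') ≤ ⌊D⌋ := by
        rw [Int.le_floor]; push_cast; linarith [h1.1]
      linarith
    · rw [Int.le_floor]; exact h1.2
  have hfl : 0 ≤ ⌊D⌋ := Int.floor_nonneg.mpr hD0
  have hSc : S.card ≤ d + 1 := by
    rw [hS, Int.card_Icc]
    have h1 : ((2 * ⌊D⌋ : ℤ) : ℝ) ≤ d := by
      push_cast
      have := Int.floor_le D
      linarith
    have h2 : 2 * ⌊D⌋ ≤ (d : ℤ) := by exact_mod_cast h1
    omega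
  have key := KL.weighted_kl (ι := {h // h ∈ F}) (p := p) (G := Fin m → ZMod p)
    (fun _ => (1 : ℝ)) (fun _ => zero_le_one) (fun i j => T i.1 j.1) (m := m) (d := d)
    (fun i l => toR i.1 l - toR h0 l) (fun j l => xf j.1 l - xf h0 l)
    (fun i j => hTr i.1 i.2 j.1 j.2) S (fun i j => hSm i.1 i.2 j.1 j.2) hSc
    (fun i => fun l => ((zf i.1 l - zf h0 l : ℤ) : ZMod p)) (formP Q p)
    (fun i j => by
      rw [hT]
      exact (formP_cast Q p (zf i.1 - zf h0) (zf j.1 - zf h0)).symm)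
    (M := (((N / p + 1) ^ m : ℕ) : ℝ))
    (fun x => by
      rw [Finset.sum_const, nsmul_eq_mul, mul_one]
      have h1 : (Finset.univ.filter fun i : {h // h ∈ F} =>
          (fun l => ((zf i.1 l - zf h0 l : ℤ) : ZMod p)) = x).card ≤
          (F.filter fun h => (fun l => ((zf h l - zf h0 l : ℤ) : ZMod p)) = x).card := by
        refine Finset.card_le_card_of_injOn Subtype.val ?_ (Subtype.val_injective.injOn)
        intro i hi
        have := (Finset.mem_filter.mp (Finset.mem_coe.mp hi)).2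
        exact Finset.mem_coe.mpr (Finset.mem_filter.mpr ⟨i.2, this⟩)
      have h2 := box_fibre p (Fact.out : p.Prime).pos N c
        (F.filter fun h => (fun l => ((zf h l - zf h0 l : ℤ) : ZMod p)) = x)
        (fun h hh => hbox h (Finset.mem_filter.mp hh).1)
        (fun h hh h' hh' i => by
          obtain ⟨a1, a2⟩ := Finset.mem_filter.mp hh
          obtain ⟨b1, b2⟩ := Finset.mem_filter.mp hh'
          refine cong_of_class Q V p (hz h a1) (hz h' b1) (fun l => ?_) i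
          have c1 := congrFun (a2.trans b2.symm) l
          simp only [Int.cast_sub] at c1
          exact sub_left_inj.mp c1)
      exact_mod_cast h1.trans h2)
  have hsum : (∑ _i : {h // h ∈ F}, (1 : ℝ)) = F.card := by simp
  rw [hsum] at key
  refine key.trans (mul_le_mul_of_nonneg_left ?_ (by positivity))
  have hG : (Fintype.card (Fin m → ZMod p) : ℝ) = (p : ℝ) ^ m := by
    rw [Fintype.card_fun, Fintype.card_fin, ZMod.card]; push_cast; rfl
  rw [hG]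
  refine mul_le_mul_of_nonneg_left ?_ (by positivity)
  exact_mod_cast (rad_formP_le Q hQ p).trans (kerCard_le P Q V hP p)

/-! ## Step 1 -/

/-- **Step 1.** -/
theorem step1 {m : ℕ} (P Q V : Matrix (Fin m) (Fin m) ℤ) (hQ : Q.IsSymm)
    (hP : P = Vᵀ * Q * V) (hdet : P.det ≠ 0) (hm : 0 < m)
    (p : ℕ) [Fact p.Prime] (N : ℕ) (Λ X : ℝ) (hΛ : 0 < Λ) (hX : 0 ≤ X) (k : ℕ) (hk : k ≤ m)
    (hS : SmallSpec (toRM P) Λ k) (c : Fin m → ℤ) (K : Finset (Fin m → ℤ))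
    (hbox : ∀ h ∈ K, ∀ i, c i ≤ h i ∧ h i ≤ c i + N)
    (hcl : ∀ h ∈ K, ∃ z : Fin m → ℤ, h = Vᵀ *ᵥ (Q *ᵥ z))
    (htame : ∀ h ∈ K, ∃ x : Fin m → ℝ, toRM P *ᵥ x = toR h ∧ ∀ i, |x i| ≤ X)
    (d : ℕ) (hd : 2 * (1 + (N : ℝ) ^ 2 * m / Λ) ≤ d) :
    (K.card : ℝ) ^ 2 ≤ ((2 * (m : ℝ) ^ 2 * (N + 1) * X + 2) ^ k) ^ 2 *
      ((Nat.choose (m + d) d : ℝ) *
      ((((N / p + 1) ^ m : ℕ) : ℝ) ^ 2 * (p : ℝ) ^ m * (kerCard P p : ℝ))) := by
  classical
  obtain ⟨e, he1, he2⟩ := hS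
  choose! zf hz using hcl
  choose! xf hx hxX using htame
  have hmR : (0 : ℝ) < m := by exact_mod_cast hm
  set δ : ℝ := m * (N + 1) with hδ
  have hδ0 : 0 < δ := by positivity
  set cell : (Fin m → ℤ) → (Fin k → ℤ) := fun h i => ⌊δ * ∑ l, e i l * xf h l⌋ with hcell
  set Y : ℝ := (m : ℝ) ^ 2 * (N + 1) * X with hY
  have hY0 : 0 ≤ Y := by positivity
  set Bd : ℝ := (Nat.choose (m + d) d : ℝ) *
      ((((N / p + 1) ^ m : ℕ) : ℝ) ^ 2 * (p : ℝ) ^ m * (kerCard P p : ℝ)) with hBd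
  have hBd0 : 0 ≤ Bd := by positivity
  have himg : ((K.image cell).card : ℝ) ≤ (2 * Y + 2) ^ k := by
    have h1 : K.image cell ⊆ Fintype.piFinset fun _ : Fin k => Finset.Icc ⌊-Y⌋ ⌊Y⌋ := by
      intro a ha
      obtain ⟨h, hh, rfl⟩ := Finset.mem_image.mp ha
      rw [Fintype.mem_piFinset]
      intro i
      have h2 : |∑ l, e i l * xf h l| ≤ m * X := by
        refine abs_le_of_sq_le_sq ?_ (by positivity)
        refine (Finset.sum_mul_sq_le_sq_mul_sq Finset.univ (fun l => e i l) (fun l => xf h l)).trans ?_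
        have h3 : ∑ l, (xf h l) ^ 2 ≤ m * X ^ 2 := by
          refine (Finset.sum_le_sum (g := fun _ => X ^ 2) fun l _ => ?_).trans ?_
          · rw [← sq_abs]
            exact pow_le_pow_left₀ (abs_nonneg _) (hxX h hh l) 2
          · rw [Finset.sum_const, Finset.card_univ, Fintype.card_fin, nsmul_eq_mul]
        have h4 : (1 : ℝ) ≤ m := by exact_mod_cast hm
        calc (∑ l, (e i l) ^ 2) * (∑ l, (xf h l) ^ 2) ≤ 1 * (m * X ^ 2) :=
              mul_le_mul (he1 i) h3 (Finset.sum_nonneg fun _ _ => sq_nonneg _) zero_le_one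
          _ ≤ (m * X) ^ 2 := by nlinarith [sq_nonneg X, mul_nonneg (sub_nonneg.mpr h4) (mul_nonneg hmR.le (sq_nonneg X))]
      have h5 : |δ * ∑ l, e i l * xf h l| ≤ Y := by
        rw [abs_mul, abs_of_pos hδ0]
        calc δ * |∑ l, e i l * xf h l| ≤ δ * (m * X) := mul_le_mul_of_nonneg_left h2 hδ0.le
          _ = Y := by rw [hδ, hY]; ring
      rw [Finset.mem_Icc]
      exact ⟨Int.floor_le_floor (abs_le.mp h5).1, Int.floor_le_floor (abs_le.mp h5).2⟩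
    have h2 : (K.image cell).card ≤ ((Finset.Icc ⌊-Y⌋ ⌊Y⌋).card) ^ k := by
      refine (Finset.card_le_card h1).trans ?_
      rw [Fintype.card_piFinset, Finset.prod_const, Finset.card_univ, Fintype.card_fin]
    have h3 : ((Finset.Icc ⌊-Y⌋ ⌊Y⌋).card : ℝ) ≤ 2 * Y + 2 := by
      rw [Int.card_Icc]
      have h4 : (0 : ℤ) ≤ ⌊Y⌋ + 1 - ⌊-Y⌋ := by
        have a1 : 0 ≤ ⌊Y⌋ := Int.floor_nonneg.mpr hY0
        have a2 : ⌊-Y⌋ ≤ 0 := by
          have : ⌊-Y⌋ ≤ ⌊(0:ℝ)⌋ := Int.floor_le_floor (by linarith)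
          simpa using this
        linarith
      have h5 : (((⌊Y⌋ + 1 - ⌊-Y⌋).toNat : ℤ) : ℝ) = ((⌊Y⌋ + 1 - ⌊-Y⌋ : ℤ) : ℝ) := by
        rw [Int.toNat_of_nonneg h4]
      have h6 : (((⌊Y⌋ + 1 - ⌊-Y⌋).toNat : ℕ) : ℝ) = (((⌊Y⌋ + 1 - ⌊-Y⌋).toNat : ℤ) : ℝ) := by
        norm_cast
      rw [h6, h5]
      push_cast
      have b1 := Int.floor_le Y
      have b2 := Int.lt_floor_add_one (-Y)
      linarith
    calc ((K.image cell).card : ℝ) ≤ (((Finset.Icc ⌊-Y⌋ ⌊Y⌋).card : ℝ)) ^ k := by exact_mod_cast h2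
      _ ≤ (2 * Y + 2) ^ k := pow_le_pow_left₀ (by positivity) h3 k
  have hfib : ∀ a ∈ K.image cell, (((K.filter fun h => cell h = a).card : ℕ) : ℝ) ≤ Real.sqrt Bd := by
    intro a _
    refine Real.le_sqrt_of_sq_le ?_
    refine cell_bound P Q V hQ hP hdet hm p N Λ hΛ k hk e he2 c (K.filter fun h => cell h = a)
      (fun h hh => hbox h (Finset.mem_filter.mp hh).1) zf
      (fun h hh => hz h (Finset.mem_filter.mp hh).1) xf
      (fun h hh => hx h (Finset.mem_filter.mp hh).1) (fun h hh h' hh' i => ?_) d hd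
    have a1 := congrFun ((Finset.mem_filter.mp hh).2.trans (Finset.mem_filter.mp hh').2.symm) i
    simp only [hcell] at a1
    have a2 := Int.abs_sub_lt_one_of_floor_eq_floor a1
    have a3 : ∑ l, e i l * (xf h l - xf h' l) = ∑ l, e i l * xf h l - ∑ l, e i l * xf h' l := by
      simp only [mul_sub, Finset.sum_sub_distrib]
    rw [a3, le_div_iff₀ hδ0]
    rw [← mul_sub, abs_mul, abs_of_pos hδ0] at a2
    linarith
  have hKc : (K.card : ℝ) ≤ (2 * Y + 2) ^ k * Real.sqrt Bd := by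
    have h1 : (K.card : ℝ) = ∑ a ∈ K.image cell, ((K.filter fun h => cell h = a).card : ℝ) := by
      exact_mod_cast Finset.card_eq_sum_card_image cell K
    rw [h1]
    refine (Finset.sum_le_sum hfib).trans ?_
    rw [Finset.sum_const, nsmul_eq_mul]
    exact mul_le_mul_of_nonneg_right himg (Real.sqrt_nonneg _)
  have h2Y : 2 * Y + 2 = 2 * (m : ℝ) ^ 2 * (N + 1) * X + 2 := by rw [hY]; ring
  rw [← h2Y]
  calc (K.card : ℝ) ^ 2 ≤ ((2 * Y + 2) ^ k * Real.sqrt Bd) ^ 2 :=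
        pow_le_pow_left₀ (by positivity) hKc 2
    _ = ((2 * Y + 2) ^ k) ^ 2 * Bd := by rw [mul_pow, Real.sq_sqrt hBd0]

end Vale.Agent.P160.Half.Step1
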