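import Mathlib

/-! P160/Half, (3b) of M67Stmt: number of subgroups of `(ZMod N)^2` (helper139). -/

namespace Vale.Agent.P160.Half.Sub139

theorem gen_one {N : ℕ} (H : AddSubgroup (ZMod N)) : ∃ a : ZMod N, H = AddSubgroup.zmultiples a := by
  obtain ⟨a, ha⟩ := (AddSubgroup.isAddCyclic H).exists_zsmul_surjective
  refine ⟨(a : ZMod N), le_antisymm ?_ ?_⟩
  · intro x hx
    obtain ⟨n, hn⟩ := ha ⟨x, hx⟩
    rw [AddSubgroup.mem_zmultiples_iff]
    exact ⟨n, by simpa using congrArg Subtype.val hn⟩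
  · rw [AddSubgroup.zmultiples_le]
    exact a.2

theorem gen_two {N : ℕ} (H : AddSubgroup (ZMod N × ZMod N)) :
    ∃ t : ZMod N × ZMod N × ZMod N,
      H = AddSubgroup.closure {((t.1, t.2.1) : ZMod N × ZMod N), (0, t.2.2)} := by
  obtain ⟨b, hb⟩ := gen_one (H.map (AddMonoidHom.fst (ZMod N) (ZMod N)))
  obtain ⟨a, ha⟩ := gen_one (H.comap (AddMonoidHom.inr (ZMod N) (ZMod N)))
  have hbm : b ∈ H.map (AddMonoidHom.fst (ZMod N) (ZMod N)) := by
    rw [hb]; exact AddSubgroup.mem_zmultiples b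
  obtain ⟨⟨b', c⟩, hbc, hb'⟩ := hbm
  simp only [AddMonoidHom.coe_fst] at hb'
  subst hb'
  have ham : ((0, a) : ZMod N × ZMod N) ∈ H := by
    have : a ∈ H.comap (AddMonoidHom.inr (ZMod N) (ZMod N)) := by
      rw [ha]; exact AddSubgroup.mem_zmultiples a
    simpa using this
  refine ⟨(b', c, a), le_antisymm ?_ ?_⟩
  · rintro ⟨x, y⟩ hxy
    have hx : x ∈ AddSubgroup.zmultiples b' := by
      rw [← hb]
      exact ⟨(x, y), hxy, rfl⟩
    obtain ⟨n, hn⟩ := AddSubgroup.mem_zmultiples_iff.1 hx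
    have hy : y - n • c ∈ AddSubgroup.zmultiples a := by
      rw [← ha]
      change ((0, y - n • c) : ZMod N × ZMod N) ∈ H
      have h1 : ((0, y - n • c) : ZMod N × ZMod N) = (x, y) - n • ((b', c) : ZMod N × ZMod N) := by
        ext
        · simp [hn]
        · simp
      rw [h1]
      exact H.sub_mem hxy (H.zsmul_mem hbc n)
    obtain ⟨m, hm⟩ := AddSubgroup.mem_zmultiples_iff.1 hy
    have h2 : ((x, y) : ZMod N × ZMod N) =
        n • ((b', c) : ZMod N × ZMod N) + m • ((0, a) : ZMod N × ZMod N) := by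
      ext
      · simp [hn]
      · simp [hm]
    rw [h2]
    refine AddSubgroup.add_mem _ (AddSubgroup.zsmul_mem _ ?_ n) (AddSubgroup.zsmul_mem _ ?_ m)
    · exact AddSubgroup.subset_closure (by simp)
    · exact AddSubgroup.subset_closure (by simp)
  · rw [AddSubgroup.closure_le]
    intro x hx
    simp only [Set.mem_insert_iff, Set.mem_singleton_iff] at hx
    rcases hx with rfl | rfl
    · exact hbc
    · exact ham

/-- (3b): at most `N ^ 3` subgroups. -/
theorem subgroups (N : ℕ) [NeZero N] : Nat.card (AddSubgroup (ZMod N × ZMod N)) ≤ N ^ 3 := by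
  have hsurj : Function.Surjective (fun t : ZMod N × ZMod N × ZMod N =>
      AddSubgroup.closure {((t.1, t.2.1) : ZMod N × ZMod N), (0, t.2.2)}) := by
    intro H
    obtain ⟨t, ht⟩ := gen_two H
    exact ⟨t, ht.symm⟩
  have h := Nat.card_le_card_of_surjective _ hsurj
  refine h.trans (le_of_eq ?_)
  rw [Nat.card_prod, Nat.card_prod, Nat.card_zmod]
  ring

end Vale.Agent.P160.Half.Sub139
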