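import Mathlib

/-! # P160, half rate, (M), variant B: number of subgroups of `(ℤ/N)²` is at most `d(N)² N` (helper9) -/

namespace Vale.Agent.P160.Half.Sub9

open Finset

/-- a subgroup of `ZMod N` is determined by its order -/
theorem eq_of_card {N : ℕ} [NeZero N] {A B : AddSubgroup (ZMod N)} (h : Nat.card A = Nat.card B) :
    A = B := by
  classical
  have key : ∀ A : AddSubgroup (ZMod N),
      (A : Set (ZMod N)).toFinset = univ.filter fun x : ZMod N => Nat.card A • x = 0 := by
    intro A
    apply Finset.eq_of_subset_of_card_le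
    · intro x hx
      rw [mem_filter]
      refine ⟨mem_univ _, ?_⟩
      have hx' : x ∈ A := by simpa using hx
      have h1 := card_nsmul_eq_zero' (x := (⟨x, hx'⟩ : A))
      have h2 : Nat.card A • (⟨x, hx'⟩ : A) = 0 := h1
      have h3 := congrArg (Subtype.val) h2
      exact h3
    · have h1 : 0 < Nat.card A := Nat.card_pos
      have h2 := IsAddCyclic.card_nsmul_eq_zero_le (α := ZMod N) h1
      refine h2.trans ?_
      rw [Set.toFinset_card, Nat.card_eq_fintype_card]
      exact le_of_eq (Fintype.card_congr (Equiv.refl _))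
  have h3 : (A : Set (ZMod N)).toFinset = (B : Set (ZMod N)).toFinset := by
    rw [key A, key B, h]
  exact SetLike.coe_injective (Set.toFinset_inj.1 h3)

/-- subgroups of `ZMod N` -/
theorem card_sub (N : ℕ) [NeZero N] : Nat.card (AddSubgroup (ZMod N)) ≤ N.divisors.card := by
  classical
  have h1 : Function.Injective fun A : AddSubgroup (ZMod N) =>
      (⟨Nat.card A, by
        rw [Nat.mem_divisors]
        refine ⟨?_, NeZero.ne N⟩
        have h := AddSubgroup.card_addSubgroup_dvd_card A
        rwa [Nat.card_zmod] at h⟩ : N.divisors) := by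
    intro A B hAB
    exact eq_of_card (congrArg Subtype.val hAB)
  have h2 := Nat.card_le_card_of_injective _ h1
  rwa [Nat.card_eq_fintype_card (α := N.divisors), Fintype.card_coe] at h2

/-- the second coordinates over `0` -/
def fib {N : ℕ} (H : AddSubgroup (ZMod N × ZMod N)) : AddSubgroup (ZMod N) :=
  H.comap (AddMonoidHom.inr (ZMod N) (ZMod N))

/-- a generator of a subgroup of `ZMod N` -/
noncomputable def gen {N : ℕ} (A : AddSubgroup (ZMod N)) : ZMod N :=
  (IsAddCyclic.exists_generator (α := A)).choose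

theorem gen_mem {N : ℕ} (A : AddSubgroup (ZMod N)) : gen A ∈ A :=
  (IsAddCyclic.exists_generator (α := A)).choose.2

theorem exists_zsmul {N : ℕ} (A : AddSubgroup (ZMod N)) {x : ZMod N} (hx : x ∈ A) :
    ∃ n : ℤ, n • gen A = x := by
  obtain ⟨n, hn⟩ := (IsAddCyclic.exists_generator (α := A)).choose_spec ⟨x, hx⟩
  refine ⟨n, ?_⟩
  exact congrArg Subtype.val hn

theorem exists_snd {N : ℕ} (H : AddSubgroup (ZMod N × ZMod N)) :
    ∃ c : ZMod N, (gen (H.map (AddMonoidHom.fst (ZMod N) (ZMod N))), c) ∈ H := by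
  obtain ⟨⟨x, y⟩, h1, h2⟩ := gen_mem (H.map (AddMonoidHom.fst (ZMod N) (ZMod N)))
  refine ⟨y, ?_⟩
  have h3 : x = gen (H.map (AddMonoidHom.fst (ZMod N) (ZMod N))) := h2
  rw [← h3]
  exact h1

/-- **number of subgroups of `(ℤ/N)²`** -/
theorem card_subgroups (N : ℕ) [NeZero N] :
    Nat.card (AddSubgroup (ZMod N × ZMod N)) ≤ N.divisors.card ^ 2 * N := by
  classical
  have hinj : Function.Injective fun H : AddSubgroup (ZMod N × ZMod N) =>
      ((H.map (AddMonoidHom.fst (ZMod N) (ZMod N)), fib H), (exists_snd H).choose) := by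
    have key : ∀ H H' : AddSubgroup (ZMod N × ZMod N),
        H.map (AddMonoidHom.fst (ZMod N) (ZMod N)) = H'.map (AddMonoidHom.fst (ZMod N) (ZMod N)) →
        fib H = fib H' → (exists_snd H).choose = (exists_snd H').choose → H ≤ H' := by
      intro H H' h1 h2 h3 z hz
      obtain ⟨x, y⟩ := z
      have hx : x ∈ H.map (AddMonoidHom.fst (ZMod N) (ZMod N)) := ⟨(x, y), hz, rfl⟩
      obtain ⟨n, hn⟩ := exists_zsmul _ hx
      obtain ⟨c, hcdef⟩ : ∃ c, c = (exists_snd H).choose := ⟨_, rfl⟩
      obtain ⟨g, hg⟩ : ∃ g, g = gen (H.map (AddMonoidHom.fst (ZMod N) (ZMod N))) := ⟨_, rfl⟩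
      have hc : (g, c) ∈ H := by
        rw [hg, hcdef]; exact (exists_snd H).choose_spec
      have hc' : (g, c) ∈ H' := by
        have h := (exists_snd H').choose_spec
        rw [← h3, ← hcdef] at h
        have hg' : g = gen (H'.map (AddMonoidHom.fst (ZMod N) (ZMod N))) := by rw [hg, h1]
        rw [hg']; exact h
      rw [← hg] at hn
      have h4 : (x, y) - n • (g, c) ∈ H := H.sub_mem hz (H.zsmul_mem hc n)
      have h5 : (x, y) - n • (g, c) = (0, y - n • c) := by
        rw [Prod.smul_mk, Prod.mk_sub_mk, hn, sub_self]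
      rw [h5] at h4
      have h6 : y - n • c ∈ fib H := h4
      rw [h2] at h6
      have h7 : ((0 : ZMod N), y - n • c) ∈ H' := h6
      have h8 : (x, y) = (0, y - n • c) + n • (g, c) := by
        rw [← h5]; abel
      rw [h8]
      exact H'.add_mem h7 (H'.zsmul_mem hc' n)
    intro H H' hHH
    have h1 := congrArg (fun t => t.1.1) hHH
    have h2 := congrArg (fun t => t.1.2) hHH
    have h3 := congrArg (fun t => t.2) hHH
    exact le_antisymm (key H H' h1 h2 h3) (key H' H h1.symm h2.symm h3.symm)
  have h1 := Nat.card_le_card_of_injective _ hinj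
  rw [Nat.card_prod, Nat.card_prod, Nat.card_zmod] at h1
  calc Nat.card (AddSubgroup (ZMod N × ZMod N)) ≤
      Nat.card (AddSubgroup (ZMod N)) * Nat.card (AddSubgroup (ZMod N)) * N := h1
    _ ≤ N.divisors.card * N.divisors.card * N :=
        Nat.mul_le_mul_right _ (Nat.mul_le_mul (card_sub N) (card_sub N))
    _ = N.divisors.card ^ 2 * N := by ring

end Vale.Agent.P160.Half.Sub9
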