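import Mathlib

/-!
# P160: number of subgroups of `∏ (ZMod p)^r`

For a finite set `PP` of primes: `∏_{p ∈ PP} (ZMod p)^2` has at most `∏ (p + 3)` subgroups, and
`∏_{p ∈ PP} (ZMod p)^r` has at most `(∏ p) ^ (r * r)` subgroups.
-/

namespace Vale.Agent.P160.Half.SubG376

open Finset

section CRT

variable {PP : Finset ℕ} {V : PP → Type*} [∀ p, AddCommGroup (V p)]

theorem exists_idem (hP : ∀ p ∈ PP, p.Prime) (p : PP) :
    ∃ c : ℤ, ((p : ℕ) : ℤ) ∣ c - 1 ∧ ∀ q : PP, q ≠ p → ((q : ℕ) : ℤ) ∣ c := by
  classical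
  have h1 : Nat.Coprime (p : ℕ) (∏ q ∈ PP.erase p, q) := by
    refine Nat.Coprime.prod_right fun q hq => ?_
    exact (Nat.coprime_primes (hP _ p.2) (hP q (mem_of_mem_erase hq))).2
      (fun h => (ne_of_mem_erase hq) h.symm)
  have h2 : IsCoprime ((p : ℕ) : ℤ) ((∏ q ∈ PP.erase p, q : ℕ) : ℤ) := Nat.isCoprime_iff_coprime.2 h1
  obtain ⟨a, b, hab⟩ := h2
  refine ⟨b * ((∏ q ∈ PP.erase p, q : ℕ) : ℤ), ⟨-a, by linear_combination hab⟩, fun q hq => ?_⟩
  refine Dvd.dvd.mul_left ?_ b
  exact_mod_cast Finset.dvd_prod_of_mem (fun q : ℕ => q)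
    (mem_erase.2 ⟨fun h => hq (Subtype.ext h), q.2⟩)

/-- the `p`-component of a subgroup -/
def comp [DecidableEq PP] (H : AddSubgroup ((p : PP) → V p)) (p : PP) : AddSubgroup (V p) :=
  H.comap (AddMonoidHom.single V p)

theorem mem_iff [DecidableEq PP] (hP : ∀ p ∈ PP, p.Prime)
    (hV : ∀ (p : PP) (v : V p), ((p : ℕ) : ℤ) • v = 0)
    (H : AddSubgroup ((p : PP) → V p)) (x : (p : PP) → V p) :
    x ∈ H ↔ ∀ p, x p ∈ comp H p := by
  constructor
  · intro hx p
    obtain ⟨c, ⟨a, ha⟩, hc⟩ := exists_idem hP p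
    have h1 : c • x = Pi.single p (x p) := by
      funext q
      by_cases hq : q = p
      · subst hq
        rw [Pi.smul_apply, Pi.single_eq_same]
        have h2 : c = 1 + a * ((q : ℕ) : ℤ) := by linear_combination ha
        rw [h2, add_smul, one_smul, mul_smul, hV, smul_zero, add_zero]
      · rw [Pi.smul_apply, Pi.single_eq_of_ne hq]
        obtain ⟨b, hb⟩ := hc q hq
        rw [hb, mul_comm, mul_smul, hV, smul_zero]
    show Pi.single p (x p) ∈ H
    rw [← h1]
    exact H.zsmul_mem hx c
  · intro h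
    have h1 : x = ∑ p, Pi.single p (x p) := (Finset.univ_sum_single x).symm
    rw [h1]
    exact H.sum_mem fun p _ => h p

theorem card_le_prod (hP : ∀ p ∈ PP, p.Prime) [∀ p, Finite (V p)]
    (hV : ∀ (p : PP) (v : V p), ((p : ℕ) : ℤ) • v = 0) :
    Nat.card (AddSubgroup ((p : PP) → V p)) ≤ ∏ p, Nat.card (AddSubgroup (V p)) := by
  classical
  rw [← Nat.card_pi]
  refine Nat.card_le_card_of_injective (fun H p => comp H p) fun H H' h => ?_
  ext x
  rw [mem_iff hP hV H, mem_iff hP hV H']
  refine forall_congr' fun p => ?_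
  have h1 : comp H p = comp H' p := congrFun h p
  rw [h1]

end CRT

theorem card_addSubgroup_two (p : ℕ) (hp : p.Prime) :
    Nat.card (AddSubgroup (Fin 2 → ZMod p)) ≤ p + 3 := by
  classical
  have := Fact.mk hp
  have h1 : Nat.card (AddSubgroup (Fin 2 → ZMod p)) = Nat.card (Submodule (ZMod p) (Fin 2 → ZMod p)) :=
    Nat.card_congr (AddSubgroup.toZModSubmodule p).toEquiv
  let f : Fin 3 ⊕ ZMod p → Submodule (ZMod p) (Fin 2 → ZMod p) := fun x => match x with
    | Sum.inl 0 => ⊥
    | Sum.inl 1 => ⊤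
    | Sum.inl 2 => Submodule.span (ZMod p) {![0, 1]}
    | Sum.inr t => Submodule.span (ZMod p) {![1, t]}
  have hf : Function.Surjective f := by
    intro S
    by_cases h : ∃ v ∈ S, v 0 ≠ 0
    · obtain ⟨v, hv, hv0⟩ := h
      have h2 : ![1, v 1 / v 0] ∈ S := by
        have h3 : ![1, v 1 / v 0] = (v 0)⁻¹ • v := by
          funext i
          fin_cases i
          · simp [hv0]
          · simp [div_eq_inv_mul]
        rw [h3]
        exact S.smul_mem _ hv
      set t := v 1 / v 0 with ht
      by_cases h4 : ∃ w ∈ S, w 1 ≠ w 0 * t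
      · obtain ⟨w, hw, hw1⟩ := h4
        refine ⟨Sum.inl 1, ?_⟩
        show ⊤ = S
        symm
        rw [eq_top_iff]
        intro x _
        have h5 : ![0, 1] ∈ S := by
          have h6 : ![0, 1] = (w 1 - w 0 * t)⁻¹ • (w - w 0 • ![1, t]) := by
            have h7 : w 1 - w 0 * t ≠ 0 := sub_ne_zero.2 hw1
            funext i
            fin_cases i
            · show (0 : ZMod p) = (w 1 - w 0 * t)⁻¹ * (w 0 - w 0 * 1)
              ring
            · show (1 : ZMod p) = (w 1 - w 0 * t)⁻¹ * (w 1 - w 0 * t)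
              rw [inv_mul_cancel₀ h7]
          rw [h6]
          exact S.smul_mem _ (S.sub_mem hw (S.smul_mem _ h2))
        have h8 : x = x 0 • ![1, t] + (x 1 - x 0 * t) • ![0, 1] := by
          funext i
          fin_cases i <;> simp
        rw [h8]
        exact S.add_mem (S.smul_mem _ h2) (S.smul_mem _ h5)
      · push Not at h4
        refine ⟨Sum.inr t, ?_⟩
        show Submodule.span (ZMod p) {![1, t]} = S
        refine le_antisymm ?_ ?_
        · rw [Submodule.span_le, Set.singleton_subset_iff]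
          exact h2
        · intro w hw
          rw [Submodule.mem_span_singleton]
          refine ⟨w 0, ?_⟩
          funext i
          fin_cases i
          · simp
          · simp [h4 w hw]
    · push Not at h
      by_cases h4 : ∃ w ∈ S, w 1 ≠ 0
      · obtain ⟨w, hw, hw1⟩ := h4
        refine ⟨Sum.inl 2, ?_⟩
        show Submodule.span (ZMod p) {![0, 1]} = S
        refine le_antisymm ?_ ?_
        · rw [Submodule.span_le, Set.singleton_subset_iff]
          have h6 : ![0, 1] = (w 1)⁻¹ • w := by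
            funext i
            fin_cases i
            · simp [h w hw]
            · simp [hw1]
          rw [h6]
          exact S.smul_mem _ hw
        · intro x hx
          rw [Submodule.mem_span_singleton]
          refine ⟨x 1, ?_⟩
          funext i
          fin_cases i
          · simp [h x hx]
          · simp
      · push Not at h4
        refine ⟨Sum.inl 0, ?_⟩
        show ⊥ = S
        symm
        rw [eq_bot_iff]
        intro x hx
        rw [Submodule.mem_bot]
        funext i
        fin_cases i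
        · exact h x hx
        · exact h4 x hx
  have h2 : Nat.card (Submodule (ZMod p) (Fin 2 → ZMod p)) ≤ Nat.card (Fin 3 ⊕ ZMod p) :=
    Nat.card_le_card_of_surjective f hf
  rw [h1]
  refine h2.trans ?_
  rw [Nat.card_eq_fintype_card, Fintype.card_sum, Fintype.card_fin, ZMod.card]
  omega

theorem card_addSubgroup_crude (p r : ℕ) (hp : p.Prime) :
    Nat.card (AddSubgroup (Fin r → ZMod p)) ≤ p ^ (r * r) := by
  classical
  have := Fact.mk hp
  have h1 : Nat.card (AddSubgroup (Fin r → ZMod p)) = Nat.card (Submodule (ZMod p) (Fin r → ZMod p)) :=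
    Nat.card_congr (AddSubgroup.toZModSubmodule p).toEquiv
  let f : (Fin r → Fin r → ZMod p) → Submodule (ZMod p) (Fin r → ZMod p) := fun v =>
    Submodule.span (ZMod p) (Set.range v)
  have hf : Function.Surjective f := by
    intro S
    let b := Module.finBasis (ZMod p) S
    have hd : Module.finrank (ZMod p) S ≤ r := by
      have := Submodule.finrank_le S
      rwa [Module.finrank_fintype_fun_eq_card, Fintype.card_fin] at this
    refine ⟨fun i => if h : (i : ℕ) < Module.finrank (ZMod p) S then (b ⟨i, h⟩ : Fin r → ZMod p) else 0, ?_⟩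
    show Submodule.span (ZMod p) (Set.range _) = S
    refine le_antisymm ?_ ?_
    · rw [Submodule.span_le]
      rintro _ ⟨i, rfl⟩
      dsimp only
      split_ifs with h
      · exact (b ⟨i, h⟩).2
      · exact S.zero_mem
    · intro x hx
      have h3 : (⟨x, hx⟩ : S) ∈ Submodule.span (ZMod p) (Set.range b) := by
        rw [b.span_eq]; trivial
      have h4 : x ∈ (Submodule.span (ZMod p) (Set.range b)).map S.subtype :=
        ⟨⟨x, hx⟩, h3, rfl⟩
      rw [Submodule.map_span, ← Set.range_comp] at h4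
      refine Submodule.span_mono ?_ h4
      rintro _ ⟨j, rfl⟩
      refine ⟨⟨j, lt_of_lt_of_le j.2 hd⟩, ?_⟩
      dsimp only
      rw [dif_pos j.2]
      rfl
  have h2 := Nat.card_le_card_of_surjective f hf
  rw [h1]
  refine h2.trans ?_
  rw [Nat.card_eq_fintype_card]
  simp only [Fintype.card_fun, Fintype.card_fin, ZMod.card]
  rw [← pow_mul]

/-- **Number of subgroups of `∏ (ZMod p)^2`.** -/
theorem card_subgroups_two (PP : Finset ℕ) (hP : ∀ p ∈ PP, p.Prime) :
    Nat.card (AddSubgroup ((p : PP) → Fin 2 → ZMod p)) ≤ ∏ p ∈ PP, (p + 3) := by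
  have hne : ∀ p : PP, NeZero (p : ℕ) := fun p => ⟨(hP p p.2).ne_zero⟩
  refine (card_le_prod hP fun p v => ?_).trans ?_
  · funext i
    rw [Pi.smul_apply, zsmul_eq_mul]
    simp
  · rw [← Finset.prod_coe_sort PP (fun p => p + 3)]
    exact Finset.prod_le_prod' fun p _ => card_addSubgroup_two p (hP p p.2)

/-- **Number of subgroups of `∏ (ZMod p)^r`**, crude. -/
theorem card_subgroups_crude (PP : Finset ℕ) (r : ℕ) (hP : ∀ p ∈ PP, p.Prime) :
    Nat.card (AddSubgroup ((p : PP) → Fin r → ZMod p)) ≤ (∏ p ∈ PP, p) ^ (r * r) := by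
  have hne : ∀ p : PP, NeZero (p : ℕ) := fun p => ⟨(hP p p.2).ne_zero⟩
  refine (card_le_prod hP fun p v => ?_).trans ?_
  · funext i
    rw [Pi.smul_apply, zsmul_eq_mul]
    simp
  · rw [← Finset.prod_pow, ← Finset.prod_coe_sort PP (fun p => p ^ (r * r))]
    exact Finset.prod_le_prod' fun p _ => card_addSubgroup_crude p r (hP p p.2)

end Vale.Agent.P160.Half.SubG376
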