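import Vale.Agent.P160.Half.FlatI
import Vale.Agent.P160.Half.SparseSq

/-! # P160-HALF (M): first moment of kernel tuples sorted by the subgroup they generate
(helper366's 11197 (a), helper502's 11331 (A) and Lemma M). -/

namespace Vale.Agent.P160.Half.SubG950

open Finset Vale.Agent.P160 Vale.Agent.P160.Half.Flat

set_option linter.unusedSectionVars false

/-! ## Number of subgroups -/

section count

variable {ι : Type*} [Fintype ι] [DecidableEq ι] {G : ι → Type*} [∀ i, AddCommGroup (G i)]
  [∀ i, Fintype (G i)]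

/-- the elements of the `i`-th factor which lie in `H` -/
def part (H : AddSubgroup (∀ i, G i)) (i : ι) : AddSubgroup (G i) :=
  H.comap (AddMonoidHom.single G i)

theorem single_mem (hco : ∀ i j, i ≠ j → (Fintype.card (G i)).Coprime (Fintype.card (G j)))
    (H : AddSubgroup (∀ i, G i)) {h : ∀ i, G i} (hh : h ∈ H) (i : ι) :
    (Pi.single i (h i) : ∀ i, G i) ∈ H := by
  have hc : (Fintype.card (G i)).Coprime (∏ j ∈ univ.erase i, Fintype.card (G j)) :=
    Nat.Coprime.prod_right fun j hj => hco i j (Ne.symm (Finset.ne_of_mem_erase hj))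
  obtain ⟨m, hm1, hm2⟩ := Nat.chineseRemainder hc 1 0
  have e : m • h = (Pi.single i (h i) : ∀ i, G i) := by
    funext j
    by_cases hj : j = i
    · subst hj
      rw [Pi.single_eq_same, Pi.smul_apply]
      have h1 : m • h j = 1 • h j := by
        apply (nsmul_eq_nsmul_iff_modEq).2
        exact hm1.of_dvd (addOrderOf_dvd_card)
      rw [h1, one_smul]
    · rw [Pi.single_eq_of_ne hj, Pi.smul_apply]
      have h2 : (∏ j ∈ univ.erase i, Fintype.card (G j)) ∣ m := (Nat.modEq_zero_iff_dvd).1 hm2
      have h3 : Fintype.card (G j) ∣ m :=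
        (Finset.dvd_prod_of_mem _ (mem_erase.2 ⟨hj, mem_univ j⟩)).trans h2
      obtain ⟨c, rfl⟩ := h3
      rw [mul_comm, mul_smul, card_nsmul_eq_zero, smul_zero]
  rw [← e]
  exact H.nsmul_mem hh m

theorem part_inj (hco : ∀ i j, i ≠ j → (Fintype.card (G i)).Coprime (Fintype.card (G j))) :
    Function.Injective (part : AddSubgroup (∀ i, G i) → ∀ i, AddSubgroup (G i)) := by
  intro H K hHK
  have key : ∀ H K : AddSubgroup (∀ i, G i), part H = part K → H ≤ K := by
    intro H K hHK h hh
    have : h = ∑ i, (Pi.single i (h i) : ∀ i, G i) := (Finset.univ_sum_single h).symm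
    rw [this]
    refine K.sum_mem fun i _ => ?_
    have h1 : h i ∈ part H i := single_mem hco H hh i
    rw [hHK] at h1
    exact h1
  exact le_antisymm (key H K hHK) (key K H hHK.symm)

theorem card_sub_pi (hco : ∀ i j, i ≠ j → (Fintype.card (G i)).Coprime (Fintype.card (G j))) :
    Nat.card (AddSubgroup (∀ i, G i)) ≤ ∏ i, Nat.card (AddSubgroup (G i)) := by
  have : ∀ i, Finite (AddSubgroup (G i)) := fun i => inferInstance
  have h := Nat.card_le_card_of_injective _ (part_inj hco)
  rwa [Nat.card_pi] at h

/-- subgroups of `F_p × F_p` -/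
theorem card_sub_two (p : ℕ) [Fact p.Prime] : Nat.card (AddSubgroup (ZMod p × ZMod p)) ≤ p + 3 := by
  classical
  let f : Fin 3 ⊕ ZMod p → AddSubgroup (ZMod p × ZMod p) := fun x =>
    match x with
    | Sum.inl 0 => ⊥
    | Sum.inl 1 => ⊤
    | Sum.inl 2 => AddSubgroup.closure {((0 : ZMod p), (1 : ZMod p))}
    | Sum.inr c => AddSubgroup.closure {((1 : ZMod p), c)}
  have hsm : ∀ (H : AddSubgroup (ZMod p × ZMod p)) (x : ZMod p × ZMod p) (c : ZMod p), x ∈ H →
      c • x ∈ H := by
    intro H x c hx
    have : c • x = c.val • x := by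
      rw [← Nat.cast_smul_eq_nsmul (ZMod p), ZMod.natCast_zmod_val]
    rw [this]
    exact H.nsmul_mem hx _
  have hf : Function.Surjective f := by
    intro H
    by_cases h1 : ∃ x ∈ H, x.1 ≠ 0
    · obtain ⟨x, hx, hx1⟩ := h1
      have h2 : ((1 : ZMod p), x.1⁻¹ * x.2) ∈ H := by
        have := hsm H x x.1⁻¹ hx
        have e : x.1⁻¹ • x = ((1 : ZMod p), x.1⁻¹ * x.2) := by
          ext
          · simp [hx1]
          · simp
        rwa [e] at this
      set c := x.1⁻¹ * x.2 with hc
      by_cases h3 : ∀ y ∈ H, y.2 = c * y.1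
      · refine ⟨Sum.inr c, le_antisymm ((AddSubgroup.closure_le _).2 (by simpa using h2)) ?_⟩
        intro y hy
        have e : y = y.1 • ((1 : ZMod p), c) := by
          ext
          · simp
          · simp only [Prod.smul_mk, smul_eq_mul]
            rw [h3 y hy, mul_comm]
        rw [e]
        exact hsm _ _ _ (AddSubgroup.subset_closure rfl)
      · push Not at h3
        obtain ⟨y, hy, hyc⟩ := h3
        have h4 : ((0 : ZMod p), y.2 - c * y.1) ∈ H := by
          have := H.sub_mem hy (hsm H _ y.1 h2)
          have e : y - y.1 • ((1 : ZMod p), c) = ((0 : ZMod p), y.2 - c * y.1) := by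
            ext
            · simp
            · simp [mul_comm]
          rwa [e] at this
        have h5 : ((0 : ZMod p), (1 : ZMod p)) ∈ H := by
          have := hsm H _ (y.2 - c * y.1)⁻¹ h4
          have hne : y.2 - c * y.1 ≠ 0 := sub_ne_zero.2 hyc
          have e : (y.2 - c * y.1)⁻¹ • ((0 : ZMod p), y.2 - c * y.1) = ((0 : ZMod p), (1 : ZMod p)) := by
            ext
            · simp
            · simp [hne]
          rwa [e] at this
        refine ⟨Sum.inl 1, le_antisymm ?_ le_top⟩
        intro z _
        have e : z = z.1 • ((1 : ZMod p), c) + (z.2 - z.1 * c) • ((0 : ZMod p), (1 : ZMod p)) := by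
          ext
          · simp
          · simp
        rw [e]
        exact H.add_mem (hsm H _ _ h2) (hsm H _ _ h5)
    · push Not at h1
      by_cases h2 : ∃ x ∈ H, x.2 ≠ 0
      · obtain ⟨x, hx, hx2⟩ := h2
        have h5 : ((0 : ZMod p), (1 : ZMod p)) ∈ H := by
          have := hsm H x x.2⁻¹ hx
          have e : x.2⁻¹ • x = ((0 : ZMod p), (1 : ZMod p)) := by
            ext
            · simp [h1 x hx]
            · simp [hx2]
          rwa [e] at this
        refine ⟨Sum.inl 2, le_antisymm ((AddSubgroup.closure_le _).2 (by simpa using h5)) ?_⟩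
        intro y hy
        have e : y = y.2 • ((0 : ZMod p), (1 : ZMod p)) := by
          ext
          · simp [h1 y hy]
          · simp
        rw [e]
        exact hsm _ _ _ (AddSubgroup.subset_closure rfl)
      · push Not at h2
        refine ⟨Sum.inl 0, le_antisymm bot_le ?_⟩
        intro y hy
        have : y = 0 := Prod.ext (h1 y hy) (h2 y hy)
        rw [this]
        exact AddSubgroup.zero_mem _
  have h := Nat.card_le_card_of_surjective f hf
  rw [Nat.card_sum, Nat.card_eq_fintype_card (α := Fin 3), Fintype.card_fin, Nat.card_zmod] at h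
  omega

theorem card_sub_two' (p : ℕ) [Fact p.Prime] :
    Nat.card (AddSubgroup (Fin 2 → ZMod p)) ≤ p + 3 := by
  let f : (Fin 2 → ZMod p) ≃+ (ZMod p × ZMod p) :=
    { toFun := fun v => (v 0, v 1)
      invFun := fun x => ![x.1, x.2]
      left_inv := fun v => by
        funext i
        fin_cases i <;> rfl
      right_inv := fun x => rfl
      map_add' := fun _ _ => rfl }
  rw [Nat.card_congr f.mapAddSubgroup.toEquiv]
  exact card_sub_two p

/-- crude bound for the number of subgroups of `F_p ^ r` -/
theorem card_sub_pow (p r : ℕ) [Fact p.Prime] :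
    Nat.card (AddSubgroup (Fin r → ZMod p)) ≤ p ^ (r * r) := by
  classical
  have hf : Function.Surjective (fun v : Fin r → Fin r → ZMod p =>
      (Submodule.span (ZMod p) (Set.range v)).toAddSubgroup) := by
    intro H
    let V : Submodule (ZMod p) (Fin r → ZMod p) := AddSubgroup.toZModSubmodule p H
    have hV : V.toAddSubgroup = H := by
      ext x
      simp [V]
    have hr : Module.finrank (ZMod p) V ≤ r := by
      have := Submodule.finrank_le V
      rwa [Module.finrank_fin_fun] at this
    let b := Module.finBasis (ZMod p) V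
    let v : Fin r → Fin r → ZMod p := fun i =>
      if h : i.val < Module.finrank (ZMod p) V then (b ⟨i.val, h⟩ : Fin r → ZMod p) else 0
    refine ⟨v, ?_⟩
    have hs : Submodule.span (ZMod p) (Set.range v) = V := by
      apply le_antisymm
      · rw [Submodule.span_le]
        rintro _ ⟨i, rfl⟩
        simp only [v]
        split_ifs with h
        · exact (b ⟨i.val, h⟩).2
        · exact V.zero_mem
      · have h1 : V = Submodule.map V.subtype ⊤ := by simp
        rw [h1, ← b.span_eq, Submodule.map_span, Submodule.span_le]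
        rintro _ ⟨_, ⟨i, rfl⟩, rfl⟩
        apply Submodule.subset_span
        refine ⟨⟨i.val, lt_of_lt_of_le i.2 hr⟩, ?_⟩
        simp only [v, i.2, dif_pos]
        rfl
    change (Submodule.span (ZMod p) (Set.range v)).toAddSubgroup = H
    rw [hs, hV]
  have h := Nat.card_le_card_of_surjective _ hf
  rw [Nat.card_eq_fintype_card (α := Fin r → Fin r → ZMod p)] at h
  rw [Fintype.card_fun, Fintype.card_fun, Fintype.card_fin, ZMod.card, ← pow_mul] at h
  exact h

end count

/-! ## First moment -/

section first

/-- the entry law `e` is dominated by the lazy law `cf M` (`M = 8`: the same as `Good439.DomL`) -/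
def DomL (M : ℕ) {Om : Type} [Fintype Om] (e : Om → ℤ) : Prop :=
  ∀ (G : Type) [AddCommGroup G] [Fintype G] [DecidableEq G] (a : ℕ) (y : Fin a → G),
    (Fintype.card G : ℝ) *
      ((univ.filter fun x : Fin a → Om => ∑ c, e (x c) • y c = 0).card : ℝ) ≤
      (Fintype.card Om : ℝ) ^ a * gZ M y

variable {M : ℕ} {Om : Type} [Fintype Om] {G : Type} [AddCommGroup G] [Fintype G] {a j : ℕ}

/-- the vectors of `N` annihilated by the rows of `Y` (the same as `Good439.kerF`) -/
noncomputable def kerF {Om : Type} (e : Om → ℤ) {G : Type} [AddCommGroup G] {a j : ℕ}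
    (Y : Fin j → Fin a → Om) (N : Finset (Fin a → G)) : Finset (Fin a → G) := by
  classical exact N.filter fun w => ∀ j', ∑ c, e (Y j' c) • w c = 0

lemma gZ_nonneg {M : ℕ} (hM : 4 ≤ M) {m : ℕ} (y : Fin m → G) : 0 ≤ gZ M y :=
  Finset.sum_nonneg fun ψ _ => Finset.prod_nonneg fun c _ => cf_nonneg hM (ψ.norm_apply (y c))

/-- the subgroup generated by the coordinates -/
def gen (w : Fin a → G) : AddSubgroup G := AddSubgroup.closure (Set.range w)

/-- `w` as a vector with values in `gen w` -/
def wg (w : Fin a → G) : Fin a → gen w := fun i => ⟨w i, AddSubgroup.subset_closure ⟨i, rfl⟩⟩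

noncomputable instance (H : AddSubgroup G) : Fintype H := Fintype.ofFinite _

/-- `|H| P(walk = 0)` for `H` the subgroup generated by the coordinates -/
noncomputable def zH (M : ℕ) (w : Fin a → G) : ℝ := gZ M (wg w)

theorem zH_nonneg (hM : 4 ≤ M) (w : Fin a → G) : 0 ≤ zH M w := gZ_nonneg hM _

open scoped Classical in
theorem orth_le {e : Om → ℤ} (hD : DomL M e) (w : Fin a → G) :
    (Nat.card (gen w) : ℝ) *
      ((univ.filter fun x : Fin a → Om => ∑ c, e (x c) • w c = 0).card : ℝ) ≤
      (Fintype.card Om : ℝ) ^ a * zH M w := by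
  have h := hD (gen w) a (wg w)
  have e1 : (univ.filter fun x : Fin a → Om => ∑ c, e (x c) • w c = 0) =
      (univ.filter fun x : Fin a → Om => ∑ c, e (x c) • wg w c = 0) := by
    ext x
    simp only [mem_filter, mem_univ, true_and]
    rw [← ZeroMemClass.coe_eq_zero (S' := gen w)]
    simp [wg]
  rw [e1, Nat.card_eq_fintype_card]
  unfold zH
  convert h

open scoped Classical in
/-- exchange of the sums, general form: vectors of a set `N`, all with `zH ≤ T w` -/
theorem sum_ker {e : Om → ℤ} (hD : DomL M e) (N : Finset (Fin a → G)) :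
    (∑ Y : Fin j → Fin a → Om, ((kerF e Y N).card : ℝ)) ≤
      (Fintype.card Om : ℝ) ^ (a * j) * ∑ w ∈ N, (zH M w / Nat.card (gen w)) ^ j := by
  have h1 : (∑ Y : Fin j → Fin a → Om, ((kerF e Y N).card : ℝ)) =
      ∑ w ∈ N, ((univ.filter fun x : Fin a → Om => ∑ c, e (x c) • w c = 0).card : ℝ) ^ j := by
    have h2 : ∀ Y : Fin j → Fin a → Om, ((kerF e Y N).card : ℝ) =
          ∑ w ∈ N, if (∀ j', ∑ c, e (Y j' c) • w c = 0) then (1 : ℝ) else 0 := by
      intro Y
      unfold kerF
      rw [card_filter]
      push_cast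
      rfl
    simp only [h2]
    rw [sum_comm]
    refine sum_congr rfl fun w _ => ?_
    have h3 : (univ.filter fun Y : Fin j → Fin a → Om => ∀ j', ∑ c, e (Y j' c) • w c = 0) =
        Fintype.piFinset (fun _ : Fin j =>
          univ.filter fun x : Fin a → Om => ∑ c, e (x c) • w c = 0) := by
      ext Y
      simp
    have h4 : ((univ.filter fun Y : Fin j → Fin a → Om =>
        ∀ j', ∑ c, e (Y j' c) • w c = 0).card : ℝ) =
        ((univ.filter fun x : Fin a → Om => ∑ c, e (x c) • w c = 0).card : ℝ) ^ j := by
      rw [h3, Fintype.card_piFinset_const]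
      push_cast
      rfl
    rw [← h4, card_filter]
    push_cast
    rfl
  rw [h1, mul_sum]
  refine sum_le_sum fun w _ => ?_
  have h5 := orth_le hD w
  have hc : (0 : ℝ) < Nat.card (gen w) := by exact_mod_cast Nat.card_pos
  rw [pow_mul, ← mul_pow]
  refine pow_le_pow_left₀ (by positivity) ?_ j
  rw [← mul_div_assoc, le_div_iff₀ hc, mul_comm]
  exact h5

open scoped Classical in
/-- **first moment of the kernel vectors which are flat in the group they generate** -/
theorem first_moment (hM : 4 ≤ M) {e : Om → ℤ} (hD : DomL M e) (haj : a ≤ j) {T : ℝ} (hT : 0 ≤ T) :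
    (∑ Y : Fin j → Fin a → Om,
      ((kerF e Y (univ.filter fun w : Fin a → G => zH M w ≤ T)).card : ℝ)) ≤
      (Fintype.card Om : ℝ) ^ (a * j) * (Nat.card (AddSubgroup G) * T ^ j) := by
  refine (sum_ker hD _).trans (mul_le_mul_of_nonneg_left ?_ (by positivity))
  have hfin : Finite (AddSubgroup G) := inferInstance
  have : Fintype (AddSubgroup G) := Fintype.ofFinite _
  calc ∑ w ∈ univ.filter (fun w : Fin a → G => zH M w ≤ T), (zH M w / Nat.card (gen w)) ^ j
      = ∑ H : AddSubgroup G, ∑ w ∈ (univ.filter (fun w : Fin a → G => zH M w ≤ T)).filter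
          (fun w => gen w = H), (zH M w / Nat.card (gen w)) ^ j :=
        (sum_fiberwise_of_maps_to (fun _ _ => mem_univ _) _).symm
    _ ≤ ∑ _H : AddSubgroup G, T ^ j := by
        refine sum_le_sum fun H _ => ?_
        have hH : (0 : ℝ) < Nat.card H := by exact_mod_cast Nat.card_pos
        have hH1 : (1 : ℝ) ≤ Nat.card H := by exact_mod_cast Nat.card_pos (α := H)
        calc ∑ w ∈ (univ.filter (fun w : Fin a → G => zH M w ≤ T)).filter
              (fun w => gen w = H), (zH M w / Nat.card (gen w)) ^ j
            ≤ ∑ w ∈ (univ.filter (fun w : Fin a → G => zH M w ≤ T)).filter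
              (fun w => gen w = H), (T / Nat.card H) ^ j := by
              refine sum_le_sum fun w hw => ?_
              obtain ⟨h1, h2⟩ := mem_filter.1 hw
              have h3 : zH M w ≤ T := (mem_filter.1 h1).2
              rw [h2]
              refine pow_le_pow_left₀ (div_nonneg (zH_nonneg hM w) hH.le) ?_ j
              gcongr
          _ = (((univ.filter (fun w : Fin a → G => zH M w ≤ T)).filter
              (fun w => gen w = H)).card : ℝ) * (T / Nat.card H) ^ j := by
              rw [sum_const, nsmul_eq_mul]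
          _ ≤ (Nat.card H : ℝ) ^ a * (T / Nat.card H) ^ j := by
              refine mul_le_mul_of_nonneg_right ?_ (by positivity)
              have hc : Nat.card {w // w ∈ (univ.filter (fun w : Fin a → G => zH M w ≤ T)).filter
                  (fun w => gen w = H)} ≤ Nat.card (Fin a → H) := by
                refine Nat.card_le_card_of_injective (fun w => fun i => ⟨w.1 i, ?_⟩) ?_
                · have h2 := (mem_filter.1 w.2).2
                  have h3 : w.1 i ∈ gen w.1 := AddSubgroup.subset_closure ⟨i, rfl⟩
                  exact h2.le h3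
                · intro w w' h
                  apply Subtype.ext
                  funext i
                  exact congrArg Subtype.val (congrFun h i)
              rw [Nat.card_fun, Nat.card_eq_fintype_card (α := Fin a), Fintype.card_fin,
                Nat.card_eq_fintype_card, Fintype.card_coe] at hc
              exact_mod_cast hc
          _ ≤ (Nat.card H : ℝ) ^ j * (T / Nat.card H) ^ j := by
              refine mul_le_mul_of_nonneg_right (pow_le_pow_right₀ hH1 haj) (by positivity)
          _ = T ^ j := by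
              rw [← mul_pow, mul_div_cancel₀ _ hH.ne']
    _ = Nat.card (AddSubgroup G) * T ^ j := by
        rw [sum_const, card_univ, nsmul_eq_mul, Nat.card_eq_fintype_card]

/-- all kernel vectors are flat: the number of kernel vectors -/
theorem first_moment' (hM : 4 ≤ M) {e : Om → ℤ} (hD : DomL M e) (haj : a ≤ j) {T : ℝ} (hT : 0 ≤ T) :
    (∑ Y : Fin j → Fin a → Om, (by
      classical exact if ∀ w ∈ kerF e Y (univ : Finset (Fin a → G)), zH M w ≤ T then
        ((kerF e Y (univ : Finset (Fin a → G))).card : ℝ) else 0)) ≤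
      (Fintype.card Om : ℝ) ^ (a * j) * (Nat.card (AddSubgroup G) * T ^ j) := by
  classical
  refine le_trans (sum_le_sum fun Y _ => ?_) (first_moment hM hD haj hT)
  split_ifs with h
  · refine Nat.cast_le.2 (card_le_card fun w hw => ?_)
    have h1 := h w hw
    unfold kerF at hw ⊢
    rw [mem_filter] at hw ⊢
    exact ⟨mem_filter.2 ⟨mem_univ _, h1⟩, hw.2⟩
  · positivity

end first

/-! ## The weights -/

section weight

variable {M : ℕ} {Om : Type} [Fintype Om] {a j : ℕ}

/-- rank mod `p` of the matrix with rows `Y` -/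
noncomputable def rk (e : Om → ℤ) (p : ℕ) (Y : Fin j → Fin a → Om) : ℕ :=
  (Matrix.of fun i c => ((e (Y i c) : ℤ) : ZMod p)).rank

theorem card_ker_mulVec (p : ℕ) [Fact p.Prime] (A : Matrix (Fin j) (Fin a) (ZMod p)) :
    Nat.card {u : Fin a → ZMod p // A.mulVec u = 0} = p ^ (a - A.rank) := by
  have h1 : Nat.card {u : Fin a → ZMod p // A.mulVec u = 0} = Nat.card (LinearMap.ker A.mulVecLin) :=
    Nat.card_congr (Equiv.subtypeEquivRight fun u => by rw [LinearMap.mem_ker]; rfl)
  rw [h1, Module.natCard_eq_pow_finrank (K := ZMod p), Nat.card_zmod]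
  congr 1
  have h2 := LinearMap.finrank_range_add_finrank_ker A.mulVecLin
  rw [Module.finrank_fin_fun] at h2
  unfold Matrix.rank
  omega

theorem card_ker (e : Om → ℤ) (PP : Finset ℕ) [∀ p : PP, Fact (p : ℕ).Prime] (r : ℕ)
    (Y : Fin j → Fin a → Om) :
    (kerF e Y (univ : Finset (Fin a → ∀ p : PP, Fin r → ZMod p))).card =
      ∏ p ∈ PP, p ^ (r * (a - rk e p Y)) := by
  classical
  have h1 : (kerF e Y (univ : Finset (Fin a → ∀ p : PP, Fin r → ZMod p))).card =
      Nat.card (∀ p : PP, Fin r → {u : Fin a → ZMod p //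
        (Matrix.of fun i c => ((e (Y i c) : ℤ) : ZMod p)).mulVec u = 0}) := by
    have h0 : (kerF e Y (univ : Finset (Fin a → ∀ p : PP, Fin r → ZMod p))).card =
        Nat.card {w : Fin a → ∀ p : PP, Fin r → ZMod p // ∀ j', ∑ c, e (Y j' c) • w c = 0} := by
      unfold kerF
      rw [Nat.card_eq_fintype_card, Fintype.card_subtype]
      congr!
    rw [h0]
    have hiff : ∀ (w : Fin a → ∀ p : PP, Fin r → ZMod p),
        (∀ j', ∑ c, e (Y j' c) • w c = 0) ↔ ∀ (p : PP) (s : Fin r),
          (Matrix.of fun i c => ((e (Y i c) : ℤ) : ZMod p)).mulVec (fun c => w c p s) = 0 := by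
      intro w
      constructor
      · intro h p s
        funext i
        have := congrFun (congrFun (h i) p) s
        simpa [Matrix.mulVec, dotProduct, Finset.sum_apply] using this
      · intro h i
        funext p s
        have := congrFun (h p s) i
        simpa [Matrix.mulVec, dotProduct, Finset.sum_apply] using this
    exact Nat.card_congr
      { toFun := fun w p s => ⟨fun c => w.1 c p s, (hiff w.1).1 w.2 p s⟩
        invFun := fun v => ⟨fun c p s => (v p s).1 c, (hiff _).2 fun p s => (v p s).2⟩
        left_inv := fun _ => rfl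
        right_inv := fun _ => rfl }
  rw [h1, Nat.card_pi]
  have h2 : ∀ p : PP, Nat.card (Fin r → {u : Fin a → ZMod p //
        (Matrix.of fun i c => ((e (Y i c) : ℤ) : ZMod p)).mulVec u = 0}) =
      (p : ℕ) ^ (r * (a - rk e p Y)) := by
    intro p
    rw [Nat.card_fun, card_ker_mulVec, Nat.card_eq_fintype_card, Fintype.card_fin, ← pow_mul,
      mul_comm]
    rfl
  rw [Finset.prod_congr rfl fun p _ => h2 p]
  exact Finset.prod_coe_sort PP (fun p => p ^ (r * (a - rk e p Y)))

/-- number of subgroups of the group of pairs -/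
theorem card_sub_pairs (PP : Finset ℕ) [∀ p : PP, Fact (p : ℕ).Prime] :
    Nat.card (AddSubgroup (∀ p : PP, Fin 2 → ZMod p)) ≤ ∏ p ∈ PP, (p + 3) := by
  classical
  refine (card_sub_pi (G := fun p : PP => Fin 2 → ZMod p) ?_).trans ?_
  · intro p q hpq
    rw [Fintype.card_fun, Fintype.card_fun, ZMod.card, ZMod.card]
    exact Nat.Coprime.pow _ _ ((Nat.coprime_primes Fact.out Fact.out).2 fun h => hpq (Subtype.ext h))
  · refine (Finset.prod_le_prod' fun p _ => card_sub_two' p.1).trans (le_of_eq ?_)
    exact Finset.prod_coe_sort PP (fun p => p + 3)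

/-- number of subgroups of the group of `r`-tuples -/
theorem card_sub_tuples (PP : Finset ℕ) [∀ p : PP, Fact (p : ℕ).Prime] (r : ℕ) :
    Nat.card (AddSubgroup (∀ p : PP, Fin r → ZMod p)) ≤ (∏ p ∈ PP, p) ^ (r * r) := by
  classical
  refine (card_sub_pi (G := fun p : PP => Fin r → ZMod p) ?_).trans ?_
  · intro p q hpq
    rw [Fintype.card_fun, Fintype.card_fun, ZMod.card, ZMod.card]
    exact Nat.Coprime.pow _ _ ((Nat.coprime_primes Fact.out Fact.out).2 fun h => hpq (Subtype.ext h))
  · refine (Finset.prod_le_prod' fun p _ => card_sub_pow p.1 r).trans (le_of_eq ?_)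
    rw [← Finset.prod_pow]
    exact Finset.prod_coe_sort PP (fun p => p ^ (r * r))

/-- **Part (A)**: second moment of the kernel over the matrices all whose kernel pairs are flat. -/
theorem partA (hM : 4 ≤ M) {e : Om → ℤ} (hD : DomL M e) (haj : a ≤ j) {T : ℝ} (hT : 0 ≤ T)
    (PP : Finset ℕ) [∀ p : PP, Fact (p : ℕ).Prime] :
    (∑ Y : Fin j → Fin a → Om, (by
      classical exact
        if ∀ w ∈ kerF e Y (univ : Finset (Fin a → ∀ p : PP, Fin 2 → ZMod p)), zH M w ≤ T then
        ∏ p ∈ PP, (p : ℝ) ^ (2 * (a - rk e p Y)) else 0)) ≤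
      (Fintype.card Om : ℝ) ^ (a * j) * ((∏ p ∈ PP, ((p : ℝ) + 3)) * T ^ j) := by
  classical
  have h := first_moment' (G := ∀ p : PP, Fin 2 → ZMod p) (a := a) (j := j) hM hD haj hT
  refine le_trans (le_of_eq ?_) (h.trans ?_)
  · refine Finset.sum_congr rfl fun Y _ => ?_
    rw [card_ker]
    push_cast
    rfl
  · have h2 := card_sub_pairs PP
    have h3 : (Nat.card (AddSubgroup (∀ p : PP, Fin 2 → ZMod p)) : ℝ) ≤ ∏ p ∈ PP, ((p : ℝ) + 3) := by
      exact_mod_cast h2
    gcongr

end weight

end Vale.Agent.P160.Half.SubG950
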