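import Vale.Agent.P160.Half.SubG950

/-! # P160-HALF (M): kernel tuples off the sparse event are nonsparse; dyadic level sums
(helper502's 11331). -/

namespace Vale.Agent.P160.Half.SubG950b

open Finset Vale.Agent.P160 Vale.Agent.P160.Half.Flat Vale.Agent.P160.Half.SubG950

set_option linter.unusedSectionVars false

/-- one integer projects to the factor `i` -/
theorem exists_nsmul_single {ι : Type*} [Fintype ι] [DecidableEq ι] {G : ι → Type*}
    [∀ i, AddCommGroup (G i)] [∀ i, Fintype (G i)]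
    (hco : ∀ i j, i ≠ j → (Fintype.card (G i)).Coprime (Fintype.card (G j))) (i : ι) :
    ∃ m : ℕ, ∀ h : ∀ i, G i, m • h = (Pi.single i (h i) : ∀ i, G i) := by
  have hc : (Fintype.card (G i)).Coprime (∏ j ∈ univ.erase i, Fintype.card (G j)) :=
    Nat.Coprime.prod_right fun j hj => hco i j (Ne.symm (Finset.ne_of_mem_erase hj))
  obtain ⟨m, hm1, hm2⟩ := Nat.chineseRemainder hc 1 0
  refine ⟨m, fun h => ?_⟩
  funext j
  by_cases hj : j = i
  · subst hj
    rw [Pi.single_eq_same, Pi.smul_apply]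
    have h1 : m • h j = 1 • h j := by
      apply (nsmul_eq_nsmul_iff_modEq).2
      exact hm1.of_dvd (addOrderOf_dvd_card)
    rw [h1, one_smul]
  · rw [Pi.single_eq_of_ne hj, Pi.smul_apply]
    have h2 : (∏ j ∈ univ.erase i, Fintype.card (G j)) ∣ m := (Nat.modEq_zero_iff_dvd).1 hm2
    have h3 : Fintype.card (G j) ∣ m :=
      (Finset.dvd_prod_of_mem _ (mem_erase.2 ⟨hj, mem_univ j⟩)).trans h2
    obtain ⟨c, rfl⟩ := h3
    rw [mul_comm, mul_smul, card_nsmul_eq_zero, smul_zero]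

section nonsparse

variable {Om : Type} [Fintype Om] {a j : ℕ}

/-- **Nonsparse**: if there is no nonzero kernel vector mod `p` of support `< E` (`p ∈ PP`), every
kernel vector with values in `∏ F_p ^ r` is nonsparse in the group which it generates. -/
theorem nonSp (e : Om → ℤ) (PP : Finset ℕ) [∀ p : PP, Fact (p : ℕ).Prime] (r : ℕ) (E : ℝ)
    (Y : Fin j → Fin a → Om)
    (hS : ∀ p : PP, ∀ u : Fin a → ZMod p, u ≠ 0 →
      (∀ j', ∑ c, ((e (Y j' c) : ℤ) : ZMod p) * u c = 0) →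
      E ≤ ((univ.filter fun c => u c ≠ 0).card : ℝ))
    (w : Fin a → ∀ p : PP, Fin r → ZMod p) (hw : ∀ j', ∑ c, e (Y j' c) • w c = 0) :
    NonSp E (wg w) := by
  classical
  intro ψ hψ
  have hco : ∀ p q : PP, p ≠ q → (Fintype.card (Fin r → ZMod p)).Coprime
      (Fintype.card (Fin r → ZMod q)) := by
    intro p q hpq
    rw [Fintype.card_fun, Fintype.card_fun, ZMod.card, ZMod.card]
    exact Nat.Coprime.pow _ _ ((Nat.coprime_primes Fact.out Fact.out).2 fun h => hpq (Subtype.ext h))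
  -- some coordinate with nontrivial value
  have h1 : ∃ c, ψ (wg w c) ≠ 1 := by
    by_contra hcon
    push Not at hcon
    apply hψ
    ext x
    rw [AddChar.one_apply]
    obtain ⟨x, hx⟩ := x
    induction hx using AddSubgroup.closure_induction with
    | mem x hx =>
      obtain ⟨c, rfl⟩ := hx
      exact hcon c
    | zero => exact ψ.map_zero_eq_one
    | add x y hx hy ihx ihy =>
      have : (⟨x + y, (gen w).add_mem hx hy⟩ : gen w) = ⟨x, hx⟩ + ⟨y, hy⟩ := rfl
      rw [this, ψ.map_add_eq_mul, ihx, ihy, one_mul]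
    | neg x hx ihx =>
      have : (⟨-x, (gen w).neg_mem hx⟩ : gen w) = -⟨x, hx⟩ := rfl
      rw [this, ψ.map_neg_eq_inv, ihx, inv_one]
  obtain ⟨c₀, hc₀⟩ := h1
  -- the parts
  have hmem : ∀ c (p : PP), (Pi.single p (w c p) : ∀ p : PP, Fin r → ZMod p) ∈ gen w := fun c p =>
    single_mem hco (gen w) (AddSubgroup.subset_closure ⟨c, rfl⟩) p
  have h2 : ∃ p : PP, ψ ⟨Pi.single p (w c₀ p), hmem c₀ p⟩ ≠ 1 := by
    by_contra hcon
    push Not at hcon
    apply hc₀
    have : wg w c₀ = ∑ p : PP, (⟨Pi.single p (w c₀ p), hmem c₀ p⟩ : gen w) := by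
      apply Subtype.ext
      rw [AddSubgroup.val_finsetSum]
      exact (Finset.univ_sum_single (w c₀)).symm
    rw [this]
    have hs : ∀ s : Finset PP, ψ (∑ p ∈ s, (⟨Pi.single p (w c₀ p), hmem c₀ p⟩ : gen w)) = 1 := by
      intro s
      induction s using Finset.induction_on with
      | empty => rw [Finset.sum_empty, ψ.map_zero_eq_one]
      | insert p s hps ih => rw [Finset.sum_insert hps, ψ.map_add_eq_mul, ih, hcon p, one_mul]
    exact hs univ
  obtain ⟨p, hp⟩ := h2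
  -- the kernel of the `p`-part
  let K : AddSubgroup (Fin r → ZMod p) :=
    { carrier := {v | ∃ hv : (Pi.single p v : ∀ p : PP, Fin r → ZMod p) ∈ gen w,
        ψ ⟨Pi.single p v, hv⟩ = 1}
      zero_mem' := by
        refine ⟨by rw [Pi.single_zero]; exact (gen w).zero_mem, ?_⟩
        have : (⟨Pi.single p 0, by rw [Pi.single_zero]; exact (gen w).zero_mem⟩ : gen w) = 0 :=
          Subtype.ext (Pi.single_zero p)
        rw [this, ψ.map_zero_eq_one]
      add_mem' := by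
        rintro x y ⟨hx, hx1⟩ ⟨hy, hy1⟩
        refine ⟨by rw [Pi.single_add]; exact (gen w).add_mem hx hy, ?_⟩
        have : (⟨Pi.single p (x + y), by rw [Pi.single_add]; exact (gen w).add_mem hx hy⟩ : gen w) =
            ⟨Pi.single p x, hx⟩ + ⟨Pi.single p y, hy⟩ := by
          apply Subtype.ext
          change (Pi.single p (x + y) : ∀ p : PP, Fin r → ZMod p) = Pi.single p x + Pi.single p y
          exact (AddMonoidHom.single (fun q : PP => Fin r → ZMod q) p).map_add x y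
        rw [this, ψ.map_add_eq_mul, hx1, hy1, one_mul]
      neg_mem' := by
        rintro x ⟨hx, hx1⟩
        refine ⟨by rw [Pi.single_neg]; exact (gen w).neg_mem hx, ?_⟩
        have : (⟨Pi.single p (-x), by rw [Pi.single_neg]; exact (gen w).neg_mem hx⟩ : gen w) =
            -⟨Pi.single p x, hx⟩ := by
          apply Subtype.ext
          change (Pi.single p (-x) : ∀ p : PP, Fin r → ZMod p) = -Pi.single p x
          exact (AddMonoidHom.single (fun q : PP => Fin r → ZMod q) p).map_neg x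
        rw [this, ψ.map_neg_eq_inv, hx1, inv_one] }
  let V : Submodule (ZMod p) (Fin r → ZMod p) := AddSubgroup.toZModSubmodule (p : ℕ) K
  have hV : ∀ x, x ∈ V ↔ x ∈ K := fun x => by simp [V]
  have hv0 : w c₀ p ∉ V := by
    rw [hV]
    rintro ⟨hv, h⟩
    exact hp h
  obtain ⟨ℓ, hℓ, hK⟩ := Submodule.exists_le_ker_of_notMem hv0
  obtain ⟨m, hm⟩ := exists_nsmul_single hco p
  have h3 := hS p (fun c => ℓ (w c p)) (fun h => hℓ (congrFun h c₀)) (fun j' => by
    have h4 := congrFun (hw j') p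
    have h5 := congrArg ℓ h4
    rw [Finset.sum_apply, map_sum, Pi.zero_apply, map_zero] at h5
    rw [← h5]
    refine Finset.sum_congr rfl fun c _ => ?_
    rw [Pi.smul_apply, map_zsmul, zsmul_eq_mul])
  refine h3.trans ?_
  refine Nat.cast_le.2 (card_le_card fun c hc => ?_)
  rw [mem_filter] at hc ⊢
  refine ⟨mem_univ _, fun hψc => hc.2 ?_⟩
  have h6 : w c p ∈ V := by
    rw [hV]
    refine ⟨hmem c p, ?_⟩
    have : (⟨Pi.single p (w c p), hmem c p⟩ : gen w) = m • wg w c := by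
      apply Subtype.ext
      rw [AddSubgroup.coe_nsmul]
      exact (hm (w c)).symm
    rw [this, ψ.map_nsmul_eq_pow, hψc, one_pow]
  exact hK h6

end nonsparse

section levels

theorem biUnion_le {ι α : Type*} [DecidableEq ι] [DecidableEq α] (s : Finset ι) (t : ι → Finset α) (f : α → ℝ) (hf : ∀ x, 0 ≤ f x) :
    ∑ x ∈ s.biUnion t, f x ≤ ∑ i ∈ s, ∑ x ∈ t i, f x := by
  induction s using Finset.induction_on with
  | empty => simp
  | insert i s hi ih =>
    rw [biUnion_insert, sum_insert hi]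
    have h := sum_union_inter (s₁ := t i) (s₂ := s.biUnion t) (f := f)
    have h0 : 0 ≤ ∑ x ∈ t i ∩ s.biUnion t, f x := sum_nonneg fun x _ => hf x
    linarith

variable {M : ℕ} {Om : Type} [Fintype Om] {G : Type} [AddCommGroup G] [Fintype G] {a j : ℕ}

theorem gZ_le_card (hM : 4 ≤ M) {m : ℕ} (y : Fin m → G) : gZ M y ≤ Nat.card G := by
  have h : gZ M y ≤ ∑ _ψ : AddChar G ℂ, (1 : ℝ) := by
    refine Finset.sum_le_sum fun ψ _ => ?_
    exact Finset.prod_le_one (fun c _ => cf_nonneg hM (ψ.norm_apply (y c)))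
      (fun c _ => cf_le_one (ψ.norm_apply (y c)))
  rw [sum_const, card_univ, nsmul_eq_mul, mul_one] at h
  rwa [AddChar.card_eq, ← Nat.card_eq_fintype_card] at h

theorem zH_div_le_one (hM : 4 ≤ M) (w : Fin a → G) : zH M w / Nat.card (gen w) ≤ 1 := by
  rw [div_le_one (by exact_mod_cast Nat.card_pos)]
  exact gZ_le_card hM _

open scoped Classical in
/-- one dyadic level -/
theorem level (hM : 4 ≤ M) (haj : a ≤ j) (H : AddSubgroup G) (N : Finset (Fin a → G))
    (hN : ∀ w ∈ N, gen w = H) {T Q : ℝ} (hT : 0 < T) (hTN : ∀ w ∈ N, zH M w ≤ T)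
    (hc : (N.card : ℝ) ≤ (Nat.card H : ℝ) ^ a * (Q / T) ^ a) :
    ∑ w ∈ N, (zH M w / Nat.card (gen w)) ^ j ≤ Q ^ a := by
  have hH : (0 : ℝ) < Nat.card H := by exact_mod_cast Nat.card_pos
  calc ∑ w ∈ N, (zH M w / Nat.card (gen w)) ^ j ≤ ∑ _w ∈ N, (T / Nat.card H) ^ a := by
        refine sum_le_sum fun w hw => ?_
        have h0 : 0 ≤ zH M w / Nat.card (gen w) := div_nonneg (zH_nonneg hM w) (by positivity)
        refine (pow_le_pow_of_le_one h0 (zH_div_le_one hM w) haj).trans ?_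
        rw [hN w hw] at h0 ⊢
        refine pow_le_pow_left₀ h0 ?_ a
        have := hTN w hw
        gcongr
    _ = N.card * (T / Nat.card H) ^ a := by rw [sum_const, nsmul_eq_mul]
    _ ≤ ((Nat.card H : ℝ) ^ a * (Q / T) ^ a) * (T / Nat.card H) ^ a := by gcongr
    _ = Q ^ a := by
        rw [← mul_pow, ← mul_pow]
        congr 1
        field_simp

open scoped Classical in
theorem level2 (hM : 4 ≤ M) (haj : a ≤ j) (H : AddSubgroup G) (N : Finset (Fin a → G))
    (hN : ∀ w ∈ N, gen w = H) {T₀ X : ℝ} (hT : 0 < T₀) (i : ℕ)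
    (hc : ((N.filter fun w => T₀ * 2 ^ i ≤ zH M w).card : ℝ) ≤
      (Nat.card H : ℝ) ^ a * (X / (T₀ * 2 ^ i)) ^ a) :
    ∑ w ∈ N.filter (fun w => T₀ * 2 ^ i ≤ zH M w ∧ zH M w ≤ T₀ * 2 ^ (i + 1)),
      (zH M w / Nat.card (gen w)) ^ j ≤ (2 * X) ^ a := by
  have h3 : 2 * X / (T₀ * 2 ^ (i + 1)) = X / (T₀ * 2 ^ i) := by
    rw [pow_succ]
    field_simp
  have h2 : ((N.filter fun w => T₀ * 2 ^ i ≤ zH M w ∧ zH M w ≤ T₀ * 2 ^ (i + 1)).card : ℝ) ≤
      ((N.filter fun w => T₀ * 2 ^ i ≤ zH M w).card : ℝ) := by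
    refine Nat.cast_le.2 (card_le_card fun w hw => ?_)
    rw [mem_filter] at hw ⊢
    exact ⟨hw.1, hw.2.1⟩
  have h4 : ((N.filter fun w => T₀ * 2 ^ i ≤ zH M w ∧ zH M w ≤ T₀ * 2 ^ (i + 1)).card : ℝ) ≤
      (Nat.card H : ℝ) ^ a * (2 * X / (T₀ * 2 ^ (i + 1))) ^ a := by
    rw [h3]
    exact h2.trans hc
  have hT' : 0 < T₀ * 2 ^ (i + 1) := by positivity
  refine level hM haj H _ ?_ hT' ?_ h4
  · intro w hw
    exact hN w (mem_filter.1 hw).1
  · intro w hw
    exact (mem_filter.1 hw).2.2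

open scoped Classical in
/-- **Dyadic level sum**: vectors of a set `N` (all generating `H`) with `T₀ ≤ zH ≤ T₀ 2 ^ L`, if
the level sets are small. -/
theorem level_sum (hM : 4 ≤ M) (haj : a ≤ j) (H : AddSubgroup G) (N : Finset (Fin a → G))
    (hN : ∀ w ∈ N, gen w = H) {T₀ X : ℝ} (hT : 0 < T₀) (L : ℕ)
    (hlo : ∀ w ∈ N, T₀ ≤ zH M w) (hhi : ∀ w ∈ N, zH M w < T₀ * 2 ^ L)
    (hc : ∀ i < L, ((N.filter fun w => T₀ * 2 ^ i ≤ zH M w).card : ℝ) ≤
      (Nat.card H : ℝ) ^ a * (X / (T₀ * 2 ^ i)) ^ a) :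
    ∑ w ∈ N, (zH M w / Nat.card (gen w)) ^ j ≤ L * (2 * X) ^ a := by
  have hcov : N ⊆ (range L).biUnion fun i => N.filter fun w =>
      T₀ * 2 ^ i ≤ zH M w ∧ zH M w ≤ T₀ * 2 ^ (i + 1) := by
    intro w hw
    have hex : ∃ i, zH M w < T₀ * 2 ^ i := ⟨L, hhi w hw⟩
    have h1 := Nat.find_spec hex
    have h0 : Nat.find hex ≠ 0 := by
      intro h
      rw [h, pow_zero, mul_one] at h1
      exact absurd (hlo w hw) (not_le.2 h1)
    obtain ⟨i, hi⟩ := Nat.exists_eq_succ_of_ne_zero h0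
    have h2 : ¬ zH M w < T₀ * 2 ^ i := Nat.find_min hex (by omega)
    have h3 : Nat.find hex ≤ L := Nat.find_min' hex (hhi w hw)
    refine mem_biUnion.2 ⟨i, mem_range.2 (by omega), mem_filter.2 ⟨hw, not_lt.1 h2, ?_⟩⟩
    rw [hi] at h1
    exact h1.le
  have hnn : ∀ w : Fin a → G, 0 ≤ (zH M w / Nat.card (gen w)) ^ j := fun w =>
    pow_nonneg (div_nonneg (zH_nonneg hM w) (by positivity)) j
  calc ∑ w ∈ N, (zH M w / Nat.card (gen w)) ^ j
      ≤ ∑ w ∈ (range L).biUnion fun i => N.filter fun w =>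
          T₀ * 2 ^ i ≤ zH M w ∧ zH M w ≤ T₀ * 2 ^ (i + 1), (zH M w / Nat.card (gen w)) ^ j :=
        sum_le_sum_of_subset_of_nonneg hcov fun w _ _ => hnn w
    _ ≤ ∑ i ∈ range L, ∑ w ∈ N.filter (fun w =>
          T₀ * 2 ^ i ≤ zH M w ∧ zH M w ≤ T₀ * 2 ^ (i + 1)), (zH M w / Nat.card (gen w)) ^ j := by
        exact biUnion_le _ _ _ hnn
    _ ≤ ∑ _i ∈ range L, (2 * X) ^ a := sum_le_sum fun i hi =>
        level2 hM haj H N hN hT i (hc i (mem_range.1 hi))
    _ = L * (2 * X) ^ a := by rw [sum_const, card_range, nsmul_eq_mul]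

open scoped Classical in
/-- Sum over the matrices and over all the generated subgroups, dyadic levels. -/
theorem sum_levels (hM : 4 ≤ M) {e : Om → ℤ} (hD : DomL M e) (haj : a ≤ j)
    (N : Finset (Fin a → G)) {T₀ X : ℝ} (hT : 0 < T₀) (L : ℕ)
    (hlo : ∀ w ∈ N, T₀ ≤ zH M w) (hhi : ∀ w ∈ N, zH M w < T₀ * 2 ^ L)
    (hc : ∀ H : AddSubgroup G, ∀ i < L,
      (((N.filter fun w => gen w = H).filter fun w => T₀ * 2 ^ i ≤ zH M w).card : ℝ) ≤
      (Nat.card H : ℝ) ^ a * (X / (T₀ * 2 ^ i)) ^ a) :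
    (∑ Y : Fin j → Fin a → Om, ((kerF e Y N).card : ℝ)) ≤
      (Fintype.card Om : ℝ) ^ (a * j) * (Nat.card (AddSubgroup G) * (L * (2 * X) ^ a)) := by
  refine (sum_ker hD _).trans (mul_le_mul_of_nonneg_left ?_ (by positivity))
  have hfin : Finite (AddSubgroup G) := inferInstance
  have : Fintype (AddSubgroup G) := Fintype.ofFinite _
  calc ∑ w ∈ N, (zH M w / Nat.card (gen w)) ^ j
      = ∑ H : AddSubgroup G, ∑ w ∈ N.filter (fun w => gen w = H),
          (zH M w / Nat.card (gen w)) ^ j :=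
        (sum_fiberwise_of_maps_to (fun _ _ => mem_univ _) _).symm
    _ ≤ ∑ _H : AddSubgroup G, L * (2 * X) ^ a := by
        refine sum_le_sum fun H _ => ?_
        refine level_sum hM haj H _ (fun w hw => (mem_filter.1 hw).2) hT L
          (fun w hw => hlo w (mem_filter.1 hw).1) (fun w hw => hhi w (mem_filter.1 hw).1) (hc H)
    _ = Nat.card (AddSubgroup G) * (L * (2 * X) ^ a) := by
        rw [sum_const, card_univ, nsmul_eq_mul, Nat.card_eq_fintype_card]

open scoped Classical in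
/-- the vectors generating `H` are vectors with values in `H` -/
theorem transfer (H : AddSubgroup G) (E T : ℝ) (N : Finset (Fin a → G))
    (hN : ∀ w ∈ N, NonSp E (wg w)) :
    ((N.filter fun w => gen w = H).filter fun w => T ≤ zH M w).card ≤
      (univ.filter fun y : Fin a → H => NonSp E y ∧ T ≤ gZ M y).card := by
  have key : ∀ w : Fin a → G, gen w = H → NonSp E (wg w) → T ≤ zH M w →
      ∃ y : Fin a → H, (∀ i, (y i : G) = w i) ∧ NonSp E y ∧ T ≤ gZ M y := by
    rintro w rfl h1 h2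
    exact ⟨wg w, fun _ => rfl, h1, h2⟩
  choose! f hf using key
  refine card_le_card_of_injOn f ?_ ?_
  · intro w hw
    have hw' := mem_filter.1 (mem_coe.1 hw)
    have hw2 := mem_filter.1 hw'.1
    have h := hf w hw2.2 (hN w hw2.1) hw'.2
    exact mem_coe.2 (mem_filter.2 ⟨mem_univ _, h.2⟩)
  · intro w hw w' hw' hww
    have h1 := mem_filter.1 (mem_coe.1 hw)
    have h2 := mem_filter.1 h1.1
    have h3 := mem_filter.1 (mem_coe.1 hw')
    have h4 := mem_filter.1 h3.1
    funext i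
    rw [← (hf w h2.2 (hN w h2.1) h1.2).1 i, ← (hf w' h4.2 (hN w' h4.1) h3.2).1 i, hww]

open scoped Classical in
/-- **Moment of the nonsparse kernel vectors with `zH < 2 ^ (L + 1)`** (Lemma M off BIG): if COUNT
holds for every subgroup `H` at the levels `2 ^ i`, `i < L`, with constant `X`. -/
theorem mid_moment (hM : 4 ≤ M) {e : Om → ℤ} (hD : DomL M e) (haj : a ≤ j) (E : ℝ) {X : ℝ}
    (hX : 0 ≤ X) (L : ℕ)
    (hC : ∀ H : AddSubgroup G, ∀ i < L,
      ((univ.filter fun y : Fin a → H => NonSp E y ∧ 1 + (2 : ℝ) ^ i ≤ gZ M y).card : ℝ) ≤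
      (Nat.card H : ℝ) ^ a * (X / (2 : ℝ) ^ i) ^ a) :
    (∑ Y : Fin j → Fin a → Om, ((kerF e Y (univ.filter fun w : Fin a → G =>
      NonSp E (wg w) ∧ zH M w < 2 ^ (L + 1))).card : ℝ)) ≤
      (Fintype.card Om : ℝ) ^ (a * j) * (Nat.card (AddSubgroup G) * (2 ^ j + L * (4 * X) ^ a)) := by
  set N := univ.filter fun w : Fin a → G => NonSp E (wg w) ∧ zH M w < 2 ^ (L + 1) with hNd
  have hN : ∀ w, w ∈ N ↔ NonSp E (wg w) ∧ zH M w < 2 ^ (L + 1) := fun w => by
    rw [hNd, mem_filter]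
    exact ⟨fun h => h.2, fun h => ⟨mem_univ _, h⟩⟩
  have h1 := first_moment (G := G) (a := a) (j := j) hM hD haj (T := 2) (by norm_num)
  have h2 := sum_levels hM hD haj (N.filter fun w => 2 ≤ zH M w) (T₀ := 2) (X := 2 * X)
    (by norm_num) L (fun w hw => (mem_filter.1 hw).2)
    (fun w hw => by
      have := ((hN w).1 (mem_filter.1 hw).1).2
      rwa [pow_succ, mul_comm] at this) (fun H i hi => by
      have h3 := transfer (M := M) H E (2 * 2 ^ i) (N.filter fun w => 2 ≤ zH M w)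
        (fun w hw => ((hN w).1 (mem_filter.1 hw).1).1)
      have h4 := hC H i hi
      have h5 : (univ.filter fun y : Fin a → H => NonSp E y ∧ 2 * (2 : ℝ) ^ i ≤ gZ M y).card ≤
          (univ.filter fun y : Fin a → H => NonSp E y ∧ 1 + (2 : ℝ) ^ i ≤ gZ M y).card := by
        refine card_le_card fun y hy => ?_
        rw [mem_filter] at hy ⊢
        refine ⟨hy.1, hy.2.1, le_trans ?_ hy.2.2⟩
        have : (1 : ℝ) ≤ 2 ^ i := one_le_pow₀ (by norm_num)
        linarith
      have h6 : 2 * X / (2 * 2 ^ i) = X / (2 : ℝ) ^ i := by field_simp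
      rw [h6]
      refine le_trans ?_ h4
      exact_mod_cast h3.trans h5)
  have h3 : ∀ Y : Fin j → Fin a → Om, ((kerF e Y N).card : ℝ) ≤
      ((kerF e Y (univ.filter fun w : Fin a → G => zH M w ≤ 2)).card : ℝ) +
        ((kerF e Y (N.filter fun w => 2 ≤ zH M w)).card : ℝ) := by
    intro Y
    have h4 : kerF e Y N ⊆ kerF e Y (univ.filter fun w : Fin a → G => zH M w ≤ 2) ∪
        kerF e Y (N.filter fun w => 2 ≤ zH M w) := by
      intro w hw
      unfold kerF at hw ⊢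
      rw [mem_filter] at hw
      rw [mem_union, mem_filter, mem_filter, mem_filter, mem_filter]
      rcases le_total (zH M w) 2 with h | h
      · exact Or.inl ⟨⟨mem_univ _, h⟩, hw.2⟩
      · exact Or.inr ⟨⟨hw.1, h⟩, hw.2⟩
    exact_mod_cast (card_le_card h4).trans (card_union_le _ _)
  calc (∑ Y : Fin j → Fin a → Om, ((kerF e Y N).card : ℝ))
      ≤ ∑ Y : Fin j → Fin a → Om, (((kerF e Y (univ.filter fun w : Fin a → G => zH M w ≤ 2)).card : ℝ) +
        ((kerF e Y (N.filter fun w => 2 ≤ zH M w)).card : ℝ)) := sum_le_sum fun Y _ => h3 Y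
    _ ≤ (Fintype.card Om : ℝ) ^ (a * j) * (Nat.card (AddSubgroup G) * 2 ^ j) +
        (Fintype.card Om : ℝ) ^ (a * j) * (Nat.card (AddSubgroup G) * (L * (2 * (2 * X)) ^ a)) := by
        rw [sum_add_distrib]
        exact add_le_add h1 h2
    _ = _ := by ring

end levels

end Vale.Agent.P160.Half.SubG950b
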