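import Mathlib

/-! P160-HALF, LEMMA M (text 11331), piece (M1): the number of subgroups of `(ZMod N)^r` is at most
`N^(r^2)`. -/

namespace Vale.Agent.P160.Half.SubR685

open Finset

/-- every subgroup of `(ZMod N)^r` is generated by `r` elements -/
theorem exists_gen (N : ℕ) [NeZero N] (r : ℕ) (H : AddSubgroup (Fin r → ZMod N)) :
    ∃ f : Fin r → (Fin r → ZMod N), AddSubgroup.closure (Set.range f) = H := by
  classical
  let π : (Fin r → ℤ) →+ (Fin r → ZMod N) :=
    { toFun := fun x i => (x i : ZMod N)
      map_zero' := by funext i; simp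
      map_add' := fun x y => by funext i; simp }
  have hπ : Function.Surjective π := by
    intro y
    refine ⟨fun i => ((y i).val : ℤ), ?_⟩
    funext i
    show ((((y i).val : ℤ)) : ZMod N) = y i
    simp
  let H' : Submodule ℤ (Fin r → ℤ) := AddSubgroup.toIntSubmodule (H.comap π)
  let b := Module.finBasis ℤ H'
  have hn : Module.finrank ℤ H' ≤ r := by
    have h := Submodule.finrank_le H'
    simpa using h
  let g : Fin r → (Fin r → ℤ) := fun i =>
    if h : (i : ℕ) < Module.finrank ℤ H' then (b ⟨i, h⟩ : Fin r → ℤ) else 0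
  refine ⟨fun i => π (g i), ?_⟩
  have hspan : Submodule.span ℤ (Set.range g) = H' := by
    apply le_antisymm
    · rw [Submodule.span_le]
      rintro _ ⟨i, rfl⟩
      show g i ∈ H'
      simp only [g]
      split_ifs with h
      · exact (b ⟨i, h⟩).2
      · exact H'.zero_mem
    · intro x hx
      have h1 := b.sum_repr ⟨x, hx⟩
      have h2 : x = ∑ j, (b.repr ⟨x, hx⟩ j) • (b j : Fin r → ℤ) := by
        have h3 := congrArg (H'.subtype) h1
        rw [map_sum] at h3
        simp only [map_smul] at h3
        exact h3.symm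
      rw [h2]
      refine Submodule.sum_mem _ fun j _ => Submodule.smul_mem _ _ ?_
      refine Submodule.subset_span ⟨⟨j, lt_of_lt_of_le j.2 hn⟩, ?_⟩
      simp only [g]
      rw [dif_pos j.2]
  have hcl : AddSubgroup.closure (Set.range g) = H.comap π := by
    have h1 : (Submodule.span ℤ (Set.range g)).toAddSubgroup = AddSubgroup.closure (Set.range g) :=
      Submodule.span_int_eq_addSubgroupClosure _
    rw [← h1, hspan]
    rfl
  have h2 : AddSubgroup.closure (Set.range fun i => π (g i)) =
      (AddSubgroup.closure (Set.range g)).map π := by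
    rw [AddMonoidHom.map_closure]
    congr 1
    ext y
    simp
  rw [h2, hcl]
  exact AddSubgroup.map_comap_eq_self_of_surjective hπ H

theorem finite_sub (N : ℕ) [NeZero N] (r : ℕ) : Finite (AddSubgroup (Fin r → ZMod N)) := inferInstance

/-- **number of subgroups** of `(ZMod N)^r` -/
theorem card_sub_le (N : ℕ) [NeZero N] (r : ℕ) :
    Nat.card (AddSubgroup (Fin r → ZMod N)) ≤ N ^ (r * r) := by
  classical
  have hs : Function.Surjective (fun f : Fin r → (Fin r → ZMod N) =>
      AddSubgroup.closure (Set.range f)) := fun H => exists_gen N r H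
  have h := Nat.card_le_card_of_surjective _ hs
  refine h.trans (le_of_eq ?_)
  rw [Nat.card_eq_fintype_card, Fintype.card_fun, Fintype.card_fun, ZMod.card, Fintype.card_fin,
    ← pow_mul]

/-- the same for any group isomorphic to `(ZMod N)^r` -/
theorem card_sub_le_of_equiv (N : ℕ) [NeZero N] (r : ℕ) {G : Type*} [AddCommGroup G]
    (e : G ≃+ (Fin r → ZMod N)) : Nat.card (AddSubgroup G) ≤ N ^ (r * r) := by
  rw [Nat.card_congr (e.mapAddSubgroup).toEquiv]
  exact card_sub_le N r

end Vale.Agent.P160.Half.SubR685
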