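import Mathlib

/-! # P160, half rate, M9: growth of sumsets of subsets of the cube (helper359)

Note 11009 (helper670), part (G): for `k = 2 ^ L`, `L ≥ 1`, `p = L / k` and finite sets `X_1, …, X_k` of `0,1` vectors of length `m`,
`∏ |X_i| ^ p ≤ 8 ^ m |X_1 + ⋯ + X_k|`; in particular `|X| ^ L ≤ 8 ^ m |k X|`. Mathlib only. -/

open Finset

namespace Vale.Agent.P160.Half.SumGrow

/-- numerical step -/
theorem num_le (L : ℕ) (s : ℝ) (hs : 0 ≤ s) (h : 2 * L * s ≤ 2 ^ L) :
    (2 * L * s) * (1 + Real.exp (-s)) ^ L ≤ (1 + 8 / Real.exp 1) * 2 ^ L := by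
  have e0 : 0 < Real.exp 1 := Real.exp_pos 1
  have h1 : (1 + Real.exp (-s)) ^ L = ∑ i ∈ range (L + 1), Real.exp (-s) ^ i * (L.choose i : ℝ) := by
    rw [add_comm, add_pow]
    refine sum_congr rfl fun i _ => ?_
    rw [one_pow, mul_one]
  have h2 : ∀ i ∈ range L, (2 * L * s) * (Real.exp (-s) ^ (i + 1) * (L.choose (i + 1) : ℝ)) ≤
      4 / Real.exp 1 * ((L + 1).choose (i + 2) : ℝ) := by
    intro i hi
    have hu : ((i + 1 : ℕ) : ℝ) * s * Real.exp (-(((i + 1 : ℕ) : ℝ) * s)) ≤ 1 / Real.exp 1 := by
      have := Real.add_one_le_exp (((i + 1 : ℕ) : ℝ) * s - 1)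
      rw [sub_add_cancel, Real.exp_sub] at this
      rw [Real.exp_neg, ← div_eq_mul_inv, div_le_div_iff₀ (Real.exp_pos _) e0]
      rw [le_div_iff₀ e0] at this
      linarith
    have hc : ((L + 1).choose (i + 2) : ℝ) * ((i + 2 : ℕ) : ℝ) = ((L + 1 : ℕ) : ℝ) * (L.choose (i + 1) : ℝ) := by
      have := Nat.add_one_mul_choose_eq L (i + 1)
      exact_mod_cast this.symm
    have he : Real.exp (-s) ^ (i + 1) = Real.exp (-(((i + 1 : ℕ) : ℝ) * s)) := by
      rw [← Real.exp_nat_mul]; congr 1; ring
    rw [he]
    have hi1 : (0 : ℝ) < ((i + 1 : ℕ) : ℝ) := by positivity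
    -- 2 L s e C = (2 L / (i+1)) * ((i+1) s e) * C ≤ (2 L / (i+1)) / e * C
    have h3 : (2 * L * s) * (Real.exp (-(((i + 1 : ℕ) : ℝ) * s)) * (L.choose (i + 1) : ℝ)) =
        (2 * L / ((i + 1 : ℕ) : ℝ)) * (L.choose (i + 1) : ℝ) * (((i + 1 : ℕ) : ℝ) * s * Real.exp (-(((i + 1 : ℕ) : ℝ) * s))) := by
      field_simp
    rw [h3]
    have h4 : (2 * L / ((i + 1 : ℕ) : ℝ)) * (L.choose (i + 1) : ℝ) ≤ 4 * ((L + 1).choose (i + 2) : ℝ) := by
      rw [div_mul_eq_mul_div, div_le_iff₀ hi1]
      have hC : (0 : ℝ) ≤ (L.choose (i + 1) : ℝ) := Nat.cast_nonneg _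
      have hC2 : (0 : ℝ) ≤ ((L + 1).choose (i + 2) : ℝ) := Nat.cast_nonneg _
      push_cast at hc ⊢
      nlinarith [mul_nonneg hC2 (Nat.cast_nonneg (α := ℝ) i)]
    calc (2 * L / ((i + 1 : ℕ) : ℝ)) * (L.choose (i + 1) : ℝ) * (((i + 1 : ℕ) : ℝ) * s * Real.exp (-(((i + 1 : ℕ) : ℝ) * s)))
        ≤ (4 * ((L + 1).choose (i + 2) : ℝ)) * (1 / Real.exp 1) := by
          apply mul_le_mul h4 hu
          · positivity
          · positivity
      _ = 4 / Real.exp 1 * ((L + 1).choose (i + 2) : ℝ) := by ring
  rw [h1, sum_range_succ', mul_add, mul_sum]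
  have h5 : ∑ i ∈ range L, (2 * L * s) * (Real.exp (-s) ^ (i + 1) * (L.choose (i + 1) : ℝ)) ≤
      4 / Real.exp 1 * 2 ^ (L + 1) := by
    refine (sum_le_sum h2).trans ?_
    rw [← mul_sum]
    refine mul_le_mul_of_nonneg_left ?_ (by positivity)
    have h6 : ∑ i ∈ range (L + 2), ((L + 1).choose i : ℝ) = 2 ^ (L + 1) := by
      have := Nat.sum_range_choose (L + 1)
      exact_mod_cast this
    rw [← h6, sum_range_succ', sum_range_succ']
    have : (0 : ℝ) ≤ ((L + 1).choose (0 + 1) : ℝ) + ((L + 1).choose 0 : ℝ) := by positivity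
    linarith
  simp only [pow_zero, Nat.choose_zero_right, Nat.cast_one, mul_one]
  calc _ ≤ 4 / Real.exp 1 * 2 ^ (L + 1) + 2 ^ L := add_le_add h5 h
    _ = (1 + 8 / Real.exp 1) * 2 ^ L := by rw [pow_succ]; ring

/-- the rough two point inequality -/
theorem two_point (L : ℕ) (hL : 1 ≤ L) {ι : Type*} [Fintype ι] [DecidableEq ι] (hk : Fintype.card ι = 2 ^ L)
    (p : ℝ) (hp : p = L / 2 ^ L) (a b : ι → ℝ) (ha : ∀ i, 0 ≤ a i) (hb : ∀ i, 0 ≤ b i) (M : ℕ → ℝ)
    (hM : ∀ S : Finset ι, ∏ i, (if i ∈ S then b i else a i) ^ p ≤ M S.card) :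
    ∏ i, (a i + b i) ^ p ≤ 8 * ∑ j ∈ range (2 ^ L + 1), M j := by
  classical
  have hLr : (1 : ℝ) ≤ L := by exact_mod_cast hL
  have hp0 : 0 < p := by rw [hp]; positivity
  have hM0 : ∀ j ∈ range (2 ^ L + 1), 0 ≤ M j := by
    intro j hj
    rw [mem_range] at hj
    obtain ⟨S, hS⟩ := Finset.exists_subset_card_eq (s := (univ : Finset ι)) (n := j) (by rw [card_univ, hk]; omega)
    rw [← hS.2]
    refine le_trans (prod_nonneg fun i _ => ?_) (hM S)
    apply Real.rpow_nonneg
    split_ifs
    · exact hb i
    · exact ha i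
  have hsum0 : 0 ≤ ∑ j ∈ range (2 ^ L + 1), M j := sum_nonneg hM0
  by_cases h0 : ∃ i, max (a i) (b i) = 0
  · obtain ⟨i, hi⟩ := h0
    have h1 : a i = 0 := le_antisymm (hi ▸ le_max_left _ _) (ha i)
    have h2 : b i = 0 := le_antisymm (hi ▸ le_max_right _ _) (hb i)
    rw [prod_eq_zero (mem_univ i)]
    · positivity
    · rw [h1, h2, add_zero, Real.zero_rpow hp0.ne']
  push Not at h0
  have hu : ∀ i, 0 < max (a i) (b i) := fun i => lt_of_le_of_ne (le_trans (ha i) (le_max_left _ _)) (h0 i).symm
  set Q : ℝ := ∏ i, (max (a i) (b i)) ^ p with hQ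
  have hQ0 : 0 < Q := prod_pos fun i _ => Real.rpow_pos_of_pos (hu i) p
  set P : Finset ι := univ.filter fun i => a i < b i with hP
  -- value at a flip
  have hflip : ∀ F : Finset ι, ∀ i, (if i ∈ symmDiff P F then b i else a i) = if i ∈ F then min (a i) (b i) else max (a i) (b i) := by
    intro F i
    by_cases h1 : i ∈ F
    · by_cases h2 : a i < b i
      · have : i ∉ symmDiff P F := by
          rw [mem_symmDiff]; simp [hP, h1, h2]
        rw [if_neg this, if_pos h1, min_eq_left h2.le]
      · have : i ∈ symmDiff P F := by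
          rw [mem_symmDiff]; simp only [hP, mem_filter, mem_univ, true_and]; exact Or.inr ⟨h1, h2⟩
        rw [if_pos this, if_pos h1, min_eq_right (not_lt.1 h2)]
    · by_cases h2 : a i < b i
      · have : i ∈ symmDiff P F := by
          rw [mem_symmDiff]; simp only [hP, mem_filter, mem_univ, true_and]; exact Or.inl ⟨h2, h1⟩
        rw [if_pos this, if_neg h1, max_eq_right h2.le]
      · have : i ∉ symmDiff P F := by
          rw [mem_symmDiff]; simp [hP, h1, not_lt.1 h2]
        rw [if_neg this, if_neg h1, max_eq_left (not_lt.1 h2)]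
  have hPQ : Q ≤ M P.card := by
    have := hM (symmDiff P ∅)
    simp only [hflip, notMem_empty, if_false] at this
    rwa [show symmDiff P (∅ : Finset ι) = P from symmDiff_bot P] at this
  have hPk : P.card ≤ 2 ^ L := by rw [← hk]; exact card_le_univ P
  set T : ℝ := (∑ j ∈ range (2 ^ L + 1), M j) / Q with hT
  have hTQ : (∑ j ∈ range (2 ^ L + 1), M j) = T * Q := by rw [hT]; field_simp
  have hT1 : 1 ≤ T := by
    rw [hT, le_div_iff₀ hQ0, one_mul]
    exact hPQ.trans (single_le_sum hM0 (mem_range.2 (by omega)))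
  have hT0 : 0 < T := by linarith
  set s : ℝ := 2 ^ L / (2 * T * L) with hs
  have hs0 : 0 < s := by positivity
  have hps : p * s = 1 / (2 * T) := by rw [hp, hs]; field_simp
  set N : Finset ι := univ.filter fun i => Real.exp (-s) * max (a i) (b i) ≤ min (a i) (b i) with hN
  -- one sided sets of flips are small
  have hside : ∀ N' : Finset ι, N' ⊆ N → (N' ⊆ P ∨ Disjoint N' P) → Real.exp (p * s * N'.card) ≤ 2 := by
    intro N' hN' hor
    set x : ℝ := Real.exp (-(p * s)) with hx
    have hx0 : 0 < x := Real.exp_pos _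
    have hx1 : x < 1 := by rw [hx, Real.exp_lt_one_iff]; have : 0 < p * s := by positivity
                           linarith
    have hFx : ∀ l ∈ range (N'.card + 1), ∃ F ⊆ N', F.card = l := by
      intro l hl
      exact Finset.exists_subset_card_eq (by rw [mem_range] at hl; omega)
    choose! F hF1 hF2 using hFx
    have hval : ∀ l ∈ range (N'.card + 1), Q * x ^ l ≤ M (symmDiff P (F l)).card := by
      intro l hl
      refine le_trans ?_ (hM (symmDiff P (F l)))
      simp only [hflip]
      calc Q * x ^ l = ∏ i, (if i ∈ F l then Real.exp (-s) * max (a i) (b i) else max (a i) (b i)) ^ p := by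
            have h1 : ∀ i, (if i ∈ F l then Real.exp (-s) * max (a i) (b i) else max (a i) (b i)) ^ p =
                (max (a i) (b i)) ^ p * (if i ∈ F l then x else 1) := by
              intro i
              split_ifs with h
              · rw [Real.mul_rpow (Real.exp_pos _).le (hu i).le, ← Real.exp_mul, mul_comm]
                congr 2
                ring
              · rw [mul_one]
            rw [prod_congr rfl fun i _ => h1 i, prod_mul_distrib, prod_ite_mem, univ_inter, prod_const, hF2 l hl]
        _ ≤ _ := by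
            refine prod_le_prod (fun i _ => ?_) fun i _ => ?_
            · apply Real.rpow_nonneg
              split_ifs
              · exact mul_nonneg (Real.exp_pos _).le (hu i).le
              · exact (hu i).le
            · split_ifs with h
              · have h2 := hN' (hF1 l hl h)
                rw [hN, mem_filter] at h2
                exact Real.rpow_le_rpow (mul_nonneg (Real.exp_pos _).le (hu i).le) h2.2 hp0.le
              · exact le_rfl
    have hcard : ∀ l ∈ range (N'.card + 1), (symmDiff P (F l)).card ∈ range (2 ^ L + 1) := by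
      intro l _
      rw [mem_range, Nat.lt_succ_iff, ← hk]
      exact card_le_univ _
    have hinj : Set.InjOn (fun l => (symmDiff P (F l)).card) (range (N'.card + 1) : Set ℕ) := by
      rcases hor with h | h
      · have h1 : ∀ l ∈ range (N'.card + 1), (symmDiff P (F l)).card + l = P.card := by
          intro l hl
          have h2 : F l ⊆ P := (hF1 l hl).trans h
          have h3 : symmDiff P (F l) = P \ F l := by
            rw [symmDiff_comm]; exact symmDiff_of_le h2
          rw [h3, card_sdiff_of_subset h2, hF2 l hl]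
          have := card_le_card h2
          rw [hF2 l hl] at this
          omega
        intro l hl l' hl' he
        have e1 := h1 l (by simpa using hl)
        have e2 := h1 l' (by simpa using hl')
        simp only at he
        omega
      · have h1 : ∀ l ∈ range (N'.card + 1), (symmDiff P (F l)).card = P.card + l := by
          intro l hl
          have h2 : Disjoint P (F l) := (disjoint_of_subset_left (hF1 l hl) h).symm
          have h3 : symmDiff P (F l) = P ∪ F l := Disjoint.symmDiff_eq_sup h2
          rw [h3, card_union_of_disjoint h2, hF2 l hl]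
        intro l hl l' hl' he
        have e1 := h1 l (by simpa using hl)
        have e2 := h1 l' (by simpa using hl')
        simp only at he
        omega
    have hsum : Q * ∑ l ∈ range (N'.card + 1), x ^ l ≤ T * Q := by
      rw [← hTQ, mul_sum]
      calc ∑ l ∈ range (N'.card + 1), Q * x ^ l ≤ ∑ l ∈ range (N'.card + 1), M (symmDiff P (F l)).card := sum_le_sum hval
        _ = ∑ j ∈ (range (N'.card + 1)).image (fun l => (symmDiff P (F l)).card), M j := by
            rw [sum_image hinj]
        _ ≤ _ := by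
            refine sum_le_sum_of_subset_of_nonneg ?_ fun j hj _ => hM0 j hj
            intro j hj
            rw [mem_image] at hj
            obtain ⟨l, hl, rfl⟩ := hj
            exact hcard l hl
    have hgeo : (∑ l ∈ range (N'.card + 1), x ^ l) * (1 - x) = 1 - x ^ (N'.card + 1) := by
      have := geom_sum_mul x (N'.card + 1)
      linarith
    have h1x : 1 - x ≤ 1 / (2 * T) := by
      have := Real.add_one_le_exp (-(p * s))
      rw [← hx, hps] at this
      linarith
    have hTs : ∑ l ∈ range (N'.card + 1), x ^ l ≤ T := by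
      have : Q * ∑ l ∈ range (N'.card + 1), x ^ l ≤ Q * T := by linarith [hsum, mul_comm T Q]
      exact le_of_mul_le_mul_left this hQ0
    have hhalf : 1 / 2 ≤ x ^ (N'.card + 1) := by
      have h2 : (∑ l ∈ range (N'.card + 1), x ^ l) * (1 - x) ≤ T * (1 / (2 * T)) := by
        apply mul_le_mul hTs h1x (by linarith) hT0.le
      rw [hgeo] at h2
      have h3 : T * (1 / (2 * T)) = 1 / 2 := by field_simp
      linarith
    have hhalf2 : 1 / 2 ≤ x ^ N'.card := by
      refine hhalf.trans ?_
      rw [pow_succ]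
      nlinarith [pow_pos hx0 N'.card]
    have hfin : Real.exp (p * s * N'.card) * x ^ N'.card = 1 := by
      rw [hx, ← Real.exp_nat_mul, ← Real.exp_add]
      rw [show p * s * N'.card + N'.card * -(p * s) = 0 by ring, Real.exp_zero]
    have hpos := Real.exp_pos (p * s * N'.card)
    nlinarith
  have hNbound : Real.exp (p * s * N.card / 2) ≤ 2 := by
    have hsplit : (N ∩ P).card + (N \ P).card = N.card := card_inter_add_card_sdiff N P
    rcases le_total (N ∩ P).card (N \ P).card with h | h
    · refine le_trans (Real.exp_le_exp.2 ?_) (hside (N \ P) sdiff_subset (Or.inr sdiff_disjoint))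
      have h1 : (N.card : ℝ) ≤ 2 * ((N \ P).card : ℝ) := by exact_mod_cast (by omega : N.card ≤ 2 * (N \ P).card)
      have h2 : 0 < p * s := by positivity
      nlinarith
    · refine le_trans (Real.exp_le_exp.2 ?_) (hside (N ∩ P) inter_subset_left (Or.inl inter_subset_right))
      have h1 : (N.card : ℝ) ≤ 2 * ((N ∩ P).card : ℝ) := by exact_mod_cast (by omega : N.card ≤ 2 * (N ∩ P).card)
      have h2 : 0 < p * s := by positivity
      nlinarith
  -- the product
  have hcosh : 2 ≤ (1 + Real.exp (-s)) * Real.exp (s / 2) := by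
    have h1 : (1 + Real.exp (-s)) * Real.exp (s / 2) = Real.exp (s / 2) + Real.exp (-(s / 2)) := by
      rw [add_mul, one_mul, ← Real.exp_add]
      congr 2
      ring
    rw [h1]
    have h2 : Real.exp (s / 2) * Real.exp (-(s / 2)) = 1 := by rw [← Real.exp_add]; simp
    nlinarith [sq_nonneg (Real.exp (s / 2) - Real.exp (-(s / 2))), Real.exp_pos (s / 2), Real.exp_pos (-(s / 2))]
  have hprod : ∏ i, (a i + b i) ^ p ≤ Q * (1 + Real.exp (-s)) ^ L * Real.exp (p * s * N.card / 2) := by
    have h1 : ∀ i, (a i + b i) ^ p ≤ (max (a i) (b i)) ^ p * (1 + Real.exp (-s)) ^ p *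
        (if i ∈ N then Real.exp (p * s / 2) else 1) := by
      intro i
      have hab : a i + b i = max (a i) (b i) + min (a i) (b i) := (max_add_min (a i) (b i)).symm
      split_ifs with h
      · have h2 : a i + b i ≤ max (a i) (b i) * (1 + Real.exp (-s)) * Real.exp (s / 2) := by
          have h3 : a i + b i ≤ 2 * max (a i) (b i) := by
            rw [hab]; have := min_le_max (a := a i) (b := b i); linarith
          calc a i + b i ≤ 2 * max (a i) (b i) := h3
            _ ≤ ((1 + Real.exp (-s)) * Real.exp (s / 2)) * max (a i) (b i) := mul_le_mul_of_nonneg_right hcosh (hu i).le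
            _ = _ := by ring
        have h4 := Real.rpow_le_rpow (add_nonneg (ha i) (hb i)) h2 hp0.le
        refine h4.trans (le_of_eq ?_)
        have e1 : 0 ≤ 1 + Real.exp (-s) := by positivity
        rw [Real.mul_rpow (mul_nonneg (hu i).le e1) (Real.exp_pos _).le, Real.mul_rpow (hu i).le e1, ← Real.exp_mul]
        congr 2
        ring
      · have h2 : a i + b i ≤ max (a i) (b i) * (1 + Real.exp (-s)) := by
          have h3 : ¬ (Real.exp (-s) * max (a i) (b i) ≤ min (a i) (b i)) := by
            intro h3; exact h (by rw [hN, mem_filter]; exact ⟨mem_univ _, h3⟩)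
          rw [hab]
          push Not at h3
          nlinarith
        have h4 := Real.rpow_le_rpow (add_nonneg (ha i) (hb i)) h2 hp0.le
        refine h4.trans (le_of_eq ?_)
        have e1 : 0 ≤ 1 + Real.exp (-s) := by positivity
        rw [Real.mul_rpow (hu i).le e1, mul_one]
    calc ∏ i, (a i + b i) ^ p ≤ ∏ i, ((max (a i) (b i)) ^ p * (1 + Real.exp (-s)) ^ p *
        (if i ∈ N then Real.exp (p * s / 2) else 1)) :=
          prod_le_prod (fun i _ => Real.rpow_nonneg (add_nonneg (ha i) (hb i)) p) fun i _ => h1 i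
      _ = Q * (1 + Real.exp (-s)) ^ L * Real.exp (p * s * N.card / 2) := by
          rw [prod_mul_distrib, prod_mul_distrib, prod_ite_mem, univ_inter, prod_const, prod_const, card_univ, hk]
          congr 1
          · congr 1
            rw [← Real.rpow_natCast, ← Real.rpow_mul (by positivity), ← Real.rpow_natCast]
            congr 1
            rw [hp]; push_cast; field_simp
          · rw [← Real.exp_nat_mul]; congr 1; ring
  have hnum : (1 + Real.exp (-s)) ^ L ≤ (1 + 8 / Real.exp 1) * T := by
    have h1 : 2 * L * s = 2 ^ L / T := by rw [hs]; field_simp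
    have h2 := num_le L s hs0.le (by rw [h1]; exact div_le_self (by positivity) hT1)
    rw [h1, div_mul_eq_mul_div, div_le_iff₀ hT0] at h2
    have h3 : (2 : ℝ) ^ L * (1 + Real.exp (-s)) ^ L ≤ 2 ^ L * ((1 + 8 / Real.exp 1) * T) := by
      calc _ ≤ (1 + 8 / Real.exp 1) * 2 ^ L * T := h2
        _ = _ := by ring
    exact le_of_mul_le_mul_left h3 (by positivity)
  have hc : 2 * (1 + 8 / Real.exp 1) ≤ 8 := by
    have h1 : (8 : ℝ) / 3 < Real.exp 1 := by have := Real.exp_one_gt_d9; linarith
    have h2 : 8 / Real.exp 1 < 3 := by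
      rw [div_lt_iff₀ (Real.exp_pos 1)]; linarith
    linarith
  rw [hTQ]
  have hE0 : 0 ≤ (1 + Real.exp (-s)) ^ L := by positivity
  calc ∏ i, (a i + b i) ^ p ≤ Q * (1 + Real.exp (-s)) ^ L * Real.exp (p * s * N.card / 2) := hprod
    _ ≤ Q * ((1 + 8 / Real.exp 1) * T) * 2 := by
        apply mul_le_mul (mul_le_mul_of_nonneg_left hnum hQ0.le) hNbound (Real.exp_pos _).le
        positivity
    _ = (2 * (1 + 8 / Real.exp 1)) * (T * Q) := by ring
    _ ≤ 8 * (T * Q) := mul_le_mul_of_nonneg_right hc (by positivity)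

/-- sums `x_1 + ⋯ + x_k`, `x_i ∈ X_i` -/
def sumset {ι : Type*} [Fintype ι] [DecidableEq ι] {m : ℕ} (X : ι → Finset (Fin m → ℤ)) : Finset (Fin m → ℤ) :=
  (Fintype.piFinset X).image fun f => ∑ i, f i

theorem mem_sumset {ι : Type*} [Fintype ι] [DecidableEq ι] {m : ℕ} {X : ι → Finset (Fin m → ℤ)} {z : Fin m → ℤ} :
    z ∈ sumset X ↔ ∃ f : ι → Fin m → ℤ, (∀ i, f i ∈ X i) ∧ ∑ i, f i = z := by
  simp [sumset]

/-- **Growth of sumsets.** -/
theorem grow (L : ℕ) (hL : 1 ≤ L) {ι : Type*} [Fintype ι] [DecidableEq ι] (hk : Fintype.card ι = 2 ^ L)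
    (p : ℝ) (hp : p = L / 2 ^ L) : ∀ (m : ℕ) (X : ι → Finset (Fin m → ℤ)),
    (∀ i, ∀ x ∈ X i, ∀ c, x c = 0 ∨ x c = 1) → ∏ i, ((X i).card : ℝ) ^ p ≤ 8 ^ m * ((sumset X).card : ℝ) := by
  classical
  have hLr : (1 : ℝ) ≤ L := by exact_mod_cast hL
  have hp0 : 0 < p := by rw [hp]; positivity
  intro m
  induction m with
  | zero =>
    intro X _
    rw [pow_zero, one_mul]
    by_cases h : ∃ i, X i = ∅
    · obtain ⟨i, hi⟩ := h
      rw [prod_eq_zero (mem_univ i) (by rw [hi, card_empty, Nat.cast_zero, Real.zero_rpow hp0.ne'])]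
      positivity
    · push Not at h
      have h1 : (sumset X).Nonempty := by
        have h2 : ∀ i, ∃ x, x ∈ X i := fun i => h i
        choose f hf using h2
        exact ⟨∑ i, f i, mem_sumset.2 ⟨f, hf, rfl⟩⟩
      have h2 : (1 : ℝ) ≤ (sumset X).card := by exact_mod_cast h1.card_pos
      refine le_trans ?_ h2
      refine prod_le_one (fun i _ => Real.rpow_nonneg (Nat.cast_nonneg _) p) fun i _ => ?_
      have h3 : ((X i).card : ℝ) ≤ 1 := by
        exact_mod_cast card_le_one.2 fun x _ y _ => Subsingleton.elim x y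
      exact Real.rpow_le_one (Nat.cast_nonneg _) h3 hp0.le
  | succ m ih =>
    intro X h01
    -- slices
    set Y : ι → ℤ → Finset (Fin m → ℤ) := fun i e => ((X i).filter fun x => x 0 = e).image Fin.tail with hY
    have hYmem : ∀ i e y, y ∈ Y i e ↔ (Fin.cons e y : Fin (m + 1) → ℤ) ∈ X i := by
      intro i e y
      simp only [hY, mem_image, mem_filter]
      constructor
      · rintro ⟨x, ⟨hx, hx0⟩, rfl⟩
        rw [← hx0, Fin.cons_self_tail]
        exact hx
      · intro h
        exact ⟨Fin.cons e y, ⟨h, Fin.cons_zero _ _⟩, Fin.tail_cons _ _⟩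
    have hYcard : ∀ i, ((X i).card : ℝ) = ((Y i 0).card : ℝ) + ((Y i 1).card : ℝ) := by
      intro i
      have hinj : ∀ e : ℤ, Set.InjOn Fin.tail (((X i).filter fun x => x 0 = e : Finset (Fin (m + 1) → ℤ)) : Set (Fin (m + 1) → ℤ)) := by
        intro e x hx y hy hxy
        simp only [coe_filter, Set.mem_ofPred_eq] at hx hy
        rw [← Fin.cons_self_tail x, ← Fin.cons_self_tail y, hx.2, hy.2, hxy]
      have e0 : (Y i 0).card = ((X i).filter fun x => x 0 = 0).card := card_image_of_injOn (hinj 0)
      have e1 : (Y i 1).card = ((X i).filter fun x => x 0 = 1).card := card_image_of_injOn (hinj 1)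
      rw [e0, e1]
      have : ((X i).filter fun x => x 0 = 1) = (X i).filter fun x => ¬ x 0 = 0 := by
        refine filter_congr fun x hx => ?_
        rcases h01 i x hx 0 with h | h <;> simp [h]
      rw [this]
      exact_mod_cast (card_filter_add_card_filter_not (s := X i) (fun x => x 0 = 0)).symm
    set M : ℕ → ℝ := fun j => 8 ^ m * (((sumset X).filter fun z => z 0 = (j : ℤ)).card : ℝ) with hM
    have hMS : ∀ S : Finset ι, ∏ i, (if i ∈ S then ((Y i 1).card : ℝ) else ((Y i 0).card : ℝ)) ^ p ≤ M S.card := by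
      intro S
      have h1 := ih (fun i => if i ∈ S then Y i 1 else Y i 0) (by
        intro i y hy c
        have h2 : ∃ e, y ∈ Y i e := by
          split_ifs at hy
          · exact ⟨_, hy⟩
          · exact ⟨_, hy⟩
        obtain ⟨e, he⟩ := h2
        have := h01 i _ ((hYmem i e y).1 he) c.succ
        simpa using this)
      have h2 : ∀ i, (((fun i => if i ∈ S then Y i 1 else Y i 0) i).card : ℝ) ^ p =
          (if i ∈ S then ((Y i 1).card : ℝ) else ((Y i 0).card : ℝ)) ^ p := by
        intro i
        simp only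
        split_ifs <;> rfl
      rw [prod_congr rfl fun i _ => h2 i] at h1
      refine h1.trans ?_
      simp only [hM]
      refine mul_le_mul_of_nonneg_left ?_ (by positivity)
      have h3 : ((sumset fun i => if i ∈ S then Y i 1 else Y i 0).image fun y => (Fin.cons (S.card : ℤ) y : Fin (m + 1) → ℤ)) ⊆
          (sumset X).filter fun z => z 0 = (S.card : ℤ) := by
        intro z hz
        rw [mem_image] at hz
        obtain ⟨y, hy, rfl⟩ := hz
        rw [mem_filter]
        refine ⟨?_, by simp⟩
        obtain ⟨f, hf, hfy⟩ := mem_sumset.1 hy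
        refine mem_sumset.2 ⟨fun i => Fin.cons (if i ∈ S then (1 : ℤ) else 0) (f i), ?_, ?_⟩
        · intro i
          have := hf i
          by_cases hi : i ∈ S
          · simp only [hi, if_true] at this ⊢
            exact (hYmem i 1 _).1 this
          · simp only [hi, if_false] at this ⊢
            exact (hYmem i 0 _).1 this
        · funext c
          refine Fin.cases ?_ (fun c => ?_) c
          · simp [Finset.sum_apply]
          · simp only [Finset.sum_apply, Fin.cons_succ]
            rw [← hfy, Finset.sum_apply]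
      have h4 := card_le_card h3
      rw [card_image_of_injective _ (fun y y' h => (Fin.cons_right_injective (α := fun _ => ℤ) _ h))] at h4
      exact_mod_cast h4
    have key := two_point L hL hk p hp (fun i => ((Y i 0).card : ℝ)) (fun i => ((Y i 1).card : ℝ))
      (fun i => Nat.cast_nonneg _) (fun i => Nat.cast_nonneg _) M hMS
    simp only [hYcard]
    refine key.trans ?_
    rw [pow_succ, mul_comm ((8 : ℝ) ^ m) 8, mul_assoc]
    refine mul_le_mul_of_nonneg_left ?_ (by norm_num)
    simp only [hM]
    rw [← mul_sum]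
    refine mul_le_mul_of_nonneg_left ?_ (by positivity)
    have h5 : ∑ j ∈ range (2 ^ L + 1), ((sumset X).filter fun z => z 0 = (j : ℤ)).card ≤ (sumset X).card := by
      rw [← card_biUnion]
      · refine card_le_card ?_
        intro z hz
        rw [mem_biUnion] at hz
        obtain ⟨j, _, hj⟩ := hz
        exact (mem_filter.1 hj).1
      · intro j _ j' _ hjj
        rw [Function.onFun, disjoint_left]
        intro z hz hz'
        rw [mem_filter] at hz hz'
        exact hjj (by exact_mod_cast hz.2.symm.trans hz'.2)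
    exact_mod_cast h5

/-- equal summands -/
theorem grow_pow (L : ℕ) (hL : 1 ≤ L) {ι : Type*} [Fintype ι] [DecidableEq ι] (hk : Fintype.card ι = 2 ^ L)
    (m : ℕ) (X : Finset (Fin m → ℤ)) (h01 : ∀ x ∈ X, ∀ c, x c = 0 ∨ x c = 1) :
    X.card ^ L ≤ 8 ^ m * (sumset fun _ : ι => X).card := by
  have h := grow L hL hk _ rfl m (fun _ => X) (fun _ => h01)
  rw [prod_const, card_univ, hk, ← Real.rpow_natCast, ← Real.rpow_mul (Nat.cast_nonneg _)] at h
  have h2 : ((L : ℝ) / 2 ^ L) * ((2 ^ L : ℕ) : ℝ) = L := by
    push_cast; field_simp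
  rw [h2, Real.rpow_natCast] at h
  exact_mod_cast h

end Vale.Agent.P160.Half.SumGrow
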