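import Mathlib

/-! # P160-HALF (M): multiplicative supermartingale lemmas (helper370), Mathlib only.

`prod_step`: if the events `I p` satisfy `P (⋂_{p ∈ B} I p) ≤ ∏_{p ∈ B} q p` for all sets `B`, then
`E ∏ (b p on I p, a p off I p) ≤ ∏ (a p + q p (b p - a p))` (`0 ≤ a ≤ b`). -/

open Finset

namespace Vale.Agent.P160.Half.S370

/-- one step -/
theorem prod_step {Ω ι : Type*} [Fintype Ω] [DecidableEq ι] (P : Finset ι) (I : ι → Ω → Prop)
    [∀ p ω, Decidable (I p ω)] (a b q : ι → ℝ) (ha : ∀ p ∈ P, 0 ≤ a p) (hab : ∀ p ∈ P, a p ≤ b p)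
    (hq : ∀ B ⊆ P, (((univ : Finset Ω).filter fun ω => ∀ p ∈ B, I p ω).card : ℝ) ≤
      (∏ p ∈ B, q p) * Fintype.card Ω) :
    ∑ ω, ∏ p ∈ P, (if I p ω then b p else a p) ≤
      (∏ p ∈ P, (a p + q p * (b p - a p))) * Fintype.card Ω := by
  have h1 : ∀ ω, ∏ p ∈ P, (if I p ω then b p else a p) =
      ∑ B ∈ P.powerset, (∏ p ∈ B, (b p - a p)) * (∏ p ∈ P \ B, a p) *
        (if ∀ p ∈ B, I p ω then 1 else 0) := by
    intro ω
    have h2 : ∏ p ∈ P, (if I p ω then b p else a p) =
        ∏ p ∈ P, ((if I p ω then (b p - a p) else 0) + a p) := by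
      refine prod_congr rfl fun p _ => ?_
      by_cases h : I p ω
      · rw [if_pos h, if_pos h]; ring
      · rw [if_neg h, if_neg h]; ring
    rw [h2, prod_add]
    refine sum_congr rfl fun B _ => ?_
    by_cases h : ∀ p ∈ B, I p ω
    · rw [if_pos h, mul_one]
      congr 1
      exact prod_congr rfl fun p hp => by rw [if_pos (h p hp)]
    · rw [if_neg h, mul_zero]
      push Not at h
      obtain ⟨p, hp, hI⟩ := h
      rw [prod_eq_zero hp (by rw [if_neg hI]), zero_mul]
  have h3 : ∏ p ∈ P, (a p + q p * (b p - a p)) =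
      ∑ B ∈ P.powerset, (∏ p ∈ B, (b p - a p)) * (∏ p ∈ P \ B, a p) * ∏ p ∈ B, q p := by
    have h4 : ∏ p ∈ P, (a p + q p * (b p - a p)) = ∏ p ∈ P, (q p * (b p - a p) + a p) :=
      prod_congr rfl fun p _ => add_comm _ _
    rw [h4, prod_add]
    refine sum_congr rfl fun B _ => ?_
    rw [prod_mul_distrib]
    ring
  simp only [h1]
  rw [sum_comm, h3, sum_mul]
  refine sum_le_sum fun B hB => ?_
  rw [mem_powerset] at hB
  rw [← mul_sum, mul_assoc ((∏ p ∈ B, (b p - a p)) * ∏ p ∈ P \ B, a p)]
  refine mul_le_mul_of_nonneg_left ?_ (mul_nonneg (prod_nonneg fun p hp => ?_)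
    (prod_nonneg fun p hp => ?_))
  · have := hq B hB
    rw [sum_boole]
    exact_mod_cast this
  · exact sub_nonneg.2 (hab p (hB hp))
  · exact ha p (mem_sdiff.1 hp).1

/-- iteration: a function of the first `j` columns which does not increase in the mean -/
theorem iter {Y : Type*} [Fintype Y] (k : ℕ) (f : (j : ℕ) → (Fin j → Y) → ℝ)
    (hf : ∀ j < k, ∀ x : Fin j → Y, ∑ y, f (j + 1) (Fin.snoc x y) ≤ Fintype.card Y * f j x) :
    ∀ j ≤ k, ∑ x : Fin j → Y, f j x ≤ (Fintype.card Y : ℝ) ^ j * f 0 Fin.elim0 := by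
  intro j
  induction j with
  | zero =>
      intro _
      have h : ∀ x : Fin 0 → Y, x = Fin.elim0 := fun x => Subsingleton.elim _ _
      rw [pow_zero, one_mul, Fintype.sum_subsingleton _ Fin.elim0]
  | succ j ih =>
      intro hj
      have h1 := ih (by omega)
      have h2 : ∑ x : Fin (j + 1) → Y, f (j + 1) x =
          ∑ x : Fin j → Y, ∑ y : Y, f (j + 1) (Fin.snoc x y) := by
        rw [← (Fin.snocEquiv fun _ => Y).sum_comp, Fintype.sum_prod_type, sum_comm]
        rfl
      rw [h2]
      calc ∑ x : Fin j → Y, ∑ y : Y, f (j + 1) (Fin.snoc x y)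
          ≤ ∑ x : Fin j → Y, Fintype.card Y * f j x := sum_le_sum fun x _ => hf j (by omega) x
        _ = Fintype.card Y * ∑ x : Fin j → Y, f j x := (mul_sum _ _ _).symm
        _ ≤ Fintype.card Y * ((Fintype.card Y : ℝ) ^ j * f 0 Fin.elim0) :=
            mul_le_mul_of_nonneg_left h1 (Nat.cast_nonneg _)
        _ = _ := by ring

/-- a random member of the set `{w : all columns orthogonal}` is bad with probability `> 1/2` only
with small probability -/
theorem frac_bad {Y W : Type*} [Fintype Y] [Fintype W] (orth : Y → W → Prop)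
    [∀ y w, Decidable (orth y w)] (Bad : W → Prop) [DecidablePred Bad] (j : ℕ) (L : ℝ) (hL : 0 < L)
    (hK : ∀ x : Fin j → Y, L ≤ ((univ : Finset W).filter fun w => ∀ i, orth (x i) w).card) :
    (((univ : Finset (Fin j → Y)).filter fun x =>
      ((univ : Finset W).filter fun w => ∀ i, orth (x i) w).card <
        2 * ((univ : Finset W).filter fun w => (∀ i, orth (x i) w) ∧ Bad w).card).card : ℝ) ≤
      2 / L * ∑ w ∈ univ.filter Bad, (((univ : Finset Y).filter fun y => orth y w).card : ℝ) ^ j := by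
  classical
  set T := (univ : Finset (Fin j → Y)).filter fun x =>
      ((univ : Finset W).filter fun w => ∀ i, orth (x i) w).card <
        2 * ((univ : Finset W).filter fun w => (∀ i, orth (x i) w) ∧ Bad w).card with hT
  have h1 : L / 2 * (T.card : ℝ) ≤
      ∑ x : Fin j → Y, (((univ : Finset W).filter fun w => (∀ i, orth (x i) w) ∧ Bad w).card : ℝ) := by
    calc L / 2 * (T.card : ℝ) = ∑ x ∈ T, L / 2 := by rw [sum_const, nsmul_eq_mul, mul_comm]
      _ ≤ ∑ x ∈ T, (((univ : Finset W).filter fun w => (∀ i, orth (x i) w) ∧ Bad w).card : ℝ) := by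
          refine sum_le_sum fun x hx => ?_
          have hx2 := (mem_filter.1 hx).2
          have hx3 := hK x
          have hx4 : (((univ : Finset W).filter fun w => ∀ i, orth (x i) w).card : ℝ) <
            2 * (((univ : Finset W).filter fun w => (∀ i, orth (x i) w) ∧ Bad w).card : ℝ) := by
            exact_mod_cast hx2
          linarith
      _ ≤ _ := sum_le_sum_of_subset_of_nonneg (subset_univ _) fun _ _ _ => Nat.cast_nonneg _
  have h2 : ∑ x : Fin j → Y, (((univ : Finset W).filter fun w => (∀ i, orth (x i) w) ∧ Bad w).card : ℝ)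
      = ∑ w ∈ univ.filter Bad, (((univ : Finset Y).filter fun y => orth y w).card : ℝ) ^ j := by
    have h3 : ∀ x : Fin j → Y, (((univ : Finset W).filter fun w => (∀ i, orth (x i) w) ∧ Bad w).card : ℝ)
        = ∑ w ∈ univ.filter Bad, if ∀ i, orth (x i) w then (1 : ℝ) else 0 := by
      intro x
      rw [sum_boole, filter_filter]
      congr 2
      ext w
      simp only [mem_filter, mem_univ, true_and]
      exact and_comm
    simp only [h3]
    rw [sum_comm]
    refine sum_congr rfl fun w _ => ?_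
    rw [sum_boole]
    have h4 : ((univ : Finset (Fin j → Y)).filter fun x => ∀ i, orth (x i) w)
        = Fintype.piFinset fun _ : Fin j => (univ : Finset Y).filter fun y => orth y w := by
      ext x
      simp [Fintype.mem_piFinset]
    rw [h4, Fintype.card_piFinset, prod_const, card_univ, Fintype.card_fin]
    push_cast
    rfl
  rw [h2] at h1
  rw [div_mul_eq_mul_div, le_div_iff₀ hL]
  linarith

end Vale.Agent.P160.Half.S370
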