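import Vale.Agent.P160.Dom
import Vale.Agent.P160.Half.SparseDel

/-! P160-HALF, tall route, (T3): the mod 3 trick. -/

set_option linter.unusedSectionVars false

namespace Vale.Agent.P160.Half.Tall3

open Finset Module Vale.Agent.P160

section key

variable {G : Type*} [AddCommGroup G] [Fintype G] [DecidableEq G]
variable {H : Type*} [AddCommGroup H] [Fintype H] [DecidableEq H]
variable {k : ℕ}

/-- Shifting the characters by phases does not increase the sum. -/
theorem shift_le {M : ℕ} (hM : 4 ≤ M) (v : Fin k → G) (z : Fin k → ℂ) (hz : ∀ i, ‖z i‖ = 1) :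
    ∑ ψ : AddChar G ℂ, ∏ i, cf M (ψ (v i) * z i) ≤ ∑ ψ : AddChar G ℂ, ∏ i, cf M (ψ (v i)) := by
  have hM0 : (0 : ℝ) < (M : ℝ) ^ k := by
    have : (0 : ℝ) < M := by exact_mod_cast (by omega : 0 < M)
    positivity
  have hz' : ∀ (ψ : AddChar G ℂ) i, ‖ψ (v i) * z i‖ = 1 := fun ψ i => by
    rw [norm_mul, norm_addChar, hz, mul_one]
  have e1 : (((M : ℝ) ^ k * ∑ ψ : AddChar G ℂ, ∏ i, cf M (ψ (v i) * z i) : ℝ) : ℂ) =
      ∑ ω : Fin k → Fin M, (∏ i, z i ^ st (ω i)) *
        (if gwalk ω v = 0 then (Fintype.card G : ℂ) else 0) := by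
    have : ∀ ψ : AddChar G ℂ, (((M : ℝ) ^ k * ∏ i, cf M (ψ (v i) * z i) : ℝ) : ℂ) =
        ∑ ω : Fin k → Fin M, (∏ i, z i ^ st (ω i)) * ψ (gwalk ω v) := by
      intro ψ
      have h := sum_prod_zpow_st (by omega : 2 ≤ M) (fun i => ψ (v i) * z i) (hz' ψ)
      simp only [Fintype.card_fin] at h
      rw [← h]
      refine sum_congr rfl fun ω _ => ?_
      unfold gwalk
      rw [addChar_sum, ← prod_mul_distrib]
      refine prod_congr rfl fun i _ => ?_
      rw [mul_zpow, AddChar.map_zsmul_eq_zpow, mul_comm]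
    rw [mul_sum, Complex.ofReal_sum]
    rw [sum_congr rfl fun ψ _ => this ψ, sum_comm]
    refine sum_congr rfl fun ω _ => ?_
    rw [← mul_sum, AddChar.sum_apply_eq_ite]
  have e2 : (M : ℝ) ^ k * ∑ ψ : AddChar G ℂ, ∏ i, cf M (ψ (v i)) =
      ∑ ω : Fin k → Fin M, (if gwalk ω v = 0 then (Fintype.card G : ℝ) else 0) := by
    have : ∀ ψ : AddChar G ℂ, (((M : ℝ) ^ k * ∏ i, cf M (ψ (v i)) : ℝ) : ℂ) =
        ∑ ω : Fin k → Fin M, ψ (gwalk ω v) := by
      intro ψ
      have h := sum_addChar_gwalk (by omega : 2 ≤ M) ψ v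
      simp only [Fintype.card_fin] at h
      exact h.symm
    have h2 : (((M : ℝ) ^ k * ∑ ψ : AddChar G ℂ, ∏ i, cf M (ψ (v i)) : ℝ) : ℂ) =
        ((∑ ω : Fin k → Fin M, (if gwalk ω v = 0 then (Fintype.card G : ℝ) else 0) : ℝ) : ℂ) := by
      rw [mul_sum, Complex.ofReal_sum, sum_congr rfl fun ψ _ => this ψ, sum_comm,
        Complex.ofReal_sum]
      refine sum_congr rfl fun ω _ => ?_
      rw [AddChar.sum_apply_eq_ite]
      split_ifs <;> simp
    exact_mod_cast h2
  refine le_of_mul_le_mul_left ?_ hM0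
  have hnn : 0 ≤ (M : ℝ) ^ k * ∑ ψ : AddChar G ℂ, ∏ i, cf M (ψ (v i) * z i) :=
    mul_nonneg hM0.le (sum_nonneg fun ψ _ => prod_nonneg fun i _ => cf_nonneg hM (hz' ψ i))
  rw [e2, ← abs_of_nonneg hnn, ← Real.norm_eq_abs, ← Complex.norm_real, e1]
  refine (norm_sum_le _ _).trans (sum_le_sum fun ω _ => ?_)
  rw [norm_mul, norm_prod]
  have : ∏ i, ‖z i ^ st (ω i)‖ = 1 := prod_eq_one fun i _ => by rw [norm_zpow, hz, one_zpow]
  rw [this, one_mul]
  split_ifs <;> simp

theorem norm_sub_one_sq {z : ℂ} (hz : ‖z‖ = 1) : ‖z - 1‖ ^ 2 = 2 * (1 - z.re) := by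
  rw [← Complex.normSq_eq_norm_sq, Complex.normSq_apply]
  have h2 : z.re * z.re + z.im * z.im = 1 := by
    rw [← Complex.normSq_apply, Complex.normSq_eq_norm_sq, hz]; norm_num
  simp
  nlinarith

theorem norm_cube_le (z : ℂ) (hz : ‖z‖ = 1) : ‖z ^ 3 - 1‖ ^ 2 ≤ 9 * ‖z - 1‖ ^ 2 := by
  have h : z ^ 3 - 1 = (z - 1) * (z ^ 2 + z + 1) := by ring
  have h2 : ‖z ^ 2 + z + 1‖ ≤ 3 := by
    calc ‖z ^ 2 + z + 1‖ ≤ ‖z ^ 2‖ + ‖z‖ + ‖(1 : ℂ)‖ :=
          (norm_add_le _ _).trans (by gcongr; exact norm_add_le _ _)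
      _ = 3 := by rw [norm_pow, hz]; norm_num
  rw [h, norm_mul, mul_pow]
  have h3 : 0 ≤ ‖z ^ 2 + z + 1‖ := norm_nonneg _
  nlinarith [sq_nonneg ‖z - 1‖, mul_nonneg (sq_nonneg ‖z - 1‖) h3]

theorem prod_cf_le (z : Fin k → ℂ) (hz : ∀ i, ‖z i‖ = 1) {e : ℝ}
    (he : e ≤ ∑ i, ‖z i - 1‖ ^ 2) :
    ∏ i, cf 8 (z i) ≤ (∏ i, cf 16 (z i)) * Real.exp (-e / 16) := by
  have h1 : ∏ i, cf 8 (z i) ≤ (∏ i, cf 16 (z i)) * (∏ i, cf 16 (z i)) := by
    rw [← prod_mul_distrib]
    refine prod_le_prod (fun i _ => cf_nonneg (by norm_num) (hz i)) fun i _ => ?_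
    unfold cf
    push_cast
    nlinarith [sq_nonneg (1 - (z i).re)]
  have h2 : ∏ i, cf 16 (z i) ≤ Real.exp (-e / 16) := by
    calc ∏ i, cf 16 (z i) ≤ ∏ i, Real.exp (-‖z i - 1‖ ^ 2 / 16) := by
          refine prod_le_prod (fun i _ => cf_nonneg (by norm_num) (hz i)) fun i _ => ?_
          rw [norm_sub_one_sq (hz i)]
          have := Real.add_one_le_exp (-(2 * (1 - (z i).re)) / 16)
          unfold cf
          push_cast
          linarith
      _ = Real.exp (∑ i, -‖z i - 1‖ ^ 2 / 16) := (Real.exp_sum _ _).symm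
      _ ≤ _ := by
          apply Real.exp_le_exp.mpr
          have : ∑ i, -‖z i - 1‖ ^ 2 / 16 = -(∑ i, ‖z i - 1‖ ^ 2) / 16 := by
            rw [← sum_div, sum_neg_distrib]
          rw [this]
          linarith
  refine h1.trans ?_
  exact mul_le_mul_of_nonneg_left h2 (prod_nonneg fun i _ => cf_nonneg (by norm_num) (hz i))

theorem cube_ne (hG : (Fintype.card G).Coprime 3) {ψ : AddChar G ℂ} (hψ : ψ ≠ 1) : ψ ^ 3 ≠ 1 := by
  intro h
  apply hψ
  have hc : (Nat.card (AddChar G ℂ)).Coprime 3 := by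
    rw [Nat.card_eq_fintype_card, AddChar.card_eq]; exact hG
  have := (powCoprime hc).injective (a₁ := ψ) (a₂ := 1) (by simpa [powCoprime] using h)
  exact this

theorem energy_shift (v : Fin k → G) (u : Fin k → H) (h3 : ∀ h : H, (3 : ℕ) • h = 0)
    (hG : (Fintype.card G).Coprime 3) {e : ℝ}
    (he : ∀ ψ : AddChar G ℂ, ψ ≠ 1 → e ≤ ∑ i, ‖ψ (v i) - 1‖ ^ 2)
    {ψ : AddChar G ℂ} (hψ : ψ ≠ 1) (χ : AddChar H ℂ) :
    e / 9 ≤ ∑ i, ‖ψ (v i) * χ (u i) - 1‖ ^ 2 := by
  have h1 := he _ (cube_ne hG hψ)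
  have h2 : ∑ i, ‖(ψ ^ 3) (v i) - 1‖ ^ 2 ≤ ∑ i, 9 * ‖ψ (v i) * χ (u i) - 1‖ ^ 2 := by
    refine sum_le_sum fun i _ => ?_
    have e1 : (ψ ^ 3) (v i) = (ψ (v i) * χ (u i)) ^ 3 := by
      rw [mul_pow, ← AddChar.map_nsmul_eq_pow χ, h3, AddChar.map_zero_eq_one, mul_one]
      rfl
    rw [e1]
    exact norm_cube_le _ (by rw [norm_mul, norm_addChar, norm_addChar, mul_one])
  rw [← mul_sum] at h2
  linarith

/-- Fourier coefficient in the first walk of the event `u`-walk `= 0` -/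
noncomputable def T (v : Fin k → G) (u : Fin k → H) (ψ : AddChar G ℂ) : ℂ :=
  ∑ ω : Fin k → Fin 8, if gwalk ω u = 0 then ψ (gwalk ω v) else 0

/-- average over the characters of `H` -/
noncomputable def Sm (M : ℕ) (v : Fin k → G) (u : Fin k → H) (ψ : AddChar G ℂ) : ℝ :=
  (Fintype.card H : ℝ)⁻¹ * ∑ χ : AddChar H ℂ, ∏ i, cf M (ψ (v i) * χ (u i))

theorem norm_pc (v : Fin k → G) (u : Fin k → H) (ψ : AddChar G ℂ) (χ : AddChar H ℂ) (i : Fin k) :
    ‖ψ (v i) * χ (u i)‖ = 1 := by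
  rw [norm_mul, norm_addChar, norm_addChar, mul_one]

theorem Sm_nonneg {M : ℕ} (hM : 4 ≤ M) (v : Fin k → G) (u : Fin k → H) (ψ : AddChar G ℂ) :
    0 ≤ Sm M v u ψ :=
  mul_nonneg (inv_nonneg.mpr (Nat.cast_nonneg _)) (sum_nonneg fun χ _ => prod_nonneg fun i _ =>
    cf_nonneg hM (norm_pc v u ψ χ i))

theorem T_sum (v : Fin k → G) (u : Fin k → H) : (Fintype.card G : ℂ) *
      ((univ.filter fun ω : Fin k → Fin 8 => gwalk ω v = 0 ∧ gwalk ω u = 0).card : ℂ) =
      ∑ ψ, T v u ψ := by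
  unfold T
  rw [sum_comm, card_filter]
  push_cast
  rw [mul_sum]
  refine sum_congr rfl fun ω _ => ?_
  by_cases hu : gwalk ω u = 0
  · simp only [hu, and_true, if_true]
    rw [AddChar.sum_apply_eq_ite]
    split_ifs <;> simp
  · simp [hu]

theorem T_eq (v : Fin k → G) (u : Fin k → H) (ψ : AddChar G ℂ) :
    T v u ψ = ((8 ^ k * Sm 8 v u ψ : ℝ) : ℂ) := by
  have hH : (0 : ℝ) < Fintype.card H := by exact_mod_cast Fintype.card_pos
  have f2 : (Fintype.card H : ℂ) * T v u ψ =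
      ((8 ^ k * ∑ χ : AddChar H ℂ, ∏ i, cf 8 (ψ (v i) * χ (u i)) : ℝ) : ℂ) := by
    unfold T
    have : ∀ χ : AddChar H ℂ, ((8 ^ k * ∏ i, cf 8 (ψ (v i) * χ (u i)) : ℝ) : ℂ) =
        ∑ ω : Fin k → Fin 8, ψ (gwalk ω v) * χ (gwalk ω u) := by
      intro χ
      have h := sum_prod_zpow_st (M := 8) (by norm_num) (fun i => ψ (v i) * χ (u i))
        (norm_pc v u ψ χ)
      simp only [Fintype.card_fin] at h
      rw [show ((8 : ℕ) : ℝ) = 8 by norm_num] at h
      rw [← h]
      refine sum_congr rfl fun ω _ => ?_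
      unfold gwalk
      rw [addChar_sum, addChar_sum, ← prod_mul_distrib]
      refine prod_congr rfl fun i _ => ?_
      rw [mul_zpow, AddChar.map_zsmul_eq_zpow, AddChar.map_zsmul_eq_zpow]
    rw [mul_sum, mul_sum, Complex.ofReal_sum, sum_congr rfl fun χ _ => this χ, sum_comm]
    refine sum_congr rfl fun ω _ => ?_
    rw [← mul_sum, AddChar.sum_apply_eq_ite]
    split_ifs <;> simp [mul_comm]
  have hne : (Fintype.card H : ℂ) ≠ 0 := by exact_mod_cast hH.ne'
  apply mul_left_cancel₀ hne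
  rw [f2]
  unfold Sm
  push_cast
  field_simp

theorem Sm_eight_le (v : Fin k → G) (u : Fin k → H) (h3 : ∀ h : H, (3 : ℕ) • h = 0)
    (hG : (Fintype.card G).Coprime 3) {e : ℝ}
    (he : ∀ ψ : AddChar G ℂ, ψ ≠ 1 → e ≤ ∑ i, ‖ψ (v i) - 1‖ ^ 2)
    {ψ : AddChar G ℂ} (hψ : ψ ≠ 1) :
    Sm 8 v u ψ ≤ Sm 16 v u ψ * Real.exp (-e / 144) := by
  unfold Sm
  rw [mul_assoc]
  refine mul_le_mul_of_nonneg_left ?_ (inv_nonneg.mpr (Nat.cast_nonneg _))
  rw [sum_mul]
  refine sum_le_sum fun χ _ => ?_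
  have h := prod_cf_le (fun i => ψ (v i) * χ (u i)) (norm_pc v u ψ χ)
    (energy_shift v u h3 hG he hψ χ)
  refine h.trans (le_of_eq ?_)
  congr 2
  ring

theorem Sm_sum_le (v : Fin k → G) (u : Fin k → H) :
    ∑ ψ : AddChar G ℂ, Sm 16 v u ψ ≤ ∑ ψ : AddChar G ℂ, ∏ i, cf 16 (ψ (v i)) := by
  have hH : (0 : ℝ) < Fintype.card H := by exact_mod_cast Fintype.card_pos
  have hcard : (Fintype.card (AddChar H ℂ) : ℝ) = Fintype.card H := by
    rw [AddChar.card_eq]
  unfold Sm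
  rw [← mul_sum, sum_comm]
  have : ∑ χ : AddChar H ℂ, ∑ ψ : AddChar G ℂ, ∏ i, cf 16 (ψ (v i) * χ (u i)) ≤
      ∑ _χ : AddChar H ℂ, ∑ ψ : AddChar G ℂ, ∏ i, cf 16 (ψ (v i)) :=
    sum_le_sum fun χ _ => shift_le (by norm_num) v _ fun i => norm_addChar _ _
  rw [sum_const, card_univ, nsmul_eq_mul, hcard] at this
  calc _ ≤ (Fintype.card H : ℝ)⁻¹ * (Fintype.card H * ∑ ψ : AddChar G ℂ, ∏ i, cf 16 (ψ (v i))) :=
        mul_le_mul_of_nonneg_left this (inv_nonneg.mpr hH.le)
    _ = _ := by field_simp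

theorem T_one (v : Fin k → G) (u : Fin k → H) :
    T v u 1 = ((univ.filter fun ω : Fin k → Fin 8 => gwalk ω u = 0).card : ℂ) := by
  unfold T
  rw [card_filter]
  push_cast
  refine sum_congr rfl fun ω _ => ?_
  simp

/-- The mod 3 trick: conditionally on `v`-walk being zero the `u`-walk (in a group of exponent 3)
is as spread as unconditionally, up to an exponentially small error. -/
theorem key (v : Fin k → G) (u : Fin k → H) (h3 : ∀ h : H, (3 : ℕ) • h = 0)
    (hG : (Fintype.card G).Coprime 3) {e : ℝ}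
    (he : ∀ ψ : AddChar G ℂ, ψ ≠ 1 → e ≤ ∑ i, ‖ψ (v i) - 1‖ ^ 2) :
    (Fintype.card G : ℝ) *
        ((univ.filter fun ω : Fin k → Fin 8 => gwalk ω v = 0 ∧ gwalk ω u = 0).card : ℝ) ≤
      ((univ.filter fun ω : Fin k → Fin 8 => gwalk ω u = 0).card : ℝ) +
        8 ^ k * ((∑ ψ : AddChar G ℂ, ∏ i, cf 16 (ψ (v i))) * Real.exp (-e / 144)) := by
  classical
  have hL : ((Fintype.card G : ℝ) *
      ((univ.filter fun ω : Fin k → Fin 8 => gwalk ω v = 0 ∧ gwalk ω u = 0).card : ℝ)) =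
      ‖∑ ψ, T v u ψ‖ := by
    rw [← T_sum, norm_mul, Complex.norm_natCast, Complex.norm_natCast]
  rw [hL, ← add_sum_erase univ (T v u) (mem_univ 1)]
  refine (norm_add_le _ _).trans (add_le_add ?_ ?_)
  · rw [T_one, Complex.norm_natCast]
  · refine (norm_sum_le _ _).trans ?_
    have f3 : ∀ ψ : AddChar G ℂ, ψ ≠ 1 →
        ‖T v u ψ‖ ≤ 8 ^ k * (Sm 16 v u ψ * Real.exp (-e / 144)) := by
      intro ψ hψ
      rw [T_eq, Complex.norm_real, Real.norm_eq_abs,
        abs_of_nonneg (mul_nonneg (by positivity) (Sm_nonneg (by norm_num) v u ψ))]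
      exact mul_le_mul_of_nonneg_left (Sm_eight_le v u h3 hG he hψ) (by positivity)
    calc ∑ ψ ∈ univ.erase 1, ‖T v u ψ‖ ≤ ∑ ψ ∈ univ.erase 1,
          8 ^ k * (Sm 16 v u ψ * Real.exp (-e / 144)) :=
          sum_le_sum fun ψ hψ => f3 ψ (ne_of_mem_erase hψ)
      _ ≤ ∑ ψ : AddChar G ℂ, 8 ^ k * (Sm 16 v u ψ * Real.exp (-e / 144)) :=
          sum_le_sum_of_subset_of_nonneg (erase_subset _ _) fun ψ _ _ =>
            mul_nonneg (by positivity) (mul_nonneg (Sm_nonneg (by norm_num) v u ψ)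
              (Real.exp_pos _).le)
      _ = 8 ^ k * ((∑ ψ : AddChar G ℂ, Sm 16 v u ψ) * Real.exp (-e / 144)) := by
          rw [← mul_sum, ← sum_mul]
      _ ≤ _ := mul_le_mul_of_nonneg_left
          (mul_le_mul_of_nonneg_right (Sm_sum_le v u) (Real.exp_pos _).le) (by positivity)

end key

section rows

/-- Counting matrices of small rank: the rows satisfy `P`, the row space has dimension `≤ d`. -/
theorem rows_count {α : Type*} [Fintype α] {K : Type*} [Field K] {k q d : ℕ} (hd : d ≤ q)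
    (φ : α → (Fin k → K)) (P : α → Prop) {A B : ℝ} (hB0 : 0 ≤ B)
    (hA : (Nat.card {x // P x} : ℝ) ≤ A)
    (hB : ∀ W : Submodule K (Fin k → K), finrank K W ≤ d →
      (Nat.card {x // P x ∧ φ x ∈ W} : ℝ) ≤ B) :
    (Nat.card {R : Fin q → α // (∀ j, P (R j)) ∧
      finrank K (Submodule.span K (Set.range fun j => φ (R j))) ≤ d} : ℝ) ≤
      q.choose d * A ^ d * B ^ (q - d) := by
  classical
  set S : Finset (Fin q → α) := univ.filter fun R => (∀ j, P (R j)) ∧
      finrank K (Submodule.span K (Set.range fun j => φ (R j))) ≤ d with hS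
  have hcS : Nat.card {R : Fin q → α // (∀ j, P (R j)) ∧
      finrank K (Submodule.span K (Set.range fun j => φ (R j))) ≤ d} = S.card := by
    rw [Nat.card_eq_fintype_card, Fintype.card_subtype]
  rw [hcS]
  set Q : Finset (Fin q) → Finset (Fin q → α) := fun J => univ.filter fun R => (∀ j, P (R j)) ∧
    (∀ j, φ (R j) ∈ Submodule.span K ((fun i => φ (R i)) '' (J : Set (Fin q)))) with hQ
  have hsub : S ⊆ (powersetCard d (univ : Finset (Fin q))).biUnion Q := by
    intro R hR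
    rw [hS, mem_filter] at hR
    obtain ⟨-, hP, hr⟩ := hR
    obtain ⟨κ, a, ha, hspan, hli⟩ := exists_linearIndependent' K (fun j => φ (R j))
    have : Fintype κ := Fintype.ofInjective a ha
    have hcard : Fintype.card κ ≤ d := by
      rw [← finrank_span_eq_card hli, hspan]; exact hr
    have h0 : (univ.image a).card ≤ d := (card_image_le).trans (by rwa [card_univ])
    obtain ⟨J, hJ1, -, hJ2⟩ := exists_subsuperset_card_eq (subset_univ (univ.image a)) h0
      (by rw [card_univ, Fintype.card_fin]; exact hd)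
    rw [mem_biUnion]
    refine ⟨J, mem_powersetCard.mpr ⟨subset_univ _, hJ2⟩, ?_⟩
    rw [hQ, mem_filter]
    refine ⟨mem_univ _, hP, fun j => ?_⟩
    have h1 : φ (R j) ∈ Submodule.span K (Set.range ((fun j => φ (R j)) ∘ a)) := by
      rw [hspan]; exact Submodule.subset_span ⟨j, rfl⟩
    refine Submodule.span_mono ?_ h1
    rintro _ ⟨x, rfl⟩
    exact ⟨a x, hJ1 (mem_image_of_mem _ (mem_univ _)), rfl⟩
  have hQc : ∀ J ∈ powersetCard d (univ : Finset (Fin q)), ((Q J).card : ℝ) ≤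
      A ^ d * B ^ (q - d) := by
    intro J hJ
    have hJd : J.card = d := (mem_powersetCard.mp hJ).2
    let W : ({j // j ∈ J} → α) → Submodule K (Fin k → K) := fun a =>
      Submodule.span K (Set.range fun i => φ (a i))
    have hinj : (Q J).card ≤ ∑ a ∈ (Fintype.piFinset fun _ : {j // j ∈ J} =>
        (univ.filter P : Finset α)), (Fintype.piFinset fun _ : {j // j ∉ J} =>
          (univ.filter fun x => P x ∧ φ x ∈ W a : Finset α)).card := by
      rw [← card_sigma]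
      refine card_le_card_of_injOn (fun R => ⟨fun j => R j, fun j => R j⟩) ?_ ?_
      · intro R hR
        rw [hQ, mem_coe, mem_filter] at hR
        obtain ⟨-, hP, hm⟩ := hR
        rw [mem_coe, mem_sigma]
        refine ⟨?_, ?_⟩
        · rw [Fintype.mem_piFinset]; intro j; rw [mem_filter]; exact ⟨mem_univ _, hP _⟩
        · rw [Fintype.mem_piFinset]; intro j; rw [mem_filter]
          refine ⟨mem_univ _, hP _, Submodule.span_mono ?_ (hm j)⟩
          rintro _ ⟨i, hi, rfl⟩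
          exact ⟨⟨i, hi⟩, rfl⟩
      · intro R _ R' _ h
        simp only [Sigma.mk.injEq] at h
        obtain ⟨h1, h2⟩ := h
        have h2' := eq_of_heq h2
        funext j
        by_cases hj : j ∈ J
        · exact congrFun h1 ⟨j, hj⟩
        · exact congrFun h2' ⟨j, hj⟩
    have hP1 : ((univ.filter P : Finset α).card : ℝ) ≤ A := by
      rw [Nat.card_eq_fintype_card, Fintype.card_subtype] at hA; exact hA
    have hin : ∀ a : {j // j ∈ J} → α, ((Fintype.piFinset fun _ : {j // j ∉ J} =>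
          (univ.filter fun x => P x ∧ φ x ∈ W a : Finset α)).card : ℝ) ≤ B ^ (q - d) := by
      intro a
      have hfr : finrank K (W a) ≤ d := by
        have := finrank_range_le_card (R := K) (fun i : {j // j ∈ J} => φ (a i))
        rw [Fintype.card_coe, hJd] at this
        exact this
      have h := hB (W a) hfr
      rw [Nat.card_eq_fintype_card, Fintype.card_subtype] at h
      rw [Fintype.card_piFinset, prod_const, card_univ, Fintype.card_subtype_compl,
        Fintype.card_fin, Fintype.card_coe, hJd]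
      push_cast
      exact pow_le_pow_left₀ (Nat.cast_nonneg _) h _
    calc ((Q J).card : ℝ) ≤ ((∑ a ∈ (Fintype.piFinset fun _ : {j // j ∈ J} =>
        (univ.filter P : Finset α)), (Fintype.piFinset fun _ : {j // j ∉ J} =>
          (univ.filter fun x => P x ∧ φ x ∈ W a : Finset α)).card : ℕ) : ℝ) := by
          exact_mod_cast hinj
      _ ≤ ∑ a ∈ (Fintype.piFinset fun _ : {j // j ∈ J} =>
        (univ.filter P : Finset α)), B ^ (q - d) := by
          push_cast
          exact sum_le_sum fun a _ => hin a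
      _ = ((univ.filter P : Finset α).card : ℝ) ^ d * B ^ (q - d) := by
          rw [sum_const, Fintype.card_piFinset, prod_const, card_univ, Fintype.card_coe, hJd,
            nsmul_eq_mul]
          push_cast
          rfl
      _ ≤ _ := by
          gcongr
  calc (S.card : ℝ) ≤ (((powersetCard d (univ : Finset (Fin q))).biUnion Q).card : ℝ) := by
        exact_mod_cast card_le_card hsub
    _ ≤ ((∑ J ∈ powersetCard d (univ : Finset (Fin q)), (Q J).card : ℕ) : ℝ) := by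
        exact_mod_cast card_biUnion_le
    _ ≤ ∑ _J ∈ powersetCard d (univ : Finset (Fin q)), A ^ d * B ^ (q - d) := by
        push_cast
        exact sum_le_sum hQc
    _ = _ := by
        rw [sum_const, card_powersetCard, card_univ, Fintype.card_fin, nsmul_eq_mul]
        ring

end rows

section main

variable {G : Type*} [AddCommGroup G] [Fintype G] [DecidableEq G]
variable {k : ℕ}

/-- the steps modulo 3 -/
def r3 (x : Fin k → Fin 8) : Fin k → ZMod 3 := fun j => ((st (x j) : ℤ) : ZMod 3)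

theorem atom3 : ∀ z : ZMod 3,
    (univ.filter fun w : Fin 8 => ((st w : ℤ) : ZMod 3) = z).card ≤ 6 := by
  decide

/-- One row: zero against `v` and in a given subspace mod 3. -/
theorem row_le (v : Fin k → G) (W : Submodule (ZMod 3) (Fin k → ZMod 3))
    (hG : (Fintype.card G).Coprime 3) {e : ℝ}
    (he : ∀ ψ : AddChar G ℂ, ψ ≠ 1 → e ≤ ∑ i, ‖ψ (v i) - 1‖ ^ 2) :
    (Fintype.card G : ℝ) * (Nat.card {x : Fin k → Fin 8 // gwalk x v = 0 ∧ r3 x ∈ W} : ℝ) ≤
      8 ^ k * ((3 / 4) ^ (k - finrank (ZMod 3) W) +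
        (∑ ψ : AddChar G ℂ, ∏ i, cf 16 (ψ (v i))) * Real.exp (-e / 144)) := by
  classical
  have : Finite ((Fin k → ZMod 3) ⧸ W) := inferInstance
  let _ : Fintype ((Fin k → ZMod 3) ⧸ W) := Fintype.ofFinite _
  set u : Fin k → (Fin k → ZMod 3) ⧸ W := fun j => W.mkQ (Pi.single j 1) with hu
  have hw : ∀ x : Fin k → Fin 8, gwalk x u = W.mkQ (r3 x) := by
    intro x
    have : r3 x = ∑ j, (st (x j)) • (Pi.single j (1 : ZMod 3) : Fin k → ZMod 3) := by
      funext i
      rw [Finset.sum_apply]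
      rw [Finset.sum_eq_single i]
      · simp [r3]
      · intro b _ hb; simp [Pi.single_apply, Ne.symm hb]
      · simp
    rw [this, map_sum]
    unfold gwalk
    refine sum_congr rfl fun j _ => ?_
    rw [hu, map_zsmul]
  have hz : ∀ x : Fin k → Fin 8, gwalk x u = 0 ↔ r3 x ∈ W := by
    intro x
    rw [hw]
    simp
  have h3 : ∀ h : (Fin k → ZMod 3) ⧸ W, (3 : ℕ) • h = 0 := by
    intro h
    obtain ⟨y, rfl⟩ := W.mkQ_surjective h
    rw [← map_nsmul]
    have : (3 : ℕ) • y = 0 := by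
      funext i
      have : ((3 : ℕ) : ZMod 3) = 0 := by decide
      rw [Pi.smul_apply, nsmul_eq_mul, this, zero_mul]; rfl
    rw [this, map_zero]
  have h := key v u h3 hG he
  have hodl := Vale.Agent.P160.Half.SparseDel.odl (Om := Fin 8) (F := ZMod 3)
    (fun w => ((st w : ℤ) : ZMod 3)) (al := 3 / 4) (by norm_num) (by norm_num)
    (fun z => by
      have : ((univ.filter fun w : Fin 8 => ((st w : ℤ) : ZMod 3) = z).card : ℝ) ≤ 6 := by
        exact_mod_cast atom3 z
      rw [Fintype.card_fin]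
      refine le_trans (le_of_eq ?_) (this.trans (by norm_num))
      congr!) k W 0
  simp only [sub_zero, Fintype.card_fin] at hodl
  have e1 : Nat.card {x : Fin k → Fin 8 // gwalk x v = 0 ∧ r3 x ∈ W} =
      (univ.filter fun ω : Fin k → Fin 8 => gwalk ω v = 0 ∧ gwalk ω u = 0).card := by
    rw [Nat.card_eq_fintype_card, Fintype.card_subtype]
    congr 1
    ext x
    simp [hz]
  have e2 : (univ.filter fun ω : Fin k → Fin 8 => gwalk ω u = 0) =
      univ.filter fun x : Fin k → Fin 8 => (fun j => ((st (x j) : ℤ) : ZMod 3)) ∈ W := by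
    ext x
    simp only [mem_filter, mem_univ, true_and]
    exact hz x
  rw [e1]
  rw [e2] at h
  refine h.trans ?_
  have e3 : ((8 : ℕ) : ℝ) = 8 := by norm_num
  rw [e3] at hodl
  have := hodl
  nlinarith [this]

/-- (T3), row form: tall matrices with all rows orthogonal to `v` and corank at least `k - d`
modulo 3. -/
theorem tall_corank (v : Fin k → G) {q d : ℕ} (hd : d ≤ q) (hdk : d ≤ k)
    (hG : (Fintype.card G).Coprime 3) {e : ℝ}
    (he : ∀ ψ : AddChar G ℂ, ψ ≠ 1 → e ≤ ∑ i, ‖ψ (v i) - 1‖ ^ 2) :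
    (Nat.card {R : Fin q → Fin k → Fin 8 // (∀ j, gwalk (R j) v = 0) ∧
      finrank (ZMod 3) (Submodule.span (ZMod 3) (Set.range fun j => r3 (R j))) ≤ d} : ℝ) ≤
      q.choose d * (8 ^ k * (∑ ψ : AddChar G ℂ, ∏ i, cf 8 (ψ (v i))) / Fintype.card G) ^ d *
        (8 ^ k * ((3 / 4) ^ (k - d) + (∑ ψ : AddChar G ℂ, ∏ i, cf 16 (ψ (v i))) *
          Real.exp (-e / 144)) / Fintype.card G) ^ (q - d) := by
  classical
  have hGp : (0 : ℝ) < Fintype.card G := by exact_mod_cast Fintype.card_pos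
  have hs8 : 0 ≤ ∑ ψ : AddChar G ℂ, ∏ i, cf 8 (ψ (v i)) := sum_nonneg fun ψ _ =>
    prod_nonneg fun i _ => cf_nonneg (by norm_num) (norm_addChar _ _)
  have hs16 : 0 ≤ ∑ ψ : AddChar G ℂ, ∏ i, cf 16 (ψ (v i)) := sum_nonneg fun ψ _ =>
    prod_nonneg fun i _ => cf_nonneg (by norm_num) (norm_addChar _ _)
  refine rows_count hd (fun x => r3 x) (fun x => gwalk x v = 0) (by positivity)
    ?_ ?_
  · have h := gpr_zero_eq (M := 8) (by norm_num) v
    unfold gpr at h
    rw [Nat.card_eq_fintype_card, Fintype.card_subtype, le_div_iff₀ hGp, ← h]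
    simp only [Fintype.card_fin]
    apply le_of_eq
    push_cast
    field_simp
  · intro W hW
    have h := row_le v W hG he
    rw [le_div_iff₀ hGp, mul_comm]
    refine h.trans ?_
    have : ((3 : ℝ) / 4) ^ (k - finrank (ZMod 3) W) ≤ (3 / 4) ^ (k - d) :=
      pow_le_pow_of_le_one (by norm_num) (by norm_num) (by omega)
    gcongr

end main

end Vale.Agent.P160.Half.Tall3
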