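import Vale.Agent.P160.Half.Tame4

/-! # P160: tameness: most coordinates of a kernel vector are polynomially large -/

namespace Vale.Agent.P160.Half.Tame

open Finset Vale.Agent.P160.Half.Spec

open Classical in
/-- **TAME.** Outside few symmetric 0/1 matrices, every kernel vector has polynomially large
coordinates up to `d n` exceptions. -/
def TameStmt : Prop := ∀ d e : ℝ, 0 < d → 0 < e → ∃ (A : ℝ) (n₀ : ℕ), ∀ n ≥ n₀,
  (((univ : Finset (Sym2 (Fin n) → Bool)).filter fun b => ∃ (v : Fin n → ℝ) (i : Fin n),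
    (∀ k, ∑ j, (if b s(k, j) then v j else 0) = 0) ∧
    d * n ≤ ((univ.filter fun j => |v j| * (n : ℝ) ^ A < |v i|).card : ℝ)).card : ℝ) ≤
    (2 : ℝ) ^ (-((1 - e) * n)) * 2 ^ Fintype.card (Sym2 (Fin n))

variable {n : ℕ}

/-- a kernel vector with many small coordinates gives a near-kernel vector -/
theorem comp_or_inc (k : ℕ) (hn : 10 ≤ n) (hkn : k ≤ n) (b : Sym2 (Fin n) → Bool)
    (v : Fin n → ℝ) (i : Fin n) (hv : ∀ k, ∑ j, (if b s(k, j) then v j else 0) = 0)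
    (S : Finset (Fin n)) (hSne : S.Nonempty) (hS : ∀ j, j ∈ S ↔ |v j| * (n : ℝ) ^ 10 < |v i|) :
    Comp k b ∨ Inc Sᶜ k b := by
  classical
  have hnR : (10 : ℝ) ≤ n := by exact_mod_cast hn
  have hn0 : (0 : ℝ) < n := by linarith
  have hvi : 0 < |v i| := by
    obtain ⟨j, hj⟩ := hSne
    have := (hS j).1 hj
    exact lt_of_le_of_lt (by positivity) this
  set T : Finset (Fin n) := Sᶜ with hT
  have hmT : ∀ j, j ∈ T ↔ j ∉ S := fun j => mem_compl
  have hiT : i ∈ T := by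
    rw [hmT, hS]
    push Not
    have : (1 : ℝ) ≤ (n : ℝ) ^ 10 := one_le_pow₀ (by linarith)
    nlinarith
  set N : ℝ := Real.sqrt (∑ j ∈ T, (v j) ^ 2) with hN
  have hsum0 : 0 ≤ ∑ j ∈ T, (v j) ^ 2 := Finset.sum_nonneg fun _ _ => sq_nonneg _
  have hle : ∀ j ∈ T, |v j| ≤ N := by
    intro j hj
    rw [hN]
    apply Real.le_sqrt_of_sq_le
    rw [sq_abs]
    exact Finset.single_le_sum (f := fun j => (v j) ^ 2) (fun _ _ => sq_nonneg _) hj
  have hNpos : 0 < N := lt_of_lt_of_le hvi (hle i hiT)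
  have hNsq : N ^ 2 = ∑ j ∈ T, (v j) ^ 2 := Real.sq_sqrt hsum0
  let w : Fin n → ℝ := fun j => if j ∈ T then v j / N else 0
  have hwT : ∀ j ∈ T, w j = v j / N := fun j hj => if_pos hj
  have hw0 : ∀ j, j ∉ T → w j = 0 := fun j hj => if_neg hj
  have hw1 : ∀ j, |w j| ≤ 1 := by
    intro j
    by_cases hj : j ∈ T
    · rw [hwT j hj, abs_div, abs_of_pos hNpos, div_le_one hNpos]
      exact hle j hj
    · rw [hw0 j hj, abs_zero]; norm_num
  have hwsum : ∑ j ∈ T, (w j) ^ 2 = 1 := by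
    have h1 : ∑ j ∈ T, (w j) ^ 2 = (∑ j ∈ T, (v j) ^ 2) / N ^ 2 := by
      rw [Finset.sum_div]
      refine Finset.sum_congr rfl fun j hj => ?_
      rw [hwT j hj, div_pow]
    rw [h1, ← hNsq]
    exact div_self (by positivity)
  have hrow : ∀ s, |∑ j ∈ T, (if b s(s, j) then w j else 0)| ≤ 1 / (n : ℝ) ^ 9 := by
    intro s
    have h1 : ∑ j ∈ T, (if b s(s, j) then w j else 0) =
        (∑ j ∈ T, (if b s(s, j) then v j else 0)) / N := by
      rw [Finset.sum_div]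
      refine Finset.sum_congr rfl fun j hj => ?_
      rw [hwT j hj]
      split_ifs
      · rfl
      · rw [zero_div]
    have h2 : ∑ j ∈ T, (if b s(s, j) then v j else 0) =
        -∑ j ∈ S, (if b s(s, j) then v j else 0) := by
      have h3 := Finset.sum_add_sum_compl S (fun j => if b s(s, j) then v j else 0)
      rw [hv s] at h3
      linarith
    rw [h1, h2, abs_div, abs_neg, abs_of_pos hNpos, div_le_iff₀ hNpos]
    refine (Finset.abs_sum_le_sum_abs _ _).trans ?_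
    have h4 : ∀ j ∈ S, |if b s(s, j) then v j else 0| ≤ |v i| / (n : ℝ) ^ 10 := by
      intro j hj
      have h5 : |v j| ≤ |v i| / (n : ℝ) ^ 10 := by
        rw [le_div_iff₀ (by positivity)]
        exact ((hS j).1 hj).le
      split_ifs
      · exact h5
      · rw [abs_zero]; positivity
    refine (Finset.sum_le_card_nsmul _ _ _ h4).trans ?_
    rw [nsmul_eq_mul]
    have h6 : (S.card : ℝ) ≤ n := by
      have := S.card_le_univ
      rw [Fintype.card_fin] at this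
      exact_mod_cast this
    calc (S.card : ℝ) * (|v i| / (n : ℝ) ^ 10) ≤ n * (N / (n : ℝ) ^ 10) :=
          mul_le_mul h6 (div_le_div_of_nonneg_right (hle i hiT) (by positivity)) (by positivity)
            hn0.le
      _ = 1 / (n : ℝ) ^ 9 * N := by field_simp
  by_cases hbig : k ≤ (T.filter fun j => 1 / (n : ℝ) ^ 4 ≤ |w j|).card
  · right
    exact ⟨w, hwsum.le, hrow, hbig⟩
  left
  obtain ⟨D, hD0, hDk⟩ := Finset.exists_superset_card_eq (s := T.filter fun j =>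
    1 / (n : ℝ) ^ 4 ≤ |w j|) (n := k) (by omega) (by rw [Fintype.card_fin]; exact hkn)
  refine ⟨D, hDk, w, hw1, ?_, fun s => ?_⟩
  · have hex : ∃ j ∈ T, 1 / Real.sqrt n ≤ |w j| := by
      by_contra h
      push Not at h
      have h1 : ∑ j ∈ T, (w j) ^ 2 < ∑ j ∈ T, 1 / (n : ℝ) := by
        refine Finset.sum_lt_sum_of_nonempty ⟨i, hiT⟩ fun j hj => ?_
        rw [← sq_abs]
        have h2 := h j hj
        calc |w j| ^ 2 < (1 / Real.sqrt n) ^ 2 :=
              pow_lt_pow_left₀ h2 (abs_nonneg _) two_ne_zero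
          _ = 1 / (n : ℝ) := by rw [div_pow, one_pow, Real.sq_sqrt hn0.le]
      rw [hwsum, sum_const, nsmul_eq_mul] at h1
      have h3 : (T.card : ℝ) ≤ n := by
        have := T.card_le_univ
        rw [Fintype.card_fin] at this
        exact_mod_cast this
      have h4 : (T.card : ℝ) * (1 / (n : ℝ)) ≤ 1 := by
        rw [mul_one_div, div_le_one hn0]; exact h3
      linarith
    obtain ⟨j, hjT, hj⟩ := hex
    refine ⟨j, hD0 (mem_filter.2 ⟨hjT, ?_⟩), hj⟩
    refine le_trans ?_ hj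
    apply one_div_le_one_div_of_le (Real.sqrt_pos.2 hn0)
    have h1 : Real.sqrt n ≤ n := by
      rw [Real.sqrt_le_left (by positivity)]
      nlinarith
    refine h1.trans ?_
    calc (n : ℝ) = (n : ℝ) ^ 1 := (pow_one _).symm
      _ ≤ (n : ℝ) ^ 4 := pow_le_pow_right₀ (by linarith) (by norm_num)
  · have h1 : ∑ j, (if b s(s, j) then w j else 0) = ∑ j ∈ T, (if b s(s, j) then w j else 0) := by
      symm
      apply Finset.sum_subset (subset_univ T)
      intro j _ hj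
      rw [hw0 j hj]
      simp
    have h2 := Finset.sum_add_sum_compl D (fun j => if b s(s, j) then w j else 0)
    have h3 : |∑ j ∈ Dᶜ, (if b s(s, j) then w j else 0)| ≤ 1 / (n : ℝ) ^ 3 := by
      refine (Finset.abs_sum_le_sum_abs _ _).trans ?_
      have h4 : ∀ j ∈ Dᶜ, |if b s(s, j) then w j else 0| ≤ 1 / (n : ℝ) ^ 4 := by
        intro j hj
        have hjD : j ∉ D := mem_compl.1 hj
        have h5 : |w j| ≤ 1 / (n : ℝ) ^ 4 := by
          by_cases hjT : j ∈ T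
          · by_contra hlt
            push Not at hlt
            exact hjD (hD0 (mem_filter.2 ⟨hjT, hlt.le⟩))
          · rw [hw0 j hjT, abs_zero]; positivity
        split_ifs
        · exact h5
        · rw [abs_zero]; positivity
      refine (Finset.sum_le_card_nsmul _ _ _ h4).trans ?_
      rw [nsmul_eq_mul]
      have h6 : ((Dᶜ).card : ℝ) ≤ n := by
        have := (Dᶜ).card_le_univ
        rw [Fintype.card_fin] at this
        exact_mod_cast this
      calc ((Dᶜ).card : ℝ) * (1 / (n : ℝ) ^ 4) ≤ n * (1 / (n : ℝ) ^ 4) :=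
            mul_le_mul_of_nonneg_right h6 (by positivity)
        _ = 1 / (n : ℝ) ^ 3 := by field_simp
    have h7 : ∑ j ∈ D, (if b s(s, j) then w j else 0) =
        ∑ j ∈ T, (if b s(s, j) then w j else 0) - ∑ j ∈ Dᶜ, (if b s(s, j) then w j else 0) := by
      rw [← h1, ← h2]; ring
    rw [h7]
    refine (abs_sub _ _).trans ?_
    have h8 : 1 / (n : ℝ) ^ 9 ≤ 1 / (n : ℝ) ^ 3 := by
      apply one_div_le_one_div_of_le (by positivity)
      exact pow_le_pow_right₀ (by linarith) (by norm_num)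
    calc _ ≤ 1 / (n : ℝ) ^ 9 + 1 / (n : ℝ) ^ 3 := add_le_add (hrow s) h3
      _ ≤ 1 / (n : ℝ) ^ 3 + 1 / (n : ℝ) ^ 3 := add_le_add h8 le_rfl
      _ = 2 / (n : ℝ) ^ 3 := by ring

/-- the numerical facts -/
def NumStmt : Prop := ∀ (d e : ℝ), 0 < d → 0 < e → ∃ n0 : ℕ, ∀ n ≥ n0, ∀ k : ℕ,
  k = ⌊(n : ℝ) ^ (2 / 3 : ℝ)⌋₊ → (4 ≤ k ∧ k ≤ n) ∧
  (n : ℝ) ^ k * (2 * (n : ℝ) ^ 5 + 1) ^ k * (1 / 2 : ℝ) ^ (n - k) ≤
    1 / 3 * (2 : ℝ) ^ (-((1 - e) * n)) ∧
  (∀ t ≤ n, 256 * (t : ℝ) ≤ (k : ℝ) ^ 2 ∧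
    (2 : ℝ) ^ n * (t * Real.exp (-((k : ℝ) / 32))) ^ (k / 2) ≤ 1 / 3 * (2 : ℝ) ^ (-(n : ℝ))) ∧
  (∀ s : ℕ, d * n ≤ s →
    (2 : ℝ) ^ n * (2 * (n : ℝ) ^ 9 + 1) ^ k * (1 / Real.sqrt k) ^ s ≤
      1 / 3 * (2 : ℝ) ^ (-(n : ℝ)))

theorem tame_of (num : NumStmt) : TameStmt := by
  classical
  intro d e hd he
  obtain ⟨n0, hnum⟩ := num d e hd he
  refine ⟨10, max n0 10, fun n hn => ?_⟩
  have hn10 : 10 ≤ n := le_trans (le_max_right _ _) hn
  have hnR : (10 : ℝ) ≤ n := by exact_mod_cast hn10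
  have hn0 : (0 : ℝ) < n := by linarith
  obtain ⟨⟨hk4, hkn⟩, ha, hb, hc⟩ := hnum n (le_trans (le_max_left _ _) hn) _ rfl
  set k : ℕ := ⌊(n : ℝ) ^ (2 / 3 : ℝ)⌋₊ with hk
  have hpow : (n : ℝ) ^ (10 : ℝ) = (n : ℝ) ^ 10 := by
    exact_mod_cast Real.rpow_natCast (n : ℝ) 10
  let 𝒯 : Finset (Finset (Fin n)) := univ.filter fun T => d * n ≤ ((n - T.card : ℕ) : ℝ)
  have hsub : ((univ : Finset (Sym2 (Fin n) → Bool)).filter fun b =>
      ∃ (v : Fin n → ℝ) (i : Fin n), (∀ k, ∑ j, (if b s(k, j) then v j else 0) = 0) ∧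
      d * n ≤ ((univ.filter fun j => |v j| * (n : ℝ) ^ (10 : ℝ) < |v i|).card : ℝ)) ⊆
      (univ.filter fun b => Comp k b) ∪ 𝒯.biUnion fun T => univ.filter fun b => Inc T k b := by
    intro b hb
    obtain ⟨v, i, hv, hS⟩ := (mem_filter.1 hb).2
    rw [hpow] at hS
    set S := (univ.filter fun j => |v j| * (n : ℝ) ^ 10 < |v i|) with hSdef
    have hSne : S.Nonempty := by
      rw [← Finset.card_pos]
      have : (0 : ℝ) < S.card := lt_of_lt_of_le (by positivity) hS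
      exact_mod_cast this
    rw [mem_union]
    rcases comp_or_inc k hn10 hkn b v i hv S hSne (fun j => by rw [hSdef]; simp) with h | h
    · exact Or.inl (mem_filter.2 ⟨mem_univ _, h⟩)
    · right
      rw [mem_biUnion]
      refine ⟨Sᶜ, mem_filter.2 ⟨mem_univ _, ?_⟩, mem_filter.2 ⟨mem_univ _, h⟩⟩
      have h1 : n - (Sᶜ).card = S.card := by
        rw [card_compl, Fintype.card_fin]
        have := S.card_le_univ
        rw [Fintype.card_fin] at this
        omega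
      rw [h1]
      exact hS
  set Z : ℝ := 2 ^ Fintype.card (Sym2 (Fin n)) with hZ
  have hZ0 : 0 < Z := by rw [hZ]; positivity
  have h2n : (0 : ℝ) < (2 : ℝ) ^ n := by positivity
  have hcomp : (((univ : Finset (Sym2 (Fin n) → Bool)).filter fun b => Comp k b).card : ℝ) ≤
      1 / 3 * (2 : ℝ) ^ (-((1 - e) * n)) * Z :=
    (comp_card k hn10 hkn).trans (mul_le_mul_of_nonneg_right ha hZ0.le)
  have hinc : ∀ T ∈ 𝒯, (((univ : Finset (Sym2 (Fin n) → Bool)).filter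
      fun b => Inc T k b).card : ℝ) ≤ (2 / 3 * (2 : ℝ) ^ (-(n : ℝ)) / 2 ^ n) * Z := by
    intro T hT
    have hT' := (mem_filter.1 hT).2
    have htn : T.card ≤ n := by simpa using T.card_le_univ
    have h1 := hb T.card htn
    have h2 := hc (n - T.card) hT'
    refine (inc_card T k hn10 (by omega) h1.1).trans (mul_le_mul_of_nonneg_right ?_ hZ0.le)
    rw [le_div_iff₀ h2n]
    calc _ = (2 : ℝ) ^ n * (T.card * Real.exp (-((k : ℝ) / 32))) ^ (k / 2) +
          (2 : ℝ) ^ n * (2 * (n : ℝ) ^ 9 + 1) ^ k * (1 / Real.sqrt k) ^ (n - T.card) := by ring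
      _ ≤ 1 / 3 * (2 : ℝ) ^ (-(n : ℝ)) + 1 / 3 * (2 : ℝ) ^ (-(n : ℝ)) := add_le_add h1.2 h2
      _ = _ := by ring
  have hU : (((𝒯.biUnion fun T => (univ : Finset (Sym2 (Fin n) → Bool)).filter
      fun b => Inc T k b).card : ℕ) : ℝ) ≤ 2 / 3 * (2 : ℝ) ^ (-(n : ℝ)) * Z := by
    have h1 : (((𝒯.biUnion fun T => (univ : Finset (Sym2 (Fin n) → Bool)).filter
        fun b => Inc T k b).card : ℕ) : ℝ) ≤
        ∑ T ∈ 𝒯, (((univ : Finset (Sym2 (Fin n) → Bool)).filter fun b => Inc T k b).card : ℝ) := by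
      exact_mod_cast card_biUnion_le
    refine h1.trans ((sum_le_sum hinc).trans ?_)
    rw [sum_const, nsmul_eq_mul]
    have h2 : (𝒯.card : ℝ) ≤ 2 ^ n := by
      have := 𝒯.card_le_univ
      rw [Fintype.card_finset, Fintype.card_fin] at this
      exact_mod_cast this
    calc (𝒯.card : ℝ) * ((2 / 3 * (2 : ℝ) ^ (-(n : ℝ)) / 2 ^ n) * Z)
        ≤ 2 ^ n * ((2 / 3 * (2 : ℝ) ^ (-(n : ℝ)) / 2 ^ n) * Z) :=
          mul_le_mul_of_nonneg_right h2 (by positivity)
      _ = _ := by field_simp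
  have hmono : (2 : ℝ) ^ (-(n : ℝ)) ≤ (2 : ℝ) ^ (-((1 - e) * n)) := by
    apply Real.rpow_le_rpow_of_exponent_le (by norm_num)
    nlinarith
  have hfin : ((((univ : Finset (Sym2 (Fin n) → Bool)).filter fun b =>
      ∃ (v : Fin n → ℝ) (i : Fin n), (∀ k, ∑ j, (if b s(k, j) then v j else 0) = 0) ∧
      d * n ≤ ((univ.filter fun j => |v j| * (n : ℝ) ^ (10 : ℝ) < |v i|).card : ℝ)).card : ℕ) : ℝ) ≤
      (((univ : Finset (Sym2 (Fin n) → Bool)).filter fun b => Comp k b).card : ℝ) +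
      (((𝒯.biUnion fun T => (univ : Finset (Sym2 (Fin n) → Bool)).filter
      fun b => Inc T k b).card : ℕ) : ℝ) := by
    exact_mod_cast (card_le_card hsub).trans (card_union_le _ _)
  calc _ ≤ _ := hfin
    _ ≤ 1 / 3 * (2 : ℝ) ^ (-((1 - e) * n)) * Z + 2 / 3 * (2 : ℝ) ^ (-(n : ℝ)) * Z :=
        add_le_add hcomp hU
    _ ≤ 1 / 3 * (2 : ℝ) ^ (-((1 - e) * n)) * Z + 2 / 3 * (2 : ℝ) ^ (-((1 - e) * n)) * Z := by
        gcongr
    _ = _ := by ring

end Vale.Agent.P160.Half.Tame
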