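import Vale.Agent.P160.Half.WCount

/-! # P160: tameness, part 1: real Littlewood-Offord bound and the block decomposition -/

namespace Vale.Agent.P160.Half.Tame

open Finset

/-! ## Littlewood-Offord for intervals -/

theorem card_int_le_pos {α : Type*} [Fintype α] [DecidableEq α] (w : α → ℝ) (r c : ℝ)
    (hr : 0 ≤ r) (hw : ∀ a, 2 * r < w a) (𝒜 : Finset (Finset α))
    (h𝒜 : ∀ t ∈ 𝒜, |∑ a ∈ t, w a - c| ≤ r) :
    𝒜.card ≤ (Fintype.card α).choose (Fintype.card α / 2) := by
  refine IsAntichain.sperner (𝒜 := 𝒜) ?_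
  intro s hs t ht hst hsub
  have hs' := abs_le.1 (h𝒜 s (Finset.mem_coe.1 hs))
  have ht' := abs_le.1 (h𝒜 t (Finset.mem_coe.1 ht))
  have hss : s ⊂ t := lt_of_le_of_ne hsub hst
  obtain ⟨x, hxt, hxs⟩ := Finset.exists_of_ssubset hss
  have h1 : ∑ a ∈ s, w a + w x ≤ ∑ a ∈ t, w a := by
    have h2 : insert x s ⊆ t := by
      intro y hy
      rcases Finset.mem_insert.1 hy with rfl | hy
      · exact hxt
      · exact hsub hy
    have h3 := Finset.sum_le_sum_of_subset_of_nonneg h2
      (f := w) (fun a _ _ => by have := hw a; linarith)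
    rw [Finset.sum_insert hxs] at h3
    linarith
  have := hw x
  linarith [hs'.1, ht'.2]

theorem card_int_le {α : Type*} [Fintype α] [DecidableEq α] (w : α → ℝ) (r c : ℝ)
    (hr : 0 ≤ r) (hw : ∀ a, 2 * r < |w a|) (𝒜 : Finset (Finset α))
    (h𝒜 : ∀ t ∈ 𝒜, |∑ a ∈ t, w a - c| ≤ r) :
    𝒜.card ≤ (Fintype.card α).choose (Fintype.card α / 2) := by
  classical
  let N : Finset α := Finset.univ.filter fun a => w a < 0
  have hinj : Function.Injective (fun t : Finset α => symmDiff t N) := by
    intro s t h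
    have := congrArg (fun u => symmDiff u N) h
    simpa [symmDiff_assoc] using this
  rw [← Finset.card_image_of_injective 𝒜 hinj]
  refine card_int_le_pos (fun a => |w a|) r (c - ∑ a ∈ N, w a) hr hw _ ?_
  intro u hu
  obtain ⟨t, ht, rfl⟩ := Finset.mem_image.1 hu
  have h1 : ∑ a ∈ symmDiff t N, |w a| = ∑ a, (if a ∈ symmDiff t N then |w a| else 0) := by
    simp only [Finset.sum_ite_mem, Finset.univ_inter]
  have h2 : ∑ a ∈ t, w a = ∑ a, (if a ∈ t then w a else 0) := by
    simp only [Finset.sum_ite_mem, Finset.univ_inter]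
  have h3 : ∑ a ∈ N, w a = ∑ a, (if a ∈ N then w a else 0) := by
    simp only [Finset.sum_ite_mem, Finset.univ_inter]
  have h4 : ∑ a ∈ symmDiff t N, |w a| - (c - ∑ a ∈ N, w a) = ∑ a ∈ t, w a - c := by
    have h5 : ∑ a ∈ symmDiff t N, |w a| = ∑ a ∈ t, w a - ∑ a ∈ N, w a := by
      rw [h1, h2, h3, ← Finset.sum_sub_distrib]
      refine Finset.sum_congr rfl fun a _ => ?_
      have hN : a ∈ N ↔ w a < 0 := by simp only [Finset.mem_filter, Finset.mem_univ, true_and, N]
      by_cases ha : w a < 0
      · have haN := hN.2 ha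
        by_cases hat : a ∈ t
        · have : a ∉ symmDiff t N := by simp [Finset.mem_symmDiff, hat, haN]
          simp [this, hat, haN]
        · have : a ∈ symmDiff t N := by simp [Finset.mem_symmDiff, hat, haN]
          simp [this, hat, haN, abs_of_neg ha]
      · have haN : a ∉ N := fun h => ha (hN.1 h)
        have hpos : 0 ≤ w a := not_lt.1 ha
        by_cases hat : a ∈ t
        · have : a ∈ symmDiff t N := by simp [Finset.mem_symmDiff, hat, haN]
          simp [this, hat, haN, abs_of_nonneg hpos]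
        · have : a ∉ symmDiff t N := by simp [Finset.mem_symmDiff, hat, haN]
          simp [this, hat, haN]
    rw [h5]; ring
  rw [h4]
  exact h𝒜 t ht

/-- the sum over a type does not depend on the instance -/
theorem sum_inst133a {α : Type*} (i1 i2 : Fintype α) (f : α → ℝ) :
    (@Finset.univ α i1).sum f = (@Finset.univ α i2).sum f := by
  rw [Subsingleton.elim i1 i2]

/-- Littlewood-Offord: if the weights on `G` exceed `2 r` then few bit vectors have a sum in
`[-r, r]`. -/
theorem lo_count {ι : Type*} [Fintype ι] [DecidableEq ι] (w : ι → ℝ) (r : ℝ) (hr : 0 ≤ r)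
    (G : Finset ι) (hG : ∀ j ∈ G, 2 * r < |w j|) :
    ((univ : Finset (ι → Bool)).filter fun x => |∑ j, (if x j then w j else 0)| ≤ r).card ≤
      2 ^ (Fintype.card ι - G.card) * (G.card).choose (G.card / 2) := by
  classical
  let e := Equiv.piEquivPiSubtypeProd (fun j => j ∈ G) (fun _ : ι => Bool)
  let F : (ι → Bool) → ({j // j ∉ G} → Bool) := fun x => (e x).2
  have hmaps : ∀ x ∈ ((univ : Finset (ι → Bool)).filter fun x =>
      |∑ j, (if x j then w j else 0)| ≤ r), F x ∈ (univ : Finset ({j // j ∉ G} → Bool)) :=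
    fun _ _ => mem_univ _
  rw [card_eq_sum_card_fiberwise hmaps]
  have hcardG : Fintype.card {j // j ∈ G} = G.card := Fintype.card_coe G
  have hcardN : Fintype.card {j // j ∉ G} = Fintype.card ι - G.card := by
    rw [Fintype.card_subtype_compl, hcardG]
  have hfib : ∀ y ∈ (univ : Finset ({j // j ∉ G} → Bool)),
      (((univ : Finset (ι → Bool)).filter fun x =>
      |∑ j, (if x j then w j else 0)| ≤ r).filter fun x => F x = y).card ≤
      (G.card).choose (G.card / 2) := by
    intro y _
    let c : ℝ := -∑ j : {j // j ∉ G}, (if y j then w j else 0)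
    let g : (ι → Bool) → Finset {j // j ∈ G} := fun x => univ.filter fun j => x j = true
    set B := ((univ : Finset (ι → Bool)).filter fun x =>
      |∑ j, (if x j then w j else 0)| ≤ r).filter fun x => F x = y with hB
    have hinj : Set.InjOn g (B : Set (ι → Bool)) := by
      intro x hx x' hx' h
      have hx1 := (mem_filter.1 (mem_coe.1 hx)).2
      have hx1' := (mem_filter.1 (mem_coe.1 hx')).2
      funext j
      by_cases hj : j ∈ G
      · have := congrArg (fun S => (⟨j, hj⟩ : {j // j ∈ G}) ∈ S) h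
        simp only [g, mem_filter, mem_univ, true_and, eq_iff_iff] at this
        cases hxj : x j <;> cases hxj' : x' j <;> simp_all
      · have h1 : F x ⟨j, hj⟩ = x j := rfl
        have h2 : F x' ⟨j, hj⟩ = x' j := rfl
        rw [← h1, ← h2, hx1, hx1']
    rw [← Finset.card_image_of_injOn hinj, ← hcardG]
    refine card_int_le (fun j : {j // j ∈ G} => w j) r c hr (fun a => hG a a.2) _ ?_
    intro t ht
    obtain ⟨x, hx, rfl⟩ := Finset.mem_image.1 ht
    have hx1 := (mem_filter.1 hx).2
    have hx2 := (mem_filter.1 (mem_filter.1 hx).1).2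
    have h1 : ∑ j, (if x j then w j else 0) =
        ∑ j : {j // j ∈ G}, (if x j then w j else 0) +
        ∑ j : {j // j ∉ G}, (if x j then w j else 0) := by
      rw [← Fintype.sum_subtype_add_sum_subtype (fun j => j ∈ G)
        (fun j => if x j = true then w j else 0)]
      exact congrArg₂ (fun a b : ℝ => a + b) (sum_inst133a _ _ _) (sum_inst133a _ _ _)
    have h2 : ∑ a ∈ g x, w a = ∑ j : {j // j ∈ G}, (if x j then w j else 0) := by
      simp only [g]
      rw [Finset.sum_filter]
    have h3 : ∑ j : {j // j ∉ G}, (if y j then w j else 0) =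
        ∑ j : {j // j ∉ G}, (if x j then w j else 0) := by
      refine Finset.sum_congr rfl fun j _ => ?_
      have : y j = x j := by rw [← hx1]; rfl
      rw [this]
    have h4 : ∑ a ∈ g x, w a - c = ∑ j, (if x j then w j else 0) := by
      rw [h2, h1]
      simp only [c]
      rw [h3]; ring
    rw [h4]
    exact hx2
  refine (sum_le_sum hfib).trans ?_
  rw [sum_const, card_univ, Fintype.card_fun, Fintype.card_bool, hcardN, smul_eq_mul]

/-! ## Block decomposition of a symmetric bit array -/

section Block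

variable {n : ℕ} (T : Finset (Fin n))

/-- principal block -/
def res (b : Sym2 (Fin n) → Bool) : Sym2 {j // j ∈ T} → Bool := fun e => b (e.map Subtype.val)

/-- block of the other indices -/
def rest (b : Sym2 (Fin n) → Bool) : Sym2 {j // j ∉ T} → Bool := fun e => b (e.map Subtype.val)

/-- rows outside `T`, restricted to `T` -/
def rows (b : Sym2 (Fin n) → Bool) : {j // j ∉ T} → {j // j ∈ T} → Bool := fun s j => b s(s, j)

theorem block_inj : Function.Injective
    (fun b : Sym2 (Fin n) → Bool => (res T b, rows T b, rest T b)) := by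
  intro b b' h
  simp only [Prod.mk.injEq] at h
  obtain ⟨h1, h2, h3⟩ := h
  funext e
  induction e using Sym2.ind with
  | _ x y =>
    by_cases hx : x ∈ T <;> by_cases hy : y ∈ T
    · exact congrFun h1 s(⟨x, hx⟩, ⟨y, hy⟩)
    · rw [Sym2.eq_swap]
      exact congrFun (congrFun h2 ⟨y, hy⟩) ⟨x, hx⟩
    · exact congrFun (congrFun h2 ⟨x, hx⟩) ⟨y, hy⟩
    · exact congrFun h3 s(⟨x, hx⟩, ⟨y, hy⟩)

theorem card_mem : Fintype.card {j // j ∈ T} = T.card := Fintype.card_coe T

theorem card_nmem : Fintype.card {j // j ∉ T} = n - T.card := by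
  rw [Fintype.card_subtype_compl, Fintype.card_fin, card_mem]

theorem choose_two_split (n t : ℕ) (hT : t ≤ n) :
    (n + 1).choose 2 = (t + 1).choose 2 + t * (n - t) + (n - t + 1).choose 2 := by
  obtain ⟨s, rfl⟩ := Nat.exists_eq_add_of_le hT
  rw [Nat.add_sub_cancel_left]
  have h2 : ∀ m : ℕ, (m + 1).choose 2 * 2 = (m + 1) * m := by
    intro m
    rw [Nat.choose_two_right, Nat.add_sub_cancel]
    exact Nat.div_mul_cancel (by rw [mul_comm]; exact (Nat.even_mul_succ_self m).two_dvd)
  have a := h2 (t + s)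
  have b := h2 t
  have c := h2 s
  nlinarith

theorem card_block_id : Fintype.card (Sym2 (Fin n)) =
    Fintype.card (Sym2 {j // j ∈ T}) + T.card * (n - T.card) +
      Fintype.card (Sym2 {j // j ∉ T}) := by
  rw [Sym2.card, Sym2.card, Sym2.card, card_mem, card_nmem, Fintype.card_fin]
  exact choose_two_split n T.card (by simpa using T.card_le_univ)

open Classical in
/-- rows in prescribed sets, depending on the principal block -/
theorem card_rows_le (X : (Sym2 {j // j ∈ T} → Bool) → Finset ({j // j ∈ T} → Bool)) (q : ℝ)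
    (hX : ∀ c, ((X c).card : ℝ) ≤ q * 2 ^ T.card) :
    (((univ : Finset (Sym2 (Fin n) → Bool)).filter fun b =>
      ∀ s, rows T b s ∈ X (res T b)).card : ℝ) ≤
      q ^ (n - T.card) * 2 ^ Fintype.card (Sym2 (Fin n)) := by
  let Y : Finset ((_ : Sym2 {j // j ∈ T} → Bool) × (({j // j ∉ T} → {j // j ∈ T} → Bool) ×
      (Sym2 {j // j ∉ T} → Bool))) :=
    (univ : Finset (Sym2 {j // j ∈ T} → Bool)).sigma fun c =>
      (Fintype.piFinset fun _ : {j // j ∉ T} => X c) ×ˢ
        (univ : Finset (Sym2 {j // j ∉ T} → Bool))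
  have h1 : ((univ : Finset (Sym2 (Fin n) → Bool)).filter fun b =>
      ∀ s, rows T b s ∈ X (res T b)).card ≤ Y.card := by
    refine Finset.card_le_card_of_injOn (fun b => ⟨res T b, (rows T b, rest T b)⟩) ?_ ?_
    · intro b hb
      have hb' := (mem_filter.1 (mem_coe.1 hb)).2
      simp only [Y, coe_sigma, Set.mem_sigma_iff, mem_coe, mem_univ, true_and, mem_product,
        Fintype.mem_piFinset, and_true]
      exact hb'
    · intro b _ b' _ h
      apply block_inj T
      simp only [Sigma.mk.injEq, heq_eq_eq, Prod.mk.injEq] at h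
      simp only [Prod.mk.injEq]
      exact h
  have h2 : (Y.card : ℝ) = ∑ c : Sym2 {j // j ∈ T} → Bool,
      ((X c).card : ℝ) ^ (n - T.card) * 2 ^ Fintype.card (Sym2 {j // j ∉ T}) := by
    simp only [Y, card_sigma, card_product, Fintype.card_piFinset, prod_const, card_univ,
      card_nmem, Fintype.card_fun, Fintype.card_bool]
    push_cast
    rfl
  have h3 : ∀ c ∈ (univ : Finset (Sym2 {j // j ∈ T} → Bool)),
      ((X c).card : ℝ) ^ (n - T.card) * 2 ^ Fintype.card (Sym2 {j // j ∉ T}) ≤
      (q * 2 ^ T.card) ^ (n - T.card) * 2 ^ Fintype.card (Sym2 {j // j ∉ T}) := fun c _ =>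
    mul_le_mul_of_nonneg_right (pow_le_pow_left₀ (by positivity) (hX c) _) (by positivity)
  calc (((univ : Finset (Sym2 (Fin n) → Bool)).filter fun b =>
      ∀ s, rows T b s ∈ X (res T b)).card : ℝ) ≤ (Y.card : ℝ) := by exact_mod_cast h1
    _ ≤ _ := by
      rw [h2]
      refine (sum_le_sum h3).trans ?_
      rw [sum_const, card_univ, Fintype.card_fun, Fintype.card_bool, nsmul_eq_mul,
        card_block_id T, mul_pow, ← pow_mul]
      push_cast
      rw [pow_add, pow_add]
      apply le_of_eq
      ring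

open Classical in
/-- principal block in a prescribed set -/
theorem card_res_le (Q : Finset (Sym2 {j // j ∈ T} → Bool)) (η : ℝ)
    (h : (Q.card : ℝ) ≤ η * 2 ^ Fintype.card (Sym2 {j // j ∈ T})) :
    (((univ : Finset (Sym2 (Fin n) → Bool)).filter fun b => res T b ∈ Q).card : ℝ) ≤
      η * 2 ^ Fintype.card (Sym2 (Fin n)) := by
  have h1 : ((univ : Finset (Sym2 (Fin n) → Bool)).filter fun b => res T b ∈ Q).card ≤
      (Q ×ˢ ((univ : Finset ({j // j ∉ T} → {j // j ∈ T} → Bool)) ×ˢ
        (univ : Finset (Sym2 {j // j ∉ T} → Bool)))).card := by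
    refine Finset.card_le_card_of_injOn (fun b => (res T b, (rows T b, rest T b))) ?_ ?_
    · intro b hb
      have hb' := (mem_filter.1 (mem_coe.1 hb)).2
      simp only [coe_product, Set.mem_prod, mem_coe, mem_univ, and_true]
      exact hb'
    · exact fun b _ b' _ hbb => block_inj T hbb
  rw [card_product, card_product, card_univ, card_univ] at h1
  have h2 : Fintype.card ({j // j ∉ T} → {j // j ∈ T} → Bool) = 2 ^ (T.card * (n - T.card)) := by
    rw [Fintype.card_fun, Fintype.card_fun, Fintype.card_bool, card_nmem, card_mem, ← pow_mul]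
  have h3 : Fintype.card (Sym2 {j // j ∉ T} → Bool) =
      2 ^ Fintype.card (Sym2 {j // j ∉ T}) := by
    rw [Fintype.card_fun, Fintype.card_bool]
  rw [h2, h3] at h1
  calc _ ≤ ((Q.card * (2 ^ (T.card * (n - T.card)) *
        2 ^ Fintype.card (Sym2 {j // j ∉ T})) : ℕ) : ℝ) := by exact_mod_cast h1
    _ = (Q.card : ℝ) * (2 ^ (T.card * (n - T.card)) *
        2 ^ Fintype.card (Sym2 {j // j ∉ T})) := by push_cast; ring
    _ ≤ (η * 2 ^ Fintype.card (Sym2 {j // j ∈ T})) * (2 ^ (T.card * (n - T.card)) *
        2 ^ Fintype.card (Sym2 {j // j ∉ T})) := mul_le_mul_of_nonneg_right h (by positivity)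
    _ = _ := by
      rw [card_block_id T, pow_add, pow_add]; ring

end Block

end Vale.Agent.P160.Half.Tame
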