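import Vale.Agent.P160.Half.Tame1

/-! # P160: tameness, part 2: compressible near-kernel vectors -/

namespace Vale.Agent.P160.Half.Tame

open Finset

theorem round_spec (K : ℤ) (hK : 0 < K) (w : ℝ) (hw : |w| ≤ 1) :
    ⌊w * K⌋ ∈ Icc (-K) K ∧ |w - (⌊w * K⌋ : ℝ) / K| ≤ 1 / K := by
  have hKR : (0 : ℝ) < K := by exact_mod_cast hK
  have hw' := abs_le.1 hw
  have h1 := Int.floor_le (w * K)
  have h2 := Int.lt_floor_add_one (w * K)
  refine ⟨?_, ?_⟩
  · rw [mem_Icc]
    constructor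
    · apply Int.le_floor.2
      push_cast
      nlinarith [hw'.1]
    · have : w * K ≤ K := by nlinarith [hw'.2]
      have h3 : ((⌊w * K⌋ : ℤ) : ℝ) ≤ (K : ℝ) := h1.trans this
      exact_mod_cast h3
  · have e : w - (⌊w * K⌋ : ℝ) / K = (w * K - ⌊w * K⌋) / K := by
      field_simp
    rw [e, abs_div, abs_of_pos hKR]
    refine div_le_div_of_nonneg_right ?_ hKR.le
    rw [abs_le]
    constructor <;> linarith

theorem sum_if_diff {ι : Type*} [Fintype ι] (x : ι → Bool) (a b : ι → ℝ) (ρ : ℝ)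
    (h : ∀ j, |a j - b j| ≤ ρ) :
    |∑ j, (if x j then b j else 0)| ≤
      |∑ j, (if x j then a j else 0)| + Fintype.card ι * ρ := by
  have h1 : ∑ j, (if x j then b j else 0) = ∑ j, (if x j then a j else 0) -
      ∑ j, (if x j then (a j - b j) else 0) := by
    rw [← Finset.sum_sub_distrib]
    refine Finset.sum_congr rfl fun j _ => ?_
    split_ifs <;> ring
  rw [h1]
  refine (abs_sub _ _).trans ?_
  refine add_le_add le_rfl ?_
  refine (Finset.abs_sum_le_sum_abs _ _).trans ?_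
  have h2 : ∀ j ∈ (univ : Finset ι), |if x j then (a j - b j) else 0| ≤ ρ := by
    intro j _
    split_ifs
    · exact h j
    · rw [abs_zero]; exact (abs_nonneg _).trans (h j)
  refine (Finset.sum_le_card_nsmul _ _ _ h2).trans ?_
  rw [nsmul_eq_mul, card_univ]

variable {n : ℕ}

/-- a near-kernel vector carried by `k` coordinates -/
def Comp (k : ℕ) (b : Sym2 (Fin n) → Bool) : Prop :=
  ∃ D : Finset (Fin n), D.card = k ∧ ∃ w : Fin n → ℝ, (∀ j, |w j| ≤ 1) ∧
    (∃ j ∈ D, 1 / Real.sqrt n ≤ |w j|) ∧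
    ∀ i, |∑ j ∈ D, (if b s(i, j) then w j else 0)| ≤ 2 / (n : ℝ) ^ 3

open Classical in
theorem comp_card (k : ℕ) (hn : 10 ≤ n) (hk : k ≤ n) :
    (((univ : Finset (Sym2 (Fin n) → Bool)).filter fun b => Comp k b).card : ℝ) ≤
      (n : ℝ) ^ k * (2 * (n : ℝ) ^ 5 + 1) ^ k * (1 / 2) ^ (n - k) *
        2 ^ Fintype.card (Sym2 (Fin n)) := by
  have hnR : (10 : ℝ) ≤ n := by exact_mod_cast hn
  have hn0 : (0 : ℝ) < n := by linarith
  set K : ℤ := (n : ℤ) ^ 5 with hKdef
  have hK : 0 < K := by rw [hKdef]; have : 0 < (n : ℤ) := by omega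
                        positivity
  have hKR : (K : ℝ) = (n : ℝ) ^ 5 := by rw [hKdef]; push_cast; rfl
  let X : (D : Finset (Fin n)) → ({j // j ∈ D} → ℤ) → Finset ({j // j ∈ D} → Bool) := fun D z =>
    if ∃ j, 6 / (n : ℝ) ^ 3 < |(z j : ℝ) / K| then
      univ.filter fun x => |∑ j, (if x j then (z j : ℝ) / K else 0)| ≤ 3 / (n : ℝ) ^ 3 else ∅
  have hX : ∀ D z, ((X D z).card : ℝ) ≤ 1 / 2 * 2 ^ D.card := by
    intro D z
    by_cases h : ∃ j, 6 / (n : ℝ) ^ 3 < |(z j : ℝ) / K|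
    · simp only [X, if_pos h]
      obtain ⟨j, hj⟩ := h
      have h1 := lo_count (fun j : {j // j ∈ D} => (z j : ℝ) / K) (3 / (n : ℝ) ^ 3) (by positivity)
        {j} (by
          intro j' hj'
          rw [mem_singleton] at hj'
          subst hj'
          have e : 2 * (3 / (n : ℝ) ^ 3) = 6 / (n : ℝ) ^ 3 := by ring
          rw [e]; exact hj)
      rw [card_singleton, card_mem] at h1
      have hD : 1 ≤ D.card := Finset.card_pos.2 ⟨j.1, j.2⟩
      obtain ⟨d, hd⟩ := Nat.exists_eq_add_of_le hD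
      have h2 : ((D.card - 1 : ℕ)) = d := by omega
      rw [h2] at h1
      calc _ ≤ ((2 ^ d * Nat.choose 1 (1 / 2) : ℕ) : ℝ) := by exact_mod_cast h1
        _ = 1 / 2 * 2 ^ D.card := by
          rw [hd, pow_add]
          norm_num
          ring
    · simp only [X, if_neg h, card_empty]
      simp
  let E : (D : Finset (Fin n)) → ({j // j ∈ D} → ℤ) → Finset (Sym2 (Fin n) → Bool) := fun D z =>
    univ.filter fun b => ∀ s, rows D b s ∈ X D z
  have hE : ∀ D, D.card = k → ∀ z, ((E D z).card : ℝ) ≤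
      (1 / 2) ^ (n - k) * 2 ^ Fintype.card (Sym2 (Fin n)) := by
    intro D hD z
    have := card_rows_le D (fun _ => X D z) (1 / 2) (fun _ => hX D z)
    rw [hD] at this
    exact this
  have hsub : ((univ : Finset (Sym2 (Fin n) → Bool)).filter fun b => Comp k b) ⊆
      (powersetCard k (univ : Finset (Fin n))).biUnion fun D =>
        (Fintype.piFinset fun _ : {j // j ∈ D} => Icc (-K) K).biUnion fun z => E D z := by
    intro b hb
    obtain ⟨D, hD, w, hw1, ⟨j0, hj0D, hj0⟩, hrow⟩ := (mem_filter.1 hb).2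
    rw [mem_biUnion]
    refine ⟨D, mem_powersetCard.2 ⟨subset_univ _, hD⟩, ?_⟩
    rw [mem_biUnion]
    refine ⟨fun j => ⌊w j * K⌋, Fintype.mem_piFinset.2 fun j => (round_spec K hK _ (hw1 j)).1, ?_⟩
    refine mem_filter.2 ⟨mem_univ _, fun s => ?_⟩
    have hcond : ∃ j : {j // j ∈ D}, 6 / (n : ℝ) ^ 3 < |((⌊w j * K⌋ : ℤ) : ℝ) / K| := by
      refine ⟨⟨j0, hj0D⟩, ?_⟩
      have h1 := (round_spec K hK _ (hw1 j0)).2
      have h2 : |w j0| - 1 / (K : ℝ) ≤ |((⌊w j0 * K⌋ : ℤ) : ℝ) / K| := by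
        have h3 := abs_sub_abs_le_abs_sub (w j0) (((⌊w j0 * K⌋ : ℤ) : ℝ) / K)
        linarith
      have hsq : Real.sqrt n ≤ n := by
        rw [Real.sqrt_le_left (by positivity)]
        nlinarith
      have hsq0 : 0 < Real.sqrt n := Real.sqrt_pos.2 hn0
      have h4 : 1 / (n : ℝ) ≤ 1 / Real.sqrt n := one_div_le_one_div_of_le hsq0 hsq
      have h5 : 6 / (n : ℝ) ^ 3 < 1 / (n : ℝ) - 1 / (n : ℝ) ^ 5 := by
        have h6 : 1 / (n : ℝ) - 1 / (n : ℝ) ^ 5 - 6 / (n : ℝ) ^ 3 =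
            ((n : ℝ) ^ 4 - 1 - 6 * (n : ℝ) ^ 2) / (n : ℝ) ^ 5 := by
          field_simp
        have h7 : 0 < ((n : ℝ) ^ 4 - 1 - 6 * (n : ℝ) ^ 2) / (n : ℝ) ^ 5 := by
          apply div_pos _ (by positivity)
          have h8 : (100 : ℝ) ≤ (n : ℝ) ^ 2 := by nlinarith
          nlinarith
        linarith
      rw [hKR] at h2
      have h9 : |w j0| - 1 / (n : ℝ) ^ 5 ≤ |((⌊w j0 * K⌋ : ℤ) : ℝ) / K| := by
        rw [hKR]; exact h2
      exact lt_of_lt_of_le h5 (by linarith)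
    simp only [X]
    rw [if_pos hcond]
    refine mem_filter.2 ⟨mem_univ _, ?_⟩
    have h1 := sum_if_diff (rows D b s) (fun j => w j) (fun j => ((⌊w j * K⌋ : ℤ) : ℝ) / K) (1 / K)
      (fun j => (round_spec K hK _ (hw1 j)).2)
    refine h1.trans ?_
    have h2 : ∑ j : {j // j ∈ D}, (if rows D b s j then w j else 0) =
        ∑ j ∈ D, (if b s(s, j) then w j else 0) := by
      rw [← Finset.sum_coe_sort D]
      exact Finset.sum_congr rfl fun _ _ => rfl
    rw [h2, card_mem, hD, hKR]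
    have h3 := hrow s
    have h4 : (k : ℝ) * (1 / (n : ℝ) ^ 5) ≤ 1 / (n : ℝ) ^ 3 := by
      have hkR : (k : ℝ) ≤ n := by exact_mod_cast hk
      calc (k : ℝ) * (1 / (n : ℝ) ^ 5) ≤ n * (1 / (n : ℝ) ^ 5) :=
            mul_le_mul_of_nonneg_right hkR (by positivity)
        _ = 1 / (n : ℝ) ^ 4 := by field_simp
        _ ≤ 1 / (n : ℝ) ^ 3 := by
          apply one_div_le_one_div_of_le (by positivity)
          exact pow_le_pow_right₀ (by linarith) (by norm_num)
    calc _ ≤ 2 / (n : ℝ) ^ 3 + 1 / (n : ℝ) ^ 3 := add_le_add h3 h4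
      _ = 3 / (n : ℝ) ^ 3 := by ring
  have hin : ∀ D ∈ powersetCard k (univ : Finset (Fin n)),
      ((((Fintype.piFinset fun _ : {j // j ∈ D} => Icc (-K) K).biUnion fun z => E D z).card : ℕ) : ℝ) ≤
      (2 * (n : ℝ) ^ 5 + 1) ^ k * ((1 / 2) ^ (n - k) * 2 ^ Fintype.card (Sym2 (Fin n))) := by
    intro D hD
    have hDk := (mem_powersetCard.1 hD).2
    have h1 : ((((Fintype.piFinset fun _ : {j // j ∈ D} => Icc (-K) K).biUnion
        fun z => E D z).card : ℕ) : ℝ) ≤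
        ∑ z ∈ (Fintype.piFinset fun _ : {j // j ∈ D} => Icc (-K) K), ((E D z).card : ℝ) := by
      exact_mod_cast card_biUnion_le
    refine h1.trans ((sum_le_sum fun z _ => hE D hDk z).trans ?_)
    rw [sum_const, nsmul_eq_mul, Fintype.card_piFinset, prod_const, card_univ, card_mem, hDk,
      Int.card_Icc]
    have h2 : (((K + 1 - -K).toNat : ℕ) : ℝ) = 2 * (n : ℝ) ^ 5 + 1 := by
      have h3 : ((K + 1 - -K).toNat : ℤ) = 2 * K + 1 := by
        rw [Int.toNat_of_nonneg (by linarith)]; ring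
      have h4 : (((K + 1 - -K).toNat : ℤ) : ℝ) = 2 * (K : ℝ) + 1 := by rw [h3]; push_cast; ring
      rw [← hKR, ← h4]
      push_cast
      rfl
    push_cast
    rw [h2]
  have h1 : ((((powersetCard k (univ : Finset (Fin n))).biUnion fun D =>
        (Fintype.piFinset fun _ : {j // j ∈ D} => Icc (-K) K).biUnion fun z => E D z).card : ℕ) : ℝ) ≤
      ∑ D ∈ powersetCard k (univ : Finset (Fin n)),
        ((((Fintype.piFinset fun _ : {j // j ∈ D} => Icc (-K) K).biUnion fun z => E D z).card : ℕ) : ℝ) := by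
    exact_mod_cast card_biUnion_le
  have h2 : ((((univ : Finset (Sym2 (Fin n) → Bool)).filter fun b => Comp k b).card : ℕ) : ℝ) ≤
      ((((powersetCard k (univ : Finset (Fin n))).biUnion fun D =>
        (Fintype.piFinset fun _ : {j // j ∈ D} => Icc (-K) K).biUnion fun z => E D z).card : ℕ) : ℝ) := by
    exact_mod_cast card_le_card hsub
  refine h2.trans (h1.trans ((sum_le_sum hin).trans ?_))
  rw [sum_const, nsmul_eq_mul, card_powersetCard, card_univ, Fintype.card_fin]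
  have h3 : ((n.choose k : ℕ) : ℝ) ≤ (n : ℝ) ^ k := by
    exact_mod_cast Nat.choose_le_pow n k
  calc ((n.choose k : ℕ) : ℝ) * ((2 * (n : ℝ) ^ 5 + 1) ^ k *
        ((1 / 2) ^ (n - k) * 2 ^ Fintype.card (Sym2 (Fin n))))
      ≤ (n : ℝ) ^ k * ((2 * (n : ℝ) ^ 5 + 1) ^ k *
        ((1 / 2) ^ (n - k) * 2 ^ Fintype.card (Sym2 (Fin n)))) :=
        mul_le_mul_of_nonneg_right h3 (by positivity)
    _ = _ := by ring

end Vale.Agent.P160.Half.Tame
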