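import Vale.Agent.P160.Half.Tame1
import Vale.Agent.P160.Half.Spec

/-! # P160: tameness, part 3: incompressible near-kernel vectors, spectral net -/

namespace Vale.Agent.P160.Half.Tame

open Finset Vale.Agent.P160.Half.Spec

theorem round_spec' (K : ℤ) (hK : 0 < K) (w : ℝ) (hw : |w| ≤ 1) :
    ⌊w * K⌋ ∈ Icc (-K) K ∧ |w - (⌊w * K⌋ : ℝ) / K| ≤ 1 / K := by
  have hKR : (0 : ℝ) < K := by exact_mod_cast hK
  have hw' := abs_le.1 hw
  have h1 := Int.floor_le (w * K)
  have h2 := Int.lt_floor_add_one (w * K)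
  refine ⟨?_, ?_⟩
  · rw [mem_Icc]
    constructor
    · apply Int.le_floor.2
      push_cast
      nlinarith [hw'.1]
    · have : w * K ≤ K := by nlinarith [hw'.2]
      have h3 : ((⌊w * K⌋ : ℤ) : ℝ) ≤ (K : ℝ) := h1.trans this
      exact_mod_cast h3
  · have e : w - (⌊w * K⌋ : ℝ) / K = (w * K - ⌊w * K⌋) / K := by
      field_simp
    rw [e, abs_div, abs_of_pos hKR]
    refine div_le_div_of_nonneg_right ?_ hKR.le
    rw [abs_le]
    constructor <;> linarith

section Eig

variable {t : ℕ} {A : Matrix (Fin t) (Fin t) ℝ} (hA : A.IsHermitian)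

/-- combination of the eigenvectors for small eigenvalues with coefficients `z / K` -/
noncomputable def netVec (K : ℤ) {k : ℕ} (z : Fin k → ℤ) : Fin t → ℝ :=
  comb hA 1 fun i => if h : ((Fintype.equivFin {i // |hA.eigenvalues i| ≤ 1}) i : ℕ) < k then
    (z ⟨_, h⟩ : ℝ) / K else 0

/-- a unit vector with small image is close to a net vector -/
theorem exists_netVec (K : ℤ) (hK : 0 < K) (k : ℕ) (hk : sm hA 1 ≤ k) (w : Fin t → ℝ)
    (hw : ∑ l, (w l) ^ 2 ≤ 1) (η : ℝ) (hη : 0 ≤ η)
    (hAw : ∑ l, (∑ l', A l l' * w l') ^ 2 ≤ η ^ 2) :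
    ∃ z ∈ Fintype.piFinset (fun _ : Fin k => Icc (-K) K),
      ∀ l, |w l - netVec hA K z l| ≤ η + Real.sqrt t / K := by
  classical
  have hKR : (0 : ℝ) < K := by exact_mod_cast hK
  set a : {i // |hA.eigenvalues i| ≤ 1} → ℝ := fun i => ∑ l, U hA i.1 l * w l with ha
  have hpars := U_parseval hA w
  have hsq1 : ∀ i, (∑ l, U hA i l * w l) ^ 2 ≤ 1 := by
    intro i
    have h1 : (∑ l, U hA i l * w l) ^ 2 ≤ ∑ i, (∑ l, U hA i l * w l) ^ 2 :=
      Finset.single_le_sum (f := fun i => (∑ l, U hA i l * w l) ^ 2)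
        (fun _ _ => sq_nonneg _) (mem_univ i)
    linarith
  have ha1 : ∀ i, |a i| ≤ 1 := fun i => abs_le_one_iff_mul_self_le_one.2 (by
    have := hsq1 i.1
    rw [sq] at this
    exact this)
  set E := Fintype.equivFin {i // |hA.eigenvalues i| ≤ 1} with hE
  let z : Fin k → ℤ := fun m => if h : (m : ℕ) < Fintype.card {i // |hA.eigenvalues i| ≤ 1} then
    ⌊a (E.symm ⟨m, h⟩) * K⌋ else 0
  have hz : z ∈ Fintype.piFinset (fun _ : Fin k => Icc (-K) K) := by
    rw [Fintype.mem_piFinset]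
    intro m
    simp only [z]
    split_ifs with h
    · exact (round_spec' K hK _ (ha1 _)).1
    · rw [mem_Icc]; omega
  refine ⟨z, hz, ?_⟩
  -- coefficients of the net vector
  have hcoef : ∀ i : {i // |hA.eigenvalues i| ≤ 1},
      (if h : (E i : ℕ) < k then (z ⟨_, h⟩ : ℝ) / K else 0) = ((⌊a i * K⌋ : ℤ) : ℝ) / K := by
    intro i
    have h1 : (E i : ℕ) < k := lt_of_lt_of_le (E i).2 hk
    rw [dif_pos h1]
    simp only [z]
    rw [dif_pos (E i).2]
    simp
  have hnet : netVec hA K z = comb hA 1 fun i => ((⌊a i * K⌋ : ℤ) : ℝ) / K := by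
    unfold netVec
    congr 1
    funext i
    exact hcoef i
  -- distance of `w` to the combination
  have d1 : ∑ l, (w l - comb hA 1 a l) ^ 2 ≤ η ^ 2 := by
    have h1 := U_parseval hA (fun l => w l - comb hA 1 a l)
    rw [← h1]
    have h2 : ∀ i, (∑ l, U hA i l * (w l - comb hA 1 a l)) ^ 2 ≤
        (hA.eigenvalues i) ^ 2 * (∑ l, U hA i l * w l) ^ 2 := by
      intro i
      have h3 : ∑ l, U hA i l * (w l - comb hA 1 a l) =
          ∑ l, U hA i l * w l - ∑ l, U hA i l * comb hA 1 a l := by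
        rw [← Finset.sum_sub_distrib]
        exact Finset.sum_congr rfl fun l _ => by ring
      rw [h3, U_comb]
      split_ifs with h
      · have e : ∑ l, U hA i l * w l - a ⟨i, h⟩ = 0 := sub_self _
        rw [e, zero_pow two_ne_zero]
        positivity
      · rw [sub_zero]
        push Not at h
        have h4 : 1 ≤ (hA.eigenvalues i) ^ 2 := by
          rw [← sq_abs]
          nlinarith [abs_nonneg (hA.eigenvalues i)]
        nlinarith [sq_nonneg (∑ l, U hA i l * w l)]
    refine (Finset.sum_le_sum fun i _ => h2 i).trans ?_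
    rw [← A_norm hA]
    exact hAw
  have d2 : ∑ l, (comb hA 1 a l - netVec hA K z l) ^ 2 ≤ t * (1 / (K : ℝ)) ^ 2 := by
    have h1 : ∀ l, comb hA 1 a l - netVec hA K z l =
        comb hA 1 (fun i => a i - ((⌊a i * K⌋ : ℤ) : ℝ) / K) l := by
      intro l
      rw [hnet]
      unfold comb
      rw [← Finset.sum_sub_distrib]
      exact Finset.sum_congr rfl fun i _ => by ring
    simp_rw [h1]
    rw [comb_norm]
    have h2 : ∀ i ∈ (univ : Finset {i // |hA.eigenvalues i| ≤ 1}),
        (a i - ((⌊a i * K⌋ : ℤ) : ℝ) / K) ^ 2 ≤ (1 / (K : ℝ)) ^ 2 := by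
      intro i _
      rw [← sq_abs]
      exact pow_le_pow_left₀ (abs_nonneg _) (round_spec' K hK _ (ha1 i)).2 2
    refine (Finset.sum_le_card_nsmul _ _ _ h2).trans ?_
    rw [nsmul_eq_mul, card_univ]
    refine mul_le_mul_of_nonneg_right ?_ (by positivity)
    have h3 : Fintype.card {i // |hA.eigenvalues i| ≤ 1} ≤ Fintype.card (Fin t) :=
      Fintype.card_subtype_le _
    rw [Fintype.card_fin] at h3
    exact_mod_cast h3
  intro l
  have e1 : |w l - comb hA 1 a l| ≤ η := by
    apply abs_le_of_sq_le_sq _ hη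
    exact (Finset.single_le_sum (f := fun l => (w l - comb hA 1 a l) ^ 2)
      (fun _ _ => sq_nonneg _) (mem_univ l)).trans d1
  have e2 : |comb hA 1 a l - netVec hA K z l| ≤ Real.sqrt t / K := by
    apply abs_le_of_sq_le_sq _ (by positivity)
    have h1 := (Finset.single_le_sum (f := fun l => (comb hA 1 a l - netVec hA K z l) ^ 2)
      (fun _ _ => sq_nonneg _) (mem_univ l)).trans d2
    refine h1.trans (le_of_eq ?_)
    rw [div_pow, div_pow, Real.sq_sqrt (by positivity)]
    ring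
  have e3 : w l - netVec hA K z l = (w l - comb hA 1 a l) + (comb hA 1 a l - netVec hA K z l) := by
    ring
  rw [e3]
  exact (abs_add_le _ _).trans (add_le_add e1 e2)

end Eig

end Vale.Agent.P160.Half.Tame
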