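import Vale.Agent.P160.Half.Tame2
import Vale.Agent.P160.Half.Tame3

/-! # P160: tameness, part 4: counting matrices with an incompressible near-kernel vector -/

namespace Vale.Agent.P160.Half.Tame

open Finset Vale.Agent.P160.Half.Spec

theorem lo_sqrt {ι : Type*} [Fintype ι] [DecidableEq ι] (w : ι → ℝ) (r : ℝ) (hr : 0 ≤ r)
    (k : ℕ) (hk : 1 ≤ k) (G : Finset ι) (hkG : k ≤ G.card) (hG : ∀ j ∈ G, 2 * r < |w j|) :
    ((((univ : Finset (ι → Bool)).filter fun x =>
      |∑ j, (if x j then w j else 0)| ≤ r).card : ℕ) : ℝ) ≤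
      1 / Real.sqrt k * 2 ^ Fintype.card ι := by
  obtain ⟨G', hG', hcard⟩ := Finset.exists_subset_card_eq hkG
  have h1 := lo_count w r hr G' (fun j hj => hG j (hG' hj))
  rw [hcard] at h1
  have hkι : k ≤ Fintype.card ι := by
    rw [← hcard]; exact G'.card_le_univ
  have hkR : (0 : ℝ) < k := by exact_mod_cast hk
  have hs : 0 < Real.sqrt k := Real.sqrt_pos.2 hkR
  have h2 : ((k.choose (k / 2) : ℕ) : ℝ) * Real.sqrt k ≤ 2 ^ k := by
    have h3 : (((k.choose (k / 2)) ^ 2 * k : ℕ) : ℝ) ≤ ((4 ^ k : ℕ) : ℝ) := by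
      exact_mod_cast choose_half_sq_le k
    push_cast at h3
    apply le_of_sq_le_sq _ (by positivity)
    rw [mul_pow, Real.sq_sqrt hkR.le]
    refine h3.trans (le_of_eq ?_)
    rw [← pow_mul, mul_comm k 2, pow_mul]
    norm_num
  have h3 : ((k.choose (k / 2) : ℕ) : ℝ) ≤ 2 ^ k / Real.sqrt k := by
    rw [le_div_iff₀ hs]; exact h2
  calc ((((univ : Finset (ι → Bool)).filter fun x =>
      |∑ j, (if x j then w j else 0)| ≤ r).card : ℕ) : ℝ)
      ≤ ((2 ^ (Fintype.card ι - k) * k.choose (k / 2) : ℕ) : ℝ) := by exact_mod_cast h1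
    _ = 2 ^ (Fintype.card ι - k) * ((k.choose (k / 2) : ℕ) : ℝ) := by push_cast; ring
    _ ≤ 2 ^ (Fintype.card ι - k) * (2 ^ k / Real.sqrt k) :=
        mul_le_mul_of_nonneg_left h3 (by positivity)
    _ = 1 / Real.sqrt k * (2 ^ (Fintype.card ι - k) * 2 ^ k) := by ring
    _ = 1 / Real.sqrt k * 2 ^ Fintype.card ι := by
        rw [← pow_add, Nat.sub_add_cancel hkι]

variable {n : ℕ}

/-- an incompressible near-kernel vector on `T` -/
def Inc (T : Finset (Fin n)) (k : ℕ) (b : Sym2 (Fin n) → Bool) : Prop :=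
  ∃ w : Fin n → ℝ, ∑ j ∈ T, (w j) ^ 2 ≤ 1 ∧
    (∀ i, |∑ j ∈ T, (if b s(i, j) then w j else 0)| ≤ 1 / (n : ℝ) ^ 9) ∧
    k ≤ (T.filter fun j => 1 / (n : ℝ) ^ 4 ≤ |w j|).card

section

variable (T : Finset (Fin n))

/-- enumeration of `T` -/
noncomputable def en : Fin T.card ≃ {j // j ∈ T} := (Fintype.equivFinOfCardEq (card_mem T)).symm

/-- the bit array of a principal block -/
noncomputable def blk (c : Sym2 {j // j ∈ T} → Bool) : Sym2 (Fin T.card) → Bool :=
  fun u => c (u.map (en T))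

theorem blk_inj : Function.Injective (blk T) := by
  intro c c' h
  funext e
  induction e using Sym2.ind with
  | _ x y =>
    have := congrFun h s((en T).symm x, (en T).symm y)
    simpa [blk] using this

theorem bit_mul (x : Bool) (y : ℝ) : bit x * y = if x then y else 0 := by
  cases x <;> simp [bit]

open Classical in
theorem inc_card (k : ℕ) (hn : 10 ≤ n) (hk : 1 ≤ k) (h256 : 256 * (T.card : ℝ) ≤ (k : ℝ) ^ 2) :
    (((univ : Finset (Sym2 (Fin n) → Bool)).filter fun b => Inc T k b).card : ℝ) ≤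
      ((T.card * Real.exp (-((k : ℝ) / 32))) ^ (k / 2) +
        (2 * (n : ℝ) ^ 9 + 1) ^ k * (1 / Real.sqrt k) ^ (n - T.card)) *
        2 ^ Fintype.card (Sym2 (Fin n)) := by
  have hnR : (10 : ℝ) ≤ n := by exact_mod_cast hn
  have hn0 : (0 : ℝ) < n := by linarith
  have htn : T.card ≤ n := by simpa using T.card_le_univ
  have htR : (T.card : ℝ) ≤ n := by exact_mod_cast htn
  set K : ℤ := (n : ℤ) ^ 9 with hKdef
  have hK : 0 < K := by rw [hKdef]; have : 0 < (n : ℤ) := by omega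
                        positivity
  have hKR : (K : ℝ) = (n : ℝ) ^ 9 := by rw [hKdef]; push_cast; rfl
  let Bd : Finset (Sym2 {j // j ∈ T} → Bool) :=
    univ.filter fun c => k ≤ sm (mat_herm (blk T c)) 1
  have hBd : (Bd.card : ℝ) ≤ (T.card * Real.exp (-((k : ℝ) / 32))) ^ (k / 2) *
      2 ^ Fintype.card (Sym2 {j // j ∈ T}) := by
    have h1 : Bd.card ≤ (bad 1 T.card k).card := by
      refine Finset.card_le_card_of_injOn (blk T) ?_ ((blk_inj T).injOn)
      intro c hc
      have hc' := (mem_filter.1 (mem_coe.1 hc)).2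
      exact mem_coe.2 (mem_filter.2 ⟨mem_univ _, hc'⟩)
    have h2 := count_small 1 zero_le_one T.card k hk (by rw [one_pow, mul_one]; exact h256)
    have h3 : Fintype.card (Sym2 (Fin T.card)) = Fintype.card (Sym2 {j // j ∈ T}) := by
      rw [Sym2.card, Sym2.card, card_mem, Fintype.card_fin]
    rw [h3] at h2
    calc (Bd.card : ℝ) ≤ ((bad 1 T.card k).card : ℝ) := by exact_mod_cast h1
      _ ≤ _ := h2
      _ = _ := mul_comm _ _
  let v : (Sym2 {j // j ∈ T} → Bool) → (Fin k → ℤ) → {j // j ∈ T} → ℝ := fun c z j =>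
    netVec (mat_herm (blk T c)) K z ((en T).symm j)
  let X : (Fin k → ℤ) → (Sym2 {j // j ∈ T} → Bool) → Finset ({j // j ∈ T} → Bool) := fun z c =>
    if k ≤ (univ.filter fun j => 6 / (n : ℝ) ^ 7 < |v c z j|).card then
      univ.filter fun x => |∑ j, (if x j then v c z j else 0)| ≤ 3 / (n : ℝ) ^ 7 else ∅
  have hX : ∀ z c, ((X z c).card : ℝ) ≤ 1 / Real.sqrt k * 2 ^ T.card := by
    intro z c
    by_cases h : k ≤ (univ.filter fun j => 6 / (n : ℝ) ^ 7 < |v c z j|).card
    · simp only [X, if_pos h]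
      have h1 := lo_sqrt (v c z) (3 / (n : ℝ) ^ 7) (by positivity) k hk _ h (by
        intro j hj
        have := (mem_filter.1 hj).2
        have e : 2 * (3 / (n : ℝ) ^ 7) = 6 / (n : ℝ) ^ 7 := by ring
        rw [e]; exact this)
      rw [card_mem] at h1
      exact h1
    · simp only [X, if_neg h, card_empty]
      have : 0 ≤ Real.sqrt k := Real.sqrt_nonneg _
      push_cast
      positivity
  let E : (Fin k → ℤ) → Finset (Sym2 (Fin n) → Bool) := fun z =>
    univ.filter fun b => ∀ s, rows T b s ∈ X z (res T b)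
  have hE : ∀ z, ((E z).card : ℝ) ≤ (1 / Real.sqrt k) ^ (n - T.card) *
      2 ^ Fintype.card (Sym2 (Fin n)) := fun z => card_rows_le T (X z) _ (hX z)
  have hsub : ((univ : Finset (Sym2 (Fin n) → Bool)).filter fun b => Inc T k b) ⊆
      (univ.filter fun b => res T b ∈ Bd) ∪
      (Fintype.piFinset fun _ : Fin k => Icc (-K) K).biUnion E := by
    intro b hb
    obtain ⟨w, hw1, hrow, hlarge⟩ := (mem_filter.1 hb).2
    rw [mem_union]
    by_cases hbad : res T b ∈ Bd
    · exact Or.inl (mem_filter.2 ⟨mem_univ _, hbad⟩)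
    right
    rw [mem_biUnion]
    have hsm : sm (mat_herm (blk T (res T b))) 1 ≤ k := by
      by_contra h
      exact hbad (mem_filter.2 ⟨mem_univ _, by omega⟩)
    have hsumT : ∀ (f : Fin n → ℝ), ∑ l, f (en T l) = ∑ j ∈ T, f j := by
      intro f
      rw [← Finset.sum_coe_sort T]
      exact (en T).sum_comp (fun j : {j // j ∈ T} => f j)
    have hA : ∀ l, ∑ l', mat (blk T (res T b)) l l' * w (en T l') =
        ∑ j ∈ T, (if b s((en T l : Fin n), j) then w j else 0) := by
      intro l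
      rw [← hsumT (fun j => if b s((en T l : Fin n), j) then w j else 0)]
      refine Finset.sum_congr rfl fun l' _ => ?_
      rw [mat, bit_mul]
      rfl
    have hAw : ∑ l, (∑ l', mat (blk T (res T b)) l l' * w (en T l')) ^ 2 ≤
        (1 / (n : ℝ) ^ 8) ^ 2 := by
      have h1 : ∀ l ∈ (univ : Finset (Fin T.card)),
          (∑ l', mat (blk T (res T b)) l l' * w (en T l')) ^ 2 ≤ (1 / (n : ℝ) ^ 9) ^ 2 := by
        intro l _
        rw [hA l, ← sq_abs]
        exact pow_le_pow_left₀ (abs_nonneg _) (hrow _) 2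
      refine (Finset.sum_le_card_nsmul _ _ _ h1).trans ?_
      rw [nsmul_eq_mul, card_univ, Fintype.card_fin]
      calc (T.card : ℝ) * (1 / (n : ℝ) ^ 9) ^ 2 ≤ n * (1 / (n : ℝ) ^ 9) ^ 2 :=
            mul_le_mul_of_nonneg_right htR (by positivity)
        _ = 1 / (n : ℝ) ^ 17 := by field_simp
        _ ≤ 1 / (n : ℝ) ^ 16 := by
            apply one_div_le_one_div_of_le (by positivity)
            exact pow_le_pow_right₀ (by linarith) (by norm_num)
        _ = (1 / (n : ℝ) ^ 8) ^ 2 := by rw [div_pow, one_pow, ← pow_mul]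
    obtain ⟨z, hz, hclose⟩ := exists_netVec (mat_herm (blk T (res T b))) K hK k hsm
      (fun l => w (en T l)) (by rw [hsumT (fun j => (w j) ^ 2)]; exact hw1)
      (1 / (n : ℝ) ^ 8) (by positivity) hAw
    refine ⟨z, hz, mem_filter.2 ⟨mem_univ _, fun s => ?_⟩⟩
    have hρ : 1 / (n : ℝ) ^ 8 + Real.sqrt (T.card : ℝ) / K ≤ 2 / (n : ℝ) ^ 8 := by
      have h1 : Real.sqrt (T.card : ℝ) ≤ n := by
        rw [Real.sqrt_le_left (by positivity)]
        nlinarith
      have h2 : Real.sqrt (T.card : ℝ) / K ≤ n / (n : ℝ) ^ 9 := by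
        rw [hKR]
        exact div_le_div_of_nonneg_right h1 (by positivity)
      have h3 : n / (n : ℝ) ^ 9 = 1 / (n : ℝ) ^ 8 := by field_simp
      calc _ ≤ 1 / (n : ℝ) ^ 8 + 1 / (n : ℝ) ^ 8 := by rw [← h3]; linarith [h3]
        _ = _ := by ring
    have hdist : ∀ j : {j // j ∈ T}, |w j - v (res T b) z j| ≤ 2 / (n : ℝ) ^ 8 := by
      intro j
      have h1 := hclose ((en T).symm j)
      simp only [Equiv.apply_symm_apply] at h1
      exact h1.trans hρ
    have hcond : k ≤ (univ.filter fun j => 6 / (n : ℝ) ^ 7 < |v (res T b) z j|).card := by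
      refine hlarge.trans ?_
      have h1 : (T.filter fun j => 1 / (n : ℝ) ^ 4 ≤ |w j|) ⊆
          (univ.filter fun j => 6 / (n : ℝ) ^ 7 < |v (res T b) z j|).image Subtype.val := by
        intro j hj
        obtain ⟨hjT, hj1⟩ := mem_filter.1 hj
        refine mem_image.2 ⟨⟨j, hjT⟩, mem_filter.2 ⟨mem_univ _, ?_⟩, rfl⟩
        have h2 := hdist ⟨j, hjT⟩
        have h3 := abs_sub_abs_le_abs_sub (w j) (v (res T b) z ⟨j, hjT⟩)
        have h4 : 6 / (n : ℝ) ^ 7 < 1 / (n : ℝ) ^ 4 - 2 / (n : ℝ) ^ 8 := by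
          have h6 : 1 / (n : ℝ) ^ 4 - 2 / (n : ℝ) ^ 8 - 6 / (n : ℝ) ^ 7 =
              ((n : ℝ) ^ 4 - 2 - 6 * n) / (n : ℝ) ^ 8 := by
            field_simp
          have h7 : 0 < ((n : ℝ) ^ 4 - 2 - 6 * n) / (n : ℝ) ^ 8 := by
            apply div_pos _ (by positivity)
            have h8 : (100 : ℝ) ≤ (n : ℝ) ^ 2 := by nlinarith
            nlinarith
          linarith
        change |w j - v (res T b) z ⟨j, hjT⟩| ≤ _ at h2
        linarith
      exact (card_le_card h1).trans card_image_le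
    simp only [X]
    rw [if_pos hcond]
    refine mem_filter.2 ⟨mem_univ _, ?_⟩
    have h1 := sum_if_diff (rows T b s) (fun j => w j) (fun j => v (res T b) z j)
      (2 / (n : ℝ) ^ 8) hdist
    refine h1.trans ?_
    have h2 : ∑ j : {j // j ∈ T}, (if rows T b s j then w j else 0) =
        ∑ j ∈ T, (if b s(s, j) then w j else 0) := by
      rw [← Finset.sum_coe_sort T]
      exact Finset.sum_congr rfl fun _ _ => rfl
    rw [h2, card_mem]
    have h3 := hrow s
    have h4 : (T.card : ℝ) * (2 / (n : ℝ) ^ 8) ≤ 2 / (n : ℝ) ^ 7 := by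
      calc (T.card : ℝ) * (2 / (n : ℝ) ^ 8) ≤ n * (2 / (n : ℝ) ^ 8) :=
            mul_le_mul_of_nonneg_right htR (by positivity)
        _ = 2 / (n : ℝ) ^ 7 := by field_simp
    have h5 : 1 / (n : ℝ) ^ 9 ≤ 1 / (n : ℝ) ^ 7 := by
      apply one_div_le_one_div_of_le (by positivity)
      exact pow_le_pow_right₀ (by linarith) (by norm_num)
    calc _ ≤ 1 / (n : ℝ) ^ 7 + 2 / (n : ℝ) ^ 7 := add_le_add (h3.trans h5) h4
      _ = 3 / (n : ℝ) ^ 7 := by ring
  have hu : ((((Fintype.piFinset fun _ : Fin k => Icc (-K) K).biUnion E).card : ℕ) : ℝ) ≤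
      (2 * (n : ℝ) ^ 9 + 1) ^ k * ((1 / Real.sqrt k) ^ (n - T.card) *
        2 ^ Fintype.card (Sym2 (Fin n))) := by
    have h1 : ((((Fintype.piFinset fun _ : Fin k => Icc (-K) K).biUnion E).card : ℕ) : ℝ) ≤
        ∑ z ∈ (Fintype.piFinset fun _ : Fin k => Icc (-K) K), ((E z).card : ℝ) := by
      exact_mod_cast card_biUnion_le
    refine h1.trans ((sum_le_sum fun z _ => hE z).trans ?_)
    rw [sum_const, nsmul_eq_mul, Fintype.card_piFinset, prod_const, card_univ, Fintype.card_fin,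
      Int.card_Icc]
    have h2 : (((K + 1 - -K).toNat : ℕ) : ℝ) = 2 * (n : ℝ) ^ 9 + 1 := by
      have h3 : ((K + 1 - -K).toNat : ℤ) = 2 * K + 1 := by
        rw [Int.toNat_of_nonneg (by linarith)]; ring
      have h4 : (((K + 1 - -K).toNat : ℤ) : ℝ) = 2 * (K : ℝ) + 1 := by rw [h3]; push_cast; ring
      rw [← hKR, ← h4]
      push_cast
      rfl
    push_cast
    rw [h2]
  have hb1 := card_res_le T Bd _ hBd
  have hfin : ((((univ : Finset (Sym2 (Fin n) → Bool)).filter fun b => Inc T k b).card : ℕ) : ℝ) ≤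
      (((univ : Finset (Sym2 (Fin n) → Bool)).filter fun b => res T b ∈ Bd).card : ℝ) +
      ((((Fintype.piFinset fun _ : Fin k => Icc (-K) K).biUnion E).card : ℕ) : ℝ) := by
    exact_mod_cast (card_le_card hsub).trans (card_union_le _ _)
  calc _ ≤ _ := hfin
    _ ≤ _ := add_le_add hb1 hu
    _ = _ := by ring

end

end Vale.Agent.P160.Half.Tame
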