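import Mathlib

/-!
P160/Half, TAME, case of few large coordinates: a symmetric 0/1 matrix for which the columns in a
small set `D` have an approximate kernel vector (on the rows outside `D`).
-/

open Finset

namespace Vale.Agent.P160.Half.TameD

/-- few subsets of size at most `d` -/
theorem card_small_sets (n d : ℕ) :
    (univ.filter fun D : Finset (Fin n) => D.card ≤ d).card ≤ (n + 1) ^ d := by
  classical
  have h : (univ.filter fun D : Finset (Fin n) => D.card ≤ d).card ≤
      (univ : Finset (Fin d → Option (Fin n))).card := by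
    refine Finset.card_le_card_of_surjOn
      (fun f => univ.filter fun j => ∃ l, f l = some j) ?_
    intro D hD
    have hD' : D.card ≤ d := by simpa using hD
    refine ⟨fun l => if h : (l : ℕ) < D.card then some (D.equivFin.symm ⟨l, h⟩ : Fin n) else none,
      by simp, ?_⟩
    ext j
    simp only [mem_filter, mem_univ, true_and]
    constructor
    · rintro ⟨l, hl⟩
      by_cases h : (l : ℕ) < D.card
      · rw [dif_pos h, Option.some.injEq] at hl
        rw [← hl]
        exact (D.equivFin.symm ⟨l, h⟩).2
      · rw [dif_neg h] at hl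
        exact absurd hl (by simp)
    · intro hj
      refine ⟨⟨(D.equivFin ⟨j, hj⟩ : ℕ), lt_of_lt_of_le (D.equivFin ⟨j, hj⟩).2 hD'⟩, ?_⟩
      rw [dif_pos (D.equivFin ⟨j, hj⟩).2]
      simp
  refine h.trans ?_
  rw [card_univ, Fintype.card_fun, Fintype.card_option, Fintype.card_fin, Fintype.card_fin]

/-- the rows outside `D` are independent: each of them has a small inner product with `w` with
probability at most `1/2` -/
theorem card_good (n : ℕ) (D : Finset (Fin n)) (w : Fin n → ℝ) (i : Fin n) (hi : i ∈ D)
    (hw : 1 / 2 ≤ |w i|) :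
    (univ.filter fun b : Sym2 (Fin n) → Bool =>
      ∀ k ∉ D, |∑ j ∈ D, (if b s(k, j) then w j else 0)| ≤ 1 / 8).card * 2 ^ (n - D.card) ≤
      2 ^ Fintype.card (Sym2 (Fin n)) := by
  classical
  set G := univ.filter fun b : Sym2 (Fin n) → Bool =>
      ∀ k ∉ D, |∑ j ∈ D, (if b s(k, j) then w j else 0)| ≤ 1 / 8 with hG
  have hc1 : (univ : Finset ({k : Fin n // k ∉ D} → Bool)).card = 2 ^ (n - D.card) := by
    rw [card_univ, Fintype.card_fun, Fintype.card_bool]
    congr 1
    rw [Fintype.card_subtype_compl, Fintype.card_fin, Fintype.card_coe]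
  have hc2 : (univ : Finset (Sym2 (Fin n) → Bool)).card = 2 ^ Fintype.card (Sym2 (Fin n)) := by
    rw [card_univ, Fintype.card_fun, Fintype.card_bool]
  rw [← hc1, ← hc2, ← card_product]
  refine Finset.card_le_card_of_injOn
    (fun p z => xor (p.1 z) (decide (∃ k : {k : Fin n // k ∉ D}, z = s((k : Fin n), i) ∧ p.2 k = true)))
    (fun _ _ => mem_coe.2 (mem_univ _)) ?_
  rintro ⟨b, e⟩ hb ⟨b', e'⟩ hb' heq
  simp only [mem_coe, mem_product, mem_univ, and_true] at hb hb'
  simp only [hG, mem_filter, mem_univ, true_and] at hb hb'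
  -- value of the flip on the entries of the rows outside `D`
  have key : ∀ (f : {k : Fin n // k ∉ D} → Bool) (k : {k : Fin n // k ∉ D}) (j : Fin n),
      j ∈ D → (decide (∃ k' : {k : Fin n // k ∉ D}, s((k : Fin n), j) = s((k' : Fin n), i) ∧
        f k' = true)) = (decide (j = i) && f k) := by
    intro f k j hj
    rw [Bool.eq_iff_iff]
    simp only [decide_eq_true_eq, Bool.and_eq_true, Sym2.eq_iff]
    constructor
    · rintro ⟨k', (⟨h1, h2⟩ | ⟨h1, h2⟩), h3⟩
      · have : k' = k := Subtype.ext h1.symm
        rw [this] at h3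
        exact ⟨h2, h3⟩
      · exact absurd (h1 ▸ hi : (k : Fin n) ∈ D) k.2
    · rintro ⟨h1, h2⟩
      exact ⟨k, Or.inl ⟨rfl, h1⟩, h2⟩
  have hcong : ∀ z, xor (b z) (decide (∃ k : {k : Fin n // k ∉ D}, z = s((k : Fin n), i) ∧ e k = true)) =
      xor (b' z) (decide (∃ k : {k : Fin n // k ∉ D}, z = s((k : Fin n), i) ∧ e' k = true)) :=
    fun z => congrFun heq z
  have hother : ∀ (k : {k : Fin n // k ∉ D}) (j : Fin n), j ∈ D → j ≠ i →
      b s((k : Fin n), j) = b' s((k : Fin n), j) := by
    intro k j hj hji
    have h := hcong s((k : Fin n), j)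
    rw [key e k j hj, key e' k j hj] at h
    simpa [hji] using h
  have hrow : ∀ k : {k : Fin n // k ∉ D}, b s((k : Fin n), i) = b' s((k : Fin n), i) := by
    intro k
    by_contra hne
    have h1 := hb k k.2
    have h2 := hb' k k.2
    have h3 : (∑ j ∈ D, (if b s((k : Fin n), j) then w j else 0)) -
        ∑ j ∈ D, (if b' s((k : Fin n), j) then w j else 0) =
        (if b s((k : Fin n), i) then w i else 0) - (if b' s((k : Fin n), i) then w i else 0) := by
      rw [← sum_sub_distrib]
      refine Finset.sum_eq_single_of_mem i hi fun j hj hji => ?_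
      rw [hother k j hj hji, sub_self]
    have h4 : |(if b s((k : Fin n), i) then w i else 0) -
        (if b' s((k : Fin n), i) then w i else 0)| = |w i| := by
      rcases Bool.eq_false_or_eq_true (b s((k : Fin n), i)) with hh | hh <;>
        rcases Bool.eq_false_or_eq_true (b' s((k : Fin n), i)) with hh' | hh' <;>
        simp [hh, hh'] at hne ⊢
    have h5 : |w i| ≤ 1 / 8 + 1 / 8 := by
      rw [← h4, ← h3]
      exact (abs_sub _ _).trans (add_le_add h1 h2)
    linarith
  have he : e = e' := by
    funext k
    have h := hcong s((k : Fin n), i)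
    rw [key e k i hi, key e' k i hi, hrow k] at h
    simpa using h
  subst he
  have hbb : b = b' := by
    funext z
    have h := hcong z
    simpa using h
  rw [hbb]

/-- the event: some small set `D` of columns has an approximate kernel vector -/
def Ev (n d : ℕ) (b : Sym2 (Fin n) → Bool) : Prop :=
  ∃ (D : Finset (Fin n)) (u : Fin n → ℝ) (i : Fin n), D.card ≤ d ∧ i ∈ D ∧ |u i| = 1 ∧
    (∀ j, |u j| ≤ 1) ∧ ∀ k ∉ D, |∑ j ∈ D, (if b s(k, j) then u j else 0)| ≤ 1 / 16

open Classical in
theorem card_ev (n d : ℕ) (hd : d ≤ n) :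
    (univ.filter fun b : Sym2 (Fin n) → Bool => Ev n d b).card * 2 ^ (n - d) ≤
      (n + 1) ^ d * (16 * n + 1) ^ d * 2 ^ Fintype.card (Sym2 (Fin n)) := by
  set N : ℤ := 8 * n with hN
  let Gr : Finset (Fin n) → Finset (Fin n → ℤ) := fun D =>
    Fintype.piFinset fun j => if j ∈ D then Finset.Icc (-N) N else {0}
  have hGr : ∀ D, (Gr D).card = (16 * n + 1) ^ D.card := by
    intro D
    simp only [Gr]
    rw [Fintype.card_piFinset]
    have : ∀ j : Fin n, (if j ∈ D then Finset.Icc (-N) N else {0} : Finset ℤ).card =
        if j ∈ D then 16 * n + 1 else 1 := by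
      intro j
      split_ifs
      · rw [Int.card_Icc]; omega
      · rfl
    rw [Finset.prod_congr rfl fun j _ => this j, Finset.prod_ite]
    simp
  let Gd : Finset (Fin n) → (Fin n → ℤ) → Finset (Sym2 (Fin n) → Bool) := fun D c =>
    univ.filter fun b : Sym2 (Fin n) → Bool => (∃ i ∈ D, 1 / 2 ≤ |(c i : ℝ) / (8 * n)|) ∧
      ∀ k ∉ D, |∑ j ∈ D, (if b s(k, j) then (c j : ℝ) / (8 * n) else 0)| ≤ 1 / 8
  have hsub : (univ.filter fun b : Sym2 (Fin n) → Bool => Ev n d b) ⊆
      (univ.filter fun D : Finset (Fin n) => D.card ≤ d).biUnion fun D =>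
        (Gr D).biUnion fun c => Gd D c := by
    intro b hb
    obtain ⟨D, u, i, hDd, hiD, hui, hu, hk⟩ := (mem_filter.1 hb).2
    have hn : 0 < n := lt_of_le_of_lt (Nat.zero_le _) i.2
    have hn' : (0 : ℝ) < n := by exact_mod_cast hn
    have hn1 : (1 : ℝ) ≤ n := by exact_mod_cast hn
    have herr : ∀ j, |u j - (round (8 * n * u j) : ℝ) / (8 * n)| ≤ 1 / (16 * n) := by
      intro j
      have h1 := abs_sub_round (8 * n * u j)
      have h2 : u j - (round (8 * n * u j) : ℝ) / (8 * n) =
          (8 * n * u j - (round (8 * n * u j) : ℝ)) / (8 * n) := by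
        field_simp
      rw [h2, abs_div, abs_of_pos (by positivity : (0 : ℝ) < 8 * n), div_le_div_iff₀ (by positivity)
        (by positivity)]
      nlinarith
    refine mem_biUnion.2 ⟨D, by simpa using hDd, mem_biUnion.2
      ⟨fun j => if j ∈ D then round (8 * n * u j) else 0, ?_, ?_⟩⟩
    · simp only [Gr, Fintype.mem_piFinset]
      intro j
      by_cases hj : j ∈ D
      · simp only [hj, if_true, Finset.mem_Icc]
        have h1 := abs_le.1 (hu j)
        have hNr : ((N : ℤ) : ℝ) = 8 * n := by rw [hN]; push_cast; ring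
        constructor
        · rw [← Int.cast_le (R := ℝ)]
          by_contra hlt
          push Not at hlt
          have h2 : round (8 * n * u j) + 1 ≤ -N := by
            have : round (8 * n * u j) < -N := by exact_mod_cast hlt
            omega
          have h3 : ((round (8 * n * u j) : ℤ) : ℝ) + 1 ≤ -(8 * n) := by
            rw [← hNr]; exact_mod_cast h2
          have h4 := (abs_le.1 (abs_sub_round (8 * n * u j))).2
          nlinarith
        · rw [← Int.cast_le (R := ℝ)]
          by_contra hlt
          push Not at hlt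
          have h2 : N + 1 ≤ round (8 * n * u j) := by
            have : N < round (8 * n * u j) := by exact_mod_cast hlt
            omega
          have h3 : (8 * n : ℝ) + 1 ≤ ((round (8 * n * u j) : ℤ) : ℝ) := by
            rw [← hNr]; exact_mod_cast h2
          have h4 := (abs_le.1 (abs_sub_round (8 * n * u j))).1
          nlinarith
      · simp [hj]
    · simp only [Gd, mem_filter, mem_univ, true_and]
      constructor
      · refine ⟨i, hiD, ?_⟩
        rw [if_pos hiD]
        have h1 := herr i
        have h2 : |u i| ≤ |u i - (round (8 * n * u i) : ℝ) / (8 * n)| +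
            |(round (8 * n * u i) : ℝ) / (8 * n)| := by
          have := abs_add_le (u i - (round (8 * n * u i) : ℝ) / (8 * n))
            ((round (8 * n * u i) : ℝ) / (8 * n))
          simpa using this
        have h3 : (1 : ℝ) / (16 * n) ≤ 1 / 16 := by
          apply one_div_le_one_div_of_le (by norm_num); nlinarith
        rw [hui] at h2
        linarith
      · intro k hkD
        have h1 := hk k hkD
        have h2 : |(∑ j ∈ D, (if b s(k, j) then u j else 0)) -
            ∑ j ∈ D, (if b s(k, j) then (((if j ∈ D then round (8 * n * u j) else 0 : ℤ)) : ℝ) /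
              (8 * n) else 0)| ≤ 1 / 16 := by
          rw [← sum_sub_distrib]
          refine (Finset.abs_sum_le_sum_abs _ _).trans ?_
          have h3 : ∀ j ∈ D, |(if b s(k, j) then u j else 0) -
              (if b s(k, j) then (((if j ∈ D then round (8 * n * u j) else 0 : ℤ)) : ℝ) /
              (8 * n) else 0)| ≤ 1 / (16 * n) := by
            intro j hj
            rw [if_pos hj]
            split_ifs
            · exact herr j
            · simp
          refine (Finset.sum_le_sum h3).trans ?_
          rw [sum_const, nsmul_eq_mul]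
          have h4 : (D.card : ℝ) ≤ n := by
            have := Finset.card_le_univ D
            rw [Fintype.card_fin] at this
            exact_mod_cast this
          rw [mul_one_div, div_le_div_iff₀ (by positivity) (by norm_num)]
          nlinarith
        have h5 := abs_sub_abs_le_abs_sub
          (∑ j ∈ D, (if b s(k, j) then (((if j ∈ D then round (8 * n * u j) else 0 : ℤ)) : ℝ) /
              (8 * n) else 0)) (∑ j ∈ D, (if b s(k, j) then u j else 0))
        rw [abs_sub_comm] at h5
        linarith
  have hgd : ∀ D : Finset (Fin n), D.card ≤ d → ∀ c, (Gd D c).card * 2 ^ (n - d) ≤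
      2 ^ Fintype.card (Sym2 (Fin n)) := by
    intro D hD c
    by_cases hex : ∃ i ∈ D, 1 / 2 ≤ |(c i : ℝ) / (8 * n)|
    · obtain ⟨i, hi, hci⟩ := hex
      have h1 := card_good n D (fun j => (c j : ℝ) / (8 * n)) i hi hci
      refine le_trans ?_ h1
      refine Nat.mul_le_mul (Finset.card_le_card ?_) (Nat.pow_le_pow_right (by norm_num) (by omega))
      intro b hb
      have := (mem_filter.1 hb).2.2
      exact mem_filter.2 ⟨mem_univ _, this⟩
    · have : Gd D c = ∅ := by
        simp only [Gd]
        rw [Finset.filter_eq_empty_iff]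
        intro b _ h
        exact hex h.1
      rw [this]; simp
  calc (univ.filter fun b : Sym2 (Fin n) → Bool => Ev n d b).card * 2 ^ (n - d)
      ≤ (∑ D ∈ univ.filter fun D : Finset (Fin n) => D.card ≤ d,
          ∑ c ∈ Gr D, (Gd D c).card) * 2 ^ (n - d) := by
        refine Nat.mul_le_mul_right _ ((Finset.card_le_card hsub).trans ?_)
        refine Finset.card_biUnion_le.trans (Finset.sum_le_sum fun D _ => Finset.card_biUnion_le)
    _ = ∑ D ∈ univ.filter fun D : Finset (Fin n) => D.card ≤ d,
          ∑ c ∈ Gr D, (Gd D c).card * 2 ^ (n - d) := by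
        rw [Finset.sum_mul]; exact Finset.sum_congr rfl fun D _ => Finset.sum_mul _ _ _
    _ ≤ ∑ D ∈ univ.filter fun D : Finset (Fin n) => D.card ≤ d,
          (16 * n + 1) ^ d * 2 ^ Fintype.card (Sym2 (Fin n)) := by
        refine Finset.sum_le_sum fun D hD => ?_
        have hD' : D.card ≤ d := (mem_filter.1 hD).2
        refine (Finset.sum_le_sum fun c _ => hgd D hD' c).trans ?_
        rw [Finset.sum_const, smul_eq_mul, hGr D]
        exact Nat.mul_le_mul_right _ (Nat.pow_le_pow_right (by omega) hD')
    _ ≤ (n + 1) ^ d * ((16 * n + 1) ^ d * 2 ^ Fintype.card (Sym2 (Fin n))) := by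
        rw [Finset.sum_const, smul_eq_mul]
        exact Nat.mul_le_mul_right _ (card_small_sets n d)
    _ = _ := by ring

end Vale.Agent.P160.Half.TameD
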