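import Vale.Agent.P160.Half.M67Stmt

/-!
# P160, half rate, block (M): (10) TOP of `M67Stmt` (second prover helper737)

`top : StmtHold β → StmtLaw → StmtNice → StmtSparse → StmtCRT → StmtFlat → StmtTop β` for `0 < β`.
-/

set_option linter.unusedSectionVars false

namespace Vale.Agent.P160.Half.M67.H737

open Finset Vale.Agent.P160 Vale.Agent.P160.Half Vale.Agent.P160.Half.Flat

theorem rkp_transpose {p : ℕ} (hp : p.Prime) {k m : ℕ} (M : Matrix (Fin k) (Fin m) ℤ) :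
    rkp p M.transpose = rkp p M := by
  have := Fact.mk hp
  unfold rkp
  rw [Matrix.transpose_map, Matrix.rank_transpose]

theorem W_transpose {P : Finset ℕ} (hP : ∀ p ∈ P, p.Prime) {k : ℕ} (M : Matrix (Fin k) (Fin k) ℤ) :
    W P M.transpose = W P M := by
  unfold W
  refine Finset.prod_congr rfl (fun p hp => ?_)
  rw [rkp_transpose (hP p hp)]

theorem W_nonneg (P : Finset ℕ) {k m : ℕ} (M : Matrix (Fin k) (Fin m) ℤ) : 0 ≤ W P M := by
  unfold W
  exact Finset.prod_nonneg (fun p _ => by positivity)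

theorem kerN_sq (hCRT : StmtCRT) {k N : ℕ} (hN : Squarefree N) (ω : Fin k → Fin k → Fin (8 * k)) :
    (M8.kerN N (2 * k - 1) ω : ℝ) ^ 2 = W N.primeFactors (mt (stL (2 * k - 1)) ω) := by
  have h := (hCRT k N.primeFactors (fun p hp => Nat.prime_of_mem_primeFactors hp)
    (mt (stL (2 * k - 1)) ω)).1
  rw [Nat.prod_primeFactors_of_squarefree hN] at h
  rw [h]
  rfl

theorem flatX_of (hF : StmtFlat) {k N : ℕ} (hk : 0 < k) (hN : Squarefree N) (s : ℝ)
    (ω : Fin k → Fin k → Fin (8 * k)) (h1 : ¬ Sparse N.primeFactors s (mt (stL (2 * k - 1)) ω))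
    (h2 : ¬ Bad N.primeFactors s (mt (stL (2 * k - 1)) ω)) : M8.FlatX N (2 * k - 1) ω := by
  have h := hF k hk N.primeFactors (fun p hp => Nat.prime_of_mem_primeFactors hp) s ω h1 h2
  rw [Nat.prod_primeFactors_of_squarefree hN] at h
  exact h

open scoped Classical in
/-- the union bound over the two orientations -/
theorem nonflat_le (hCRT : StmtCRT) (hF : StmtFlat) {k N : ℕ} (hk : 0 < k) (hN : Squarefree N) (s : ℝ) :
    ∑ ω ∈ (univ : Finset (Fin k → Fin k → Fin (8 * k))).filter (fun ω =>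
      ¬ (M8.FlatX N (2 * k - 1) ω ∧ M8.FlatX N (2 * k - 1) (fun i j => ω j i))),
      (M8.kerN N (2 * k - 1) ω : ℝ) ^ 2 ≤
    2 * (∑ ω ∈ (univ : Finset (Fin k → Fin k → Fin (8 * k))).filter
        (fun ω => Sp N.primeFactors s (mt (stL (2 * k - 1)) ω)), W N.primeFactors (mt (stL (2 * k - 1)) ω) +
      ∑ ω ∈ (univ : Finset (Fin k → Fin k → Fin (8 * k))).filter
        (fun ω => Bad N.primeFactors s (mt (stL (2 * k - 1)) ω) ∧
          ¬ Sp N.primeFactors s (mt (stL (2 * k - 1)) ω)), W N.primeFactors (mt (stL (2 * k - 1)) ω)) := by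
  set P := N.primeFactors with hPdef
  have hP : ∀ p ∈ P, p.Prime := fun p hp => Nat.prime_of_mem_primeFactors hp
  set f : (Fin k → Fin k → Fin (8 * k)) → ℝ := fun ω =>
    (if Sp P s (mt (stL (2 * k - 1)) ω) then W P (mt (stL (2 * k - 1)) ω) else 0) +
      (if Bad P s (mt (stL (2 * k - 1)) ω) ∧ ¬ Sp P s (mt (stL (2 * k - 1)) ω)
        then W P (mt (stL (2 * k - 1)) ω) else 0) with hf
  have hf0 : ∀ ω, 0 ≤ f ω := by
    intro ω
    rw [hf]
    refine add_nonneg ?_ ?_ <;> split_ifs <;> first | exact W_nonneg _ _ | exact le_rfl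
  have hf1 : ∀ ω, ¬ M8.FlatX N (2 * k - 1) ω → W P (mt (stL (2 * k - 1)) ω) ≤ f ω := by
    intro ω h
    have h0 := W_nonneg P (mt (stL (2 * k - 1)) ω)
    by_cases h1 : Sp P s (mt (stL (2 * k - 1)) ω)
    · rw [hf]
      simp only [if_pos h1]
      split_ifs <;> linarith
    · have h2 : Bad P s (mt (stL (2 * k - 1)) ω) := by
        by_contra h3
        exact h (flatX_of hF hk hN s ω (fun h4 => h1 (Or.inl h4)) h3)
      rw [hf]
      simp only [if_neg h1, zero_add]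
      rw [if_pos ⟨h2, h1⟩]
  have hsum : ∑ ω, f ω = ∑ ω ∈ (univ : Finset (Fin k → Fin k → Fin (8 * k))).filter
        (fun ω => Sp P s (mt (stL (2 * k - 1)) ω)), W P (mt (stL (2 * k - 1)) ω) +
      ∑ ω ∈ (univ : Finset (Fin k → Fin k → Fin (8 * k))).filter
        (fun ω => Bad P s (mt (stL (2 * k - 1)) ω) ∧
          ¬ Sp P s (mt (stL (2 * k - 1)) ω)), W P (mt (stL (2 * k - 1)) ω) := by
    rw [Finset.sum_filter, Finset.sum_filter, ← Finset.sum_add_distrib]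
  have hswap : ∑ ω : Fin k → Fin k → Fin (8 * k), f (fun i j => ω j i) = ∑ ω, f ω :=
    Equiv.sum_comp (Equiv.piComm (fun (_ _ : Fin k) => Fin (8 * k))) f
  rw [← hsum, two_mul (∑ ω, f ω)]
  nth_rewrite 1 [← hswap]
  rw [← Finset.sum_add_distrib, Finset.sum_filter]
  refine Finset.sum_le_sum (fun ω _ => ?_)
  by_cases h : M8.FlatX N (2 * k - 1) ω
  · by_cases h' : M8.FlatX N (2 * k - 1) (fun i j => ω j i)
    · rw [if_neg (not_not.2 ⟨h, h'⟩)]
      exact add_nonneg (hf0 _) (hf0 _)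
    · rw [if_pos (fun hh => h' hh.2), kerN_sq hCRT hN]
      have h3 := hf1 _ h'
      have h4 : W P (mt (stL (2 * k - 1)) fun i j => ω j i) = W P (mt (stL (2 * k - 1)) ω) :=
        W_transpose hP (mt (stL (2 * k - 1)) ω)
      rw [h4] at h3
      linarith [hf0 ω]
  · rw [if_pos (fun hh => h hh.1), kerN_sq hCRT hN]
    have h3 := hf1 _ h
    have h5 := hf0 (fun i j => ω j i)
    linarith

open scoped Classical in
/-- the total weight -/
theorem total_le {k : ℕ} (P : Finset ℕ) (s : ℝ) :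
    ∑ ω : Fin k → Fin k → Fin (8 * k), W P (mt (stL (2 * k - 1)) ω) ≤
      ∑ ω ∈ (univ : Finset (Fin k → Fin k → Fin (8 * k))).filter
        (fun ω => ¬ Sparse P s (mt (stL (2 * k - 1)) ω) ∧ ¬ Bad P s (mt (stL (2 * k - 1)) ω)),
        W P (mt (stL (2 * k - 1)) ω) +
      (∑ ω ∈ (univ : Finset (Fin k → Fin k → Fin (8 * k))).filter
        (fun ω => Bad P s (mt (stL (2 * k - 1)) ω) ∧
          ¬ Sp P s (mt (stL (2 * k - 1)) ω)), W P (mt (stL (2 * k - 1)) ω) +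
      ∑ ω ∈ (univ : Finset (Fin k → Fin k → Fin (8 * k))).filter
        (fun ω => Sp P s (mt (stL (2 * k - 1)) ω)), W P (mt (stL (2 * k - 1)) ω)) := by
  rw [Finset.sum_filter, Finset.sum_filter, Finset.sum_filter, ← Finset.sum_add_distrib,
    ← Finset.sum_add_distrib]
  refine Finset.sum_le_sum (fun ω _ => ?_)
  have h0 := W_nonneg P (mt (stL (2 * k - 1)) ω)
  by_cases h1 : Sp P s (mt (stL (2 * k - 1)) ω)
  · rw [if_pos h1]
    have a1 : 0 ≤ (if ¬ Sparse P s (mt (stL (2 * k - 1)) ω) ∧ ¬ Bad P s (mt (stL (2 * k - 1)) ω)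
        then W P (mt (stL (2 * k - 1)) ω) else 0) := by split_ifs <;> linarith
    have a2 : 0 ≤ (if Bad P s (mt (stL (2 * k - 1)) ω) ∧ ¬ Sp P s (mt (stL (2 * k - 1)) ω)
        then W P (mt (stL (2 * k - 1)) ω) else 0) := by split_ifs <;> linarith
    linarith
  · by_cases h2 : Bad P s (mt (stL (2 * k - 1)) ω)
    · have a0 : ¬ (¬ Sparse P s (mt (stL (2 * k - 1)) ω) ∧ ¬ Bad P s (mt (stL (2 * k - 1)) ω)) :=
        fun h => h.2 h2
      rw [if_neg a0, if_pos ⟨h2, h1⟩, if_neg h1]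
      linarith
    · rw [if_pos ⟨fun h => h1 (Or.inl h), h2⟩, if_neg (fun h => h2 h.1), if_neg h1]
      linarith

open scoped Classical in
/-- the bad part for the law 505 -/
theorem bad_le (hL : StmtLaw) {k : ℕ} (hk : 0 < k) (P : Finset ℕ) (s : ℝ)
    (hH : ∑ ω ∈ (univ : Finset (Fin k → Fin k → Bool × Bool)).filter
      (fun ω => Bad P s (mt xi ω) ∧ ¬ Sp P s (mt xi ω)), W P (mt xi ω) ≤
      (2 : ℝ) ^ (-(2 : ℝ) * k) * (4 : ℝ) ^ (k * k)) :
    ∑ ω ∈ (univ : Finset (Fin k → Fin k → Fin (8 * k))).filter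
        (fun ω => Bad P s (mt (stL (2 * k - 1)) ω) ∧
          ¬ Sp P s (mt (stL (2 * k - 1)) ω)), W P (mt (stL (2 * k - 1)) ω) ≤
      (2 : ℝ) ^ (-(k : ℝ)) * ((8 * k : ℕ) : ℝ) ^ (k * k) := by
  have h := hL k hk (fun M => if Bad P s M ∧ ¬ Sp P s M then W P M else 0)
    (fun M => by
      show 0 ≤ (if Bad P s M ∧ ¬ Sp P s M then W P M else 0)
      split_ifs
      · exact W_nonneg _ _
      · exact le_rfl)
  rw [Finset.sum_filter] at hH ⊢
  have h4 : (0 : ℝ) < (4 : ℝ) ^ (k * k) := by positivity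
  have h8 : (0 : ℝ) ≤ ((8 * k : ℕ) : ℝ) ^ (k * k) := by positivity
  have he : Real.exp (k / 2) ≤ (2 : ℝ) ^ (k : ℝ) := by
    have h1 : Real.exp (1 / 2) ≤ 2 := by
      have h2 : Real.exp (1 / 2) ^ 2 ≤ 2 ^ 2 := by
        rw [← Real.exp_nat_mul]
        have := Real.exp_one_lt_d9
        norm_num
        linarith
      exact le_of_sq_le_sq h2 (by norm_num)
    calc Real.exp (k / 2) = Real.exp (1 / 2) ^ (k : ℝ) := by
          rw [← Real.exp_mul]
          congr 1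
          ring
      _ ≤ 2 ^ (k : ℝ) := Real.rpow_le_rpow (Real.exp_pos _).le h1 (Nat.cast_nonneg _)
  have h5 : (∑ ω : Fin k → Fin k → Fin (8 * k), if Bad P s (mt (stL (2 * k - 1)) ω) ∧
      ¬ Sp P s (mt (stL (2 * k - 1)) ω) then W P (mt (stL (2 * k - 1)) ω) else 0) * (4 : ℝ) ^ (k * k) ≤
      ((2 : ℝ) ^ (-(k : ℝ)) * ((8 * k : ℕ) : ℝ) ^ (k * k)) * (4 : ℝ) ^ (k * k) := by
    refine h.trans ?_
    calc Real.exp (k / 2) * ((8 * k : ℕ) : ℝ) ^ (k * k) *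
          ∑ ω : Fin k → Fin k → Bool × Bool, (if Bad P s (mt xi ω) ∧ ¬ Sp P s (mt xi ω)
            then W P (mt xi ω) else 0)
        ≤ (2 : ℝ) ^ (k : ℝ) * ((8 * k : ℕ) : ℝ) ^ (k * k) *
          ((2 : ℝ) ^ (-(2 : ℝ) * k) * (4 : ℝ) ^ (k * k)) := by
          refine mul_le_mul ?_ hH ?_ (by positivity)
          · exact mul_le_mul_of_nonneg_right he h8
          · refine Finset.sum_nonneg (fun ω _ => ?_)
            split_ifs
            · exact W_nonneg _ _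
            · exact le_rfl
      _ = ((2 : ℝ) ^ (-(k : ℝ)) * ((8 * k : ℕ) : ℝ) ^ (k * k)) * (4 : ℝ) ^ (k * k) := by
          have h6 : (2 : ℝ) ^ (k : ℝ) * (2 : ℝ) ^ (-(2 : ℝ) * k) = (2 : ℝ) ^ (-(k : ℝ)) := by
            rw [← Real.rpow_add (by norm_num)]
            congr 1
            ring
          rw [← h6]
          ring
  exact le_of_mul_le_mul_right h5 h4

/-- the final inequality -/
theorem arith {β c η k N Z SB SS SN T : ℝ} (hη : η = (1 - 5 * β - c) / 2)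
    (hc0 : 0 ≤ c) (hβ : 0 < β) (hk : 0 < k) (e3 : 6 ≤ η * k) (e4 : 2 ≤ (1 - c) * k) (hk2 : 2 ≤ k)
    (hN1 : 1 ≤ N) (hNs : N ≤ (2 : ℝ) ^ (β * k)) (hZ0 : 0 ≤ Z) (hT0 : 0 ≤ T)
    (HB : SB ≤ (2 : ℝ) ^ (-k) * Z) (H2 : SS ≤ (2 : ℝ) ^ (-(1 - 2 * β - η) * k) * T)
    (HT : T ≤ SN + (SB + SS)) (H3 : SN ≤ 3 * N ^ 3 * Z) :
    2 * (SS + SB) ≤ (2 : ℝ) ^ (-(c * k)) * Z := by
  have hu : (1 / 2 : ℝ) ≤ 1 - 2 * β - η := by
    rw [hη]
    linarith
  have h1 : (2 : ℝ) ^ (-(1 - 2 * β - η) * k) ≤ 1 / 2 := by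
    have h : -(1 - 2 * β - η) * k ≤ -1 := by nlinarith
    calc (2 : ℝ) ^ (-(1 - 2 * β - η) * k) ≤ (2 : ℝ) ^ (-1 : ℝ) :=
          Real.rpow_le_rpow_of_exponent_le (by norm_num) h
      _ = 1 / 2 := by rw [Real.rpow_neg_one]; norm_num
  have h2 : (2 : ℝ) ^ (-k) ≤ 1 := by
    calc (2 : ℝ) ^ (-k) ≤ (2 : ℝ) ^ (0 : ℝ) :=
          Real.rpow_le_rpow_of_exponent_le (by norm_num) (by linarith)
      _ = 1 := Real.rpow_zero _
  have hN3 : 1 ≤ N ^ 3 := one_le_pow₀ hN1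
  have hT : T ≤ 8 * (N ^ 3 * Z) := by
    have a1 : (2 : ℝ) ^ (-(1 - 2 * β - η) * k) * T ≤ 1 / 2 * T := mul_le_mul_of_nonneg_right h1 hT0
    have a2 : (2 : ℝ) ^ (-k) * Z ≤ 1 * Z := mul_le_mul_of_nonneg_right h2 hZ0
    have a3 : 1 * Z ≤ N ^ 3 * Z := mul_le_mul_of_nonneg_right hN3 hZ0
    linarith
  have hN3' : N ^ 3 ≤ (2 : ℝ) ^ (3 * β * k) := by
    calc N ^ 3 ≤ ((2 : ℝ) ^ (β * k)) ^ 3 := pow_le_pow_left₀ (by linarith) hNs 3
      _ = (2 : ℝ) ^ (3 * β * k) := by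
          rw [← Real.rpow_natCast, ← Real.rpow_mul (by norm_num)]
          congr 1
          push_cast
          ring
  have hSS : SS ≤ 1 / 8 * ((2 : ℝ) ^ (-(c * k)) * Z) := by
    have a1 : SS ≤ (2 : ℝ) ^ (-(1 - 2 * β - η) * k) * (8 * ((2 : ℝ) ^ (3 * β * k) * Z)) := by
      refine H2.trans (mul_le_mul_of_nonneg_left (hT.trans ?_) (by positivity))
      exact mul_le_mul_of_nonneg_left (mul_le_mul_of_nonneg_right hN3' hZ0) (by norm_num)
    have a2 : (2 : ℝ) ^ (-(1 - 2 * β - η) * k) * (2 : ℝ) ^ (3 * β * k) ≤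
        1 / 64 * (2 : ℝ) ^ (-(c * k)) := by
      rw [← Real.rpow_add (by norm_num)]
      have a3 : (1 / 64 : ℝ) = (2 : ℝ) ^ (-6 : ℝ) := by
        rw [Real.rpow_neg (by norm_num), show (6 : ℝ) = ((6 : ℕ) : ℝ) by norm_num, Real.rpow_natCast]
        norm_num
      rw [a3, ← Real.rpow_add (by norm_num)]
      refine Real.rpow_le_rpow_of_exponent_le (by norm_num) ?_
      have a4 : 1 - 5 * β = c + 2 * η := by rw [hη]; ring
      have a5 : -(1 - 2 * β - η) * k + 3 * β * k = -(c + η) * k := by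
        have : 1 - 2 * β - η - 3 * β = c + η := by linarith
        calc -(1 - 2 * β - η) * k + 3 * β * k = -(1 - 2 * β - η - 3 * β) * k := by ring
          _ = -(c + η) * k := by rw [this]
      rw [a5]
      linarith
    calc SS ≤ (2 : ℝ) ^ (-(1 - 2 * β - η) * k) * (8 * ((2 : ℝ) ^ (3 * β * k) * Z)) := a1
      _ = 8 * (((2 : ℝ) ^ (-(1 - 2 * β - η) * k) * (2 : ℝ) ^ (3 * β * k)) * Z) := by ring
      _ ≤ 8 * ((1 / 64 * (2 : ℝ) ^ (-(c * k))) * Z) :=
          mul_le_mul_of_nonneg_left (mul_le_mul_of_nonneg_right a2 hZ0) (by norm_num)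
      _ = 1 / 8 * ((2 : ℝ) ^ (-(c * k)) * Z) := by ring
  have hSB : SB ≤ 1 / 4 * ((2 : ℝ) ^ (-(c * k)) * Z) := by
    have a2 : (2 : ℝ) ^ (-k) ≤ 1 / 4 * (2 : ℝ) ^ (-(c * k)) := by
      have a3 : (1 / 4 : ℝ) = (2 : ℝ) ^ (-2 : ℝ) := by
        rw [Real.rpow_neg (by norm_num), show (2 : ℝ) = ((2 : ℕ) : ℝ) by norm_num, Real.rpow_natCast]
        norm_num
      rw [a3, ← Real.rpow_add (by norm_num)]
      refine Real.rpow_le_rpow_of_exponent_le (by norm_num) ?_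
      linarith
    calc SB ≤ (2 : ℝ) ^ (-k) * Z := HB
      _ ≤ (1 / 4 * (2 : ℝ) ^ (-(c * k))) * Z := mul_le_mul_of_nonneg_right a2 hZ0
      _ = 1 / 4 * ((2 : ℝ) ^ (-(c * k)) * Z) := by ring
  have h0 : 0 ≤ (2 : ℝ) ^ (-(c * k)) * Z := by positivity
  linarith

/-- (10) for `0 ≤ c` -/
theorem top_aux {β : ℝ} (hβ : 0 < β) (hH : StmtHold β) (hL : StmtLaw) (hNi : StmtNice) (hS : StmtSparse)
    (hCRT : StmtCRT) (hF : StmtFlat) (b₁ c B : ℝ) (hb1 : 1 ≤ b₁) (hbB : b₁ ≤ B) (hc : c < 1 - 5 * β)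
    (hc0 : 0 ≤ c) : M8.StmtXi b₁ β c B := by
  classical
  set η : ℝ := (1 - 5 * β - c) / 2 with hη
  have hη0 : 0 < η := by rw [hη]; linarith
  obtain ⟨k₁, h1⟩ := hH (1 / 100) b₁ B (by norm_num) le_rfl hb1 hbB
  obtain ⟨k₂, h2⟩ := hS (1 / 100) b₁ β B η (by norm_num) (by norm_num) hb1 hβ hbB hη0
  obtain ⟨k₃, h3⟩ := exists_nat_ge (6 / η)
  obtain ⟨k₄, h4⟩ := exists_nat_ge (2 / (1 - c))
  refine ⟨max (max k₁ k₂) (max (max k₃ k₄) 2), fun k hk N hN hp hNs => ?_⟩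
  have hk1 : k₁ ≤ k := le_trans (le_trans (le_max_left _ _) (le_max_left _ _)) hk
  have hk2 : k₂ ≤ k := le_trans (le_trans (le_max_right _ _) (le_max_left _ _)) hk
  have hk3 : k₃ ≤ k := le_trans (le_trans (le_trans (le_max_left _ _) (le_max_left _ _)) (le_max_right _ _)) hk
  have hk4 : k₄ ≤ k := le_trans (le_trans (le_trans (le_max_right _ _) (le_max_left _ _)) (le_max_right _ _)) hk
  have hk6 : 2 ≤ k := le_trans (le_trans (le_max_right _ _) (le_max_right _ _)) hk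
  have hk0 : 0 < k := by omega
  have hkR : (0 : ℝ) < k := by exact_mod_cast hk0
  have e3 : 6 ≤ η * k := by
    have : 6 / η ≤ k := h3.trans (by exact_mod_cast hk3)
    rw [div_le_iff₀ hη0] at this
    linarith
  have hc1 : 0 < 1 - c := by linarith
  have e4 : 2 ≤ (1 - c) * k := by
    have : 2 / (1 - c) ≤ k := h4.trans (by exact_mod_cast hk4)
    rw [div_le_iff₀ hc1] at this
    linarith
  have hPp : ∀ p ∈ N.primeFactors, p.Prime := fun p hp => Nat.prime_of_mem_primeFactors hp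
  have hprod : (∏ p ∈ N.primeFactors, (p : ℝ)) = N := by
    rw [← Nat.cast_prod, Nat.prod_primeFactors_of_squarefree hN]
  have hAdm : Adm b₁ β B k N.primeFactors :=
    ⟨hPp, fun p hpp => (hp p (hPp p hpp) (Nat.dvd_of_mem_primeFactors hpp)).1,
      fun p hpp => (hp p (hPp p hpp) (Nat.dvd_of_mem_primeFactors hpp)).2, by rw [hprod]; exact hNs⟩
  have hN1 : (1 : ℝ) ≤ N := by exact_mod_cast Nat.one_le_iff_ne_zero.2 hN.ne_zero
  have H1 := h1 k hk1 N.primeFactors hAdm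
  have H2 := h2 k hk2 N.primeFactors hAdm
  have H3 := hNi k hk0 N.primeFactors hPp ((k : ℝ) ^ (1 - 1 / 100 / 4 : ℝ))
  rw [hprod] at H3
  have HB := bad_le hL hk0 N.primeFactors ((k : ℝ) ^ (1 - 1 / 100 / 4 : ℝ)) H1
  have HT := total_le (k := k) N.primeFactors ((k : ℝ) ^ (1 - 1 / 100 / 4 : ℝ))
  have HM := nonflat_le hCRT hF hk0 hN ((k : ℝ) ^ (1 - 1 / 100 / 4 : ℝ))
  refine HM.trans ?_
  exact arith hη hc0 hβ hkR e3 e4 (by exact_mod_cast hk6) hN1 hNs (by positivity)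
    (Finset.sum_nonneg fun ω _ => W_nonneg _ _) HB H2 HT H3

/-- **(10) TOP** -/
theorem top {β : ℝ} (hβ : 0 < β) (hβ5 : β < 1 / 5) (hH : StmtHold β) (hL : StmtLaw) (hNi : StmtNice)
    (hS : StmtSparse) (hCRT : StmtCRT) (hF : StmtFlat) : StmtTop β := by
  intro b₁ c B hb1 hbB hc
  obtain ⟨k₀, h⟩ := top_aux hβ hH hL hNi hS hCRT hF b₁ (max c 0) B hb1 hbB
    (max_lt hc (by linarith)) (le_max_right _ _)
  refine ⟨k₀, fun k hk N hN hp hNs => (h k hk N hN hp hNs).trans ?_⟩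
  refine mul_le_mul_of_nonneg_right ?_ (by positivity)
  refine Real.rpow_le_rpow_of_exponent_le (by norm_num) ?_
  have : c * k ≤ max c 0 * k := mul_le_mul_of_nonneg_right (le_max_left _ _) (Nat.cast_nonneg _)
  linarith

end Vale.Agent.P160.Half.M67.H737
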