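import Vale.Agent.P160.Half.Labels3

/-! # P160, half rate, gap (G): torsion of the cokernel (helper984)

`card_tor`: the `p^e`-torsion of the cokernel of a nonsingular integer matrix of size `n` has at most
`p ^ (e * (n - rank mod p))` elements. -/

open Finset Matrix

namespace Vale.Agent.P160.Half.G.Tor984

open Vale.Agent.P160.Half.Labels

theorem card_ker_range {A B : Type*} [AddCommGroup A] [AddCommGroup B] (f : A →+ B) :
    Nat.card A = Nat.card f.range * Nat.card f.ker := by
  rw [AddSubgroup.card_eq_card_quotient_mul_card_addSubgroup f.ker]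
  congr 1
  exact Nat.card_congr (QuotientAddGroup.quotientKerEquivRange f).toEquiv

/-- the torsion subgroup -/
def tor (G : Type*) [AddCommGroup G] (m : ℕ) : AddSubgroup G := (nsmulAddMonoidHom m : G →+ G).ker

theorem mem_tor {G : Type*} [AddCommGroup G] {m : ℕ} {x : G} : x ∈ tor G m ↔ m • x = 0 := Iff.rfl

theorem card_tor_succ {G : Type*} [AddCommGroup G] [Finite G] (p e : ℕ) :
    Nat.card (tor G (p ^ (e + 1))) ≤ Nat.card (tor G (p ^ e)) * Nat.card (tor G p) := by
  let f : tor G (p ^ (e + 1)) →+ G := (nsmulAddMonoidHom p).comp (tor G (p ^ (e + 1))).subtype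
  have hf : ∀ x, f x = p • (x : G) := fun x => rfl
  rw [card_ker_range f]
  refine Nat.mul_le_mul ?_ ?_
  · refine Nat.card_le_card_of_injective
      (fun y : f.range => (⟨(y : G), ?_⟩ : tor G (p ^ e))) ?_
    · obtain ⟨x, hx⟩ := y.2
      rw [mem_tor, ← hx, hf, ← mul_smul, ← pow_succ]
      exact x.2
    · intro y y' h
      exact Subtype.ext (congrArg (fun z : tor G (p ^ e) => (z : G)) h)
  · refine Nat.card_le_card_of_injective
      (fun y : f.ker => (⟨((y : tor G (p ^ (e + 1))) : G), ?_⟩ : tor G p)) ?_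
    · have h1 : f y = 0 := y.2
      rw [mem_tor, ← hf]
      exact h1
    · intro y y' h
      exact Subtype.ext (Subtype.ext (congrArg (fun z : tor G p => (z : G)) h))

theorem card_tor_le {G : Type*} [AddCommGroup G] [Finite G] (p e : ℕ) :
    Nat.card (tor G (p ^ e)) ≤ Nat.card (tor G p) ^ e := by
  induction e with
  | zero =>
    rw [pow_zero, pow_zero]
    have : Subsingleton (tor G 1) := ⟨fun x y => Subtype.ext (by
      have hx : 1 • (x : G) = 0 := x.2
      have hy : 1 • (y : G) = 0 := y.2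
      rw [one_smul] at hx hy
      rw [hx, hy])⟩
    exact Finite.card_le_one_iff_subsingleton.2 this
  | succ e ih =>
    refine (card_tor_succ p e).trans ?_
    rw [pow_succ]
    exact Nat.mul_le_mul_right _ ih

/-- the `p`-torsion is at most the cokernel modulo `p` -/
theorem card_tor_one {n : ℕ} (M : Matrix (Fin n) (Fin n) ℤ) [Finite (Coker M)] {p : ℕ} (hp : p.Prime) :
    Nat.card (tor (Coker M) p) ≤ p ^ (n - (M.map (Int.cast : ℤ → ZMod p)).rank) := by
  classical
  have : Fact p.Prime := ⟨hp⟩
  set Mp := M.map (Int.cast : ℤ → ZMod p) with hMp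
  let Q := (Fin n → ZMod p) ⧸ LinearMap.range Mp.mulVecLin
  let c : (Fin n → ℤ) →+ (Fin n → ZMod p) := AddMonoidHom.mk' (fun x i => (x i : ZMod p)) (by
    intro x y
    funext i
    simp)
  have hc : ∀ x i, c x i = (x i : ZMod p) := fun x i => rfl
  have hcM : ∀ z, c (M *ᵥ z) = Mp *ᵥ c z := by
    intro z
    funext i
    rw [hc]
    simp only [Matrix.mulVec, dotProduct, hMp, Matrix.map_apply, hc]
    push_cast
    rfl
  let φ : (Fin n → ℤ) →+ Q := (Submodule.mkQ (LinearMap.range Mp.mulVecLin)).toAddMonoidHom.comp c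
  have hφ : ∀ x, φ x = Submodule.Quotient.mk (c x) := fun x => rfl
  let ψ : Coker M →+ Q := QuotientAddGroup.lift (lat M) φ (by
    intro x hx
    obtain ⟨z, rfl⟩ := (mem_lat M).1 hx
    rw [AddMonoidHom.mem_ker, hφ, hcM, Submodule.Quotient.mk_eq_zero]
    exact ⟨c z, rfl⟩)
  have hker : ∀ x ∈ ψ.ker, x ∈ (nsmulAddMonoidHom p : Coker M →+ Coker M).range := by
    intro x hx
    obtain ⟨x, rfl⟩ := QuotientAddGroup.mk_surjective x
    have h1 : φ x = 0 := hx
    rw [hφ, Submodule.Quotient.mk_eq_zero] at h1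
    obtain ⟨z', hz'⟩ := h1
    have h2 : ∀ i, ∃ z : ℤ, (z : ZMod p) = z' i := fun i => ⟨(z' i).val, by simp⟩
    choose z hz using h2
    have h3 : c z = z' := by
      funext i
      rw [hc, hz]
    have h4 : ∀ i, (p : ℤ) ∣ x i - (M *ᵥ z) i := by
      intro i
      rw [← ZMod.intCast_zmod_eq_zero_iff_dvd, Int.cast_sub, sub_eq_zero]
      have h5 := congrFun hz' i
      have h6 := congrFun (hcM z) i
      rw [hc] at h6
      rw [h6, h3]
      exact h5.symm
    choose w hw using h4
    refine ⟨QuotientAddGroup.mk w, ?_⟩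
    show p • (QuotientAddGroup.mk w : Coker M) = QuotientAddGroup.mk x
    rw [← QuotientAddGroup.mk_nsmul, QuotientAddGroup.eq, mem_lat]
    refine ⟨z, ?_⟩
    funext i
    have := hw i
    show (M *ᵥ z) i = -(p • w) i + x i
    have h8 : (p • w) i = (p : ℤ) * w i := by simp
    rw [h8]
    linarith
  have h1 := card_ker_range ψ
  have h2 := card_ker_range (nsmulAddMonoidHom p : Coker M →+ Coker M)
  have hQ : Nat.card Q = p ^ (n - Mp.rank) := by
    rw [Nat.card_eq_fintype_card, Module.card_eq_pow_finrank (K := ZMod p), ZMod.card]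
    congr 1
    have h3 := Submodule.finrank_quotient_add_finrank (LinearMap.range Mp.mulVecLin)
    rw [Module.finrank_fintype_fun_eq_card, Fintype.card_fin] at h3
    have h4 : Module.finrank (ZMod p) (LinearMap.range Mp.mulVecLin) = Mp.rank := rfl
    have h5 : Module.finrank (ZMod p) Q + Mp.rank = n := by rw [← h4]; exact h3
    omega
  have h3 : Nat.card ψ.range ≤ Nat.card Q := Nat.card_le_card_of_injective _ Subtype.val_injective
  have h4 : Nat.card ψ.ker ≤ Nat.card (nsmulAddMonoidHom p : Coker M →+ Coker M).range :=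
    Nat.card_le_card_of_injective (fun x => ⟨x.1, hker x.1 x.2⟩) (fun x y h => Subtype.ext (by
      simpa using congrArg Subtype.val h))
  have h5 : 0 < Nat.card (nsmulAddMonoidHom p : Coker M →+ Coker M).range := Nat.card_pos
  have h6 : Nat.card (nsmulAddMonoidHom p : Coker M →+ Coker M).range * Nat.card (tor (Coker M) p) ≤
      Nat.card (nsmulAddMonoidHom p : Coker M →+ Coker M).range * Nat.card Q := by
    calc _ = Nat.card (Coker M) := h2.symm
      _ = Nat.card ψ.range * Nat.card ψ.ker := h1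
      _ ≤ Nat.card Q * Nat.card (nsmulAddMonoidHom p : Coker M →+ Coker M).range :=
        Nat.mul_le_mul h3 h4
      _ = _ := mul_comm _ _
  rw [← hQ]
  exact Nat.le_of_mul_le_mul_left h6 h5

/-- **TOR** -/
theorem card_tor {n : ℕ} (M : Matrix (Fin n) (Fin n) ℤ) (hdet : M.det ≠ 0) {p : ℕ} (hp : p.Prime)
    (e : ℕ) : Nat.card {x : Coker M // p ^ e • x = 0} ≤
      p ^ (e * (n - (M.map (Int.cast : ℤ → ZMod p)).rank)) := by
  have hfin : Finite (Coker M) := by
    apply Nat.finite_of_card_ne_zero
    rw [card_coker M hdet]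
    exact Int.natAbs_ne_zero.2 hdet
  have h1 : Nat.card {x : Coker M // p ^ e • x = 0} = Nat.card (tor (Coker M) (p ^ e)) := rfl
  rw [h1, mul_comm, pow_mul]
  exact (card_tor_le p e).trans (Nat.pow_le_pow_left (card_tor_one M hp) e)

end Vale.Agent.P160.Half.G.Tor984
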