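import Vale.Agent.P160.Half.AStmt
import Vale.Agent.P160.Half.GStmt

/-! # P160, half rate, block TYPES of the gap (G): note 10294 (1), only prime relations. -/

set_option linter.unusedVariables false
set_option linter.unusedSectionVars false

namespace Vale.Agent.P160.Half.Ty576

open Finset Matrix Vale.Agent.P160.Half Vale.Agent.P160.Half.A Vale.Agent.P160.Half.G

/-- modular relation: modulus, positions, coefficients of the positions, coefficients of the columns -/
abbrev Rlt (n l M t K : ℕ) := Fin K × (Fin t → Fin n) × (Fin t → Fin K) × (Co l M → Fin K)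

variable {n l M t K : ℕ}

/-- the relation holds for the row `(x, f)` -/
def Holds (r : Rlt n l M t K) (x : Fin n → Bool) (f : Co l M → Bool) : Prop :=
  (∑ s, (((r.2.2.1 s : Fin K) : ℕ) : ZMod (r.1 : ℕ)) * (if x (r.2.1 s) then 1 else 0)) +
    ∑ q, (((r.2.2.2 q : Fin K) : ℕ) : ZMod (r.1 : ℕ)) * (if f q then 1 else 0) = 0

/-- the linear part kills the integer vector `z` -/
def Kills (r : Rlt n l M t K) (z : Co l M → ℤ) : Prop :=
  ∑ q, (((r.2.2.2 q : Fin K) : ℕ) : ZMod (r.1 : ℕ)) * ((z q : ℤ) : ZMod (r.1 : ℕ)) = 0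

/-- generators -/
def Gs {m : ℕ} (rs : Fin m → Rlt n l M t K) : Set (Co l M → ℤ) :=
  {z | (∀ q, |z q| ≤ 1) ∧ ∑ q, cf q * z q = 0 ∧ ∀ i, Kills (rs i) z}

/-- integer vectors as rational vectors -/
def toQ {κ : Type*} (z : κ → ℤ) : κ → ℚ := fun q => ((z q : ℤ) : ℚ)

/-- the subspace of the type -/
noncomputable def Wof {m : ℕ} (rs : Fin m → Rlt n l M t K) : Submodule ℚ (Co l M → ℚ) :=
  Submodule.span ℚ (toQ '' Gs rs)

/-- information sets exist -/
theorem exists_info {κ : Type*} [Fintype κ] [DecidableEq κ] (W : Submodule ℚ (κ → ℚ)) :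
    ∃ I : Finset κ, I.card = Module.finrank ℚ W ∧ ∀ w ∈ W, (∀ q ∈ I, w q = 0) → w = 0 := by
  classical
  let P : ℕ → Prop := fun k => ∃ I : Finset κ, I.card = k ∧ ∀ w ∈ W, (∀ q ∈ I, w q = 0) → w = 0
  have hP : ∃ k, P k := ⟨_, univ, rfl, fun w _ h => funext fun q => h q (mem_univ q)⟩
  obtain ⟨I, hI, hinf⟩ := Nat.find_spec hP
  refine ⟨I, ?_, hinf⟩
  -- injectivity gives `finrank ≤ card`
  have h1 : Module.finrank ℚ W ≤ I.card := by
    let φ : W →ₗ[ℚ] (I → ℚ) := LinearMap.pi fun q => (LinearMap.proj (q : κ)).comp W.subtype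
    have hφ : Function.Injective φ := by
      rw [← LinearMap.ker_eq_bot, LinearMap.ker_eq_bot']
      intro w hw
      have h2 : (w : κ → ℚ) = 0 := hinf w w.2 fun q hq => congrFun hw ⟨q, hq⟩
      exact Subtype.ext h2
    have h3 := LinearMap.finrank_le_finrank_of_injective hφ
    simpa using h3
  -- minimality gives independent vectors
  have h2 : ∀ q : I, ∃ w : W, (∀ q' ∈ I, q' ≠ (q : κ) → (w : κ → ℚ) q' = 0) ∧ (w : κ → ℚ) q ≠ 0 := by
    intro q
    have h3 : ¬ P (I.erase q).card := by
      refine Nat.find_min hP ?_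
      rw [← hI, card_erase_of_mem q.2]
      have := card_pos.2 ⟨(q : κ), q.2⟩
      omega
    by_contra hcon
    push Not at hcon
    refine h3 ⟨I.erase q, rfl, fun w hw h0 => ?_⟩
    have h4 := hcon ⟨w, hw⟩ fun q' hq' hne => h0 q' (mem_erase.2 ⟨hne, hq'⟩)
    refine hinf w hw fun q' hq' => ?_
    by_cases hne : q' = q
    · rw [hne]; exact h4
    · exact h0 q' (mem_erase.2 ⟨hne, hq'⟩)
  choose w hw1 hw2 using h2
  have h3 : LinearIndependent ℚ w := by
    rw [Fintype.linearIndependent_iff]
    intro g hg q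
    have h4 := congrArg (fun v : W => (v : κ → ℚ) q) hg
    simp only [Submodule.coe_sum, Submodule.coe_smul, Finset.sum_apply, Pi.smul_apply, smul_eq_mul,
      ZeroMemClass.coe_zero, Pi.zero_apply] at h4
    rw [Finset.sum_eq_single q] at h4
    · exact (mul_eq_zero.1 h4).resolve_right (hw2 q)
    · intro q' _ hne
      rw [hw1 q' q q.2 fun h => hne (Subtype.ext h.symm), mul_zero]
    · intro h; exact absurd (mem_univ q) h
  have h4 := h3.fintype_card_le_finrank
  rw [Fintype.card_coe] at h4
  omega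

/-- a chosen information set -/
noncomputable def Iof (W : Submodule ℚ (Co l M → ℚ)) : Finset (Co l M) := (exists_info W).choose

theorem Iof_card (W : Submodule ℚ (Co l M → ℚ)) : (Iof W).card = Module.finrank ℚ W :=
  (exists_info W).choose_spec.1

theorem Iof_inf (W : Submodule ℚ (Co l M → ℚ)) : ∀ w ∈ W, (∀ q ∈ Iof W, w q = 0) → w = 0 :=
  (exists_info W).choose_spec.2

/-- row condition -/
def RowOk {m : ℕ} (rs : Fin m → Rlt n l M t K) (x : Fin n → Bool) (f : Co l M → Bool) : Prop :=
  (∑ q : Co l M, cf q * (if f q then 1 else 0) = 0) ∧ ∀ i, Holds (rs i) x f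

/-- the special positions -/
def Sof {m : ℕ} (rs : Fin m → Rlt n l M t K) : Finset (Fin n) :=
  univ.biUnion fun i => univ.image (rs i).2.1

theorem card_Sof {m : ℕ} (rs : Fin m → Rlt n l M t K) : (Sof rs).card ≤ m * t := by
  unfold Sof
  refine card_biUnion_le.trans ?_
  refine (sum_le_sum fun i _ => card_image_le).trans ?_
  simp

theorem RowOk.congr {m : ℕ} {rs : Fin m → Rlt n l M t K} {x x' : Fin n → Bool} {f : Co l M → Bool}
    (h : ∀ i ∈ Sof rs, x i = x' i) : RowOk rs x f ↔ RowOk rs x' f := by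
  unfold RowOk Holds
  have h1 : ∀ i s, x ((rs i).2.1 s) = x' ((rs i).2.1 s) := by
    intro i s
    refine h _ ?_
    unfold Sof
    exact mem_biUnion.2 ⟨i, mem_univ i, mem_image_of_mem _ (mem_univ s)⟩
  simp only [h1]

open Classical in
/-- the translate -/
noncomputable def vof {m : ℕ} (rs : Fin m → Rlt n l M t K) (x : Fin n → Bool) : Co l M → ℚ :=
  if h : ∃ f, RowOk rs x f then bq h.choose else 0

theorem vof_congr {m : ℕ} {rs : Fin m → Rlt n l M t K} {x x' : Fin n → Bool}
    (h : ∀ i ∈ Sof rs, x i = x' i) : vof rs x = vof rs x' := by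
  have h1 : RowOk rs x = RowOk rs x' := funext fun f => propext (RowOk.congr h)
  unfold vof
  rw [h1]

/-- the type of a tuple of relations -/
noncomputable def tyOf {m : ℕ} (rs : Fin m → Rlt n l M t K) : Ty n l M where
  W := Wof rs
  I := Iof (Wof rs)
  S := Sof rs
  v := vof rs

theorem tyOf_ok {m : ℕ} (rs : Fin m → Rlt n l M t K) : (tyOf rs).Ok where
  rel := by
    intro w hw
    change w ∈ Wof rs at hw
    unfold Wof at hw
    refine Submodule.span_induction ?_ ?_ ?_ ?_ hw
    · rintro _ ⟨z, hz, rfl⟩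
      have h1 := hz.2.1
      unfold toQ
      exact_mod_cast h1
    · simp
    · intro x y _ _ hx hy
      simp only [Pi.add_apply, mul_add, sum_add_distrib, hx, hy, add_zero]
    · intro c x _ hx
      simp only [Pi.smul_apply, smul_eq_mul]
      have : ∀ q : Co l M, (cf q : ℚ) * (c * x q) = c * ((cf q : ℚ) * x q) := fun q => by ring
      simp only [this, ← mul_sum, hx, mul_zero]
  card := Iof_card _
  info := Iof_inf _
  dep := fun x x' h => vof_congr h

/-- fits -/
theorem fits {m : ℕ} (rs : Fin m → Rlt n l M t K) (E : Finset (Fin n)) (b : Bits n)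
    (F : Fin n → Co l M → Bool) (h : ∀ j ∉ E, RowOk rs (fun i => b s(j, i)) (F j)) :
    (tyOf rs).Fits E b F := by
  classical
  intro j hj
  change bq (F j) - vof rs (fun i => b s(j, i)) ∈ Wof rs
  have hex : ∃ f, RowOk rs (fun i => b s(j, i)) f := ⟨F j, h j hj⟩
  unfold vof
  rw [dif_pos hex]
  set f := hex.choose with hf
  have hf1 : RowOk rs (fun i => b s(j, i)) f := hex.choose_spec
  have hF := h j hj
  refine Submodule.subset_span ⟨fun q => (if F j q then 1 else 0) - (if f q then 1 else 0), ⟨?_, ?_, ?_⟩, ?_⟩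
  · intro q
    beta_reduce
    split_ifs <;> simp
  · simp only [mul_sub, sum_sub_distrib]
    rw [hF.1, hf1.1, sub_zero]
  · intro i
    have h1 := hF.2 i
    have h2 := hf1.2 i
    unfold Holds at h1 h2
    unfold Kills
    have h3 : ∀ q, (((rs i).2.2.2 q : Fin K) : ℕ) * (((((if F j q then (1:ℤ) else 0) -
        (if f q then 1 else 0)) : ℤ)) : ZMod ((rs i).1 : ℕ)) =
        (((rs i).2.2.2 q : Fin K) : ℕ) * (if F j q then (1 : ZMod ((rs i).1 : ℕ)) else 0) -
        (((rs i).2.2.2 q : Fin K) : ℕ) * (if f q then (1 : ZMod ((rs i).1 : ℕ)) else 0) := by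
      intro q
      split_ifs <;> simp
    simp only [h3, sum_sub_distrib]
    have h4 := h1.trans h2.symm
    have h5 := add_left_cancel h4
    rw [h5, sub_self]
  · funext q
    unfold toQ bq
    simp only [Pi.sub_apply]
    split_ifs <;> simp

/-- the set of all types -/
noncomputable def TT (n l M t K m : ℕ) : Finset (Ty n l M) := by
  classical exact (univ : Finset (Fin m → Rlt n l M t K)).image tyOf

theorem card_TT (n l M t K m : ℕ) :
    (TT n l M t K m).card ≤ (K * (n ^ t * (K ^ t * K ^ Fintype.card (Co l M)))) ^ m := by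
  classical
  unfold TT
  refine card_image_le.trans ?_
  rw [card_univ, Fintype.card_fun]
  simp only [Fintype.card_prod, Fintype.card_fin, Fintype.card_fun]
  simp

theorem mem_TT {m : ℕ} (rs : Fin m → Rlt n l M t K) : tyOf rs ∈ TT n l M t K m := by
  classical
  unfold TT
  exact mem_image_of_mem _ (mem_univ _)

/-- a word with `c ≠ 0` modulo a large prime lowers the dimension -/
theorem strict {m : ℕ} (rs : Fin m → Rlt n l M t K) (p : ℕ) [Fact p.Prime]
    (hp : (Fintype.card (Co l M)).factorial < p) (c : Iof (Wof rs) → ZMod p) (hc : c ≠ 0)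
    (G' : Set (Co l M → ℤ)) (hG' : G' ⊆ Gs rs)
    (hk : ∀ z ∈ G', ∑ q : Iof (Wof rs), c q * ((z q : ℤ) : ZMod p) = 0) :
    Module.finrank ℚ (Submodule.span ℚ (toQ '' G')) < Module.finrank ℚ (Wof rs) := by
  classical
  by_contra hcon
  push Not at hcon
  have hle : Submodule.span ℚ (toQ '' G') ≤ Wof rs := Submodule.span_mono (Set.image_mono hG')
  have heq : Submodule.span ℚ (toQ '' G') = Wof rs := Submodule.eq_of_le_of_finrank_le hle hcon
  obtain ⟨B, hB1, hB2, hB3⟩ := exists_linearIndependent ℚ (toQ '' G')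
  have hfin : Finite B := hB3.finite
  have : Fintype B := Fintype.ofFinite B
  have hcard : Fintype.card B = Fintype.card (Iof (Wof rs)) := by
    rw [Fintype.card_coe, Iof_card, ← heq, ← hB2, finrank_span_set_eq_card hB3, Set.toFinset_card]
  let e : Iof (Wof rs) ≃ B := Fintype.equivOfCardEq hcard.symm
  have hz : ∀ i : Iof (Wof rs), ∃ z ∈ G', toQ z = ((e i : B) : Co l M → ℚ) := fun i => hB1 (e i).2
  choose z hz1 hz2 using hz
  set Z : Matrix (Iof (Wof rs)) (Iof (Wof rs)) ℤ := fun i q => z i q with hZ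
  have hdet : Z.det ≠ 0 := by
    intro h0
    have h1 : (Z.map (Int.cast : ℤ → ℚ)).det = 0 := by
      have := congrArg (Int.cast : ℤ → ℚ) h0
      rw [Int.cast_zero] at this
      rw [← this]
      exact ((Int.castRingHom ℚ).map_det Z).symm
    obtain ⟨v, hv0, hv⟩ := Matrix.exists_vecMul_eq_zero_iff.2 h1
    have hli : LinearIndependent ℚ (fun i => ((e i : B) : Co l M → ℚ)) := hB3.comp e e.injective
    rw [Fintype.linearIndependent_iff] at hli
    refine hv0 (funext fun i => hli v ?_ i)
    have hmem : ∑ i, v i • ((e i : B) : Co l M → ℚ) ∈ Wof rs := by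
      refine Submodule.sum_mem _ fun i _ => Submodule.smul_mem _ _ ?_
      exact hle (Submodule.subset_span (hB1 (e i).2))
    refine Iof_inf (Wof rs) _ hmem fun q hq => ?_
    have h2 := congrFun hv ⟨q, hq⟩
    rw [Finset.sum_apply]
    simp only [Matrix.vecMul, dotProduct, hZ, Pi.zero_apply] at h2
    rw [← h2]
    refine Finset.sum_congr rfl fun i _ => ?_
    rw [Pi.smul_apply, smul_eq_mul, ← hz2 i]
    rfl
  have hmod : ((Z.det : ℤ) : ZMod p) = 0 := by
    have h1 : ((Z.map (Int.cast : ℤ → ZMod p))).det = 0 := by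
      refine Matrix.exists_mulVec_eq_zero_iff.1 ⟨c, hc, ?_⟩
      funext i
      have h2 := hk (z i) (hz1 i)
      simp only [Matrix.mulVec, dotProduct, hZ, Pi.zero_apply]
      rw [← h2]
      exact Finset.sum_congr rfl fun q _ => mul_comm _ _
    rw [← h1]
    exact (Int.castRingHom (ZMod p)).map_det Z
  have hdvd : (p : ℤ) ∣ Z.det := (ZMod.intCast_zmod_eq_zero_iff_dvd _ _).1 hmod
  have hbd : |Z.det| ≤ (Fintype.card (Iof (Wof rs))).factorial := by
    have h1 := Matrix.det_le (A := Z) (abv := AbsoluteValue.abs) (x := 1) fun i q => by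
      have := (hG' (hz1 i)).1 q
      exact this
    simpa using h1
  have hbd2 : (Fintype.card (Iof (Wof rs))).factorial ≤ (Fintype.card (Co l M)).factorial := by
    refine Nat.factorial_le ?_
    rw [Fintype.card_coe]
    exact card_le_univ _
  refine hdet (Int.eq_zero_of_abs_lt_dvd hdvd ?_)
  refine lt_of_le_of_lt hbd ?_
  exact_mod_cast lt_of_le_of_lt hbd2 hp

/-- exit condition of a tuple of relations -/
def Exit {m : ℕ} (rs : Fin m → Rlt n l M t K) (E : Finset (Fin n)) (b : Bits n)
    (F : Fin n → Co l M → Bool) (y : ℕ) : Prop :=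
  ∀ p, p.Prime → y ≤ p → p < K → ∀ (g : Fin n → ZMod p) (c : Iof (Wof rs) → ZMod p),
    (∀ j ∉ E, ∑ i, (if b s(j, i) then 1 else 0) * g i +
      ∑ q : Iof (Wof rs), (if F j q then 1 else 0) * c q = 0) → c ≠ 0 →
    t < (univ.filter fun i => g i ≠ 0).card

open Classical in
/-- the relation of a sparse word -/
theorem exists_rel (hn : 0 < n) {p : ℕ} [Fact p.Prime] (hpK : p < K) (I : Finset (Co l M))
    (g : Fin n → ZMod p) (c : I → ZMod p) (hg : (univ.filter fun i => g i ≠ 0).card ≤ t) :
    ∃ r : Rlt n l M t K, (r.1 : ℕ) = p ∧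
      (∀ x f, (∑ i, (if x i then 1 else 0) * g i + ∑ q : I, (if f q then 1 else 0) * c q = 0) →
        Holds r x f) ∧
      ∀ z : Co l M → ℤ, Kills r z → ∑ q : I, c q * ((z q : ℤ) : ZMod p) = 0 := by
  have hK : 0 < K := by omega
  have hval : ∀ x : ZMod p, x.val < K := fun x => (ZMod.val_lt x).trans hpK
  set A := univ.filter fun i => g i ≠ 0 with hA
  obtain ⟨ι⟩ : Nonempty (A ↪ Fin t) := by
    rw [Function.Embedding.nonempty_iff_card_le]
    simpa using hg
  let S : Fin t → Fin n := fun s => if h : ∃ i : A, ι i = s then ((h.choose : A) : Fin n) else ⟨0, hn⟩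
  let G : Fin t → Fin K := fun s => if h : ∃ i : A, ι i = s then ⟨(g (h.choose : A)).val, hval _⟩ else ⟨0, hK⟩
  let C : Co l M → Fin K := fun q => if h : q ∈ I then ⟨(c ⟨q, h⟩).val, hval _⟩ else ⟨0, hK⟩
  refine ⟨(⟨p, hpK⟩, S, G, C), rfl, ?_, ?_⟩
  · intro x f h
    change (∑ s, (((G s : Fin K) : ℕ) : ZMod p) * (if x (S s) then 1 else 0)) +
      ∑ q, (((C q : Fin K) : ℕ) : ZMod p) * (if f q then 1 else 0) = 0
    have h1 : ∑ s, (((G s : Fin K) : ℕ) : ZMod p) * (if x (S s) then 1 else 0) =
        ∑ i, (if x i then 1 else 0) * g i := by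
      have h2 : ∑ i : A, (if x i then 1 else 0) * g i =
          ∑ s, (((G s : Fin K) : ℕ) : ZMod p) * (if x (S s) then 1 else 0) := by
        refine Fintype.sum_of_injective ι ι.injective _ _ ?_ ?_
        · intro s hs
          have hs' : ¬ ∃ i : A, ι i = s := hs
          simp only [G, dif_neg hs', Nat.cast_zero, zero_mul]
        · intro i
          have hs' : ∃ i' : A, ι i' = ι i := ⟨i, rfl⟩
          have hch : hs'.choose = i := ι.injective hs'.choose_spec
          simp only [G, S, dif_pos hs', hch]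
          rw [ZMod.natCast_zmod_val, mul_comm]
      rw [← h2]
      rw [Finset.sum_coe_sort A fun i => (if x i then (1 : ZMod p) else 0) * g i]
      refine Finset.sum_subset (subset_univ _) fun i _ hi => ?_
      have : g i = 0 := by
        by_contra hne
        exact hi (mem_filter.2 ⟨mem_univ _, hne⟩)
      rw [this, mul_zero]
    have h3 : ∑ q, (((C q : Fin K) : ℕ) : ZMod p) * (if f q then 1 else 0) =
        ∑ q : I, (if f q then 1 else 0) * c q := by
      have h4 : ∑ q : I, (if f q then 1 else 0) * c q =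
          ∑ q : I, (((C q : Fin K) : ℕ) : ZMod p) * (if f q then 1 else 0) := by
        refine Finset.sum_congr rfl fun q _ => ?_
        have hq : (q : Co l M) ∈ I := q.2
        simp only [C, dif_pos hq]
        rw [ZMod.natCast_zmod_val, mul_comm]
      rw [h4, Finset.sum_coe_sort I fun q => (((C q : Fin K) : ℕ) : ZMod p) * (if f q then 1 else 0)]
      symm
      refine Finset.sum_subset (subset_univ _) fun q _ hq => ?_
      simp only [C, dif_neg hq, Nat.cast_zero, zero_mul]
    rw [h1, h3]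
    exact h
  · intro z hz
    have hz' : ∑ q, (((C q : Fin K) : ℕ) : ZMod p) * ((z q : ℤ) : ZMod p) = 0 := hz
    rw [← hz']
    have h4 : ∑ q : I, c q * ((z q : ℤ) : ZMod p) =
        ∑ q : I, (((C q : Fin K) : ℕ) : ZMod p) * ((z q : ℤ) : ZMod p) := by
      refine Finset.sum_congr rfl fun q _ => ?_
      have hq : (q : Co l M) ∈ I := q.2
      simp only [C, dif_pos hq]
      rw [ZMod.natCast_zmod_val]
    rw [h4, Finset.sum_coe_sort I fun q => (((C q : Fin K) : ℕ) : ZMod p) * ((z q : ℤ) : ZMod p)]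
    refine Finset.sum_subset (subset_univ _) fun q _ hq => ?_
    simp only [C, dif_neg hq, Nat.cast_zero, zero_mul]

/-- trivial relation -/
def triv (hn : 0 < n) (hK : 0 < K) : Rlt n l M t K :=
  (⟨0, hK⟩, fun _ => ⟨0, hn⟩, fun _ => ⟨0, hK⟩, fun _ => ⟨0, hK⟩)

theorem triv_kills (hn : 0 < n) (hK : 0 < K) (z : Co l M → ℤ) :
    Kills (triv hn hK : Rlt n l M t K) z := by
  unfold Kills triv
  simp

theorem triv_holds (hn : 0 < n) (hK : 0 < K) (x : Fin n → Bool) (f : Co l M → Bool) :
    Holds (triv hn hK : Rlt n l M t K) x f := by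
  unfold Holds triv
  simp

/-- greedy choice of the relations -/
theorem exists_exit (hn : 0 < n) (hK : 0 < K) (y : ℕ) (hy : (Fintype.card (Co l M)).factorial < y)
    (E : Finset (Fin n)) (b : Bits n) (F : Fin n → Co l M → Bool) (hrel : Rel E F) :
    ∃ rs : Fin (Fintype.card (Co l M)) → Rlt n l M t K,
      (∀ j ∉ E, RowOk rs (fun i => b s(j, i)) (F j)) ∧ Exit rs E b F y := by
  classical
  set m := Fintype.card (Co l M) with hm
  have key : ∀ d k : ℕ, ∀ rs : Fin m → Rlt n l M t K, Module.finrank ℚ (Wof rs) ≤ d →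
      k + Module.finrank ℚ (Wof rs) ≤ m → (∀ i : Fin m, k ≤ i → rs i = triv hn hK) →
      (∀ j ∉ E, RowOk rs (fun i => b s(j, i)) (F j)) →
      ∃ rs : Fin m → Rlt n l M t K, (∀ j ∉ E, RowOk rs (fun i => b s(j, i)) (F j)) ∧ Exit rs E b F y := by
    intro d
    induction d with
    | zero =>
      intro k rs hd _ _ hrow
      refine ⟨rs, hrow, ?_⟩
      intro p hp hyp hpK g c hw hc
      exfalso
      have h0 : (Iof (Wof rs)).card = 0 := by rw [Iof_card]; omega
      refine hc (funext fun q => ?_)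
      have := card_pos.2 ⟨(q : Co l M), q.2⟩
      omega
    | succ d ih =>
      intro k rs hd hk htriv hrow
      by_cases hex : Exit rs E b F y
      · exact ⟨rs, hrow, hex⟩
      unfold Exit at hex
      push Not at hex
      obtain ⟨p, hp, hyp, hpK, g, c, hw, hc, hcard⟩ := hex
      have : Fact p.Prime := ⟨hp⟩
      obtain ⟨r, hr1, hr2, hr3⟩ := exists_rel hn hpK (Iof (Wof rs)) g c hcard
      have hpos : 0 < Module.finrank ℚ (Wof rs) := by
        rw [← Iof_card]
        by_contra h0
        have h0 : (Iof (Wof rs)).card = 0 := by omega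
        refine hc (funext fun q => ?_)
        have := card_pos.2 ⟨(q : Co l M), q.2⟩
        omega
      have hkm : k < m := by omega
      set rs1 : Fin m → Rlt n l M t K := Function.update rs ⟨k, hkm⟩ r with hrs1
      have hsub : Gs rs1 ⊆ Gs rs := by
        rintro z ⟨h1, h2, h3⟩
        refine ⟨h1, h2, fun i => ?_⟩
        by_cases hi : i = ⟨k, hkm⟩
        · rw [htriv i (by rw [hi])]
          exact triv_kills hn hK z
        · have := h3 i
          rw [hrs1, Function.update_of_ne hi] at this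
          exact this
      have hlt : Module.finrank ℚ (Wof rs1) < Module.finrank ℚ (Wof rs) := by
        refine strict rs p (lt_of_lt_of_le hy hyp) c hc (Gs rs1) hsub ?_
        intro z hz
        have h4 := hz.2.2 ⟨k, hkm⟩
        rw [hrs1, Function.update_self] at h4
        exact hr3 z h4
      refine ih (k + 1) rs1 (by omega) (by omega) ?_ ?_
      · intro i hi
        have hne : i ≠ ⟨k, hkm⟩ := by
          intro h
          rw [h] at hi
          simp at hi
        rw [hrs1, Function.update_of_ne hne]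
        exact htriv i (by omega)
      · intro j hj
        refine ⟨(hrow j hj).1, fun i => ?_⟩
        by_cases hi : i = ⟨k, hkm⟩
        · rw [hi, hrs1, Function.update_self]
          exact hr2 _ _ (hw j hj)
        · rw [hrs1, Function.update_of_ne hi]
          exact (hrow j hj).2 i
  refine key m 0 (fun _ => triv hn hK) ?_ ?_ (fun _ _ => rfl) ?_
  · have := Submodule.finrank_le (Wof (fun _ : Fin m => (triv hn hK : Rlt n l M t K)))
    simpa [hm] using this
  · have := Submodule.finrank_le (Wof (fun _ : Fin m => (triv hn hK : Rlt n l M t K)))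
    rw [zero_add]
    simpa [hm] using this
  · intro j hj
    refine ⟨?_, fun i => triv_holds hn hK _ _⟩
    exact hrel j hj

/-- a sparse word modulo a very large prime comes from an integral one -/
theorem exists_int {ι : Type*} [Fintype ι] [DecidableEq ι] (B : Matrix (Fin n) ι ℤ) (X : ℕ)
    (hB : ∀ j i, |B j i| ≤ (X : ℤ)) (p : ℕ) [Fact p.Prime] (u : ι → ZMod p) (hu : u ≠ 0)
    (hBu : B.map (Int.cast : ℤ → ZMod p) *ᵥ u = 0)
    (hp : (Fintype.card ι).factorial * (n * X ^ 2) ^ Fintype.card ι < p) :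
    ∃ v : ι → ℤ, B *ᵥ v = 0 ∧ ∀ q : ℕ, q.Prime → ∃ i, ((v i : ℤ) : ZMod q) ≠ 0 := by
  classical
  set G : Matrix ι ι ℤ := Bᵀ * B with hG
  have hdet : G.det = 0 := by
    have h1 : (G.map (Int.cast : ℤ → ZMod p)).det = 0 := by
      refine Matrix.exists_mulVec_eq_zero_iff.1 ⟨u, hu, ?_⟩
      have h2 : G.map (Int.cast : ℤ → ZMod p) =
          (B.map (Int.cast : ℤ → ZMod p))ᵀ * B.map (Int.cast : ℤ → ZMod p) := by
        have := Matrix.map_mul (L := Bᵀ) (M := B) (f := Int.castRingHom (ZMod p))
        rw [hG]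
        exact this
      rw [h2, ← Matrix.mulVec_mulVec, hBu, Matrix.mulVec_zero]
    have h2 : ((G.det : ℤ) : ZMod p) = 0 := by
      rw [← h1]
      exact (Int.castRingHom (ZMod p)).map_det G
    have hdvd : (p : ℤ) ∣ G.det := (ZMod.intCast_zmod_eq_zero_iff_dvd _ _).1 h2
    refine Int.eq_zero_of_abs_lt_dvd hdvd (lt_of_le_of_lt ?_ (Int.ofNat_lt.2 hp))
    have h3 := Matrix.det_le (A := G) (abv := AbsoluteValue.abs) (x := ((n * X ^ 2 : ℕ) : ℤ))
      fun i i' => by
        change |G i i'| ≤ _
        rw [hG, Matrix.mul_apply]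
        refine (abs_sum_le_sum_abs _ _).trans ?_
        refine (sum_le_sum (g := fun _ => ((X ^ 2 : ℕ) : ℤ)) fun j _ => ?_).trans ?_
        · rw [Matrix.transpose_apply, abs_mul]
          have h4 := hB j i
          have h5 := hB j i'
          have h6 := mul_le_mul h4 h5 (abs_nonneg _) (le_trans (abs_nonneg _) h4)
          push_cast
          rw [sq]
          exact h6
        · rw [sum_const, card_univ, Fintype.card_fin, nsmul_eq_mul]
          push_cast
          exact le_refl _
    have h7 : |G.det| ≤ (Fintype.card ι).factorial • ((n * X ^ 2 : ℕ) : ℤ) ^ Fintype.card ι := h3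
    refine h7.trans (le_of_eq ?_)
    rw [nsmul_eq_mul]
    push_cast
    rfl
  obtain ⟨v, hv0, hv⟩ := Matrix.exists_mulVec_eq_zero_iff.2 hdet
  have hBv : B *ᵥ v = 0 := by
    have h1 : (B *ᵥ v) ⬝ᵥ (B *ᵥ v) = 0 := by
      have h2 : v ⬝ᵥ (G *ᵥ v) = 0 := by rw [hv, dotProduct_zero]
      rw [hG, ← Matrix.mulVec_mulVec, Matrix.dotProduct_mulVec, Matrix.vecMul_transpose] at h2
      exact h2
    exact dotProduct_self_eq_zero.1 h1
  obtain ⟨i0, hi0⟩ : ∃ i, v i ≠ 0 := by
    by_contra h
    push Not at h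
    exact hv0 (funext h)
  obtain ⟨w, hw1, hw2⟩ := Finset.extract_gcd v (s := univ) ⟨i0, mem_univ i0⟩
  have hd : (univ : Finset ι).gcd v ≠ 0 := by
    intro h
    exact hi0 (by rw [Finset.gcd_eq_zero_iff] at h; exact h i0 (mem_univ _))
  refine ⟨w, ?_, ?_⟩
  · funext j
    have h1 := congrFun hBv j
    simp only [Matrix.mulVec, dotProduct, Pi.zero_apply] at h1 ⊢
    have h2 : ∑ i, B j i * v i = (univ : Finset ι).gcd v * ∑ i, B j i * w i := by
      rw [mul_sum]
      refine sum_congr rfl fun i _ => ?_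
      rw [hw1 i (mem_univ _)]
      ring
    rw [h2] at h1
    exact (mul_eq_zero.1 h1).resolve_left hd
  · intro q hq
    by_contra hcon
    push Not at hcon
    have h1 : (q : ℤ) ∣ (univ : Finset ι).gcd w :=
      Finset.dvd_gcd fun i _ => (ZMod.intCast_zmod_eq_zero_iff_dvd _ _).1 (hcon i)
    rw [hw2] at h1
    have h2 := Int.isUnit_iff_natAbs_eq.1 (isUnit_of_dvd_one h1)
    simp only [Int.natAbs_natCast] at h2
    exact hq.one_lt.ne' h2

/-- **TYPES** (block of the gap (G)): some type of `TT` fits and leaves no sparse word. -/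
theorem exists_type (hn : 0 < n) (y q₀ X : ℕ) (hy : (Fintype.card (Co l M)).factorial < y)
    (hq : q₀.Prime) (hq1 : y ≤ q₀) (hq2 : q₀ < K) (hX : 1 ≤ X)
    (hK : (t + Fintype.card (Co l M)).factorial * (n * X ^ 2) ^ (t + Fintype.card (Co l M)) < K)
    (E : Finset (Fin n)) (a : Fin n → ℤ) (ha : ∀ j, |a j| ≤ (X : ℤ)) (b : Bits n)
    (hNS : ∀ p, p.Prime → y ≤ p → ∀ g : Fin n → ZMod p, g ≠ 0 →
      (matZ b).map (Int.cast : ℤ → ZMod p) *ᵥ g = 0 → t < (univ.filter fun i => g i ≠ 0).card)
    (F : Fin n → Co l M → Bool) (hrel : Rel E F) :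
    ∃ τ ∈ TT n l M t K (Fintype.card (Co l M)), τ.Fits E b F ∧
      NoSparse (matZ b) (Matrix.of fun j (q : τ.I) => ent E a F q j) y t := by
  classical
  obtain ⟨rs, hrow, hexit⟩ := exists_exit (t := t) (K := K) hn (by omega) y hy E b F hrel
  refine ⟨tyOf rs, mem_TT rs, fits rs E b F hrow, ?_⟩
  change NoSparse (matZ b) (Matrix.of fun j (q : Iof (Wof rs)) => ent E a F q j) y t
  -- the exit condition for words
  have hex2 : ∀ p, p.Prime → y ≤ p → p < K → ∀ (g : Fin n → ZMod p) (c : Iof (Wof rs) → ZMod p),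
      Word (ZMod p) (matZ b) (Matrix.of fun j (q : Iof (Wof rs)) => ent E a F q j) g c → c ≠ 0 →
      t < (univ.filter fun i => g i ≠ 0).card := by
    intro p hp hyp hpK g c hw hc
    refine hexit p hp hyp hpK g c (fun j hj => ?_) hc
    have h1 := congrFun hw j
    simp only [Pi.add_apply, Matrix.mulVec, dotProduct, Matrix.map_apply, Matrix.of_apply,
      Pi.zero_apply] at h1
    refine Eq.trans ?_ h1
    congr 1
    · refine sum_congr rfl fun i _ => ?_
      unfold matZ
      split_ifs <;> simp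
    · refine sum_congr rfl fun q _ => ?_
      unfold ent
      rw [if_neg hj]
      split_ifs <;> simp
  intro p hp hyp g c hw hne
  by_cases hc : c = 0
  · have hg : g ≠ 0 := hne.resolve_right fun h => h hc
    refine hNS p hp hyp g hg ?_
    unfold Word at hw
    rw [hc, Matrix.mulVec_zero, add_zero] at hw
    exact hw
  by_cases hpK : p < K
  · exact hex2 p hp hyp hpK g c hw hc
  by_contra hcard
  push Not at hcard hpK
  have hpf : Fact p.Prime := ⟨hp⟩
  set A := univ.filter fun i => g i ≠ 0 with hA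
  let B : Matrix (Fin n) (A ⊕ Iof (Wof rs)) ℤ := Matrix.of fun j i =>
    Sum.elim (fun s : A => matZ b j s) (fun q : Iof (Wof rs) => ent E a F q j) i
  let u : A ⊕ Iof (Wof rs) → ZMod p := Sum.elim (fun s : A => g s) c
  have hu : u ≠ 0 := by
    intro h
    exact hc (funext fun q => congrFun h (Sum.inr q))
  have hBu : B.map (Int.cast : ℤ → ZMod p) *ᵥ u = 0 := by
    funext j
    have h1 := congrFun hw j
    simp only [Pi.add_apply, Matrix.mulVec, dotProduct, Matrix.map_apply, Matrix.of_apply,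
      Pi.zero_apply] at h1
    simp only [Matrix.mulVec, dotProduct, Matrix.map_apply, Pi.zero_apply, Fintype.sum_sum_type, B, u,
      Matrix.of_apply, Sum.elim_inl, Sum.elim_inr]
    rw [← h1]
    congr 1
    rw [Finset.sum_coe_sort A fun i => ((matZ b j i : ℤ) : ZMod p) * g i]
    refine Finset.sum_subset (subset_univ _) fun i _ hi => ?_
    have : g i = 0 := by
      by_contra hne
      exact hi (mem_filter.2 ⟨mem_univ _, hne⟩)
    rw [this, mul_zero]
  have hBX : ∀ j i, |B j i| ≤ (X : ℤ) := by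
    intro j i
    have hX' : (1 : ℤ) ≤ X := by exact_mod_cast hX
    rcases i with s | q
    · exact (matZ_abs b j s).trans hX'
    · change |ent E a F q j| ≤ _
      unfold ent
      split_ifs
      · exact ha j
      · simpa using hX'
      · simp
  have hcardI : Fintype.card (A ⊕ Iof (Wof rs)) ≤ t + Fintype.card (Co l M) := by
    rw [Fintype.card_sum, Fintype.card_coe, Fintype.card_coe]
    exact add_le_add hcard (card_le_univ _)
  have hbig : (Fintype.card (A ⊕ Iof (Wof rs))).factorial *
      (n * X ^ 2) ^ Fintype.card (A ⊕ Iof (Wof rs)) < p := by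
    refine lt_of_le_of_lt ?_ (lt_of_lt_of_le hK hpK)
    refine Nat.mul_le_mul (Nat.factorial_le hcardI) (Nat.pow_le_pow_right ?_ hcardI)
    positivity
  obtain ⟨v, hv1, hv2⟩ := exists_int B X hBX p u hu hBu hbig
  have hqf : Fact q₀.Prime := ⟨hq⟩
  let g' : Fin n → ZMod q₀ := fun i => if h : i ∈ A then ((v (Sum.inl ⟨i, h⟩) : ℤ) : ZMod q₀) else 0
  let c' : Iof (Wof rs) → ZMod q₀ := fun q => ((v (Sum.inr q) : ℤ) : ZMod q₀)
  have hsupp : (univ.filter fun i => g' i ≠ 0).card ≤ t := by
    refine (card_le_card ?_).trans hcard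
    intro i hi
    by_contra h
    exact (mem_filter.1 hi).2 (dif_neg h)
  have hword : Word (ZMod q₀) (matZ b) (Matrix.of fun j (q : Iof (Wof rs)) => ent E a F q j) g' c' := by
    funext j
    have h1 := congrArg (Int.cast : ℤ → ZMod q₀) (congrFun hv1 j)
    simp only [Matrix.mulVec, dotProduct, Pi.zero_apply, Fintype.sum_sum_type, B,
      Matrix.of_apply, Sum.elim_inl, Sum.elim_inr, Int.cast_add, Int.cast_sum, Int.cast_mul,
      Int.cast_zero] at h1
    simp only [Pi.add_apply, Matrix.mulVec, dotProduct, Matrix.map_apply, Matrix.of_apply,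
      Pi.zero_apply]
    rw [← h1]
    congr 1
    have h2 : ∑ s : A, ((matZ b j s : ℤ) : ZMod q₀) * ((v (Sum.inl s) : ℤ) : ZMod q₀) =
        ∑ s : A, ((matZ b j s : ℤ) : ZMod q₀) * g' s := by
      refine sum_congr rfl fun s _ => ?_
      have hs : (s : Fin n) ∈ A := s.2
      simp only [g', dif_pos hs]
    rw [h2, Finset.sum_coe_sort A fun i => ((matZ b j i : ℤ) : ZMod q₀) * g' i]
    symm
    refine Finset.sum_subset (subset_univ _) fun i _ hi => ?_
    simp only [g', dif_neg hi, mul_zero]
  by_cases hc' : c' = 0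
  · have hg' : g' ≠ 0 := by
      intro h
      obtain ⟨i, hi⟩ := hv2 q₀ hq
      rcases i with s | q
      · apply hi
        have := congrFun h s
        have hs : (s : Fin n) ∈ A := s.2
        simp only [g', dif_pos hs, Pi.zero_apply] at this
        exact this
      · exact hi (congrFun hc' q)
    have h3 := hNS q₀ hq hq1 g' hg' ?_
    · omega
    · unfold Word at hword
      rw [hc', Matrix.mulVec_zero, add_zero] at hword
      exact hword
  · have h3 := hex2 q₀ hq hq1 hq2 g' c' hword hc'
    omega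

theorem TT_ok {n l M t K m : ℕ} {τ : Ty n l M} (h : τ ∈ TT n l M t K m) : τ.Ok ∧ τ.S.card ≤ m * t := by
  classical
  unfold TT at h
  obtain ⟨rs, -, rfl⟩ := mem_image.1 h
  exact ⟨tyOf_ok rs, card_Sof rs⟩

end Vale.Agent.P160.Half.Ty576
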