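import Vale.Agent.P160.Half.Types576

/-! # P160, half rate, block TYPES: the number of types is `2 ^ o(n)`. -/

namespace Vale.Agent.P160.Half.Ty576

open Finset Filter Vale.Agent.P160.Half.A

theorem K_le (m a : ℕ) (n t y X K : ℕ) (hn : 4 ≤ n) (htm : t + m ≤ n) (hy : y ≤ n) (hX : X ≤ 2 * n ^ a)
    (hK : K ≤ 2 * y + (t + m).factorial * (n * X ^ 2) ^ (t + m) + 1) :
    K ≤ n ^ ((2 * a + 4) * (t + m) + 3) := by
  have h1 : (t + m).factorial ≤ n ^ (t + m) :=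
    (Nat.factorial_le_pow _).trans (Nat.pow_le_pow_left htm _)
  have h2 : n * X ^ 2 ≤ n ^ (2 * a + 3) := by
    have h3 : X ^ 2 ≤ (2 * n ^ a) ^ 2 := Nat.pow_le_pow_left hX 2
    calc n * X ^ 2 ≤ n * (2 * n ^ a) ^ 2 := Nat.mul_le_mul_left _ h3
      _ = 4 * (n * n ^ (2 * a)) := by ring
      _ ≤ (n * n) * (n * n ^ (2 * a)) := Nat.mul_le_mul_right _ (by nlinarith)
      _ = n ^ (2 * a + 3) := by ring
  have h4 : (t + m).factorial * (n * X ^ 2) ^ (t + m) ≤ n ^ ((2 * a + 4) * (t + m)) := by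
    calc (t + m).factorial * (n * X ^ 2) ^ (t + m) ≤ n ^ (t + m) * (n ^ (2 * a + 3)) ^ (t + m) :=
          Nat.mul_le_mul h1 (Nat.pow_le_pow_left h2 _)
      _ = n ^ ((2 * a + 4) * (t + m)) := by rw [← pow_mul, ← pow_add]; congr 1; ring
  set s := (2 * a + 4) * (t + m) with hs
  have h5 : 1 ≤ n ^ s := Nat.one_le_pow _ _ (by omega)
  have h6 : n ^ (s + 3) = n ^ s * (n * n * n) := by ring
  have h7 : 2 * n + 1 + 1 ≤ n * n * n := by nlinarith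
  have h8 : 2 * y + n ^ s + 1 ≤ n ^ s * (2 * n + 1 + 1) := by nlinarith
  calc K ≤ 2 * y + n ^ s + 1 := by omega
    _ ≤ n ^ s * (2 * n + 1 + 1) := h8
    _ ≤ n ^ s * (n * n * n) := Nat.mul_le_mul_left _ h7
    _ = n ^ (s + 3) := h6.symm

theorem total_le (m a : ℕ) (n t y X K : ℕ) (hn : 4 ≤ n) (htm : t + m ≤ n) (hy : y ≤ n) (hX : X ≤ 2 * n ^ a)
    (hK : K ≤ 2 * y + (t + m).factorial * (n * X ^ 2) ^ (t + m) + 1) :
    (K * (n ^ t * (K ^ t * K ^ m))) ^ m ≤ n ^ (m * ((2 * a + 8) * (t + m + 1) ^ 2)) := by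
  have h1 := K_le m a n t y X K hn htm hy hX hK
  set s := (2 * a + 4) * (t + m) + 3 with hs
  have h2 : K * (n ^ t * (K ^ t * K ^ m)) ≤ n ^ s * (n ^ t * ((n ^ s) ^ t * (n ^ s) ^ m)) := by
    refine Nat.mul_le_mul h1 (Nat.mul_le_mul_left _ (Nat.mul_le_mul ?_ ?_))
    · exact Nat.pow_le_pow_left h1 _
    · exact Nat.pow_le_pow_left h1 _
  have h3 : n ^ s * (n ^ t * ((n ^ s) ^ t * (n ^ s) ^ m)) = n ^ (s * (1 + t + m) + t) := by
    rw [← pow_mul, ← pow_mul, ← pow_add, ← pow_add, ← pow_add]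
    congr 1
    ring
  have h4 : s * (1 + t + m) + t ≤ (2 * a + 8) * (t + m + 1) ^ 2 := by
    rw [hs]
    nlinarith [Nat.zero_le (a * (t + m)), Nat.zero_le (t * m), Nat.zero_le a, Nat.zero_le t, Nat.zero_le m,
      Nat.zero_le (a * (t + m + 1)), Nat.zero_le ((t + m) * (t + m)), Nat.zero_le (t + m)]
  calc (K * (n ^ t * (K ^ t * K ^ m))) ^ m ≤ (n ^ (s * (1 + t + m) + t)) ^ m :=
        Nat.pow_le_pow_left (h2.trans (le_of_eq h3)) _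
    _ ≤ (n ^ ((2 * a + 8) * (t + m + 1) ^ 2)) ^ m :=
        Nat.pow_le_pow_left (Nat.pow_le_pow_right (by omega) h4) _
    _ = n ^ (m * ((2 * a + 8) * (t + m + 1) ^ 2)) := by rw [← pow_mul, mul_comm]

/-- the number of types is at most `2 ^ (ε n)` for `t ≤ n ^ (2/5)` -/
theorem TT_small (m : ℕ) (A ε : ℝ) (hε : 0 < ε) : ∃ n₀ : ℕ, ∀ n ≥ n₀, ∀ t y X K : ℕ,
    (t : ℝ) ≤ (n : ℝ) ^ (2 / 5 : ℝ) → y ≤ n → (X : ℝ) ≤ 2 * (n : ℝ) ^ A →
    K ≤ 2 * y + (t + m).factorial * (n * X ^ 2) ^ (t + m) + 1 →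
    (((K * (n ^ t * (K ^ t * K ^ m))) ^ m : ℕ) : ℝ) ≤ (2 : ℝ) ^ (ε * n) := by
  obtain ⟨a, ha⟩ := exists_nat_ge A
  set C : ℝ := ((m * (2 * a + 8) * 4 : ℕ) : ℝ) with hC
  have hC0 : 0 ≤ C := by positivity
  -- asymptotic facts
  have e1 : ∀ᶠ x : ℝ in atTop, C * Real.log x ≤ (ε * Real.log 2) * x ^ (1 / 5 : ℝ) := by
    have h := (isLittleO_log_rpow_atTop (show (0 : ℝ) < 1 / 5 by norm_num)).bound
      (show (0 : ℝ) < ε * Real.log 2 / (C + 1) by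
        have := Real.log_pos (show (1 : ℝ) < 2 by norm_num); positivity)
    filter_upwards [h, eventually_ge_atTop (1 : ℝ)] with x hx hx1
    rw [Real.norm_of_nonneg (Real.log_nonneg hx1), Real.norm_of_nonneg (by positivity)] at hx
    have h2 : C * Real.log x ≤ (C + 1) * Real.log x := by
      nlinarith [Real.log_nonneg hx1]
    refine h2.trans ?_
    calc (C + 1) * Real.log x ≤ (C + 1) * (ε * Real.log 2 / (C + 1) * x ^ (1 / 5 : ℝ)) :=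
          mul_le_mul_of_nonneg_left hx (by linarith)
      _ = (ε * Real.log 2) * x ^ (1 / 5 : ℝ) := by
          field_simp
  have e2 : ∀ᶠ x : ℝ in atTop, ((m : ℝ) + 1) ≤ x ^ (2 / 5 : ℝ) :=
    (tendsto_rpow_atTop (show (0 : ℝ) < 2 / 5 by norm_num)).eventually_ge_atTop _
  have e3 : ∀ᶠ x : ℝ in atTop, (2 : ℝ) ≤ x ^ (3 / 5 : ℝ) :=
    (tendsto_rpow_atTop (show (0 : ℝ) < 3 / 5 by norm_num)).eventually_ge_atTop _
  have e4 := tendsto_natCast_atTop_atTop (R := ℝ)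
  have e5 := (e4.eventually e1).and ((e4.eventually e2).and (e4.eventually e3))
  obtain ⟨n₁, hn₁⟩ := eventually_atTop.1 e5
  refine ⟨max n₁ 4, fun n hn t y X K ht hy hX hK => ?_⟩
  obtain ⟨f1, f2, f3⟩ := hn₁ n (le_of_max_le_left hn)
  have hn4 : 4 ≤ n := le_of_max_le_right hn
  have hn0 : (0 : ℝ) < n := by
    have : 0 < n := by omega
    exact_mod_cast this
  have hn1 : (1 : ℝ) ≤ n := by
    have : 1 ≤ n := by omega
    exact_mod_cast this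
  have htm1 : ((t + m + 1 : ℕ) : ℝ) ≤ 2 * (n : ℝ) ^ (2 / 5 : ℝ) := by
    push_cast
    linarith
  have htm : t + m ≤ n := by
    have h1 : ((t + m : ℕ) : ℝ) ≤ 2 * (n : ℝ) ^ (2 / 5 : ℝ) := by
      refine le_trans ?_ htm1
      push_cast
      linarith
    have h2 : 2 * (n : ℝ) ^ (2 / 5 : ℝ) ≤ n := by
      calc 2 * (n : ℝ) ^ (2 / 5 : ℝ) ≤ (n : ℝ) ^ (3 / 5 : ℝ) * (n : ℝ) ^ (2 / 5 : ℝ) :=
            mul_le_mul_of_nonneg_right f3 (by positivity)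
        _ = n := by rw [← Real.rpow_add hn0]; norm_num
    exact_mod_cast h1.trans h2
  have hX' : X ≤ 2 * n ^ a := by
    have h1 : (X : ℝ) ≤ 2 * (n : ℝ) ^ (a : ℝ) :=
      hX.trans (mul_le_mul_of_nonneg_left (Real.rpow_le_rpow_of_exponent_le hn1 ha) (by norm_num))
    rw [Real.rpow_natCast] at h1
    exact_mod_cast h1
  have h1 := total_le m a n t y X K hn4 htm hy hX' hK
  refine (Nat.cast_le.2 h1).trans ?_
  rw [Nat.cast_pow]
  have h2 : ((m * ((2 * a + 8) * (t + m + 1) ^ 2) : ℕ) : ℝ) * Real.log n ≤ ε * n * Real.log 2 := by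
    have h3 : ((m * ((2 * a + 8) * (t + m + 1) ^ 2) : ℕ) : ℝ) ≤ C * (n : ℝ) ^ (4 / 5 : ℝ) := by
      have h4 : ((t + m + 1 : ℕ) : ℝ) ^ 2 ≤ (2 * (n : ℝ) ^ (2 / 5 : ℝ)) ^ 2 :=
        pow_le_pow_left₀ (Nat.cast_nonneg _) htm1 2
      have h5 : (2 * (n : ℝ) ^ (2 / 5 : ℝ)) ^ 2 = 4 * (n : ℝ) ^ (4 / 5 : ℝ) := by
        rw [mul_pow, ← Real.rpow_natCast ((n : ℝ) ^ (2 / 5 : ℝ)), ← Real.rpow_mul hn0.le]
        norm_num
      rw [h5] at h4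
      have h6 : ((m * ((2 * a + 8) * (t + m + 1) ^ 2) : ℕ) : ℝ) =
          ((m * (2 * a + 8) : ℕ) : ℝ) * ((t + m + 1 : ℕ) : ℝ) ^ 2 := by push_cast; ring
      rw [h6]
      calc ((m * (2 * a + 8) : ℕ) : ℝ) * ((t + m + 1 : ℕ) : ℝ) ^ 2 ≤
            ((m * (2 * a + 8) : ℕ) : ℝ) * (4 * (n : ℝ) ^ (4 / 5 : ℝ)) :=
            mul_le_mul_of_nonneg_left h4 (Nat.cast_nonneg _)
        _ = C * (n : ℝ) ^ (4 / 5 : ℝ) := by rw [hC]; push_cast; ring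
    have hlog : 0 ≤ Real.log n := Real.log_nonneg hn1
    calc ((m * ((2 * a + 8) * (t + m + 1) ^ 2) : ℕ) : ℝ) * Real.log n ≤
          (C * (n : ℝ) ^ (4 / 5 : ℝ)) * Real.log n := mul_le_mul_of_nonneg_right h3 hlog
      _ = (n : ℝ) ^ (4 / 5 : ℝ) * (C * Real.log n) := by ring
      _ ≤ (n : ℝ) ^ (4 / 5 : ℝ) * ((ε * Real.log 2) * (n : ℝ) ^ (1 / 5 : ℝ)) :=
          mul_le_mul_of_nonneg_left f1 (by positivity)
      _ = ε * ((n : ℝ) ^ (4 / 5 : ℝ) * (n : ℝ) ^ (1 / 5 : ℝ)) * Real.log 2 := by ring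
      _ = ε * n * Real.log 2 := by rw [← Real.rpow_add hn0]; norm_num
  rw [← Real.exp_log (show (0 : ℝ) < (n : ℝ) ^ (m * ((2 * a + 8) * (t + m + 1) ^ 2)) by positivity),
    Real.log_pow, Real.rpow_def_of_pos (by norm_num : (0 : ℝ) < 2)]
  refine Real.exp_le_exp.2 ?_
  linarith

/-- packaged form: the family `TT` with the standard value of `K` -/
theorem card_TT_small (l M : ℕ) (A ε : ℝ) (hε : 0 < ε) : ∃ n₀ : ℕ, ∀ n ≥ n₀, ∀ t y X K : ℕ,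
    (t : ℝ) ≤ (n : ℝ) ^ (2 / 5 : ℝ) → y ≤ n → (X : ℝ) ≤ 2 * (n : ℝ) ^ A →
    K ≤ 2 * y + (t + Fintype.card (Co l M)).factorial *
      (n * X ^ 2) ^ (t + Fintype.card (Co l M)) + 1 →
    ((TT n l M t K (Fintype.card (Co l M))).card : ℝ) ≤ (2 : ℝ) ^ (ε * n) := by
  obtain ⟨n₀, h⟩ := TT_small (Fintype.card (Co l M)) A ε hε
  refine ⟨n₀, fun n hn t y X K h1 h2 h3 h4 => ?_⟩
  exact (Nat.cast_le.2 (card_TT n l M t K (Fintype.card (Co l M)))).trans (h n hn t y X K h1 h2 h3 h4)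

end Vale.Agent.P160.Half.Ty576
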