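import Vale.Agent.P160.Half.Types984

/-! # P160, half rate: TYPES as a Prop (helper984) -/

open Finset Matrix

namespace Vale.Agent.P160.Half.A.T984

/-- (1) of note 10294: types -/
def TypesStmt : Prop := ∀ (n l M y t pm X : ℕ), 0 < n → (2 * l * M).factorial < y → 2 * y ≤ pm → 1 ≤ X →
  (t + 2 * l * M).factorial * X ^ (t + 2 * l * M) ≤ pm →
  ∃ T : Finset (Ty n l M),
    T.card ≤ ((pm + 1) * (n * (pm + 1)) ^ t * (pm + 1) ^ (2 * l * M) + 1) ^ (2 * l * M) ∧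
    (∀ τ ∈ T, τ.Ok ∧ τ.S.card ≤ 2 * l * M * t) ∧
    ∀ (E : Finset (Fin n)) (a : Fin n → ℤ), (∀ j, |a j| ≤ (X : ℤ)) → ∀ b : Bits n, NSK b y t →
      ∀ F : Fin n → Co l M → Bool, Rel E F →
      ∃ τ ∈ T, τ.Fits E b F ∧ G.NoSparse (matZ b) (fun j (q : τ.I) => ent E a F q j) y t

theorem typesStmt : TypesStmt := exists_types

end Vale.Agent.P160.Half.A.T984
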