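import Vale.Agent.P160.Half.CorankOne

/-! # P160, half rate: the final union bound (step (8) of note 11281), abstract form

`b` (size `m + 1`) is cut into `(del j b, colb j b, b s(j,j))`.  If every `b ∈ A` has an index `j` and a label
`i ∈ J` such that `del j b` lies in the event `Ev i` and the column `colb j b` in the set `Cn i (del j b)`,
then `#A ≤ (m + 1) ∑_i 2 C_i p_i 2^{card}`. -/

open Finset

namespace Vale.Agent.P160.Half.CO

/-- number of arrays with `del j b ∈ Ev` and `colb j b ∈ Cn (del j b)` -/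
theorem card_fiber_le {m : ℕ} (j : Fin (m + 1)) (Ev : Finset (Sym2 (Fin m) → Bool))
    (Cn : (Sym2 (Fin m) → Bool) → Finset (Fin m → Bool)) (C : ℝ) (hC : ∀ P ∈ Ev, ((Cn P).card : ℝ) ≤ C)
    (S : Finset (Sym2 (Fin (m + 1)) → Bool))
    (hS : ∀ b ∈ S, del j b ∈ Ev ∧ colb j b ∈ Cn (del j b)) :
    (S.card : ℝ) ≤ 2 * C * Ev.card := by
  classical
  have h1 : S.card ≤ ∑ P ∈ Ev, (Cn P).card * 2 := by
    rw [Finset.card_eq_sum_card_fiberwise (s := S) (f := del j) (t := Ev)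
      (fun b hb => mem_coe.2 (hS b (mem_coe.1 hb)).1)]
    refine sum_le_sum fun P _ => ?_
    have h2 : (S.filter fun b => del j b = P).card ≤ ((Cn P) ×ˢ (univ : Finset Bool)).card := by
      apply Finset.card_le_card_of_injOn (fun b => (colb j b, b s(j, j)))
      · intro b hb
        have hb1 := mem_filter.1 (mem_coe.1 hb)
        have hb2 := (hS b hb1.1).2
        rw [hb1.2] at hb2
        exact mem_coe.2 (mem_product.2 ⟨hb2, mem_univ _⟩)
      · intro b hb b' hb' heq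
        have hb1 := mem_filter.1 (mem_coe.1 hb)
        have hb1' := mem_filter.1 (mem_coe.1 hb')
        have he := Prod.ext_iff.1 heq
        exact ext_del j (hb1.2.trans hb1'.2.symm) he.1 he.2
    rwa [card_product, card_univ, Fintype.card_bool] at h2
  calc (S.card : ℝ) ≤ ((∑ P ∈ Ev, (Cn P).card * 2 : ℕ) : ℝ) := by exact_mod_cast h1
    _ = ∑ P ∈ Ev, ((Cn P).card : ℝ) * 2 := by push_cast; rfl
    _ ≤ ∑ P ∈ Ev, C * 2 := sum_le_sum fun P hP => mul_le_mul_of_nonneg_right (hC P hP) (by norm_num)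
    _ = 2 * C * Ev.card := by rw [sum_const, nsmul_eq_mul]; ring

/-- **final union bound**, counting form -/
theorem union_bound {m : ℕ} {ι : Type*} (J : Finset ι) (Ev : ι → Finset (Sym2 (Fin m) → Bool))
    (Cn : ι → (Sym2 (Fin m) → Bool) → Finset (Fin m → Bool)) (C : ι → ℝ)
    (hC : ∀ i ∈ J, ∀ P ∈ Ev i, ((Cn i P).card : ℝ) ≤ C i)
    (A : Finset (Sym2 (Fin (m + 1)) → Bool))
    (hA : ∀ b ∈ A, ∃ j : Fin (m + 1), ∃ i ∈ J, del j b ∈ Ev i ∧ colb j b ∈ Cn i (del j b)) :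
    (A.card : ℝ) ≤ ((m : ℝ) + 1) * ∑ i ∈ J, 2 * C i * (Ev i).card := by
  classical
  have hsub : A ⊆ (univ : Finset (Fin (m + 1))).biUnion fun j => J.biUnion fun i =>
      A.filter fun b => del j b ∈ Ev i ∧ colb j b ∈ Cn i (del j b) := by
    intro b hb
    obtain ⟨j, i, hi, h⟩ := hA b hb
    exact mem_biUnion.2 ⟨j, mem_univ _, mem_biUnion.2 ⟨i, hi, mem_filter.2 ⟨hb, h⟩⟩⟩
  have h1 : A.card ≤ ∑ j : Fin (m + 1), ∑ i ∈ J,
      (A.filter fun b => del j b ∈ Ev i ∧ colb j b ∈ Cn i (del j b)).card :=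
    (card_le_card hsub).trans (card_biUnion_le.trans (sum_le_sum fun j _ => card_biUnion_le))
  calc (A.card : ℝ) ≤ ((∑ j : Fin (m + 1), ∑ i ∈ J,
        (A.filter fun b => del j b ∈ Ev i ∧ colb j b ∈ Cn i (del j b)).card : ℕ) : ℝ) := by
        exact_mod_cast h1
    _ = ∑ j : Fin (m + 1), ∑ i ∈ J,
        ((A.filter fun b => del j b ∈ Ev i ∧ colb j b ∈ Cn i (del j b)).card : ℝ) := by push_cast; rfl
    _ ≤ ∑ _j : Fin (m + 1), ∑ i ∈ J, 2 * C i * (Ev i).card :=
        sum_le_sum fun j _ => sum_le_sum fun i hi =>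
          card_fiber_le j (Ev i) (Cn i) (C i) (hC i hi) _ fun b hb => (mem_filter.1 hb).2
    _ = ((m : ℝ) + 1) * ∑ i ∈ J, 2 * C i * (Ev i).card := by
        rw [sum_const, card_univ, Fintype.card_fin, nsmul_eq_mul]
        push_cast
        ring

/-- **final union bound**, density form: `C i` bounds the number of columns, `p i` the density of the event -/
theorem union_bound_density {m : ℕ} {ι : Type*} (J : Finset ι) (Ev : ι → Finset (Sym2 (Fin m) → Bool))
    (Cn : ι → (Sym2 (Fin m) → Bool) → Finset (Fin m → Bool)) (C p : ι → ℝ)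
    (hC0 : ∀ i ∈ J, 0 ≤ C i) (hC : ∀ i ∈ J, ∀ P ∈ Ev i, ((Cn i P).card : ℝ) ≤ C i)
    (hp : ∀ i ∈ J, ((Ev i).card : ℝ) ≤ p i * 2 ^ Fintype.card (Sym2 (Fin m)))
    (A : Finset (Sym2 (Fin (m + 1)) → Bool))
    (hA : ∀ b ∈ A, ∃ j : Fin (m + 1), ∃ i ∈ J, del j b ∈ Ev i ∧ colb j b ∈ Cn i (del j b)) :
    (A.card : ℝ) ≤ ((m : ℝ) + 1) * (∑ i ∈ J, C i * p i) * ((1 / 2) ^ m *
      2 ^ Fintype.card (Sym2 (Fin (m + 1)))) := by
  refine (union_bound J Ev Cn C hC A hA).trans ?_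
  rw [mul_assoc]
  refine mul_le_mul_of_nonneg_left ?_ (by positivity)
  rw [sum_mul]
  refine sum_le_sum fun i hi => ?_
  have h1 : ((1 : ℝ) / 2) ^ m * 2 ^ Fintype.card (Sym2 (Fin (m + 1))) =
      2 * 2 ^ Fintype.card (Sym2 (Fin m)) := by
    rw [card_sym, pow_add, pow_succ, one_div, inv_pow]
    field_simp
  rw [h1]
  calc 2 * C i * ((Ev i).card : ℝ) ≤ 2 * C i * (p i * 2 ^ Fintype.card (Sym2 (Fin m))) :=
        mul_le_mul_of_nonneg_left (hp i hi) (by have := hC0 i hi; positivity)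
    _ = _ := by ring

end Vale.Agent.P160.Half.CO
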