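import Vale.Agent.P160.MathlibUsed

/-!
P160-HALF, note 11231 (1) of helper503: the weighted covering (no naming of the primes with a
nontrivial label, no factor `2^u`).

`C` is a set of vectors; at every large prime `i` there are one or two labels `Lab i`; `R x i l`
says that `x` is compatible with the label `l` at `i`.  Every `x` is compatible with some label at
every prime and, outside the set `T x` (`≤ s` primes), with all labels.  If for every choice of
labels at most `W` vectors are compatible with all of them, then `|C| ≤ 2^s W`.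
-/

namespace Vale.Agent.P160.Half.WCover276

open Finset

open scoped Classical in
theorem card_labels {ι Λ : Type*} [Fintype ι] (Lab : ι → Finset Λ)
    (h2 : ∀ i, (Lab i).card ≤ 2) (T : Finset ι) (r : ι → Λ → Prop)
    (h1 : ∀ i, ∃ l ∈ Lab i, r i l) (h0 : ∀ i, i ∉ T → ∀ l ∈ Lab i, r i l) :
    ∏ i, (Lab i).card ≤
      2 ^ T.card * ((Fintype.piFinset Lab).filter fun L => ∀ i, r i (L i)).card := by
  have e : ((Fintype.piFinset Lab).filter fun L => ∀ i, r i (L i)) =
      Fintype.piFinset fun i => (Lab i).filter (r i) := by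
    ext L
    simp only [mem_filter, Fintype.mem_piFinset]
    constructor
    · rintro ⟨a, b⟩ i
      exact ⟨a i, b i⟩
    · intro a
      exact ⟨fun i => (a i).1, fun i => (a i).2⟩
  rw [e, Fintype.card_piFinset]
  have e2 : (2 : ℕ) ^ T.card = ∏ i : ι, (if i ∈ T then 2 else 1) := by
    rw [prod_ite_mem, univ_inter, prod_const]
  rw [e2, ← prod_mul_distrib]
  refine prod_le_prod' fun i _ => ?_
  by_cases hi : i ∈ T
  · rw [if_pos hi]
    have h3 : 1 ≤ ((Lab i).filter (r i)).card := by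
      obtain ⟨l, hl, hr⟩ := h1 i
      exact card_pos.mpr ⟨l, mem_filter.mpr ⟨hl, hr⟩⟩
    have := h2 i
    omega
  · rw [if_neg hi, one_mul, filter_true_of_mem (h0 i hi)]

open scoped Classical in
/-- **weighted covering** -/
theorem wcover {ι Λ X : Type*} [Fintype ι] (Lab : ι → Finset Λ) (h2 : ∀ i, (Lab i).card ≤ 2)
    (C : Finset X) (T : X → Finset ι) (R : X → ι → Λ → Prop) (s : ℕ) (W : ℝ) (hW0 : 0 ≤ W)
    (hT : ∀ x ∈ C, (T x).card ≤ s) (h1 : ∀ x ∈ C, ∀ i, ∃ l ∈ Lab i, R x i l)
    (h0 : ∀ x ∈ C, ∀ i, i ∉ T x → ∀ l ∈ Lab i, R x i l)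
    (hW : ∀ L ∈ Fintype.piFinset Lab, ((C.filter fun x => ∀ i, R x i (L i)).card : ℝ) ≤ W) :
    (C.card : ℝ) ≤ 2 ^ s * W := by
  rcases C.eq_empty_or_nonempty with rfl | ⟨x₀, hx₀⟩
  · simp only [card_empty, Nat.cast_zero]
    positivity
  · set Q₀ := ∏ i, (Lab i).card with hQ₀
    have hpos : 0 < Q₀ := by
      refine prod_pos fun i _ => ?_
      obtain ⟨l, hl, _⟩ := h1 x₀ hx₀ i
      exact card_pos.mpr ⟨l, hl⟩
    have hx : ∀ x ∈ C, (Q₀ : ℝ) ≤
        2 ^ s * (((Fintype.piFinset Lab).filter fun L => ∀ i, R x i (L i)).card : ℝ) := by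
      intro x hxC
      have h3 := card_labels Lab h2 (T x) (R x) (h1 x hxC) (h0 x hxC)
      have h4 : (2 : ℕ) ^ (T x).card ≤ 2 ^ s := Nat.pow_le_pow_right (by norm_num) (hT x hxC)
      have h5 := h3.trans (Nat.mul_le_mul_right _ h4)
      exact_mod_cast h5
    have hdc : ∑ x ∈ C, ((Fintype.piFinset Lab).filter fun L => ∀ i, R x i (L i)).card =
        ∑ L ∈ Fintype.piFinset Lab, (C.filter fun x => ∀ i, R x i (L i)).card := by
      simp only [card_filter]
      exact sum_comm
    have h6 : (C.card : ℝ) * Q₀ ≤ 2 ^ s * W * Q₀ := by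
      calc (C.card : ℝ) * Q₀ = ∑ x ∈ C, (Q₀ : ℝ) := by rw [sum_const, nsmul_eq_mul]
        _ ≤ ∑ x ∈ C, 2 ^ s * (((Fintype.piFinset Lab).filter fun L => ∀ i, R x i (L i)).card : ℝ) :=
            sum_le_sum hx
        _ = 2 ^ s * ((∑ x ∈ C, ((Fintype.piFinset Lab).filter fun L => ∀ i, R x i (L i)).card : ℕ) : ℝ) := by
            rw [← mul_sum]; push_cast; rfl
        _ = 2 ^ s * ((∑ L ∈ Fintype.piFinset Lab, (C.filter fun x => ∀ i, R x i (L i)).card : ℕ) : ℝ) := by
            rw [hdc]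
        _ = 2 ^ s * (∑ L ∈ Fintype.piFinset Lab, ((C.filter fun x => ∀ i, R x i (L i)).card : ℝ)) := by
            push_cast; rfl
        _ ≤ 2 ^ s * (∑ L ∈ Fintype.piFinset Lab, W) := by
            refine mul_le_mul_of_nonneg_left (sum_le_sum hW) (by positivity)
        _ = 2 ^ s * W * Q₀ := by
            rw [sum_const, nsmul_eq_mul, Fintype.card_piFinset, ← hQ₀]
            ring
    have hposR : (0 : ℝ) < Q₀ := by exact_mod_cast hpos
    exact le_of_mul_le_mul_right h6 hposR

end Vale.Agent.P160.Half.WCover276
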