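import Mathlib
import Vale.Agent.P160.Half.M8Def

/-! # P160, block (M), scheme 11331, part (P5)(B): rational coranks, deterministic part

* `kerN_restr`: removing the columns `R` costs at most a factor `N ^ |R|`;
* `exists_cols`: the columns outside some `R`, `|R| = corank_ℚ`, have full rank over `ℚ`;
* `sum_pow`: the sum of `#ker ^ s` over the seeds of corank `r` is at most
  `∑_R N ^ (s r) M ^ (|β| r)` times the sum over the seeds with full column rank.
-/

set_option linter.unusedVariables false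
set_option linter.unusedSectionVars false

namespace Vale.Agent.P160.Half.XiB81

open Finset Matrix Vale.Agent.P160.Half Vale.Agent.P160.Half.M8

section Det

variable {α β : Type} [Fintype α] [Fintype β] [DecidableEq α] [DecidableEq β]

/-- the matrix with seeds `ω`, over the rationals -/
noncomputable def matQ (L : ℕ) {M : ℕ} (ω : β → α → Fin M) : Matrix β α ℚ :=
  Matrix.of fun i a => ((stL L (ω i a) : ℤ) : ℚ)

/-- rational corank (number of columns minus the rank) -/
noncomputable def corQ (L : ℕ) {M : ℕ} (ω : β → α → Fin M) : ℕ :=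
  Fintype.card α - (matQ L ω).rank

/-- full column rank over the rationals -/
def FullQ (L : ℕ) {M : ℕ} (ω : β → α → Fin M) : Prop := LinearIndependent ℚ (matQ L ω).col

theorem fullQ_iff (L : ℕ) {M : ℕ} (ω : β → α → Fin M) :
    FullQ L ω ↔ (matQ L ω).rank = Fintype.card α := by
  unfold FullQ
  rw [Matrix.rank_eq_finrank_span_cols, linearIndependent_iff_card_eq_finrank_span, eq_comm]
  rfl

/-- the columns outside `R` -/
def restr {M : ℕ} (R : Finset α) (ω : β → α → Fin M) : β → {a // a ∉ R} → Fin M := fun i a => ω i a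

theorem gwL_split {A : Type} [AddCommGroup A] (L : ℕ) {M : ℕ} (R : Finset α) (ω : α → Fin M)
    (x : α → A) (hx : ∀ a ∈ R, x a = 0) :
    gwL L (fun a : {a // a ∉ R} => ω a) (fun a => x a) = gwL L ω x := by
  classical
  unfold gwL
  rw [← Finset.sum_compl_add_sum R (fun a => stL L (ω a) • x a)]
  have h1 : ∑ a ∈ R, stL L (ω a) • x a = 0 :=
    Finset.sum_eq_zero fun a ha => by rw [hx a ha, smul_zero]
  rw [h1, add_zero]
  exact (Finset.sum_subtype Rᶜ (fun a => Finset.mem_compl) (fun a => stL L (ω a) • x a)).symm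

theorem gwL_sub {A : Type} [AddCommGroup A] (L : ℕ) {M : ℕ} (ω : α → Fin M) (x y : α → A) :
    gwL L ω (fun a => x a - y a) = gwL L ω x - gwL L ω y := by
  unfold gwL
  rw [← Finset.sum_sub_distrib]
  exact Finset.sum_congr rfl fun a _ => smul_sub _ _ _

theorem kerN_restr (N L : ℕ) [NeZero N] {M : ℕ} (R : Finset α) (ω : β → α → Fin M) :
    kerN N L ω ≤ N ^ R.card * kerN N L (restr R ω) := by
  classical
  let K := {x : α → ZMod N // ∀ i, gwL L (ω i) x = 0}
  let K' := {x : {a // a ∉ R} → ZMod N // ∀ i, gwL L (restr R ω i) x = 0}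
  let rep : (R → ZMod N) → (α → ZMod N) := fun v =>
    if h : ∃ x : α → ZMod N, (∀ i, gwL L (ω i) x = 0) ∧ ∀ a : R, x a = v a then h.choose else 0
  have hrep : ∀ x : K, (∀ i, gwL L (ω i) (rep fun a => x.1 a) = 0) ∧
      ∀ a : R, rep (fun a => x.1 a) a = x.1 a := by
    intro x
    have h : ∃ y : α → ZMod N, (∀ i, gwL L (ω i) y = 0) ∧ ∀ a : R, y a = (fun a : R => x.1 a) a :=
      ⟨x.1, x.2, fun _ => rfl⟩
    have h1 : rep (fun a => x.1 a) = h.choose := dif_pos h
    rw [h1]
    exact h.choose_spec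
  let f : K → (R → ZMod N) × K' := fun x => (fun a => x.1 a,
    ⟨fun a => x.1 a - rep (fun a => x.1 a) a, fun i => by
      have h1 := gwL_split L R (ω i) (fun a => x.1 a - rep (fun a => x.1 a) a)
        (fun a ha => sub_eq_zero.2 ((hrep x).2 ⟨a, ha⟩).symm)
      have h2 : gwL L (ω i) (fun a => x.1 a - rep (fun a => x.1 a) a) = 0 := by
        rw [gwL_sub L (ω i) x.1 (rep fun a => x.1 a), (hrep x).1 i, sub_zero]
        exact x.2 i
      exact h1.trans h2⟩)
  have hf : Function.Injective f := by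
    intro x y hxy
    have h1 : (fun a : R => x.1 a) = fun a : R => y.1 a := congrArg Prod.fst hxy
    have h2 := congrArg (fun z => z.2.1) hxy
    apply Subtype.ext
    funext a
    by_cases ha : a ∈ R
    · exact congrFun h1 ⟨a, ha⟩
    · have h3 := congrFun h2 ⟨a, ha⟩
      have h4 : x.1 a - rep (fun a => x.1 a) a = y.1 a - rep (fun a => y.1 a) a := h3
      rw [show (fun a : R => x.1 a) = fun a : R => y.1 a from h1] at h4
      exact sub_left_injective h4
  have h1 := Nat.card_le_card_of_injective f hf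
  have h2 : Nat.card ((R → ZMod N) × K') = N ^ R.card * Nat.card K' := by
    rw [Nat.card_prod, Nat.card_eq_fintype_card (α := R → ZMod N), Fintype.card_fun, ZMod.card,
      Fintype.card_coe]
  rw [h2] at h1
  exact h1

theorem exists_cols (L : ℕ) {M : ℕ} (ω : β → α → Fin M) :
    ∃ R : Finset α, R.card = corQ L ω ∧ FullQ L (restr R ω) := by
  classical
  obtain ⟨κ, a, ha, hspan, hli⟩ := exists_linearIndependent' ℚ (matQ L ω).col
  have hfin : Finite κ := Finite.of_injective a ha
  have := Fintype.ofFinite κ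
  have hcard : Fintype.card κ = (matQ L ω).rank := by
    rw [Matrix.rank_eq_finrank_span_cols, ← hspan, finrank_span_eq_card hli]
  refine ⟨(univ.image a)ᶜ, ?_, ?_⟩
  · rw [Finset.card_compl, Finset.card_image_of_injective _ ha, Finset.card_univ, hcard]
    rfl
  · unfold FullQ
    have h1 : ∀ x : {x // x ∉ (univ.image a)ᶜ}, ∃ k, a k = x := by
      intro x
      have := x.2
      rw [Finset.mem_compl, not_not, Finset.mem_image] at this
      obtain ⟨k, _, hk⟩ := this
      exact ⟨k, hk⟩
    choose b hb using h1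
    have hbi : Function.Injective b := by
      intro x y hxy
      apply Subtype.ext
      rw [← hb x, ← hb y, hxy]
    have h2 := hli.comp b hbi
    have h3 : (matQ L (restr (univ.image a)ᶜ ω)).col = ((matQ L ω).col ∘ a) ∘ b := by
      funext x i
      show ((stL L (ω i x) : ℤ) : ℚ) = ((stL L (ω i (a (b x))) : ℤ) : ℚ)
      rw [hb x]
    rw [h3]
    exact h2

/-- the fibers of the restriction -/
theorem card_fiber {M : ℕ} (R : Finset α) (F : (β → {a // a ∉ R} → Fin M) → ℝ) :
    ∑ ω : β → α → Fin M, F (restr R ω) =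
      (M : ℝ) ^ (Fintype.card β * R.card) * ∑ ω' : β → {a // a ∉ R} → Fin M, F ω' := by
  classical
  let e : (β → α → Fin M) ≃ (β → {a // a ∈ R} → Fin M) × (β → {a // a ∉ R} → Fin M) :=
    (Equiv.piCongrRight fun _ : β => Equiv.piEquivPiSubtypeProd (fun a => a ∈ R)
      (fun _ => Fin M)).trans (Equiv.arrowProdEquivProdArrow β _ _)
  rw [← e.symm.sum_comp, Fintype.sum_prod_type]
  have h1 : ∀ (x : β → {a // a ∈ R} → Fin M) (y : β → {a // a ∉ R} → Fin M),
      F (restr R (e.symm (x, y))) = F y := by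
    intro x y
    have h2 : restr R (e.symm (x, y)) = (e (e.symm (x, y))).2 := rfl
    rw [h2, e.apply_symm_apply]
  rw [Finset.sum_congr rfl fun x _ => Finset.sum_congr rfl fun y _ => h1 x y, Finset.sum_const,
    nsmul_eq_mul]
  congr 1
  rw [Finset.card_univ, Fintype.card_fun, Fintype.card_fun, Fintype.card_fin, Fintype.card_coe]
  push_cast
  rw [← pow_mul, mul_comm]

open Classical in
/-- **(P5)(B), deterministic part**: the seeds of corank `r`. -/
theorem sum_pow (N L s r : ℕ) [NeZero N] {M : ℕ}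
    (S : (β → α → Fin M) → Prop) (S' : (R : Finset α) → (β → {a // a ∉ R} → Fin M) → Prop)
    (hS : ∀ ω R, ¬ S ω → ¬ S' R (restr R ω)) (T : ℝ)
    (hT : ∀ R : Finset α, R.card = r →
      ∑ ω' ∈ (univ : Finset (β → {a // a ∉ R} → Fin M)).filter (fun ω' => FullQ L ω' ∧ ¬ S' R ω'),
        (kerN N L ω' : ℝ) ^ s ≤ T * (M : ℝ) ^ (Fintype.card β * (Fintype.card α - r))) :
    ∑ ω ∈ (univ : Finset (β → α → Fin M)).filter (fun ω => corQ L ω = r ∧ ¬ S ω),
      (kerN N L ω : ℝ) ^ s ≤
        (Fintype.card α).choose r * (N : ℝ) ^ (s * r) * T *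
          (M : ℝ) ^ (Fintype.card β * Fintype.card α) := by
  have hterm : ∀ ω ∈ (univ : Finset (β → α → Fin M)).filter (fun ω => corQ L ω = r ∧ ¬ S ω),
      (kerN N L ω : ℝ) ^ s ≤ ∑ R ∈ (univ : Finset α).powersetCard r,
        (N : ℝ) ^ (s * r) * (if FullQ L (restr R ω) ∧ ¬ S' R (restr R ω) then
          (kerN N L (restr R ω) : ℝ) ^ s else 0) := by
    intro ω hω
    obtain ⟨-, hr, hSω⟩ := Finset.mem_filter.1 hω
    obtain ⟨R, hR, hfull⟩ := exists_cols L ω
    rw [hr] at hR
    have h1 := kerN_restr N L R ω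
    rw [hR] at h1
    have h2 : (kerN N L ω : ℝ) ^ s ≤ (N : ℝ) ^ (s * r) * (kerN N L (restr R ω) : ℝ) ^ s := by
      have h3 : (kerN N L ω : ℝ) ≤ (N : ℝ) ^ r * (kerN N L (restr R ω) : ℝ) := by exact_mod_cast h1
      calc (kerN N L ω : ℝ) ^ s ≤ ((N : ℝ) ^ r * (kerN N L (restr R ω) : ℝ)) ^ s :=
            pow_le_pow_left₀ (Nat.cast_nonneg _) h3 s
        _ = _ := by rw [mul_pow, ← pow_mul, mul_comm r s]
    refine h2.trans ?_
    have h4 := Finset.single_le_sum (f := fun R => (N : ℝ) ^ (s * r) *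
      (if FullQ L (restr R ω) ∧ ¬ S' R (restr R ω) then (kerN N L (restr R ω) : ℝ) ^ s else 0))
      (s := (univ : Finset α).powersetCard r)
      (fun R _ => mul_nonneg (by positivity) (by split_ifs <;> positivity))
      (Finset.mem_powersetCard.2 ⟨Finset.subset_univ R, hR⟩)
    refine le_trans (le_of_eq ?_) h4
    show _ = (N : ℝ) ^ (s * r) *
      (if FullQ L (restr R ω) ∧ ¬ S' R (restr R ω) then (kerN N L (restr R ω) : ℝ) ^ s else 0)
    rw [if_pos ⟨hfull, hS ω R hSω⟩]
  refine (Finset.sum_le_sum hterm).trans ?_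
  have hle : ∑ ω ∈ (univ : Finset (β → α → Fin M)).filter (fun ω => corQ L ω = r ∧ ¬ S ω),
      ∑ R ∈ (univ : Finset α).powersetCard r,
        (N : ℝ) ^ (s * r) * (if FullQ L (restr R ω) ∧ ¬ S' R (restr R ω) then
          (kerN N L (restr R ω) : ℝ) ^ s else 0) ≤
      ∑ ω : β → α → Fin M, ∑ R ∈ (univ : Finset α).powersetCard r,
        (N : ℝ) ^ (s * r) * (if FullQ L (restr R ω) ∧ ¬ S' R (restr R ω) then
          (kerN N L (restr R ω) : ℝ) ^ s else 0) := by
    refine Finset.sum_le_sum_of_subset_of_nonneg (Finset.filter_subset _ _) fun ω _ _ => ?_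
    exact Finset.sum_nonneg fun R _ => mul_nonneg (by positivity) (by split_ifs <;> positivity)
  refine hle.trans ?_
  rw [Finset.sum_comm]
  have hR : ∀ R ∈ (univ : Finset α).powersetCard r, ∑ ω : β → α → Fin M,
      (N : ℝ) ^ (s * r) * (if FullQ L (restr R ω) ∧ ¬ S' R (restr R ω) then
          (kerN N L (restr R ω) : ℝ) ^ s else 0) ≤
        (N : ℝ) ^ (s * r) * T * (M : ℝ) ^ (Fintype.card β * Fintype.card α) := by
    intro R hR
    have hRc := (Finset.mem_powersetCard.1 hR).2
    rw [← Finset.mul_sum, card_fiber R (fun ω' => if FullQ L ω' ∧ ¬ S' R ω' then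
      (kerN N L ω' : ℝ) ^ s else 0), ← Finset.sum_filter, hRc, mul_assoc]
    refine mul_le_mul_of_nonneg_left ?_ (by positivity)
    have h1 := hT R hRc
    have hra : r ≤ Fintype.card α := by rw [← hRc]; exact Finset.card_le_univ R
    calc _ ≤ (M : ℝ) ^ (Fintype.card β * r) *
          (T * (M : ℝ) ^ (Fintype.card β * (Fintype.card α - r))) :=
          mul_le_mul_of_nonneg_left h1 (by positivity)
      _ = T * ((M : ℝ) ^ (Fintype.card β * r) *
          (M : ℝ) ^ (Fintype.card β * (Fintype.card α - r))) := by ring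
      _ = T * (M : ℝ) ^ (Fintype.card β * Fintype.card α) := by
          rw [← pow_add, ← mul_add]
          congr 3
          omega
  refine (Finset.sum_le_sum hR).trans ?_
  rw [Finset.sum_const, Finset.card_powersetCard, Finset.card_univ, nsmul_eq_mul]
  exact le_of_eq (by ring)

end Det

end Vale.Agent.P160.Half.XiB81
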