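import Vale.Agent.P160.Half.SparseDel

set_option linter.unusedSectionVars false

/-! # P160/Half: recursion (C) of 11331 (adding rows one by one; abstract recursion)

`F m` = sum of the weights `W` over the `m × k` matrices.  (C1) `F (m+1) ≤ (1 + t N² al^(k-m)) |Om|^k F m`,
hence `F m ≤ e |Om|^(k m)` as long as `t N² 2^(m-k) ≤ 1`.  (C2) the abstract recursion
`F m ≤ A + θ F (m-1)`. -/

namespace Vale.Agent.P160.Half.XiC715

open Finset Module Vale.Agent.P160.Half.SparseDel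

variable {Om : Type*} [Fintype Om]

/-- row space modulo `p` -/
def RS (e : Om → ℤ) (p : ℕ) {a k : ℕ} (M : Fin a → Fin k → Om) : Submodule (ZMod p) (Fin k → ZMod p) :=
  Submodule.span (ZMod p) (Set.range fun r : Fin a => fun j => ((e (M r j) : ℤ) : ZMod p))

lemma finrank_RS (e : Om → ℤ) {p : ℕ} [Fact p.Prime] {a k : ℕ} (M : Fin a → Fin k → Om) :
    finrank (ZMod p) (RS e p M) = (Matrix.of fun i j => ((e (M i j) : ℤ) : ZMod p)).rank := by
  rw [Matrix.rank_eq_finrank_span_row]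
  rfl

lemma finrank_RS_le (e : Om → ℤ) {p : ℕ} [Fact p.Prime] {a k : ℕ} (M : Fin a → Fin k → Om) :
    finrank (ZMod p) (RS e p M) ≤ a := by
  rw [finrank_RS]
  exact Matrix.rank_le_height _

lemma cor_insert (e : Om → ℤ) {p : ℕ} (hp : p.Prime) {a k : ℕ} (i : Fin (a + 1))
    (M' : Fin a → Fin k → Om) (x : Fin k → Om)
    (hx : (fun j => ((e (x j) : ℤ) : ZMod p)) ∉ RS e p M') :
    cor e p (Fin.insertNth i x M' : Fin (a + 1) → Fin k → Om) ≤ cor e p M' := by
  have : Fact p.Prime := ⟨hp⟩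
  have h1 : finrank (ZMod p) (RS e p M') + 1 ≤
      finrank (ZMod p) (RS e p (Fin.insertNth i x M' : Fin (a + 1) → Fin k → Om)) := by
    have hlt : RS e p M' < RS e p (Fin.insertNth i x M' : Fin (a + 1) → Fin k → Om) := by
      refine lt_of_le_of_ne ?_ ?_
      · apply Submodule.span_le.2
        rintro _ ⟨r, rfl⟩
        apply Submodule.subset_span
        refine ⟨i.succAbove r, ?_⟩
        simp only [Fin.insertNth_apply_succAbove]
      · intro h
        apply hx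
        rw [h]
        apply Submodule.subset_span
        refine ⟨i, ?_⟩
        simp only [Fin.insertNth_apply_same]
    exact Submodule.finrank_lt_finrank_of_lt hlt
  rw [finrank_RS, finrank_RS] at h1
  unfold cor
  omega

open scoped Classical in
lemma W_insert_le (e : Om → ℤ) {PP : Finset ℕ} (hPP : ∀ p ∈ PP, p.Prime) {a k : ℕ}
    (i : Fin (a + 1)) (M' : Fin a → Fin k → Om) (x : Fin k → Om) :
    W e PP (Fin.insertNth i x M' : Fin (a + 1) → Fin k → Om) ≤ W e PP M' *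
      (1 + ∑ p ∈ PP, (if (fun j => ((e (x j) : ℤ) : ZMod p)) ∈ RS e p M' then
        (∏ p ∈ PP, (p : ℝ)) ^ 2 else 0)) := by
  have hW := W_nonneg e PP M'
  have hN : (0 : ℝ) ≤ (∏ p ∈ PP, (p : ℝ)) ^ 2 := by positivity
  have hs : 0 ≤ ∑ p ∈ PP, (if (fun j => ((e (x j) : ℤ) : ZMod p)) ∈ RS e p M' then
        (∏ p ∈ PP, (p : ℝ)) ^ 2 else 0) := Finset.sum_nonneg fun p _ => by split_ifs <;> positivity
  by_cases h : ∃ p ∈ PP, (fun j => ((e (x j) : ℤ) : ZMod p)) ∈ RS e p M'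
  · obtain ⟨p, hp, hpx⟩ := h
    have h1 := W_le e hPP (Fin.insertNth i x M' : Fin (a + 1) → Fin k → Om) i
    have h2 : (fun r => (Fin.insertNth i x M' : Fin (a + 1) → Fin k → Om) (i.succAbove r)) = M' := by
      funext r
      exact Fin.insertNth_apply_succAbove (α := fun _ => Fin k → Om) i x M' r
    rw [h2] at h1
    refine h1.trans ?_
    rw [mul_comm]
    apply mul_le_mul_of_nonneg_left _ hW
    have h3 : (∏ p ∈ PP, (p : ℝ)) ^ 2 ≤ ∑ p ∈ PP,
        (if (fun j => ((e (x j) : ℤ) : ZMod p)) ∈ RS e p M' then (∏ p ∈ PP, (p : ℝ)) ^ 2 else 0) := by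
      refine le_trans (le_of_eq ?_) (Finset.single_le_sum (f := fun p =>
        (if (fun j => ((e (x j) : ℤ) : ZMod p)) ∈ RS e p M' then (∏ p ∈ PP, (p : ℝ)) ^ 2 else 0))
        (fun p _ => by split_ifs <;> positivity) hp)
      simp only [if_pos hpx]
    linarith
  · push Not at h
    have h1 : W e PP (Fin.insertNth i x M' : Fin (a + 1) → Fin k → Om) ≤ W e PP M' := by
      unfold W
      apply Finset.prod_le_prod (fun p _ => by positivity)
      intro p hp
      apply pow_le_pow_right₀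
      · exact_mod_cast (hPP p hp).one_lt.le
      · have := cor_insert e (hPP p hp) i M' x (h p hp)
        omega
    nlinarith

open scoped Classical in
/-- **(C1), one step** -/
theorem step (e : Om → ℤ) {PP : Finset ℕ} (hPP : ∀ p ∈ PP, p.Prime) {al : ℝ} (h0 : 0 ≤ al)
    (h1 : al ≤ 1)
    (hat : ∀ p ∈ PP, ∀ z : ZMod p,
      ((univ.filter fun w : Om => ((e w : ℤ) : ZMod p) = z).card : ℝ) ≤ al * Fintype.card Om)
    (a k : ℕ) :
    ∑ M : Fin (a + 1) → Fin k → Om, W e PP M ≤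
      (1 + PP.card * (∏ p ∈ PP, (p : ℝ)) ^ 2 * al ^ (k - a)) * (Fintype.card Om : ℝ) ^ k *
        ∑ M : Fin a → Fin k → Om, W e PP M := by
  rw [sum_split (0 : Fin (a + 1)), Finset.mul_sum]
  apply Finset.sum_le_sum
  intro M' _
  have hW := W_nonneg e PP M'
  have hN : (0 : ℝ) ≤ (∏ p ∈ PP, (p : ℝ)) ^ 2 := by positivity
  refine (Finset.sum_le_sum fun x _ => W_insert_le e hPP 0 M' x).trans ?_
  rw [← Finset.mul_sum, mul_comm]
  apply mul_le_mul_of_nonneg_right _ hW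
  rw [Finset.sum_add_distrib, Finset.sum_comm]
  have hc : ∑ _x : Fin k → Om, (1 : ℝ) = (Fintype.card Om : ℝ) ^ k := by simp
  rw [hc]
  have hb : ∀ p ∈ PP, ∑ x : Fin k → Om, (if (fun j => ((e (x j) : ℤ) : ZMod p)) ∈ RS e p M' then
      (∏ p ∈ PP, (p : ℝ)) ^ 2 else 0) ≤
      (∏ p ∈ PP, (p : ℝ)) ^ 2 * (al ^ (k - a) * (Fintype.card Om : ℝ) ^ k) := by
    intro p hp
    have : Fact p.Prime := ⟨hPP p hp⟩
    rw [← Finset.sum_filter, sum_const, nsmul_eq_mul, mul_comm]
    apply mul_le_mul_of_nonneg_left _ hN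
    have h2 := odl (fun w : Om => ((e w : ℤ) : ZMod p)) h0 h1 (fun z => by
      refine le_trans (le_of_eq ?_) (hat p hp z)
      congr!) k (RS e p M') 0
    simp only [sub_zero] at h2
    refine le_trans (le_of_eq ?_) (h2.trans ?_)
    · congr!
    · apply mul_le_mul_of_nonneg_right _ (by positivity)
      apply pow_le_pow_of_le_one h0 h1
      have := finrank_RS_le e (p := p) M'
      omega
  refine (add_le_add_right (Finset.sum_le_sum hb) _).trans (le_of_eq ?_)
  rw [sum_const, nsmul_eq_mul]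
  ring

/-- **(C1), product form** -/
theorem prod_form (e : Om → ℤ) {PP : Finset ℕ} (hPP : ∀ p ∈ PP, p.Prime) {al : ℝ} (h0 : 0 ≤ al)
    (h1 : al ≤ 1)
    (hat : ∀ p ∈ PP, ∀ z : ZMod p,
      (Nat.card {w : Om // ((e w : ℤ) : ZMod p) = z} : ℝ) ≤ al * Fintype.card Om)
    (m k : ℕ) :
    ∑ M : Fin m → Fin k → Om, W e PP M ≤
      (∏ a ∈ range m, (1 + PP.card * (∏ p ∈ PP, (p : ℝ)) ^ 2 * al ^ (k - a))) *
        (Fintype.card Om : ℝ) ^ (k * m) := by
  classical
  have hat' : ∀ p ∈ PP, ∀ z : ZMod p,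
      ((univ.filter fun w : Om => ((e w : ℤ) : ZMod p) = z).card : ℝ) ≤ al * Fintype.card Om := by
    intro p hp z
    refine le_trans (le_of_eq ?_) (hat p hp z)
    rw [Nat.card_eq_fintype_card, Fintype.card_subtype]
  have hN : (0 : ℝ) ≤ (∏ p ∈ PP, (p : ℝ)) ^ 2 := by positivity
  induction m with
  | zero =>
    simp only [range_zero, prod_empty, mul_zero, pow_zero, mul_one]
    rw [Fintype.sum_unique]
    unfold W cor
    simp
  | succ m ih =>
    refine (step e hPP h0 h1 hat' m k).trans ?_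
    have hpos : 0 ≤ (1 + PP.card * (∏ p ∈ PP, (p : ℝ)) ^ 2 * al ^ (k - m)) *
        (Fintype.card Om : ℝ) ^ k := by positivity
    refine (mul_le_mul_of_nonneg_left ih hpos).trans (le_of_eq ?_)
    rw [prod_range_succ, Nat.mul_succ, pow_add]
    ring

/-- **(C1)**: `F m ≤ e |Om|^(k m)` as long as `t N² 2^m ≤ 2^k`. -/
theorem start (e : Om → ℤ) {PP : Finset ℕ} (hPP : ∀ p ∈ PP, p.Prime)
    (hat : ∀ p ∈ PP, ∀ z : ZMod p,
      (Nat.card {w : Om // ((e w : ℤ) : ZMod p) = z} : ℝ) ≤ 1 / 2 * Fintype.card Om)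
    {m k : ℕ} (hmk : m ≤ k) (hN : PP.card * (∏ p ∈ PP, (p : ℝ)) ^ 2 * 2 ^ m ≤ 2 ^ k) :
    ∑ M : Fin m → Fin k → Om, W e PP M ≤ Real.exp 1 * (Fintype.card Om : ℝ) ^ (k * m) := by
  refine (prod_form e hPP (by norm_num) (by norm_num) hat m k).trans ?_
  apply mul_le_mul_of_nonneg_right _ (by positivity)
  set c : ℝ := PP.card * (∏ p ∈ PP, (p : ℝ)) ^ 2 with hc
  have hc0 : 0 ≤ c := by positivity
  have h1 : (∏ a ∈ range m, (1 + c * (1 / 2 : ℝ) ^ (k - a))) ≤
      Real.exp (∑ a ∈ range m, c * (1 / 2 : ℝ) ^ (k - a)) := by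
    rw [Real.exp_sum]
    apply Finset.prod_le_prod (fun a _ => by positivity)
    intro a _
    rw [add_comm]
    exact Real.add_one_le_exp _
  refine h1.trans (Real.exp_le_exp.2 ?_)
  rw [← Finset.mul_sum]
  have h2 : ∑ a ∈ range m, (1 / 2 : ℝ) ^ (k - a) ≤ 2 ^ m / 2 ^ k := by
    have h3 : ∀ a ∈ range m, (1 / 2 : ℝ) ^ (k - a) = 2 ^ a / 2 ^ k := by
      intro a ha
      have ha' : a ≤ k := (mem_range.1 ha).le.trans hmk
      rw [one_div, inv_pow, eq_div_iff (by positivity), inv_mul_eq_div, div_eq_iff (by positivity),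
        ← pow_add]
      congr 1
      omega
    rw [Finset.sum_congr rfl h3, ← Finset.sum_div]
    apply div_le_div_of_nonneg_right _ (by positivity)
    have h4 : ∑ a ∈ range m, (2 : ℝ) ^ a = 2 ^ m - 1 := by
      rw [geom_sum_eq (by norm_num)]
      norm_num
    linarith
  calc c * ∑ a ∈ range m, (1 / 2 : ℝ) ^ (k - a) ≤ c * (2 ^ m / 2 ^ k) :=
        mul_le_mul_of_nonneg_left h2 hc0
    _ = (c * 2 ^ m) / 2 ^ k := by ring
    _ ≤ 1 := by
        rw [div_le_one (by positivity)]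
        exact hN

/-- **(C2)**: the abstract recursion -/
theorem recursion {F : ℕ → ℝ} {A θ : ℝ} (hA : 0 ≤ A) (hθ : 0 ≤ θ) (hθ1 : θ < 1) {m₀ k : ℕ}
    (h : ∀ m, m₀ ≤ m → m < k → F (m + 1) ≤ A + θ * F m) :
    ∀ m, m₀ ≤ m → m ≤ k → F m ≤ A / (1 - θ) + θ ^ (m - m₀) * F m₀ := by
  have h1 : (0 : ℝ) < 1 - θ := by linarith
  intro m hm
  induction m, hm using Nat.le_induction with
  | base =>
    intro _
    simp only [Nat.sub_self, pow_zero, one_mul]
    have : 0 ≤ A / (1 - θ) := by positivity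
    linarith
  | succ m hm ih =>
    intro hmk
    refine (h m hm (by omega)).trans ?_
    have h2 := mul_le_mul_of_nonneg_left (ih (by omega)) hθ
    have h3 : m + 1 - m₀ = (m - m₀) + 1 := by omega
    rw [h3, pow_succ]
    have h4 : A + θ * (A / (1 - θ)) = A / (1 - θ) := by
      field_simp
      ring
    nlinarith

/-- (C2) for a family with a common factor `B ^ m` (for instance `B = |Om| ^ k`) -/
theorem recursion_scaled {F : ℕ → ℝ} {A θ B : ℝ} (hA : 0 ≤ A) (hθ : 0 ≤ θ) (hθ1 : θ < 1) (hB : 0 < B)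
    {m₀ k : ℕ} (h : ∀ m, m₀ ≤ m → m < k → F (m + 1) ≤ A * B ^ (m + 1) + θ * B * F m) :
    ∀ m, m₀ ≤ m → m ≤ k → F m ≤ (A / (1 - θ)) * B ^ m + θ ^ (m - m₀) * B ^ (m - m₀) * F m₀ := by
  intro m hm hmk
  have h1 := recursion (F := fun m => F m / B ^ m) hA hθ hθ1 (m₀ := m₀) (k := k) (by
    intro m hm hmk
    have h2 := h m hm hmk
    have hp : 0 < B ^ (m + 1) := by positivity
    show F (m + 1) / B ^ (m + 1) ≤ A + θ * (F m / B ^ m)
    rw [div_le_iff₀ hp]
    refine h2.trans (le_of_eq ?_)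
    have : B ^ m ≠ 0 := by positivity
    field_simp
    ring) m hm hmk
  have hp : 0 < B ^ m := by positivity
  have h3 : F m / B ^ m ≤ A / (1 - θ) + θ ^ (m - m₀) * (F m₀ / B ^ m₀) := h1
  rw [div_le_iff₀ hp] at h3
  refine h3.trans (le_of_eq ?_)
  have h4 : B ^ m = B ^ (m - m₀) * B ^ m₀ := by
    rw [← pow_add]
    congr 1
    omega
  have h5 : B ^ m₀ ≠ 0 := by positivity
  rw [add_mul]
  congr 1
  rw [h4]
  field_simp

end Vale.Agent.P160.Half.XiC715
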